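import Mathlib
import Crest.Agent.R086.A2Cert

/-!
Row 86, part A, node A2 (helper507): the nondegenerate zero `(om, rho)` of the obstacle profile.
-/
set_option autoImplicit false
open Complex Filter Topology Metric Set
open scoped ComplexConjugate NNReal

namespace Crest.Agent.R086.A2

open Crest.Agent.R086.Chain Crest.Agent.R086.LemP

/-- approximate values -/
noncomputable def om0 : ℝ := 33477606871 / 10 ^ 11
noncomputable def rho0 : ℝ := 27050681929 / 10 ^ 10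
/-- approximate partial derivatives -/
noncomputable def D1 : ℂ := ⟨364368 / 10 ^ 5, -528266 / 10 ^ 5⟩
noncomputable def D2 : ℂ := ⟨33478 / 10 ^ 5, -5⟩

theorem D2_eq : D2 = ((33478 / 10 ^ 5 : ℝ) : ℂ) - 5 * I := by
  apply Complex.ext
  · rw [Complex.sub_re, Complex.ofReal_re]; simp [D2]
  · rw [Complex.sub_im, Complex.ofReal_im]; simp [D2]

/-- the matching function -/
noncomputable def F (x y : ℝ) : ℂ := G (1 - I * x) 6 y - I * y

/-- the box -/
def Box (x y : ℝ) : Prop := |x - om0| ≤ 9 / 10 ^ 8 ∧ |y - rho0| ≤ 9 / 10 ^ 8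

theorem Pb0 : ((P0.b : ℚ) : ℂ) = 6 := by norm_num [P0]
theorem Pb1 : ((P1.b : ℚ) : ℂ) = 6 := by norm_num [P1]

theorem Pa0 : P0.a0.toC = 1 - I * (om0 : ℝ) := by
  apply Complex.ext
  · simp [P0]
  · simp [P0]; norm_num [om0]

theorem Pa1 : P1.a0.toC = 1 - I * (om0 : ℝ) := by
  apply Complex.ext
  · simp [P1]
  · simp [P1]; norm_num [om0]

theorem Pr0 : ((P0.r0 : ℚ) : ℝ) = rho0 := by norm_num [P0, rho0]
theorem Pr1 : ((P1.r0 : ℚ) : ℝ) = rho0 := by norm_num [P1, rho0]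

/-- value at the centre -/
theorem F_center : ‖F om0 rho0‖ ≤ 7 / 10 ^ 8 := by
  have h := enc0 (1 - I * (om0 : ℝ)) (by rw [Pa0]; simp [P0]) rho0 (by norm_num [rho0])
    (by rw [Pr0]; simp [P0])
  rw [Pb0] at h
  simp only [Nat.cast_zero, add_zero] at h
  have h2 := h.2
  have e : F om0 rho0 = (G (1 - I * (om0 : ℝ)) 6 rho0 - (last s0.new c0).c.toC)
      + ((last s0.new c0).c.toC - I * rho0) := by unfold F; ring
  have h3 : ‖(last s0.new c0).c.toC - I * rho0‖ ≤ 3 / 10 ^ 8 := by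
    apply le_of_sq_le_sq _ (by norm_num)
    rw [← Complex.normSq_eq_norm_sq, normSq_apply]
    simp only [Complex.sub_re, Complex.sub_im, Complex.mul_re, Complex.mul_im, Complex.I_re,
      Complex.I_im, Complex.ofReal_re, Complex.ofReal_im, CQ.toC_re, CQ.toC_im, last, c0, s0, rho0]
    norm_num
  have h4 : (((last s0.new c0).r : ℚ) : ℝ) ≤ 4 / 10 ^ 8 := by
    simp only [last, c0, s0]
    norm_num
  rw [e]
  refine (norm_add_le _ _).trans ?_
  linarith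

/-- everything on the box -/
theorem box {x y : ℝ} (h : Box x y) :
    JInt.J (1 - I * x) (6 - (1 - I * x) - 1) y ≠ 0 ∧ ‖F x y‖ ≤ 4 / 10 ^ 6 ∧
    ∃ d : ℂ, HasDerivAt (fun a : ℂ => G a 6 y) d (1 - I * x) ∧ ‖-I * d - D1‖ ≤ 3 / 10 ^ 5 := by
  obtain ⟨hx, hy⟩ := h
  have hy0 : 0 < y := by
    have := (abs_le.mp hy).1
    have : (2:ℝ) < rho0 := by norm_num [rho0]
    linarith
  have ha : ‖(1 - I * (x : ℂ)) - P1.a0.toC‖ ≤ 9 / 10 ^ 8 := by
    have e : (1 - I * (x : ℂ)) - P1.a0.toC = -(I * ((x - om0 : ℝ) : ℂ)) := by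
      rw [Pa1]; push_cast; ring
    rw [e, norm_neg, norm_mul, Complex.norm_I, one_mul, Complex.norm_real]
    exact hx
  have ha' : ‖(1 - I * (x : ℂ)) - P1.a0.toC‖ < ((P1.ha : ℚ) : ℝ) := by
    refine lt_of_le_of_lt ha ?_
    norm_num [P1]
  have hr : |y - ((P1.r0 : ℚ) : ℝ)| ≤ ((P1.hr : ℚ) : ℝ) := by
    rw [Pr1]
    refine hy.trans ?_
    norm_num [P1]
  have hV := enc1.1 (1 - I * (x : ℂ)) ha'.le y hy0 hr
  have hD := enc1.2 (1 - I * (x : ℂ)) ha' y hy0 hr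
  rw [Pb1] at hV hD
  simp only [Nat.cast_zero, add_zero] at hV hD
  refine ⟨hV.1, ?_, ?_⟩
  · have h2 := hV.2
    have e : F x y = (G (1 - I * (x : ℝ)) 6 y - (last s1.new c1).c.toC)
        + (((last s1.new c1).c.toC - I * rho0) - I * ((y - rho0 : ℝ) : ℂ)) := by
      unfold F; push_cast; ring
    have h3 : ‖(last s1.new c1).c.toC - I * rho0‖ ≤ 3 / 10 ^ 8 := by
      apply le_of_sq_le_sq _ (by norm_num)
      rw [← Complex.normSq_eq_norm_sq, normSq_apply]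
      simp only [Complex.sub_re, Complex.sub_im, Complex.mul_re, Complex.mul_im, Complex.I_re,
        Complex.I_im, Complex.ofReal_re, Complex.ofReal_im, CQ.toC_re, CQ.toC_im, last, c1, s1, rho0]
      norm_num
    have h4 : (((last s1.new c1).r : ℚ) : ℝ) ≤ 33 / 10 ^ 7 := by
      simp only [last, c1, s1]
      norm_num
    have h5 : ‖I * ((y - rho0 : ℝ) : ℂ)‖ ≤ 9 / 10 ^ 8 := by
      rw [norm_mul, Complex.norm_I, one_mul, Complex.norm_real]; exact hy
    rw [e]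
    refine (norm_add_le _ _).trans ?_
    have := norm_sub_le ((last s1.new c1).c.toC - I * rho0) (I * ((y - rho0 : ℝ) : ℂ))
    linarith
  · obtain ⟨d, hd, hds⟩ := hD
    refine ⟨d, hd, ?_⟩
    have e : -I * d - D1 = -I * (d - (last s1.new c1).d.toC) + (-I * (last s1.new c1).d.toC - D1) := by
      ring
    have h3 : ‖-I * (last s1.new c1).d.toC - D1‖ ≤ 5 / 10 ^ 6 := by
      apply le_of_sq_le_sq _ (by norm_num)
      rw [← Complex.normSq_eq_norm_sq, normSq_apply]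
      simp only [Complex.sub_re, Complex.sub_im, Complex.mul_re, Complex.mul_im, Complex.I_re,
        Complex.I_im, Complex.neg_re, Complex.neg_im, CQ.toC_re, CQ.toC_im, last, c1, s1, D1]
      norm_num
    have h4 : (((last s1.new c1).s : ℚ) : ℝ) ≤ 21 / 10 ^ 6 := by
      simp only [last, c1, s1]
      norm_num
    rw [e]
    refine (norm_add_le _ _).trans ?_
    rw [norm_mul, norm_neg, Complex.norm_I, one_mul]
    linarith

theorem F_deriv_x {x y : ℝ} (h : Box x y) :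
    ∃ D : ℂ, HasDerivAt (fun t : ℝ => F t y) D x ∧ ‖D - D1‖ ≤ 3 / 10 ^ 5 := by
  obtain ⟨-, -, d, hd, hds⟩ := box h
  refine ⟨-I * d, ?_, hds⟩
  have h1 : HasDerivAt (fun t : ℝ => (1 : ℂ) - I * (t : ℂ)) (-(I * 1)) x :=
    ((Complex.ofRealCLM.hasDerivAt (x := x)).const_mul I).const_sub 1
  have h2 : HasDerivAt (fun t : ℝ => G (1 - I * (t : ℂ)) 6 y) (d * -(I * 1)) x :=
    HasDerivAt.comp (𝕜 := ℝ) (𝕜' := ℂ) x (h₂ := fun a : ℂ => G a 6 y) hd h1
  have h3 := h2.sub_const (I * (y : ℂ))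
  refine HasDerivAt.congr_deriv h3 ?_
  ring

theorem F_deriv_y {x y : ℝ} (h : Box x y) :
    ∃ D : ℂ, HasDerivAt (fun t : ℝ => F x t) D y ∧ ‖D - D2‖ ≤ 3 / 10 ^ 5
      ∧ y * D = F x y ^ 2 + (I * y - 5) * F x y + y * (x - 5 * I) := by
  obtain ⟨hJ, hF, -⟩ := box h
  obtain ⟨hx, hy⟩ := h
  have hy2 : (27 / 10 : ℝ) < y := by
    have := (abs_le.mp hy).1
    have : (27049 / 10000 : ℝ) < rho0 := by norm_num [rho0]
    linarith
  have hy0 : 0 < y := by linarith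
  have hric := G_riccati (1 - I * (x : ℂ)) 6 (ρ := y) (by simp) hy0 hJ
  have hid : HasDerivAt (fun t : ℝ => I * (t : ℂ)) (I * 1) y :=
    (Complex.ofRealCLM.hasDerivAt (x := y)).const_mul I
  have h3 := hric.sub hid
  have hyc : (y : ℂ) ≠ 0 := by exact_mod_cast hy0.ne'
  have hI : I * I = -1 := I_mul_I
  have key : (y : ℂ) * (((G (1 - I * (x : ℂ)) 6 y ^ 2 + (1 - 6 - I * y) * G (1 - I * (x : ℂ)) 6 y
      + I * (1 - I * x) * y) / y) - I * 1) = F x y ^ 2 + (I * y - 5) * F x y + y * (x - 5 * I) := by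
    have hG : G (1 - I * (x : ℂ)) 6 y = F x y + I * y := by unfold F; ring
    rw [hG]
    field_simp
    linear_combination (-(y * x)) * hI
  refine ⟨_, h3, ?_, key⟩
  set D : ℂ := ((G (1 - I * (x : ℂ)) 6 y ^ 2 + (1 - 6 - I * y) * G (1 - I * (x : ℂ)) 6 y
      + I * (1 - I * x) * y) / y) - I * 1 with hD
  have e : D - D2 = (F x y ^ 2 + (I * y - 5) * F x y) / y + (((x : ℝ) : ℂ) - 5 * I - D2) := by
    field_simp
    linear_combination key
  have h4 : ‖((x : ℝ) : ℂ) - 5 * I - D2‖ ≤ 6 / 10 ^ 6 := by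
    have hx1 := abs_le.mp hx
    have e1 : ((x : ℝ) : ℂ) - 5 * I - D2 = ((x - 33478 / 10 ^ 5 : ℝ) : ℂ) := by
      rw [D2_eq]; push_cast; ring
    rw [e1, Complex.norm_real, Real.norm_eq_abs, abs_le]
    have : om0 = 33477606871 / 10 ^ 11 := rfl
    constructor <;> · rw [this] at hx1; norm_num at hx1 ⊢; linarith [hx1.1, hx1.2]
  have hyu : y < 271 / 100 := by
    have := (abs_le.mp hy).2
    have : rho0 < (27051 / 10000 : ℝ) := by norm_num [rho0]
    linarith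
  have h5 : ‖(I * y - 5 : ℂ)‖ ≤ 6 := by
    apply le_of_sq_le_sq _ (by norm_num)
    rw [← Complex.normSq_eq_norm_sq, normSq_apply]
    simp
    nlinarith
  have h6 : ‖(F x y ^ 2 + (I * y - 5) * F x y) / y‖ ≤ 1 / 10 ^ 5 := by
    rw [norm_div, Complex.norm_real, Real.norm_of_nonneg hy0.le, div_le_iff₀ hy0]
    have a1 : ‖F x y ^ 2‖ ≤ (4 / 10 ^ 6) ^ 2 := by
      rw [norm_pow]; exact pow_le_pow_left₀ (norm_nonneg _) hF 2
    have a2 : ‖(I * y - 5) * F x y‖ ≤ 6 * (4 / 10 ^ 6) := by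
      rw [norm_mul]; exact mul_le_mul h5 hF (norm_nonneg _) (by norm_num)
    refine (norm_add_le _ _).trans ?_
    have : (4 / 10 ^ 6 : ℝ) ^ 2 + 6 * (4 / 10 ^ 6) ≤ 1 / 10 ^ 5 * (27 / 10) := by norm_num
    nlinarith
  rw [e]
  refine (norm_add_le _ _).trans ?_
  linarith

/-- linear model -/
noncomputable def L : ℝ × ℝ →L[ℝ] ℂ :=
  (ContinuousLinearMap.fst ℝ ℝ ℝ).smulRight D1 + (ContinuousLinearMap.snd ℝ ℝ ℝ).smulRight D2

theorem L_apply (p : ℝ × ℝ) : L p = (p.1 : ℂ) * D1 + (p.2 : ℂ) * D2 := by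
  simp [L]

noncomputable def Δ : ℝ := D1.re * D2.im - D1.im * D2.re

theorem Δ_lt : Δ < -(16 : ℝ) := by
  norm_num [Δ, D1, D2]

/-- right inverse -/
noncomputable def Lsymm : L.NonlinearRightInverse where
  toFun w := ((w.re * D2.im - w.im * D2.re) / Δ, (w.im * D1.re - w.re * D1.im) / Δ)
  nnnorm := 6 / 10
  bound' := by
    intro w
    have hΔ : Δ < -(16 : ℝ) := Δ_lt
    have h1 := Complex.abs_re_le_norm w
    have h2 := Complex.abs_im_le_norm w
    have hn := norm_nonneg w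
    have hΔabs : (16 : ℝ) ≤ |Δ| := by rw [abs_of_neg (by linarith)]; linarith
    have e1 : |D2.im| ≤ 5 := by norm_num [D2]
    have e2 : |D2.re| ≤ 34 / 100 := by norm_num [D2]
    have e3 : |D1.re| ≤ 365 / 100 := by norm_num [D1]
    have e4 : |D1.im| ≤ 529 / 100 := by norm_num [D1, abs_of_neg]
    have aux : ∀ u v a b : ℝ, |u| ≤ ‖w‖ → |v| ≤ ‖w‖ → |a| + |b| ≤ 9 →
        |(u * a - v * b) / Δ| ≤ 6 / 10 * ‖w‖ := by
      intro u v a b hu hv hab
      rw [abs_div, div_le_iff₀ (by linarith)]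
      have : |u * a - v * b| ≤ ‖w‖ * (|a| + |b|) := by
        calc |u * a - v * b| ≤ |u * a| + |v * b| := abs_sub _ _
          _ = |u| * |a| + |v| * |b| := by rw [abs_mul, abs_mul]
          _ ≤ ‖w‖ * |a| + ‖w‖ * |b| := by gcongr
          _ = _ := by ring
      nlinarith [mul_le_mul_of_nonneg_left hab hn, mul_le_mul_of_nonneg_left hΔabs hn]
    have k1 := aux w.re w.im D2.im D2.re h1 h2 (by linarith)
    have k2 := aux w.im w.re D1.re D1.im h2 h1 (by linarith)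
    rw [Prod.norm_def]
    apply max_le
    · rw [Real.norm_eq_abs]; refine k1.trans (le_of_eq ?_); norm_num
    · rw [Real.norm_eq_abs]; refine k2.trans (le_of_eq ?_); norm_num
  right_inv' := by
    intro w
    have hΔ : Δ ≠ 0 := by have := Δ_lt; intro h; linarith
    rw [L_apply]
    have hd : Δ = D1.re * D2.im - D1.im * D2.re := rfl
    apply Complex.ext
    · simp only [Complex.add_re, Complex.mul_re, Complex.ofReal_re, Complex.ofReal_im, zero_mul, sub_zero]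
      rw [div_mul_eq_mul_div, div_mul_eq_mul_div, ← add_div, div_eq_iff hΔ, hd]
      ring
    · simp only [Complex.add_im, Complex.mul_im, Complex.ofReal_re, Complex.ofReal_im, zero_mul, add_zero]
      rw [div_mul_eq_mul_div, div_mul_eq_mul_div, ← add_div, div_eq_iff hΔ, hd]
      ring

theorem approx : ApproximatesLinearOn (fun p : ℝ × ℝ => F p.1 p.2) L
    (closedBall ((om0, rho0) : ℝ × ℝ) (9 / 10 ^ 8)) (7 / 10 ^ 5) := by
  intro p hp q hq
  have hbox : ∀ x y : ℝ, x ∈ Icc (om0 - 9 / 10 ^ 8) (om0 + 9 / 10 ^ 8) →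
      y ∈ Icc (rho0 - 9 / 10 ^ 8) (rho0 + 9 / 10 ^ 8) → Box x y := by
    intro x y hx hy
    refine ⟨abs_le.mpr ⟨by linarith [hx.1], by linarith [hx.2]⟩,
      abs_le.mpr ⟨by linarith [hy.1], by linarith [hy.2]⟩⟩
  have hmem : ∀ p : ℝ × ℝ, p ∈ closedBall ((om0, rho0) : ℝ × ℝ) (9 / 10 ^ 8) →
      p.1 ∈ Icc (om0 - 9 / 10 ^ 8) (om0 + 9 / 10 ^ 8) ∧
      p.2 ∈ Icc (rho0 - 9 / 10 ^ 8) (rho0 + 9 / 10 ^ 8) := by
    intro p hp
    rw [mem_closedBall, Prod.dist_eq, max_le_iff, Real.dist_eq, Real.dist_eq] at hp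
    have h1 := abs_le.mp hp.1
    have h2 := abs_le.mp hp.2
    simp only at h1 h2
    exact ⟨⟨by linarith [h1.1], by linarith [h1.2]⟩, ⟨by linarith [h2.1], by linarith [h2.2]⟩⟩
  obtain ⟨hp1, hp2⟩ := hmem p hp
  obtain ⟨hq1, hq2⟩ := hmem q hq
  -- x direction
  have hx : ‖(F p.1 p.2 - (p.1 : ℂ) * D1) - (F q.1 p.2 - (q.1 : ℂ) * D1)‖ ≤ 3 / 10 ^ 5 * ‖p.1 - q.1‖ := by
    choose! D hD1 hD2 using fun x (hx : x ∈ Icc (om0 - 9 / 10 ^ 8) (om0 + 9 / 10 ^ 8)) =>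
      F_deriv_x (hbox x p.2 hx hp2)
    refine Convex.norm_image_sub_le_of_norm_hasDerivWithin_le
      (f := fun t : ℝ => F t p.2 - (t : ℂ) * D1) (f' := fun t => D t - D1)
      (s := Icc (om0 - 9 / 10 ^ 8) (om0 + 9 / 10 ^ 8)) ?_ ?_ (convex_Icc _ _) hq1 hp1
    · intro t ht
      have h1 := (hD1 t ht).sub ((Complex.ofRealCLM.hasDerivAt (x := t)).mul_const D1)
      refine (HasDerivAt.congr_deriv h1 ?_).hasDerivWithinAt
      simp
    · intro t ht
      exact hD2 t ht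
  have hy : ‖(F q.1 p.2 - (p.2 : ℂ) * D2) - (F q.1 q.2 - (q.2 : ℂ) * D2)‖ ≤ 3 / 10 ^ 5 * ‖p.2 - q.2‖ := by
    choose! D hD1 hD2 hD3 using fun y (hy : y ∈ Icc (rho0 - 9 / 10 ^ 8) (rho0 + 9 / 10 ^ 8)) =>
      F_deriv_y (hbox q.1 y hq1 hy)
    refine Convex.norm_image_sub_le_of_norm_hasDerivWithin_le
      (f := fun t : ℝ => F q.1 t - (t : ℂ) * D2) (f' := fun t => D t - D2)
      (s := Icc (rho0 - 9 / 10 ^ 8) (rho0 + 9 / 10 ^ 8)) ?_ ?_ (convex_Icc _ _) hq2 hp2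
    · intro t ht
      have h1 := (hD1 t ht).sub ((Complex.ofRealCLM.hasDerivAt (x := t)).mul_const D2)
      refine (HasDerivAt.congr_deriv h1 ?_).hasDerivWithinAt
      simp
    · intro t ht
      exact hD2 t ht
  have e : F p.1 p.2 - F q.1 q.2 - L (p - q)
      = ((F p.1 p.2 - (p.1 : ℂ) * D1) - (F q.1 p.2 - (q.1 : ℂ) * D1))
        + ((F q.1 p.2 - (p.2 : ℂ) * D2) - (F q.1 q.2 - (q.2 : ℂ) * D2)) := by
    rw [L_apply]
    simp only [Prod.fst_sub, Prod.snd_sub]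
    push_cast
    ring
  rw [e]
  refine (norm_add_le _ _).trans ?_
  have n1 : ‖p.1 - q.1‖ ≤ ‖p - q‖ := by rw [Prod.norm_def]; exact le_max_left _ _
  have n2 : ‖p.2 - q.2‖ ≤ ‖p - q‖ := by rw [Prod.norm_def]; exact le_max_right _ _
  have hc : (((7 / 10 ^ 5 : ℝ≥0) : ℝ≥0) : ℝ) = 7 / 10 ^ 5 := by norm_num
  rw [hc]
  have := norm_nonneg (p - q)
  nlinarith

/-- existence of the zero -/
theorem exists_zero : ∃ x y : ℝ, (|x - om0| ≤ 5 / 10 ^ 8 ∧ |y - rho0| ≤ 5 / 10 ^ 8) ∧ F x y = 0 := by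
  have h := approx.surjOn_closedBall_of_nonlinearRightInverse Lsymm (ε := 5 / 10 ^ 8)
    (b := ((om0, rho0) : ℝ × ℝ)) (by norm_num) (closedBall_subset_closedBall (by norm_num))
  have h0 : (0 : ℂ) ∈ closedBall (F (om0, rho0).1 (om0, rho0).2)
      ((((Lsymm.nnnorm : ℝ≥0) : ℝ)⁻¹ - ((7 / 10 ^ 5 : ℝ≥0) : ℝ)) * (5 / 10 ^ 8)) := by
    rw [mem_closedBall, dist_zero_left]
    refine F_center.trans ?_
    have e1 : ((Lsymm.nnnorm : ℝ≥0) : ℝ) = 6 / 10 := by
      change (((6 / 10 : ℝ≥0)) : ℝ) = 6 / 10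
      norm_num
    rw [e1]
    norm_num
  obtain ⟨p, hp, hFp⟩ := h h0
  rw [mem_closedBall, Prod.dist_eq, max_le_iff, Real.dist_eq, Real.dist_eq] at hp
  exact ⟨p.1, p.2, ⟨hp.1, hp.2⟩, hFp⟩

/-- the profile function `Φ(om, rho) = J (1 - i om) (5 + i om) rho` -/
noncomputable def Phi (x y : ℝ) : ℂ := JCx.J (1 - I * x) (5 + I * x) (y : ℂ)

/-- `J (1 - i om) (4 + i om) rho` -/
noncomputable def J0 (x y : ℝ) : ℂ := JCx.J (1 - I * x) (4 + I * x) (y : ℂ)

theorem J0_eq (x y : ℝ) : J0 x y = JInt.J (1 - I * x) (6 - (1 - I * x) - 1) y := by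
  rw [JCx.J_real]; unfold J0; congr 1; ring

theorem Phi_eq {x y : ℝ} (hy : 0 < y) (h : J0 x y ≠ 0) : Phi x y = (I / y) * J0 x y * F x y := by
  have hs := JCx.J_shift (a := 1 - I * x) (c := 4 + I * x) (z := (y : ℂ)) (by simp) (by simpa using hy)
  have hyc : (y : ℂ) ≠ 0 := by exact_mod_cast hy.ne'
  have h5 : (5 : ℂ) + I * x = 4 + I * x + 1 := by ring
  unfold Phi
  rw [h5, hs]
  have hI : I * I = -1 := I_mul_I
  unfold F G
  rw [← J0_eq, show (6 : ℂ) - (1 - I * x) - 1 = 4 + I * x by ring]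
  change _ = I / ↑y * J0 x y * (↑y * JInt.J (1 - I * ↑x + 1) (4 + I * ↑x) y / J0 x y - I * ↑y)
  rw [JCx.J_real]
  change J0 x y + _ = _
  field_simp
  linear_combination (J0 x y) * hI

/-- strict differentiability of `J` on `ℂ³` -/
theorem J_strict {p : ℂ × ℂ × ℂ} (hp : p ∈ JCx.dom) :
    HasStrictFDerivAt (fun p : ℂ × ℂ × ℂ => JCx.J p.1 p.2.1 p.2.2) (JCx.J' p) p := by
  refine hasStrictFDerivAt_of_hasFDerivAt_of_continuousAt ?_ (JCx.J'_continuousAt hp)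
  filter_upwards [JCx.isOpen_dom.mem_nhds hp] with q hq
  exact JCx.J_hasFDerivAt hq

/-- the affine map -/
noncomputable def mm (k : ℂ) (p : ℝ × ℝ) : ℂ × ℂ × ℂ := (1 - I * p.1, k + I * p.1, (p.2 : ℂ))

noncomputable def mm' : ℝ × ℝ →L[ℝ] ℂ × ℂ × ℂ :=
  ((-I) • (Complex.ofRealCLM.comp (ContinuousLinearMap.fst ℝ ℝ ℝ))).prod
    ((I • (Complex.ofRealCLM.comp (ContinuousLinearMap.fst ℝ ℝ ℝ))).prod
      (Complex.ofRealCLM.comp (ContinuousLinearMap.snd ℝ ℝ ℝ)))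

theorem mm_strict (k : ℂ) (p : ℝ × ℝ) : HasStrictFDerivAt (mm k) mm' p := by
  have h := (mm'.hasStrictFDerivAt (x := p)).const_add ((1, k, 0) : ℂ × ℂ × ℂ)
  refine h.congr_of_eventuallyEq ?_
  refine Eventually.of_forall fun q => ?_
  simp [mm, mm']
  ring

theorem JJ_strict (k : ℂ) {x y : ℝ} (hy : 0 < y) :
    HasStrictFDerivAt (fun p : ℝ × ℝ => JCx.J (1 - I * p.1) (k + I * p.1) (p.2 : ℂ))
      (((JCx.J' (mm k (x, y))).restrictScalars ℝ).comp mm') (x, y) := by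
  have hdom : mm k (x, y) ∈ JCx.dom := by
    refine ⟨?_, ?_⟩ <;> simp [mm, hy]
  have h1 := (J_strict hdom).restrictScalars ℝ
  exact HasStrictFDerivAt.comp (x, y) h1 (mm_strict k (x, y))

theorem main : ∃ om rho : ℝ, |om - om0| ≤ 5 / 10 ^ 8 ∧ |rho - rho0| ≤ 5 / 10 ^ 8 ∧
    JCx.J (1 - I * om) (5 + I * om) (rho : ℂ) = 0 ∧ JCx.J (1 - I * om) (4 + I * om) (rho : ℂ) ≠ 0 ∧
    G (1 - I * om) 6 rho = I * rho ∧
    ∃ Λ : (ℝ × ℝ) ≃L[ℝ] ℂ, HasStrictFDerivAt
      (fun p : ℝ × ℝ => JCx.J (1 - I * p.1) (5 + I * p.1) (p.2 : ℂ)) (Λ : ℝ × ℝ →L[ℝ] ℂ) (om, rho) := by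
  obtain ⟨x, y, hB0, hF⟩ := exists_zero
  have hB : Box x y := ⟨hB0.1.trans (by norm_num), hB0.2.trans (by norm_num)⟩
  have hy0 : 0 < y := by
    have := (abs_le.mp hB.2).1
    have : (2:ℝ) < rho0 := by norm_num [rho0]
    linarith
  have hyc : (y : ℂ) ≠ 0 := by exact_mod_cast hy0.ne'
  have hJ := (box hB).1
  rw [← J0_eq] at hJ
  have hΦ : Phi x y = 0 := by rw [Phi_eq hy0 hJ, hF, mul_zero]
  have hG : G (1 - I * x) 6 y = I * y := by
    have := hF
    unfold F at this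
    exact sub_eq_zero.mp this
  refine ⟨x, y, hB0.1, hB0.2, hΦ, hJ, hG, ?_⟩
  set Φ' : ℝ × ℝ →L[ℝ] ℂ := ((JCx.J' (mm 5 (x, y))).restrictScalars ℝ).comp mm' with hΦ'
  have hst : HasStrictFDerivAt (fun p : ℝ × ℝ => JCx.J (1 - I * p.1) (5 + I * p.1) (p.2 : ℂ)) Φ' (x, y) :=
    JJ_strict 5 hy0
  have hst0 : HasStrictFDerivAt (fun p : ℝ × ℝ => JCx.J (1 - I * p.1) (4 + I * p.1) (p.2 : ℂ))
      (((JCx.J' (mm 4 (x, y))).restrictScalars ℝ).comp mm') (x, y) := JJ_strict 4 hy0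
  -- partial derivatives
  have hpx : HasDerivAt (fun t : ℝ => ((t, y) : ℝ × ℝ)) ((1, 0) : ℝ × ℝ) x :=
    (hasDerivAt_id x).prodMk (hasDerivAt_const x y)
  have hpy : HasDerivAt (fun t : ℝ => ((x, t) : ℝ × ℝ)) ((0, 1) : ℝ × ℝ) y :=
    (hasDerivAt_const y x).prodMk (hasDerivAt_id y)
  have hΦx : HasDerivAt (fun t : ℝ => Phi t y) (Φ' (1, 0)) x := by
    have := HasFDerivAt.comp_hasDerivAt x hst.hasFDerivAt hpx
    exact this
  have hΦy : HasDerivAt (fun t : ℝ => Phi x t) (Φ' (0, 1)) y := by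
    have := HasFDerivAt.comp_hasDerivAt y hst.hasFDerivAt hpy
    exact this
  have hJx := HasFDerivAt.comp_hasDerivAt x hst0.hasFDerivAt hpx
  have hJy := HasFDerivAt.comp_hasDerivAt y hst0.hasFDerivAt hpy
  have hJx' : HasDerivAt (fun t : ℝ => J0 t y) _ x := hJx
  have hJy' : HasDerivAt (fun t : ℝ => J0 x t) _ y := hJy
  obtain ⟨D, hD, hD1⟩ := F_deriv_x hB
  obtain ⟨E, hE, hE1, hE2⟩ := F_deriv_y hB
  have hEe : E = x - 5 * I := by
    rw [hF] at hE2
    apply mul_left_cancel₀ hyc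
    rw [hE2]; ring
  have ex : Φ' (1, 0) = (I / y) * J0 x y * D := by
    have h1 := (hJx'.const_mul (I / (y : ℂ))).mul hD
    have h2 : (fun t : ℝ => Phi t y) =ᶠ[𝓝 x] ((fun t : ℝ => I / (y : ℂ) * J0 t y) * fun t : ℝ => F t y) := by
      filter_upwards [hJx'.continuousAt.eventually_ne hJ] with t ht
      rw [Phi_eq hy0 ht]; rfl
    have h3 := hΦx.unique (h1.congr_of_eventuallyEq h2)
    rw [h3, hF]
    ring
  have ey : Φ' (0, 1) = (I / y) * J0 x y * E := by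
    have hinv : HasDerivAt (fun t : ℝ => I / (t : ℂ)) (I * (-1 / (y : ℂ) ^ 2)) y := by
      have h0 := (Complex.ofRealCLM.hasDerivAt (x := y))
      have h1 := (h0.inv hyc).const_mul I
      refine HasDerivAt.congr_deriv h1 ?_
      simp
    have h1 := (hinv.mul hJy').mul hE
    have h2 : (fun t : ℝ => Phi x t) =ᶠ[𝓝 y]
        (((fun t : ℝ => I / (t : ℂ)) * fun t : ℝ => J0 x t) * fun t : ℝ => F x t) := by
      filter_upwards [hJy'.continuousAt.eventually_ne hJ, eventually_gt_nhds hy0] with t ht ht0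
      rw [Phi_eq ht0 ht]; rfl
    have h3 := hΦy.unique (h1.congr_of_eventuallyEq h2)
    rw [h3, hF]
    simp only [Pi.mul_apply]
    ring
  have hinj : Function.Injective Φ' := by
    rw [injective_iff_map_eq_zero]
    intro p hp
    have e1 : Φ' p = (I / y) * J0 x y * ((p.1 : ℂ) * D + (p.2 : ℂ) * E) := by
      have : p = p.1 • ((1, 0) : ℝ × ℝ) + p.2 • ((0, 1) : ℝ × ℝ) := by
        ext <;> simp
      conv_lhs => rw [this]
      rw [map_add, map_smul, map_smul, ex, ey, Complex.real_smul, Complex.real_smul]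
      ring
    rw [e1] at hp
    have hne : (I / y) * J0 x y ≠ 0 := mul_ne_zero (div_ne_zero I_ne_zero hyc) hJ
    have h0 := (mul_eq_zero.mp hp).resolve_left hne
    have hre := congrArg Complex.re h0
    have him := congrArg Complex.im h0
    simp only [Complex.add_re, Complex.add_im, Complex.mul_re, Complex.mul_im, Complex.ofReal_re,
      Complex.ofReal_im, zero_mul, sub_zero, add_zero, Complex.zero_re, Complex.zero_im] at hre him
    have b1 := (abs_le.mp ((Complex.abs_re_le_norm _).trans hD1))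
    have b2 := (abs_le.mp ((Complex.abs_im_le_norm _).trans hD1))
    have b3 := (abs_le.mp ((Complex.abs_re_le_norm _).trans hE1))
    have b4 := (abs_le.mp ((Complex.abs_im_le_norm _).trans hE1))
    simp only [Complex.sub_re, Complex.sub_im, D1, D2] at b1 b2 b3 b4
    norm_num at b1 b2 b3 b4
    have hdet : D.re * E.im - D.im * E.re < 0 := by
      nlinarith
    have hp1 : p.1 * (D.re * E.im - D.im * E.re) = 0 := by
      linear_combination E.im * hre - E.re * him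
    have hp2 : p.2 * (D.re * E.im - D.im * E.re) = 0 := by
      linear_combination D.re * him - D.im * hre
    have q1 := (mul_eq_zero.mp hp1).resolve_right hdet.ne
    have q2 := (mul_eq_zero.mp hp2).resolve_right hdet.ne
    exact Prod.ext q1 q2
  have hfr : Module.finrank ℝ (ℝ × ℝ) = Module.finrank ℝ ℂ := by
    rw [Module.finrank_prod, Module.finrank_self, Complex.finrank_real_complex]
  set Λ := (LinearEquiv.ofInjectiveOfFinrankEq (Φ' : ℝ × ℝ →ₗ[ℝ] ℂ) hinj hfr).toContinuousLinearEquiv with hΛ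
  refine ⟨Λ, ?_⟩
  have : (Λ : ℝ × ℝ →L[ℝ] ℂ) = Φ' := by
    refine ContinuousLinearMap.ext fun p => ?_
    rfl
  rw [this]
  exact hst

end Crest.Agent.R086.A2
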