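import Mathlib

/-!
Row 86, Part A (helper444): the integrals
`J a c rho = ∫₀^∞ e^{-rho s} s^{a-1} (1+i s)^c ds` (Re a > 0, rho > 0), i.e. the Tricomi function
`U(a, b, -i rho) = e^{iπa/2}/Γ(a) · J a (b-a-1) rho`.
Basics: integrability, bounds, derivative in `rho`, integration by parts, shift in `c`,
holomorphy and continuity in the parameters, asymptotics.
-/

set_option autoImplicit false

open MeasureTheory Complex Set Filter Topology

namespace Crest.Agent.R086.JInt

/-- The integrand. -/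
noncomputable def jf (a c : ℂ) (rho s : ℝ) : ℂ :=
  cexp (-((rho : ℂ) * s)) * (s : ℂ) ^ (a - 1) * (1 + I * s) ^ c

/-- `J a c rho = ∫₀^∞ e^{-rho s} s^{a-1} (1+i s)^c ds`. -/
noncomputable def J (a c : ℂ) (rho : ℝ) : ℂ := ∫ s in Ioi (0 : ℝ), jf a c rho s

theorem one_add_ne (s : ℝ) : (1 : ℂ) + I * s ≠ 0 := by
  intro h
  have := congrArg Complex.re h
  simp at this

theorem one_add_slit (s : ℝ) : (1 : ℂ) + I * s ∈ slitPlane := by
  left; simp

theorem norm_one_add_ge (s : ℝ) : 1 ≤ ‖(1 : ℂ) + I * s‖ := by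
  have := Complex.abs_re_le_norm ((1 : ℂ) + I * s)
  simpa using this

theorem norm_one_add_le {s : ℝ} (hs : 0 ≤ s) : ‖(1 : ℂ) + I * s‖ ≤ 1 + s := by
  calc ‖(1 : ℂ) + I * s‖ ≤ ‖(1 : ℂ)‖ + ‖I * s‖ := norm_add_le _ _
    _ = 1 + s := by simp [abs_of_nonneg hs]

/-- `|(1+is)^c| ≤ (1+s)^M e^{π|Im c|}` for `|Re c| ≤ M`. -/
theorem norm_one_add_cpow_le {s : ℝ} (hs : 0 ≤ s) (c : ℂ) (M : ℕ) (hM : c.re ≤ M) :
    ‖((1 : ℂ) + I * s) ^ c‖ ≤ (1 + s) ^ M * Real.exp (Real.pi * |c.im|) := by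
  rw [Complex.norm_cpow_of_ne_zero (one_add_ne s), div_eq_mul_inv, ← Real.exp_neg]
  have h1 : ‖(1 : ℂ) + I * s‖ ^ c.re ≤ (1 + s) ^ M := by
    calc ‖(1 : ℂ) + I * s‖ ^ c.re ≤ ‖(1 : ℂ) + I * s‖ ^ (M : ℝ) :=
          Real.rpow_le_rpow_of_exponent_le (norm_one_add_ge s) hM
      _ = ‖(1 : ℂ) + I * s‖ ^ M := Real.rpow_natCast _ _
      _ ≤ (1 + s) ^ M := pow_le_pow_left₀ (norm_nonneg _) (norm_one_add_le hs) _
  have h2 : Real.exp (-(arg ((1 : ℂ) + I * s) * c.im)) ≤ Real.exp (Real.pi * |c.im|) := by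
    apply Real.exp_le_exp.mpr
    calc -(arg ((1 : ℂ) + I * s) * c.im) ≤ |arg ((1 : ℂ) + I * s) * c.im| := neg_le_abs _
      _ = |arg ((1 : ℂ) + I * s)| * |c.im| := abs_mul _ _
      _ ≤ Real.pi * |c.im| := by
          gcongr
          exact Complex.abs_arg_le_pi _
  calc _ ≤ (1 + s) ^ M * Real.exp (-(arg ((1 : ℂ) + I * s) * c.im)) := by gcongr
    _ ≤ _ := by gcongr

theorem norm_jf {s : ℝ} (hs : 0 < s) (a c : ℂ) (rho : ℝ) :
    ‖jf a c rho s‖ = Real.exp (-(rho * s)) * s ^ (a.re - 1) * ‖((1 : ℂ) + I * s) ^ c‖ := by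
  unfold jf
  rw [norm_mul, norm_mul, Complex.norm_cpow_eq_rpow_re_of_pos hs, Complex.norm_exp]
  simp

/-- real majorant `e^{-rho s} s^{x-1} (1+s)^M`. -/
noncomputable def maj (x : ℝ) (M : ℕ) (rho s : ℝ) : ℝ :=
  Real.exp (-(rho * s)) * s ^ (x - 1) * (1 + s) ^ M

theorem maj_nonneg {x rho s : ℝ} {M : ℕ} (hs : 0 < s) : 0 ≤ maj x M rho s := by
  unfold maj
  have := Real.rpow_nonneg hs.le (x - 1)
  positivity

theorem one_add_pow_le (M : ℕ) {d : ℝ} (hd : 0 < d) {s : ℝ} (hs : 0 ≤ s) :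
    (1 + s) ^ M ≤ (M.factorial / d ^ M * Real.exp d) * Real.exp (d * s) := by
  have h := Real.pow_div_factorial_le_exp (x := d * (1 + s)) (by positivity) M
  rw [mul_pow] at h
  have hf : (0 : ℝ) < M.factorial := by positivity
  rw [div_le_iff₀ hf] at h
  have hd' : 0 < d ^ M := by positivity
  calc (1 + s) ^ M = (d ^ M * (1 + s) ^ M) / d ^ M := by field_simp
    _ ≤ (Real.exp (d * (1 + s)) * M.factorial) / d ^ M := by gcongr
    _ = (M.factorial / d ^ M * Real.exp d) * Real.exp (d * s) := by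
        rw [mul_add, mul_one, Real.exp_add]; field_simp

theorem maj_integrable {x rho : ℝ} (hx : 0 < x) (hr : 0 < rho) (M : ℕ) :
    IntegrableOn (maj x M rho) (Ioi 0) := by
  have hd : 0 < rho / 2 := by positivity
  have h := integrableOn_rpow_mul_exp_neg_mul_rpow (s := x - 1) (p := 1) (b := rho / 2)
    (by linarith) one_pos hd
  refine Integrable.mono' (h.const_mul (M.factorial / (rho / 2) ^ M * Real.exp (rho / 2)))
    ?_ ?_
  · apply Measurable.aestronglyMeasurable
    unfold maj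
    fun_prop
  · filter_upwards [ae_restrict_mem measurableSet_Ioi] with s hs
    have hs' : (0 : ℝ) < s := hs
    rw [Real.norm_of_nonneg (maj_nonneg hs')]
    unfold maj
    have h1 := one_add_pow_le M hd hs'.le
    have h2 : 0 ≤ Real.exp (-(rho * s)) * s ^ (x - 1) := by positivity
    calc Real.exp (-(rho * s)) * s ^ (x - 1) * (1 + s) ^ M
        ≤ Real.exp (-(rho * s)) * s ^ (x - 1) *
          ((M.factorial / (rho / 2) ^ M * Real.exp (rho / 2)) * Real.exp (rho / 2 * s)) := by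
          gcongr
      _ = (M.factorial / (rho / 2) ^ M * Real.exp (rho / 2)) *
          (s ^ (x - 1) * (Real.exp (-(rho * s)) * Real.exp (rho / 2 * s))) := by ring
      _ = _ := by
          rw [← Real.exp_add, Real.rpow_one]
          congr 3
          ring

/-- basic pointwise bound, uniform for parameters in compact sets. -/
theorem norm_jf_le {s : ℝ} (hs : 0 < s) (a c : ℂ) {rho r0 x0 x1 y : ℝ} (M : ℕ)
    (hr : r0 ≤ rho) (h0 : x0 ≤ a.re) (h1 : a.re ≤ x1) (hc : c.re ≤ M) (hy : |c.im| ≤ y) :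
    ‖jf a c rho s‖ ≤ Real.exp (Real.pi * y) * (maj x0 M r0 s + maj x1 M r0 s) := by
  rw [norm_jf hs]
  have e1 : Real.exp (-(rho * s)) ≤ Real.exp (-(r0 * s)) := by
    apply Real.exp_le_exp.mpr
    have := mul_le_mul_of_nonneg_right hr hs.le
    linarith
  have e2 : s ^ (a.re - 1) ≤ s ^ (x0 - 1) + s ^ (x1 - 1) := by
    have p0 := Real.rpow_nonneg hs.le (x0 - 1)
    have p1 := Real.rpow_nonneg hs.le (x1 - 1)
    rcases le_total s 1 with h | h
    · have := Real.rpow_le_rpow_of_exponent_ge hs h (show x0 - 1 ≤ a.re - 1 by linarith)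
      linarith
    · have := Real.rpow_le_rpow_of_exponent_le h (show a.re - 1 ≤ x1 - 1 by linarith)
      linarith
  have e3 : ‖((1 : ℂ) + I * s) ^ c‖ ≤ (1 + s) ^ M * Real.exp (Real.pi * y) := by
    refine (norm_one_add_cpow_le hs.le c M hc).trans ?_
    have : Real.pi * |c.im| ≤ Real.pi * y := mul_le_mul_of_nonneg_left hy Real.pi_pos.le
    gcongr
  have q0 : 0 ≤ s ^ (a.re - 1) := Real.rpow_nonneg hs.le _
  have q1 : 0 ≤ s ^ (x0 - 1) + s ^ (x1 - 1) := q0.trans e2
  calc _ ≤ Real.exp (-(r0 * s)) * (s ^ (x0 - 1) + s ^ (x1 - 1)) *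
        ((1 + s) ^ M * Real.exp (Real.pi * y)) := by
        apply mul_le_mul (mul_le_mul e1 e2 q0 (Real.exp_pos _).le) e3 (norm_nonneg _)
        exact mul_nonneg (Real.exp_pos _).le q1
    _ = _ := by unfold maj; ring

theorem jf_measurable (a c : ℂ) (rho : ℝ) : Measurable (jf a c rho) := by
  unfold jf
  fun_prop

theorem exists_nat_ge_re (c : ℂ) : ∃ M : ℕ, c.re ≤ M := exists_nat_ge _

theorem jf_integrable {a c : ℂ} {rho : ℝ} (ha : 0 < a.re) (hr : 0 < rho) :
    IntegrableOn (jf a c rho) (Ioi 0) := by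
  obtain ⟨M, hM⟩ := exists_nat_ge_re c
  refine Integrable.mono' (((maj_integrable ha hr M).add (maj_integrable ha hr M)).const_mul
    (Real.exp (Real.pi * |c.im|))) (jf_measurable a c rho).aestronglyMeasurable ?_
  filter_upwards [ae_restrict_mem measurableSet_Ioi] with s hs
  exact norm_jf_le hs a c M le_rfl le_rfl le_rfl hM le_rfl

theorem jf_succ {s : ℝ} (hs : 0 < s) (a c : ℂ) (rho : ℝ) :
    jf (a + 1) c rho s = s * jf a c rho s := by
  unfold jf
  have hs' : (s : ℂ) ≠ 0 := by exact_mod_cast hs.ne'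
  rw [show a + 1 - 1 = (a - 1) + 1 by ring, Complex.cpow_add _ _ hs', Complex.cpow_one]
  ring

theorem jf_shift (a c : ℂ) (rho s : ℝ) :
    jf a (c + 1) rho s = (1 + I * s) * jf a c rho s := by
  unfold jf
  rw [Complex.cpow_add _ _ (one_add_ne s), Complex.cpow_one]
  ring

/-- `dJ/drho = - J (a+1)`. -/
theorem J_hasDerivAt {a c : ℂ} {rho : ℝ} (ha : 0 < a.re) (hr : 0 < rho) :
    HasDerivAt (fun x : ℝ => J a c x) (-(J (a + 1) c rho)) rho := by
  obtain ⟨M, hM⟩ := exists_nat_ge_re c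
  have key := hasDerivAt_integral_of_dominated_loc_of_deriv_le
    (μ := volume.restrict (Ioi (0 : ℝ))) (F := fun (x s : ℝ) => jf a c x s)
    (F' := fun (x s : ℝ) => -(s * jf a c x s)) (x₀ := rho)
    (s := Ioi (rho / 2)) (bound := fun s => Real.exp (Real.pi * |c.im|) *
      (maj (a.re + 1) M (rho / 2) s + maj (a.re + 1) M (rho / 2) s))
    (Ioi_mem_nhds (by linarith)) (Eventually.of_forall fun x =>
      (jf_measurable a c x).aestronglyMeasurable) (jf_integrable ha hr)
    (by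
      apply Measurable.aestronglyMeasurable
      have := jf_measurable a c rho
      fun_prop) ?_ ?_ ?_
  · have h2 := key.2
    have h3 : (∫ s in Ioi (0 : ℝ), -((s : ℂ) * jf a c rho s)) = -(J (a + 1) c rho) := by
      rw [integral_neg]
      congr 1
      exact setIntegral_congr_fun measurableSet_Ioi fun s hs => (jf_succ hs a c rho).symm
    rw [h3] at h2
    exact h2
  · filter_upwards [ae_restrict_mem measurableSet_Ioi] with s hs x hx
    rw [norm_neg, ← jf_succ hs]
    exact norm_jf_le hs (a + 1) c M (le_of_lt hx) (by simp) (by simp) hM le_rfl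
  · exact ((maj_integrable (by linarith) (by linarith) M).add
      (maj_integrable (by linarith) (by linarith) M)).const_mul _
  · filter_upwards [ae_restrict_mem measurableSet_Ioi] with s hs x _
    unfold jf
    have h1 : HasDerivAt (fun x : ℝ => cexp (-((x : ℂ) * s))) (cexp (-((x : ℂ) * s)) * (-(1 * s))) x := by
      have := ((hasDerivAt_id (x : ℂ)).mul_const (s : ℂ)).neg.cexp
      exact this.comp_ofReal
    have h2 := (h1.mul_const ((s : ℂ) ^ (a - 1))).mul_const ((1 + I * (s : ℂ)) ^ c)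
    refine h2.congr_deriv ?_
    ring

/-- Shift in `c`. -/
theorem J_shift {a c : ℂ} {rho : ℝ} (ha : 0 < a.re) (hr : 0 < rho) :
    J a (c + 1) rho = J a c rho + I * J (a + 1) c rho := by
  unfold J
  rw [← integral_const_mul, ← integral_add (jf_integrable ha hr)
    ((jf_integrable (a := a + 1) (by simp; linarith) hr).const_mul I)]
  apply setIntegral_congr_fun measurableSet_Ioi
  intro s hs
  have := jf_succ hs a c rho
  simp only [jf_shift, this]
  ring

theorem hasDerivAt_jf {s : ℝ} (hs : 0 < s) (a c : ℂ) (rho : ℝ) :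
    HasDerivAt (fun s : ℝ => jf a c rho s)
      (-(rho : ℂ) * jf a c rho s + (a - 1) * jf (a - 1) c rho s + I * c * jf a (c - 1) rho s) s := by
  have hs' : (s : ℂ) ≠ 0 := by exact_mod_cast hs.ne'
  have h1 : HasDerivAt (fun x : ℝ => cexp (-((rho : ℂ) * x))) (cexp (-((rho : ℂ) * s)) * (-(rho * 1))) s := by
    have := ((hasDerivAt_id (s : ℂ)).const_mul (rho : ℂ)).neg.cexp
    exact this.comp_ofReal
  have h2 : HasDerivAt (fun x : ℝ => (x : ℂ) ^ (a - 1)) ((a - 1) * (s : ℂ) ^ (a - 1 - 1) * 1) s := by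
    have hsl : (s : ℂ) ∈ slitPlane := by left; simpa using hs
    have := ((hasDerivAt_id (s : ℂ)).cpow_const (c := a - 1) hsl)
    exact this.comp_ofReal
  have h3 : HasDerivAt (fun x : ℝ => (1 + I * (x : ℂ)) ^ c)
      (c * (1 + I * (s : ℂ)) ^ (c - 1) * (I * 1)) s := by
    have := (((hasDerivAt_id (s : ℂ)).const_mul I).const_add 1).cpow_const (c := c) (one_add_slit s)
    exact this.comp_ofReal
  have h := (h1.mul h2).mul h3
  unfold jf
  refine h.congr_deriv ?_
  simp only [Pi.mul_apply]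
  ring

theorem tendsto_jf_atTop (a c : ℂ) {rho : ℝ} (hr : 0 < rho) :
    Tendsto (fun s : ℝ => jf a c rho s) atTop (𝓝 0) := by
  obtain ⟨M, hM⟩ := exists_nat_ge_re c
  have hd : 0 < rho / 2 := by positivity
  have h := (tendsto_rpow_mul_exp_neg_mul_atTop_nhds_zero (a.re - 1) (rho / 2) hd).const_mul
    ((M.factorial / (rho / 2) ^ M * Real.exp (rho / 2)) * Real.exp (Real.pi * |c.im|))
  rw [mul_zero] at h
  refine squeeze_zero_norm' ?_ h
  filter_upwards [eventually_gt_atTop (0 : ℝ)] with s hs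
  rw [norm_jf hs]
  have h1 := one_add_pow_le M hd hs.le
  have h2 := norm_one_add_cpow_le hs.le c M hM
  have q0 : 0 ≤ s ^ (a.re - 1) := Real.rpow_nonneg hs.le _
  calc Real.exp (-(rho * s)) * s ^ (a.re - 1) * ‖((1 : ℂ) + I * s) ^ c‖
      ≤ Real.exp (-(rho * s)) * s ^ (a.re - 1) *
        (((M.factorial / (rho / 2) ^ M * Real.exp (rho / 2)) * Real.exp (rho / 2 * s)) *
          Real.exp (Real.pi * |c.im|)) := by
        gcongr
        exact h2.trans (by gcongr)
    _ = ((M.factorial / (rho / 2) ^ M * Real.exp (rho / 2)) * Real.exp (Real.pi * |c.im|)) *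
          (s ^ (a.re - 1) * (Real.exp (-(rho * s)) * Real.exp (rho / 2 * s))) := by ring
    _ = _ := by
        rw [← Real.exp_add]
        congr 3
        ring

/-- Integration by parts. -/
theorem J_ibp {a c : ℂ} {rho : ℝ} (ha : 0 < a.re) (hr : 0 < rho) :
    (rho : ℂ) * J (a + 2) c rho = -I * a * J a c rho + (a + c + 1 + I * rho) * J (a + 1) c rho := by
  have ha0 : a ≠ 0 := by rintro rfl; simp at ha
  have h1 : 0 < (a + 1).re := by simp; linarith
  have i1 := jf_integrable (c := c + 1) h1 hr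
  have i2 := jf_integrable (c := c + 1) ha hr
  have i3 := jf_integrable (c := c) h1 hr
  have hderiv : ∀ s ∈ Ioi (0 : ℝ), HasDerivAt (fun s : ℝ => jf (a + 1) (c + 1) rho s)
      (-(rho : ℂ) * jf (a + 1) (c + 1) rho s + a * jf a (c + 1) rho s
        + I * (c + 1) * jf (a + 1) c rho s) s := by
    intro s hs
    have := hasDerivAt_jf hs (a + 1) (c + 1) rho
    simpa using this
  have hint : IntegrableOn (fun s : ℝ => -(rho : ℂ) * jf (a + 1) (c + 1) rho s + a * jf a (c + 1) rho s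
        + I * (c + 1) * jf (a + 1) c rho s) (Ioi 0) :=
    ((i1.const_mul _).add (i2.const_mul _)).add (i3.const_mul _)
  have hcont : ContinuousWithinAt (fun s : ℝ => jf (a + 1) (c + 1) rho s) (Ici 0) 0 := by
    apply ContinuousAt.continuousWithinAt
    unfold jf
    have hc1 : ContinuousAt (fun s : ℝ => (s : ℂ) ^ (a + 1 - 1)) 0 := by
      have : a + 1 - 1 = a := by ring
      rw [this]
      exact (Complex.continuousAt_ofReal_cpow_const 0 a (Or.inl ha))
    have hc2 : ContinuousAt (fun s : ℝ => (1 + I * (s : ℂ)) ^ (c + 1)) 0 := by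
      have h5 : ContinuousAt (fun z : ℂ => z ^ (c + 1)) ((1 : ℂ) + I * ((0 : ℝ) : ℂ)) :=
        continuousAt_cpow_const (one_add_slit 0)
      have h6 : ContinuousAt (fun s : ℝ => (1 : ℂ) + I * (s : ℂ)) 0 := by fun_prop
      exact ContinuousAt.comp (f := fun s : ℝ => (1 : ℂ) + I * (s : ℂ)) h5 h6
    fun_prop
  have key := integral_Ioi_of_hasDerivAt_of_tendsto hcont hderiv hint (tendsto_jf_atTop _ _ hr)
  have h0 : jf (a + 1) (c + 1) rho 0 = 0 := by
    unfold jf
    simp [ha0]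
  have e1 : (∫ (s : ℝ) in Ioi 0, (-(rho : ℂ) * jf (a + 1) (c + 1) rho s + a * jf a (c + 1) rho s
      + I * (c + 1) * jf (a + 1) c rho s)) =
      (∫ (s : ℝ) in Ioi 0, -(rho : ℂ) * jf (a + 1) (c + 1) rho s)
      + (∫ (s : ℝ) in Ioi 0, a * jf a (c + 1) rho s)
      + (∫ (s : ℝ) in Ioi 0, I * (c + 1) * jf (a + 1) c rho s) := by
    have j12 : Integrable (fun s : ℝ => -(rho : ℂ) * jf (a + 1) (c + 1) rho s
        + a * jf a (c + 1) rho s) (volume.restrict (Ioi 0)) :=
      (i1.const_mul _).add (i2.const_mul _)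
    rw [integral_add j12 (i3.const_mul _), integral_add (i1.const_mul _) (i2.const_mul _)]
  rw [h0, sub_zero, e1, integral_const_mul, integral_const_mul,
    integral_const_mul] at key
  change -(rho : ℂ) * J (a + 1) (c + 1) rho + a * J a (c + 1) rho
    + I * (c + 1) * J (a + 1) c rho = 0 at key
  rw [J_shift h1 hr, J_shift ha hr, show a + 1 + 1 = a + 2 by ring] at key
  have hI : I * I = -1 := Complex.I_mul_I
  linear_combination (I : ℂ) * key + ((rho : ℂ) * J (a + 2) c rho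
    - a * J (a + 1) c rho - (c + 1) * J (a + 1) c rho) * hI

end Crest.Agent.R086.JInt
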