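import Mathlib
import Crest.Agent.R086.JInt

/-!
Row 86, Part A (helper444): the integrals with COMPLEX third argument
`J a c z = ∫₀^∞ e^{-z s} s^{a-1} (1+i s)^c ds` (Re a > 0, Re z > 0).
The real version `JInt.J a c rho` is `JCx.J a c (rho : ℂ)` (by `rfl`, see `J_real`).
-/

set_option autoImplicit false

open MeasureTheory Complex Set Filter Topology

namespace Crest.Agent.R086.JCx

open Crest.Agent.R086.JInt (one_add_ne one_add_slit norm_one_add_ge norm_one_add_le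
  norm_one_add_cpow_le maj maj_nonneg one_add_pow_le maj_integrable exists_nat_ge_re)

/-- The integrand. -/
noncomputable def jf (a c z : ℂ) (s : ℝ) : ℂ :=
  cexp (-(z * s)) * (s : ℂ) ^ (a - 1) * (1 + I * s) ^ c

/-- `J a c z = ∫₀^∞ e^{-z s} s^{a-1} (1+i s)^c ds`. -/
noncomputable def J (a c z : ℂ) : ℂ := ∫ s in Ioi (0 : ℝ), jf a c z s

theorem J_real (a c : ℂ) (rho : ℝ) : JInt.J a c rho = J a c (rho : ℂ) := rfl

theorem norm_jf {s : ℝ} (hs : 0 < s) (a c z : ℂ) :
    ‖jf a c z s‖ = Real.exp (-(z.re * s)) * s ^ (a.re - 1) * ‖((1 : ℂ) + I * s) ^ c‖ := by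
  unfold jf
  rw [norm_mul, norm_mul, Complex.norm_cpow_eq_rpow_re_of_pos hs, Complex.norm_exp]
  simp

theorem norm_jf_eq {s : ℝ} (hs : 0 < s) (a c z : ℂ) :
    ‖jf a c z s‖ = ‖JInt.jf a c z.re s‖ := by
  rw [norm_jf hs, JInt.norm_jf hs]

/-- basic pointwise bound, uniform for parameters in compact sets. -/
theorem norm_jf_le {s : ℝ} (hs : 0 < s) (a c z : ℂ) {r0 x0 x1 y : ℝ} (M : ℕ)
    (hr : r0 ≤ z.re) (h0 : x0 ≤ a.re) (h1 : a.re ≤ x1) (hc : c.re ≤ M) (hy : |c.im| ≤ y) :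
    ‖jf a c z s‖ ≤ Real.exp (Real.pi * y) * (maj x0 M r0 s + maj x1 M r0 s) := by
  rw [norm_jf_eq hs]
  exact JInt.norm_jf_le hs a c M hr h0 h1 hc hy

theorem jf_measurable (a c z : ℂ) : Measurable (jf a c z) := by
  unfold jf
  fun_prop

theorem jf_integrable {a c z : ℂ} (ha : 0 < a.re) (hr : 0 < z.re) :
    IntegrableOn (jf a c z) (Ioi 0) := by
  refine Integrable.mono (JInt.jf_integrable (c := c) ha hr)
    (jf_measurable a c z).aestronglyMeasurable ?_
  filter_upwards [ae_restrict_mem measurableSet_Ioi] with s hs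
  exact (norm_jf_eq hs a c z).le

theorem jf_succ {s : ℝ} (hs : 0 < s) (a c z : ℂ) :
    jf (a + 1) c z s = s * jf a c z s := by
  unfold jf
  have hs' : (s : ℂ) ≠ 0 := by exact_mod_cast hs.ne'
  rw [show a + 1 - 1 = (a - 1) + 1 by ring, Complex.cpow_add _ _ hs', Complex.cpow_one]
  ring

theorem jf_shift (a c z : ℂ) (s : ℝ) :
    jf a (c + 1) z s = (1 + I * s) * jf a c z s := by
  unfold jf
  rw [Complex.cpow_add _ _ (one_add_ne s), Complex.cpow_one]
  ring

/-- Shift in `c`. -/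
theorem J_shift {a c z : ℂ} (ha : 0 < a.re) (hr : 0 < z.re) :
    J a (c + 1) z = J a c z + I * J (a + 1) c z := by
  unfold J
  rw [← integral_const_mul, ← integral_add (jf_integrable ha hr)
    ((jf_integrable (a := a + 1) (by simp; linarith) hr).const_mul I)]
  apply setIntegral_congr_fun measurableSet_Ioi
  intro s hs
  have := jf_succ hs a c z
  simp only [jf_shift, this]
  ring

theorem hasDerivAt_jf {s : ℝ} (hs : 0 < s) (a c z : ℂ) :
    HasDerivAt (fun s : ℝ => jf a c z s)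
      (-z * jf a c z s + (a - 1) * jf (a - 1) c z s + I * c * jf a (c - 1) z s) s := by
  have h1 : HasDerivAt (fun x : ℝ => cexp (-(z * x))) (cexp (-(z * s)) * (-(z * 1))) s := by
    have := ((hasDerivAt_id (s : ℂ)).const_mul z).neg.cexp
    exact this.comp_ofReal
  have h2 : HasDerivAt (fun x : ℝ => (x : ℂ) ^ (a - 1)) ((a - 1) * (s : ℂ) ^ (a - 1 - 1) * 1) s := by
    have hsl : (s : ℂ) ∈ slitPlane := by left; simpa using hs
    have := ((hasDerivAt_id (s : ℂ)).cpow_const (c := a - 1) hsl)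
    exact this.comp_ofReal
  have h3 : HasDerivAt (fun x : ℝ => (1 + I * (x : ℂ)) ^ c)
      (c * (1 + I * (s : ℂ)) ^ (c - 1) * (I * 1)) s := by
    have := (((hasDerivAt_id (s : ℂ)).const_mul I).const_add 1).cpow_const (c := c) (one_add_slit s)
    exact this.comp_ofReal
  have h := (h1.mul h2).mul h3
  unfold jf
  refine h.congr_deriv ?_
  simp only [Pi.mul_apply]
  ring

theorem tendsto_jf_atTop (a c : ℂ) {z : ℂ} (hr : 0 < z.re) :
    Tendsto (fun s : ℝ => jf a c z s) atTop (𝓝 0) := by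
  have h := (JInt.tendsto_jf_atTop a c hr).norm
  rw [norm_zero] at h
  refine squeeze_zero_norm' ?_ h
  filter_upwards [eventually_gt_atTop (0 : ℝ)] with s hs
  exact (norm_jf_eq hs a c z).le

/-- First integration by parts: `z J(a+1,c) = a J(a,c) + i c J(a+1,c-1)`. -/
theorem J_ibp1 {a c z : ℂ} (ha : 0 < a.re) (hr : 0 < z.re) :
    z * J (a + 1) c z = a * J a c z + I * c * J (a + 1) (c - 1) z := by
  have ha0 : a ≠ 0 := by rintro rfl; simp at ha
  have h1 : 0 < (a + 1).re := by simp; linarith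
  have i1 := jf_integrable (c := c) h1 hr
  have i2 := jf_integrable (c := c) ha hr
  have i3 := jf_integrable (c := c - 1) h1 hr
  have hderiv : ∀ s ∈ Ioi (0 : ℝ), HasDerivAt (fun s : ℝ => jf (a + 1) c z s)
      (-z * jf (a + 1) c z s + a * jf a c z s + I * c * jf (a + 1) (c - 1) z s) s := by
    intro s hs
    have := hasDerivAt_jf hs (a + 1) c z
    simpa using this
  have hint : IntegrableOn (fun s : ℝ => -z * jf (a + 1) c z s + a * jf a c z s
        + I * c * jf (a + 1) (c - 1) z s) (Ioi 0) :=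
    ((i1.const_mul _).add (i2.const_mul _)).add (i3.const_mul _)
  have hcont : ContinuousWithinAt (fun s : ℝ => jf (a + 1) c z s) (Ici 0) 0 := by
    apply ContinuousAt.continuousWithinAt
    unfold jf
    have hc1 : ContinuousAt (fun s : ℝ => (s : ℂ) ^ (a + 1 - 1)) 0 := by
      have : a + 1 - 1 = a := by ring
      rw [this]
      exact (Complex.continuousAt_ofReal_cpow_const 0 a (Or.inl ha))
    have hc2 : ContinuousAt (fun s : ℝ => (1 + I * (s : ℂ)) ^ c) 0 := by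
      have h5 : ContinuousAt (fun w : ℂ => w ^ c) ((1 : ℂ) + I * ((0 : ℝ) : ℂ)) :=
        continuousAt_cpow_const (one_add_slit 0)
      have h6 : ContinuousAt (fun s : ℝ => (1 : ℂ) + I * (s : ℂ)) 0 := by fun_prop
      exact ContinuousAt.comp (f := fun s : ℝ => (1 : ℂ) + I * (s : ℂ)) h5 h6
    fun_prop
  have key := integral_Ioi_of_hasDerivAt_of_tendsto hcont hderiv hint (tendsto_jf_atTop _ _ hr)
  have h0 : jf (a + 1) c z 0 = 0 := by
    unfold jf
    simp [ha0]
  have e1 : (∫ (s : ℝ) in Ioi 0, (-z * jf (a + 1) c z s + a * jf a c z s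
      + I * c * jf (a + 1) (c - 1) z s)) =
      (∫ (s : ℝ) in Ioi 0, -z * jf (a + 1) c z s)
      + (∫ (s : ℝ) in Ioi 0, a * jf a c z s)
      + (∫ (s : ℝ) in Ioi 0, I * c * jf (a + 1) (c - 1) z s) := by
    have j12 : Integrable (fun s : ℝ => -z * jf (a + 1) c z s
        + a * jf a c z s) (volume.restrict (Ioi 0)) :=
      (i1.const_mul _).add (i2.const_mul _)
    rw [integral_add j12 (i3.const_mul _), integral_add (i1.const_mul _) (i2.const_mul _)]
  rw [h0, sub_zero, e1, integral_const_mul, integral_const_mul,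
    integral_const_mul] at key
  change -z * J (a + 1) c z + a * J a c z + I * c * J (a + 1) (c - 1) z = 0 at key
  linear_combination -key

/-- Integration by parts, three-term relation. -/
theorem J_ibp {a c z : ℂ} (ha : 0 < a.re) (hr : 0 < z.re) :
    z * J (a + 2) c z = -I * a * J a c z + (a + c + 1 + I * z) * J (a + 1) c z := by
  have h1 : 0 < (a + 1).re := by simp; linarith
  have key := J_ibp1 (c := c + 1) ha hr
  rw [J_shift h1 hr, J_shift ha hr, show a + 1 + 1 = a + 2 by ring,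
    show c + 1 - 1 = c by ring] at key
  have hI : I * I = -1 := Complex.I_mul_I
  linear_combination (-I : ℂ) * key + (z * J (a + 2) c z
    - a * J (a + 1) c z - (c + 1) * J (a + 1) c z) * hI

/-! ### Joint Fréchet differentiability in `(a,c,z)` -/

/-- The linear functional `(a,c,z) ↦ log s · a + log (1+is) · c - s · z`. -/
noncomputable def ell (s : ℝ) : ℂ × ℂ × ℂ →L[ℂ] ℂ :=
  (Complex.log s) • ContinuousLinearMap.fst ℂ ℂ (ℂ × ℂ)
    + (Complex.log (1 + I * s)) • ((ContinuousLinearMap.fst ℂ ℂ ℂ).comp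
      (ContinuousLinearMap.snd ℂ ℂ (ℂ × ℂ)))
    - (s : ℂ) • ((ContinuousLinearMap.snd ℂ ℂ ℂ).comp (ContinuousLinearMap.snd ℂ ℂ (ℂ × ℂ)))

theorem ell_apply (s : ℝ) (p : ℂ × ℂ × ℂ) :
    ell s p = Complex.log s * p.1 + Complex.log (1 + I * s) * p.2.1 - s * p.2.2 := by
  simp [ell]

theorem jf_eq_exp {s : ℝ} (hs : 0 < s) (p : ℂ × ℂ × ℂ) :
    jf p.1 p.2.1 p.2.2 s = cexp (ell s p - Complex.log s) := by
  have hs' : (s : ℂ) ≠ 0 := by exact_mod_cast hs.ne'
  unfold jf
  rw [ell_apply, Complex.cpow_def_of_ne_zero hs', Complex.cpow_def_of_ne_zero (one_add_ne s),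
    ← Complex.exp_add, ← Complex.exp_add]
  congr 1
  ring

theorem hasFDerivAt_jf {s : ℝ} (hs : 0 < s) (p : ℂ × ℂ × ℂ) :
    HasFDerivAt (fun p : ℂ × ℂ × ℂ => jf p.1 p.2.1 p.2.2 s)
      (jf p.1 p.2.1 p.2.2 s • ell s) p := by
  have h1 : HasFDerivAt (fun p : ℂ × ℂ × ℂ => ell s p - Complex.log s) (ell s) p :=
    ((ell s).hasFDerivAt).sub_const _
  have h2 := h1.cexp
  have e : (fun p : ℂ × ℂ × ℂ => jf p.1 p.2.1 p.2.2 s)
      = fun p => cexp (ell s p - Complex.log s) := by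
    funext p
    exact jf_eq_exp hs p
  rw [e, jf_eq_exp hs p]
  exact h2

theorem norm_ell_le (s : ℝ) : ‖ell s‖ ≤ ‖Complex.log s‖ + ‖Complex.log (1 + I * s)‖ + ‖(s : ℂ)‖ := by
  refine ContinuousLinearMap.opNorm_le_bound _ (by positivity) fun p => ?_
  rw [ell_apply]
  have h1 : ‖p.1‖ ≤ ‖p‖ := norm_fst_le p
  have h2 : ‖p.2.1‖ ≤ ‖p‖ := (norm_fst_le p.2).trans (norm_snd_le p)
  have h3 : ‖p.2.2‖ ≤ ‖p‖ := (norm_snd_le p.2).trans (norm_snd_le p)
  calc ‖Complex.log s * p.1 + Complex.log (1 + I * s) * p.2.1 - s * p.2.2‖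
      ≤ ‖Complex.log s * p.1‖ + ‖Complex.log (1 + I * s) * p.2.1‖ + ‖(s : ℂ) * p.2.2‖ :=
        (norm_sub_le _ _).trans (by gcongr; exact norm_add_le _ _)
    _ = ‖Complex.log s‖ * ‖p.1‖ + ‖Complex.log (1 + I * s)‖ * ‖p.2.1‖ + ‖(s : ℂ)‖ * ‖p.2.2‖ := by
        simp only [norm_mul]
    _ ≤ ‖Complex.log s‖ * ‖p‖ + ‖Complex.log (1 + I * s)‖ * ‖p‖ + ‖(s : ℂ)‖ * ‖p‖ := by gcongr
    _ = _ := by ring

theorem norm_log_le {s : ℝ} (hs : 0 < s) {d : ℝ} (hd : 0 < d) :
    ‖Complex.log s‖ ≤ s ^ (-d) / d + s := by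
  rw [← Complex.ofReal_log hs.le, Complex.norm_real, Real.norm_eq_abs]
  have hp : 0 < s ^ (-d) := Real.rpow_pos_of_pos hs _
  rcases le_total s 1 with h | h
  · have h0 : Real.log s ≤ 0 := Real.log_nonpos hs.le h
    rw [abs_of_nonpos h0]
    have h1 : Real.log (s ^ (-d)) ≤ s ^ (-d) - 1 := Real.log_le_sub_one_of_pos hp
    rw [Real.log_rpow hs] at h1
    have h2 : -Real.log s ≤ s ^ (-d) / d := by
      rw [le_div_iff₀ hd]
      nlinarith
    linarith
  · have h0 : 0 ≤ Real.log s := Real.log_nonneg h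
    rw [abs_of_nonneg h0]
    have h1 := Real.log_le_sub_one_of_pos hs
    have : 0 < s ^ (-d) / d := by positivity
    linarith

theorem norm_log_one_add_le {s : ℝ} (hs : 0 < s) :
    ‖Complex.log (1 + I * s)‖ ≤ s + Real.pi := by
  have h1 : ‖Complex.log (1 + I * s)‖ ≤ |Real.log ‖(1 : ℂ) + I * s‖| + |arg (1 + I * s)| := by
    have := Complex.norm_le_abs_re_add_abs_im (Complex.log (1 + I * s))
    simpa [Complex.log_re, Complex.log_im] using this
  have h2 : |Real.log ‖(1 : ℂ) + I * s‖| ≤ s := by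
    have h3 := norm_one_add_ge s
    have h4 := norm_one_add_le hs.le
    rw [abs_of_nonneg (Real.log_nonneg h3)]
    have := Real.log_le_sub_one_of_pos (show 0 < ‖(1 : ℂ) + I * s‖ by linarith)
    linarith
  have h3 := Complex.abs_arg_le_pi (1 + I * s)
  linarith

/-- Full bound for the derivative. -/
theorem norm_deriv_le {s : ℝ} (hs : 0 < s) (p : ℂ × ℂ × ℂ) {r0 x0 x1 y d : ℝ} (M : ℕ)
    (hd : 0 < d)
    (hr : r0 ≤ p.2.2.re) (h0 : x0 ≤ p.1.re) (h1 : p.1.re ≤ x1) (hc : p.2.1.re ≤ M)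
    (hy : |p.2.1.im| ≤ y) :
    ‖jf p.1 p.2.1 p.2.2 s • ell s‖ ≤ Real.exp (Real.pi * y) *
      ((maj (x0 - d) M r0 s + maj (x1 - d) M r0 s) / d
        + 3 * (maj (x0 + 1) M r0 s + maj (x1 + 1) M r0 s)
        + Real.pi * (maj x0 M r0 s + maj x1 M r0 s)) := by
  rw [norm_smul]
  have hj := norm_jf_le hs p.1 p.2.1 p.2.2 M hr h0 h1 hc hy
  have hl : ‖ell s‖ ≤ s ^ (-d) / d + 3 * s + Real.pi := by
    have := norm_ell_le s
    have e1 := norm_log_le hs hd
    have e2 := norm_log_one_add_le hs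
    have e3 : ‖(s : ℂ)‖ = s := by simp [abs_of_pos hs]
    linarith
  have hp : 0 < s ^ (-d) := Real.rpow_pos_of_pos hs _
  have hm0 := maj_nonneg (x := x0) (rho := r0) (M := M) hs
  have hm1 := maj_nonneg (x := x1) (rho := r0) (M := M) hs
  have e0 : ∀ x : ℝ, maj x M r0 s * s ^ (-d) = maj (x - d) M r0 s := by
    intro x
    unfold maj
    rw [show x - d - 1 = (x - 1) + (-d) by ring, Real.rpow_add hs]
    ring
  have e1 : ∀ x : ℝ, maj x M r0 s * s = maj (x + 1) M r0 s := by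
    intro x
    unfold maj
    rw [show x + 1 - 1 = (x - 1) + 1 by ring, Real.rpow_add hs, Real.rpow_one]
    ring
  calc ‖jf p.1 p.2.1 p.2.2 s‖ * ‖ell s‖
      ≤ (Real.exp (Real.pi * y) * (maj x0 M r0 s + maj x1 M r0 s)) *
        (s ^ (-d) / d + 3 * s + Real.pi) := by
        apply mul_le_mul hj hl (norm_nonneg _)
        positivity
    _ = Real.exp (Real.pi * y) * ((maj x0 M r0 s * s ^ (-d) + maj x1 M r0 s * s ^ (-d)) / d
        + 3 * (maj x0 M r0 s * s + maj x1 M r0 s * s)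
        + Real.pi * (maj x0 M r0 s + maj x1 M r0 s)) := by ring
    _ = _ := by rw [e0, e0, e1, e1]

/-- The derivative of `J` as a function on `ℂ × ℂ × ℂ`. -/
noncomputable def J' (p : ℂ × ℂ × ℂ) : ℂ × ℂ × ℂ →L[ℂ] ℂ :=
  ∫ s in Ioi (0 : ℝ), jf p.1 p.2.1 p.2.2 s • ell s

/-- The domain. -/
def dom : Set (ℂ × ℂ × ℂ) := {p | 0 < p.1.re ∧ 0 < p.2.2.re}

theorem isOpen_dom : IsOpen dom := by
  have h1 : IsOpen {p : ℂ × ℂ × ℂ | 0 < p.1.re} :=
    isOpen_lt continuous_const (by fun_prop)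
  have h2 : IsOpen {p : ℂ × ℂ × ℂ | 0 < p.2.2.re} :=
    isOpen_lt continuous_const (by fun_prop)
  exact h1.inter h2

theorem ell_measurable : Measurable (fun s : ℝ => ell s) := by
  unfold ell
  have m1 : Measurable (fun s : ℝ => Complex.log (s : ℂ)) := by fun_prop
  have m2 : Measurable (fun s : ℝ => Complex.log (1 + I * (s : ℂ))) := by fun_prop
  have m3 : Measurable (fun s : ℝ => (s : ℂ)) := by fun_prop
  exact ((m1.smul_const _).add (m2.smul_const _)).sub (m3.smul_const _)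

/-- A good neighbourhood with a uniform dominating function. -/
theorem exists_nhd (p0 : ℂ × ℂ × ℂ) (hp : p0 ∈ dom) :
    ∃ U ∈ 𝓝 p0, ∃ g : ℝ → ℝ, IntegrableOn g (Ioi 0) ∧ ∀ s ∈ Ioi (0 : ℝ), ∀ p ∈ U,
      ‖jf p.1 p.2.1 p.2.2 s‖ ≤ g s ∧ ‖jf p.1 p.2.1 p.2.2 s • ell s‖ ≤ g s := by
  obtain ⟨ha, hz⟩ := hp
  obtain ⟨M, hM⟩ := exists_nat_gt p0.2.1.re
  set x0 : ℝ := p0.1.re / 2 with hx0
  set x1 : ℝ := p0.1.re + 1 with hx1
  set r0 : ℝ := p0.2.2.re / 2 with hr0
  set y : ℝ := |p0.2.1.im| + 1 with hy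
  set d : ℝ := x0 / 2 with hd
  have px0 : 0 < x0 := by positivity
  have pd : 0 < d := by positivity
  have px1 : 0 < x1 := by positivity
  have pr0 : 0 < r0 := by positivity
  refine ⟨{p | x0 < p.1.re ∧ p.1.re < x1 ∧ r0 < p.2.2.re ∧ p.2.1.re < M ∧ |p.2.1.im| < y}, ?_,
    fun s => Real.exp (Real.pi * y) *
      ((maj (x0 - d) M r0 s + maj (x1 - d) M r0 s) / d
        + 3 * (maj (x0 + 1) M r0 s + maj (x1 + 1) M r0 s)
        + Real.pi * (maj x0 M r0 s + maj x1 M r0 s)) +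
      Real.exp (Real.pi * y) * (maj x0 M r0 s + maj x1 M r0 s), ?_, ?_⟩
  · have hopen : IsOpen {p : ℂ × ℂ × ℂ | x0 < p.1.re ∧ p.1.re < x1 ∧ r0 < p.2.2.re ∧
        p.2.1.re < M ∧ |p.2.1.im| < y} := by
      have o1 : IsOpen {p : ℂ × ℂ × ℂ | x0 < p.1.re} := isOpen_lt (by fun_prop) (by fun_prop)
      have o2 : IsOpen {p : ℂ × ℂ × ℂ | p.1.re < x1} := isOpen_lt (by fun_prop) (by fun_prop)
      have o3 : IsOpen {p : ℂ × ℂ × ℂ | r0 < p.2.2.re} := isOpen_lt (by fun_prop) (by fun_prop)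
      have o4 : IsOpen {p : ℂ × ℂ × ℂ | p.2.1.re < (M : ℝ)} :=
        isOpen_lt (by fun_prop) (by fun_prop)
      have o5 : IsOpen {p : ℂ × ℂ × ℂ | |p.2.1.im| < y} := isOpen_lt (by fun_prop) (by fun_prop)
      exact o1.inter (o2.inter (o3.inter (o4.inter o5)))
    refine hopen.mem_nhds ⟨by linarith, by linarith, by linarith, hM, by linarith⟩
  · have hI : ∀ x : ℝ, 0 < x → IntegrableOn (maj x M r0) (Ioi 0) := fun x hx =>
      maj_integrable hx pr0 M
    have q1 := hI (x0 - d) (by linarith)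
    have q2 := hI (x1 - d) (by linarith)
    have q3 := hI (x0 + 1) (by linarith)
    have q4 := hI (x1 + 1) (by linarith)
    have q5 := hI x0 px0
    have q6 := hI x1 px1
    exact (((((q1.add q2).div_const d).add ((q3.add q4).const_mul 3)).add
      ((q5.add q6).const_mul Real.pi)).const_mul _).add ((q5.add q6).const_mul _)
  · intro s hs p hp
    obtain ⟨h1, h2, h3, h4, h5⟩ := hp
    have b1 := norm_jf_le hs p.1 p.2.1 p.2.2 M h3.le h1.le h2.le h4.le h5.le
    have b2 := norm_deriv_le hs p M pd h3.le h1.le h2.le h4.le h5.le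
    have n1 := norm_nonneg (jf p.1 p.2.1 p.2.2 s)
    have n2 := norm_nonneg (jf p.1 p.2.1 p.2.2 s • ell s)
    constructor <;> linarith

/-- `J` is jointly holomorphic in `(a,c,z)`. -/
theorem J_hasFDerivAt {p : ℂ × ℂ × ℂ} (hp : p ∈ dom) :
    HasFDerivAt (fun p : ℂ × ℂ × ℂ => J p.1 p.2.1 p.2.2) (J' p) p := by
  obtain ⟨U, hU, g, hg, hb⟩ := exists_nhd p hp
  refine hasFDerivAt_integral_of_dominated_of_fderiv_le (s := U) (bound := g)
    (F' := fun (p : ℂ × ℂ × ℂ) (s : ℝ) => jf p.1 p.2.1 p.2.2 s • ell s) hU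
    (Eventually.of_forall fun x => (jf_measurable _ _ _).aestronglyMeasurable)
    (jf_integrable hp.1 hp.2) ?_ ?_ hg ?_
  · have : Measurable (fun s : ℝ => jf p.1 p.2.1 p.2.2 s • ell s) :=
      (jf_measurable _ _ _).smul ell_measurable
    exact this.aestronglyMeasurable
  · filter_upwards [ae_restrict_mem measurableSet_Ioi] with s hs x hx
    exact (hb s hs x hx).2
  · filter_upwards [ae_restrict_mem measurableSet_Ioi] with s hs x hx
    exact hasFDerivAt_jf hs x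

theorem J_continuousAt {p : ℂ × ℂ × ℂ} (hp : p ∈ dom) :
    ContinuousAt (fun p : ℂ × ℂ × ℂ => J p.1 p.2.1 p.2.2) p :=
  (J_hasFDerivAt hp).continuousAt

theorem J_continuousOn : ContinuousOn (fun p : ℂ × ℂ × ℂ => J p.1 p.2.1 p.2.2) dom :=
  fun _ hp => (J_continuousAt hp).continuousWithinAt

/-- The derivative is continuous. -/
theorem J'_continuousAt {p : ℂ × ℂ × ℂ} (hp : p ∈ dom) : ContinuousAt J' p := by
  obtain ⟨U, hU, g, hg, hb⟩ := exists_nhd p hp
  unfold J'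
  refine continuousAt_of_dominated (bound := g) ?_ ?_ hg ?_
  · refine Eventually.of_forall fun q => ?_
    have : Measurable (fun s : ℝ => jf q.1 q.2.1 q.2.2 s • ell s) :=
      (jf_measurable _ _ _).smul ell_measurable
    exact this.aestronglyMeasurable
  · filter_upwards [hU] with q hq
    filter_upwards [ae_restrict_mem measurableSet_Ioi] with s hs
    exact (hb s hs q hq).2
  · filter_upwards [ae_restrict_mem measurableSet_Ioi] with s hs
    exact (hasFDerivAt_jf hs p).continuousAt.smul continuousAt_const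

/-- Chain rule, complex parameter. -/
theorem J_differentiableAt {f g h : ℂ → ℂ} {w : ℂ} (hf : DifferentiableAt ℂ f w)
    (hg : DifferentiableAt ℂ g w) (hh : DifferentiableAt ℂ h w) (h1 : 0 < (f w).re)
    (h2 : 0 < (h w).re) : DifferentiableAt ℂ (fun w => J (f w) (g w) (h w)) w := by
  have hk : DifferentiableAt ℂ (fun w => (f w, g w, h w)) w :=
    hf.prodMk (hg.prodMk hh)
  have hJ : DifferentiableAt ℂ (fun p : ℂ × ℂ × ℂ => J p.1 p.2.1 p.2.2) (f w, g w, h w) :=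
    (J_hasFDerivAt (p := (f w, g w, h w)) ⟨h1, h2⟩).differentiableAt
  exact DifferentiableAt.comp (f := fun w => (f w, g w, h w)) w hJ hk

/-- `dJ/dz = - J (a+1)`. -/
theorem J_hasDerivAt {a c z : ℂ} (ha : 0 < a.re) (hr : 0 < z.re) :
    HasDerivAt (fun x : ℂ => J a c x) (-(J (a + 1) c z)) z := by
  have h1 : HasFDerivAt (fun p : ℂ × ℂ × ℂ => J p.1 p.2.1 p.2.2) (J' (a, c, z)) (a, c, z) :=
    J_hasFDerivAt ⟨ha, hr⟩
  have h2 : HasDerivAt (fun x : ℂ => ((a, c, x) : ℂ × ℂ × ℂ)) ((0, 0, 1) : ℂ × ℂ × ℂ) z :=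
    (hasDerivAt_const z a).prodMk ((hasDerivAt_const z c).prodMk (hasDerivAt_id z))
  have h3 := HasFDerivAt.comp_hasDerivAt z h1 h2
  have h4 : J' (a, c, z) ((0, 0, 1) : ℂ × ℂ × ℂ) = -(J (a + 1) c z) := by
    obtain ⟨U, hU, g, hg, hb⟩ := exists_nhd (a, c, z) ⟨ha, hr⟩
    have hint : Integrable (fun s : ℝ => jf a c z s • ell s) (volume.restrict (Ioi 0)) := by
      refine Integrable.mono' hg
        ((jf_measurable _ _ _).smul ell_measurable).aestronglyMeasurable ?_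
      filter_upwards [ae_restrict_mem measurableSet_Ioi] with s hs
      exact (hb s hs _ (mem_of_mem_nhds hU)).2
    unfold J'
    rw [ContinuousLinearMap.integral_apply hint]
    unfold J
    rw [← integral_neg]
    apply setIntegral_congr_fun measurableSet_Ioi
    intro s hs
    have := jf_succ hs a c z
    simp only [_root_.smul_apply, ell_apply, this, smul_eq_mul]
    ring
  rw [h4] at h3
  exact h3

end Crest.Agent.R086.JCx
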