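import Mathlib
import Crest.Agent.R086.JCx

/-!
Row 86, Part A (helper444): sector bounds and asymptotics of `J a c z`, and the outgoing solution
`W a b z` of Kummer's equation on the rotated axis.
-/

set_option autoImplicit false

open MeasureTheory Complex Set Filter Topology

namespace Crest.Agent.R086.JCx

open Crest.Agent.R086.JInt (one_add_ne one_add_slit norm_one_add_ge norm_one_add_le
  norm_one_add_cpow_le maj maj_nonneg one_add_pow_le maj_integrable exists_nat_ge_re)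

/-- uniform constant for the scaled majorant -/
noncomputable def KM (x0 x1 : ℝ) (M : ℕ) (r0 : ℝ) : ℝ :=
  ∫ t in Ioi (0 : ℝ), Real.exp (-t) * (t ^ (x0 - 1) + t ^ (x1 - 1)) * (1 + t / r0) ^ M

theorem KM_integrable {x0 x1 : ℝ} (h0 : 0 < x0) (h1 : 0 < x1) (M : ℕ) {r0 : ℝ} (hr : 0 < r0) :
    IntegrableOn (fun t : ℝ => Real.exp (-t) * (t ^ (x0 - 1) + t ^ (x1 - 1)) * (1 + t / r0) ^ M)
      (Ioi 0) := by
  have hq : ∀ x : ℝ, 0 < x → IntegrableOn
      (fun t : ℝ => Real.exp (-t) * t ^ (x - 1) * (1 + t / r0) ^ M) (Ioi 0) := by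
    intro x hx
    set q : ℝ := 1 + 1 / r0 with hqd
    have hq0 : 0 < q := by positivity
    refine Integrable.mono' ((maj_integrable hx one_pos M).const_mul (q ^ M)) ?_ ?_
    · apply Measurable.aestronglyMeasurable
      fun_prop
    · filter_upwards [ae_restrict_mem measurableSet_Ioi] with t ht
      have ht' : (0 : ℝ) < t := ht
      have p0 := Real.rpow_nonneg ht'.le (x - 1)
      rw [Real.norm_of_nonneg (by positivity)]
      unfold maj
      have e1 : 1 + t / r0 ≤ q * (1 + t) := by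
        have : q * (1 + t) = 1 + t / r0 + (t + 1 / r0) := by rw [hqd]; ring
        rw [this]
        have : 0 < 1 / r0 := by positivity
        linarith
      have e2 : (1 + t / r0) ^ M ≤ (q * (1 + t)) ^ M :=
        pow_le_pow_left₀ (by positivity) e1 M
      rw [mul_pow] at e2
      calc Real.exp (-t) * t ^ (x - 1) * (1 + t / r0) ^ M
          ≤ Real.exp (-t) * t ^ (x - 1) * (q ^ M * (1 + t) ^ M) := by gcongr
        _ = _ := by rw [one_mul]; ring
  have := (hq x0 h0).add (hq x1 h1)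
  refine this.congr_fun ?_ measurableSet_Ioi
  intro t _
  simp only [Pi.add_apply]
  ring

theorem KM_nonneg (x0 x1 : ℝ) (M : ℕ) {r0 : ℝ} (hr : 0 < r0) : 0 ≤ KM x0 x1 M r0 := by
  unfold KM
  apply setIntegral_nonneg measurableSet_Ioi
  intro t ht
  have ht' : (0 : ℝ) < t := ht
  have p0 := Real.rpow_nonneg ht'.le (x0 - 1)
  have p1 := Real.rpow_nonneg ht'.le (x1 - 1)
  positivity

theorem rpow_le_add {t x x0 x1 : ℝ} (ht : 0 < t) (h0 : x0 ≤ x) (h1 : x ≤ x1) :
    t ^ (x - 1) ≤ t ^ (x0 - 1) + t ^ (x1 - 1) := by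
  have p0 := Real.rpow_nonneg ht.le (x0 - 1)
  have p1 := Real.rpow_nonneg ht.le (x1 - 1)
  rcases le_total t 1 with h | h
  · have := Real.rpow_le_rpow_of_exponent_ge ht h (show x0 - 1 ≤ x - 1 by linarith)
    linarith
  · have := Real.rpow_le_rpow_of_exponent_le h (show x - 1 ≤ x1 - 1 by linarith)
    linarith

theorem maj_integral_le {x x0 x1 rho r0 : ℝ} (M : ℕ) (hx0 : 0 < x0) (h0 : x0 ≤ x) (h1 : x ≤ x1)
    (hr0 : 0 < r0) (hr : r0 ≤ rho) :
    ∫ s in Ioi (0 : ℝ), maj x M rho s ≤ rho ^ (-x) * KM x0 x1 M r0 := by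
  have hrho : 0 < rho := by linarith
  have key := integral_comp_mul_left_Ioi
    (fun t : ℝ => Real.exp (-t) * t ^ (x - 1) * (1 + t / rho) ^ M) 0 hrho
  have e1 : ∀ s ∈ Ioi (0 : ℝ), maj x M rho s = rho ^ (-(x - 1)) *
      (Real.exp (-(rho * s)) * (rho * s) ^ (x - 1) * (1 + rho * s / rho) ^ M) := by
    intro s hs
    have hs' : (0 : ℝ) < s := hs
    unfold maj
    rw [Real.mul_rpow hrho.le hs'.le, mul_div_cancel_left₀ _ hrho.ne', Real.rpow_neg hrho.le]
    have : rho ^ (x - 1) ≠ 0 := (Real.rpow_pos_of_pos hrho _).ne'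
    field_simp
  rw [setIntegral_congr_fun measurableSet_Ioi e1, integral_const_mul, key, mul_zero, smul_eq_mul,
    ← mul_assoc]
  have e2 : rho ^ (-(x - 1)) * rho⁻¹ = rho ^ (-x) := by
    rw [← Real.rpow_neg_one, ← Real.rpow_add hrho]
    congr 1
    ring
  rw [e2]
  have hp : 0 ≤ rho ^ (-x) := Real.rpow_nonneg hrho.le _
  refine mul_le_mul_of_nonneg_left ?_ hp
  unfold KM
  have hbd : ∀ t ∈ Ioi (0 : ℝ), Real.exp (-t) * t ^ (x - 1) * (1 + t / rho) ^ M ≤
      Real.exp (-t) * (t ^ (x0 - 1) + t ^ (x1 - 1)) * (1 + t / r0) ^ M := by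
    intro t ht
    have ht' : (0 : ℝ) < t := ht
    have p0 := Real.rpow_nonneg ht'.le (x0 - 1)
    have p1 := Real.rpow_nonneg ht'.le (x1 - 1)
    have p2 := Real.rpow_nonneg ht'.le (x - 1)
    have := rpow_le_add ht' h0 h1
    gcongr
  have hi := KM_integrable (x0 := x0) (x1 := x1) hx0 (by linarith) M hr0
  refine setIntegral_mono_on ?_ hi measurableSet_Ioi hbd
  refine Integrable.mono' hi ?_ ?_
  · apply Measurable.aestronglyMeasurable
    fun_prop
  · filter_upwards [ae_restrict_mem measurableSet_Ioi] with t ht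
    have ht' : (0 : ℝ) < t := ht
    have p2 := Real.rpow_nonneg ht'.le (x - 1)
    rw [Real.norm_of_nonneg (by positivity)]
    exact hbd t ht

/-- Bound in terms of `Re z`. -/
theorem J_bound_re {a c z : ℂ} {x0 x1 r0 y : ℝ} (M : ℕ) (hx0 : 0 < x0) (h0 : x0 ≤ a.re)
    (h1 : a.re ≤ x1) (hr0 : 0 < r0) (hr : r0 ≤ z.re) (hc : c.re ≤ M) (hy : |c.im| ≤ y) :
    ‖J a c z‖ ≤ Real.exp (Real.pi * y) * KM x0 x1 M r0 * z.re ^ (-a.re) := by
  have ha : 0 < a.re := by linarith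
  have hz : 0 < z.re := by linarith
  have hb : ∀ s ∈ Ioi (0 : ℝ), ‖jf a c z s‖ ≤ Real.exp (Real.pi * y) * maj a.re M z.re s := by
    intro s hs
    have hs' : (0 : ℝ) < s := hs
    rw [norm_jf hs']
    unfold maj
    have e3 : ‖((1 : ℂ) + I * s) ^ c‖ ≤ (1 + s) ^ M * Real.exp (Real.pi * y) := by
      refine (norm_one_add_cpow_le hs'.le c M hc).trans ?_
      have : Real.pi * |c.im| ≤ Real.pi * y := mul_le_mul_of_nonneg_left hy Real.pi_pos.le
      gcongr
    have p2 := Real.rpow_nonneg hs'.le (a.re - 1)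
    calc Real.exp (-(z.re * s)) * s ^ (a.re - 1) * ‖((1 : ℂ) + I * s) ^ c‖
        ≤ Real.exp (-(z.re * s)) * s ^ (a.re - 1) * ((1 + s) ^ M * Real.exp (Real.pi * y)) := by
          gcongr
      _ = _ := by ring
  have hi := (maj_integrable ha hz M).const_mul (Real.exp (Real.pi * y))
  calc ‖J a c z‖ ≤ ∫ s in Ioi (0 : ℝ), Real.exp (Real.pi * y) * maj a.re M z.re s := by
        unfold J
        refine norm_integral_le_of_norm_le hi ?_
        filter_upwards [ae_restrict_mem measurableSet_Ioi] with s hs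
        exact hb s hs
    _ = Real.exp (Real.pi * y) * ∫ s in Ioi (0 : ℝ), maj a.re M z.re s := integral_const_mul _ _
    _ ≤ Real.exp (Real.pi * y) * (z.re ^ (-a.re) * KM x0 x1 M r0) := by
        gcongr
        exact maj_integral_le M hx0 h0 h1 hr0 hr
    _ = _ := by ring

theorem re_rpow_le {cth x x1 : ℝ} {z : ℂ} (hc : 0 < cth) (hc1 : cth ≤ 1) (hx : 0 ≤ x)
    (h1 : x ≤ x1) (hz0 : 0 < ‖z‖) (hz : cth * ‖z‖ ≤ z.re) :
    z.re ^ (-x) ≤ cth ^ (-x1) * ‖z‖ ^ (-x) := by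
  have hp : 0 < cth * ‖z‖ := by positivity
  have h2 : z.re ^ (-x) ≤ (cth * ‖z‖) ^ (-x) :=
    Real.rpow_le_rpow_of_nonpos hp hz (by linarith)
  rw [Real.mul_rpow hc.le hz0.le] at h2
  have h3 : cth ^ (-x) ≤ cth ^ (-x1) :=
    Real.rpow_le_rpow_of_exponent_ge hc hc1 (by linarith)
  have h4 : 0 ≤ ‖z‖ ^ (-x) := Real.rpow_nonneg hz0.le _
  exact h2.trans (mul_le_mul_of_nonneg_right h3 h4)

/-- SECTOR BOUND, uniform in the parameters. -/
theorem J_bound {x0 x1 r0 y cth : ℝ} (M : ℕ) (hx0 : 0 < x0) (hr0 : 0 < r0) (hcth : 0 < cth)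
    (hcth1 : cth ≤ 1) :
    ∃ K : ℝ, 0 ≤ K ∧ ∀ a c z : ℂ, x0 ≤ a.re → a.re ≤ x1 → c.re ≤ M → |c.im| ≤ y →
      r0 ≤ ‖z‖ → cth * ‖z‖ ≤ z.re → ‖J a c z‖ ≤ K * ‖z‖ ^ (-a.re) := by
  refine ⟨Real.exp (Real.pi * y) * KM x0 x1 M (cth * r0) * cth ^ (-x1), ?_, ?_⟩
  · have := KM_nonneg x0 x1 M (r0 := cth * r0) (by positivity)
    have := Real.rpow_nonneg hcth.le (-x1)
    positivity
  · intro a c z h0 h1 hc hy hr hz
    have hz0 : 0 < ‖z‖ := by linarith
    have h2 : cth * r0 ≤ z.re := (mul_le_mul_of_nonneg_left hr hcth.le).trans hz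
    have b1 := J_bound_re M hx0 h0 h1 (by positivity : 0 < cth * r0) h2 hc hy
    have b2 := re_rpow_le hcth hcth1 (by linarith : 0 ≤ a.re) h1 hz0 hz
    have k := KM_nonneg x0 x1 M (r0 := cth * r0) (by positivity)
    calc ‖J a c z‖ ≤ Real.exp (Real.pi * y) * KM x0 x1 M (cth * r0) * z.re ^ (-a.re) := b1
      _ ≤ Real.exp (Real.pi * y) * KM x0 x1 M (cth * r0) * (cth ^ (-x1) * ‖z‖ ^ (-a.re)) := by
          gcongr
      _ = _ := by ring

/-- `|(1+is)^c - 1| ≤ |c| s (1+s)^M e^{π|Im c|}`, `Re c ≤ M`. -/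
theorem norm_one_add_cpow_sub_one_le {s : ℝ} (hs : 0 ≤ s) (c : ℂ) (M : ℕ) (hM : c.re ≤ M) :
    ‖((1 : ℂ) + I * s) ^ c - 1‖ ≤ ‖c‖ * (1 + s) ^ M * Real.exp (Real.pi * |c.im|) * s := by
  have hder : ∀ t ∈ Icc (0 : ℝ) s, HasDerivWithinAt (fun t : ℝ => ((1 : ℂ) + I * t) ^ c)
      (c * (1 + I * (t : ℂ)) ^ (c - 1) * (I * 1)) (Icc 0 s) t := by
    intro t _
    have := (((hasDerivAt_id (t : ℂ)).const_mul I).const_add 1).cpow_const (c := c)
      (one_add_slit t)
    exact this.comp_ofReal.hasDerivWithinAt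
  have hb : ∀ t ∈ Icc (0 : ℝ) s, ‖c * (1 + I * (t : ℂ)) ^ (c - 1) * (I * 1)‖ ≤
      ‖c‖ * (1 + s) ^ M * Real.exp (Real.pi * |c.im|) := by
    intro t ht
    have h1 := norm_one_add_cpow_le ht.1 (c - 1) M (by simp; linarith)
    have h2 : (1 + t) ^ M ≤ (1 + s) ^ M := pow_le_pow_left₀ (by linarith [ht.1]) (by linarith [ht.2]) M
    have h3 : (c - 1).im = c.im := by simp
    rw [h3] at h1
    rw [norm_mul, norm_mul, mul_one, Complex.norm_I, mul_one]
    calc ‖c‖ * ‖(1 + I * (t : ℂ)) ^ (c - 1)‖ ≤ ‖c‖ * ((1 + t) ^ M * Real.exp (Real.pi * |c.im|)) := by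
          gcongr
      _ ≤ ‖c‖ * ((1 + s) ^ M * Real.exp (Real.pi * |c.im|)) := by gcongr
      _ = _ := by ring
  have := (convex_Icc (0 : ℝ) s).norm_image_sub_le_of_norm_hasDerivWithin_le hder hb
    (left_mem_Icc.mpr hs) (right_mem_Icc.mpr hs)
  simpa [abs_of_nonneg hs] using this

/-- `J a 0 z = Γ(a) z^{-a}`. -/
theorem J_zero {a z : ℂ} (ha : 0 < a.re) (hz : 0 < z.re) :
    J a 0 z = z ^ (-a) * Gamma a := by
  have hS : IsOpen {z : ℂ | 0 < z.re} := isOpen_lt (by fun_prop) (by fun_prop)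
  have hconv : Convex ℝ {z : ℂ | 0 < z.re} := convex_halfSpace_re_gt 0
  have hslit : ∀ w : ℂ, 0 < w.re → w ∈ slitPlane := fun w hw => Or.inl hw
  have hder : ∀ w ∈ {z : ℂ | 0 < z.re}, HasDerivAt (fun w : ℂ => w ^ a * J a 0 w) 0 w := by
    intro w hw
    have hw' : 0 < w.re := hw
    have hw0 : w ≠ 0 := by rintro rfl; simp at hw'
    have h1 := (hasDerivAt_id w).cpow_const (c := a) (hslit w hw)
    have h2 := J_hasDerivAt (c := 0) ha hw'
    have h3 := h1.mul h2
    have h4 := J_ibp1 (c := 0) ha hw'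
    simp only [mul_zero, zero_mul, add_zero] at h4
    have h5 : w ^ a = w ^ (a - 1) * w := by
      rw [Complex.cpow_sub _ _ hw0, Complex.cpow_one]
      field_simp
    refine h3.congr_deriv ?_
    simp only [id_eq]
    rw [h5]
    linear_combination (-(w ^ (a - 1))) * h4
  have hconst : ∀ w ∈ {z : ℂ | 0 < z.re}, w ^ a * J a 0 w = (1 : ℂ) ^ a * J a 0 1 := by
    intro w hw
    refine hconv.is_const_of_fderivWithin_eq_zero (𝕜 := ℂ) (f := fun w : ℂ => w ^ a * J a 0 w)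
      (fun w hw => (hder w hw).differentiableAt.differentiableWithinAt) ?_ hw (by simp)
    intro w hw
    rw [fderivWithin_of_isOpen hS hw]
    have := (hder w hw).hasFDerivAt.fderiv
    rw [this]
    ext
    simp
  have h1 := hconst z hz
  have hG : J a 0 1 = Gamma a := by
    rw [Complex.Gamma_eq_integral ha, Complex.GammaIntegral]
    unfold J jf
    apply setIntegral_congr_fun measurableSet_Ioi
    intro s _
    simp
  rw [Complex.one_cpow, one_mul, hG] at h1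
  have hz0 : z ≠ 0 := by rintro rfl; simp at hz
  rw [← h1, ← mul_assoc, ← Complex.cpow_add _ _ hz0]
  simp

/-- remainder after the leading term, in terms of `Re z`. -/
theorem J_sub_bound_re {a c z : ℂ} {x0 x1 r0 y : ℝ} (M : ℕ) (hx0 : 0 < x0) (h0 : x0 ≤ a.re)
    (h1 : a.re ≤ x1) (hr0 : 0 < r0) (hr : r0 ≤ z.re) (hc : c.re ≤ M) (hy : |c.im| ≤ y) :
    ‖J a c z - z ^ (-a) * Gamma a‖ ≤
      ‖c‖ * Real.exp (Real.pi * y) * KM (x0 + 1) (x1 + 1) M r0 * z.re ^ (-(a.re + 1)) := by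
  have ha : 0 < a.re := by linarith
  have hz : 0 < z.re := by linarith
  rw [← J_zero ha hz]
  have hb : ∀ s ∈ Ioi (0 : ℝ), ‖jf a c z s - jf a 0 z s‖ ≤
      (‖c‖ * Real.exp (Real.pi * y)) * maj (a.re + 1) M z.re s := by
    intro s hs
    have hs' : (0 : ℝ) < s := hs
    have e : jf a c z s - jf a 0 z s = jf a 0 z s * (((1 : ℂ) + I * s) ^ c - 1) := by
      unfold jf
      simp
      ring
    rw [e, norm_mul, norm_jf hs']
    unfold maj
    have e3 := norm_one_add_cpow_sub_one_le hs'.le c M hc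
    have e4 : Real.exp (Real.pi * |c.im|) ≤ Real.exp (Real.pi * y) := by
      apply Real.exp_le_exp.mpr
      exact mul_le_mul_of_nonneg_left hy Real.pi_pos.le
    have p2 := Real.rpow_nonneg hs'.le (a.re - 1)
    have e5 : s ^ (a.re + 1 - 1) = s ^ (a.re - 1) * s := by
      rw [show a.re + 1 - 1 = (a.re - 1) + 1 by ring, Real.rpow_add hs', Real.rpow_one]
    rw [e5]
    simp only [Complex.cpow_zero, norm_one, mul_one]
    calc Real.exp (-(z.re * s)) * s ^ (a.re - 1) * ‖((1 : ℂ) + I * s) ^ c - 1‖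
        ≤ Real.exp (-(z.re * s)) * s ^ (a.re - 1) *
          (‖c‖ * (1 + s) ^ M * Real.exp (Real.pi * y) * s) := by
          gcongr
          refine e3.trans ?_
          gcongr
      _ = _ := by ring
  have hi := (maj_integrable (x := a.re + 1) (by linarith) hz M).const_mul
    (‖c‖ * Real.exp (Real.pi * y))
  have hsub : J a c z - J a 0 z = ∫ s in Ioi (0 : ℝ), (jf a c z s - jf a 0 z s) := by
    unfold J
    rw [integral_sub (jf_integrable ha hz) (jf_integrable ha hz)]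
  calc ‖J a c z - J a 0 z‖
      ≤ ∫ s in Ioi (0 : ℝ), (‖c‖ * Real.exp (Real.pi * y)) * maj (a.re + 1) M z.re s := by
        rw [hsub]
        refine norm_integral_le_of_norm_le hi ?_
        filter_upwards [ae_restrict_mem measurableSet_Ioi] with s hs
        exact hb s hs
    _ = (‖c‖ * Real.exp (Real.pi * y)) * ∫ s in Ioi (0 : ℝ), maj (a.re + 1) M z.re s :=
        integral_const_mul _ _
    _ ≤ (‖c‖ * Real.exp (Real.pi * y)) *
        (z.re ^ (-(a.re + 1)) * KM (x0 + 1) (x1 + 1) M r0) := by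
        gcongr
        exact maj_integral_le M (by linarith) (by linarith) (by linarith) hr0 hr
    _ = _ := by ring

/-- ASYMPTOTICS in a sector, uniform in the parameters. -/
theorem J_asymp {x0 x1 r0 y cth : ℝ} (M : ℕ) (hx0 : 0 < x0) (hr0 : 0 < r0) (hcth : 0 < cth)
    (hcth1 : cth ≤ 1) :
    ∃ K : ℝ, 0 ≤ K ∧ ∀ a c z : ℂ, x0 ≤ a.re → a.re ≤ x1 → |a.im| ≤ y → c.re ≤ M → ‖c‖ ≤ y →
      r0 ≤ ‖z‖ → cth * ‖z‖ ≤ z.re → ‖z ^ a * J a c z - Gamma a‖ ≤ K / ‖z‖ := by
  refine ⟨|y| * Real.exp (Real.pi * y) * KM (x0 + 1) (x1 + 1) M (cth * r0) * cth ^ (-(x1 + 1)) *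
    Real.exp (Real.pi * y), ?_, ?_⟩
  · have := KM_nonneg (x0 + 1) (x1 + 1) M (r0 := cth * r0) (by positivity)
    have := Real.rpow_nonneg hcth.le (-(x1 + 1))
    positivity
  · intro a c z h0 h1 hay hc hcy hr hz
    have hz0 : 0 < ‖z‖ := by linarith
    have hzne : z ≠ 0 := norm_pos_iff.mp hz0
    have hy0 : 0 ≤ y := (norm_nonneg c).trans hcy
    have hzre : 0 < z.re := lt_of_lt_of_le (by positivity) hz
    have h2 : cth * r0 ≤ z.re := (mul_le_mul_of_nonneg_left hr hcth.le).trans hz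
    have b1 := J_sub_bound_re M hx0 h0 h1 (by positivity : 0 < cth * r0) h2 hc
      ((Complex.abs_im_le_norm c).trans hcy)
    have b2 := re_rpow_le hcth hcth1 (by linarith : 0 ≤ a.re + 1) (by linarith : a.re + 1 ≤ x1 + 1)
      hz0 hz
    have k := KM_nonneg (x0 + 1) (x1 + 1) M (r0 := cth * r0) (by positivity)
    have e1 : z ^ a * J a c z - Gamma a = z ^ a * (J a c z - z ^ (-a) * Gamma a) := by
      rw [mul_sub, ← mul_assoc, ← Complex.cpow_add _ _ hzne]
      simp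
    have e2 : ‖z ^ a‖ ≤ ‖z‖ ^ a.re * Real.exp (Real.pi * y) := by
      rw [Complex.norm_cpow_of_ne_zero hzne, div_eq_mul_inv, ← Real.exp_neg]
      have : -(arg z * a.im) ≤ Real.pi * y := by
        calc -(arg z * a.im) ≤ |arg z * a.im| := neg_le_abs _
          _ = |arg z| * |a.im| := abs_mul _ _
          _ ≤ Real.pi * y := by
            apply mul_le_mul (Complex.abs_arg_le_pi z) hay (abs_nonneg _) Real.pi_pos.le
      have := Real.exp_le_exp.mpr this
      gcongr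
    have hpz := Real.rpow_nonneg hz0.le (a.re)
    rw [e1, norm_mul]
    calc ‖z ^ a‖ * ‖J a c z - z ^ (-a) * Gamma a‖
        ≤ (‖z‖ ^ a.re * Real.exp (Real.pi * y)) *
          (‖c‖ * Real.exp (Real.pi * y) * KM (x0 + 1) (x1 + 1) M (cth * r0)
            * z.re ^ (-(a.re + 1))) := by
          apply mul_le_mul e2 b1 (norm_nonneg _)
          positivity
      _ ≤ (‖z‖ ^ a.re * Real.exp (Real.pi * y)) *
          (|y| * Real.exp (Real.pi * y) * KM (x0 + 1) (x1 + 1) M (cth * r0)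
            * (cth ^ (-(x1 + 1)) * ‖z‖ ^ (-(a.re + 1)))) := by
          have : ‖c‖ ≤ |y| := hcy.trans (le_abs_self y)
          gcongr
      _ = |y| * Real.exp (Real.pi * y) * KM (x0 + 1) (x1 + 1) M (cth * r0) * cth ^ (-(x1 + 1)) *
          Real.exp (Real.pi * y) * (‖z‖ ^ a.re * ‖z‖ ^ (-(a.re + 1))) := by ring
      _ = _ := by
          rw [← Real.rpow_add hz0, show a.re + -(a.re + 1) = -1 by ring, Real.rpow_neg_one]
          ring

end Crest.Agent.R086.JCx
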