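import Mathlib
import Crest.Agent.R086.JAs

/-!
Row 86, Part A (helper444): the outgoing solution
`W a b z = (a+1-b-i z) J(a+1,b-a-2,z) + z J(a+2,b-a-2,z)` (Re a > -1, Re z > 0) of
`z W'' + (b + i z) W' + i a W = 0`.
`W a b z = -i a J(a,b-a-1,z)` for `Re a > 0`; `W a b z = Γ(a+1)/i^{a+1} · U(a,b,-i z)` (Tricomi).
-/

set_option autoImplicit false

open MeasureTheory Complex Set Filter Topology

namespace Crest.Agent.R086.JCx

/-- outgoing solution -/
noncomputable def W (a b z : ℂ) : ℂ :=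
  (a + 1 - b - I * z) * J (a + 1) (b - a - 2) z + z * J (a + 2) (b - a - 2) z

/-- its first derivative -/
noncomputable def W1 (a b z : ℂ) : ℂ := I * a * J (a + 1) (b - a - 1) z

/-- its second derivative -/
noncomputable def W2 (a b z : ℂ) : ℂ := -I * a * J (a + 2) (b - a - 1) z

theorem W_eq {a b z : ℂ} (ha : 0 < a.re) (hz : 0 < z.re) :
    W a b z = -I * a * J a (b - a - 1) z := by
  have h1 : 0 < (a + 1).re := by simp; linarith
  have e1 := J_ibp (c := b - a - 2) ha hz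
  have e2 := J_shift (c := b - a - 2) ha hz
  rw [show b - a - 2 + 1 = b - a - 1 by ring] at e2
  unfold W
  rw [e1, e2]
  have hI : I * I = -1 := Complex.I_mul_I
  linear_combination (a * J (a + 1) (b - a - 2) z) * hI

theorem W_hasDerivAt {a b z : ℂ} (ha : -1 < a.re) (hz : 0 < z.re) :
    HasDerivAt (W a b) (W1 a b z) z := by
  have h1 : 0 < (a + 1).re := by simp; linarith
  have h2 : 0 < (a + 2).re := by simp; linarith
  have d1 := J_hasDerivAt (c := b - a - 2) h1 hz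
  have d2 := J_hasDerivAt (c := b - a - 2) h2 hz
  have e1 := J_ibp (c := b - a - 2) h1 hz
  have e2 := J_shift (c := b - a - 2) h1 hz
  rw [show b - a - 2 + 1 = b - a - 1 by ring, show a + 1 + 1 = a + 2 by ring] at e2
  rw [show a + 1 + 2 = a + 2 + 1 by ring, show a + 1 + 1 = a + 2 by ring] at e1
  have hlin : HasDerivAt (fun z : ℂ => a + 1 - b - I * z) (-(I * 1)) z := by
    have := ((hasDerivAt_id z).const_mul I).const_sub (a + 1 - b)
    exact this
  have h := (hlin.mul d1).add ((hasDerivAt_id z).mul d2)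
  rw [show a + 1 + 1 = a + 2 by ring] at h
  unfold W1
  refine h.congr_deriv ?_
  simp only [id_eq]
  rw [e2]
  have hI : I * I = -1 := Complex.I_mul_I
  linear_combination -e1 - (a * J (a + 2) (b - a - 2) z) * hI

theorem W1_hasDerivAt {a b z : ℂ} (ha : -1 < a.re) (hz : 0 < z.re) :
    HasDerivAt (W1 a b) (W2 a b z) z := by
  have h1 : 0 < (a + 1).re := by simp; linarith
  have d1 := (J_hasDerivAt (c := b - a - 1) h1 hz).const_mul (I * a)
  rw [show a + 1 + 1 = a + 2 by ring] at d1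
  unfold W2
  refine d1.congr_deriv ?_
  ring

/-- Kummer's equation. -/
theorem W_ode {a b z : ℂ} (ha : -1 < a.re) (hz : 0 < z.re) :
    z * W2 a b z + (b + I * z) * W1 a b z + I * a * W a b z = 0 := by
  have h1 : 0 < (a + 1).re := by simp; linarith
  have h2 : 0 < (a + 2).re := by simp; linarith
  have e1 := J_ibp (c := b - a - 2) h1 hz
  have e2 := J_shift (c := b - a - 2) h1 hz
  have e3 := J_shift (c := b - a - 2) h2 hz
  rw [show b - a - 2 + 1 = b - a - 1 by ring, show a + 1 + 1 = a + 2 by ring] at e2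
  rw [show b - a - 2 + 1 = b - a - 1 by ring] at e3
  rw [show a + 1 + 2 = a + 2 + 1 by ring, show a + 1 + 1 = a + 2 by ring] at e1
  unfold W W1 W2
  rw [e2, e3]
  have hI : I * I = -1 := Complex.I_mul_I
  set j1 := J (a + 1) (b - a - 2) z
  set j2 := J (a + 2) (b - a - 2) z
  set j3 := J (a + 2 + 1) (b - a - 2) z
  linear_combination (-(I * I * a)) * e1
    + (a * I * ((a + 1) * j1)) * hI

/-- ASYMPTOTICS of `W` in a sector, uniform in the parameters:
`z^a W a b z → -i Γ(a+1)`. -/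
theorem W_asymp {x0 x1 r0 y cth : ℝ} (hx0 : -1 < x0) (hr0 : 0 < r0) (hcth : 0 < cth)
    (hcth1 : cth ≤ 1) :
    ∃ K : ℝ, 0 ≤ K ∧ ∀ a b z : ℂ, x0 ≤ a.re → a.re ≤ x1 → |a.im| ≤ y → ‖b‖ ≤ y →
      r0 ≤ ‖z‖ → cth * ‖z‖ ≤ z.re → ‖z ^ a * W a b z + I * Gamma (a + 1)‖ ≤ K / ‖z‖ := by
  obtain ⟨M, hM⟩ := exists_nat_ge (|y| + |x0|)
  set y' : ℝ := 2 * |y| + |x0| + |x1| + 3 with hy'
  obtain ⟨K1, hK1, h1⟩ := J_asymp (x0 := x0 + 1) (x1 := x1 + 1) (r0 := r0) (y := y') (cth := cth) M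
    (by linarith) hr0 hcth hcth1
  obtain ⟨K2, hK2, h2⟩ := J_asymp (x0 := x0 + 2) (x1 := x1 + 2) (r0 := r0) (y := y') (cth := cth) M
    (by linarith) hr0 hcth hcth1
  -- bound for Gamma on the strip
  obtain ⟨G1, hG1⟩ : ∃ G1 : ℝ, 0 ≤ G1 ∧ ∀ a : ℂ, x0 + 1 ≤ a.re → a.re ≤ x1 + 2 → ‖Gamma a‖ ≤ G1 := by
    refine ⟨KM (x0 + 1) (x1 + 2) 0 1, KM_nonneg _ _ _ one_pos, ?_⟩
    intro a ha0 ha1
    have ha : 0 < a.re := by linarith
    have hz1 : (0 : ℝ) < (1 : ℂ).re := by simp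
    have := J_bound_re (a := a) (c := 0) (z := 1) (x0 := x0 + 1) (x1 := x1 + 2) (r0 := 1)
      (y := 0) 0 (by linarith) ha0 ha1 one_pos (by simp) (by simp) (by simp)
    rw [J_zero ha hz1] at this
    simpa using this
  refine ⟨K1 + (2 * y' * (G1 + K1 / r0) + (G1 + K2 / r0)), ?_, ?_⟩
  · have hy0 : 0 ≤ y' := by positivity
    have := hG1.1
    positivity
  intro a b z ha0 ha1 hay hb hr hz
  have hz0 : 0 < ‖z‖ := by linarith
  have hzne : z ≠ 0 := norm_pos_iff.mp hz0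
  have hy0 : 0 ≤ y := (norm_nonneg b).trans hb
  have habs : |y| = y := abs_of_nonneg hy0
  have hre : |a.re| ≤ |x0| + |x1| := by
    rw [abs_le]
    constructor
    · have := neg_abs_le x0; have := abs_nonneg x1; linarith
    · have := le_abs_self x1; have := abs_nonneg x0; linarith
  have hna : ‖a‖ ≤ |x0| + |x1| + y := by
    have := Complex.norm_le_abs_re_add_abs_im a
    linarith
  have hbre : |b.re| ≤ y := (Complex.abs_re_le_norm b).trans hb
  have hcre : (b - a - 2).re ≤ M := by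
    have h3 := le_abs_self b.re
    have h4 := neg_abs_le x0
    simp
    linarith
  have hcn : ‖b - a - 2‖ ≤ y' := by
    calc ‖b - a - 2‖ ≤ ‖b - a‖ + ‖(2 : ℂ)‖ := norm_sub_le _ _
      _ ≤ (‖b‖ + ‖a‖) + ‖(2 : ℂ)‖ := by gcongr; exact norm_sub_le _ _
      _ ≤ y' := by
        rw [Complex.norm_ofNat, hy', habs]
        linarith
  have hay1 : |(a + 1).im| ≤ y' := by
    have : (a + 1).im = a.im := by simp
    rw [this, hy', habs]
    have := abs_nonneg x0; have := abs_nonneg x1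
    linarith
  have hay2 : |(a + 2).im| ≤ y' := by
    have : (a + 2).im = a.im := by simp
    rw [this, hy', habs]
    have := abs_nonneg x0; have := abs_nonneg x1
    linarith
  have b1 := h1 (a + 1) (b - a - 2) z (by simp; linarith) (by simp; linarith) hay1 hcre hcn hr hz
  have b2 := h2 (a + 2) (b - a - 2) z (by simp; linarith) (by simp; linarith) hay2 hcre hcn hr hz
  set T1 := z ^ (a + 1) * J (a + 1) (b - a - 2) z with hT1
  set T2 := z ^ (a + 2) * J (a + 2) (b - a - 2) z with hT2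
  have p1 : z ^ (a + 1) = z ^ a * z := by rw [Complex.cpow_add _ _ hzne, Complex.cpow_one]
  have p2 : z ^ (a + 2) = z ^ a * z * z := by
    rw [show a + 2 = a + 1 + 1 by ring, Complex.cpow_add _ _ hzne, Complex.cpow_one, p1]
  have e1 : z ^ a * W a b z + I * Gamma (a + 1) =
      -I * (T1 - Gamma (a + 1)) + ((a + 1 - b) * T1 + T2) / z := by
    rw [hT1, hT2, p1, p2]
    unfold W
    field_simp
    ring
  have hT1n : ‖T1‖ ≤ G1 + K1 / r0 := by
    have g := hG1.2 (a + 1) (by simp; linarith) (by simp; linarith)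
    have k : K1 / ‖z‖ ≤ K1 / r0 := by gcongr
    calc ‖T1‖ = ‖Gamma (a + 1) + (T1 - Gamma (a + 1))‖ := by ring_nf
      _ ≤ ‖Gamma (a + 1)‖ + ‖T1 - Gamma (a + 1)‖ := norm_add_le _ _
      _ ≤ _ := by linarith
  have hT2n : ‖T2‖ ≤ G1 + K2 / r0 := by
    have g := hG1.2 (a + 2) (by simp; linarith) (by simp; linarith)
    have k : K2 / ‖z‖ ≤ K2 / r0 := by gcongr
    calc ‖T2‖ = ‖Gamma (a + 2) + (T2 - Gamma (a + 2))‖ := by ring_nf
      _ ≤ ‖Gamma (a + 2)‖ + ‖T2 - Gamma (a + 2)‖ := norm_add_le _ _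
      _ ≤ _ := by linarith
  have hab : ‖a + 1 - b‖ ≤ 2 * y' := by
    calc ‖a + 1 - b‖ ≤ ‖a + 1‖ + ‖b‖ := norm_sub_le _ _
      _ ≤ (‖a‖ + ‖(1 : ℂ)‖) + ‖b‖ := by gcongr; exact norm_add_le _ _
      _ ≤ 2 * y' := by
        rw [norm_one, hy', habs]
        have := abs_nonneg x0; have := abs_nonneg x1
        linarith
  have hG10 := hG1.1
  rw [e1]
  calc ‖-I * (T1 - Gamma (a + 1)) + ((a + 1 - b) * T1 + T2) / z‖
      ≤ ‖-I * (T1 - Gamma (a + 1))‖ + ‖((a + 1 - b) * T1 + T2) / z‖ := norm_add_le _ _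
    _ = ‖T1 - Gamma (a + 1)‖ + ‖(a + 1 - b) * T1 + T2‖ / ‖z‖ := by
        rw [norm_mul, norm_neg, Complex.norm_I, one_mul, norm_div]
    _ ≤ K1 / ‖z‖ + (2 * y' * (G1 + K1 / r0) + (G1 + K2 / r0)) / ‖z‖ := by
        gcongr
        calc ‖(a + 1 - b) * T1 + T2‖ ≤ ‖(a + 1 - b) * T1‖ + ‖T2‖ := norm_add_le _ _
          _ = ‖a + 1 - b‖ * ‖T1‖ + ‖T2‖ := by rw [norm_mul]
          _ ≤ _ := by gcongr
    _ = _ := by ring

/-- joint holomorphy of `W` along differentiable parameters. -/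
theorem W_differentiableAt {f g h : ℂ → ℂ} {w : ℂ} (hf : DifferentiableAt ℂ f w)
    (hg : DifferentiableAt ℂ g w) (hh : DifferentiableAt ℂ h w) (h1 : -1 < (f w).re)
    (h2 : 0 < (h w).re) : DifferentiableAt ℂ (fun w => W (f w) (g w) (h w)) w := by
  unfold W
  have a1 : 0 < (f w + 1).re := by simp; linarith
  have a2 : 0 < (f w + 2).re := by simp; linarith
  have j1 := J_differentiableAt (f := fun w => f w + 1) (g := fun w => g w - f w - 2) (h := h)
    (w := w) (by fun_prop) (by fun_prop) hh a1 h2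
  have j2 := J_differentiableAt (f := fun w => f w + 2) (g := fun w => g w - f w - 2) (h := h)
    (w := w) (by fun_prop) (by fun_prop) hh a2 h2
  fun_prop

theorem W1_differentiableAt {f g h : ℂ → ℂ} {w : ℂ} (hf : DifferentiableAt ℂ f w)
    (hg : DifferentiableAt ℂ g w) (hh : DifferentiableAt ℂ h w) (h1 : -1 < (f w).re)
    (h2 : 0 < (h w).re) : DifferentiableAt ℂ (fun w => W1 (f w) (g w) (h w)) w := by
  unfold W1
  have a1 : 0 < (f w + 1).re := by simp; linarith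
  have j1 := J_differentiableAt (f := fun w => f w + 1) (g := fun w => g w - f w - 1) (h := h)
    (w := w) (by fun_prop) (by fun_prop) hh a1 h2
  fun_prop

/-- joint continuity of `W`. -/
theorem W_continuousAt {p : ℂ × ℂ × ℂ} (h1 : -1 < p.1.re) (h2 : 0 < p.2.2.re) :
    ContinuousAt (fun p : ℂ × ℂ × ℂ => W p.1 p.2.1 p.2.2) p := by
  unfold W
  have a1 : 0 < (p.1 + 1).re := by simp; linarith
  have a2 : 0 < (p.1 + 2).re := by simp; linarith
  have j1 : ContinuousAt (fun p : ℂ × ℂ × ℂ => J (p.1 + 1) (p.2.1 - p.1 - 2) p.2.2) p := by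
    have hk : ContinuousAt (fun p : ℂ × ℂ × ℂ => (p.1 + 1, p.2.1 - p.1 - 2, p.2.2)) p := by
      fun_prop
    exact ContinuousAt.comp (f := fun p : ℂ × ℂ × ℂ => (p.1 + 1, p.2.1 - p.1 - 2, p.2.2))
      (J_continuousAt (p := (p.1 + 1, p.2.1 - p.1 - 2, p.2.2)) ⟨a1, h2⟩) hk
  have j2 : ContinuousAt (fun p : ℂ × ℂ × ℂ => J (p.1 + 2) (p.2.1 - p.1 - 2) p.2.2) p := by
    have hk : ContinuousAt (fun p : ℂ × ℂ × ℂ => (p.1 + 2, p.2.1 - p.1 - 2, p.2.2)) p := by
      fun_prop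
    exact ContinuousAt.comp (f := fun p : ℂ × ℂ × ℂ => (p.1 + 2, p.2.1 - p.1 - 2, p.2.2))
      (J_continuousAt (p := (p.1 + 2, p.2.1 - p.1 - 2, p.2.2)) ⟨a2, h2⟩) hk
  fun_prop

theorem W1_continuousAt {p : ℂ × ℂ × ℂ} (h1 : -1 < p.1.re) (h2 : 0 < p.2.2.re) :
    ContinuousAt (fun p : ℂ × ℂ × ℂ => W1 p.1 p.2.1 p.2.2) p := by
  unfold W1
  have a1 : 0 < (p.1 + 1).re := by simp; linarith
  have j1 : ContinuousAt (fun p : ℂ × ℂ × ℂ => J (p.1 + 1) (p.2.1 - p.1 - 1) p.2.2) p := by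
    have hk : ContinuousAt (fun p : ℂ × ℂ × ℂ => (p.1 + 1, p.2.1 - p.1 - 1, p.2.2)) p := by
      fun_prop
    exact ContinuousAt.comp (f := fun p : ℂ × ℂ × ℂ => (p.1 + 1, p.2.1 - p.1 - 1, p.2.2))
      (J_continuousAt (p := (p.1 + 1, p.2.1 - p.1 - 1, p.2.2)) ⟨a1, h2⟩) hk
  fun_prop

end Crest.Agent.R086.JCx
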