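import Mathlib
import Crest.Agent.R086.JW

/-!
Row 86, Part A (captain helper522): what Part A exports to Parts B and C.

`fo l mu` is THE outgoing (slow, symbol-type) solution of
  `f'' + (11/r + i r/2) f' - l(l+10)/r² f + i mu f = 0`,   `mu = lam + eps - i om`.
It is (definitionally) 444's `JCx.Phi l mu`, and `fo1` is its `r`-derivative `JCx.Phi1 l mu`.
-/

set_option autoImplicit false

open Complex Set

namespace Crest.Agent.R086.A

open Crest.Agent.R086.JCx (W W1)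

/-- outgoing radial solution of degree `l`, parameter `mu = lam + eps - i om` -/
noncomputable def fo (l : ℕ) (mu : ℂ) (r : ℝ) : ℂ :=
  (r : ℂ) ^ l * W (mu + l / 2) (l + 6) ((r ^ 2 / 4 : ℝ) : ℂ)

/-- its `r`-derivative -/
noncomputable def fo1 (l : ℕ) (mu : ℂ) (r : ℝ) : ℂ :=
  (l : ℂ) / r * fo l mu r + (r : ℂ) ^ l * (r / 2) * W1 (mu + l / 2) (l + 6) ((r ^ 2 / 4 : ℝ) : ℂ)

/-- solution of the conjugate equation: `go l mu' r = conj (fo l (conj mu') r)`, `mu' = lam + eps + i om` -/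
noncomputable def go (l : ℕ) (mu : ℂ) (r : ℝ) : ℂ :=
  (starRingEnd ℂ) (fo l ((starRingEnd ℂ) mu) r)

noncomputable def go1 (l : ℕ) (mu : ℂ) (r : ℝ) : ℂ :=
  (starRingEnd ℂ) (fo1 l ((starRingEnd ℂ) mu) r)

/-- Limit (n = ∞) Wronskian of degree `l`: with `f = fo l (lam - i om)`, `g = go l (lam + i om)`,
`f (g' - (l/R) g) + g (f' - (l/R) f)` at `R`; it is minus the determinant of the system
`c1 f + c2 g = 0`, `c1 (f' - (l/R) f) - c2 (g' - (l/R) g) = 0`. -/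
noncomputable def Wr (l : ℕ) (om R : ℝ) (lam : ℂ) : ℂ :=
  fo l (lam - I * om) R * (go1 l (lam + I * om) R - (l : ℂ) / R * go l (lam + I * om) R) +
  go l (lam + I * om) R * (fo1 l (lam - I * om) R - (l : ℂ) / R * fo l (lam - I * om) R)

/-- Everything about `n = ∞`. `om = 0.334776068714`, `R²/4 = 2.705068192935`, `R = 3.28941...` -/
structure AData where
  om : ℝ
  R : ℝ
  om_mem : om ∈ Icc (0.3347760 : ℝ) 0.3347762
  rho_mem : R ^ 2 / 4 ∈ Icc (2.7050680 : ℝ) 2.7050684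
  R_pos : 0 < R
  /-- `U(R) ≠ 0`, `U'(R) = 0` -/
  fo_ne : fo 0 (-(I * om)) R ≠ 0
  fo1_zero : fo1 0 (-(I * om)) R = 0
  /-- nondegeneracy of the zero `(om', r) ↦ f_out'(r; om')` -/
  nondeg : ∃ L : (ℝ × ℝ) ≃L[ℝ] ℂ,
    HasStrictFDerivAt (fun p : ℝ × ℝ => fo1 0 (-(I * p.1)) p.2) (L : (ℝ × ℝ) →L[ℝ] ℂ) (om, R)
  /-- `|U|` is strictly decreasing outside the core -/
  anti : StrictAntiOn (fun r => ‖fo 0 (-(I * om)) r‖) (Ici R)
  /-- and bounded below (`inf |U| / |U(R)| = 0.70058`) -/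
  lower : ∀ r, R ≤ r → 3 / 5 * ‖fo 0 (-(I * om)) R‖ ≤ ‖fo 0 (-(I * om)) r‖
  /-- A4: the only limit modes in the closed right half plane are the symmetries -/
  wr_ne : ∀ (l : ℕ) (lam : ℂ), 0 ≤ lam.re → Wr l om R lam = 0 →
    (l = 0 ∧ (lam = 0 ∨ lam = 1)) ∨ (l = 1 ∧ lam = 1 / 2)
  /-- the three symmetry zeros are simple -/
  zero0 : Wr 0 om R 0 = 0
  zero1 : Wr 0 om R 1 = 0
  zero2 : Wr 1 om R (1 / 2) = 0
  simple0 : ∃ w : ℂ, w ≠ 0 ∧ HasDerivAt (Wr 0 om R) w 0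
  simple1 : ∃ w : ℂ, w ≠ 0 ∧ HasDerivAt (Wr 0 om R) w 1
  simple2 : ∃ w : ℂ, w ≠ 0 ∧ HasDerivAt (Wr 1 om R) w (1 / 2)

/-- TARGET OF PART A -/
def PartA : Prop := Nonempty AData

/-- linear algebra form of `wr_ne` -/
theorem AData.modes (D : AData) (l : ℕ) (lam : ℂ) (h : 0 ≤ lam.re) (c1 c2 : ℂ)
    (h1 : c1 * fo l (lam - I * D.om) D.R + c2 * go l (lam + I * D.om) D.R = 0)
    (h2 : c1 * (fo1 l (lam - I * D.om) D.R - (l : ℂ) / D.R * fo l (lam - I * D.om) D.R)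
      - c2 * (go1 l (lam + I * D.om) D.R - (l : ℂ) / D.R * go l (lam + I * D.om) D.R) = 0) :
    (c1 = 0 ∧ c2 = 0) ∨ (l = 0 ∧ (lam = 0 ∨ lam = 1)) ∨ (l = 1 ∧ lam = 1 / 2) := by
  by_cases hW : Wr l D.om D.R lam = 0
  · exact Or.inr (D.wr_ne l lam h hW)
  · left
    unfold Wr at hW
    set f := fo l (lam - I * D.om) D.R
    set g := go l (lam + I * D.om) D.R
    set f' := fo1 l (lam - I * D.om) D.R - (l : ℂ) / D.R * f
    set g' := go1 l (lam + I * D.om) D.R - (l : ℂ) / D.R * g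
    constructor
    · have : c1 * (f * g' + g * f') = 0 := by linear_combination g' * h1 + g * h2
      exact (mul_eq_zero.mp this).resolve_right hW
    · have : c2 * (f * g' + g * f') = 0 := by linear_combination f' * h1 - f * h2
      exact (mul_eq_zero.mp this).resolve_right hW

/-- the Wronskian in terms of `W`, `W1` at `rho = R²/4` -/
theorem Wr_eq (l : ℕ) (om R : ℝ) (lam : ℂ) :
    Wr l om R lam = (R : ℂ) ^ (2 * l) * (R / 2) *
      (W (lam + l / 2 - I * om) (l + 6) ((R ^ 2 / 4 : ℝ) : ℂ) *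
        (starRingEnd ℂ) (W1 ((starRingEnd ℂ) lam + l / 2 - I * om) (l + 6) ((R ^ 2 / 4 : ℝ) : ℂ)) +
      (starRingEnd ℂ) (W ((starRingEnd ℂ) lam + l / 2 - I * om) (l + 6) ((R ^ 2 / 4 : ℝ) : ℂ)) *
        W1 (lam + l / 2 - I * om) (l + 6) ((R ^ 2 / 4 : ℝ) : ℂ)) := by
  have e1 : lam - I * om + l / 2 = lam + l / 2 - I * om := by ring
  have e2 : (starRingEnd ℂ) (lam + I * om) + l / 2 = (starRingEnd ℂ) lam + l / 2 - I * om := by
    simp only [map_add, map_mul, conj_I, conj_ofReal]; ring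
  unfold Wr go go1 fo1 fo
  rw [e1, e2]
  simp only [map_add, map_mul, map_pow, map_div₀, conj_ofReal, map_natCast, map_ofNat]
  ring

/-- 594's form (note 12770) of the limit determinant, `JCx.Phi`, `JCx.Phi1` = `fo`, `fo1` -/
noncomputable def Psi (l : ℕ) (mu : ℂ) (r : ℝ) : ℂ := fo1 l mu r - (l : ℂ) / r * fo l mu r

noncomputable def DetL (om0 R : ℝ) (l : ℕ) (lam : ℂ) : ℂ :=
  fo l (lam - I * om0) R * (starRingEnd ℂ) (Psi l ((starRingEnd ℂ) lam - I * om0) R) +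
  (starRingEnd ℂ) (fo l ((starRingEnd ℂ) lam - I * om0) R) * Psi l (lam - I * om0) R

theorem DetL_eq (om R : ℝ) (l : ℕ) (lam : ℂ) : DetL om R l lam = Wr l om R lam := by
  have e : (starRingEnd ℂ) (lam + I * om) = (starRingEnd ℂ) lam - I * om := by
    simp only [map_add, map_mul, conj_I, conj_ofReal]; ring
  unfold DetL Wr Psi go go1
  rw [e]
  simp only [map_sub, map_mul, map_div₀, conj_ofReal, map_natCast]

/-- the limit spectral statement used by Part C (594, note 12770) -/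
structure LimitSpec (om0 R : ℝ) : Prop where
  ne_zero : ∀ (l : ℕ) (lam : ℂ), 0 ≤ lam.re → ¬ (l = 0 ∧ (lam = 0 ∨ lam = 1)) →
    ¬ (l = 1 ∧ lam = 1 / 2) → DetL om0 R l lam ≠ 0
  simple_zero : DetL om0 R 0 0 = 0 ∧ deriv (DetL om0 R 0) 0 ≠ 0
  simple_one : DetL om0 R 0 1 = 0 ∧ deriv (DetL om0 R 0) 1 ≠ 0
  simple_half : DetL om0 R 1 (1 / 2) = 0 ∧ deriv (DetL om0 R 1) (1 / 2) ≠ 0

theorem AData.limitSpec (D : AData) : LimitSpec D.om D.R := by
  have e : ∀ l, DetL D.om D.R l = Wr l D.om D.R := fun l => funext fun lam => DetL_eq _ _ _ _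
  refine ⟨?_, ?_, ?_, ?_⟩
  · intro l lam h h0 h1 hz
    rw [DetL_eq] at hz
    rcases D.wr_ne l lam h hz with h | h
    · exact h0 h
    · exact h1 h
  · obtain ⟨w, hw, hd⟩ := D.simple0
    rw [e]; exact ⟨D.zero0, by rw [hd.deriv]; exact hw⟩
  · obtain ⟨w, hw, hd⟩ := D.simple1
    rw [e]; exact ⟨D.zero1, by rw [hd.deriv]; exact hw⟩
  · obtain ⟨w, hw, hd⟩ := D.simple2
    rw [e]; exact ⟨D.zero2, by rw [hd.deriv]; exact hw⟩

end Crest.Agent.R086.A
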