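import Mathlib
import Crest.Agent.R086.A2
import Crest.Agent.R086.ABIface

/-!
Row 86, part A, node A2 (helper507): A2 in the form of `AData` (fields `om … nondeg`).
-/
set_option autoImplicit false
open Complex Filter Topology Metric Set

namespace Crest.Agent.R086.A2

open Crest.Agent.R086.A (fo fo1)
open Crest.Agent.R086.LemP

theorem fo1_eq (x r : ℝ) : fo1 0 (-(I * x)) r = ((r / 2 * x : ℝ) : ℂ) * Phi x (r ^ 2 / 4) := by
  unfold fo1 Phi JCx.W1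
  have e1 : -(I * (x : ℂ)) + ((0 : ℕ) : ℂ) / 2 + 1 = 1 - I * x := by push_cast; ring
  have e2 : ((0 : ℕ) : ℂ) + 6 - (-(I * (x : ℂ)) + ((0 : ℕ) : ℂ) / 2) - 1 = 5 + I * x := by push_cast; ring
  rw [e1, e2]
  have hI : I * I = -1 := I_mul_I
  push_cast
  linear_combination (-(r : ℂ) / 2 * x * JCx.J (1 - I * x) (5 + I * x) (r ^ 2 / 4)) * hI

theorem fo_eq (x r : ℝ) : fo 0 (-(I * x)) r =
    (-(I * x) - 5 - I * ((r ^ 2 / 4 : ℝ) : ℂ)) * J0 x (r ^ 2 / 4)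
      + ((r ^ 2 / 4 : ℝ) : ℂ) * JCx.J (2 - I * x) (4 + I * x) ((r ^ 2 / 4 : ℝ) : ℂ) := by
  unfold fo JCx.W J0
  have e0 : -(I * (x : ℂ)) + ((0 : ℕ) : ℂ) / 2 = -(I * x) := by push_cast; ring
  rw [e0]
  have e1 : -(I * (x : ℂ)) + 1 = 1 - I * x := by ring
  have e3 : -(I * (x : ℂ)) + 2 = 2 - I * x := by ring
  have e2 : ((0 : ℕ) : ℂ) + 6 - (-(I * (x : ℂ))) - 2 = 4 + I * x := by push_cast; ring
  rw [e2, e3, e1]
  push_cast
  ring

/-- A linear injection `ℝ² → ℂ` is an equivalence. -/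
theorem exists_equiv (Φ' : ℝ × ℝ →L[ℝ] ℂ) (hinj : Function.Injective Φ') :
    ∃ Λ : (ℝ × ℝ) ≃L[ℝ] ℂ, (Λ : ℝ × ℝ →L[ℝ] ℂ) = Φ' := by
  have hfr : Module.finrank ℝ (ℝ × ℝ) = Module.finrank ℝ ℂ := by
    rw [Module.finrank_prod, Module.finrank_self, Complex.finrank_real_complex]
  refine ⟨(LinearEquiv.ofInjectiveOfFinrankEq (Φ' : ℝ × ℝ →ₗ[ℝ] ℂ) hinj hfr).toContinuousLinearEquiv, ?_⟩
  exact ContinuousLinearMap.ext fun p => rfl

theorem data : ∃ om R : ℝ, om ∈ Icc (0.3347760 : ℝ) 0.3347762 ∧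
    R ^ 2 / 4 ∈ Icc (2.7050680 : ℝ) 2.7050684 ∧ 0 < R ∧
    |om - om0| ≤ 5 / 10 ^ 8 ∧ |R ^ 2 / 4 - rho0| ≤ 5 / 10 ^ 8 ∧
    fo 0 (-(I * om)) R ≠ 0 ∧ fo1 0 (-(I * om)) R = 0 ∧
    JCx.J (1 - I * om) (5 + I * om) ((R ^ 2 / 4 : ℝ) : ℂ) = 0 ∧
    JCx.J (1 - I * om) (4 + I * om) ((R ^ 2 / 4 : ℝ) : ℂ) ≠ 0 ∧
    G (1 - I * om) 6 (R ^ 2 / 4) = I * ((R ^ 2 / 4 : ℝ) : ℂ) ∧
    ∃ L : (ℝ × ℝ) ≃L[ℝ] ℂ,
      HasStrictFDerivAt (fun p : ℝ × ℝ => fo1 0 (-(I * p.1)) p.2) (L : (ℝ × ℝ) →L[ℝ] ℂ) (om, R) := by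
  obtain ⟨om, rho, h1, h2, h3, h4, h5, Λ, hΛ⟩ := main
  have a1 := abs_le.mp h1
  have a2 := abs_le.mp h2
  have hom : om ∈ Icc (0.3347760 : ℝ) 0.3347762 := by
    have : om0 = 33477606871 / 10 ^ 11 := rfl
    rw [this] at a1
    constructor <;> norm_num at a1 ⊢ <;> linarith [a1.1, a1.2]
  have hrho : rho ∈ Icc (2.7050680 : ℝ) 2.7050684 := by
    have : rho0 = 27050681929 / 10 ^ 10 := rfl
    rw [this] at a2
    constructor <;> norm_num at a2 ⊢ <;> linarith [a2.1, a2.2]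
  have hrpos : 0 < rho := by have := hrho.1; norm_num at this; linarith
  have hompos : 0 < om := by have := hom.1; norm_num at this; linarith
  set R : ℝ := 2 * Real.sqrt rho with hR
  have hRpos : 0 < R := by positivity
  have hR2 : R ^ 2 / 4 = rho := by
    rw [hR, mul_pow, Real.sq_sqrt hrpos.le]; ring
  have hfo : fo 0 (-(I * om)) R ≠ 0 := by
    rw [fo_eq, hR2]
    have hJ : J0 om rho ≠ 0 := h4
    have hG : (rho : ℂ) * JCx.J (2 - I * om) (4 + I * om) (rho : ℂ) = (I * rho) * J0 om rho := by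
      have h5' := h5
      unfold G at h5'
      rw [← J0_eq, show (6 : ℂ) - (1 - I * om) - 1 = 4 + I * om by ring,
        show (1 : ℂ) - I * om + 1 = 2 - I * om by ring, div_eq_iff hJ] at h5'
      exact h5'
    rw [hG]
    have e : (-(I * (om : ℂ)) - 5 - I * (rho : ℂ)) * J0 om rho + I * rho * J0 om rho
        = (-(I * (om : ℂ)) - 5) * J0 om rho := by ring
    rw [e]
    refine mul_ne_zero ?_ hJ
    intro h
    have := congrArg Complex.re h
    simp at this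
  refine ⟨om, R, hom, by rw [hR2]; exact hrho, hRpos, h1, by rw [hR2]; exact h2, hfo, ?_,
    by rw [hR2]; exact h3, by rw [hR2]; exact h4, by rw [hR2]; exact h5, ?_⟩
  · rw [fo1_eq, hR2]
    have : Phi om rho = 0 := h3
    rw [this, mul_zero]
  · -- strict derivative
    have hm : HasStrictFDerivAt (fun p : ℝ × ℝ => ((p.1, p.2 ^ 2 / 4) : ℝ × ℝ))
        ((ContinuousLinearMap.fst ℝ ℝ ℝ).prod ((R / 2) • ContinuousLinearMap.snd ℝ ℝ ℝ)) (om, R) := by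
      have k1 : HasStrictFDerivAt (fun p : ℝ × ℝ => p.1) (ContinuousLinearMap.fst ℝ ℝ ℝ) (om, R) :=
        hasStrictFDerivAt_fst
      have k2 : HasStrictFDerivAt (fun p : ℝ × ℝ => p.2) (ContinuousLinearMap.snd ℝ ℝ ℝ) (om, R) :=
        hasStrictFDerivAt_snd
      have k3 : HasStrictDerivAt (fun t : ℝ => t ^ 2 / 4) (R / 2) R := by
        have := (hasStrictDerivAt_pow 2 R).div_const 4
        refine this.congr_deriv ?_
        simp; ring
      have k4 : HasStrictFDerivAt (fun p : ℝ × ℝ => p.2 ^ 2 / 4)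
          ((R / 2) • ContinuousLinearMap.snd ℝ ℝ ℝ) (om, R) :=
        HasStrictDerivAt.comp_hasStrictFDerivAt (h₂ := fun t : ℝ => t ^ 2 / 4) (om, R) k3 k2
      exact k1.prodMk k4
    have hP : HasStrictFDerivAt (fun p : ℝ × ℝ => Phi p.1 (p.2 ^ 2 / 4))
        ((Λ : ℝ × ℝ →L[ℝ] ℂ).comp ((ContinuousLinearMap.fst ℝ ℝ ℝ).prod
          ((R / 2) • ContinuousLinearMap.snd ℝ ℝ ℝ))) (om, R) := by
      have hΛ' : HasStrictFDerivAt (fun p : ℝ × ℝ => Phi p.1 p.2) (Λ : ℝ × ℝ →L[ℝ] ℂ)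
          ((fun p : ℝ × ℝ => ((p.1, p.2 ^ 2 / 4) : ℝ × ℝ)) (om, R)) := by
        simp only [hR2]
        exact hΛ
      exact HasStrictFDerivAt.comp (g := fun p : ℝ × ℝ => Phi p.1 p.2)
        (f := fun p : ℝ × ℝ => ((p.1, p.2 ^ 2 / 4) : ℝ × ℝ)) (om, R) hΛ' hm
    have hs : HasStrictFDerivAt (fun p : ℝ × ℝ => (((p.2 / 2 * p.1 : ℝ)) : ℂ))
        (Complex.ofRealCLM.comp ((R / 2) • (ContinuousLinearMap.fst ℝ ℝ ℝ)
          + om • ((1 / 2 : ℝ) • ContinuousLinearMap.snd ℝ ℝ ℝ))) (om, R) := by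
      have k1 : HasStrictFDerivAt (fun p : ℝ × ℝ => p.1) (ContinuousLinearMap.fst ℝ ℝ ℝ) (om, R) :=
        hasStrictFDerivAt_fst
      have k2 : HasStrictFDerivAt (fun p : ℝ × ℝ => p.2) (ContinuousLinearMap.snd ℝ ℝ ℝ) (om, R) :=
        hasStrictFDerivAt_snd
      have k2' : HasStrictFDerivAt (fun p : ℝ × ℝ => p.2 / 2)
          ((1 / 2 : ℝ) • ContinuousLinearMap.snd ℝ ℝ ℝ) (om, R) := by
        have := k2.const_mul (1 / 2 : ℝ)
        refine this.congr_of_eventuallyEq (Eventually.of_forall fun q => ?_)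
        simp only
        ring
      have k3 := k2'.mul k1
      exact Complex.ofRealCLM.hasStrictFDerivAt.comp (om, R) k3
    have hprod := hs.mul hP
    have hz : Phi om (R ^ 2 / 4) = 0 := by rw [hR2]; exact h3
    have hfun : (fun p : ℝ × ℝ => fo1 0 (-(I * p.1)) p.2)
        = (fun p : ℝ × ℝ => (((p.2 / 2 * p.1 : ℝ)) : ℂ) * Phi p.1 (p.2 ^ 2 / 4)) := by
      funext p
      exact fo1_eq p.1 p.2
    set T : ℝ × ℝ →L[ℝ] ℂ := (((R / 2 * om : ℝ)) : ℂ) •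
      ((Λ : ℝ × ℝ →L[ℝ] ℂ).comp ((ContinuousLinearMap.fst ℝ ℝ ℝ).prod
          ((R / 2) • ContinuousLinearMap.snd ℝ ℝ ℝ))) with hT
    have hTd : HasStrictFDerivAt (fun p : ℝ × ℝ => fo1 0 (-(I * p.1)) p.2) T (om, R) := by
      rw [hfun]
      refine hprod.congr_fderiv ?_
      refine ContinuousLinearMap.ext fun p => ?_
      simp [hT, hz]
    have hinj : Function.Injective T := by
      rw [injective_iff_map_eq_zero]
      intro p hp
      have hs0 : (((R / 2 * om : ℝ)) : ℂ) ≠ 0 := by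
        have : (R / 2 * om : ℝ) ≠ 0 := by positivity
        exact_mod_cast this
      have e1 : T p = (((R / 2 * om : ℝ)) : ℂ) * Λ (p.1, R / 2 * p.2) := by
        simp [hT]
      rw [e1] at hp
      have h0 := (mul_eq_zero.mp hp).resolve_left hs0
      have h0' : ((p.1, R / 2 * p.2) : ℝ × ℝ) = 0 := by
        have := Λ.injective (h0.trans (map_zero Λ).symm)
        exact this
      have q1 : p.1 = 0 := congrArg Prod.fst h0'
      have q2 : R / 2 * p.2 = 0 := congrArg Prod.snd h0'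
      have q3 : p.2 = 0 := (mul_eq_zero.mp q2).resolve_left (by positivity)
      exact Prod.ext q1 q3
    obtain ⟨L, hL⟩ := exists_equiv T hinj
    exact ⟨L, by rw [hL]; exact hTd⟩

end Crest.Agent.R086.A2
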