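import Mathlib

/-!
Row 86 (S0114), Part A, module A3, part (1) (helper592): any solution of the free radial equation
  U'' + (11/r + i r/2) U' + om U = 0   with U'(R) = 0, U(R) ≠ 0
has |U| strictly decreasing on [R, b] as long as b^4/16 + om b^2 ≤ 36  (rho = r^2/4 : rho^2 + 4 om rho ≤ 36).
Exact identity:  K = r^11 U',  T = Re(conj K K') - (6/r)|K|^2,
  (r^-11 T)' = r^-11 ( |K' + (i r/4 - 6/r) K|^2 + (36/r^2 - r^2/16 - om) |K|^2 ).
-/

set_option autoImplicit false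

open Complex Set

namespace Crest.Agent.R086.A3

/-- `K = r^11 U'` and `K' = -(i/2) r K - om r^11 U`; `T` in terms of `U, U1 = U'`. -/
noncomputable def Kf (U1 : ℝ → ℂ) (r : ℝ) : ℂ := (r : ℂ) ^ 11 * U1 r

/-- derivative of `Kf` expressed by the equation -/
noncomputable def K1f (om : ℝ) (U U1 : ℝ → ℂ) (r : ℝ) : ℂ :=
  -(I / 2) * r * Kf U1 r - om * (r : ℂ) ^ 11 * U r

/-- second derivative of `Kf` -/
noncomputable def K2f (om : ℝ) (U U1 : ℝ → ℂ) (r : ℝ) : ℂ :=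
  -((I / 2) * r - 11 / r) * K1f om U U1 r - (om - 5 * I) * Kf U1 r

lemma hasDerivAt_pow11 (r : ℝ) : HasDerivAt (fun x : ℝ => (x : ℂ) ^ 11) (11 * (r : ℂ) ^ 10) r := by
  have := ((hasDerivAt_id r).ofReal_comp).fun_pow 11
  simpa using this

lemma hasDerivAt_Kf {om r : ℝ} {U U1 : ℝ → ℂ} (hr : r ≠ 0)
    (h1 : HasDerivAt U1 (-(11 / r + I * r / 2) * U1 r - om * U r) r) :
    HasDerivAt (Kf U1) (K1f om U U1 r) r := by
  have hr' : (r : ℂ) ≠ 0 := by exact_mod_cast hr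
  have hp := hasDerivAt_pow11 r
  have := hp.mul h1
  refine this.congr_deriv ?_
  unfold K1f Kf
  field_simp
  ring

lemma hasDerivAt_K1f {om r : ℝ} {U U1 : ℝ → ℂ} (hr : r ≠ 0)
    (h0 : HasDerivAt U (U1 r) r)
    (h1 : HasDerivAt U1 (-(11 / r + I * r / 2) * U1 r - om * U r) r) :
    HasDerivAt (K1f om U U1) (K2f om U U1 r) r := by
  have hr' : (r : ℂ) ≠ 0 := by exact_mod_cast hr
  have hp := hasDerivAt_pow11 r
  have hid : HasDerivAt (fun x : ℝ => (x : ℂ)) 1 r := by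
    simpa using (HasDerivAt.ofReal_comp (hasDerivAt_id r))
  have hK := hasDerivAt_Kf hr h1
  have e1 := ((hid.const_mul (-(I / 2))).mul hK).sub ((hp.const_mul (om : ℂ)).mul h0)
  refine e1.congr_deriv ?_
  unfold K2f K1f Kf
  field_simp
  ring

/-- the energy quantities -/
noncomputable def Ef (U1 : ℝ → ℂ) (r : ℝ) : ℝ := normSq (Kf U1 r)
noncomputable def Pf (om : ℝ) (U U1 : ℝ → ℂ) (r : ℝ) : ℝ :=
  ((starRingEnd ℂ (Kf U1 r)) * K1f om U U1 r).re

/-- `F = r^-11 (P - (6/r) E)` -/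
noncomputable def Ff (om : ℝ) (U U1 : ℝ → ℂ) (r : ℝ) : ℝ :=
  (r ^ 11)⁻¹ * (Pf om U U1 r - 6 / r * Ef U1 r)

/-- its derivative -/
noncomputable def F1f (om : ℝ) (U U1 : ℝ → ℂ) (r : ℝ) : ℝ :=
  (r ^ 11)⁻¹ * (normSq (K1f om U U1 r + (I * r / 4 - 6 / r) * Kf U1 r)
    + (36 / r ^ 2 - r ^ 2 / 16 - om) * Ef U1 r)

lemma hasDerivAt_re {f : ℝ → ℂ} {f' : ℂ} {x : ℝ} (h : HasDerivAt f f' x) :
    HasDerivAt (fun t => (f t).re) f'.re x := by
  exact (Complex.reCLM.hasFDerivAt.comp_hasDerivAt x h)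

lemma hasDerivAt_im {f : ℝ → ℂ} {f' : ℂ} {x : ℝ} (h : HasDerivAt f f' x) :
    HasDerivAt (fun t => (f t).im) f'.im x := by
  exact (Complex.imCLM.hasFDerivAt.comp_hasDerivAt x h)

/-- abstract form of the identity: real and imaginary parts -/
lemma hasDerivAt_Ff {om r : ℝ} {U U1 : ℝ → ℂ} (hr : 0 < r)
    (h0 : HasDerivAt U (U1 r) r)
    (h1 : HasDerivAt U1 (-(11 / r + I * r / 2) * U1 r - om * U r) r) :
    HasDerivAt (Ff om U U1) (F1f om U U1 r) r := by
  have hK := hasDerivAt_Kf hr.ne' h1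
  have hK1 := hasDerivAt_K1f hr.ne' h0 h1
  have a1 := hasDerivAt_re hK
  have a2 := hasDerivAt_im hK
  have b1 := hasDerivAt_re hK1
  have b2 := hasDerivAt_im hK1
  have hp : HasDerivAt (fun x : ℝ => (x ^ 11)⁻¹) (-(11 * r ^ 10) / (r ^ 11) ^ 2) r := by
    have := (hasDerivAt_pow 11 r).fun_inv (by positivity)
    simpa using this
  have hq : HasDerivAt (fun x : ℝ => 6 / x) (-6 / r ^ 2) r := by
    have := (hasDerivAt_inv hr.ne').const_mul 6
    refine (this.congr_deriv (by ring)).congr_of_eventuallyEq ?_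
    filter_upwards with x
    ring
  have main := hp.mul ((((a1.mul b1).add (a2.mul b2))).sub
    (hq.mul ((a1.mul a1).add (a2.mul a2))))
  refine (main.congr_of_eventuallyEq ?_).congr_deriv ?_
  · filter_upwards with x
    unfold Ff Pf Ef
    simp only [normSq_apply, mul_re, conj_re, conj_im, Pi.mul_apply, Pi.add_apply, Pi.sub_apply]
    ring
  · have e2r : (K2f om U U1 r).re = 11 / r * (K1f om U U1 r).re + r / 2 * (K1f om U U1 r).im
        - om * (Kf U1 r).re - 5 * (Kf U1 r).im := by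
      unfold K2f
      have : (11 : ℂ) / (r : ℂ) = ((11 / r : ℝ) : ℂ) := by push_cast; rfl
      rw [this]
      simp [Complex.mul_re, Complex.mul_im]
      ring
    have e2i : (K2f om U U1 r).im = 11 / r * (K1f om U U1 r).im - r / 2 * (K1f om U U1 r).re
        - om * (Kf U1 r).im + 5 * (Kf U1 r).re := by
      unfold K2f
      have : (11 : ℂ) / (r : ℂ) = ((11 / r : ℝ) : ℂ) := by push_cast; rfl
      rw [this]
      simp [Complex.mul_re, Complex.mul_im]
      ring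
    simp only [Pi.mul_apply, Pi.add_apply, Pi.sub_apply]
    rw [e2r, e2i]
    unfold F1f Ef
    have e6 : (6 : ℂ) / (r : ℂ) = ((6 / r : ℝ) : ℂ) := by push_cast; rfl
    rw [e6]
    generalize K1f om U U1 r = k1
    generalize Kf U1 r = k
    simp only [normSq_apply, add_re, add_im, mul_re, mul_im, sub_re, sub_im, div_ofNat_re,
      div_ofNat_im, I_re, I_im, ofReal_re, ofReal_im]
    field_simp
    ring

lemma Pf_eq {om r : ℝ} {U U1 : ℝ → ℂ} :
    Pf om U U1 r = -(om * r ^ 22 * ((starRingEnd ℂ (U r)) * U1 r).re) := by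
  unfold Pf K1f Kf
  have e11 : ((r : ℂ) ^ 11) = ((r ^ 11 : ℝ) : ℂ) := by push_cast; rfl
  rw [e11]
  generalize U r = u
  generalize U1 r = v
  simp only [map_mul, conj_ofReal, mul_re, mul_im, sub_re, sub_im, conj_re, conj_im, neg_re, neg_im,
    div_ofNat_re, div_ofNat_im, I_re, I_im, ofReal_re, ofReal_im]
  ring

lemma F1f_nonneg {om r b : ℝ} {U U1 : ℝ → ℂ} (hr : 0 < r) (hrb : r ≤ b) (hom : 0 ≤ om)
    (hb : b ^ 4 / 16 + om * b ^ 2 ≤ 36) : 0 ≤ F1f om U U1 r := by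
  unfold F1f
  have h1 : 0 ≤ 36 / r ^ 2 - r ^ 2 / 16 - om := by
    have h2 : r ^ 4 / 16 + om * r ^ 2 ≤ 36 := by
      have : r ^ 2 ≤ b ^ 2 := by gcongr
      have : r ^ 4 ≤ b ^ 4 := by gcongr
      nlinarith
    have : 36 / r ^ 2 - r ^ 2 / 16 - om = (36 - (r ^ 4 / 16 + om * r ^ 2)) / r ^ 2 := by
      field_simp
      ring
    rw [this]
    apply div_nonneg (by linarith) (by positivity)
  have h3 : 0 ≤ Ef U1 r := normSq_nonneg _
  have h4 := normSq_nonneg (K1f om U U1 r + (I * r / 4 - 6 / r) * Kf U1 r)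
  positivity

/-- Part (1) of A3. -/
theorem Pf_pos {om R b : ℝ} {U U1 : ℝ → ℂ} (hR : 0 < R) (hom : 0 < om)
    (hb : b ^ 4 / 16 + om * b ^ 2 ≤ 36)
    (hcU : ContinuousOn U (Icc R b)) (hcU1 : ContinuousOn U1 (Icc R b))
    (h0 : ∀ r ∈ Ioo R b, HasDerivAt U (U1 r) r)
    (h1 : ∀ r ∈ Ioo R b, HasDerivAt U1 (-(11 / r + I * r / 2) * U1 r - om * U r) r)
    (hi0 : U R ≠ 0) (hi1 : U1 R = 0) : ∀ r ∈ Ioc R b, 0 < Pf om U U1 r := by
  intro r hr
  have hRb : R < b := hr.1.trans_le hr.2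
  have hpos : ∀ x ∈ Icc R b, 0 < x := fun x hx => hR.trans_le hx.1
  have hne : ∀ x ∈ Icc R b, x ≠ 0 := fun x hx => (hpos x hx).ne'
  have hcast : ContinuousOn (fun x : ℝ => (x : ℂ)) (Icc R b) := continuous_ofReal.continuousOn
  have hcK : ContinuousOn (Kf U1) (Icc R b) := (hcast.pow 11).mul hcU1
  have hcK1 : ContinuousOn (K1f om U U1) (Icc R b) := by
    unfold K1f
    exact ((continuousOn_const.mul hcast).mul hcK).sub
      ((continuousOn_const.mul (hcast.pow 11)).mul hcU)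
  have hcE : ContinuousOn (Ef U1) (Icc R b) := continuous_normSq.comp_continuousOn hcK
  have hcP : ContinuousOn (Pf om U U1) (Icc R b) :=
    continuous_re.comp_continuousOn ((continuous_conj.comp_continuousOn hcK).mul hcK1)
  have hid : ContinuousOn (fun x : ℝ => x) (Icc R b) := continuousOn_id
  have hinv11 : ContinuousOn (fun x : ℝ => (x ^ 11)⁻¹) (Icc R b) :=
    (hid.pow 11).inv₀ (fun x hx => pow_ne_zero _ (hne x hx))
  have hcF : ContinuousOn (Ff om U U1) (Icc R b) := by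
    unfold Ff
    exact hinv11.mul (hcP.sub ((continuousOn_const.div hid hne).mul hcE))
  have hcF1 : ContinuousOn (F1f om U U1) (Icc R b) := by
    unfold F1f
    refine hinv11.mul (ContinuousOn.add (continuous_normSq.comp_continuousOn ?_) (ContinuousOn.mul ?_ hcE))
    · refine hcK1.add (ContinuousOn.mul (ContinuousOn.sub ?_ ?_) hcK)
      · exact (continuousOn_const.mul hcast).div_const _
      · exact continuousOn_const.div hcast (fun x hx => by exact_mod_cast hne x hx)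
    · exact ((continuousOn_const.div (hid.pow 2) (fun x hx => pow_ne_zero _ (hne x hx))).sub
        ((hid.pow 2).div_const _)).sub continuousOn_const
  have hRm : R ∈ Icc R b := ⟨le_rfl, hRb.le⟩
  have hKR : Kf U1 R = 0 := by simp [Kf, hi1]
  have hF1R : 0 < F1f om U U1 R := by
    unfold F1f Ef K1f
    rw [hKR]
    have : (om : ℂ) * (R : ℂ) ^ 11 * U R ≠ 0 := by
      refine mul_ne_zero (mul_ne_zero ?_ (pow_ne_zero _ ?_)) hi0
      · exact_mod_cast hom.ne'
      · exact_mod_cast hR.ne'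
    simp only [mul_zero, map_zero, add_zero, zero_sub]
    have h5 : 0 < normSq (-((om : ℂ) * (R : ℂ) ^ 11 * U R)) := by
      rw [normSq_pos]
      simpa using this
    positivity
  have hFR : Ff om U U1 R = 0 := by
    unfold Ff Ef Pf
    rw [hKR]
    simp
  have hd : ∀ x ∈ Ioo R b, HasDerivAt (Ff om U U1) (F1f om U U1 x) x := fun x hx =>
    hasDerivAt_Ff (hR.trans hx.1) (h0 x hx) (h1 x hx)
  have hmono : MonotoneOn (Ff om U U1) (Icc R b) := by
    refine monotoneOn_of_deriv_nonneg (convex_Icc R b) hcF ?_ ?_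
    · intro x hx
      rw [interior_Icc] at hx
      exact (hd x hx).differentiableAt.differentiableWithinAt
    · intro x hx
      rw [interior_Icc] at hx
      rw [(hd x hx).deriv]
      exact F1f_nonneg (hR.trans hx.1) hx.2.le hom.le hb
  -- strict increase near `R`
  obtain ⟨c, hc, hcpos⟩ : ∃ c ∈ Ioc R r, ∀ x ∈ Ioo R c, 0 < F1f om U U1 x := by
    have hev : ∀ᶠ x in nhdsWithin R (Icc R b), 0 < F1f om U U1 x :=
      (hcF1 R hRm).eventually (lt_mem_nhds hF1R)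
    rw [eventually_nhdsWithin_iff, Metric.eventually_nhds_iff] at hev
    obtain ⟨d, hd0, hdd⟩ := hev
    refine ⟨min r (R + d), ⟨lt_min hr.1 (by linarith), min_le_left _ _⟩, fun x hx => ?_⟩
    refine hdd ?_ ⟨hx.1.le, (hx.2.le.trans (min_le_left _ _)).trans hr.2⟩
    rw [Real.dist_eq, abs_of_pos (by linarith [hx.1])]
    have := hx.2.trans_le (min_le_right r (R + d))
    linarith
  have hstrict : StrictMonoOn (Ff om U U1) (Icc R c) := by
    refine strictMonoOn_of_deriv_pos (convex_Icc R c)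
      (hcF.mono (Icc_subset_Icc le_rfl (hc.2.trans hr.2))) ?_
    intro x hx
    rw [interior_Icc] at hx
    rw [(hd x ⟨hx.1, hx.2.trans_le (hc.2.trans hr.2)⟩).deriv]
    exact hcpos x hx
  have hFc : 0 < Ff om U U1 c := by
    have := hstrict ⟨le_rfl, hc.1.le⟩ ⟨hc.1.le, le_rfl⟩ hc.1
    rwa [hFR] at this
  have hFr : 0 < Ff om U U1 r :=
    hFc.trans_le (hmono ⟨hc.1.le, hc.2.trans hr.2⟩ ⟨hr.1.le, hr.2⟩ hc.2)
  have hr0 : 0 < r := hR.trans hr.1
  have hE : 0 ≤ Ef U1 r := normSq_nonneg _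
  have : Pf om U U1 r = r ^ 11 * Ff om U U1 r + 6 / r * Ef U1 r := by
    unfold Ff
    field_simp
    ring
  rw [this]
  positivity

theorem re_conj_mul_neg {om R b : ℝ} {U U1 : ℝ → ℂ} (hR : 0 < R) (hom : 0 < om)
    (hb : b ^ 4 / 16 + om * b ^ 2 ≤ 36)
    (hcU : ContinuousOn U (Icc R b)) (hcU1 : ContinuousOn U1 (Icc R b))
    (h0 : ∀ r ∈ Ioo R b, HasDerivAt U (U1 r) r)
    (h1 : ∀ r ∈ Ioo R b, HasDerivAt U1 (-(11 / r + I * r / 2) * U1 r - om * U r) r)
    (hi0 : U R ≠ 0) (hi1 : U1 R = 0) : ∀ r ∈ Ioc R b, ((starRingEnd ℂ (U r)) * U1 r).re < 0 := by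
  intro r hr
  have h := Pf_pos hR hom hb hcU hcU1 h0 h1 hi0 hi1 r hr
  rw [Pf_eq] at h
  have hr0 : 0 < r := hR.trans hr.1
  have h22 : 0 < om * r ^ 22 := by positivity
  by_contra hcon
  push Not at hcon
  have := mul_nonneg h22.le hcon
  linarith

lemma hasDerivAt_normSq {f : ℝ → ℂ} {f' : ℂ} {x : ℝ} (h : HasDerivAt f f' x) :
    HasDerivAt (fun t => normSq (f t)) (2 * ((starRingEnd ℂ (f x)) * f').re) x := by
  have a1 := hasDerivAt_re h
  have a2 := hasDerivAt_im h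
  refine (((a1.mul a1).add (a2.mul a2)).congr_of_eventuallyEq ?_).congr_deriv ?_
  · filter_upwards with t
    simp [normSq_apply]
  · simp only [mul_re, conj_re, conj_im]
    ring

/-- Part (1): `|U|^2` is strictly decreasing on `[R, b]`. -/
theorem normSq_strictAntiOn {om R b : ℝ} {U U1 : ℝ → ℂ} (hR : 0 < R) (hom : 0 < om)
    (hb : b ^ 4 / 16 + om * b ^ 2 ≤ 36)
    (hcU : ContinuousOn U (Icc R b)) (hcU1 : ContinuousOn U1 (Icc R b))
    (h0 : ∀ r ∈ Ioo R b, HasDerivAt U (U1 r) r)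
    (h1 : ∀ r ∈ Ioo R b, HasDerivAt U1 (-(11 / r + I * r / 2) * U1 r - om * U r) r)
    (hi0 : U R ≠ 0) (hi1 : U1 R = 0) : StrictAntiOn (fun r => normSq (U r)) (Icc R b) := by
  refine strictAntiOn_of_deriv_neg (convex_Icc R b) (continuous_normSq.comp_continuousOn hcU) ?_
  intro x hx
  rw [interior_Icc] at hx
  rw [(hasDerivAt_normSq (h0 x hx)).deriv]
  have := re_conj_mul_neg hR hom hb hcU hcU1 h0 h1 hi0 hi1 x ⟨hx.1, hx.2.le⟩
  linarith

theorem norm_lt_one {om R b : ℝ} {U U1 : ℝ → ℂ} (hR : 0 < R) (hom : 0 < om)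
    (hb : b ^ 4 / 16 + om * b ^ 2 ≤ 36)
    (hcU : ContinuousOn U (Icc R b)) (hcU1 : ContinuousOn U1 (Icc R b))
    (h0 : ∀ r ∈ Ioo R b, HasDerivAt U (U1 r) r)
    (h1 : ∀ r ∈ Ioo R b, HasDerivAt U1 (-(11 / r + I * r / 2) * U1 r - om * U r) r)
    (hi0 : U R = 1) (hi1 : U1 R = 0) : ∀ r ∈ Ioc R b, ‖U r‖ < 1 := by
  intro r hr
  have h := normSq_strictAntiOn hR hom hb hcU hcU1 h0 h1 (by simp [hi0]) hi1
    ⟨le_rfl, hr.1.le.trans hr.2⟩ ⟨hr.1.le, hr.2⟩ hr.1
  simp only [hi0, map_one, normSq_eq_norm_sq] at h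
  nlinarith [norm_nonneg (U r)]

end Crest.Agent.R086.A3
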