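import Mathlib
import Crest.Agent.R086.JInt

/-!
Row 86 (S0114), Part A, module A3, part (2) (helper592): for `rho ≥ 5` and `3/10 ≤ om ≤ 2/5`
  Re ( conj (m J(1-i om, 4+i om, rho)) * J(1-i om, 5+i om, rho) ) > 0,   m = 5 + i om.
Taylor expansion of `(1+is)^(4+i om)`, `(1+is)^(5+i om)` with remainder without growth.
-/

set_option autoImplicit false

open MeasureTheory Complex Set Filter Topology

namespace Crest.Agent.R086.A3

open Crest.Agent.R086.JInt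

lemma norm_g_le_one {c : ℂ} (h0 : c.re ≤ 0) (h1 : 0 ≤ c.im) {s : ℝ} (hs : 0 ≤ s) :
    ‖((1 : ℂ) + I * s) ^ c‖ ≤ 1 := by
  rw [Complex.norm_cpow_of_ne_zero (one_add_ne s)]
  have h2 : ‖(1 : ℂ) + I * s‖ ^ c.re ≤ 1 :=
    Real.rpow_le_one_of_one_le_of_nonpos (norm_one_add_ge s) h0
  have h3 : 0 ≤ arg ((1 : ℂ) + I * s) := by
    rw [Complex.arg_nonneg_iff]
    simpa using hs
  have h4 : 1 ≤ Real.exp (arg ((1 : ℂ) + I * s) * c.im) := Real.one_le_exp (mul_nonneg h3 h1)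
  calc ‖(1 : ℂ) + I * s‖ ^ c.re / Real.exp (arg ((1 : ℂ) + I * s) * c.im)
      ≤ ‖(1 : ℂ) + I * s‖ ^ c.re / 1 := by
        apply div_le_div_of_nonneg_left _ one_pos h4
        exact Real.rpow_nonneg (norm_nonneg _) _
    _ ≤ 1 := by simpa using h2

lemma hasDerivAt_g (c : ℂ) (s : ℝ) :
    HasDerivAt (fun x : ℝ => ((1 : ℂ) + I * (x : ℂ)) ^ c) (I * c * (1 + I * (s : ℂ)) ^ (c - 1)) s := by
  have := (((hasDerivAt_id (s : ℂ)).const_mul I).const_add 1).cpow_const (c := c) (one_add_slit s)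
  have h := this.comp_ofReal
  refine h.congr_deriv ?_
  simp only [id]
  ring

/-- One Taylor step. -/
lemma taylor_step {c : ℂ} {p P : ℝ → ℂ} {K : ℝ} {n : ℕ}
    (hb : ∀ s : ℝ, 0 ≤ s → ‖((1 : ℂ) + I * s) ^ (c - 1) - p s‖ ≤ K * s ^ n)
    (hP : ∀ s : ℝ, HasDerivAt P (I * c * p s) s) (hP0 : P 0 = 1) (s : ℝ) (hs : 0 ≤ s) :
    ‖((1 : ℂ) + I * s) ^ c - P s‖ ≤ ‖c‖ * K / (n + 1) * s ^ (n + 1) := by
  have hd : ∀ x : ℝ, HasDerivAt (fun x : ℝ => ((1 : ℂ) + I * (x : ℂ)) ^ c - P x)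
      (I * c * (1 + I * (x : ℂ)) ^ (c - 1) - I * c * p x) x := fun x =>
    (hasDerivAt_g c x).sub (hP x)
  have hB : ∀ x : ℝ, HasDerivAt (fun x : ℝ => ‖c‖ * K / (n + 1) * x ^ (n + 1)) (‖c‖ * (K * x ^ n)) x := by
    intro x
    have := (hasDerivAt_pow (n + 1) x).const_mul (‖c‖ * K / (n + 1))
    refine this.congr_deriv ?_
    have : (n : ℝ) + 1 ≠ 0 := by positivity
    push_cast
    field_simp
  refine image_norm_le_of_norm_deriv_right_le_deriv_boundary (a := 0) (b := s)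
    (f := fun x : ℝ => ((1 : ℂ) + I * (x : ℂ)) ^ c - P x)
    (f' := fun x => I * c * (1 + I * (x : ℂ)) ^ (c - 1) - I * c * p x)
    (fun x _ => (hd x).continuousAt.continuousWithinAt)
    (fun x _ => (hd x).hasDerivWithinAt) (B := fun x : ℝ => ‖c‖ * K / (n + 1) * x ^ (n + 1))
    (B' := fun x => ‖c‖ * (K * x ^ n)) ?_ hB ?_ ⟨hs, le_rfl⟩
  · simp [hP0]
  · intro x hx
    rw [← mul_sub, norm_mul, norm_mul, Complex.norm_I, one_mul]
    exact mul_le_mul_of_nonneg_left (hb x hx.1) (norm_nonneg _)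

/-- Taylor polynomials of `(1+is)^c`. -/
noncomputable def T1 (_ : ℂ) (_ : ℝ) : ℂ := 1
noncomputable def T2 (c : ℂ) (s : ℝ) : ℂ := 1 + I * c * s
noncomputable def T3 (c : ℂ) (s : ℝ) : ℂ := 1 + I * c * s - c * (c - 1) / 2 * s ^ 2
noncomputable def T4 (c : ℂ) (s : ℝ) : ℂ :=
  1 + I * c * s - c * (c - 1) / 2 * s ^ 2 - I * (c * (c - 1) * (c - 2)) / 6 * s ^ 3
noncomputable def T5 (c : ℂ) (s : ℝ) : ℂ :=
  1 + I * c * s - c * (c - 1) / 2 * s ^ 2 - I * (c * (c - 1) * (c - 2)) / 6 * s ^ 3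
    + c * (c - 1) * (c - 2) * (c - 3) / 24 * s ^ 4

lemma hasDerivAt_rpow' (n : ℕ) (s : ℝ) :
    HasDerivAt (fun x : ℝ => (x : ℂ) ^ n) (n * (s : ℂ) ^ (n - 1)) s := by
  have := ((hasDerivAt_id s).ofReal_comp).fun_pow n
  simpa using this

lemma hasDerivAt_T1 (c : ℂ) (s : ℝ) : HasDerivAt (T1 c) (I * c * 0) s := by
  unfold T1
  simpa using hasDerivAt_const s (1 : ℂ)

lemma hasDerivAt_T2 (c : ℂ) (s : ℝ) : HasDerivAt (T2 c) (I * c * T1 (c - 1) s) s := by
  unfold T2 T1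
  have h1 := (hasDerivAt_rpow' 1 s).const_mul (I * c)
  refine ((h1.const_add 1).congr_deriv (by simp)).congr_of_eventuallyEq ?_
  filter_upwards with x
  simp

lemma hasDerivAt_T3 (c : ℂ) (s : ℝ) : HasDerivAt (T3 c) (I * c * T2 (c - 1) s) s := by
  unfold T3 T2
  have h1 := (hasDerivAt_rpow' 1 s).const_mul (I * c)
  have h2 := (hasDerivAt_rpow' 2 s).const_mul (c * (c - 1) / 2)
  refine (((h1.const_add 1).sub h2).congr_deriv ?_).congr_of_eventuallyEq ?_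
  · have hI : I * I = -1 := Complex.I_mul_I
    push_cast
    linear_combination (-(c * (c - 1) * s)) * hI
  · filter_upwards with x
    simp

lemma hasDerivAt_T4 (c : ℂ) (s : ℝ) : HasDerivAt (T4 c) (I * c * T3 (c - 1) s) s := by
  unfold T4 T3
  have h1 := (hasDerivAt_rpow' 1 s).const_mul (I * c)
  have h2 := (hasDerivAt_rpow' 2 s).const_mul (c * (c - 1) / 2)
  have h3 := (hasDerivAt_rpow' 3 s).const_mul (I * (c * (c - 1) * (c - 2)) / 6)
  refine ((((h1.const_add 1).sub h2).sub h3).congr_deriv ?_).congr_of_eventuallyEq ?_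
  · have hI : I * I = -1 := Complex.I_mul_I
    push_cast
    linear_combination (-(c * (c - 1) * s)) * hI
  · filter_upwards with x
    simp

lemma hasDerivAt_T5 (c : ℂ) (s : ℝ) : HasDerivAt (T5 c) (I * c * T4 (c - 1) s) s := by
  unfold T5 T4
  have h1 := (hasDerivAt_rpow' 1 s).const_mul (I * c)
  have h2 := (hasDerivAt_rpow' 2 s).const_mul (c * (c - 1) / 2)
  have h3 := (hasDerivAt_rpow' 3 s).const_mul (I * (c * (c - 1) * (c - 2)) / 6)
  have h4 := (hasDerivAt_rpow' 4 s).const_mul (c * (c - 1) * (c - 2) * (c - 3) / 24)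
  refine (((((h1.const_add 1).sub h2).sub h3).add h4).congr_deriv ?_).congr_of_eventuallyEq ?_
  · have hI : I * I = -1 := Complex.I_mul_I
    push_cast
    linear_combination (-(c * (c - 1) * s) + (c * (c - 1) * (c - 2) * (c - 3) / 6 * s ^ 3)) * hI
  · filter_upwards with x
    simp

/-- remainder bound for `c = 4 + i om` -/
lemma taylor4 {om : ℝ} (hom : 0 ≤ om) (s : ℝ) (hs : 0 ≤ s) :
    ‖((1 : ℂ) + I * s) ^ (4 + I * om : ℂ) - T4 (4 + I * om) s‖ ≤
      ‖(4 + I * om : ℂ)‖ * ‖(3 + I * om : ℂ)‖ * ‖(2 + I * om : ℂ)‖ * ‖(1 + I * om : ℂ)‖ / 24 * s ^ 4 := by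
  have r0 : ∀ s : ℝ, 0 ≤ s → ‖((1 : ℂ) + I * s) ^ ((1 + I * om : ℂ) - 1) - 0‖ ≤ 1 * s ^ 0 := by
    intro s hs
    have : (1 + I * om : ℂ) - 1 = I * om := by ring
    rw [this, sub_zero, pow_zero, mul_one]
    exact norm_g_le_one (by simp) (by simpa using hom) hs
  have r1 := taylor_step r0 (fun s => hasDerivAt_T1 _ s) (by simp [T1])
  have e1 : (2 + I * om : ℂ) - 1 = 1 + I * om := by ring
  have r2 := taylor_step (c := 2 + I * om) (p := T1 (2 + I * om - 1)) (by rw [e1]; exact r1)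
    (fun s => hasDerivAt_T2 _ s) (by simp [T2])
  have e2 : (3 + I * om : ℂ) - 1 = 2 + I * om := by ring
  have r3 := taylor_step (c := 3 + I * om) (p := T2 (3 + I * om - 1)) (by rw [e2]; exact r2)
    (fun s => hasDerivAt_T3 _ s) (by simp [T3])
  have e3 : (4 + I * om : ℂ) - 1 = 3 + I * om := by ring
  have r4 := taylor_step (c := 4 + I * om) (p := T3 (4 + I * om - 1)) (by rw [e3]; exact r3)
    (fun s => hasDerivAt_T4 _ s) (by simp [T4])
  refine (r4 s hs).trans (le_of_eq ?_)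
  push_cast
  ring

lemma taylor5 {om : ℝ} (hom : 0 ≤ om) (s : ℝ) (hs : 0 ≤ s) :
    ‖((1 : ℂ) + I * s) ^ (5 + I * om : ℂ) - T5 (5 + I * om) s‖ ≤
      ‖(5 + I * om : ℂ)‖ * ‖(4 + I * om : ℂ)‖ * ‖(3 + I * om : ℂ)‖ * ‖(2 + I * om : ℂ)‖
        * ‖(1 + I * om : ℂ)‖ / 120 * s ^ 5 := by
  have e4 : (5 + I * om : ℂ) - 1 = 4 + I * om := by ring
  have r5 := taylor_step (c := 5 + I * om) (p := T4 (5 + I * om - 1))
    (by rw [e4]; exact taylor4 hom) (fun s => hasDerivAt_T5 _ s) (by simp [T5])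
  refine (r5 s hs).trans (le_of_eq ?_)
  push_cast
  ring

/-! ### integrals -/

lemma J_zero {a : ℂ} {rho : ℝ} (ha : 0 < a.re) (hr : 0 < rho) :
    J a 0 rho = (1 / (rho : ℂ)) ^ a * Gamma a := by
  have h := Complex.integral_cpow_mul_exp_neg_mul_Ioi (a := a) (r := rho) ha hr
  rw [← h]
  unfold J jf
  apply setIntegral_congr_fun measurableSet_Ioi
  intro s _
  simp only [cpow_zero, mul_one]
  rw [mul_comm]

lemma J_zero_succ {a : ℂ} {rho : ℝ} (ha : 0 < a.re) (hr : 0 < rho) :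
    J (a + 1) 0 rho = a / rho * J a 0 rho := by
  have ha0 : a ≠ 0 := by rintro rfl; simp at ha
  have hr0 : (rho : ℂ) ≠ 0 := by exact_mod_cast hr.ne'
  have h1 : 0 < (a + 1).re := by simp; linarith
  rw [J_zero ha hr, J_zero h1 hr, Complex.Gamma_add_one a ha0,
    Complex.cpow_add _ _ (one_div_ne_zero hr0), Complex.cpow_one]
  field_simp

lemma integral_pow_exp {rho : ℝ} (hr : 0 < rho) (n : ℕ) :
    ∫ s in Ioi (0 : ℝ), Real.exp (-(rho * s)) * s ^ n = n.factorial / rho ^ (n + 1) := by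
  have h := Real.integral_rpow_mul_exp_neg_mul_Ioi (a := (n : ℝ) + 1) (r := rho) (by positivity) hr
  rw [Real.Gamma_nat_eq_factorial] at h
  have e : ∫ s in Ioi (0 : ℝ), Real.exp (-(rho * s)) * s ^ n =
      ∫ t in Ioi (0 : ℝ), t ^ ((n : ℝ) + 1 - 1) * Real.exp (-(rho * t)) := by
    apply setIntegral_congr_fun measurableSet_Ioi
    intro s _
    simp only [add_sub_cancel_right, Real.rpow_natCast]
    ring
  rw [e, h]
  have : (1 / rho) ^ ((n : ℝ) + 1) = (1 / rho) ^ (n + 1) := by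
    rw [← Real.rpow_natCast]
    push_cast
    rfl
  rw [this, one_div, inv_pow]
  ring

lemma integrable_pow_exp {rho : ℝ} (hr : 0 < rho) (n : ℕ) :
    IntegrableOn (fun s : ℝ => Real.exp (-(rho * s)) * s ^ n) (Ioi 0) := by
  have h := integrableOn_rpow_mul_exp_neg_mul_rpow (s := (n : ℝ)) (p := 1) (b := rho)
    (by have : (0:ℝ) ≤ n := by positivity
        linarith) one_pos hr
  refine h.congr_fun ?_ measurableSet_Ioi
  intro s _
  simp only [Real.rpow_natCast, Real.rpow_one, neg_mul]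
  ring

/-- error of replacing `(1+is)^c` by `P` in `J a c rho`, `Re a = 1`. -/
lemma J_sub_le {a c : ℂ} {rho : ℝ} (ha : a.re = 1) (hr : 0 < rho) {P : ℝ → ℂ} {C : ℝ} {n : ℕ}
    (hP : ∀ s : ℝ, 0 ≤ s → ‖((1 : ℂ) + I * s) ^ c - P s‖ ≤ C * s ^ n)
    (hint : IntegrableOn (fun s : ℝ => jf a 0 rho s * P s) (Ioi 0)) :
    ‖J a c rho - ∫ s in Ioi (0 : ℝ), jf a 0 rho s * P s‖ ≤ C * (n.factorial / rho ^ (n + 1)) := by
  unfold J
  rw [← integral_sub (jf_integrable (by rw [ha]; exact one_pos) hr) hint, ← integral_pow_exp hr n,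
    ← integral_const_mul]
  apply norm_integral_le_of_norm_le ((integrable_pow_exp hr n).const_mul C)
  filter_upwards [ae_restrict_mem measurableSet_Ioi] with s hs
  have hs' : (0 : ℝ) < s := hs
  have e : jf a c rho s - jf a 0 rho s * P s =
      (cexp (-((rho : ℂ) * s)) * (s : ℂ) ^ (a - 1)) * ((1 + I * s) ^ c - P s) := by
    unfold jf
    simp only [cpow_zero, mul_one]
    ring
  rw [e, norm_mul, norm_mul, Complex.norm_cpow_eq_rpow_re_of_pos hs', Complex.norm_exp]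
  have h1 : (a - 1).re = 0 := by simp [ha]
  have h2 : (-((rho : ℂ) * s)).re = -(rho * s) := by simp
  rw [h1, h2, Real.rpow_zero, mul_one]
  calc Real.exp (-(rho * s)) * ‖((1 : ℂ) + I * s) ^ c - P s‖
      ≤ Real.exp (-(rho * s)) * (C * s ^ n) := by
        gcongr
        exact hP s hs'.le
    _ = _ := by ring

lemma jf_mul_pow {s : ℝ} (hs : 0 < s) (a : ℂ) (rho : ℝ) (k : ℕ) :
    jf a 0 rho s * (s : ℂ) ^ k = jf (a + k) 0 rho s := by
  induction k with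
  | zero => simp
  | succ k ih =>
    rw [pow_succ, ← mul_assoc, ih]
    push_cast
    rw [← add_assoc, jf_succ hs]
    ring

lemma integrable_jf_pow {a : ℂ} {rho : ℝ} (ha : 0 < a.re) (hr : 0 < rho) (k : ℕ) :
    IntegrableOn (fun s : ℝ => jf a 0 rho s * (s : ℂ) ^ k) (Ioi 0) := by
  have h : 0 < (a + k).re := by
    simp only [add_re, natCast_re]
    positivity
  refine (jf_integrable (c := 0) h hr).congr_fun ?_ measurableSet_Ioi
  intro s hs
  exact (jf_mul_pow hs a rho k).symm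

lemma integral_jf_pow {a : ℂ} {rho : ℝ} (k : ℕ) :
    ∫ s in Ioi (0 : ℝ), jf a 0 rho s * (s : ℂ) ^ k = J (a + k) 0 rho := by
  unfold J
  exact setIntegral_congr_fun measurableSet_Ioi fun s hs => jf_mul_pow hs a rho k

lemma J_zero_pow {a : ℂ} {rho : ℝ} (ha : 0 < a.re) (hr : 0 < rho) :
    J (a + 1) 0 rho = a / rho * J a 0 rho ∧
    J (a + 2) 0 rho = a * (a + 1) / rho ^ 2 * J a 0 rho ∧
    J (a + 3) 0 rho = a * (a + 1) * (a + 2) / rho ^ 3 * J a 0 rho ∧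
    J (a + 4) 0 rho = a * (a + 1) * (a + 2) * (a + 3) / rho ^ 4 * J a 0 rho := by
  have hr0 : (rho : ℂ) ≠ 0 := by exact_mod_cast hr.ne'
  have h1 := J_zero_succ ha hr
  have h2 := J_zero_succ (a := a + 1) (by simp; linarith) hr
  have h3 := J_zero_succ (a := a + 2) (by simp; linarith) hr
  have h4 := J_zero_succ (a := a + 3) (by simp; linarith) hr
  rw [show a + 1 + 1 = a + 2 by ring] at h2
  rw [show a + 2 + 1 = a + 3 by ring] at h3
  rw [show a + 3 + 1 = a + 4 by ring] at h4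
  refine ⟨h1, ?_, ?_, ?_⟩
  · rw [h2, h1]; field_simp
  · rw [h3, h2, h1]; field_simp
  · rw [h4, h3, h2, h1]; field_simp

/-- the main parts -/
noncomputable def MB (a c : ℂ) (v : ℝ) : ℂ :=
  1 + I * c * (a * v) - c * (c - 1) / 2 * (a * (a + 1) * v ^ 2)
    - I * (c * (c - 1) * (c - 2)) / 6 * (a * (a + 1) * (a + 2) * v ^ 3)

noncomputable def MA (a c : ℂ) (v : ℝ) : ℂ :=
  MB a c v + c * (c - 1) * (c - 2) * (c - 3) / 24 * (a * (a + 1) * (a + 2) * (a + 3) * v ^ 4)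

lemma integral_T4 {a : ℂ} {rho : ℝ} (ha : 0 < a.re) (hr : 0 < rho) (c : ℂ) :
    IntegrableOn (fun s : ℝ => jf a 0 rho s * T4 c s) (Ioi 0) ∧
    ∫ s in Ioi (0 : ℝ), jf a 0 rho s * T4 c s = J a 0 rho * MB a c (1 / rho) := by
  have hr0 : (rho : ℂ) ≠ 0 := by exact_mod_cast hr.ne'
  have i0 := integrable_jf_pow ha hr 0
  have i1 := (integrable_jf_pow ha hr 1).const_mul (I * c)
  have i2 := (integrable_jf_pow ha hr 2).const_mul (c * (c - 1) / 2)
  have i3 := (integrable_jf_pow ha hr 3).const_mul (I * (c * (c - 1) * (c - 2)) / 6)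
  have e : (fun s : ℝ => jf a 0 rho s * T4 c s) = fun s : ℝ =>
      (((jf a 0 rho s * (s : ℂ) ^ 0) + (I * c) * (jf a 0 rho s * (s : ℂ) ^ 1))
        - (c * (c - 1) / 2) * (jf a 0 rho s * (s : ℂ) ^ 2))
        - (I * (c * (c - 1) * (c - 2)) / 6) * (jf a 0 rho s * (s : ℂ) ^ 3) := by
    funext s
    unfold T4
    ring
  rw [e]
  have j1 : Integrable (fun s : ℝ => (jf a 0 rho s * (s : ℂ) ^ 0)
      + (I * c) * (jf a 0 rho s * (s : ℂ) ^ 1)) (volume.restrict (Ioi 0)) := i0.add i1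
  have j2 : Integrable (fun s : ℝ => (jf a 0 rho s * (s : ℂ) ^ 0)
      + (I * c) * (jf a 0 rho s * (s : ℂ) ^ 1)
      - (c * (c - 1) / 2) * (jf a 0 rho s * (s : ℂ) ^ 2)) (volume.restrict (Ioi 0)) := j1.sub i2
  refine ⟨j2.sub i3, ?_⟩
  rw [integral_sub j2 i3, integral_sub j1 i2, integral_add i0 i1]
  simp only [integral_const_mul, integral_jf_pow]
  obtain ⟨h1, h2, h3, -⟩ := J_zero_pow ha hr
  unfold MB
  push_cast
  rw [add_zero, h1, h2, h3]
  field_simp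

lemma integral_T5 {a : ℂ} {rho : ℝ} (ha : 0 < a.re) (hr : 0 < rho) (c : ℂ) :
    IntegrableOn (fun s : ℝ => jf a 0 rho s * T5 c s) (Ioi 0) ∧
    ∫ s in Ioi (0 : ℝ), jf a 0 rho s * T5 c s = J a 0 rho * MA a c (1 / rho) := by
  have hr0 : (rho : ℂ) ≠ 0 := by exact_mod_cast hr.ne'
  obtain ⟨i4, e4⟩ := integral_T4 ha hr c
  have i5 := (integrable_jf_pow ha hr 4).const_mul (c * (c - 1) * (c - 2) * (c - 3) / 24)
  have e : (fun s : ℝ => jf a 0 rho s * T5 c s) = fun s : ℝ =>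
      (jf a 0 rho s * T4 c s) + (c * (c - 1) * (c - 2) * (c - 3) / 24) * (jf a 0 rho s * (s : ℂ) ^ 4) := by
    funext s
    unfold T4 T5
    ring
  rw [e]
  refine ⟨i4.add i5, ?_⟩
  rw [integral_add i4 i5, e4, integral_const_mul, integral_jf_pow]
  obtain ⟨-, -, -, h4⟩ := J_zero_pow ha hr
  unfold MA
  push_cast
  rw [h4]
  field_simp

end Crest.Agent.R086.A3
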