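import Mathlib
import Crest.Agent.R086.A3Int

/-!
Row 86 (S0114), Part A, module A3, part (2), numerical part (helper592).
-/

set_option autoImplicit false

open MeasureTheory Complex Set Filter Topology

namespace Crest.Agent.R086.A3

open Crest.Agent.R086.JInt

/-- `sinh x ≤ 4 x` on `[0, 1.26]`. -/
lemma sinh_le_four_mul {x : ℝ} (h0 : 0 ≤ x) (h1 : x ≤ 1.26) : Real.sinh x ≤ 4 * x := by
  have a1 : Real.exp x ≤ 4 := by
    have b1 : Real.exp x ≤ Real.exp (1 + 0.26) := Real.exp_le_exp.mpr (by linarith)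
    have b2 : Real.exp (0.26 : ℝ) ≤ 1 / (1 - 0.26) := by
      have := Real.one_sub_le_exp_neg (0.26 : ℝ)
      rw [Real.exp_neg] at this
      have hp : (0 : ℝ) < Real.exp 0.26 := Real.exp_pos _
      rw [le_div_iff₀ (by norm_num)]
      have h3 := mul_le_mul_of_nonneg_left this hp.le
      rw [mul_inv_cancel₀ hp.ne'] at h3
      exact h3
    have b3 := Real.exp_one_lt_d9
    rw [Real.exp_add] at b1
    have b4 : Real.exp 1 * Real.exp (0.26 : ℝ) ≤ 2.7182818286 * (1 / (1 - 0.26)) := by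
      apply mul_le_mul b3.le b2 (Real.exp_pos _).le (by norm_num)
    have b5 : (2.7182818286 : ℝ) * (1 / (1 - 0.26)) ≤ 4 := by norm_num
    linarith
  have a2 : Real.exp (-x) = (Real.exp x)⁻¹ := Real.exp_neg x
  have hp := Real.exp_pos x
  have a3 : 1 - 2 * x ≤ Real.exp (-x) * Real.exp (-x) := by
    rw [← Real.exp_add]
    have := Real.one_sub_le_exp_neg (2 * x)
    calc 1 - 2 * x ≤ Real.exp (-(2 * x)) := this
      _ = _ := by congr 1; ring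
  have a4 : Real.exp x * Real.exp (-x) = 1 := by rw [← Real.exp_add]; simp
  rw [Real.sinh_eq]
  have a5 : Real.exp x - Real.exp (-x) ≤ 2 * x * Real.exp x := by
    have h := mul_le_mul_of_nonneg_left a3 hp.le
    have : Real.exp x * (Real.exp (-x) * Real.exp (-x)) = Real.exp (-x) := by
      rw [← mul_assoc, a4, one_mul]
    nlinarith
  have a6 : 2 * x * Real.exp x ≤ 2 * x * 4 := by
    apply mul_le_mul_of_nonneg_left a1 (by linarith)
  linarith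

lemma norm_Gamma_ge {om : ℝ} (h0 : 0 < om) (h1 : om ≤ 2 / 5) :
    1 / 2 ≤ ‖Complex.Gamma (1 - I * om)‖ := by
  have hpi := Real.pi_pos
  have hx0 : 0 < Real.pi * om := by positivity
  have hx1 : Real.pi * om ≤ 1.26 := by
    have := Real.pi_lt_d2
    nlinarith
  have hs := sinh_le_four_mul hx0.le hx1
  have hsp : 0 < Real.sinh (Real.pi * om) := Real.sinh_pos_iff.mpr hx0
  have hI0 : I * (om : ℂ) ≠ 0 := mul_ne_zero I_ne_zero (by exact_mod_cast h0.ne')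
  have e1 := Complex.Gamma_mul_Gamma_one_sub (I * om)
  have e2 := Complex.Gamma_add_one (I * om) hI0
  have e3 : ‖Complex.Gamma (I * om + 1)‖ = ‖Complex.Gamma (1 - I * om)‖ := by
    have : (I * om + 1 : ℂ) = (starRingEnd ℂ) (1 - I * om) := by
      simp [Complex.conj_ofReal]
      ring
    rw [this, Complex.Gamma_conj, Complex.norm_conj]
  have e4 : ‖Complex.Gamma (1 - I * om)‖ ^ 2 = Real.pi * om / Real.sinh (Real.pi * om) := by
    have h5 : ‖Complex.Gamma (1 - I * om)‖ ^ 2 = om * (‖Complex.Gamma (I * om) * Complex.Gamma (1 - I * om)‖) := by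
      rw [sq]
      nth_rewrite 1 [← e3]
      rw [e2, norm_mul, norm_mul, norm_mul, Complex.norm_I, one_mul, Complex.norm_real,
        Real.norm_of_nonneg h0.le, mul_assoc]
    rw [h5, e1]
    have h6 : Complex.sin (Real.pi * (I * om)) = Complex.sinh (((Real.pi * om : ℝ) : ℂ)) * I := by
      rw [← Complex.sin_mul_I]
      congr 1
      push_cast
      ring
    rw [h6, norm_div, norm_mul, Complex.norm_I, mul_one, Complex.norm_real,
      Real.norm_of_nonneg hpi.le, ← Complex.ofReal_sinh, Complex.norm_real,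
      Real.norm_of_nonneg hsp.le]
    ring
  have h7 : 1 / 4 ≤ ‖Complex.Gamma (1 - I * om)‖ ^ 2 := by
    rw [e4, le_div_iff₀ hsp]
    linarith
  nlinarith [norm_nonneg (Complex.Gamma (1 - I * om))]

/-- real and imaginary parts of `m B`, `m = 5 + i om`, `B = MB (1 - i om) (4 + i om) v` -/
lemma mB_re (om v : ℝ) : ((5 + I * om : ℂ) * MB (1 - I * om) (4 + I * om) v).re =
    5 + (11 * om - om ^ 3) * v + (-60 - 57 / 2 * om ^ 2 - 9 / 2 * om ^ 4) * v ^ 2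
      + (-66 * om - 107 / 6 * om ^ 3 + 1 / 3 * om ^ 5 + 1 / 6 * om ^ 7) * v ^ 3 := by
  unfold MB
  have e2 : (v : ℂ) ^ 2 = ((v ^ 2 : ℝ) : ℂ) := by push_cast; rfl
  have e3 : (v : ℂ) ^ 3 = ((v ^ 3 : ℝ) : ℂ) := by push_cast; rfl
  rw [e2, e3]
  simp only [add_re, add_im, mul_re, mul_im, sub_re, sub_im, div_ofNat_re, div_ofNat_im, I_re, I_im,
    ofReal_re, ofReal_im, one_re, one_im, re_ofNat, im_ofNat]
  ring

lemma mB_im (om v : ℝ) : ((5 + I * om : ℂ) * MB (1 - I * om) (4 + I * om) v).im =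
    om + (20 + 8 * om ^ 2) * v + (43 * om + 13 / 2 * om ^ 3 - 1 / 2 * om ^ 5) * v ^ 2
      + (-120 - 274 / 3 * om ^ 2 - 62 / 3 * om ^ 4 - 4 / 3 * om ^ 6) * v ^ 3 := by
  unfold MB
  have e2 : (v : ℂ) ^ 2 = ((v ^ 2 : ℝ) : ℂ) := by push_cast; rfl
  have e3 : (v : ℂ) ^ 3 = ((v ^ 3 : ℝ) : ℂ) := by push_cast; rfl
  rw [e2, e3]
  simp only [add_re, add_im, mul_re, mul_im, sub_re, sub_im, div_ofNat_re, div_ofNat_im, I_re, I_im,
    ofReal_re, ofReal_im, one_re, one_im, re_ofNat, im_ofNat]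
  ring

lemma A_re (om v : ℝ) : (MA (1 - I * om) (5 + I * om) v).re =
    1 + 4 * om * v + (-20 - 5 / 2 * om ^ 2 - 1 / 2 * om ^ 4) * v ^ 2
      + (-63 * om - 16 * om ^ 3 - om ^ 5) * v ^ 3
      + (120 + 449 / 6 * om ^ 2 + 389 / 24 * om ^ 4 + 17 / 12 * om ^ 6 + 1 / 24 * om ^ 8) * v ^ 4 := by
  unfold MA MB
  have e2 : (v : ℂ) ^ 2 = ((v ^ 2 : ℝ) : ℂ) := by push_cast; rfl
  have e3 : (v : ℂ) ^ 3 = ((v ^ 3 : ℝ) : ℂ) := by push_cast; rfl
  have e4 : (v : ℂ) ^ 4 = ((v ^ 4 : ℝ) : ℂ) := by push_cast; rfl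
  rw [e2, e3, e4]
  simp only [add_re, add_im, mul_re, mul_im, sub_re, sub_im, div_ofNat_re, div_ofNat_im, I_re, I_im,
    ofReal_re, ofReal_im, one_re, one_im, re_ofNat, im_ofNat]
  ring

lemma A_im (om v : ℝ) : (MA (1 - I * om) (5 + I * om) v).im =
    (5 + om ^ 2) * v + (21 * om + 3 * om ^ 3) * v ^ 2
      + (-60 - 85 / 6 * om ^ 2 - 7 / 3 * om ^ 4 - 1 / 6 * om ^ 6) * v ^ 3
      + (-96 * om - 122 / 3 * om ^ 3 - 29 / 6 * om ^ 5 - 1 / 6 * om ^ 7) * v ^ 4 := by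
  unfold MA MB
  have e2 : (v : ℂ) ^ 2 = ((v ^ 2 : ℝ) : ℂ) := by push_cast; rfl
  have e3 : (v : ℂ) ^ 3 = ((v ^ 3 : ℝ) : ℂ) := by push_cast; rfl
  have e4 : (v : ℂ) ^ 4 = ((v ^ 4 : ℝ) : ℂ) := by push_cast; rfl
  rw [e2, e3, e4]
  simp only [add_re, add_im, mul_re, mul_im, sub_re, sub_im, div_ofNat_re, div_ofNat_im, I_re, I_im,
    ofReal_re, ofReal_im, one_re, one_im, re_ofNat, im_ofNat]
  ring

section bounds
variable {om v : ℝ}

lemma mono_le (h0 : 0 ≤ om) (h1 : om ≤ 2 / 5) (hv0 : 0 ≤ v) (hv1 : v ≤ 1 / 5) (i j : ℕ) :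
    om ^ i * v ^ j ≤ (2 / 5) ^ i * (1 / 5) ^ j := by
  gcongr

lemma mono_nonneg (h0 : 0 ≤ om) (hv0 : 0 ≤ v) (i j : ℕ) : 0 ≤ om ^ i * v ^ j := by positivity

lemma main_ge (h0 : 3 / 10 ≤ om) (h1 : om ≤ 2 / 5) (hv0 : 0 ≤ v) (hv1 : v ≤ 1 / 5) :
    3 ≤ ((starRingEnd ℂ ((5 + I * om : ℂ) * MB (1 - I * om) (4 + I * om) v)) *
      MA (1 - I * om) (5 + I * om) v).re := by
  have hom : 0 ≤ om := by linarith
  rw [mul_re, conj_re, conj_im, mB_re, mB_im, A_re, A_im]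
  have U := mono_le hom h1 hv0 hv1
  have L := mono_nonneg (om := om) (v := v) hom hv0
  have q : 5 + 36 * om * v - 60 * v ^ 2 ≥ 4.7 := by nlinarith
  nlinarith [U 1 3, U 2 4, U 4 4, U 6 4, U 8 4, U 1 5, U 3 5, U 5 5, U 7 5, U 9 5, U 11 5,
    U 2 6, U 4 6, U 6 6, U 8 6, U 10 6, U 12 6, L 2 2, L 3 3, L 1 7, L 3 7, L 5 7, L 7 7,
    L 9 7, L 11 7, L 13 7, L 15 7]

lemma norm_A_le (h0 : 3 / 10 ≤ om) (h1 : om ≤ 2 / 5) (hv0 : 0 ≤ v) (hv1 : v ≤ 1 / 5) :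
    ‖MA (1 - I * om) (5 + I * om) v‖ ≤ 3 := by
  have hom : 0 ≤ om := by linarith
  have U := mono_le hom h1 hv0 hv1
  have L := mono_nonneg (om := om) (v := v) hom hv0
  have hr : |(MA (1 - I * om) (5 + I * om) v).re| ≤ 1.55 := by
    rw [A_re, abs_le]
    constructor
    · linarith [U 1 1, U 0 2, U 2 2, U 4 2, U 1 3, U 3 3, U 5 3, U 0 4, U 2 4, U 4 4, U 6 4, U 8 4,
        L 1 1, L 0 2, L 2 2, L 4 2, L 1 3, L 3 3, L 5 3, L 0 4, L 2 4, L 4 4, L 6 4, L 8 4]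
    · linarith [U 1 1, U 0 2, U 2 2, U 4 2, U 1 3, U 3 3, U 5 3, U 0 4, U 2 4, U 4 4, U 6 4, U 8 4,
        L 1 1, L 0 2, L 2 2, L 4 2, L 1 3, L 3 3, L 5 3, L 0 4, L 2 4, L 4 4, L 6 4, L 8 4]
  have hi : |(MA (1 - I * om) (5 + I * om) v).im| ≤ 1.4 := by
    rw [A_im, abs_le]
    constructor
    · linarith [U 0 1, U 2 1, U 1 2, U 3 2, U 0 3, U 2 3, U 4 3, U 6 3, U 1 4, U 3 4, U 5 4, U 7 4,
        L 0 1, L 2 1, L 1 2, L 3 2, L 0 3, L 2 3, L 4 3, L 6 3, L 1 4, L 3 4, L 5 4, L 7 4]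
    · linarith [U 0 1, U 2 1, U 1 2, U 3 2, U 0 3, U 2 3, U 4 3, U 6 3, U 1 4, U 3 4, U 5 4, U 7 4,
        L 0 1, L 2 1, L 1 2, L 3 2, L 0 3, L 2 3, L 4 3, L 6 3, L 1 4, L 3 4, L 5 4, L 7 4]
  exact (Complex.norm_le_abs_re_add_abs_im _).trans (by linarith)

lemma norm_mB_le (h0 : 3 / 10 ≤ om) (h1 : om ≤ 2 / 5) (hv0 : 0 ≤ v) (hv1 : v ≤ 1 / 5) :
    ‖(5 + I * om : ℂ) * MB (1 - I * om) (4 + I * om) v‖ ≤ 11.5 := by
  have hom : 0 ≤ om := by linarith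
  have U := mono_le hom h1 hv0 hv1
  have L := mono_nonneg (om := om) (v := v) hom hv0
  have hr : |((5 + I * om : ℂ) * MB (1 - I * om) (4 + I * om) v).re| ≤ 6 := by
    rw [mB_re, abs_le]
    constructor
    · linarith [U 1 1, U 3 1, U 0 2, U 2 2, U 4 2, U 1 3, U 3 3, U 5 3, U 7 3,
        L 1 1, L 3 1, L 0 2, L 2 2, L 4 2, L 1 3, L 3 3, L 5 3, L 7 3]
    · linarith [U 1 1, U 3 1, U 0 2, U 2 2, U 4 2, U 1 3, U 3 3, U 5 3, U 7 3,
        L 1 1, L 3 1, L 0 2, L 2 2, L 4 2, L 1 3, L 3 3, L 5 3, L 7 3]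
  have hi : |((5 + I * om : ℂ) * MB (1 - I * om) (4 + I * om) v).im| ≤ 5.5 := by
    rw [mB_im, abs_le]
    constructor
    · linarith [U 1 0, U 0 1, U 2 1, U 1 2, U 3 2, U 5 2, U 0 3, U 2 3, U 4 3, U 6 3,
        L 1 0, L 0 1, L 2 1, L 1 2, L 3 2, L 5 2, L 0 3, L 2 3, L 4 3, L 6 3]
    · linarith [U 1 0, U 0 1, U 2 1, U 1 2, U 3 2, U 5 2, U 0 3, U 2 3, U 4 3, U 6 3,
        L 1 0, L 0 1, L 2 1, L 1 2, L 3 2, L 5 2, L 0 3, L 2 3, L 4 3, L 6 3]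
  exact (Complex.norm_le_abs_re_add_abs_im _).trans (by linarith)

end bounds

lemma norm_k_le {om k : ℝ} (h0 : 0 ≤ om) (h1 : om ≤ 2 / 5) (K : ℝ) (hK : 0 ≤ K)
    (h : k ^ 2 + 4 / 25 ≤ K ^ 2) : ‖((k : ℂ) + I * om)‖ ≤ K := by
  refine (pow_le_pow_iff_left₀ (norm_nonneg _) hK two_ne_zero).mp ?_
  rw [← Complex.normSq_eq_norm_sq, normSq_apply]
  simp only [add_re, add_im, mul_re, mul_im, I_re, I_im, ofReal_re, ofReal_im]
  nlinarith

/-- Part (2) of A3. -/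
theorem re_pos {om rho : ℝ} (h0 : 3 / 10 ≤ om) (h1 : om ≤ 2 / 5) (hr : 5 ≤ rho) :
    0 < ((starRingEnd ℂ ((5 + I * om : ℂ) * J (1 - I * om) (4 + I * om) rho)) *
      J (1 - I * om) (5 + I * om) rho).re := by
  have hom : 0 ≤ om := by linarith
  have hom' : 0 < om := by linarith
  have hr0 : 0 < rho := by linarith
  have ha : (1 - I * om : ℂ).re = 1 := by simp
  have ha0 : 0 < (1 - I * om : ℂ).re := by rw [ha]; exact one_pos
  set v : ℝ := 1 / rho with hv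
  have hv0 : 0 < v := by positivity
  have hv1 : v ≤ 1 / 5 := one_div_le_one_div_of_le (by norm_num) hr
  set X : ℂ := J (1 - I * om) 0 rho with hX
  have hXn : v / 2 ≤ ‖X‖ := by
    rw [hX, J_zero ha0 hr0, norm_mul]
    have e : ‖(1 / (rho : ℂ)) ^ (1 - I * om : ℂ)‖ = v := by
      have : (1 / (rho : ℂ)) = ((v : ℝ) : ℂ) := by rw [hv]; push_cast; rfl
      rw [this, Complex.norm_cpow_eq_rpow_re_of_pos hv0, ha, Real.rpow_one]
    rw [e]
    have := norm_Gamma_ge hom' h1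
    nlinarith
  have hXpos : 0 < ‖X‖ := by linarith [half_pos hv0]
  -- expansions
  obtain ⟨i4, e4⟩ := integral_T4 ha0 hr0 (4 + I * om)
  obtain ⟨i5, e5⟩ := integral_T5 ha0 hr0 (5 + I * om)
  have b4 := J_sub_le ha hr0 (taylor4 hom) i4
  have b5 := J_sub_le ha hr0 (taylor5 hom) i5
  rw [e4, ← hX, ← hv] at b4
  rw [e5, ← hX, ← hv] at b5
  have n1 : ‖(1 + I * om : ℂ)‖ ≤ 1.08 := by
    have := norm_k_le hom h1 (k := 1) 1.08 (by norm_num) (by norm_num)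
    simpa using this
  have n2 : ‖(2 + I * om : ℂ)‖ ≤ 2.04 := by
    have := norm_k_le hom h1 (k := 2) 2.04 (by norm_num) (by norm_num)
    simpa using this
  have n3 : ‖(3 + I * om : ℂ)‖ ≤ 3.03 := by
    have := norm_k_le hom h1 (k := 3) 3.03 (by norm_num) (by norm_num)
    simpa using this
  have n4 : ‖(4 + I * om : ℂ)‖ ≤ 4.03 := by
    have := norm_k_le hom h1 (k := 4) 4.03 (by norm_num) (by norm_num)
    simpa using this
  have n5 : ‖(5 + I * om : ℂ)‖ ≤ 5.02 := by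
    have := norm_k_le hom h1 (k := 5) 5.02 (by norm_num) (by norm_num)
    simpa using this
  have p4 : ‖(4 + I * om : ℂ)‖ * ‖(3 + I * om : ℂ)‖ * ‖(2 + I * om : ℂ)‖ * ‖(1 + I * om : ℂ)‖ ≤ 27 := by
    calc _ ≤ 4.03 * 3.03 * 2.04 * (1.08 : ℝ) := by gcongr
      _ ≤ 27 := by norm_num
  have p5 : ‖(5 + I * om : ℂ)‖ * ‖(4 + I * om : ℂ)‖ * ‖(3 + I * om : ℂ)‖ * ‖(2 + I * om : ℂ)‖
      * ‖(1 + I * om : ℂ)‖ ≤ 136 := by
    calc _ ≤ 5.02 * 4.03 * 3.03 * 2.04 * (1.08 : ℝ) := by gcongr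
      _ ≤ 136 := by norm_num
  set A : ℂ := MA (1 - I * om) (5 + I * om) v with hA
  set B : ℂ := MB (1 - I * om) (4 + I * om) v with hB
  set J4 : ℂ := J (1 - I * om) (4 + I * om) rho with hJ4
  set J5 : ℂ := J (1 - I * om) (5 + I * om) rho with hJ5
  set E4 : ℂ := J4 - X * B with hE4
  set E5 : ℂ := J5 - X * A with hE5
  have c4 : ‖E4‖ ≤ ‖X‖ * 0.0865 := by
    have hv4 : v ^ 4 ≤ 1 / 625 := by
      calc v ^ 4 ≤ (1 / 5) ^ 4 := by gcongr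
        _ = 1 / 625 := by norm_num
    have e : ((Nat.factorial 4 : ℕ) : ℝ) / rho ^ (4 + 1) = 24 * v ^ 4 * v := by
      rw [hv]
      have : ((Nat.factorial 4 : ℕ) : ℝ) = 24 := by norm_num [Nat.factorial]
      rw [this]
      field_simp
    rw [e] at b4
    calc ‖E4‖ ≤ _ := b4
      _ ≤ 27 / 24 * (24 * v ^ 4 * v) := by gcongr
      _ = 27 * v ^ 4 * v := by ring
      _ ≤ 27 * (1 / 625) * (2 * ‖X‖) := by
          gcongr
          linarith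
      _ ≤ ‖X‖ * 0.0865 := by nlinarith
  have c5 : ‖E5‖ ≤ ‖X‖ * 0.0875 := by
    have hv5 : v ^ 5 ≤ 1 / 3125 := by
      calc v ^ 5 ≤ (1 / 5) ^ 5 := by gcongr
        _ = 1 / 3125 := by norm_num
    have e : ((Nat.factorial 5 : ℕ) : ℝ) / rho ^ (5 + 1) = 120 * v ^ 5 * v := by
      rw [hv]
      have : ((Nat.factorial 5 : ℕ) : ℝ) = 120 := by norm_num [Nat.factorial]
      rw [this]
      field_simp
    rw [e] at b5
    calc ‖E5‖ ≤ _ := b5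
      _ ≤ 136 / 120 * (120 * v ^ 5 * v) := by gcongr
      _ = 136 * v ^ 5 * v := by ring
      _ ≤ 136 * (1 / 3125) * (2 * ‖X‖) := by
          gcongr
          linarith
      _ ≤ ‖X‖ * 0.0875 := by nlinarith
  have hmain : 3 ≤ ((starRingEnd ℂ ((5 + I * om : ℂ) * B)) * A).re :=
    main_ge h0 h1 hv0.le hv1
  have hAn : ‖A‖ ≤ 3 := norm_A_le h0 h1 hv0.le hv1
  have hBn : ‖(5 + I * om : ℂ) * B‖ ≤ 11.5 := norm_mB_le h0 h1 hv0.le hv1
  have d4 : J4 = X * B + E4 := by rw [hE4]; ring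
  have d5 : J5 = X * A + E5 := by rw [hE5]; ring
  have expand : (starRingEnd ℂ ((5 + I * om : ℂ) * J4)) * J5 =
      ((normSq X : ℝ) : ℂ) * ((starRingEnd ℂ ((5 + I * om : ℂ) * B)) * A)
      + ((starRingEnd ℂ (X * ((5 + I * om : ℂ) * B))) * E5
        + (starRingEnd ℂ ((5 + I * om : ℂ) * E4)) * (X * A)
        + (starRingEnd ℂ ((5 + I * om : ℂ) * E4)) * E5) := by
    rw [d4, d5, Complex.normSq_eq_conj_mul_self]
    simp only [map_mul, map_add]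
    ring
  rw [expand, add_re, re_ofReal_mul]
  have herr : ‖(starRingEnd ℂ (X * ((5 + I * om : ℂ) * B))) * E5
        + (starRingEnd ℂ ((5 + I * om : ℂ) * E4)) * (X * A)
        + (starRingEnd ℂ ((5 + I * om : ℂ) * E4)) * E5‖ ≤ ‖X‖ ^ 2 * 2.8 := by
    refine (norm_add₃_le).trans ?_
    have m1 : ‖(starRingEnd ℂ (X * ((5 + I * om : ℂ) * B))) * E5‖ ≤ ‖X‖ ^ 2 * (11.5 * 0.0875) := by
      rw [norm_mul, Complex.norm_conj, norm_mul]
      calc ‖X‖ * ‖(5 + I * om : ℂ) * B‖ * ‖E5‖ ≤ ‖X‖ * 11.5 * (‖X‖ * 0.0875) := by gcongr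
        _ = _ := by ring
    have m2 : ‖(starRingEnd ℂ ((5 + I * om : ℂ) * E4)) * (X * A)‖ ≤ ‖X‖ ^ 2 * (5.02 * 0.0865 * 3) := by
      rw [norm_mul, Complex.norm_conj, norm_mul, norm_mul]
      calc ‖(5 + I * om : ℂ)‖ * ‖E4‖ * (‖X‖ * ‖A‖) ≤ 5.02 * (‖X‖ * 0.0865) * (‖X‖ * 3) := by gcongr
        _ = _ := by ring
    have m3 : ‖(starRingEnd ℂ ((5 + I * om : ℂ) * E4)) * E5‖ ≤ ‖X‖ ^ 2 * (5.02 * 0.0865 * 0.0875) := by
      rw [norm_mul, Complex.norm_conj, norm_mul]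
      calc ‖(5 + I * om : ℂ)‖ * ‖E4‖ * ‖E5‖ ≤ 5.02 * (‖X‖ * 0.0865) * (‖X‖ * 0.0875) := by gcongr
        _ = _ := by ring
    nlinarith [sq_nonneg ‖X‖]
  have hre := (Complex.abs_re_le_norm ((starRingEnd ℂ (X * ((5 + I * om : ℂ) * B))) * E5
        + (starRingEnd ℂ ((5 + I * om : ℂ) * E4)) * (X * A)
        + (starRingEnd ℂ ((5 + I * om : ℂ) * E4)) * E5)).trans herr
  have hre' := (abs_le.mp hre).1
  have hsq : normSq X = ‖X‖ ^ 2 := Complex.normSq_eq_norm_sq X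
  rw [hsq]
  have h9 : 0 < ‖X‖ ^ 2 := by positivity
  nlinarith

end Crest.Agent.R086.A3
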