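import Mathlib
import Crest.Agent.R086.A3Ode
import Crest.Agent.R086.A3Pos

/-!
Row 86 (S0114), Part A, module A3 (helper592).  The outgoing solution
  `W om rho = -((5 + i om) J(1-i om, 4+i om, rho) + i rho J(1-i om, 5+i om, rho))`
(`= (a+1-b-i rho) J(a+1,b-a-2) + rho J(a+2,b-a-2)`, `a = -i om`, `b = 6`)
satisfies  `W' = om J(1-i om, 5+i om)`,  `rho W'' + (6 + i rho) W' + om W = 0`, and if
`J(1-i om, 5+i om, rho0) = 0` (obstacle profile, `3/10 ≤ om ≤ 2/5`), then `|W|` is strictly decreasing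
on `[rho0, ∞)`, with limit `|Γ(1 - i om)| > 0`.
-/

set_option autoImplicit false

open MeasureTheory Complex Set Filter Topology

namespace Crest.Agent.R086.A3

open Crest.Agent.R086.JInt

noncomputable def j4 (om rho : ℝ) : ℂ := J (1 - I * om) (4 + I * om) rho
noncomputable def j5 (om rho : ℝ) : ℂ := J (1 - I * om) (5 + I * om) rho

/-- outgoing solution in the variable `rho = r^2/4` -/
noncomputable def W (om rho : ℝ) : ℂ := -((5 + I * om) * j4 om rho + I * rho * j5 om rho)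

lemma W_eq (om : ℝ) {rho : ℝ} (hr : 0 < rho) :
    W om rho = (-5 - I * om - I * rho) * J (1 - I * om) (4 + I * om) rho
      + rho * J (2 - I * om) (4 + I * om) rho := by
  have h := J_shift (a := 1 - I * om) (c := 4 + I * om) (rho := rho) (by simp) hr
  rw [show (4 + I * om + 1 : ℂ) = 5 + I * om by ring,
    show (1 - I * om + 1 : ℂ) = 2 - I * om by ring] at h
  unfold W j4 j5
  rw [h]
  have hI : I * I = -1 := Complex.I_mul_I
  linear_combination (-(rho : ℂ) * J (2 - I * om) (4 + I * om) rho) * hI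

lemma hasDerivAt_j4 (om : ℝ) {rho : ℝ} (hr : 0 < rho) :
    HasDerivAt (j4 om) (I * (j5 om rho - j4 om rho)) rho := by
  have h := J_shift (a := 1 - I * om) (c := 4 + I * om) (rho := rho) (by simp) hr
  rw [show (4 + I * om + 1 : ℂ) = 5 + I * om by ring] at h
  have h1 := J_hasDerivAt (a := 1 - I * om) (c := 4 + I * om) (rho := rho) (by simp) hr
  refine h1.congr_deriv ?_
  unfold j4 j5
  rw [h]
  have hI : I * I = -1 := Complex.I_mul_I
  linear_combination (-J (1 - I * om + 1) (4 + I * om) rho) * hI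

lemma hasDerivAt_j5 (om : ℝ) {rho : ℝ} (hr : 0 < rho) :
    HasDerivAt (j5 om) (((5 + I * om) * j4 om rho - 6 * j5 om rho) / rho) rho := by
  have hr0 : (rho : ℂ) ≠ 0 := by exact_mod_cast hr.ne'
  have hp1 : 0 < (1 - I * om : ℂ).re := by simp
  have hp2 : 0 < (1 - I * om + 1 : ℂ).re := by simp
  have s1 := J_shift (a := 1 - I * om) (c := 4 + I * om) (rho := rho) hp1 hr
  have s2 := J_shift (a := 1 - I * om + 1) (c := 4 + I * om) (rho := rho) hp2 hr
  have ib := J_ibp (a := 1 - I * om) (c := 4 + I * om) (rho := rho) hp1 hr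
  rw [show (4 + I * om + 1 : ℂ) = 5 + I * om by ring] at s1 s2
  rw [show (1 - I * om + 1 + 1 : ℂ) = 1 - I * om + 2 by ring] at s2
  have h1 := J_hasDerivAt (a := 1 - I * om) (c := 5 + I * om) (rho := rho) hp1 hr
  refine h1.congr_deriv ?_
  unfold j4 j5
  rw [s2, s1, eq_div_iff hr0]
  have hI : I * I = -1 := Complex.I_mul_I
  linear_combination (-I) * ib + (J (1 - I * om) (4 + I * om) rho * (1 - I * om)
    - rho * J (1 - I * om + 1) (4 + I * om) rho) * hI

lemma hasDerivAt_W (om : ℝ) {rho : ℝ} (hr : 0 < rho) :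
    HasDerivAt (W om) (om * j5 om rho) rho := by
  have hr0 : (rho : ℂ) ≠ 0 := by exact_mod_cast hr.ne'
  have h4 := (hasDerivAt_j4 om hr).const_mul (5 + I * om : ℂ)
  have h5 := hasDerivAt_j5 om hr
  have hid : HasDerivAt (fun x : ℝ => I * (x : ℂ)) I rho := by
    have := ((hasDerivAt_id rho).ofReal_comp).const_mul I
    simpa using this
  have h := (h4.add (hid.mul h5)).neg
  refine (h.congr_of_eventuallyEq ?_).congr_deriv ?_
  · filter_upwards with x
    simp [W]
  · field_simp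
    have hI : I * I = -1 := Complex.I_mul_I
    linear_combination (-(om : ℂ) * j5 om rho) * hI

/-- `rho W'' + (6 + i rho) W' + om W = 0` -/
lemma W_ode (om : ℝ) {rho : ℝ} (hr : 0 < rho) :
    (rho : ℂ) * (om * (((5 + I * om) * j4 om rho - 6 * j5 om rho) / rho))
      + (6 + I * rho) * (om * j5 om rho) + om * W om rho = 0 := by
  have hr0 : (rho : ℂ) ≠ 0 := by exact_mod_cast hr.ne'
  unfold W
  field_simp
  ring

/-- nondegeneracy: `(j4, j5) ≠ (0, 0)`. -/
lemma j45_ne {om rho : ℝ} (h0 : 3 / 10 ≤ om) (h1 : om ≤ 2 / 5) (hr : 0 < rho) :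
    ¬ (j4 om rho = 0 ∧ j5 om rho = 0) := by
  rintro ⟨e4, e5⟩
  rcases le_or_gt 5 rho with h | h
  · have := re_pos h0 h1 h
    change 0 < ((starRingEnd ℂ ((5 + I * om : ℂ) * j4 om rho)) * j5 om rho).re at this
    rw [e5] at this
    simp at this
  · -- uniqueness for the linear system on [rho, 5]
    let v : ℝ → ℂ × ℂ → ℂ × ℂ := fun t y =>
      (I * (y.2 - y.1), ((5 + I * om) * y.1 - 6 * y.2) / t)
    have hL : ∀ t ∈ Ico rho 5, LipschitzOnWith (Real.toNNReal (12 / rho + 2)) (v t) Set.univ := by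
      intro t ht
      have ht0 : 0 < t := hr.trans_le ht.1
      refine LipschitzOnWith.of_dist_le_mul ?_
      intro x _ y _
      rw [Real.coe_toNNReal _ (by positivity), Prod.dist_eq, Prod.dist_eq]
      simp only [dist_eq_norm]
      set M := max ‖x.1 - y.1‖ ‖x.2 - y.2‖ with hM
      have m1 : ‖x.1 - y.1‖ ≤ M := le_max_left _ _
      have m2 : ‖x.2 - y.2‖ ≤ M := le_max_right _ _
      have hM0 : 0 ≤ M := (norm_nonneg _).trans m1
      apply max_le
      · have : I * (x.2 - x.1) - I * (y.2 - y.1) = I * ((x.2 - y.2) - (x.1 - y.1)) := by ring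
        simp only [v]
        rw [this, norm_mul, Complex.norm_I, one_mul]
        have := norm_sub_le (x.2 - y.2) (x.1 - y.1)
        have h12 : 0 ≤ 12 / rho * M := by positivity
        nlinarith
      · have e : ((5 + I * om) * x.1 - 6 * x.2) / t - ((5 + I * om) * y.1 - 6 * y.2) / t =
            ((5 + I * om) * (x.1 - y.1) - 6 * (x.2 - y.2)) / t := by ring
        simp only [v]
        rw [e, norm_div, Complex.norm_real, Real.norm_of_nonneg ht0.le]
        have n5 : ‖(5 + I * om : ℂ)‖ ≤ 6 := by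
          have := norm_k_le (by linarith : 0 ≤ om) h1 (k := 5) 6 (by norm_num) (by norm_num)
          simpa using this
        have h3 : ‖(5 + I * om) * (x.1 - y.1) - 6 * (x.2 - y.2)‖ ≤ 12 * M := by
          refine (norm_sub_le _ _).trans ?_
          rw [norm_mul, norm_mul]
          have : ‖(6 : ℂ)‖ = 6 := by simp
          rw [this]
          nlinarith [norm_nonneg (x.1 - y.1), norm_nonneg (x.2 - y.2)]
        calc _ ≤ 12 * M / t := by gcongr
          _ ≤ 12 * M / rho := by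
            gcongr
            exact ht.1
          _ = 12 / rho * M := by ring
          _ ≤ _ := by nlinarith
    have hd : ∀ t ∈ Icc rho 5, HasDerivAt (fun t => (j4 om t, j5 om t)) (v t (j4 om t, j5 om t)) t := by
      intro t ht
      have ht0 : 0 < t := hr.trans_le ht.1
      exact (hasDerivAt_j4 om ht0).prodMk (hasDerivAt_j5 om ht0)
    have hz : ∀ t ∈ Icc rho 5, HasDerivAt (fun _ : ℝ => ((0 : ℂ), (0 : ℂ))) (v t (0, 0)) t := by
      intro t _
      have : v t (0, 0) = 0 := by simp [v]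
      rw [this]
      exact hasDerivAt_const t _
    have huniq := ODE_solution_unique_of_mem_Icc_right (v := v) (s := fun _ => Set.univ)
      (K := Real.toNNReal (12 / rho + 2)) (f := fun t => (j4 om t, j5 om t))
      (g := fun _ => ((0 : ℂ), (0 : ℂ))) (a := rho) (b := 5) hL
      (fun t ht => (hd t ht).continuousAt.continuousWithinAt)
      (fun t ht => (hd t ⟨ht.1, ht.2.le⟩).hasDerivWithinAt) (fun _ _ => Set.mem_univ _)
      (fun t ht => (hz t ht).continuousAt.continuousWithinAt)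
      (fun t ht => (hz t ⟨ht.1, ht.2.le⟩).hasDerivWithinAt) (fun _ _ => Set.mem_univ _)
      (by simp [e4, e5])
    have h5 := huniq (⟨h.le, le_rfl⟩ : (5 : ℝ) ∈ Icc rho 5)
    simp only [Prod.mk.injEq] at h5
    have := re_pos h0 h1 (le_refl (5 : ℝ))
    change 0 < ((starRingEnd ℂ ((5 + I * om : ℂ) * j4 om 5)) * j5 om 5).re at this
    rw [h5.2] at this
    simp at this

lemma W_ne_of_j5 {om rho : ℝ} (h0 : 3 / 10 ≤ om) (h1 : om ≤ 2 / 5) (hr : 0 < rho)
    (h5 : j5 om rho = 0) : W om rho ≠ 0 := by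
  intro h
  apply j45_ne h0 h1 hr
  refine ⟨?_, h5⟩
  unfold W at h
  rw [h5, mul_zero, add_zero, neg_eq_zero, mul_eq_zero] at h
  rcases h with h | h
  · have := congrArg Complex.re h
    simp at this
  · exact h

/-- part (2) in terms of `W` -/
lemma re_W_neg_of_ge {om rho : ℝ} (h0 : 3 / 10 ≤ om) (h1 : om ≤ 2 / 5) (hr : 5 ≤ rho) :
    ((starRingEnd ℂ (W om rho)) * (om * j5 om rho)).re < 0 := by
  have h := re_pos h0 h1 hr
  change 0 < ((starRingEnd ℂ ((5 + I * om : ℂ) * j4 om rho)) * j5 om rho).re at h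
  have hom : 0 < om := by linarith
  have e : (starRingEnd ℂ (W om rho)) * (om * j5 om rho) =
      ((om : ℝ) : ℂ) * (-((starRingEnd ℂ ((5 + I * om : ℂ) * j4 om rho)) * j5 om rho)
        + I * ((rho * normSq (j5 om rho) : ℝ) : ℂ)) := by
    unfold W
    push_cast
    rw [Complex.normSq_eq_conj_mul_self]
    simp only [map_neg, map_add, map_mul, conj_I, conj_ofReal]
    ring
  rw [e, re_ofReal_mul, add_re, neg_re]
  have : (I * ((rho * normSq (j5 om rho) : ℝ) : ℂ)).re = 0 := by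
    simp only [mul_re, I_re, I_im, ofReal_re, ofReal_im]
    ring
  rw [this]
  nlinarith

/-- the solution in the variable `r` -/
noncomputable def Ur (om r : ℝ) : ℂ := W om (r ^ 2 / 4)
/-- its derivative -/
noncomputable def Ur1 (om r : ℝ) : ℂ := r / 2 * (om * j5 om (r ^ 2 / 4))

lemma hasDerivAt_sq (r : ℝ) : HasDerivAt (fun r : ℝ => r ^ 2 / 4) (r / 2) r := by
  have := (hasDerivAt_pow 2 r).div_const 4
  refine this.congr_deriv ?_
  norm_num
  ring

lemma hasDerivAt_Ur (om : ℝ) {r : ℝ} (hr : 0 < r) : HasDerivAt (Ur om) (Ur1 om r) r := by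
  have h := (hasDerivAt_W om (rho := r ^ 2 / 4) (by positivity)).scomp r (hasDerivAt_sq r)
  refine h.congr_deriv ?_
  unfold Ur1
  simp

lemma hasDerivAt_Ur1 (om : ℝ) {r : ℝ} (hr : 0 < r) :
    HasDerivAt (Ur1 om) (-(11 / r + I * r / 2) * Ur1 om r - om * Ur om r) r := by
  have hr0 : (r : ℂ) ≠ 0 := by exact_mod_cast hr.ne'
  have hp : 0 < r ^ 2 / 4 := by positivity
  have h := (hasDerivAt_j5 om hp).scomp r (hasDerivAt_sq r)
  have hid : HasDerivAt (fun x : ℝ => (x : ℂ) / 2) (1 / 2) r := by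
    have := ((hasDerivAt_id r).ofReal_comp).div_const 2
    simpa using this
  have h2 := hid.mul (h.const_mul (om : ℂ))
  refine (h2.congr_of_eventuallyEq ?_).congr_deriv ?_
  · filter_upwards with x
    simp [Ur1, Function.comp]
  · unfold Ur1 Ur W
    simp only [Function.comp, real_smul]
    push_cast
    field_simp
    ring

/-- **A3**, differential form: `Re (conj U * U') < 0` for `r > R`. -/
theorem re_U_neg {om R : ℝ} (h0 : 3 / 10 ≤ om) (h1 : om ≤ 2 / 5) (hR : 0 < R)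
    (hz : j5 om (R ^ 2 / 4) = 0) {r : ℝ} (hr : R < r) :
    ((starRingEnd ℂ (Ur om r)) * Ur1 om r).re < 0 := by
  have hr0 : 0 < r := hR.trans hr
  rcases le_total (r ^ 2 / 4) 5 with h | h
  · have hb : r ^ 4 / 16 + om * r ^ 2 ≤ 36 := by
      have h2 : r ^ 2 ≤ 20 := by linarith
      have h3 : 0 ≤ r ^ 2 := sq_nonneg r
      have h4 : r ^ 4 = r ^ 2 * r ^ 2 := by ring
      rw [h4]
      nlinarith
    refine re_conj_mul_neg (R := R) (b := r) hR (by linarith : 0 < om) hb
      (fun x hx => (hasDerivAt_Ur om (hR.trans_le hx.1)).continuousAt.continuousWithinAt)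
      (fun x hx => (hasDerivAt_Ur1 om (hR.trans_le hx.1)).continuousAt.continuousWithinAt)
      (fun x hx => hasDerivAt_Ur om (hR.trans hx.1))
      (fun x hx => hasDerivAt_Ur1 om (hR.trans hx.1)) ?_ ?_ r ⟨hr, le_rfl⟩
    · exact W_ne_of_j5 h0 h1 (by positivity) hz
    · simp [Ur1, hz]
  · have h2 := re_W_neg_of_ge h0 h1 h
    have e : (starRingEnd ℂ (Ur om r)) * Ur1 om r =
        ((r / 2 : ℝ) : ℂ) * ((starRingEnd ℂ (W om (r ^ 2 / 4))) * (om * j5 om (r ^ 2 / 4))) := by
      unfold Ur Ur1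
      push_cast
      ring
    rw [e, re_ofReal_mul]
    have : 0 < r / 2 := by positivity
    nlinarith

/-- **A3**: `|U|^2` strictly decreasing on `[R, ∞)`. -/
theorem normSq_strictAnti {om R : ℝ} (h0 : 3 / 10 ≤ om) (h1 : om ≤ 2 / 5) (hR : 0 < R)
    (hz : j5 om (R ^ 2 / 4) = 0) : StrictAntiOn (fun r => normSq (Ur om r)) (Ici R) := by
  have hpos : ∀ x ∈ Ici R, 0 < x := fun x hx => hR.trans_le hx
  refine strictAntiOn_of_deriv_neg (convex_Ici R)
    (fun x hx => (hasDerivAt_normSq (hasDerivAt_Ur om (hpos x hx))).continuousAt.continuousWithinAt) ?_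
  intro x hx
  rw [interior_Ici] at hx
  rw [(hasDerivAt_normSq (hasDerivAt_Ur om (hR.trans hx))).deriv]
  have := re_U_neg h0 h1 hR hz hx
  linarith

theorem norm_strictAnti {om R : ℝ} (h0 : 3 / 10 ≤ om) (h1 : om ≤ 2 / 5) (hR : 0 < R)
    (hz : j5 om (R ^ 2 / 4) = 0) : StrictAntiOn (fun r => ‖Ur om r‖) (Ici R) := by
  intro x hx y hy hxy
  have h := normSq_strictAnti h0 h1 hR hz hx hy hxy
  simp only [normSq_eq_norm_sq] at h
  exact lt_of_pow_lt_pow_left₀ 2 (norm_nonneg _) h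

/-- normalised obstacle profile outside the core -/
noncomputable def Un (om R r : ℝ) : ℂ := Ur om r / Ur om R

theorem norm_Un_lt_one {om R : ℝ} (h0 : 3 / 10 ≤ om) (h1 : om ≤ 2 / 5) (hR : 0 < R)
    (hz : j5 om (R ^ 2 / 4) = 0) {r : ℝ} (hr : R < r) : ‖Un om R r‖ < 1 := by
  have hne : Ur om R ≠ 0 := W_ne_of_j5 h0 h1 (by positivity) hz
  unfold Un
  rw [norm_div, div_lt_one (norm_pos_iff.mpr hne)]
  exact norm_strictAnti h0 h1 hR hz (Set.mem_Ici.mpr le_rfl) hr.le hr

theorem norm_Un_strictAnti {om R : ℝ} (h0 : 3 / 10 ≤ om) (h1 : om ≤ 2 / 5) (hR : 0 < R)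
    (hz : j5 om (R ^ 2 / 4) = 0) : StrictAntiOn (fun r => ‖Un om R r‖) (Ici R) := by
  have hne : Ur om R ≠ 0 := W_ne_of_j5 h0 h1 (by positivity) hz
  intro x hx y hy hxy
  have h := norm_strictAnti h0 h1 hR hz hx hy hxy
  simp only [Un, norm_div] at h ⊢
  exact div_lt_div_of_pos_right h (norm_pos_iff.mpr hne)

/-! ### the limit at infinity -/

lemma norm_X (om : ℝ) {rho : ℝ} (hr : 0 < rho) :
    ‖J (1 - I * om) 0 rho‖ = 1 / rho * ‖Complex.Gamma (1 - I * om)‖ := by
  have ha : (1 - I * om : ℂ).re = 1 := by simp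
  rw [J_zero (by rw [ha]; exact one_pos) hr, norm_mul]
  congr 1
  have : (1 / (rho : ℂ)) = ((1 / rho : ℝ) : ℂ) := by push_cast; rfl
  rw [this, Complex.norm_cpow_eq_rpow_re_of_pos (by positivity), ha, Real.rpow_one]

lemma tendsto_MB (a c : ℂ) : Tendsto (fun rho : ℝ => MB a c (1 / rho)) atTop (𝓝 1) := by
  have h : ContinuousAt (MB a c) 0 := by
    unfold MB
    fun_prop
  have h1 : Tendsto (fun rho : ℝ => 1 / rho) atTop (𝓝 0) := by
    simpa using tendsto_inv_atTop_zero
  have h2 := h.tendsto.comp h1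
  have h3 : MB a c 0 = 1 := by simp [MB]
  rw [h3] at h2
  exact h2

lemma tendsto_MA (a c : ℂ) : Tendsto (fun rho : ℝ => MA a c (1 / rho)) atTop (𝓝 1) := by
  have h : ContinuousAt (MA a c) 0 := by
    unfold MA MB
    fun_prop
  have h1 : Tendsto (fun rho : ℝ => 1 / rho) atTop (𝓝 0) := by
    simpa using tendsto_inv_atTop_zero
  have h2 := h.tendsto.comp h1
  have h3 : MA a c 0 = 1 := by simp [MA, MB]
  rw [h3] at h2
  exact h2

theorem tendsto_norm_W {om : ℝ} (h0 : 0 ≤ om) :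
    Tendsto (fun rho : ℝ => ‖W om rho‖) atTop (𝓝 ‖Complex.Gamma (1 - I * om)‖) := by
  have ha : (1 - I * om : ℂ).re = 1 := by simp
  have ha0 : 0 < (1 - I * om : ℂ).re := by rw [ha]; exact one_pos
  set G : ℝ := ‖Complex.Gamma (1 - I * om)‖ with hG
  set C4 : ℝ := ‖(4 + I * om : ℂ)‖ * ‖(3 + I * om : ℂ)‖ * ‖(2 + I * om : ℂ)‖ * ‖(1 + I * om : ℂ)‖ / 24
    with hC4
  set C5 : ℝ := ‖(5 + I * om : ℂ)‖ * ‖(4 + I * om : ℂ)‖ * ‖(3 + I * om : ℂ)‖ * ‖(2 + I * om : ℂ)‖
        * ‖(1 + I * om : ℂ)‖ / 120 with hC5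
  -- bounds
  have b4 : ∀ rho : ℝ, 0 < rho → ‖j4 om rho‖ ≤
      1 / rho * G * ‖MB (1 - I * om) (4 + I * om) (1 / rho)‖ + C4 * (24 * (1 / rho) ^ 5) := by
    intro rho hr
    obtain ⟨i4, e4⟩ := integral_T4 ha0 hr (4 + I * om)
    have b4 := J_sub_le ha hr (taylor4 h0) i4
    rw [e4] at b4
    have e : ((Nat.factorial 4 : ℕ) : ℝ) / rho ^ (4 + 1) = 24 * (1 / rho) ^ 5 := by
      have : ((Nat.factorial 4 : ℕ) : ℝ) = 24 := by norm_num [Nat.factorial]
      rw [this]
      field_simp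
    rw [e] at b4
    have h := norm_le_norm_add_norm_sub' (J (1 - I * om) (4 + I * om) rho)
      (J (1 - I * om) 0 rho * MB (1 - I * om) (4 + I * om) (1 / rho))
    rw [norm_mul, norm_X om hr] at h
    calc ‖j4 om rho‖ ≤ _ := h
      _ ≤ _ := by gcongr
  have b5 : ∀ rho : ℝ, 0 < rho → ‖j5 om rho -
      J (1 - I * om) 0 rho * MA (1 - I * om) (5 + I * om) (1 / rho)‖ ≤ C5 * (120 * (1 / rho) ^ 6) := by
    intro rho hr
    obtain ⟨i5, e5⟩ := integral_T5 ha0 hr (5 + I * om)
    have b5 := J_sub_le ha hr (taylor5 h0) i5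
    rw [e5] at b5
    have e : ((Nat.factorial 5 : ℕ) : ℝ) / rho ^ (5 + 1) = 120 * (1 / rho) ^ 6 := by
      have : ((Nat.factorial 5 : ℕ) : ℝ) = 120 := by norm_num [Nat.factorial]
      rw [this]
      field_simp
    rw [e] at b5
    exact b5
  have hinv : Tendsto (fun rho : ℝ => 1 / rho) atTop (𝓝 0) := by
    simpa using tendsto_inv_atTop_zero
  have key : Tendsto (fun rho : ℝ => ‖MA (1 - I * om) (5 + I * om) (1 / rho)‖ * G) atTop (𝓝 G) := by
    have := ((tendsto_MA (1 - I * om) (5 + I * om)).norm).mul_const G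
    simpa using this
  have hdiff : Tendsto (fun rho : ℝ => ‖W om rho‖ - ‖MA (1 - I * om) (5 + I * om) (1 / rho)‖ * G)
      atTop (𝓝 0) := by
    have hbound : Tendsto (fun rho : ℝ => ‖(5 + I * om : ℂ)‖ *
        (1 / rho * G * ‖MB (1 - I * om) (4 + I * om) (1 / rho)‖ + C4 * (24 * (1 / rho) ^ 5))
        + C5 * (120 * (1 / rho) ^ 5)) atTop (𝓝 0) := by
      have t1 := ((hinv.mul_const G).mul (tendsto_MB (1 - I * om) (4 + I * om)).norm)
      have t2 := ((hinv.pow 5).const_mul 24).const_mul C4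
      have t3 := ((hinv.pow 5).const_mul 120).const_mul C5
      have := ((t1.add t2).const_mul ‖(5 + I * om : ℂ)‖).add t3
      simpa using this
    refine squeeze_zero_norm' ?_ hbound
    filter_upwards [eventually_gt_atTop (0 : ℝ)] with rho hr
    have e1 : ‖MA (1 - I * om) (5 + I * om) (1 / rho)‖ * G =
        ‖-(I * rho * (J (1 - I * om) 0 rho * MA (1 - I * om) (5 + I * om) (1 / rho)))‖ := by
      rw [norm_neg, norm_mul, norm_mul, norm_mul, Complex.norm_I, Complex.norm_real,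
        Real.norm_of_nonneg hr.le, norm_X om hr, hG]
      field_simp
    rw [e1, Real.norm_eq_abs]
    refine (abs_norm_sub_norm_le _ _).trans ?_
    have e2 : W om rho - -(I * rho * (J (1 - I * om) 0 rho * MA (1 - I * om) (5 + I * om) (1 / rho))) =
        -((5 + I * om) * j4 om rho) - I * rho * (j5 om rho -
      J (1 - I * om) 0 rho * MA (1 - I * om) (5 + I * om) (1 / rho)) := by
      unfold W
      ring
    rw [e2]
    refine (norm_sub_le _ _).trans ?_
    rw [norm_neg, norm_mul, norm_mul, norm_mul, Complex.norm_I, Complex.norm_real,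
        Real.norm_of_nonneg hr.le, one_mul]
    have c4 := mul_le_mul_of_nonneg_left (b4 rho hr) (norm_nonneg (5 + I * om : ℂ))
    have c5 := mul_le_mul_of_nonneg_left (b5 rho hr) hr.le
    have e3 : rho * (C5 * (120 * (1 / rho) ^ 6)) = C5 * (120 * (1 / rho) ^ 5) := by
      field_simp
    rw [e3] at c5
    exact add_le_add c4 c5
  have := hdiff.add key
  simpa using this

lemma Gamma_ne {om : ℝ} : Complex.Gamma (1 - I * om) ≠ 0 :=
  Complex.Gamma_ne_zero_of_re_pos (by simp)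

/-- lower bound for all `r ≥ R`. -/
theorem norm_U_ge {om R : ℝ} (h0 : 3 / 10 ≤ om) (h1 : om ≤ 2 / 5) (hR : 0 < R)
    (hz : j5 om (R ^ 2 / 4) = 0) {r : ℝ} (hr : R ≤ r) :
    ‖Complex.Gamma (1 - I * om)‖ < ‖Ur om r‖ := by
  have hanti := norm_strictAnti h0 h1 hR hz
  have hlim : Tendsto (fun r : ℝ => ‖Ur om r‖) atTop (𝓝 ‖Complex.Gamma (1 - I * om)‖) := by
    have h := tendsto_norm_W (om := om) (by linarith)
    have h2 : Tendsto (fun r : ℝ => r ^ 2 / 4) atTop atTop :=
      (tendsto_pow_atTop two_ne_zero).atTop_div_const (by norm_num)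
    exact h.comp h2
  have h2 : ‖Complex.Gamma (1 - I * om)‖ ≤ ‖Ur om (r + 1)‖ := by
    refine le_of_tendsto hlim ?_
    filter_upwards [eventually_gt_atTop (r + 1)] with x hx
    have hm : ∀ y, r ≤ y → y ∈ Ici R := fun y hy => hr.trans hy
    exact (hanti (hm _ (by linarith)) (hm _ (by linarith)) hx).le
  have h3 : ‖Ur om (r + 1)‖ < ‖Ur om r‖ :=
    hanti hr (show R ≤ r + 1 by linarith) (by linarith)
  linarith

theorem tendsto_norm_Ur {om : ℝ} (h0 : 0 ≤ om) :
    Tendsto (fun r : ℝ => ‖Ur om r‖) atTop (𝓝 ‖Complex.Gamma (1 - I * om)‖) := by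
  have h := tendsto_norm_W (om := om) h0
  have h2 : Tendsto (fun r : ℝ => r ^ 2 / 4) atTop atTop :=
    (tendsto_pow_atTop two_ne_zero).atTop_div_const (by norm_num)
  exact h.comp h2

/-- The whole package: with `U = Un om R` (normalised outgoing solution, `U(R) = 1`, `U'(R) = 0`). -/
theorem main {om R : ℝ} (h0 : 3 / 10 ≤ om) (h1 : om ≤ 2 / 5) (hR : 0 < R)
    (hz : j5 om (R ^ 2 / 4) = 0) :
    ∃ U1 : ℝ → ℂ,
      (∀ r, 0 < r → HasDerivAt (Un om R) (U1 r) r) ∧
      (∀ r, 0 < r → HasDerivAt U1 (-(11 / r + I * r / 2) * U1 r - om * Un om R r) r) ∧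
      Un om R R = 1 ∧ U1 R = 0 ∧
      (∀ r, R < r → ((starRingEnd ℂ (Un om R r)) * U1 r).re < 0) ∧
      StrictAntiOn (fun r => ‖Un om R r‖) (Ici R) ∧
      (∀ r, R < r → ‖Un om R r‖ < 1) ∧
      ∃ q : ℝ, 0 < q ∧ Tendsto (fun r => ‖Un om R r‖) atTop (𝓝 q) ∧ ∀ r, R ≤ r → q < ‖Un om R r‖ := by
  have hne : Ur om R ≠ 0 := W_ne_of_j5 h0 h1 (by positivity) hz
  have hpos : 0 < ‖Ur om R‖ := norm_pos_iff.mpr hne
  have hG : 0 < ‖Complex.Gamma (1 - I * om)‖ := norm_pos_iff.mpr Gamma_ne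
  refine ⟨fun r => Ur1 om r / Ur om R, ?_, ?_, ?_, ?_, ?_, norm_Un_strictAnti h0 h1 hR hz,
    fun r hr => norm_Un_lt_one h0 h1 hR hz hr,
    ‖Complex.Gamma (1 - I * om)‖ / ‖Ur om R‖, div_pos hG hpos, ?_, ?_⟩
  · intro r hr
    exact (hasDerivAt_Ur om hr).div_const _
  · intro r hr
    refine ((hasDerivAt_Ur1 om hr).div_const _).congr_deriv ?_
    unfold Un
    ring
  · exact div_self hne
  · simp [Ur1, hz]
  · intro r hr
    have h := re_U_neg h0 h1 hR hz hr
    have e : (starRingEnd ℂ (Un om R r)) * (Ur1 om r / Ur om R) =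
        ((1 / normSq (Ur om R) : ℝ) : ℂ) * ((starRingEnd ℂ (Ur om r)) * Ur1 om r) := by
      unfold Un
      push_cast
      rw [Complex.normSq_eq_conj_mul_self, map_div₀]
      have hc : (starRingEnd ℂ) (Ur om R) ≠ 0 := by simpa using hne
      field_simp
    rw [e, re_ofReal_mul]
    have : 0 < 1 / normSq (Ur om R) := by
      have := normSq_pos.mpr hne
      positivity
    nlinarith
  · have := (tendsto_norm_Ur (om := om) (by linarith)).div_const ‖Ur om R‖
    refine this.congr (fun r => ?_)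
    simp [Un]
  · intro r hr
    have h := norm_U_ge h0 h1 hR hz hr
    unfold Un
    rw [norm_div]
    exact div_lt_div_of_pos_right h hpos

end Crest.Agent.R086.A3
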