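import Mathlib

/-!
Row 86, Part A4 (helper523): the multiplier certificates of `A4HP.hp` and a computable checker
over `ℚ` for them.

`Good A P x0 c0`: there is a multiplier `c` on `[x0, ∞)` with `c x0 = c0`, `c² ≤ A (P + c')`.
`chk F sT a ca L = true → Good F.A F.P a ca` where `c` is piecewise linear from `(a, ca)`,
segments `L = [(h, s), ...]` (length, slope), and slope `sT` on the tail.
-/

set_option autoImplicit false

open Set Filter Topology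

namespace Crest.Agent.R086.A4Chk

/-- the multiplier certificate on `[x0, ∞)` with value `c0` at `x0` -/
def Good (A P : ℝ → ℝ) (x0 c0 : ℝ) : Prop :=
  ∃ c c' : ℝ → ℝ, c x0 = c0 ∧ ContinuousOn c (Ici x0) ∧
    (∀ x, x0 ≤ x → HasDerivWithinAt c (c' x) (Ici x) x) ∧
    (∃ K : ℝ, 0 ≤ K ∧ ∀ x, x0 ≤ x → |c x| ≤ K * (1 + |x|)) ∧
    (∀ x, x0 ≤ x → 0 ≤ P x + c' x) ∧ ∀ x, x0 ≤ x → c x ^ 2 ≤ A x * (P x + c' x)

theorem Good.mono {A P A2 P2 : ℝ → ℝ} {x0 c0 : ℝ} (h : Good A P x0 c0)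
    (hA : ∀ x, x0 ≤ x → 0 ≤ A x ∧ A x ≤ A2 x) (hP : ∀ x, x0 ≤ x → P x ≤ P2 x) :
    Good A2 P2 x0 c0 := by
  obtain ⟨c, c', h0, h1, h2, h3, h4, h5⟩ := h
  refine ⟨c, c', h0, h1, h2, h3, fun x hx => ?_, fun x hx => ?_⟩
  · linarith [h4 x hx, hP x hx]
  · calc c x ^ 2 ≤ A x * (P x + c' x) := h5 x hx
      _ ≤ A2 x * (P2 x + c' x) := by
        apply mul_le_mul (hA x hx).2 (by linarith [hP x hx]) (h4 x hx)
        exact (hA x hx).1.trans (hA x hx).2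

theorem Good.seg {A P : ℝ → ℝ} {a b ca s : ℝ} (hab : a < b)
    (h : Good A P b (ca + s * (b - a)))
    (h1 : ∀ x, a ≤ x → x ≤ b → 0 ≤ P x + s)
    (h2 : ∀ x, a ≤ x → x ≤ b → (ca + s * (x - a)) ^ 2 ≤ A x * (P x + s)) :
    Good A P a ca := by
  obtain ⟨c, c', hc0, hc, hd, ⟨K, hK0, hK⟩, hP, hQ⟩ := h
  set f : ℝ → ℝ := fun x => ca + s * (min x b - a) + (c (max x b) - c b) with hf
  have fl : ∀ x, x ≤ b → f x = ca + s * (x - a) := by
    intro x hx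
    simp only [hf, min_eq_left hx, max_eq_right hx]; ring
  have fr : ∀ x, b ≤ x → f x = c x := by
    intro x hx
    simp only [hf, min_eq_right hx, max_eq_left hx]
    rw [hc0]; ring
  refine ⟨f, fun x => if x < b then s else c' x, ?_, ?_, ?_, ?_, ?_, ?_⟩
  · rw [fl a hab.le]; ring
  · have e1 : ContinuousOn (fun x : ℝ => c (max x b)) (Ici a) := by
      refine hc.comp (by fun_prop) ?_
      intro x _
      exact le_max_right x b
    have e2 : ContinuousOn (fun x : ℝ => ca + s * (min x b - a)) (Ici a) := by fun_prop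
    exact e2.add (e1.sub continuousOn_const)
  · intro x hx
    rcases lt_or_ge x b with hxb | hxb
    · simp only [if_pos hxb]
      have e1 : HasDerivAt (fun x => ca + s * (x - a)) s x := by
        have := (((hasDerivAt_id x).sub_const a).const_mul s).const_add ca
        simpa using this
      have e2 : f =ᶠ[𝓝 x] fun x => ca + s * (x - a) := by
        filter_upwards [Iio_mem_nhds hxb] with y hy
        exact fl y (le_of_lt hy)
      exact (e1.congr_of_eventuallyEq e2).hasDerivWithinAt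
    · simp only [if_neg (not_lt.mpr hxb)]
      refine (hd x hxb).congr (fun y hy => fr y (hxb.trans hy)) (fr x hxb)
  · refine ⟨K + (|ca| + |s| * (b - a)), by
      have : 0 ≤ |s| * (b - a) := mul_nonneg (abs_nonneg _) (by linarith)
      have := abs_nonneg ca
      positivity, ?_⟩
    intro x hx
    have q1 : 0 ≤ |s| * (b - a) := mul_nonneg (abs_nonneg _) (by linarith)
    have q2 := abs_nonneg ca
    have q3 := abs_nonneg x
    rcases le_or_gt x b with hxb | hxb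
    · rw [fl x hxb]
      have e1 : |ca + s * (x - a)| ≤ |ca| + |s| * (b - a) := by
        refine (abs_add_le _ _).trans ?_
        rw [abs_mul, abs_of_nonneg (show (0 : ℝ) ≤ x - a by linarith)]
        have := mul_le_mul_of_nonneg_left (show x - a ≤ b - a by linarith) (abs_nonneg s)
        linarith
      nlinarith [mul_nonneg hK0 q3, mul_nonneg q2 q3, mul_nonneg q1 q3]
    · rw [fr x hxb.le]
      have := hK x hxb.le
      nlinarith [mul_nonneg hK0 q3, mul_nonneg q2 q3, mul_nonneg q1 q3]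
  · intro x hx
    rcases lt_or_ge x b with hxb | hxb
    · simp only [if_pos hxb]; exact h1 x hx hxb.le
    · simp only [if_neg (not_lt.mpr hxb)]; exact hP x hxb
  · intro x hx
    rcases lt_or_ge x b with hxb | hxb
    · simp only [if_pos hxb]; rw [fl x hxb.le]; exact h2 x hx hxb.le
    · simp only [if_neg (not_lt.mpr hxb)]; rw [fr x hxb]; exact hQ x hxb

theorem Good.tail {A P : ℝ → ℝ} {a ca s : ℝ}
    (h1 : ∀ x, a ≤ x → 0 ≤ P x + s)
    (h2 : ∀ x, a ≤ x → (ca + s * (x - a)) ^ 2 ≤ A x * (P x + s)) :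
    Good A P a ca := by
  refine ⟨fun x => ca + s * (x - a), fun _ => s, by simp, by fun_prop, ?_, ?_, h1, h2⟩
  · intro x hx
    have := (((hasDerivAt_id x).sub_const a).const_mul s).const_add ca
    exact (by simpa using this : HasDerivAt (fun x => ca + s * (x - a)) s x).hasDerivWithinAt
  · refine ⟨|ca| + |s| * (1 + |a|), by positivity, ?_⟩
    intro x hx
    have q1 := abs_nonneg ca
    have q2 := abs_nonneg s
    have q3 := abs_nonneg x
    have q4 := abs_nonneg a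
    have e1 : |ca + s * (x - a)| ≤ |ca| + |s| * (|x| + |a|) := by
      refine (abs_add_le _ _).trans ?_
      rw [abs_mul]
      have := mul_le_mul_of_nonneg_left (abs_sub x a) (abs_nonneg s)
      linarith
    have := mul_nonneg q2 (mul_nonneg q3 q4)
    nlinarith [mul_nonneg q1 q3, mul_nonneg q2 q3, mul_nonneg q2 q4]

/-! ### forms -/

/-- data of a form: `A x = A0 + A1 x`, `R x = r0 + r1 x + x²`, `P x = (n0 + n1 x)/R x + p0 + p1 x` -/
structure Fm (K : Type) where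
  A0 : K
  A1 : K
  r0 : K
  r1 : K
  n0 : K
  n1 : K
  p0 : K
  p1 : K

noncomputable section

def Fm.A (F : Fm ℝ) (x : ℝ) : ℝ := F.A0 + F.A1 * x

def Fm.R (F : Fm ℝ) (x : ℝ) : ℝ := F.r0 + F.r1 * x + x ^ 2

def Fm.P (F : Fm ℝ) (x : ℝ) : ℝ := (F.n0 + F.n1 * x) / F.R x + F.p0 + F.p1 * x

def Fm.cast (F : Fm ℚ) : Fm ℝ := ⟨F.A0, F.A1, F.r0, F.r1, F.n0, F.n1, F.p0, F.p1⟩

end

/-- `G` dominates `F` -/
structure Fm.Dom (F G : Fm ℝ) : Prop where
  A0 : F.A0 ≤ G.A0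
  A0n : 0 ≤ F.A0
  A1 : F.A1 ≤ G.A1
  A1n : 0 ≤ F.A1
  r0 : G.r0 ≤ F.r0
  r1 : G.r1 ≤ F.r1
  r0p : 0 < G.r0
  r1n : 0 ≤ G.r1
  n0 : F.n0 ≤ G.n0
  n0n : 0 ≤ F.n0
  n1 : F.n1 ≤ G.n1
  n1n : 0 ≤ F.n1
  p0 : F.p0 ≤ G.p0
  p1 : F.p1 ≤ G.p1

theorem Good.dom {F G : Fm ℝ} (h : F.Dom G) {c0 : ℝ} (hg : Good F.A F.P 0 c0) :
    Good G.A G.P 0 c0 := by
  refine hg.mono ?_ ?_
  · intro x hx
    unfold Fm.A
    have h1 := mul_nonneg h.A1n hx
    have h2 := mul_le_mul_of_nonneg_right h.A1 hx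
    constructor
    · linarith [h.A0n]
    · linarith [h.A0]
  · intro x hx
    unfold Fm.P
    have h1 := mul_nonneg h.n1n hx
    have h2 := mul_le_mul_of_nonneg_right h.n1 hx
    have h3 := mul_le_mul_of_nonneg_right h.p1 hx
    have h4 := mul_le_mul_of_nonneg_right h.r1 hx
    have h5 := mul_nonneg h.r1n hx
    have hR : G.R x ≤ F.R x := by unfold Fm.R; linarith [h.r0]
    have hRp : 0 < G.R x := by
      unfold Fm.R; have := h.r0p; positivity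
    have : (F.n0 + F.n1 * x) / F.R x ≤ (G.n0 + G.n1 * x) / G.R x := by
      apply div_le_div₀ _ _ hRp hR
      · linarith [h.n0n, h.n0]
      · linarith [h.n0]
    linarith [h.p0]

/-! ### the checker -/

/-- coefficients in `y = x - a` of `A (n + (p + s) R) - (ca + s y)² R` -/
def kk (F : Fm ℚ) (a ca s : ℚ) : ℚ × ℚ × ℚ × ℚ × ℚ :=
  let al := F.A0 + F.A1 * a
  let r := F.r0 + F.r1 * a + a ^ 2
  let r' := F.r1 + 2 * a
  let n := F.n0 + F.n1 * a
  let p := F.p0 + F.p1 * a + s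
  -- `N = n + n1 y + (p + p1 y) (r + r' y + y²)`
  let N0 := n + p * r
  let N1 := F.n1 + p * r' + F.p1 * r
  let N2 := p + F.p1 * r'
  let N3 := F.p1
  (al * N0 - ca ^ 2 * r,
   al * N1 + F.A1 * N0 - (ca ^ 2 * r' + 2 * ca * s * r),
   al * N2 + F.A1 * N1 - (ca ^ 2 + 2 * ca * s * r' + s ^ 2 * r),
   al * N3 + F.A1 * N2 - (2 * ca * s + s ^ 2 * r'),
   F.A1 * N3 - s ^ 2)

/-- segment `[a, a+h]`, value `ca` at `a`, slope `s` -/
def segB (F : Fm ℚ) (a ca h s : ℚ) : Bool :=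
  let k := kk F a ca s
  decide (0 < h) && decide (0 ≤ a) && decide (0 ≤ F.A0) && decide (0 ≤ F.A1) &&
  decide (0 < F.A0 + F.A1 * a) && decide (0 < F.r0) && decide (0 ≤ F.r1) &&
  decide (0 ≤ k.1) &&
  decide (0 ≤ 4 * k.1 + k.2.1 * h) &&
  decide (0 ≤ 6 * k.1 + 3 * k.2.1 * h + k.2.2.1 * h ^ 2) &&
  decide (0 ≤ 4 * k.1 + 3 * k.2.1 * h + 2 * k.2.2.1 * h ^ 2 + k.2.2.2.1 * h ^ 3) &&
  decide (0 ≤ k.1 + k.2.1 * h + k.2.2.1 * h ^ 2 + k.2.2.2.1 * h ^ 3 + k.2.2.2.2 * h ^ 4)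

/-- tail `[a, ∞)` -/
def tailB (F : Fm ℚ) (a ca s : ℚ) : Bool :=
  let k := kk F a ca s
  decide (0 ≤ a) && decide (0 ≤ F.A0) && decide (0 ≤ F.A1) &&
  decide (0 < F.A0 + F.A1 * a) && decide (0 < F.r0) && decide (0 ≤ F.r1) &&
  decide (0 ≤ k.1) && decide (0 ≤ k.2.1) && decide (0 ≤ k.2.2.1) && decide (0 ≤ k.2.2.2.1) &&
  decide (0 ≤ k.2.2.2.2)

/-- whole certificate: value `ca` at `a`, segments `(h, s)`, tail slope `sT` -/
def chk (F : Fm ℚ) (sT : ℚ) : ℚ → ℚ → List (ℚ × ℚ) → Bool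
  | a, ca, [] => tailB F a ca sT
  | a, ca, (h, s) :: L => segB F a ca h s && chk F sT (a + h) (ca + s * h) L

theorem R_pos {F : Fm ℚ} (h0 : 0 < F.r0) (h1 : 0 ≤ F.r1) {x : ℝ} (hx : 0 ≤ x) :
    0 < F.cast.R x := by
  have h0' : (0 : ℝ) < F.r0 := by exact_mod_cast h0
  have h1' : (0 : ℝ) ≤ F.r1 := by exact_mod_cast h1
  unfold Fm.R Fm.cast
  positivity

theorem A_pos {F : Fm ℚ} {a : ℚ} (h0 : 0 < F.A0 + F.A1 * a) (h1 : 0 ≤ F.A1) {x : ℝ}
    (hx : (a : ℝ) ≤ x) : 0 < F.cast.A x := by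
  have h0' : (0 : ℝ) < F.A0 + F.A1 * a := by exact_mod_cast h0
  have h1' : (0 : ℝ) ≤ F.A1 := by exact_mod_cast h1
  have := mul_le_mul_of_nonneg_left hx h1'
  unfold Fm.A Fm.cast
  simp only
  linarith

/-- the polynomial identity behind `kk` -/
theorem kk_eq (F : Fm ℚ) (a ca s : ℚ) (x : ℝ) (hR : F.cast.R x ≠ 0) :
    (F.cast.A x * (F.cast.P x + s) - (ca + s * (x - a)) ^ 2) * F.cast.R x =
      ((kk F a ca s).1 : ℝ) + (kk F a ca s).2.1 * (x - a) + (kk F a ca s).2.2.1 * (x - a) ^ 2 +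
        (kk F a ca s).2.2.2.1 * (x - a) ^ 3 + (kk F a ca s).2.2.2.2 * (x - a) ^ 4 := by
  have e : F.cast.P x * F.cast.R x =
      (F.n0 + F.n1 * x) + ((F.p0 : ℝ) + F.p1 * x) * F.cast.R x := by
    unfold Fm.P
    field_simp
    simp only [Fm.cast]
    ring
  have e2 : (F.cast.A x * (F.cast.P x + s) - (ca + s * (x - a)) ^ 2) * F.cast.R x =
      F.cast.A x * (F.cast.P x * F.cast.R x + s * F.cast.R x)
        - (ca + s * (x - a)) ^ 2 * F.cast.R x := by ring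
  rw [e2, e]
  unfold kk Fm.A Fm.R Fm.cast
  push_cast
  ring

theorem of_num {F : Fm ℚ} {a ca s : ℚ} {x : ℝ} (hA : 0 < F.cast.A x) (hR : 0 < F.cast.R x)
    (h : 0 ≤ ((kk F a ca s).1 : ℝ) + (kk F a ca s).2.1 * (x - a) +
      (kk F a ca s).2.2.1 * (x - a) ^ 2 +
        (kk F a ca s).2.2.2.1 * (x - a) ^ 3 + (kk F a ca s).2.2.2.2 * (x - a) ^ 4) :
    0 ≤ F.cast.P x + s ∧ (ca + s * (x - a)) ^ 2 ≤ F.cast.A x * (F.cast.P x + s) := by
  rw [← kk_eq F a ca s x hR.ne'] at h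
  have h1 : 0 ≤ F.cast.A x * (F.cast.P x + s) - (ca + s * (x - a)) ^ 2 :=
    nonneg_of_mul_nonneg_left h hR
  have h2 : (ca + s * (x - a)) ^ 2 ≤ F.cast.A x * (F.cast.P x + s) := by linarith
  refine ⟨?_, h2⟩
  have h3 : 0 ≤ F.cast.A x * (F.cast.P x + s) := (sq_nonneg _).trans h2
  exact nonneg_of_mul_nonneg_right h3 hA

theorem bern4 {k0 k1 k2 k3 k4 h y : ℝ} (hh : 0 < h) (hy0 : 0 ≤ y) (hy1 : y ≤ h)
    (b0 : 0 ≤ k0) (b1 : 0 ≤ 4 * k0 + k1 * h) (b2 : 0 ≤ 6 * k0 + 3 * k1 * h + k2 * h ^ 2)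
    (b3 : 0 ≤ 4 * k0 + 3 * k1 * h + 2 * k2 * h ^ 2 + k3 * h ^ 3)
    (b4 : 0 ≤ k0 + k1 * h + k2 * h ^ 2 + k3 * h ^ 3 + k4 * h ^ 4) :
    0 ≤ k0 + k1 * y + k2 * y ^ 2 + k3 * y ^ 3 + k4 * y ^ 4 := by
  have e : (k0 + k1 * y + k2 * y ^ 2 + k3 * y ^ 3 + k4 * y ^ 4) * h ^ 4 =
      k0 * (h - y) ^ 4 + (4 * k0 + k1 * h) * ((h - y) ^ 3 * y) +
      (6 * k0 + 3 * k1 * h + k2 * h ^ 2) * ((h - y) ^ 2 * y ^ 2) +
      (4 * k0 + 3 * k1 * h + 2 * k2 * h ^ 2 + k3 * h ^ 3) * ((h - y) * y ^ 3) +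
      (k0 + k1 * h + k2 * h ^ 2 + k3 * h ^ 3 + k4 * h ^ 4) * y ^ 4 := by ring
  have hz : 0 ≤ h - y := by linarith
  have h4 : 0 < h ^ 4 := by positivity
  refine nonneg_of_mul_nonneg_left (b := h ^ 4) ?_ h4
  rw [e]
  positivity

theorem chk_sound (F : Fm ℚ) (sT : ℚ) (L : List (ℚ × ℚ)) :
    ∀ a ca : ℚ, chk F sT a ca L = true → Good F.cast.A F.cast.P a ca := by
  induction L with
  | nil =>
    intro a ca h
    unfold chk tailB at h
    simp only [Bool.and_eq_true, decide_eq_true_eq] at h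
    obtain ⟨⟨⟨⟨⟨⟨⟨⟨⟨⟨ha, -⟩, hA1⟩, hAa⟩, hr0⟩, hr1⟩, b0⟩, b1⟩, b2⟩, b3⟩, b4⟩ := h
    have key : ∀ x : ℝ, (a : ℝ) ≤ x →
        0 ≤ F.cast.P x + sT ∧ (ca + sT * (x - a)) ^ 2 ≤ F.cast.A x * (F.cast.P x + sT) := by
      intro x hx
      have ha' : (0 : ℝ) ≤ a := by exact_mod_cast ha
      refine of_num (A_pos hAa hA1 hx) (R_pos hr0 hr1 (ha'.trans hx)) ?_
      have hy : 0 ≤ x - a := by linarith
      have b0' : (0 : ℝ) ≤ (kk F a ca sT).1 := by exact_mod_cast b0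
      have b1' : (0 : ℝ) ≤ (kk F a ca sT).2.1 := by exact_mod_cast b1
      have b2' : (0 : ℝ) ≤ (kk F a ca sT).2.2.1 := by exact_mod_cast b2
      have b3' : (0 : ℝ) ≤ (kk F a ca sT).2.2.2.1 := by exact_mod_cast b3
      have b4' : (0 : ℝ) ≤ (kk F a ca sT).2.2.2.2 := by exact_mod_cast b4
      positivity
    exact Good.tail (s := sT) (fun x hx => (key x hx).1) (fun x hx => (key x hx).2)
  | cons p L ih =>
    obtain ⟨hh, s⟩ := p
    intro a ca h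
    unfold chk segB at h
    simp only [Bool.and_eq_true, decide_eq_true_eq] at h
    obtain ⟨⟨⟨⟨⟨⟨⟨⟨⟨⟨⟨⟨h0, ha⟩, -⟩, hA1⟩, hAa⟩, hr0⟩, hr1⟩, b0⟩, b1⟩, b2⟩, b3⟩, b4⟩, hL⟩ := h
    have h0' : (0 : ℝ) < hh := by exact_mod_cast h0
    have key : ∀ x : ℝ, (a : ℝ) ≤ x → x ≤ a + hh →
        0 ≤ F.cast.P x + s ∧ (ca + s * (x - a)) ^ 2 ≤ F.cast.A x * (F.cast.P x + s) := by
      intro x hx hx2
      have ha' : (0 : ℝ) ≤ a := by exact_mod_cast ha
      refine of_num (A_pos hAa hA1 hx) (R_pos hr0 hr1 (ha'.trans hx)) ?_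
      have hy : 0 ≤ x - a := by linarith
      have hy2 : x - a ≤ hh := by linarith
      refine bern4 h0' hy hy2 ?_ ?_ ?_ ?_ ?_
      · exact_mod_cast b0
      · exact_mod_cast b1
      · exact_mod_cast b2
      · exact_mod_cast b3
      · exact_mod_cast b4
    refine Good.seg (b := ((a + hh : ℚ) : ℝ)) (s := s) (by push_cast; linarith) ?_ ?_ ?_
    · have := ih _ _ hL
      refine (by push_cast at this ⊢; convert this using 1; ring :
        Good F.cast.A F.cast.P ((a + hh : ℚ) : ℝ) (ca + s * (((a + hh : ℚ) : ℝ) - a)))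
    · intro x hx hx2
      exact (key x hx (by push_cast at hx2; exact hx2)).1
    · intro x hx hx2
      exact (key x hx (by push_cast at hx2; exact hx2)).2

end Crest.Agent.R086.A4Chk
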