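import Mathlib
import Crest.Agent.R086.JW

/-!
Row 86, part A4 (helper11): LEMMA HP (value half planes along a straight line in `Re ρ > 0`)
for the outgoing solution `W` of `ρ W'' + (b + i ρ) W' + i a W = 0`.
-/
set_option autoImplicit false
open MeasureTheory Complex Set Filter Topology
open scoped ComplexConjugate

namespace Crest.Agent.R086.A4HP

/-- 2x2 quadratic form inequality. -/
theorem form_nonneg {A D c u v t : ℝ} (hA : 0 ≤ A) (hD : 0 ≤ D) (hc : c ^ 2 ≤ A * D)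
    (ht : |t| ≤ u * v) :
    0 ≤ A * u ^ 2 + 2 * c * t + D * v ^ 2 := by
  have h1 : |c| * (u * v) * 2 ≤ A * u ^ 2 + D * v ^ 2 := by
    apply abs_le_of_sq_le_sq' _ (by positivity) |>.2
    have h2 : (|c| * (u * v) * 2) ^ 2 = 4 * c ^ 2 * (u * v) ^ 2 := by
      rw [mul_pow, mul_pow, sq_abs]; ring
    rw [h2]
    nlinarith [sq_nonneg (A * u ^ 2 - D * v ^ 2), mul_nonneg (sub_nonneg.2 hc) (sq_nonneg (u * v))]
  have h3 : |c * t| ≤ |c| * (u * v) := by
    rw [abs_mul]; exact mul_le_mul_of_nonneg_left ht (abs_nonneg c)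
  have h4 := neg_abs_le (c * t)
  nlinarith

theorem form_pos {A D c u v t : ℝ} (hA : 0 < A) (hc : c ^ 2 < A * D)
    (hu : 0 ≤ u) (ht : |t| ≤ u * v)
    (h : A * u ^ 2 + 2 * c * t + D * v ^ 2 ≤ 0) : u = 0 ∧ v = 0 := by
  have hD : 0 < D := by
    by_contra hD
    have : A * D ≤ 0 := mul_nonpos_of_nonneg_of_nonpos hA.le (not_lt.1 hD)
    nlinarith [sq_nonneg c]
  have h3 : |c * t| ≤ |c| * (u * v) := by
    rw [abs_mul]; exact mul_le_mul_of_nonneg_left ht (abs_nonneg c)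
  have h4 := neg_abs_le (c * t)
  have h5 : A * u ^ 2 - 2 * |c| * (u * v) + D * v ^ 2 ≤ 0 := by nlinarith
  have h6 : (A * u - |c| * v) ^ 2 + (A * D - c ^ 2) * v ^ 2 ≤ 0 := by
    have : (A * u - |c| * v) ^ 2 + (A * D - c ^ 2) * v ^ 2
        = A * (A * u ^ 2 - 2 * |c| * (u * v) + D * v ^ 2) := by
      have := sq_abs c
      ring_nf
      rw [this]
      ring
    rw [this]
    exact mul_nonpos_of_nonneg_of_nonpos hA.le h5
  have h7 : 0 ≤ (A * D - c ^ 2) * v ^ 2 := mul_nonneg (by linarith) (sq_nonneg v)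
  have h8 : (A * D - c ^ 2) * v ^ 2 = 0 := by nlinarith [sq_nonneg (A * u - |c| * v)]
  have hv0 : v = 0 := by
    rcases mul_eq_zero.1 h8 with h9 | h9
    · linarith
    · exact pow_eq_zero_iff (by norm_num) |>.1 h9
  refine ⟨?_, hv0⟩
  rw [hv0] at h6
  have h10 : (A * u) ^ 2 ≤ 0 := by nlinarith
  have h11 : A * u = 0 := by nlinarith [sq_nonneg (A * u)]
  rcases mul_eq_zero.1 h11 with h12 | h12
  · linarith
  · exact h12

section abstract

variable (W Y : ℝ → ℂ) (B rho0 : ℝ) (a e g : ℂ) (c c' : ℝ → ℝ)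

/-- the line -/
noncomputable def rr (rho0 : ℝ) (e : ℂ) (x : ℝ) : ℂ := (rho0 : ℂ) + e * x

/-- `A(x)` -/
noncomputable def AA (rho0 : ℝ) (e g : ℂ) (x : ℝ) : ℝ := (g * conj e * rr rho0 e x).re

/-- `P(x)` -/
noncomputable def PPx (B rho0 : ℝ) (a e g : ℂ) (x : ℝ) : ℝ :=
  (g * e * ((B : ℂ) ^ 2 / rr rho0 e x - rr rho0 e x / 4 + I * ((B : ℂ) + 1 / 2 - a))).re

/-- weight -/
noncomputable def wt (B rho0 : ℝ) (e : ℂ) (x : ℝ) : ℝ :=
  (normSq (rr rho0 e x)) ^ B * Real.exp (-(e.im * x))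

/-- the quadratic functional -/
noncomputable def QQ (x : ℝ) : ℝ :=
  wt B rho0 e x * ((g * conj (W x) * Y x).re + c x * normSq (W x))

theorem rr_re (x : ℝ) : (rr rho0 e x).re = rho0 + e.re * x := by simp [rr]
theorem rr_im (x : ℝ) : (rr rho0 e x).im = e.im * x := by simp [rr]

theorem rr_re_pos {rho0 : ℝ} {e : ℂ} (h0 : 0 < rho0) (he1 : 0 ≤ e.re) {x : ℝ} (hx : 0 ≤ x) :
    0 < (rr rho0 e x).re := by
  rw [rr_re]; have := mul_nonneg he1 hx; linarith

theorem normSq_rr_pos {rho0 : ℝ} {e : ℂ} (h0 : 0 < rho0) (he1 : 0 ≤ e.re) {x : ℝ} (hx : 0 ≤ x) :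
    0 < normSq (rr rho0 e x) := by
  have := rr_re_pos h0 he1 hx
  rw [normSq_apply]
  nlinarith [mul_self_nonneg (rr rho0 e x).im, mul_pos this this]

theorem rr_hasDerivAt (x : ℝ) : HasDerivAt (rr rho0 e) e x := by
  unfold rr
  have h := (Complex.ofRealCLM.hasDerivAt (x := x)).const_mul e
  simpa using h.const_add (rho0 : ℂ)

theorem hasDerivAt_re {f : ℝ → ℂ} {f' : ℂ} {x : ℝ} (h : HasDerivAt f f' x) :
    HasDerivAt (fun y => (f y).re) f'.re x :=
  (Complex.reCLM.hasFDerivAt (x := f x)).comp_hasDerivAt x h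

theorem hasDerivAt_im {f : ℝ → ℂ} {f' : ℂ} {x : ℝ} (h : HasDerivAt f f' x) :
    HasDerivAt (fun y => (f y).im) f'.im x :=
  (Complex.imCLM.hasFDerivAt (x := f x)).comp_hasDerivAt x h

theorem normSq_rr_hasDerivAt (x : ℝ) :
    HasDerivAt (fun y => normSq (rr rho0 e y)) (2 * (rr rho0 e x * conj e).re) x := by
  have h := rr_hasDerivAt rho0 e x
  have h1 := hasDerivAt_re h
  have h2 := hasDerivAt_im h
  have h3 := (h1.mul h1).add (h2.mul h2)
  refine (h3.congr_deriv ?_)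
  simp only [mul_re, conj_re, conj_im]
  ring

theorem wt_hasDerivAt {rho0 : ℝ} {e : ℂ} (h0 : 0 < rho0) (he1 : 0 ≤ e.re) {x : ℝ} (hx : 0 ≤ x) :
    HasDerivAt (wt B rho0 e)
      (wt B rho0 e x * (2 * B * ((rr rho0 e x * conj e).re / normSq (rr rho0 e x)) - e.im)) x := by
  have hN := normSq_rr_pos h0 he1 hx
  have h1 := (normSq_rr_hasDerivAt rho0 e x).rpow_const (p := B) (Or.inl hN.ne')
  have h2 : HasDerivAt (fun y : ℝ => Real.exp (-(e.im * y))) (Real.exp (-(e.im * x)) * (-(e.im * 1))) x :=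
    (((hasDerivAt_id x).const_mul e.im).neg).exp
  have h3 := h1.mul h2
  refine h3.congr_deriv ?_
  unfold wt
  rw [Real.rpow_sub_one hN.ne']
  field_simp
  ring

/-- the algebraic identity behind HP -/
theorem alg (ε ρ w y g a : ℂ) (B c c' : ℝ) :
    (2 * B * ε.re - (ε * ρ).im) * ((g * conj w * y).re + c * normSq w)
      + ((g * (conj (ε * (y - ((B : ℂ) + I * ρ / 2) * w)) * y + conj w *
          (ε * ((((B : ℂ) + I * ρ / 2) ^ 2 + I * ρ / 2 - I * a * ρ) * w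
            - ((B : ℂ) + I * ρ / 2) * y)))).re
        + c' * normSq w + c * (2 * (conj w * (ε * (y - ((B : ℂ) + I * ρ / 2) * w))).re))
    = (g * conj ε).re * normSq y + 2 * c * (ε * y * conj w).re
      + ((g * ε * ((B : ℂ) ^ 2 - ρ ^ 2 / 4 + I * ρ * ((B : ℂ) + 1 / 2 - a))).re + c') * normSq w := by
  obtain ⟨e1, e2⟩ := ε
  obtain ⟨r1, r2⟩ := ρ
  obtain ⟨w1, w2⟩ := w
  obtain ⟨y1, y2⟩ := y
  obtain ⟨g1, g2⟩ := g
  obtain ⟨a1, a2⟩ := a
  simp only [normSq_apply, Complex.mul_re, Complex.mul_im, Complex.add_re, Complex.add_im,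
    Complex.sub_re, Complex.sub_im, Complex.conj_re, Complex.conj_im, Complex.I_re, Complex.I_im,
    Complex.ofReal_re, Complex.ofReal_im, pow_two, Complex.div_ofNat_re, Complex.div_ofNat_im,
    Complex.one_re, Complex.one_im]
  ring

theorem hasDerivAt_conj' {f : ℝ → ℂ} {f' : ℂ} {x : ℝ} (h : HasDerivAt f f' x) :
    HasDerivAt (fun y => conj (f y)) (conj f') x :=
  (Complex.conjCLE.toContinuousLinearMap.hasFDerivAt (x := f x)).comp_hasDerivAt x h

theorem hasDerivAt_normSq {f : ℝ → ℂ} {f' : ℂ} {x : ℝ} (h : HasDerivAt f f' x) :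
    HasDerivAt (fun y => normSq (f y)) (2 * (conj (f x) * f').re) x := by
  have h1 := hasDerivAt_re h
  have h2 := hasDerivAt_im h
  have h3 := (h1.mul h1).add (h2.mul h2)
  refine (h3.congr_deriv ?_)
  simp only [mul_re, conj_re, conj_im]
  ring

variable {W Y B rho0 a e g c c'}

/-- system satisfied on the line -/
structure Sys (W Y : ℝ → ℂ) (B rho0 : ℝ) (a e : ℂ) : Prop where
  dW : ∀ x : ℝ, 0 ≤ x → HasDerivAt W
    (e / rr rho0 e x * (Y x - ((B : ℂ) + I * rr rho0 e x / 2) * W x)) x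
  dY : ∀ x : ℝ, 0 ≤ x → HasDerivAt Y
    (e / rr rho0 e x * ((((B : ℂ) + I * rr rho0 e x / 2) ^ 2 + I * rr rho0 e x / 2
      - I * a * rr rho0 e x) * W x - ((B : ℂ) + I * rr rho0 e x / 2) * Y x)) x

theorem QQ_hasDerivWithinAt (hs : Sys W Y B rho0 a e) (h0 : 0 < rho0) (he1 : 0 ≤ e.re)
    {x : ℝ} (hx : 0 ≤ x) (hc' : HasDerivWithinAt c (c' x) (Ici x) x) :
    HasDerivWithinAt (QQ W Y B rho0 e g c)
      (wt B rho0 e x * (AA rho0 e g x * (normSq (Y x) / normSq (rr rho0 e x))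
        + 2 * c x * (e / rr rho0 e x * Y x * conj (W x)).re
        + (PPx B rho0 a e g x + c' x) * normSq (W x))) (Ici x) x := by
  have hN := normSq_rr_pos h0 he1 hx
  have hrne : rr rho0 e x ≠ 0 := by
    intro h; rw [h] at hN; simp at hN
  have hw := (wt_hasDerivAt B h0 he1 hx).hasDerivWithinAt (s := Ici x)
  have hW := hs.dW x hx
  have hY := hs.dY x hx
  have hq1 : HasDerivAt (fun y => (g * conj (W y) * Y y).re) _ x :=
    hasDerivAt_re (((hasDerivAt_conj' hW).const_mul g).mul hY)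
  have hn := (hasDerivAt_normSq hW).hasDerivWithinAt (s := Ici x)
  have h := hw.mul (hq1.hasDerivWithinAt.add (hc'.mul hn))
  refine h.congr_deriv ?_
  have key := alg (e / rr rho0 e x) (rr rho0 e x) (W x) (Y x) g a B (c x) (c' x)
  have e1 : e / rr rho0 e x * rr rho0 e x = e := div_mul_cancel₀ _ hrne
  rw [e1] at key
  have e2 : (rr rho0 e x * conj e).re / normSq (rr rho0 e x) = (e / rr rho0 e x).re := by
    rw [Complex.div_re]; simp only [mul_re, conj_re, conj_im]; ring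
  have e3 : AA rho0 e g x * (normSq (Y x) / normSq (rr rho0 e x))
      = (g * conj (e / rr rho0 e x)).re * normSq (Y x) := by
    have : g * conj (e / rr rho0 e x) = (g * conj e * rr rho0 e x) * ((normSq (rr rho0 e x) : ℝ) : ℂ)⁻¹ := by
      rw [map_div₀]
      have h1 : conj (rr rho0 e x) ≠ 0 := by simpa using hrne
      rw [← Complex.mul_conj]
      field_simp
    rw [this, ← Complex.ofReal_inv, Complex.re_mul_ofReal]
    unfold AA
    field_simp
  have e4 : PPx B rho0 a e g x = (g * (e / rr rho0 e x) * ((B : ℂ) ^ 2 - (rr rho0 e x) ^ 2 / 4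
      + I * rr rho0 e x * ((B : ℂ) + 1 / 2 - a))).re := by
    unfold PPx
    congr 1
    field_simp
  rw [e3, e4, ← key, ← e2]
  simp only [Pi.add_apply, Pi.mul_apply]
  rw [mul_add g, ← mul_assoc g, ← mul_assoc g]
  ring

/-- hypotheses on the multiplier data -/
structure Dat (B rho0 : ℝ) (a e g : ℂ) (c c' : ℝ → ℝ) : Prop where
  hB : 0 ≤ B
  h0 : 0 < rho0
  he : ‖e‖ = 1
  he1 : 0 ≤ e.re
  he2 : 0 < e.im
  hc : ContinuousOn c (Ici 0)
  hc' : ∀ x : ℝ, 0 ≤ x → HasDerivWithinAt c (c' x) (Ici x) x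
  gr : ∃ (K : ℝ) (k : ℕ), ∀ x : ℝ, 0 ≤ x → |c x| ≤ K * (1 + x) ^ k
  hA : ∀ x : ℝ, 0 ≤ x → 0 ≤ AA rho0 e g x
  hP : ∀ x : ℝ, 0 ≤ x → 0 ≤ PPx B rho0 a e g x + c' x
  hAP : ∀ x : ℝ, 0 ≤ x → c x ^ 2 ≤ AA rho0 e g x * (PPx B rho0 a e g x + c' x)

theorem wt_pos {B rho0 : ℝ} {e : ℂ} (h0 : 0 < rho0) (he1 : 0 ≤ e.re) {x : ℝ} (hx : 0 ≤ x) :
    0 < wt B rho0 e x :=
  mul_pos (Real.rpow_pos_of_pos (normSq_rr_pos h0 he1 hx) _) (Real.exp_pos _)

theorem cross_le (he : ‖e‖ = 1) (x : ℝ) :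
    |(e / rr rho0 e x * Y x * conj (W x)).re| ≤ (‖Y x‖ / ‖rr rho0 e x‖) * ‖W x‖ := by
  refine (Complex.abs_re_le_norm _).trans ?_
  rw [norm_mul, norm_mul, norm_div, he, Complex.norm_conj]
  apply le_of_eq; ring

theorem form_eq (x : ℝ) :
    normSq (Y x) / normSq (rr rho0 e x) = (‖Y x‖ / ‖rr rho0 e x‖) ^ 2 := by
  rw [Complex.normSq_eq_norm_sq, Complex.normSq_eq_norm_sq, div_pow]

theorem deriv_nonneg (hd : Dat B rho0 a e g c c') {x : ℝ} (hx : 0 ≤ x) :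
    0 ≤ wt B rho0 e x * (AA rho0 e g x * (normSq (Y x) / normSq (rr rho0 e x))
        + 2 * c x * (e / rr rho0 e x * Y x * conj (W x)).re
        + (PPx B rho0 a e g x + c' x) * normSq (W x)) := by
  refine mul_nonneg (wt_pos hd.h0 hd.he1 hx).le ?_
  rw [form_eq x, Complex.normSq_eq_norm_sq (W x)]
  exact form_nonneg (hd.hA x hx) (hd.hP x hx) (hd.hAP x hx) (cross_le hd.he x)

theorem QQ_continuousOn (hs : Sys W Y B rho0 a e) (hd : Dat B rho0 a e g c c') :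
    ContinuousOn (QQ W Y B rho0 e g c) (Ici 0) := by
  intro x hx
  have hx' : (0 : ℝ) ≤ x := hx
  have h1 := (wt_hasDerivAt B hd.h0 hd.he1 hx').continuousAt.continuousWithinAt (s := Ici 0)
  have h2 := (hs.dW x hx').continuousAt.continuousWithinAt (s := Ici 0)
  have h3 := (hs.dY x hx').continuousAt.continuousWithinAt (s := Ici 0)
  have h4 := hd.hc x hx
  have h5 : ContinuousWithinAt (fun y => (g * conj (W y) * Y y).re) (Ici 0) x :=
    Complex.continuous_re.continuousAt.comp_continuousWithinAt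
      ((continuousWithinAt_const.mul
        (Complex.continuous_conj.continuousAt.comp_continuousWithinAt h2)).mul h3)
  have h6 : ContinuousWithinAt (fun y => normSq (W y)) (Ici 0) x :=
    Complex.continuous_normSq.continuousAt.comp_continuousWithinAt h2
  exact h1.mul (h5.add (h4.mul h6))

theorem QQ_mono (hs : Sys W Y B rho0 a e) (hd : Dat B rho0 a e g c c') {x y : ℝ} (hx : 0 ≤ x)
    (hxy : x ≤ y) : QQ W Y B rho0 e g c x ≤ QQ W Y B rho0 e g c y := by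
  have hsub : Icc x y ⊆ Ici (0 : ℝ) := fun z hz => le_trans hx hz.1
  have hcont := (QQ_continuousOn (g := g) hs hd).mono hsub
  have hd1 : ∀ z ∈ Ico x y, HasDerivWithinAt (QQ W Y B rho0 e g c)
      (wt B rho0 e z * (AA rho0 e g z * (normSq (Y z) / normSq (rr rho0 e z))
        + 2 * c z * (e / rr rho0 e z * Y z * conj (W z)).re
        + (PPx B rho0 a e g z + c' z) * normSq (W z))) (Ici z) z := by
    intro z hz
    have hz0 : 0 ≤ z := le_trans hx hz.1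
    exact QQ_hasDerivWithinAt hs hd.h0 hd.he1 hz0 (hd.hc' z hz0)
  have hd2 : ∀ z ∈ Ico x y, (0 : ℝ) ≤
      (wt B rho0 e z * (AA rho0 e g z * (normSq (Y z) / normSq (rr rho0 e z))
        + 2 * c z * (e / rr rho0 e z * Y z * conj (W z)).re
        + (PPx B rho0 a e g z + c' z) * normSq (W z))) := by
    intro z hz
    have hz0 : 0 ≤ z := le_trans hx hz.1
    exact deriv_nonneg hd hz0
  have := image_le_of_deriv_right_le_deriv_boundary (f := fun _ => QQ W Y B rho0 e g c x)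
    (f' := fun _ => 0) (a := x) (b := y) continuousOn_const
    (fun z _ => hasDerivWithinAt_const _ _ _) (B := QQ W Y B rho0 e g c) le_rfl hcont
    hd1 hd2
  exact this ⟨hxy, le_rfl⟩

/-- polynomial growth on the half line -/
def Gr (W : ℝ → ℂ) : Prop := ∃ (C : ℝ) (k : ℕ), ∀ x : ℝ, 0 ≤ x → ‖W x‖ ≤ C * (1 + x) ^ k

theorem norm_rr_le (he : ‖e‖ = 1) (h0 : 0 < rho0) {x : ℝ} (hx : 0 ≤ x) :
    ‖rr rho0 e x‖ ≤ (1 + rho0) * (1 + x) := by
  unfold rr
  refine (norm_add_le _ _).trans ?_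
  rw [norm_mul, he, Complex.norm_real, Complex.norm_real, Real.norm_of_nonneg h0.le,
    Real.norm_of_nonneg hx]
  nlinarith [mul_nonneg h0.le hx]

theorem tendsto_poly_exp {b : ℝ} (hb : 0 < b) (C : ℝ) (n : ℕ) :
    Tendsto (fun x : ℝ => C * (1 + x) ^ n * Real.exp (-(b * x))) atTop (𝓝 0) := by
  have h1 : Tendsto (fun x : ℝ => x ^ n / Real.exp (b * x)) atTop (𝓝 0) :=
    (isLittleO_pow_exp_pos_mul_atTop n hb).tendsto_div_nhds_zero
  have h2 : Tendsto (fun x : ℝ => (1 + x) ^ n / Real.exp (b * (1 + x))) atTop (𝓝 0) :=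
    h1.comp (tendsto_atTop_add_const_left _ 1 tendsto_id)
  have h3 := h2.const_mul (C * Real.exp b)
  rw [mul_zero] at h3
  refine h3.congr (fun x => ?_)
  rw [mul_add, mul_one, Real.exp_add, Real.exp_neg]
  have := (Real.exp_pos b).ne'
  have := (Real.exp_pos (b * x)).ne'
  field_simp

theorem QQ_tendsto (hd : Dat B rho0 a e g c c') (hW : Gr W) (hY : Gr Y) :
    Tendsto (QQ W Y B rho0 e g c) atTop (𝓝 0) := by
  obtain ⟨C1, k1, h1⟩ := hW
  obtain ⟨C2, k2, h2⟩ := hY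
  obtain ⟨C3, k3, h3⟩ := hd.gr
  obtain ⟨m, hm⟩ := exists_nat_ge B
  have hC1 : 0 ≤ C1 := by
    have := (norm_nonneg _).trans (h1 0 le_rfl); simpa using this
  have hC2 : 0 ≤ C2 := by
    have := (norm_nonneg _).trans (h2 0 le_rfl); simpa using this
  have hC3 : 0 ≤ C3 := by
    have := (abs_nonneg _).trans (h3 0 le_rfl); simpa using this
  have h0 := hd.h0
  set K : ℝ := (1 + rho0) ^ (2 * m) * (‖g‖ * C1 * C2 + C3 * C1 ^ 2) with hK
  set n : ℕ := 2 * m + (k1 + k2 + (k3 + 2 * k1)) with hn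
  have hlim := tendsto_poly_exp hd.he2 K n
  refine squeeze_zero_norm' ?_ hlim
  filter_upwards [eventually_ge_atTop (0 : ℝ)] with x hx
  have hx1 : 1 ≤ 1 + x := by linarith
  have hN := normSq_rr_pos h0 hd.he1 hx
  have b1 : (normSq (rr rho0 e x)) ^ B ≤ (1 + rho0) ^ (2 * m) * (1 + x) ^ (2 * m) := by
    have e1 : normSq (rr rho0 e x) ≤ ((1 + rho0) * (1 + x)) ^ 2 := by
      rw [Complex.normSq_eq_norm_sq]
      exact pow_le_pow_left₀ (norm_nonneg _) (norm_rr_le hd.he h0 hx) 2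
    have e2 : 1 ≤ ((1 + rho0) * (1 + x)) ^ 2 := by
      apply one_le_pow₀
      nlinarith [mul_nonneg h0.le hx]
    calc (normSq (rr rho0 e x)) ^ B ≤ (((1 + rho0) * (1 + x)) ^ 2) ^ B :=
          Real.rpow_le_rpow hN.le e1 hd.hB
      _ ≤ (((1 + rho0) * (1 + x)) ^ 2) ^ (m : ℝ) := Real.rpow_le_rpow_of_exponent_le e2 hm
      _ = _ := by rw [Real.rpow_natCast, ← pow_mul, mul_pow]
  have b2 : ‖(g * conj (W x) * Y x).re + c x * normSq (W x)‖
      ≤ (‖g‖ * C1 * C2 + C3 * C1 ^ 2) * (1 + x) ^ (k1 + k2 + (k3 + 2 * k1)) := by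
    have f1 : |(g * conj (W x) * Y x).re| ≤ ‖g‖ * (C1 * (1 + x) ^ k1) * (C2 * (1 + x) ^ k2) := by
      refine (Complex.abs_re_le_norm _).trans ?_
      rw [norm_mul, norm_mul, Complex.norm_conj]
      have := h1 x hx; have := h2 x hx
      gcongr
    have f2 : |c x * normSq (W x)| ≤ (C3 * (1 + x) ^ k3) * (C1 * (1 + x) ^ k1) ^ 2 := by
      rw [abs_mul, Complex.normSq_eq_norm_sq, abs_of_nonneg (by positivity : 0 ≤ ‖W x‖ ^ 2)]
      have := h1 x hx; have := h3 x hx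
      gcongr
    have g1 : (1 + x) ^ (k1 + k2) ≤ (1 + x) ^ (k1 + k2 + (k3 + 2 * k1)) :=
      pow_le_pow_right₀ hx1 (by omega)
    have g2 : (1 + x) ^ (k3 + 2 * k1) ≤ (1 + x) ^ (k1 + k2 + (k3 + 2 * k1)) :=
      pow_le_pow_right₀ hx1 (by omega)
    have hg := norm_nonneg g
    rw [Real.norm_eq_abs]
    calc |(g * conj (W x) * Y x).re + c x * normSq (W x)|
        ≤ |(g * conj (W x) * Y x).re| + |c x * normSq (W x)| := abs_add_le _ _
      _ ≤ ‖g‖ * (C1 * (1 + x) ^ k1) * (C2 * (1 + x) ^ k2)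
          + (C3 * (1 + x) ^ k3) * (C1 * (1 + x) ^ k1) ^ 2 := add_le_add f1 f2
      _ = ‖g‖ * C1 * C2 * (1 + x) ^ (k1 + k2) + C3 * C1 ^ 2 * (1 + x) ^ (k3 + 2 * k1) := by ring
      _ ≤ ‖g‖ * C1 * C2 * (1 + x) ^ (k1 + k2 + (k3 + 2 * k1))
          + C3 * C1 ^ 2 * (1 + x) ^ (k1 + k2 + (k3 + 2 * k1)) := by gcongr
      _ = _ := by ring
  unfold QQ
  rw [norm_mul, Real.norm_of_nonneg (wt_pos h0 hd.he1 hx).le]
  unfold wt
  have hE := Real.exp_pos (-(e.im * x))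
  have hg := norm_nonneg g
  calc normSq (rr rho0 e x) ^ B * Real.exp (-(e.im * x))
        * ‖(g * conj (W x) * Y x).re + c x * normSq (W x)‖
      ≤ ((1 + rho0) ^ (2 * m) * (1 + x) ^ (2 * m)) * Real.exp (-(e.im * x))
        * ((‖g‖ * C1 * C2 + C3 * C1 ^ 2) * (1 + x) ^ (k1 + k2 + (k3 + 2 * k1))) := by
        gcongr
    _ = K * (1 + x) ^ n * Real.exp (-(e.im * x)) := by
        rw [hK, hn, pow_add (1 + x) (2 * m)]; ring

theorem QQ_nonpos (hs : Sys W Y B rho0 a e) (hd : Dat B rho0 a e g c c') (hW : Gr W) (hY : Gr Y)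
    {x : ℝ} (hx : 0 ≤ x) : QQ W Y B rho0 e g c x ≤ 0 := by
  refine ge_of_tendsto (QQ_tendsto hd hW hY) ?_
  filter_upwards [eventually_ge_atTop x] with y hy
  exact QQ_mono hs hd hx hy

theorem hp_le (hs : Sys W Y B rho0 a e) (hd : Dat B rho0 a e g c c') (hW : Gr W) (hY : Gr Y) :
    (g * conj (W 0) * Y 0).re ≤ -c 0 * normSq (W 0) := by
  have h := QQ_nonpos hs hd hW hY (x := 0) le_rfl
  unfold QQ at h
  have hw := wt_pos (B := B) hd.h0 hd.he1 (x := 0) le_rfl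
  have : (g * conj (W 0) * Y 0).re + c 0 * normSq (W 0) ≤ 0 := by
    by_contra hcon
    exact absurd h (not_le.2 (mul_pos hw (not_le.1 hcon)))
  linarith

/-- if `W 0 = 0` the functional vanishes identically -/
theorem QQ_zero (hs : Sys W Y B rho0 a e) (hd : Dat B rho0 a e g c c') (hW : Gr W) (hY : Gr Y)
    (h : W 0 = 0) {x : ℝ} (hx : 0 ≤ x) : QQ W Y B rho0 e g c x = 0 := by
  apply le_antisymm (QQ_nonpos hs hd hW hY hx)
  have h1 := QQ_mono hs hd le_rfl hx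
  have h2 : QQ W Y B rho0 e g c 0 = 0 := by unfold QQ; simp [h]
  linarith

theorem form_zero (hs : Sys W Y B rho0 a e) (hd : Dat B rho0 a e g c c') (hW : Gr W) (hY : Gr Y)
    (h : W 0 = 0) {x : ℝ} (hx : 0 ≤ x) :
    AA rho0 e g x * (‖Y x‖ / ‖rr rho0 e x‖) ^ 2
        + 2 * c x * (e / rr rho0 e x * Y x * conj (W x)).re
        + (PPx B rho0 a e g x + c' x) * ‖W x‖ ^ 2 = 0 := by
  have h1 := QQ_hasDerivWithinAt (g := g) hs hd.h0 hd.he1 hx (hd.hc' x hx)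
  have h2 : HasDerivWithinAt (QQ W Y B rho0 e g c) 0 (Ici x) x := by
    refine (hasDerivWithinAt_const x (Ici x) (0 : ℝ)).congr_of_mem ?_ (mem_Ici.2 le_rfl)
    intro y hy
    exact QQ_zero hs hd hW hY h (le_trans hx hy)
  have h3 := (uniqueDiffOn_Ici x x (mem_Ici.2 le_rfl)).eq_deriv _ h1 h2
  have hw := wt_pos (B := B) hd.h0 hd.he1 hx
  have h4 := (mul_eq_zero.1 h3).resolve_left hw.ne'
  rw [form_eq, Complex.normSq_eq_norm_sq (W x)] at h4
  exact h4

/-- nonvanishing, version 1 : `A(0) > 0`. -/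
theorem hp_ne (hs : Sys W Y B rho0 a e) (hd : Dat B rho0 a e g c c') (hW : Gr W) (hY : Gr Y)
    (hnt : ¬ (W 0 = 0 ∧ Y 0 = 0)) (hA0 : 0 < AA rho0 e g 0) : W 0 ≠ 0 := by
  intro h
  have h1 := form_zero hs hd hW hY h le_rfl
  rw [h] at h1
  simp only [map_zero, mul_zero, Complex.zero_re, norm_zero, add_zero] at h1
  have hN := normSq_rr_pos hd.h0 hd.he1 (x := 0) le_rfl
  have hr : ‖rr rho0 e 0‖ ≠ 0 := by
    intro h2
    rw [Complex.normSq_eq_norm_sq, h2] at hN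
    simp at hN
  have h2 : (‖Y 0‖ / ‖rr rho0 e 0‖) ^ 2 = 0 := by
    have : AA rho0 e g 0 * (‖Y 0‖ / ‖rr rho0 e 0‖) ^ 2 = 0 := by
      simpa using h1
    exact (mul_eq_zero.1 this).resolve_left hA0.ne'
  have h3 : ‖Y 0‖ / ‖rr rho0 e 0‖ = 0 := pow_eq_zero_iff (by norm_num) |>.1 h2
  have h4 : ‖Y 0‖ = 0 := by
    rcases div_eq_zero_iff.1 h3 with h5 | h5
    · exact h5
    · exact absurd h5 hr
  exact hnt ⟨h, norm_eq_zero.1 h4⟩

theorem QQ_zero' (hs : Sys W Y B rho0 a e) (hd : Dat B rho0 a e g c c') (hW : Gr W) (hY : Gr Y)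
    (h : QQ W Y B rho0 e g c 0 = 0) {x : ℝ} (hx : 0 ≤ x) : QQ W Y B rho0 e g c x = 0 := by
  apply le_antisymm (QQ_nonpos hs hd hW hY hx)
  have h1 := QQ_mono hs hd le_rfl hx
  linarith

theorem form_zero' (hs : Sys W Y B rho0 a e) (hd : Dat B rho0 a e g c c') (hW : Gr W) (hY : Gr Y)
    (h : QQ W Y B rho0 e g c 0 = 0) {x : ℝ} (hx : 0 ≤ x) :
    AA rho0 e g x * (‖Y x‖ / ‖rr rho0 e x‖) ^ 2
        + 2 * c x * (e / rr rho0 e x * Y x * conj (W x)).re
        + (PPx B rho0 a e g x + c' x) * ‖W x‖ ^ 2 = 0 := by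
  have h1 := QQ_hasDerivWithinAt (g := g) hs hd.h0 hd.he1 hx (hd.hc' x hx)
  have h2 : HasDerivWithinAt (QQ W Y B rho0 e g c) 0 (Ici x) x := by
    refine (hasDerivWithinAt_const x (Ici x) (0 : ℝ)).congr_of_mem ?_ (mem_Ici.2 le_rfl)
    intro y hy
    exact QQ_zero' hs hd hW hY h (le_trans hx hy)
  have h3 := (uniqueDiffOn_Ici x x (mem_Ici.2 le_rfl)).eq_deriv _ h1 h2
  have hw := wt_pos (B := B) hd.h0 hd.he1 hx
  have h4 := (mul_eq_zero.1 h3).resolve_left hw.ne'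
  rw [form_eq, Complex.normSq_eq_norm_sq (W x)] at h4
  exact h4

/-- strict version : strict inequality for `x > 0`. -/
theorem QQ_neg (hs : Sys W Y B rho0 a e) (hd : Dat B rho0 a e g c c') (hW : Gr W) (hY : Gr Y)
    (hnt : ¬ (W 0 = 0 ∧ Y 0 = 0)) (hst : ∀ x : ℝ, 0 < x → 0 < AA rho0 e g x ∧
      c x ^ 2 < AA rho0 e g x * (PPx B rho0 a e g x + c' x)) : QQ W Y B rho0 e g c 0 < 0 := by
  rcases (QQ_nonpos (g := g) hs hd hW hY le_rfl).lt_or_eq with h | h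
  · exact h
  exfalso
  have hz : ∀ x : ℝ, 0 < x → W x = 0 ∧ Y x = 0 := by
    intro x hx
    have h1 := form_zero' hs hd hW hY h hx.le
    obtain ⟨h2, h3⟩ := hst x hx
    obtain ⟨h4, h5⟩ := form_pos (u := ‖Y x‖ / ‖rr rho0 e x‖) (v := ‖W x‖) h2 h3
      (by positivity) (cross_le hd.he x) h1.le
    have hN := normSq_rr_pos hd.h0 hd.he1 hx.le
    have hr : ‖rr rho0 e x‖ ≠ 0 := by
      intro h2
      rw [Complex.normSq_eq_norm_sq, h2] at hN
      simp at hN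
    refine ⟨norm_eq_zero.1 h5, ?_⟩
    rcases div_eq_zero_iff.1 h4 with h6 | h6
    · exact norm_eq_zero.1 h6
    · exact absurd h6 hr
  have hlim : ∀ f : ℝ → ℂ, ContinuousAt f 0 → (∀ x : ℝ, 0 < x → f x = 0) → f 0 = 0 := by
    intro f hf hf0
    have hc1 : Tendsto f (𝓝[>] 0) (𝓝 (f 0)) := hf.continuousWithinAt (s := Ioi 0)
    have hc2 : Tendsto f (𝓝[>] 0) (𝓝 0) := by
      refine tendsto_const_nhds.congr' ?_
      filter_upwards [self_mem_nhdsWithin] with x hx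
      exact (hf0 x hx).symm
    exact tendsto_nhds_unique hc1 hc2
  exact hnt ⟨hlim W (hs.dW 0 le_rfl).continuousAt (fun x hx => (hz x hx).1),
    hlim Y (hs.dY 0 le_rfl).continuousAt (fun x hx => (hz x hx).2)⟩

/-- nonvanishing, version 2 : strict inequality near `0+`. -/
theorem hp_ne' (hs : Sys W Y B rho0 a e) (hd : Dat B rho0 a e g c c') (hW : Gr W) (hY : Gr Y)
    (hnt : ¬ (W 0 = 0 ∧ Y 0 = 0)) (hst : ∀ x : ℝ, 0 < x → 0 < AA rho0 e g x ∧
      c x ^ 2 < AA rho0 e g x * (PPx B rho0 a e g x + c' x)) : W 0 ≠ 0 := by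
  intro h
  have hz : ∀ x : ℝ, 0 < x → W x = 0 ∧ Y x = 0 := by
    intro x hx
    have h1 := form_zero hs hd hW hY h hx.le
    obtain ⟨h2, h3⟩ := hst x hx
    obtain ⟨h4, h5⟩ := form_pos (u := ‖Y x‖ / ‖rr rho0 e x‖) (v := ‖W x‖) h2 h3
      (by positivity) (cross_le hd.he x) h1.le
    have hN := normSq_rr_pos hd.h0 hd.he1 hx.le
    have hr : ‖rr rho0 e x‖ ≠ 0 := by
      intro h2
      rw [Complex.normSq_eq_norm_sq, h2] at hN
      simp at hN
    refine ⟨norm_eq_zero.1 h5, ?_⟩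
    rcases div_eq_zero_iff.1 h4 with h6 | h6
    · exact norm_eq_zero.1 h6
    · exact absurd h6 hr
  have hY0 : Y 0 = 0 := by
    have hc1 : Tendsto Y (𝓝[>] 0) (𝓝 (Y 0)) :=
      (hs.dY 0 le_rfl).continuousAt.continuousWithinAt (s := Ioi 0)
    have hc2 : Tendsto Y (𝓝[>] 0) (𝓝 0) := by
      refine tendsto_const_nhds.congr' ?_
      filter_upwards [self_mem_nhdsWithin] with x hx
      exact (hz x hx).2.symm
    exact tendsto_nhds_unique hc1 hc2
  exact hnt ⟨h, hY0⟩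


end abstract

end Crest.Agent.R086.A4HP
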