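import Mathlib
import Crest.Agent.R086.JW
import Crest.Agent.R086.A4HP

/-!
Row 86, part A4 (helper11): LEMMA HP for the outgoing solution `JCx.W`.
-/
set_option autoImplicit false
open MeasureTheory Complex Set Filter Topology
open scoped ComplexConjugate

namespace Crest.Agent.R086.A4HP

open Crest.Agent.R086.JCx

/-- `W` on the line -/
noncomputable def WL (a b : ℂ) (rho0 : ℝ) (e : ℂ) (x : ℝ) : ℂ := W a b (rr rho0 e x)

/-- `Y = (B + iρ/2) W + ρ W'` on the line -/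
noncomputable def YL (B : ℝ) (a b : ℂ) (rho0 : ℝ) (e : ℂ) (x : ℝ) : ℂ :=
  ((B : ℂ) + I * rr rho0 e x / 2) * W a b (rr rho0 e x) + rr rho0 e x * W1 a b (rr rho0 e x)

variable {B rho0 : ℝ} {a b e : ℂ}

theorem sysL (ha : -1 < a.re) (hb : b = 2 * (B : ℂ) + 1) (h0 : 0 < rho0) (he1 : 0 ≤ e.re) :
    Sys (WL a b rho0 e) (YL B a b rho0 e) B rho0 a e := by
  constructor
  · intro x hx
    have hr := rr_re_pos h0 he1 hx
    have hne : rr rho0 e x ≠ 0 := by intro h; rw [h] at hr; simp at hr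
    have h1 := (W_hasDerivAt (b := b) ha hr).comp x (rr_hasDerivAt rho0 e x)
    refine h1.congr_deriv ?_
    unfold WL YL
    field_simp
    ring
  · intro x hx
    have hr := rr_re_pos h0 he1 hx
    have hne : rr rho0 e x ≠ 0 := by intro h; rw [h] at hr; simp at hr
    have hW := (W_hasDerivAt (b := b) ha hr).comp x (rr_hasDerivAt rho0 e x)
    have hW1 := (W1_hasDerivAt (b := b) ha hr).comp x (rr_hasDerivAt rho0 e x)
    have hR := rr_hasDerivAt rho0 e x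
    have ode := W_ode (b := b) ha hr
    have hbeta : HasDerivAt (fun y : ℝ => (B : ℂ) + I * rr rho0 e y / 2) (I * e / 2) x :=
      ((hR.const_mul I).div_const 2).const_add (B : ℂ)
    have h := (hbeta.mul hW).add (hR.mul hW1)
    refine h.congr_deriv ?_
    unfold WL YL
    simp only [Function.comp_apply]
    rw [hb] at ode ⊢
    have hI : I * I = -1 := Complex.I_mul_I
    field_simp
    linear_combination (4 * e * rr rho0 e x) * ode

theorem J_bd (c : ℂ) (ha : 0 < a.re) (h0 : 0 < rho0) :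
    ∃ C : ℝ, 0 ≤ C ∧ ∀ z : ℂ, rho0 ≤ z.re → ‖J a c z‖ ≤ C := by
  obtain ⟨M, hM⟩ := exists_nat_ge c.re
  have hK := KM_nonneg a.re a.re M (r0 := rho0) h0
  refine ⟨Real.exp (Real.pi * |c.im|) * KM a.re a.re M rho0 * rho0 ^ (-a.re), by positivity, ?_⟩
  intro z hz
  refine (J_bound_re (x0 := a.re) (x1 := a.re) (r0 := rho0) (y := |c.im|) M ha le_rfl le_rfl h0 hz
    hM le_rfl).trans ?_
  have : z.re ^ (-a.re) ≤ rho0 ^ (-a.re) := Real.rpow_le_rpow_of_nonpos h0 hz (by linarith)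
  gcongr

theorem rr_re_ge (he1 : 0 ≤ e.re) {x : ℝ} (hx : 0 ≤ x) :
    rho0 ≤ (rr rho0 e x).re := by
  rw [rr_re]; have := mul_nonneg he1 hx; linarith

theorem gr_bd {f : ℝ → ℂ} (h : ∃ C : ℝ, 0 ≤ C ∧ ∀ x : ℝ, 0 ≤ x → ‖f x‖ ≤ C) : Gr f := by
  obtain ⟨C, _, h⟩ := h
  exact ⟨C, 0, fun x hx => by simpa using h x hx⟩

theorem Gr.add {f g : ℝ → ℂ} (hf : Gr f) (hg : Gr g) : Gr (fun x => f x + g x) := by
  obtain ⟨C1, k1, h1⟩ := hf
  obtain ⟨C2, k2, h2⟩ := hg
  have hC1 : 0 ≤ C1 := by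
    have := (norm_nonneg _).trans (h1 0 le_rfl); simpa using this
  have hC2 : 0 ≤ C2 := by
    have := (norm_nonneg _).trans (h2 0 le_rfl); simpa using this
  refine ⟨C1 + C2, k1 + k2, fun x hx => ?_⟩
  have hx1 : 1 ≤ 1 + x := by linarith
  have g1 : (1 + x) ^ k1 ≤ (1 + x) ^ (k1 + k2) := pow_le_pow_right₀ hx1 (by omega)
  have g2 : (1 + x) ^ k2 ≤ (1 + x) ^ (k1 + k2) := pow_le_pow_right₀ hx1 (by omega)
  calc ‖f x + g x‖ ≤ ‖f x‖ + ‖g x‖ := norm_add_le _ _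
    _ ≤ C1 * (1 + x) ^ k1 + C2 * (1 + x) ^ k2 := add_le_add (h1 x hx) (h2 x hx)
    _ ≤ C1 * (1 + x) ^ (k1 + k2) + C2 * (1 + x) ^ (k1 + k2) := by gcongr
    _ = _ := by ring

theorem Gr.mul {f g : ℝ → ℂ} (hf : Gr f) (hg : Gr g) : Gr (fun x => f x * g x) := by
  obtain ⟨C1, k1, h1⟩ := hf
  obtain ⟨C2, k2, h2⟩ := hg
  have hC1 : 0 ≤ C1 := by
    have := (norm_nonneg _).trans (h1 0 le_rfl); simpa using this
  refine ⟨C1 * C2, k1 + k2, fun x hx => ?_⟩
  rw [norm_mul]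
  calc ‖f x‖ * ‖g x‖ ≤ (C1 * (1 + x) ^ k1) * (C2 * (1 + x) ^ k2) := by
        have := h1 x hx; have := h2 x hx
        gcongr
    _ = _ := by rw [pow_add]; ring

theorem gr_rr (he : ‖e‖ = 1) (h0 : 0 < rho0) : Gr (fun x => rr rho0 e x) :=
  ⟨1 + rho0, 1, fun x hx => by simpa using norm_rr_le he h0 hx⟩

theorem gr_const (k : ℂ) : Gr (fun _ => k) := ⟨‖k‖, 0, fun x _ => by simp⟩

theorem gr_J (c : ℂ) (ha : 0 < a.re) (h0 : 0 < rho0) (he1 : 0 ≤ e.re) :
    Gr (fun x => J a c (rr rho0 e x)) := by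
  obtain ⟨C, hC, h⟩ := J_bd c ha h0
  exact gr_bd ⟨C, hC, fun x hx => h _ (rr_re_ge he1 hx)⟩

theorem gr_WL (ha : -1 < a.re) (h0 : 0 < rho0) (he : ‖e‖ = 1) (he1 : 0 ≤ e.re) :
    Gr (WL a b rho0 e) := by
  have h1 : 0 < (a + 1).re := by simp; linarith
  have h2 : 0 < (a + 2).re := by simp; linarith
  have hr := gr_rr (e := e) he h0
  have h3 : Gr (fun x => (a + 1 - b + (-I) * rr rho0 e x)) :=
    (gr_const (a + 1 - b)).add ((gr_const (-I)).mul hr)
  have h4 := (h3.mul (gr_J (e := e) (b - a - 2) h1 h0 he1)).add (hr.mul (gr_J (e := e) (b - a - 2) h2 h0 he1))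
  convert h4 using 2 with x
  unfold WL W
  ring

theorem gr_W1 (ha : -1 < a.re) (h0 : 0 < rho0) (he1 : 0 ≤ e.re) :
    Gr (fun x => W1 a b (rr rho0 e x)) := by
  have h1 : 0 < (a + 1).re := by simp; linarith
  exact (gr_const (I * a)).mul (gr_J (e := e) (b - a - 1) h1 h0 he1)

theorem gr_YL (ha : -1 < a.re) (h0 : 0 < rho0) (he : ‖e‖ = 1) (he1 : 0 ≤ e.re) :
    Gr (YL B a b rho0 e) := by
  have hr := gr_rr (e := e) he h0
  have h3 : Gr (fun x => ((B : ℂ) + (I / 2) * rr rho0 e x)) :=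
    (gr_const (B : ℂ)).add ((gr_const (I / 2)).mul hr)
  have h4 := (h3.mul (gr_WL (b := b) ha h0 he he1)).add (hr.mul (gr_W1 (b := b) ha h0 he1))
  convert h4 using 2 with x
  unfold YL WL
  ring

/-- the outgoing solution is nontrivial at every point of the real half line. -/
theorem W_nontrivial (ha : -1 < a.re) (h0 : 0 < rho0) :
    ¬ (W a b (rho0 : ℂ) = 0 ∧ W1 a b (rho0 : ℂ) = 0) := by
  rintro ⟨hz0, hz1⟩
  have hne : ∀ t : ℝ, 0 ≤ t → 0 < ((rho0 + t : ℝ) : ℂ).re := by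
    intro t ht; rw [Complex.ofReal_re]; linarith
  -- vanishing on the half line
  have hzero : ∀ T : ℝ, 0 ≤ T → W a b ((rho0 + T : ℝ) : ℂ) = 0 := by
    intro T hT
    set f : ℝ → ℂ × ℂ := fun t => (W a b ((rho0 + t : ℝ) : ℂ), W1 a b ((rho0 + t : ℝ) : ℂ)) with hf
    set f' : ℝ → ℂ × ℂ := fun t => (W1 a b ((rho0 + t : ℝ) : ℂ), W2 a b ((rho0 + t : ℝ) : ℂ)) with hf'
    have hline : ∀ t : ℝ, HasDerivAt (fun t : ℝ => ((rho0 + t : ℝ) : ℂ)) 1 t := by
      intro t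
      have := ((hasDerivAt_id t).const_add rho0).ofReal_comp
      simpa using this
    have hd : ∀ t : ℝ, 0 ≤ t → HasDerivAt f (f' t) t := by
      intro t ht
      have h1 := (W_hasDerivAt (b := b) ha (hne t ht)).comp t (hline t)
      have h2 := (W1_hasDerivAt (b := b) ha (hne t ht)).comp t (hline t)
      rw [mul_one] at h1 h2
      exact h1.prodMk h2
    have hcont : ContinuousOn f (Icc 0 T) := fun t ht => (hd t ht.1).continuousAt.continuousWithinAt
    set K : ℝ := 1 + (‖b‖ + (rho0 + T) + ‖a‖) / rho0 with hK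
    have hKpos : 0 ≤ K := by
      have := norm_nonneg a; have := norm_nonneg b
      positivity
    have hbound : ∀ t ∈ Ico (0 : ℝ) T, ‖f' t‖ ≤ K * ‖f t‖ := by
      intro t ht
      have ode := W_ode (b := b) ha (hne t ht.1)
      set z : ℂ := ((rho0 + t : ℝ) : ℂ) with hz
      have hzn : ‖z‖ = rho0 + t := by
        rw [hz, Complex.norm_real, Real.norm_of_nonneg (by linarith [ht.1])]
      have hzne : z ≠ 0 := by
        rw [← norm_pos_iff, hzn]; linarith [ht.1]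
      have hW2 : W2 a b z = -((b + I * z) * W1 a b z + I * a * W a b z) / z := by
        field_simp
        linear_combination ode
      have hfn : ‖f t‖ = max ‖W a b z‖ ‖W1 a b z‖ := rfl
      have hf'n : ‖f' t‖ = max ‖W1 a b z‖ ‖W2 a b z‖ := rfl
      have hm1 : ‖W a b z‖ ≤ ‖f t‖ := by rw [hfn]; exact le_max_left _ _
      have hm2 : ‖W1 a b z‖ ≤ ‖f t‖ := by rw [hfn]; exact le_max_right _ _
      have hft := norm_nonneg (f t)
      rw [hf'n]
      apply max_le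
      · have h3 : 0 ≤ (‖b‖ + (rho0 + T) + ‖a‖) / rho0 := by
          have := norm_nonneg a; have := norm_nonneg b
          positivity
        have : ‖f t‖ ≤ K * ‖f t‖ := by
          rw [hK]; nlinarith
        linarith
      · rw [hW2, norm_div, norm_neg, hzn, div_le_iff₀ (by linarith [ht.1])]
        have e1 : ‖(b + I * z) * W1 a b z + I * a * W a b z‖
            ≤ (‖b‖ + (rho0 + T)) * ‖f t‖ + ‖a‖ * ‖f t‖ := by
          refine (norm_add_le _ _).trans ?_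
          rw [norm_mul, norm_mul, norm_mul, Complex.norm_I, one_mul]
          have e2 : ‖b + I * z‖ ≤ ‖b‖ + (rho0 + T) := by
            refine (norm_add_le _ _).trans ?_
            rw [norm_mul, Complex.norm_I, one_mul, hzn]
            linarith [ht.2]
          gcongr
        refine e1.trans ?_
        have e3 : (‖b‖ + (rho0 + T) + ‖a‖) ≤ (‖b‖ + (rho0 + T) + ‖a‖) / rho0 * (rho0 + t) := by
          rw [div_mul_eq_mul_div, le_div_iff₀ h0]
          have := norm_nonneg a; have := norm_nonneg b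
          have h4 : 0 ≤ ‖b‖ + (rho0 + T) + ‖a‖ := by positivity
          nlinarith [ht.1, mul_nonneg h4 ht.1]
        calc (‖b‖ + (rho0 + T)) * ‖f t‖ + ‖a‖ * ‖f t‖
            = (‖b‖ + (rho0 + T) + ‖a‖) * ‖f t‖ := by ring
          _ ≤ ((‖b‖ + (rho0 + T) + ‖a‖) / rho0 * (rho0 + t)) * ‖f t‖ := by gcongr
          _ ≤ K * ‖f t‖ * (rho0 + t) := by
              rw [hK]
              have : 0 ≤ ‖f t‖ * (rho0 + t) := mul_nonneg hft (by linarith [ht.1])
              nlinarith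
    have h0f : f 0 = 0 := by
      simp only [hf, add_zero]
      rw [hz0, hz1]; rfl
    have := eq_zero_of_abs_deriv_le_mul_abs_self_of_eq_zero_right hcont
      (fun t ht => (hd t ht.1).hasDerivWithinAt) h0f hbound T ⟨hT, le_rfl⟩
    exact congrArg Prod.fst this
  -- contradiction with the asymptotics
  obtain ⟨K, hK, hasy⟩ := W_asymp (x0 := a.re) (x1 := a.re) (r0 := 1) (y := |a.im| + ‖b‖) (cth := 1)
    ha one_pos one_pos le_rfl
  have hG : Gamma (a + 1) ≠ 0 := by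
    apply Complex.Gamma_ne_zero
    intro m hm
    have := congrArg Complex.re hm
    simp at this
    have hm0 : (0 : ℝ) ≤ m := Nat.cast_nonneg m
    linarith
  have hGpos : 0 < ‖Gamma (a + 1)‖ := norm_pos_iff.2 hG
  set X : ℝ := 1 + rho0 + (K + 1) / ‖Gamma (a + 1)‖ with hX
  have hXpos : 0 < X := by positivity
  have hX1 : rho0 ≤ X := by
    have : 0 ≤ (K + 1) / ‖Gamma (a + 1)‖ := by positivity
    linarith
  have h1 := hzero (X - rho0) (by linarith)
  rw [show rho0 + (X - rho0) = X by ring] at h1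
  have hn : ‖(X : ℂ)‖ = X := by rw [Complex.norm_real, Real.norm_of_nonneg hXpos.le]
  have h2 := hasy a b (X : ℂ) le_rfl le_rfl (by linarith [norm_nonneg b])
    (by linarith [abs_nonneg a.im]) (by
      rw [hn]
      have : 0 ≤ (K + 1) / ‖Gamma (a + 1)‖ := by positivity
      linarith) (by rw [hn]; simp)
  rw [h1, mul_zero, zero_add, norm_mul, Complex.norm_I, one_mul, hn, le_div_iff₀ hXpos] at h2
  have h3 : ‖Gamma (a + 1)‖ * X = ‖Gamma (a + 1)‖ * (1 + rho0) + (K + 1) := by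
    rw [hX]; field_simp
  rw [h3] at h2
  nlinarith [mul_pos hGpos (by linarith : 0 < 1 + rho0)]

theorem rr_zero (rho0 : ℝ) (e : ℂ) : rr rho0 e 0 = (rho0 : ℂ) := by simp [rr]

theorem nt_L (ha : -1 < a.re) (h0 : 0 < rho0) :
    ¬ (WL a b rho0 e 0 = 0 ∧ YL B a b rho0 e 0 = 0) := by
  rintro ⟨h1, h2⟩
  unfold WL at h1
  unfold YL at h2
  rw [rr_zero] at h1 h2
  rw [h1, mul_zero, zero_add] at h2
  have hne : (rho0 : ℂ) ≠ 0 := by exact_mod_cast h0.ne'
  exact W_nontrivial ha h0 ⟨h1, (mul_eq_zero.1 h2).resolve_left hne⟩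

variable {g : ℂ} {c c' : ℝ → ℝ}

/-- **LEMMA HP**, inequality. `b = 2B+1` (`B = (l+5)/2`, `b = l+6`). -/
theorem hp (ha : -1 < a.re) (hb : b = 2 * (B : ℂ) + 1) (hd : Dat B rho0 a e g c c') :
    (g * conj (W a b rho0) * (((B : ℂ) + I * rho0 / 2) * W a b rho0
      + rho0 * W1 a b rho0)).re ≤ -c 0 * ‖W a b rho0‖ ^ 2 := by
  have h := hp_le (sysL ha hb hd.h0 hd.he1) hd (gr_WL ha hd.h0 hd.he hd.he1)
    (gr_YL ha hd.h0 hd.he hd.he1)
  unfold WL YL at h
  rw [rr_zero, Complex.normSq_eq_norm_sq] at h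
  exact h

/-- **LEMMA HP**, nonvanishing, `A(0) > 0`. -/
theorem hp_W_ne (ha : -1 < a.re) (hb : b = 2 * (B : ℂ) + 1) (hd : Dat B rho0 a e g c c')
    (hA0 : 0 < AA rho0 e g 0) : W a b rho0 ≠ 0 := by
  have h := hp_ne (sysL ha hb hd.h0 hd.he1) hd (gr_WL ha hd.h0 hd.he hd.he1)
    (gr_YL ha hd.h0 hd.he hd.he1) (nt_L ha hd.h0) hA0
  unfold WL at h
  rwa [rr_zero] at h

/-- **LEMMA HP**, nonvanishing, strict version for `x > 0`. -/
theorem hp_W_ne' (ha : -1 < a.re) (hb : b = 2 * (B : ℂ) + 1) (hd : Dat B rho0 a e g c c')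
    (hst : ∀ x : ℝ, 0 < x → 0 < AA rho0 e g x ∧
      c x ^ 2 < AA rho0 e g x * (PPx B rho0 a e g x + c' x)) : W a b rho0 ≠ 0 := by
  have h := hp_ne' (sysL ha hb hd.h0 hd.he1) hd (gr_WL ha hd.h0 hd.he hd.he1)
    (gr_YL ha hd.h0 hd.he hd.he1) (nt_L ha hd.h0) hst
  unfold WL at h
  rwa [rr_zero] at h

/-- **LEMMA HP**, strict version. -/
theorem hp_lt (ha : -1 < a.re) (hb : b = 2 * (B : ℂ) + 1) (hd : Dat B rho0 a e g c c')
    (hst : ∀ x : ℝ, 0 < x → 0 < AA rho0 e g x ∧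
      c x ^ 2 < AA rho0 e g x * (PPx B rho0 a e g x + c' x)) :
    (g * conj (W a b rho0) * (((B : ℂ) + I * rho0 / 2) * W a b rho0
      + rho0 * W1 a b rho0)).re < -c 0 * ‖W a b rho0‖ ^ 2 := by
  have h := QQ_neg (sysL ha hb hd.h0 hd.he1) hd (gr_WL ha hd.h0 hd.he hd.he1)
    (gr_YL ha hd.h0 hd.he hd.he1) (nt_L ha hd.h0) hst
  unfold QQ WL YL at h
  have hw := wt_pos (B := B) hd.h0 hd.he1 (x := 0) le_rfl
  rw [rr_zero, Complex.normSq_eq_norm_sq] at h
  have h2 : (g * conj (W a b rho0) * (((B : ℂ) + I * rho0 / 2) * W a b rho0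
      + rho0 * W1 a b rho0)).re + c 0 * ‖W a b rho0‖ ^ 2 < 0 := by
    by_contra hcon
    exact absurd h (not_lt.2 (mul_nonneg hw.le (not_lt.1 hcon)))
  linarith

/-- the logarithmic derivative `G = -ρ W'/W` -/
noncomputable def GW (a b : ℂ) (rho : ℝ) : ℂ := -(rho * W1 a b rho) / W a b rho

/-- **LEMMA HP** in quotient form. -/
theorem hp_G (ha : -1 < a.re) (hb : b = 2 * (B : ℂ) + 1) (hd : Dat B rho0 a e g c c')
    (hne : W a b rho0 ≠ 0) :
    (g * ((B : ℂ) + I * rho0 / 2 - GW a b rho0)).re ≤ -c 0 := by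
  have h := hp ha hb hd
  have hn : 0 < ‖W a b rho0‖ ^ 2 := by positivity
  have e1 : g * conj (W a b rho0) * (((B : ℂ) + I * rho0 / 2) * W a b rho0 + rho0 * W1 a b rho0)
      = (g * ((B : ℂ) + I * rho0 / 2 - GW a b rho0)) * ((‖W a b rho0‖ ^ 2 : ℝ) : ℂ) := by
    have : ((‖W a b rho0‖ ^ 2 : ℝ) : ℂ) = W a b rho0 * conj (W a b rho0) := by
      rw [Complex.mul_conj, Complex.normSq_eq_norm_sq]
    rw [this]
    unfold GW
    field_simp
    ring
  rw [e1, Complex.re_mul_ofReal] at h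
  exact le_of_mul_le_mul_right h hn

theorem hp_G_lt (ha : -1 < a.re) (hb : b = 2 * (B : ℂ) + 1) (hd : Dat B rho0 a e g c c')
    (hst : ∀ x : ℝ, 0 < x → 0 < AA rho0 e g x ∧
      c x ^ 2 < AA rho0 e g x * (PPx B rho0 a e g x + c' x)) :
    (g * ((B : ℂ) + I * rho0 / 2 - GW a b rho0)).re < -c 0 := by
  have hne := hp_W_ne' ha hb hd hst
  have h := hp_lt ha hb hd hst
  have hn : 0 < ‖W a b rho0‖ ^ 2 := by positivity
  have e1 : g * conj (W a b rho0) * (((B : ℂ) + I * rho0 / 2) * W a b rho0 + rho0 * W1 a b rho0)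
      = (g * ((B : ℂ) + I * rho0 / 2 - GW a b rho0)) * ((‖W a b rho0‖ ^ 2 : ℝ) : ℂ) := by
    have : ((‖W a b rho0‖ ^ 2 : ℝ) : ℂ) = W a b rho0 * conj (W a b rho0) := by
      rw [Complex.mul_conj, Complex.normSq_eq_norm_sq]
    rw [this]
    unfold GW
    field_simp
    ring
  rw [e1, Complex.re_mul_ofReal] at h
  exact lt_of_mul_lt_mul_right h hn.le

/-! ### Theorem V -/

theorem datV {B rho0 : ℝ} {a : ℂ} (hB : 0 < B) (h0 : 0 < rho0) (ha : B ≤ a.re) :
    Dat B rho0 a I 1 (fun x => x / 2) (fun _ => 1 / 2) ∧ (∀ x : ℝ, 0 < x → 0 < AA rho0 I 1 x ∧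
      (x / 2) ^ 2 < AA rho0 I 1 x * (PPx B rho0 a I 1 x + 1 / 2)) := by
  have hN : ∀ x : ℝ, 0 < rho0 ^ 2 + x ^ 2 := fun x => by positivity
  have hAA : ∀ x : ℝ, AA rho0 I 1 x = x := by
    intro x; simp [AA, rr]
  have hPP : ∀ x : ℝ, PPx B rho0 a I 1 x
      = B ^ 2 * x / (rho0 ^ 2 + x ^ 2) + x / 4 - (B + 1 / 2 - a.re) := by
    intro x
    have h1 := (hN x).ne'
    have hr : rr rho0 I x = ⟨rho0, x⟩ := by
      apply Complex.ext <;> simp [rr]
    have h2 : ((B : ℂ) ^ 2 / rr rho0 I x) = ⟨B ^ 2 * rho0 / (rho0 ^ 2 + x ^ 2),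
        -(B ^ 2 * x) / (rho0 ^ 2 + x ^ 2)⟩ := by
      rw [hr]
      rw [div_eq_iff (by
        intro h; have := congrArg Complex.re h; simp at this; exact h0.ne' this)]
      apply Complex.ext
      · simp only [Complex.mul_re, pow_two, Complex.ofReal_re, Complex.ofReal_im]
        field_simp
        ring
      · simp only [Complex.mul_im, pow_two, Complex.ofReal_re, Complex.ofReal_im]
        field_simp
        ring
    unfold PPx
    rw [h2, hr]
    simp only [one_mul, Complex.mul_re, Complex.mul_im, Complex.add_re, Complex.add_im,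
      Complex.sub_re, Complex.sub_im, Complex.I_re, Complex.I_im, Complex.ofReal_re,
      Complex.ofReal_im, Complex.div_ofNat_re, Complex.div_ofNat_im, Complex.one_re, Complex.one_im]
    ring
  have hst : ∀ x : ℝ, 0 ≤ x → (x / 2) ^ 2 ≤ AA rho0 I 1 x * (PPx B rho0 a I 1 x + 1 / 2) := by
    intro x hx
    rw [hAA, hPP]
    have h1 : 0 ≤ B ^ 2 * x / (rho0 ^ 2 + x ^ 2) := by positivity
    nlinarith [mul_nonneg hx h1, mul_nonneg hx (sub_nonneg.2 ha)]
  refine ⟨⟨hB.le, h0, by simp, by simp, by simp, ?_, ?_, ⟨1, 1, ?_⟩, ?_, ?_, ?_⟩, ?_⟩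
  · exact (continuous_id.div_const 2).continuousOn
  · intro x _
    exact ((hasDerivAt_id x).div_const 2).hasDerivWithinAt
  · intro x hx
    rw [abs_of_nonneg (by positivity)]
    linarith
  · intro x hx; rw [hAA]; exact hx
  · intro x hx
    rw [hPP]
    have h1 : 0 ≤ B ^ 2 * x / (rho0 ^ 2 + x ^ 2) := by positivity
    linarith
  · exact hst
  · intro x hx
    rw [hAA, hPP]
    refine ⟨hx, ?_⟩
    have h1 : 0 < B ^ 2 * x / (rho0 ^ 2 + x ^ 2) := by positivity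
    nlinarith [mul_pos hx h1, mul_nonneg hx.le (sub_nonneg.2 ha)]

/-- **THEOREM V** : `Re a ≥ B` (`⟺ Re λ ≥ 5/2`) implies `W(ρ0) ≠ 0` and `Re G > B`. -/
theorem thmV_W {B rho0 : ℝ} {a b : ℂ} (hB : 0 < B) (h0 : 0 < rho0) (ha : B ≤ a.re)
    (hb : b = 2 * (B : ℂ) + 1) : W a b rho0 ≠ 0 ∧ B < (GW a b rho0).re := by
  obtain ⟨hd, hst⟩ := datV hB h0 ha
  have ha' : -1 < a.re := by linarith
  refine ⟨hp_W_ne' ha' hb hd hst, ?_⟩
  have h := hp_G_lt ha' hb hd hst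
  simp only [one_mul, Complex.sub_re, Complex.add_re, Complex.ofReal_re, zero_div, neg_zero] at h
  have e1 : (I * (rho0 : ℂ) / 2).re = 0 := by
    rw [Complex.div_ofNat_re]; simp
  rw [e1] at h
  linarith

/-- **THEOREM V** in terms of `J` (371's form). -/
theorem thmV (l : ℕ) {rho : ℝ} (h0 : 0 < rho) {a : ℂ} (ha : ((l : ℝ) + 5) / 2 ≤ a.re) :
    J a ((l : ℂ) + 5 - a) rho ≠ 0 ∧
      ((l : ℝ) + 5) / 2 < (rho * J (a + 1) ((l : ℂ) + 5 - a) rho / J a ((l : ℂ) + 5 - a) rho).re := by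
  have hl : (0 : ℝ) ≤ l := Nat.cast_nonneg l
  have hB : (0 : ℝ) < ((l : ℝ) + 5) / 2 := by positivity
  have ha0 : 0 < a.re := lt_of_lt_of_le hB ha
  have hz : 0 < ((rho : ℝ) : ℂ).re := by simpa using h0
  have hane : a ≠ 0 := by intro h; rw [h] at ha0; simp at ha0
  obtain ⟨h1, h2⟩ := thmV_W (a := a) (b := (l : ℂ) + 6) hB h0 ha (by push_cast; ring)
  have hW := W_eq (b := (l : ℂ) + 6) ha0 hz
  rw [show (l : ℂ) + 6 - a - 1 = (l : ℂ) + 5 - a by ring] at hW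
  have hJ : J a ((l : ℂ) + 5 - a) rho ≠ 0 := by
    intro h; rw [hW, h, mul_zero] at h1; exact h1 rfl
  refine ⟨hJ, ?_⟩
  have e1 : GW a ((l : ℂ) + 6) rho
      = rho * J (a + 1) ((l : ℂ) + 5 - a) rho / J a ((l : ℂ) + 5 - a) rho := by
    unfold GW
    rw [hW]
    unfold W1
    rw [show (l : ℂ) + 6 - a - 1 = (l : ℂ) + 5 - a by ring]
    have := Complex.I_ne_zero
    field_simp
  rw [← e1]
  exact h2

end Crest.Agent.R086.A4HP
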