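import Crest.Agent.R086.A4Main

/-!
Row 86, Part A4 (helper371): the sum criterion (helper522, 12712) as a lemma on `Dw`.
-/

set_option autoImplicit false

open Complex

namespace Crest.Agent.R086.A4

open JCx

local notation "cj" => (starRingEnd ℂ)

/-- conjugation symmetry -/
theorem Dw_conj (l : ℕ) (om rho : ℝ) (lam : ℂ) :
    Dw l om rho (cj lam) = cj (Dw l om rho lam) := by
  unfold Dw
  rw [Complex.conj_conj]
  simp only [map_add, map_mul, Complex.conj_conj]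
  ring

/-- it is enough to treat `Im lam ≥ 0`. -/
theorem Dw_ne_of_upper {l : ℕ} {om rho : ℝ} {P : ℝ → ℝ → Prop}
    (h : ∀ lam : ℂ, 0 ≤ lam.im → P lam.re |lam.im| → Dw l om rho lam ≠ 0) :
    ∀ lam : ℂ, P lam.re |lam.im| → Dw l om rho lam ≠ 0 := by
  intro lam hP
  rcases le_total 0 lam.im with h0 | h0
  · exact h lam h0 hP
  · have := h (cj lam) (by rw [conj_im]; linarith) (by rw [conj_re, conj_im, abs_neg]; exact hP)
    rw [Dw_conj] at this
    intro h1
    rw [h1] at this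
    exact this (map_zero _)

/-- **Sum criterion.** `M(lam) = B + i rho/2 - G(lam)`, `B = (l+5)/2`. -/
theorem dw_ne_of_forms {l : ℕ} {om rho : ℝ} {lam : ℂ} (g : ℂ) (cf cn : ℝ)
    (hWf : Lf l om rho 0 lam ≠ 0) (hWn : Lf l om rho 0 (cj lam) ≠ 0)
    (hf : (cj g * ((((l : ℝ) + 5) / 2 : ℝ) + I * rho / 2 - Gk l om rho 0 lam)).re ≤ -cf)
    (hn : (g * ((((l : ℝ) + 5) / 2 : ℝ) + I * rho / 2 - Gk l om rho 0 (cj lam))).re ≤ -cn)
    (hsum : -cf - cn < ((l : ℝ) + 5) * g.re) : Dw l om rho lam ≠ 0 := by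
  have e1 : Ly l om rho 0 lam = Gk l om rho 0 lam * Lf l om rho 0 lam := by
    unfold Gk; field_simp
  have e2 : Ly l om rho 0 (cj lam) = Gk l om rho 0 (cj lam) * Lf l om rho 0 (cj lam) := by
    unfold Gk; field_simp
  have e3 : Dw l om rho lam =
      Lf l om rho 0 lam * cj (Lf l om rho 0 (cj lam)) *
        (Gk l om rho 0 lam + cj (Gk l om rho 0 (cj lam))) := by
    unfold Dw
    rw [e1, e2, map_mul]; ring
  rw [e3]
  refine mul_ne_zero (mul_ne_zero hWf ?_) ?_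
  · simpa using hWn
  · intro h
    have e4 : Gk l om rho 0 lam = -cj (Gk l om rho 0 (cj lam)) := by linear_combination h
    rw [e4] at hf
    set x := (Gk l om rho 0 (cj lam)).re
    set y := (Gk l om rho 0 (cj lam)).im
    simp only [mul_re, sub_re, add_re, ofReal_re, conj_re, conj_im, neg_re, neg_im, sub_im, add_im,
      ofReal_im, div_ofNat_re, div_ofNat_im, I_re, I_im, mul_im] at hf hn
    nlinarith

/-- version with the derivative form of `hp` (helper11): `(g conj W ((B+i rho/2) W + rho W1)).re ≤ -c |W|²`. -/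
theorem form_quot {l : ℕ} {om rho : ℝ} {lam : ℂ} (g : ℂ) (c : ℝ)
    (hW : Lf l om rho 0 lam ≠ 0)
    (h : (g * cj (Lf l om rho 0 lam) * (((((l : ℝ) + 5) / 2 : ℝ) + I * rho / 2) * Lf l om rho 0 lam
      - Ly l om rho 0 lam)).re ≤ -c * ‖Lf l om rho 0 lam‖ ^ 2) :
    (g * ((((l : ℝ) + 5) / 2 : ℝ) + I * rho / 2 - Gk l om rho 0 lam)).re ≤ -c := by
  have e1 : Ly l om rho 0 lam = Gk l om rho 0 lam * Lf l om rho 0 lam := by
    unfold Gk; field_simp
  rw [e1] at h
  have e2 : g * cj (Lf l om rho 0 lam) * (((((l : ℝ) + 5) / 2 : ℝ) + I * rho / 2) * Lf l om rho 0 lam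
      - Gk l om rho 0 lam * Lf l om rho 0 lam) =
      ((‖Lf l om rho 0 lam‖ ^ 2 : ℝ) : ℂ) *
        (g * ((((l : ℝ) + 5) / 2 : ℝ) + I * rho / 2 - Gk l om rho 0 lam)) := by
    have : ((‖Lf l om rho 0 lam‖ ^ 2 : ℝ) : ℂ) = cj (Lf l om rho 0 lam) * Lf l om rho 0 lam := by
      rw [mul_comm, Complex.mul_conj, Complex.normSq_eq_norm_sq]
    rw [this]; ring
  rw [e2, re_ofReal_mul] at h
  have hpos : 0 < ‖Lf l om rho 0 lam‖ ^ 2 := by positivity
  have : ‖Lf l om rho 0 lam‖ ^ 2 *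
      ((g * ((((l : ℝ) + 5) / 2 : ℝ) + I * rho / 2 - Gk l om rho 0 lam)).re + c) ≤ 0 := by linarith
  by_contra hcon
  push Not at hcon
  have h2 : 0 < (g * ((((l : ℝ) + 5) / 2 : ℝ) + I * rho / 2 - Gk l om rho 0 lam)).re + c := by
    linarith
  have := mul_pos hpos h2
  linarith

end Crest.Agent.R086.A4
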