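import Mathlib
import Crest.Agent.R086.A4HPW
import Crest.Agent.R086.A4Sum
import Crest.Agent.R086.A4Chk

/-!
Row 86, part A4 (helper930): conversion of the rational certificates of `A4Chk` into the
hypotheses `Dat` of LEMMA HP (helper11), and the form inequality for `Lf`, `Gk` (helper371).
-/

set_option autoImplicit false

open Set Complex
open scoped ComplexConjugate

namespace Crest.Agent.R086.A4Conv

open A4HP A4Chk JCx A4

/-- the real form data: `q = B + 1/2 - Re a`, `t = Im a`, `g = gr + i gi`, `e = er + i ei`. -/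
noncomputable def mkF (B rho q t gr gi er ei : ℝ) : Fm ℝ :=
  ⟨(gr * er + gi * ei) * rho, gr, rho ^ 2, 2 * rho * er,
    B ^ 2 * (gr * er - gi * ei) * rho, B ^ 2 * gr,
    -(gr * er - gi * ei) * rho / 4 - q * (gi * er + gr * ei) + t * (gr * er - gi * ei),
    -((gr * er - gi * ei) * er - (gi * er + gr * ei) * ei) / 4⟩

theorem AA_eq {rho gr gi er ei : ℝ} (he : er ^ 2 + ei ^ 2 = 1) (B q t x : ℝ) :
    AA rho ⟨er, ei⟩ ⟨gr, gi⟩ x = (mkF B rho q t gr gi er ei).A x := by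
  unfold AA rr mkF Fm.A
  simp only [mul_re, mul_im, add_re, add_im, ofReal_re, ofReal_im, conj_re, conj_im]
  linear_combination (gr * x) * he

theorem PPx_eq {rho gr gi er ei : ℝ} (he : er ^ 2 + ei ^ 2 = 1) (h0 : 0 < rho) (he1 : 0 ≤ er)
    (B : ℝ) (a : ℂ) {x : ℝ} (hx : 0 ≤ x) :
    PPx B rho a ⟨er, ei⟩ ⟨gr, gi⟩ x = (mkF B rho (B + 1 / 2 - a.re) a.im gr gi er ei).P x := by
  have hN : 0 < rho ^ 2 + 2 * rho * er * x + x ^ 2 := by positivity
  have hN2 : (rho + er * x) * (rho + er * x) + (ei * x) * (ei * x)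
      = rho ^ 2 + 2 * rho * er * x + x ^ 2 := by linear_combination (x ^ 2) * he
  have hN3 : (rho + er * x) * (rho + er * x) + (ei * x) * (ei * x)
      = rho * rho + 2 * rho * er * x + x * x := by rw [hN2]; ring
  have hr : rr rho ⟨er, ei⟩ x = ⟨rho + er * x, ei * x⟩ := by
    apply Complex.ext <;> simp [rr]
  have h2 : ((B : ℂ) ^ 2 / rr rho ⟨er, ei⟩ x)
      = ⟨B ^ 2 * (rho + er * x) / (rho ^ 2 + 2 * rho * er * x + x ^ 2),
        -(B ^ 2 * (ei * x)) / (rho ^ 2 + 2 * rho * er * x + x ^ 2)⟩ := by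
    rw [hr]
    rw [div_eq_iff (by
      intro h
      have h1 := congrArg Complex.re h
      simp only [Complex.zero_re] at h1
      have : 0 ≤ er * x := mul_nonneg he1 hx
      linarith)]
    apply Complex.ext
    · simp only [Complex.mul_re, pow_two, Complex.ofReal_re, Complex.ofReal_im]
      rw [← hN3]
      have hN' : (rho + er * x) * (rho + er * x) + (ei * x) * (ei * x) ≠ 0 := by
        rw [hN2]; exact hN.ne'
      field_simp
      ring
    · simp only [Complex.mul_im, pow_two, Complex.ofReal_re, Complex.ofReal_im]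
      rw [← hN3]
      have hN' : (rho + er * x) * (rho + er * x) + (ei * x) * (ei * x) ≠ 0 := by
        rw [hN2]; exact hN.ne'
      field_simp
      ring
  unfold PPx
  rw [h2, hr]
  unfold mkF Fm.P Fm.R
  simp only [mul_re, mul_im, add_re, add_im, sub_re, sub_im, I_re, I_im, ofReal_re, ofReal_im,
    div_ofNat_re, div_ofNat_im, one_re, one_im]
  have hne := hN.ne'
  field_simp
  linear_combination (8 * B ^ 2 * gr * x) * he

/-- `Good` gives `Dat` -/
theorem dat_of_good {B rho gr gi er ei c0 : ℝ} {a : ℂ} (hB : 0 ≤ B) (h0 : 0 < rho)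
    (he : er ^ 2 + ei ^ 2 = 1) (he1 : 0 ≤ er) (he2 : 0 < ei) (hg : 0 ≤ gr)
    (hg2 : 0 ≤ gr * er + gi * ei)
    (hG : Good (mkF B rho (B + 1 / 2 - a.re) a.im gr gi er ei).A
      (mkF B rho (B + 1 / 2 - a.re) a.im gr gi er ei).P 0 c0) :
    ∃ c c' : ℝ → ℝ, c 0 = c0 ∧ Dat B rho a ⟨er, ei⟩ ⟨gr, gi⟩ c c' := by
  obtain ⟨c, c', hc0, hc, hd, ⟨K, hK0, hK⟩, hP, hQ⟩ := hG
  refine ⟨c, c', hc0, ⟨hB, h0, ?_, he1, he2, hc, hd, ⟨K, 1, ?_⟩, ?_, ?_, ?_⟩⟩
  · have : normSq (⟨er, ei⟩ : ℂ) = 1 := by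
      rw [normSq_mk]; linarith
    rw [Complex.norm_def, this, Real.sqrt_one]
  · intro x hx
    have := hK x hx
    rwa [abs_of_nonneg hx, ← pow_one (1 + x)] at this
  · intro x hx
    rw [AA_eq he B (B + 1 / 2 - a.re) a.im]
    unfold mkF Fm.A
    simp only
    positivity
  · intro x hx
    rw [PPx_eq he h0 he1 B a hx]
    exact hP x hx
  · intro x hx
    rw [PPx_eq he h0 he1 B a hx, AA_eq he B (B + 1 / 2 - a.re) a.im]
    exact hQ x hx

/-- the form inequality for the outgoing solution at `lam` -/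
theorem form_of_good {l : ℕ} {om rho gr gi er ei c0 : ℝ} {lam : ℂ} (hl : 0 ≤ lam.re)
    (h0 : 0 < rho) (he : er ^ 2 + ei ^ 2 = 1) (he1 : 0 ≤ er) (he2 : 0 < ei) (hg : 0 ≤ gr)
    (hg2 : 0 < gr * er + gi * ei)
    (hG : Good (mkF (((l : ℝ) + 5) / 2) rho (3 - lam.re) (lam.im - om) gr gi er ei).A
      (mkF (((l : ℝ) + 5) / 2) rho (3 - lam.re) (lam.im - om) gr gi er ei).P 0 c0) :
    Lf l om rho 0 lam ≠ 0 ∧
      ((⟨gr, gi⟩ : ℂ) * ((((l : ℝ) + 5) / 2 : ℝ) + I * rho / 2 - Gk l om rho 0 lam)).re ≤ -c0 := by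
  have hare : (ak l om lam 0).re = lam.re + (l : ℝ) / 2 := by
    unfold ak
    simp
  have haim : (ak l om lam 0).im = lam.im - om := by
    unfold ak
    simp
  have ha : -1 < (ak l om lam 0).re := by
    rw [hare]
    have : (0 : ℝ) ≤ l := Nat.cast_nonneg l
    linarith
  have hB : (0 : ℝ) ≤ ((l : ℝ) + 5) / 2 := by positivity
  have e1 : ((l : ℝ) + 5) / 2 + 1 / 2 - (ak l om lam 0).re = 3 - lam.re := by
    rw [hare]; ring
  obtain ⟨c, c', hc0, hD⟩ := dat_of_good (a := ak l om lam 0) (c0 := c0) hB h0 he he1 he2 hg hg2.le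
    (by rw [e1, haim]; exact hG)
  have hb : (l : ℂ) + 6 = 2 * (((((l : ℝ) + 5) / 2 : ℝ)) : ℂ) + 1 := by
    push_cast; ring
  have hA0 : 0 < AA rho ⟨er, ei⟩ ⟨gr, gi⟩ 0 := by
    rw [AA_eq he 0 0 0]
    unfold mkF Fm.A
    simp only [mul_zero, add_zero]
    positivity
  have hne : Lf l om rho 0 lam ≠ 0 := by
    unfold Lf
    exact hp_W_ne ha hb hD hA0
  refine ⟨hne, ?_⟩
  have h := hp ha hb hD
  rw [hc0] at h
  refine form_quot _ c0 hne ?_
  unfold Ly Lf
  convert h using 2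
  congr 2
  ring

/-! ### domination -/

/-- domination with `n0 ≤ 0` -/
structure Dom2 (k : ℝ) (F G : Fm ℝ) : Prop where
  A0 : F.A0 ≤ G.A0
  A0n : 0 ≤ F.A0
  A1 : F.A1 ≤ G.A1
  A1n : 0 ≤ F.A1
  k1 : 1 ≤ k
  r0 : G.r0 ≤ F.r0
  r0' : F.r0 ≤ k * G.r0
  r1 : G.r1 ≤ F.r1
  r1' : F.r1 ≤ k * G.r1
  r0p : 0 < G.r0
  r1n : 0 ≤ G.r1
  n0 : F.n0 ≤ k * G.n0
  n0n : F.n0 ≤ 0
  n1 : F.n1 ≤ G.n1
  n1n : 0 ≤ F.n1
  p0 : F.p0 ≤ G.p0
  p1 : F.p1 ≤ G.p1

theorem good_dom2 {k : ℝ} {F G : Fm ℝ} (h : Dom2 k F G) {c0 : ℝ} (hg : Good F.A F.P 0 c0) :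
    Good G.A G.P 0 c0 := by
  refine hg.mono ?_ ?_
  · intro x hx
    unfold Fm.A
    have h1 := mul_nonneg h.A1n hx
    have h2 := mul_le_mul_of_nonneg_right h.A1 hx
    constructor
    · linarith [h.A0n]
    · linarith [h.A0]
  · intro x hx
    unfold Fm.P
    have h3 := mul_le_mul_of_nonneg_right h.p1 hx
    have h4 := mul_le_mul_of_nonneg_right h.r1 hx
    have h4' := mul_le_mul_of_nonneg_right h.r1' hx
    have h5 := mul_nonneg h.r1n hx
    have hR : G.R x ≤ F.R x := by unfold Fm.R; linarith [h.r0]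
    have hRp : 0 < G.R x := by
      unfold Fm.R; have := h.r0p; positivity
    have hRF : 0 < F.R x := lt_of_lt_of_le hRp hR
    have hk0 : 0 < k := by linarith [h.k1]
    have hRk : F.R x ≤ k * G.R x := by
      unfold Fm.R
      have h6 : x ^ 2 ≤ k * x ^ 2 := by nlinarith [h.k1, sq_nonneg x]
      nlinarith [h.r0', h.k1]
    have e1 : F.n1 * x / F.R x ≤ G.n1 * x / G.R x := by
      have h7 := mul_nonneg h.n1n hx
      have h8 := mul_le_mul_of_nonneg_right h.n1 hx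
      exact div_le_div₀ (by linarith) h8 hRp hR
    have e2 : F.n0 / F.R x ≤ G.n0 / G.R x := by
      rcases le_or_gt 0 G.n0 with hn | hn
      · have : F.n0 / F.R x ≤ 0 := div_nonpos_of_nonpos_of_nonneg h.n0n hRF.le
        have : 0 ≤ G.n0 / G.R x := by positivity
        linarith
      · rw [div_le_div_iff₀ hRF hRp]
        have h9 : F.n0 * G.R x ≤ (k * G.n0) * G.R x := mul_le_mul_of_nonneg_right h.n0 hRp.le
        have h10 : G.n0 * (k * G.R x) ≤ G.n0 * F.R x := mul_le_mul_of_nonpos_left hRk hn.le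
        nlinarith
    rw [add_div, add_div]
    linarith [h.p0]

/-- box of `AData` -/
structure Box (om rho : ℝ) : Prop where
  r1 : 2.7050680 ≤ rho
  r2 : rho ≤ 2.7050684
  o1 : 0.3347760 ≤ om
  o2 : om ≤ 0.3347762

/-- rational data, `Re (g e) ≥ 0`; `B2 ≤ B²`, `q ≤ q0`, `t0 ≤ t`. -/
def mkP (B2 q0 t0 gr gi er ei : ℚ) : Fm ℚ :=
  let ur := gr * er - gi * ei
  let ui := gi * er + gr * ei
  ⟨(gr * er + gi * ei) * (27050680 / 10000000), gr, (27050684 / 10000000) ^ 2,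
    2 * (27050684 / 10000000) * er, B2 * ur * (27050680 / 10000000), B2 * gr,
    -ur * (27050684 / 10000000) / 4 - q0 * ui + t0 * ur, -(ur * er - ui * ei) / 4⟩

/-- rational data, `Re (g e) ≤ 0`; `B2 = B²`, `q ≤ q0`, `t ≤ t0`. -/
def mkN (B2 q0 t0 gr gi er ei : ℚ) : Fm ℚ :=
  let ur := gr * er - gi * ei
  let ui := gi * er + gr * ei
  ⟨(gr * er + gi * ei) * (27050680 / 10000000), gr, (27050684 / 10000000) ^ 2,
    2 * (27050684 / 10000000) * er,
    (27050684 / 27050680) ^ 2 * (B2 * ur * (27050684 / 10000000)), B2 * gr,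
    -ur * (27050680 / 10000000) / 4 - q0 * ui + t0 * ur, -(ur * er - ui * ei) / 4⟩

theorem domP {B rho q t : ℝ} {B2 q0 t0 gr gi er ei : ℚ} (h1 : 2.7050680 ≤ rho)
    (h2 : rho ≤ 2.7050684) (hg : 0 ≤ gr) (he1 : 0 ≤ er) (hA : 0 ≤ gr * er + gi * ei)
    (hur : 0 ≤ gr * er - gi * ei) (hui : 0 ≤ gi * er + gr * ei) (hB2 : 0 ≤ B2)
    (hB : (B2 : ℝ) ≤ B ^ 2) (hq : q ≤ q0)
    (ht : (t0 : ℝ) * (gr * er - gi * ei) ≤ t * (gr * er - gi * ei)) :
    (mkP B2 q0 t0 gr gi er ei).cast.Dom (mkF B rho q t gr gi er ei) := by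
  have hg' : (0 : ℝ) ≤ gr := by exact_mod_cast hg
  have he1' : (0 : ℝ) ≤ er := by exact_mod_cast he1
  have hA' : (0 : ℝ) ≤ gr * er + gi * ei := by exact_mod_cast hA
  have hur' : (0 : ℝ) ≤ gr * er - gi * ei := by exact_mod_cast hur
  have hui' : (0 : ℝ) ≤ gi * er + gr * ei := by exact_mod_cast hui
  have hB2' : (0 : ℝ) ≤ B2 := by exact_mod_cast hB2
  norm_num at h1 h2
  have hr0 : (0 : ℝ) < rho := by linarith
  have hB2r : (B2 : ℝ) * (gr * er - gi * ei) ≤ B ^ 2 * (gr * er - gi * ei) :=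
    mul_le_mul_of_nonneg_right hB hur'
  have hBn : (0 : ℝ) ≤ (B2 : ℝ) * (gr * er - gi * ei) := mul_nonneg hB2' hur'
  constructor
  · simp only [mkP, mkF, Fm.cast]
    push_cast
    nlinarith
  · simp only [mkP, Fm.cast]
    push_cast
    positivity
  · simp only [mkP, mkF, Fm.cast]; exact le_rfl
  · simp only [mkP, Fm.cast]; exact hg'
  · simp only [mkP, mkF, Fm.cast]
    push_cast
    exact pow_le_pow_left₀ hr0.le (by linarith) 2
  · simp only [mkP, mkF, Fm.cast]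
    push_cast
    nlinarith
  · simp only [mkF]; positivity
  · simp only [mkF]; positivity
  · simp only [mkP, mkF, Fm.cast]
    push_cast
    nlinarith [mul_le_mul hB2r (show (27050680 / 10000000 : ℝ) ≤ rho by linarith) (by norm_num)
      (hBn.trans hB2r)]
  · simp only [mkP, Fm.cast]
    push_cast
    positivity
  · simp only [mkP, mkF, Fm.cast]
    push_cast
    exact mul_le_mul_of_nonneg_right hB hg'
  · simp only [mkP, Fm.cast]
    push_cast
    positivity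
  · simp only [mkP, mkF, Fm.cast]
    push_cast
    have e1 := mul_le_mul_of_nonneg_right hq hui'
    nlinarith [mul_le_mul_of_nonneg_left (show rho ≤ 27050684 / 10000000 by linarith) hur']
  · simp only [mkP, mkF, Fm.cast]
    push_cast
    exact le_rfl

theorem domN {B rho q t : ℝ} {B2 q0 t0 gr gi er ei : ℚ} (h1 : 2.7050680 ≤ rho)
    (h2 : rho ≤ 2.7050684) (hg : 0 ≤ gr) (he1 : 0 ≤ er) (hA : 0 ≤ gr * er + gi * ei)
    (hur : gr * er - gi * ei ≤ 0) (hui : 0 ≤ gi * er + gr * ei) (hB2 : 0 ≤ B2)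
    (hB : (B2 : ℝ) = B ^ 2) (hq : q ≤ q0)
    (ht : (t0 : ℝ) * (gr * er - gi * ei) ≤ t * (gr * er - gi * ei)) :
    Dom2 ((27050684 / 27050680) ^ 2) (mkN B2 q0 t0 gr gi er ei).cast
      (mkF B rho q t gr gi er ei) := by
  have hg' : (0 : ℝ) ≤ gr := by exact_mod_cast hg
  have he1' : (0 : ℝ) ≤ er := by exact_mod_cast he1
  have hA' : (0 : ℝ) ≤ gr * er + gi * ei := by exact_mod_cast hA
  have hur' : (gr : ℝ) * er - gi * ei ≤ 0 := by exact_mod_cast hur
  have hui' : (0 : ℝ) ≤ gi * er + gr * ei := by exact_mod_cast hui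
  have hB2' : (0 : ℝ) ≤ B2 := by exact_mod_cast hB2
  norm_num at h1 h2
  have hr0 : (0 : ℝ) < rho := by linarith
  have hBn : (B2 : ℝ) * (gr * er - gi * ei) ≤ 0 := mul_nonpos_of_nonneg_of_nonpos hB2' hur'
  have hrr : (27050680 / 10000000 : ℝ) ^ 2 ≤ rho ^ 2 :=
    pow_le_pow_left₀ (by norm_num) (by linarith) 2
  constructor
  · simp only [mkN, mkF, Fm.cast]
    push_cast
    nlinarith
  · simp only [mkN, Fm.cast]
    push_cast
    positivity
  · simp only [mkN, mkF, Fm.cast]; exact le_rfl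
  · simp only [mkN, Fm.cast]; exact hg'
  · norm_num
  · simp only [mkN, mkF, Fm.cast]
    push_cast
    exact pow_le_pow_left₀ hr0.le (by linarith) 2
  · simp only [mkN, mkF, Fm.cast]
    push_cast
    nlinarith
  · simp only [mkN, mkF, Fm.cast]
    push_cast
    nlinarith
  · simp only [mkN, mkF, Fm.cast]
    push_cast
    have e1 : (2 * (27050684 / 10000000) : ℝ) ≤ (27050684 / 27050680) ^ 2 * (2 * rho) := by
      nlinarith
    have := mul_le_mul_of_nonneg_right e1 he1'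
    nlinarith
  · simp only [mkF]; positivity
  · simp only [mkF]; positivity
  · simp only [mkN, mkF, Fm.cast]
    push_cast
    rw [← hB]
    have e1 : (B2 : ℝ) * (gr * er - gi * ei) * (27050684 / 10000000) ≤
        (B2 : ℝ) * (gr * er - gi * ei) * rho :=
      mul_le_mul_of_nonpos_left (by linarith) hBn
    exact mul_le_mul_of_nonneg_left e1 (by norm_num)
  · simp only [mkN, Fm.cast]
    push_cast
    have : (B2 : ℝ) * (gr * er - gi * ei) * (27050684 / 10000000) ≤ 0 :=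
      mul_nonpos_of_nonpos_of_nonneg hBn (by norm_num)
    nlinarith
  · simp only [mkN, mkF, Fm.cast]
    push_cast
    rw [hB]
  · simp only [mkN, Fm.cast]
    push_cast
    positivity
  · simp only [mkN, mkF, Fm.cast]
    push_cast
    have e1 := mul_le_mul_of_nonneg_right hq hui'
    nlinarith [mul_le_mul_of_nonpos_left (show (27050680 / 10000000 : ℝ) ≤ rho by linarith) hur']
  · simp only [mkN, mkF, Fm.cast]
    push_cast
    exact le_rfl

end Crest.Agent.R086.A4Conv
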