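import Crest.Agent.R086.A4Main
import Crest.Agent.R086.ABIface

/-!
Row 86, Part A4 (helper371), final form: small rectangles (helper522's plan 12712) and the export
`wr_ne`, `zero*`, `simple*` of `ABIface.AData`.
-/

set_option autoImplicit false

open Complex Filter Set Topology

namespace Crest.Agent.R086.A4

open JCx

local notation "cj" => (starRingEnd ℂ)

noncomputable section

/-- zero-freeness in a general rectangle from Theorem V and the certificate. -/
theorem rectR {l : ℕ} {om rho x0 x1 T : ℝ} {M : ℕ} (hr : 0 < rho) (hom : om ≠ 0)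
    (hJ : J (1 - I * om) (5 + I * om) rho = 0) (hV : ThmV l om rho) (hM : 3 ≤ M)
    (hx0 : -1 / 2 < x0) (hx1 : x0 ≤ 0) (hx15 : x0 < x1) (hx2 : l = 0 → x0 < 0 ∧ 1 < x1)
    (hx3 : l = 1 → 1 / 2 < x1) (hT : 0 < T) (hC : CertR l om rho x0 x1 T M) :
    (∀ lam : ℂ, x0 ≤ lam.re → lam.re ≤ x1 → |lam.im| ≤ T → lam ∉ Zs l → Dw l om rho lam ≠ 0) ∧
      ∀ ζ ∈ Zs l, deriv (Dw l om rho) ζ ≠ 0 := by
  classical
  set U : Set ℂ := {lam : ℂ | -1 / 2 < lam.re} with hUd
  have hU : IsOpen U := isOpen_lt continuous_const continuous_re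
  set w : ℂ → ℂ := fun lam =>
    Wr l om rho lam (Gk l om rho 3 lam) (Gk l om rho 3 (cj lam)) with hwd
  have hl0 : (0 : ℝ) ≤ l := Nat.cast_nonneg l
  have hne3 : ∀ lam : ℂ, -1 / 2 ≤ lam.re → Lf l om rho 3 lam ≠ 0 := by
    intro lam hlam
    have := (hV (lam + 3) (by simp; linarith)).1
    have e := Lf_add l om rho lam 3
    push_cast at e
    rwa [e] at this
  have hk : ∀ (k : ℕ) (lam : ℂ), lam ∈ U → -1 < (ak l om lam k).re := by
    intro k lam hlam
    rw [ak_re]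
    have h1 : -1 / 2 < lam.re := hlam
    have hk0 : (0 : ℝ) ≤ k := Nat.cast_nonneg k
    linarith
  have hG : ∀ lam ∈ U, DifferentiableAt ℂ (Gk l om rho 3) lam := by
    intro lam hlam
    unfold Gk
    exact (Ly_diff hr (hk 3 lam hlam)).div (Lf_diff hr (hk 3 lam hlam))
      (hne3 lam (le_of_lt hlam))
  have hakd : ∀ (k : ℕ) (lam : ℂ), DifferentiableAt ℂ (fun lam => ak l om lam k) lam := by
    intro k lam; unfold ak; fun_prop
  have huy : ∀ lam ∈ U, DifferentiableAt ℂ (fun lam => uy l om rho lam (Gk l om rho 3 lam)) lam := by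
    intro lam hlam
    have hg := hG lam hlam
    have d1 := hakd 1 lam
    have d2 := hakd 2 lam
    have d3 := hakd 3 lam
    unfold uy stp
    fun_prop
  have hcU : ∀ lam ∈ U, cj lam ∈ U := by
    intro lam hlam
    show -1 / 2 < (cj lam).re
    rw [conj_re]; exact hlam
  have hw : DifferentiableOn ℂ w U := by
    intro lam hlam
    refine DifferentiableAt.differentiableWithinAt ?_
    have h1 := huy lam hlam
    have h2 := huy (cj lam) (hcU lam hlam)
    have a1 : DifferentiableAt ℂ (fun lam => (uy l om rho lam (Gk l om rho 3 lam)).1) lam :=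
      h1.fst
    have a2 : DifferentiableAt ℂ (fun lam => (uy l om rho lam (Gk l om rho 3 lam)).2) lam :=
      h1.snd
    have b1 : DifferentiableAt ℂ
        (fun lam => cj ((uy l om rho (cj lam) (Gk l om rho 3 (cj lam))).1)) lam :=
      conj_diff (f := fun lam => (uy l om rho lam (Gk l om rho 3 lam)).1) h2.fst
    have b2 : DifferentiableAt ℂ
        (fun lam => cj ((uy l om rho (cj lam) (Gk l om rho 3 (cj lam))).2)) lam :=
      conj_diff (f := fun lam => (uy l om rho lam (Gk l om rho 3 lam)).2) h2.snd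
    exact (a2.mul b1).add (b2.mul a1)
  -- the factor
  set K : ℂ → ℂ := fun lam => Cf l om rho lam * cj (Cf l om rho (cj lam)) with hKd
  have hDw : ∀ lam ∈ U, Dw l om rho lam = K lam * w lam := by
    intro lam hlam
    have h1 : -1 / 2 < lam.re := hlam
    exact Dw_eq hr (by linarith) (hne3 lam h1.le) (hne3 (cj lam) (by rw [conj_re]; exact h1.le))
  have hak0 : ∀ (k : ℕ) (lam : ℂ), lam ∈ U → ak l om lam (k + 1) ≠ 0 := by
    intro k lam hlam h0
    have h1 := congrArg Complex.re h0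
    rw [ak_re] at h1
    have h2 : -1 / 2 < lam.re := hlam
    have hk0 : (0 : ℝ) ≤ k := Nat.cast_nonneg k
    push_cast at h1
    simp only [zero_re] at h1
    linarith
  have hCne : ∀ lam ∈ U, Cf l om rho lam ≠ 0 := by
    intro lam hlam
    unfold Cf
    exact mul_ne_zero (mul_ne_zero (mul_ne_zero (div_ne_zero I_ne_zero (hak0 0 lam hlam))
      (div_ne_zero I_ne_zero (hak0 1 lam hlam))) (div_ne_zero I_ne_zero (hak0 2 lam hlam)))
      (hne3 lam (le_of_lt hlam))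
  have hKne : ∀ lam ∈ U, K lam ≠ 0 := by
    intro lam hlam
    refine mul_ne_zero (hCne lam hlam) ?_
    simpa using hCne (cj lam) (hcU lam hlam)
  have hCd : ∀ lam ∈ U, DifferentiableAt ℂ (Cf l om rho) lam := by
    intro lam hlam
    have d1 := hakd 1 lam
    have d2 := hakd 2 lam
    have d3 := hakd 3 lam
    have n1 := hak0 0 lam hlam
    have n2 := hak0 1 lam hlam
    have n3 := hak0 2 lam hlam
    have hL := Lf_diff (l := l) (om := om) hr (hk 3 lam hlam)
    unfold Cf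
    exact ((((differentiableAt_const _).div d1 n1).mul ((differentiableAt_const _).div d2 n2)).mul
      ((differentiableAt_const _).div d3 n3)).mul hL
  have hKdiff : ∀ lam ∈ U, DifferentiableAt ℂ K lam := fun lam hlam =>
    (hCd lam hlam).mul (conj_diff (hCd (cj lam) (hcU lam hlam)))
  have hRsub : Icc x0 x1 ×ℂ Icc (-T) T ⊆ U := by
    intro lam hlam
    rw [mem_reProdIm] at hlam
    show -1 / 2 < lam.re
    linarith [hlam.1.1]
  have hZR : ∀ ζ ∈ Zs l, ζ ∈ A4Rect.Rc x0 x1 T := by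
    intro ζ hζ
    unfold A4Rect.Rc
    rw [mem_reProdIm, mem_Ioo, mem_Ioo]
    match l, hx2, hx3, hζ with
    | 0, hx2, _, hζ =>
      have hζ' : ζ = 0 ∨ ζ = 1 := by simpa [Zs] using hζ
      have := hx2 rfl
      rcases hζ' with rfl | rfl
      · simp only [zero_re, zero_im]; exact ⟨⟨this.1, by linarith [this.2]⟩, by linarith, hT⟩
      · simp only [one_re, one_im]; exact ⟨⟨by linarith, this.2⟩, by linarith, hT⟩
    | 1, _, hx3, hζ =>
      have hζ' : ζ = 1 / 2 := by simpa [Zs] using hζ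
      subst hζ'
      have e1 : (1 / 2 : ℂ).re = 1 / 2 := by norm_num
      have e2 : (1 / 2 : ℂ).im = 0 := by norm_num
      rw [e1, e2]
      exact ⟨⟨by linarith, hx3 rfl⟩, by linarith, hT⟩
    | (n + 2), _, _, hζ => simp [Zs] at hζ
  have hwz : ∀ ζ ∈ Zs l, w ζ = 0 := by
    intro ζ hζ
    have h1 := Dw_zero (l := l) hr hom hJ ζ hζ
    have hζU : ζ ∈ U := by
      have := hZR ζ hζ
      unfold A4Rect.Rc at this
      rw [mem_reProdIm] at this
      show -1 / 2 < ζ.re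
      linarith [this.1.1]
    rw [hDw ζ hζU] at h1
    exact (mul_eq_zero.1 h1).resolve_left (hKne ζ hζU)
  obtain ⟨r1, r2⟩ := A4Rect.zeros (W := w) (p := pp l) hx15 hT hU hRsub hw
    (pp_diff l).differentiableOn
    (fun lam hlam => pp_ne l (by
      rw [mem_reProdIm] at hlam
      linarith [hlam.1.1])) (Zs l) hZR hwz (by
      intro lam hlam
      obtain ⟨hm, hcase⟩ := A4Rect.mem_frontier hx15 hT hlam
      rw [mem_reProdIm, mem_Icc, mem_Icc] at hm
      have hBd : lam ∈ BdR x0 x1 T := by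
        have hab : |lam.im| ≤ T := abs_le.2 hm.2
        rcases hcase with h | h | h | h
        · exact Or.inl ⟨h, hab⟩
        · exact Or.inr (Or.inr ⟨h, hab⟩)
        · refine Or.inr (Or.inl ⟨?_, hm.1.1, hm.1.2⟩)
          rw [h, abs_neg, abs_of_pos hT]
        · refine Or.inr (Or.inl ⟨?_, hm.1.1, hm.1.2⟩)
          rw [h, abs_of_pos hT]
      have hre : -1 / 2 ≤ lam.re := by linarith [hm.1.1]
      have key := hC lam hBd _ _ (chain hr hV hre hM) (chain hr hV (lam := cj lam)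
        (by rw [conj_re]; exact hre) hM)
      rw [PP_eq] at key
      exact key)
  constructor
  · intro lam h1 h2 h3 h4
    have hmem : lam ∈ Icc x0 x1 ×ℂ Icc (-T) T := by
      rw [mem_reProdIm]
      exact ⟨⟨h1, h2⟩, abs_le.1 h3⟩
    rw [hDw lam (hRsub hmem)]
    exact mul_ne_zero (hKne lam (hRsub hmem)) (r1 lam hmem h4)
  · intro ζ hζ
    have hζU : ζ ∈ U := by
      have := hZR ζ hζ
      unfold A4Rect.Rc at this
      rw [mem_reProdIm] at this
      show -1 / 2 < ζ.re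
      linarith [this.1.1]
    have hev : Dw l om rho =ᶠ[𝓝 ζ] fun lam => K lam * w lam := by
      filter_upwards [hU.mem_nhds hζU] with lam hlam
      exact hDw lam hlam
    rw [hev.deriv_eq]
    have hwd' : DifferentiableAt ℂ w ζ := (hw ζ hζU).differentiableAt (hU.mem_nhds hζU)
    have hd := ((hKdiff ζ hζU).hasDerivAt.mul hwd'.hasDerivAt).deriv
    have e3 : (K * w) = fun lam => K lam * w lam := rfl
    rw [e3] at hd
    rw [hd, hwz ζ hζ, mul_zero, zero_add]
    exact mul_ne_zero (hKne ζ hζU) (r2 ζ hζ)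


/-- What is known outside the small rectangles (helper522/11/523, sum criterion). -/
structure Outside (om rho : ℝ) : Prop where
  o0 : ∀ lam : ℂ, 0 ≤ lam.re → (3 / 2 ≤ lam.re ∨ 3 ≤ |lam.im|) → Dw 0 om rho lam ≠ 0
  o1 : ∀ lam : ℂ, 0 ≤ lam.re → (1 ≤ lam.re ∨ 5 / 2 ≤ |lam.im|) → Dw 1 om rho lam ≠ 0
  o2 : ∀ lam : ℂ, 0 ≤ lam.re → (1 / 2 ≤ lam.re ∨ 2 ≤ |lam.im|) → Dw 2 om rho lam ≠ 0
  o3 : ∀ l : ℕ, 3 ≤ l → ∀ lam : ℂ, 0 ≤ lam.re → Dw l om rho lam ≠ 0

/-- The three certificates. -/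
structure Certs (om rho : ℝ) : Prop where
  c0 : ∃ M : ℕ, 3 ≤ M ∧ CertR 0 om rho (-1 / 20) (3 / 2) 3 M
  c1 : ∃ M : ℕ, 3 ≤ M ∧ CertR 1 om rho 0 1 (5 / 2) M
  c2 : ∃ M : ℕ, 3 ≤ M ∧ CertR 2 om rho 0 (1 / 2) 2 M

/-- **A4**: all zeros of `Dw` in the closed right half plane. -/
theorem all {om rho : ℝ} (hr : 0 < rho) (hom : om ≠ 0)
    (hJ : J (1 - I * om) (5 + I * om) rho = 0) (hV : ∀ l, l ≤ 2 → ThmV l om rho)
    (hC : Certs om rho) (hO : Outside om rho) :
    (∀ (l : ℕ) (lam : ℂ), 0 ≤ lam.re → lam ∉ Zs l → Dw l om rho lam ≠ 0) ∧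
      ∀ (l : ℕ), ∀ ζ ∈ Zs l, Dw l om rho ζ = 0 ∧ deriv (Dw l om rho) ζ ≠ 0 := by
  obtain ⟨M0, hM0, hC0⟩ := hC.c0
  obtain ⟨M1, hM1, hC1⟩ := hC.c1
  obtain ⟨M2, hM2, hC2⟩ := hC.c2
  have r0 := rectR hr hom hJ (hV 0 (by norm_num)) hM0 (by norm_num) (by norm_num) (by norm_num)
    (fun _ => ⟨by norm_num, by norm_num⟩) (fun h => absurd h (by norm_num)) (by norm_num) hC0
  have r1 := rectR hr hom hJ (hV 1 (by norm_num)) hM1 (by norm_num) (by norm_num) (by norm_num)
    (fun h => absurd h (by norm_num)) (fun _ => by norm_num) (by norm_num) hC1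
  have r2 := rectR hr hom hJ (hV 2 (by norm_num)) hM2 (by norm_num) (by norm_num) (by norm_num)
    (fun h => absurd h (by norm_num)) (fun h => absurd h (by norm_num)) (by norm_num) hC2
  constructor
  · intro l lam h1 h2
    match l, h2 with
    | 0, h2 =>
      by_cases hcase : 3 / 2 ≤ lam.re ∨ 3 ≤ |lam.im|
      · exact hO.o0 lam h1 hcase
      · push Not at hcase
        exact r0.1 lam (by linarith) hcase.1.le hcase.2.le h2
    | 1, h2 =>
      by_cases hcase : 1 ≤ lam.re ∨ 5 / 2 ≤ |lam.im|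
      · exact hO.o1 lam h1 hcase
      · push Not at hcase
        exact r1.1 lam (by linarith) hcase.1.le hcase.2.le h2
    | 2, h2 =>
      by_cases hcase : 1 / 2 ≤ lam.re ∨ 2 ≤ |lam.im|
      · exact hO.o2 lam h1 hcase
      · push Not at hcase
        exact r2.1 lam (by linarith) hcase.1.le hcase.2.le h2
    | (n + 3), _ => exact hO.o3 (n + 3) (by omega) lam h1
  · intro l ζ hζ
    refine ⟨Dw_zero hr hom hJ ζ hζ, ?_⟩
    match l, hζ with
    | 0, hζ => exact r0.2 ζ hζ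
    | 1, hζ => exact r1.2 ζ hζ
    | (n + 2), hζ => simp [Zs] at hζ

theorem Wr_eq_Dw (l : ℕ) (om R : ℝ) (hR : 0 < R) (lam : ℂ) :
    A.Wr l om R lam = -(R : ℂ) ^ (2 * l) * (2 / R) * Dw l om (R ^ 2 / 4) lam := by
  rw [A.Wr_eq]
  unfold Dw Lf Ly ak
  have hR' : (R : ℂ) ≠ 0 := by exact_mod_cast hR.ne'
  simp only [Nat.cast_zero, add_zero, map_neg, map_mul, conj_ofReal]
  rw [show lam + (l : ℂ) / 2 - I * om = lam + l / 2 - I * om from rfl]
  push_cast
  field_simp
  ring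

/-- the profile equation in terms of `fo1`. -/
theorem J_zero_of_fo1 {om R : ℝ} (hR : 0 < R) (hom : om ≠ 0)
    (h : A.fo1 0 (-(I * om)) R = 0) :
    J (1 - I * om) (5 + I * om) ((R ^ 2 / 4 : ℝ) : ℂ) = 0 := by
  unfold A.fo1 W1 at h
  have hR' : (R : ℂ) ≠ 0 := by exact_mod_cast hR.ne'
  have hom' : (om : ℂ) ≠ 0 := by exact_mod_cast hom
  simp only [Nat.cast_zero, zero_div, zero_mul, pow_zero, one_mul, add_zero, zero_add] at h
  rw [show -(I * (om : ℂ)) + 1 = 1 - I * om by ring,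
    show (6 : ℂ) - -(I * om) - 1 = 5 + I * om by ring] at h
  rcases mul_eq_zero.1 h with h1 | h1
  · exact absurd h1 (div_ne_zero hR' (by norm_num))
  · rcases mul_eq_zero.1 h1 with h2 | h2
    · exfalso
      have : I * -(I * (om : ℂ)) = om := by linear_combination (-(om : ℂ)) * I_sq
      rw [this] at h2
      exact hom' h2
    · exact h2

/-- **Export to `ABIface.AData`.** -/
theorem export_wr {om R : ℝ} (hR : 0 < R) (hom : om ≠ 0)
    (hf : A.fo1 0 (-(I * om)) R = 0) (hV : ∀ l, l ≤ 2 → ThmV l om (R ^ 2 / 4))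
    (hC : Certs om (R ^ 2 / 4)) (hO : Outside om (R ^ 2 / 4)) :
    (∀ (l : ℕ) (lam : ℂ), 0 ≤ lam.re → A.Wr l om R lam = 0 →
      (l = 0 ∧ (lam = 0 ∨ lam = 1)) ∨ (l = 1 ∧ lam = 1 / 2)) ∧
    A.Wr 0 om R 0 = 0 ∧ A.Wr 0 om R 1 = 0 ∧ A.Wr 1 om R (1 / 2) = 0 ∧
    (∃ w : ℂ, w ≠ 0 ∧ HasDerivAt (A.Wr 0 om R) w 0) ∧
    (∃ w : ℂ, w ≠ 0 ∧ HasDerivAt (A.Wr 0 om R) w 1) ∧
    (∃ w : ℂ, w ≠ 0 ∧ HasDerivAt (A.Wr 1 om R) w (1 / 2)) := by
  have hr : 0 < R ^ 2 / 4 := by positivity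
  obtain ⟨h1, h2⟩ := all hr hom (J_zero_of_fo1 hR hom hf) hV hC hO
  have hR' : (R : ℂ) ≠ 0 := by exact_mod_cast hR.ne'
  have hc : ∀ l : ℕ, -(R : ℂ) ^ (2 * l) * (2 / R) ≠ 0 := by
    intro l
    exact mul_ne_zero (neg_ne_zero.2 (pow_ne_zero _ hR')) (div_ne_zero (by norm_num) hR')
  have hz : ∀ (l : ℕ), ∀ ζ ∈ Zs l, A.Wr l om R ζ = 0 := by
    intro l ζ hζ
    rw [Wr_eq_Dw l om R hR, (h2 l ζ hζ).1, mul_zero]
  have hd : ∀ (l : ℕ), ∀ ζ ∈ Zs l, ∃ w : ℂ, w ≠ 0 ∧ HasDerivAt (A.Wr l om R) w ζ := by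
    intro l ζ hζ
    have hne := (h2 l ζ hζ).2
    have hda : DifferentiableAt ℂ (Dw l om (R ^ 2 / 4)) ζ :=
      differentiableAt_of_deriv_ne_zero hne
    refine ⟨-(R : ℂ) ^ (2 * l) * (2 / R) * deriv (Dw l om (R ^ 2 / 4)) ζ,
      mul_ne_zero (hc l) hne, ?_⟩
    have := hda.hasDerivAt.const_mul (-(R : ℂ) ^ (2 * l) * (2 / R))
    have e : A.Wr l om R = fun lam => -(R : ℂ) ^ (2 * l) * (2 / R) * Dw l om (R ^ 2 / 4) lam :=
      funext fun lam => Wr_eq_Dw l om R hR lam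
    rw [e]; exact this
  refine ⟨?_, hz 0 0 (by simp [Zs]), hz 0 1 (by simp [Zs]), hz 1 (1 / 2) (by simp [Zs]),
    hd 0 0 (by simp [Zs]), hd 0 1 (by simp [Zs]), hd 1 (1 / 2) (by simp [Zs])⟩
  intro l lam hlam h0
  by_contra hcon
  push Not at hcon
  have hnot : lam ∉ Zs l := by
    intro hmem
    match l, hcon, hmem with
    | 0, hcon, hmem =>
      have : lam = 0 ∨ lam = 1 := by simpa [Zs] using hmem
      have h3 := hcon.1 rfl
      rcases this with h | h
      · exact h3.1 h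
      · exact h3.2 h
    | 1, hcon, hmem =>
      have : lam = 1 / 2 := by simpa [Zs] using hmem
      exact hcon.2 rfl this
    | (n + 2), _, hmem => simp [Zs] at hmem
  rw [Wr_eq_Dw l om R hR] at h0
  exact (h1 l lam hlam hnot) ((mul_eq_zero.1 h0).resolve_left (hc l))

end

end Crest.Agent.R086.A4
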