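import Mathlib
import Crest.Agent.R086.A4Conv
import Crest.Agent.R086.A4Main2

/-!
Row 86, part A4 (helper930): the rows `l = 0, 1` of the outside region (`Outside.o0`, `Outside.o1`
of helper371) from the rational certificates (checker of helper523) and LEMMA HP (helper11).
-/

set_option autoImplicit false

open Set Complex
open scoped ComplexConjugate

namespace Crest.Agent.R086.A4Conv

open A4HP A4Chk JCx A4

theorem formP {l : ℕ} {om rho : ℝ} {lam : ℂ} {B2 q0 t0 gr gi er ei sT c0 : ℚ} {L : List (ℚ × ℚ)}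
    (hbox : Box om rho) (hl : 0 ≤ lam.re)
    (hchk : chk (mkP B2 q0 t0 gr gi er ei) sT 0 c0 L = true)
    (he : er ^ 2 + ei ^ 2 = 1) (he1 : 0 ≤ er) (he2 : 0 < ei) (hg : 0 ≤ gr)
    (hg2 : 0 < gr * er + gi * ei) (hur : 0 ≤ gr * er - gi * ei) (hui : 0 ≤ gi * er + gr * ei)
    (hB2 : 0 ≤ B2) (hB : (B2 : ℝ) ≤ (((l : ℝ) + 5) / 2) ^ 2) (hq : 3 - lam.re ≤ q0)
    (ht : (t0 : ℝ) * (gr * er - gi * ei) ≤ (lam.im - om) * (gr * er - gi * ei)) :
    Lf l om rho 0 lam ≠ 0 ∧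
      ((⟨(gr : ℝ), (gi : ℝ)⟩ : ℂ) *
        ((((l : ℝ) + 5) / 2 : ℝ) + I * rho / 2 - Gk l om rho 0 lam)).re ≤ -(c0 : ℝ) := by
  have h1 := hbox.r1
  have h0 : 0 < rho := by norm_num at h1; linarith
  refine form_of_good (er := er) (ei := ei) hl h0 (by exact_mod_cast he) (by exact_mod_cast he1)
    (by exact_mod_cast he2) (by exact_mod_cast hg) (by exact_mod_cast hg2) ?_
  have hG := chk_sound _ _ _ _ _ hchk
  rw [Rat.cast_zero] at hG
  exact Good.dom (domP hbox.r1 hbox.r2 hg he1 hg2.le hur hui hB2 hB hq ht) hG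

theorem formN {l : ℕ} {om rho : ℝ} {lam : ℂ} {B2 q0 t0 gr gi er ei sT c0 : ℚ} {L : List (ℚ × ℚ)}
    (hbox : Box om rho) (hl : 0 ≤ lam.re)
    (hchk : chk (mkN B2 q0 t0 gr gi er ei) sT 0 c0 L = true)
    (he : er ^ 2 + ei ^ 2 = 1) (he1 : 0 ≤ er) (he2 : 0 < ei) (hg : 0 ≤ gr)
    (hg2 : 0 < gr * er + gi * ei) (hur : gr * er - gi * ei ≤ 0) (hui : 0 ≤ gi * er + gr * ei)
    (hB2 : 0 ≤ B2) (hB : (B2 : ℝ) = (((l : ℝ) + 5) / 2) ^ 2) (hq : 3 - lam.re ≤ q0)
    (ht : (t0 : ℝ) * (gr * er - gi * ei) ≤ (lam.im - om) * (gr * er - gi * ei)) :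
    Lf l om rho 0 lam ≠ 0 ∧
      ((⟨(gr : ℝ), (gi : ℝ)⟩ : ℂ) *
        ((((l : ℝ) + 5) / 2 : ℝ) + I * rho / 2 - Gk l om rho 0 lam)).re ≤ -(c0 : ℝ) := by
  have h1 := hbox.r1
  have h0 : 0 < rho := by norm_num at h1; linarith
  refine form_of_good (er := er) (ei := ei) hl h0 (by exact_mod_cast he) (by exact_mod_cast he1)
    (by exact_mod_cast he2) (by exact_mod_cast hg) (by exact_mod_cast hg2) ?_
  have hG := chk_sound _ _ _ _ _ hchk
  rw [Rat.cast_zero] at hG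
  exact good_dom2 (domN hbox.r1 hbox.r2 hg he1 hg2.le hur hui hB2 hB hq ht) hG

theorem row {l : ℕ} {om rho : ℝ} {lam : ℂ} {gr gi gi' cf cn : ℚ} (hgi : gi' = -gi)
    (hf : Lf l om rho 0 lam ≠ 0 ∧ ((⟨(gr : ℝ), (gi' : ℝ)⟩ : ℂ) *
        ((((l : ℝ) + 5) / 2 : ℝ) + I * rho / 2 - Gk l om rho 0 lam)).re ≤ -(cf : ℝ))
    (hn : Lf l om rho 0 (conj lam) ≠ 0 ∧ ((⟨(gr : ℝ), (gi : ℝ)⟩ : ℂ) *
        ((((l : ℝ) + 5) / 2 : ℝ) + I * rho / 2 - Gk l om rho 0 (conj lam))).re ≤ -(cn : ℝ))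
    (hsum : -(cf : ℝ) - cn < ((l : ℝ) + 5) * gr) : Dw l om rho lam ≠ 0 := by
  refine dw_ne_of_forms (⟨(gr : ℝ), (gi : ℝ)⟩ : ℂ) cf cn hf.1 hn.1 ?_ hn.2 (by simpa using hsum)
  have e : conj (⟨(gr : ℝ), (gi : ℝ)⟩ : ℂ) = ⟨(gr : ℝ), (gi' : ℝ)⟩ := by
    apply Complex.ext
    · simp
    · simp [hgi]
  rw [e]
  exact hf.2

theorem chk_l0s_f : chk (mkP (25 / 4) (3 / 2) (-1673881 / 5000000) (40 / 41) (-9 / 41) (7 / 25) (24 / 25)) (8 / 25) 0 (-67 / 125)
    [((1 / 10), (61 / 25)), ((3 / 20), (49 / 50)), ((1 / 4), (31 / 50)), ((1 / 4), (21 / 50)),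
    ((1 / 4), (17 / 50)), ((1 / 2), (7 / 25)), ((1 / 2), (1 / 5)), (1, (9 / 50)), (1, (11 /
    50)), (2, (3 / 10)), (2, (19 / 50))] = true := by
  decide +kernel

theorem chk_l0s_n : chk (mkP (25 / 4) (3 / 2) 0 (40 / 41) (9 / 41) (9 / 41) (40 / 41)) (2 / 5) 0 (-313 / 200)
    [((1 / 4), (91 / 25)), ((1 / 4), (79 / 50)), ((1 / 2), (27 / 25)), (1, (17 / 25)), (2, (12 /
    25)), (4, (21 / 50))] = true := by
  decide +kernel

theorem chk_l0m_f : chk (mkP (25 / 4) 3 (13326119 / 5000000) (15 / 17) (-8 / 17) (33 / 65) (56 / 65)) (1 / 50) 0 (31 / 50)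
    [((1 / 4), (69 / 50)), ((1 / 4), (41 / 50)), ((1 / 2), (27 / 50)), (1, (7 / 25)), (2, (1 /
    10)), (4, (3 / 25))] = true := by
  decide +kernel

theorem chk_l0m_n : chk (mkN (25 / 4) 3 (-416847 / 125000) (15 / 17) (8 / 17) 0 1) (37 / 100) 0 (-521 / 250)
    [((1 / 10), (134 / 25)), ((3 / 20), (181 / 50)), ((1 / 4), (119 / 50)), ((1 / 4), (77 /
    50)), ((1 / 4), (59 / 50)), ((1 / 2), (49 / 50)), ((1 / 2), (37 / 50)), (1, (3 / 5)), (1,
    (23 / 50)), (2, (2 / 5)), (2, (12 / 25))] = true := by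
  decide +kernel

theorem chk_l1s_f : chk (mkP 9 2 (-1673881 / 5000000) (40 / 41) (-9 / 41) (7 / 25) (24 / 25)) (13 / 50) 0 (-49 / 200)
    [((1 / 4), (26 / 25)), ((1 / 4), (23 / 50)), ((1 / 2), (3 / 10)), (1, (3 / 25)), (2, (3 /
    50)), (4, (8 / 25))] = true := by
  decide +kernel

theorem chk_l1s_n : chk (mkP 9 2 0 (40 / 41) (9 / 41) (9 / 41) (40 / 41)) (2 / 5) 0 (-1627 / 500)
    [((1 / 10), (279 / 25)), ((3 / 20), (138 / 25)), ((1 / 4), (29 / 10)), ((1 / 4), (79 / 50)),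
    ((1 / 4), (28 / 25)), ((1 / 2), (43 / 50)), ((1 / 2), (3 / 5)), (1, (12 / 25)), (1, (2 /
    5)), (2, (19 / 50)), (2, (21 / 50))] = true := by
  decide +kernel

theorem chk_l1m_f : chk (mkP 9 3 (10826119 / 5000000) (15 / 17) (-8 / 17) (33 / 65) (56 / 65)) (1 / 20) 0 (67 / 100)
    [((1 / 4), (73 / 50)), ((1 / 4), (39 / 50)), ((1 / 2), (9 / 25)), (1, (-7 / 50)), (2, (-22 /
    25)), (4, (-6 / 25))] = true := by
  decide +kernel

theorem chk_l1m_n : chk (mkN 9 3 (-354347 / 125000) (15 / 17) (8 / 17) 0 1) (2 / 5) 0 (-3653 / 1000)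
    [((1 / 40), (329 / 25)), ((1 / 40), (279 / 25)), ((1 / 40), (241 / 25)), ((1 / 40), (211 /
    25)), ((1 / 20), (187 / 25)), ((1 / 20), (299 / 50)), ((1 / 20), (247 / 50)), ((1 / 20), (21
    / 5)), ((1 / 20), (183 / 50)), ((1 / 20), (161 / 50)), ((1 / 10), (29 / 10)), ((1 / 10),
    (119 / 50)), ((1 / 10), (51 / 25)), ((1 / 10), (89 / 50)), ((1 / 10), (8 / 5)), ((1 / 10),
    (36 / 25)), ((1 / 4), (33 / 25)), ((1 / 4), (27 / 25)), ((1 / 4), (23 / 25)), ((1 / 4), (39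
    / 50)), ((1 / 2), (17 / 25)), ((1 / 2), (27 / 50)), (1, (23 / 50)), (2, (19 / 50)), (2, (3 /
    10)), (4, (1 / 2))] = true := by
  decide +kernel


theorem ne_l0s {om rho : ℝ} (hb : Box om rho) {lam : ℂ} (hs : 3 / 2 ≤ lam.re) (hm : 0 ≤ lam.im) :
    Dw 0 om rho lam ≠ 0 := by
  have hl : 0 ≤ lam.re := by linarith
  have o1 := hb.o1
  have o2 := hb.o2
  norm_num at o1 o2
  refine row (gi := 9 / 41) (by norm_num)
    (formP hb hl chk_l0s_f (by norm_num) (by norm_num) (by norm_num) (by norm_num) (by norm_num)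
      (by norm_num) (by norm_num) (by norm_num) (by norm_num) (by push_cast; linarith) ?_)
    (formP hb (by simpa using hl) chk_l0s_n (by norm_num) (by norm_num) (by norm_num) (by norm_num)
      (by norm_num) (by norm_num) (by norm_num) (by norm_num) (by norm_num)
      (by rw [conj_re]; push_cast; linarith) (by norm_num)) (by norm_num)
  refine mul_le_mul_of_nonneg_right ?_ (by norm_num)
  push_cast; linarith

theorem ne_l0m {om rho : ℝ} (hb : Box om rho) {lam : ℂ} (hl : 0 ≤ lam.re) (hm : 3 ≤ lam.im) :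
    Dw 0 om rho lam ≠ 0 := by
  have o1 := hb.o1
  have o2 := hb.o2
  norm_num at o1 o2
  refine row (gi := 8 / 17) (by norm_num)
    (formP hb hl chk_l0m_f (by norm_num) (by norm_num) (by norm_num) (by norm_num) (by norm_num)
      (by norm_num) (by norm_num) (by norm_num) (by norm_num) (by push_cast; linarith) ?_)
    (formN hb (by simpa using hl) chk_l0m_n (by norm_num) (by norm_num) (by norm_num) (by norm_num)
      (by norm_num) (by norm_num) (by norm_num) (by norm_num) (by norm_num)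
      (by rw [conj_re]; push_cast; linarith) ?_) (by norm_num)
  · refine mul_le_mul_of_nonneg_right ?_ (by norm_num)
    push_cast; linarith
  · refine mul_le_mul_of_nonpos_right ?_ (by norm_num)
    rw [conj_im]
    push_cast; linarith

theorem ne_l1s {om rho : ℝ} (hb : Box om rho) {lam : ℂ} (hs : 1 ≤ lam.re) (hm : 0 ≤ lam.im) :
    Dw 1 om rho lam ≠ 0 := by
  have hl : 0 ≤ lam.re := by linarith
  have o1 := hb.o1
  have o2 := hb.o2
  norm_num at o1 o2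
  refine row (gi := 9 / 41) (by norm_num)
    (formP hb hl chk_l1s_f (by norm_num) (by norm_num) (by norm_num) (by norm_num) (by norm_num)
      (by norm_num) (by norm_num) (by norm_num) (by norm_num) (by push_cast; linarith) ?_)
    (formP hb (by simpa using hl) chk_l1s_n (by norm_num) (by norm_num) (by norm_num) (by norm_num)
      (by norm_num) (by norm_num) (by norm_num) (by norm_num) (by norm_num)
      (by rw [conj_re]; push_cast; linarith) (by norm_num)) (by norm_num)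
  refine mul_le_mul_of_nonneg_right ?_ (by norm_num)
  push_cast; linarith

theorem ne_l1m {om rho : ℝ} (hb : Box om rho) {lam : ℂ} (hl : 0 ≤ lam.re) (hm : 5 / 2 ≤ lam.im) :
    Dw 1 om rho lam ≠ 0 := by
  have o1 := hb.o1
  have o2 := hb.o2
  norm_num at o1 o2
  refine row (gi := 8 / 17) (by norm_num)
    (formP hb hl chk_l1m_f (by norm_num) (by norm_num) (by norm_num) (by norm_num) (by norm_num)
      (by norm_num) (by norm_num) (by norm_num) (by norm_num) (by push_cast; linarith) ?_)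
    (formN hb (by simpa using hl) chk_l1m_n (by norm_num) (by norm_num) (by norm_num) (by norm_num)
      (by norm_num) (by norm_num) (by norm_num) (by norm_num) (by norm_num)
      (by rw [conj_re]; push_cast; linarith) ?_) (by norm_num)
  · refine mul_le_mul_of_nonneg_right ?_ (by norm_num)
    push_cast; linarith
  · refine mul_le_mul_of_nonpos_right ?_ (by norm_num)
    rw [conj_im]
    push_cast; linarith

/-- `Outside.o0` -/
theorem out0 {om rho : ℝ} (hb : Box om rho) :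
    ∀ lam : ℂ, 0 ≤ lam.re → (3 / 2 ≤ lam.re ∨ 3 ≤ |lam.im|) → Dw 0 om rho lam ≠ 0 := by
  intro lam h1 h2
  refine Dw_ne_of_upper (P := fun x y => 0 ≤ x ∧ (3 / 2 ≤ x ∨ 3 ≤ y)) ?_ lam ⟨h1, h2⟩
  rintro lam hm ⟨h1, h2 | h2⟩
  · exact ne_l0s hb h2 hm
  · rw [abs_of_nonneg hm] at h2; exact ne_l0m hb h1 h2

/-- `Outside.o1` -/
theorem out1 {om rho : ℝ} (hb : Box om rho) :
    ∀ lam : ℂ, 0 ≤ lam.re → (1 ≤ lam.re ∨ 5 / 2 ≤ |lam.im|) → Dw 1 om rho lam ≠ 0 := by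
  intro lam h1 h2
  refine Dw_ne_of_upper (P := fun x y => 0 ≤ x ∧ (1 ≤ x ∨ 5 / 2 ≤ y)) ?_ lam ⟨h1, h2⟩
  rintro lam hm ⟨h1, h2 | h2⟩
  · exact ne_l1s hb h2 hm
  · rw [abs_of_nonneg hm] at h2; exact ne_l1m hb h1 h2

end Crest.Agent.R086.A4Conv
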