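import Mathlib
import Crest.Agent.R086.A4Chk

/-!
Row 86, Part A4 (helper523): worst-case rational forms over the box of `(rho, om)` and the transfer
of a checked certificate to the real form.
-/

set_option autoImplicit false

open Set

namespace Crest.Agent.R086.A4Chk

/-- domination where the numerator of the first term may be negative near `0`:
`eta` = relative variation of `R`, `eps` = loss. -/
theorem Good.dom2 {F G : Fm ℝ} {eta eps : ℝ} (h0 : 0 ≤ eta) (he : 0 ≤ eps)
    (hA0 : F.A0 ≤ G.A0) (hA0n : 0 ≤ F.A0) (hA1 : F.A1 ≤ G.A1) (hA1n : 0 ≤ F.A1)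
    (hr0 : G.r0 ≤ F.r0) (hr1 : G.r1 ≤ F.r1) (hr0p : 0 < G.r0) (hr1n : 0 ≤ G.r1)
    (er0 : F.r0 - G.r0 ≤ eta * F.r0) (er1 : F.r1 - G.r1 ≤ eta * F.r1)
    (hn0 : F.n0 ≤ G.n0) (hn1 : F.n1 ≤ G.n1) (hn1n : 0 ≤ F.n1)
    (hne : -G.n0 * eta ≤ eps * G.r0)
    (hp0 : F.p0 + eps ≤ G.p0) (hp1 : F.p1 ≤ G.p1) {c0 : ℝ} (hg : Good F.A F.P 0 c0) :
    Good G.A G.P 0 c0 := by
  refine hg.mono ?_ ?_
  · intro x hx
    unfold Fm.A
    have h1 := mul_nonneg hA1n hx
    have h2 := mul_le_mul_of_nonneg_right hA1 hx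
    constructor
    · linarith
    · linarith
  · intro x hx
    unfold Fm.P
    have h1 := mul_nonneg hn1n hx
    have h2 := mul_le_mul_of_nonneg_right hn1 hx
    have h3 := mul_le_mul_of_nonneg_right hp1 hx
    have h4 := mul_le_mul_of_nonneg_right hr1 hx
    have h5 := mul_nonneg hr1n hx
    have hR : G.R x ≤ F.R x := by unfold Fm.R; linarith
    have hRp : 0 < G.R x := by unfold Fm.R; positivity
    have hRF : 0 < F.R x := lt_of_lt_of_le hRp hR
    have hG0 : G.r0 ≤ G.R x := by unfold Fm.R; nlinarith [sq_nonneg x]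
    have key : (F.n0 + F.n1 * x) / F.R x ≤ (G.n0 + G.n1 * x) / G.R x + eps := by
      rcases le_or_gt 0 (G.n0 + G.n1 * x) with hN | hN
      · have e1 : (F.n0 + F.n1 * x) / F.R x ≤ (G.n0 + G.n1 * x) / F.R x := by gcongr
        have e2 : (G.n0 + G.n1 * x) / F.R x ≤ (G.n0 + G.n1 * x) / G.R x := by gcongr
        linarith
      · have e1 : (F.n0 + F.n1 * x) / F.R x ≤ (G.n0 + G.n1 * x) / F.R x := by gcongr
        have e3 : F.R x - G.R x ≤ eta * F.R x := by
          unfold Fm.R
          have := mul_le_mul_of_nonneg_right er1 hx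
          have := mul_nonneg h0 (sq_nonneg x)
          nlinarith
        have e4 : (G.n0 + G.n1 * x) / F.R x - (G.n0 + G.n1 * x) / G.R x =
            -(G.n0 + G.n1 * x) * (F.R x - G.R x) / (F.R x * G.R x) := by
          field_simp; ring
        have e5 : -(G.n0 + G.n1 * x) * (F.R x - G.R x) / (F.R x * G.R x) ≤ eps := by
          rw [div_le_iff₀ (mul_pos hRF hRp)]
          have hG1 : 0 ≤ G.n1 * x := by linarith
          have s1 : -(G.n0 + G.n1 * x) * (F.R x - G.R x) ≤
              -(G.n0 + G.n1 * x) * (eta * F.R x) := by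
            apply mul_le_mul_of_nonneg_left e3; linarith
          have s2 : -(G.n0 + G.n1 * x) * eta ≤ -G.n0 * eta := by
            apply mul_le_mul_of_nonneg_right _ h0; linarith
          have s3 : eps * G.r0 ≤ eps * G.R x := mul_le_mul_of_nonneg_left hG0 he
          calc -(G.n0 + G.n1 * x) * (F.R x - G.R x) ≤ -(G.n0 + G.n1 * x) * (eta * F.R x) := s1
            _ = (-(G.n0 + G.n1 * x) * eta) * F.R x := by ring
            _ ≤ (eps * G.R x) * F.R x := by
              apply mul_le_mul_of_nonneg_right _ hRF.le; linarith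
            _ = eps * (F.R x * G.R x) := by ring
        linarith
    linarith

/-- the real form: `lam = sig + i m` -/
noncomputable def mkF (B rho om sig m gr gi er ei : ℝ) : Fm ℝ :=
  ⟨(gr * er + gi * ei) * rho, gr, rho ^ 2, 2 * rho * er, B ^ 2 * ((gr * er - gi * ei) * rho),
    B ^ 2 * gr, -(gr * er - gi * ei) * rho / 4 - (3 - sig) * (gr * ei + gi * er) +
      (m - om) * (gr * er - gi * ei), -((gr * er - gi * ei) * er - (gr * ei + gi * er) * ei) / 4⟩

def rlo : ℚ := 27050680 / 10000000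
def rhi : ℚ := 27050684 / 10000000
def olo : ℚ := 3347760 / 10000000
def ohi : ℚ := 3347762 / 10000000

/-- worst-case rational form -/
def mkq (B2 sig m gr gi er ei : ℚ) : Fm ℚ :=
  if 0 ≤ gr * er - gi * ei then
    ⟨(gr * er + gi * ei) * rlo, gr, rhi ^ 2, 2 * rhi * er, B2 * ((gr * er - gi * ei) * rlo), B2 * gr,
      -(gr * er - gi * ei) * rhi / 4 - (3 - sig) * (gr * ei + gi * er) +
        (m - ohi) * (gr * er - gi * ei),
      -((gr * er - gi * ei) * er - (gr * ei + gi * er) * ei) / 4⟩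
  else
    ⟨(gr * er + gi * ei) * rlo, gr, rhi ^ 2, 2 * rhi * er, B2 * ((gr * er - gi * ei) * rhi), B2 * gr,
      -(gr * er - gi * ei) * rlo / 4 - (3 - sig) * (gr * ei + gi * er) +
        (m - olo) * (gr * er - gi * ei) - 1 / 500000,
      -((gr * er - gi * ei) * er - (gr * ei + gi * er) * ei) / 4⟩

/-- side conditions on the angles and on `B2` -/
def sideB (B2 gr gi er ei : ℚ) : Bool :=
  decide (0 ≤ gr) && decide (gr ≤ 1) && decide (0 ≤ er) && decide (0 ≤ gr * er + gi * ei) &&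
  decide (0 ≤ gr * ei + gi * er) && decide (-1 ≤ gr * er - gi * ei) && decide (0 ≤ B2) &&
  decide (B2 ≤ 16)

/-- **transfer**: a checked certificate for the worst-case form gives `Good` for the real form. -/
theorem good_of_chk {B2 sig m gr gi er ei sT c0 : ℚ} {L : List (ℚ × ℚ)}
    (hchk : chk (mkq B2 sig m gr gi er ei) sT 0 c0 L = true)
    (hs : sideB B2 gr gi er ei = true) {B rho om s mu : ℝ}
    (hr1 : 2.7050680 ≤ rho) (hr2 : rho ≤ 2.7050684) (ho1 : 0.3347760 ≤ om) (ho2 : om ≤ 0.3347762)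
    (hsig : (sig : ℝ) ≤ s)
    (hm : (m : ℝ) * (gr * er - gi * ei) ≤ mu * (gr * er - gi * ei))
    (hB : (0 ≤ gr * er - gi * ei ∧ (B2 : ℝ) ≤ B ^ 2) ∨ (B2 : ℝ) = B ^ 2) :
    Good (mkF B rho om s mu gr gi er ei).A (mkF B rho om s mu gr gi er ei).P 0 c0 := by
  have hg := chk_sound _ _ _ _ _ hchk
  unfold sideB at hs
  simp only [Bool.and_eq_true, decide_eq_true_eq] at hs
  obtain ⟨⟨⟨⟨⟨⟨⟨q1, q1'⟩, q2⟩, q3⟩, q4⟩, q5⟩, q6⟩, q7⟩ := hs
  have p1 : (0 : ℝ) ≤ gr := by exact_mod_cast q1
  have p1' : (gr : ℝ) ≤ 1 := by exact_mod_cast q1'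
  have p2 : (0 : ℝ) ≤ er := by exact_mod_cast q2
  have p3 : (0 : ℝ) ≤ gr * er + gi * ei := by exact_mod_cast q3
  have p4 : (0 : ℝ) ≤ gr * ei + gi * er := by exact_mod_cast q4
  have p5 : (-1 : ℝ) ≤ gr * er - gi * ei := by exact_mod_cast q5
  have p6 : (0 : ℝ) ≤ B2 := by exact_mod_cast q6
  have p7 : (B2 : ℝ) ≤ 16 := by exact_mod_cast q7
  have hrho : 0 < rho := by linarith
  have hsg := mul_le_mul_of_nonneg_right hsig p4
  unfold mkq at hg
  split_ifs at hg with hger
  · have hger' : (0 : ℝ) ≤ gr * er - gi * ei := by exact_mod_cast hger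
    have hB' : (B2 : ℝ) ≤ B ^ 2 := by
      rcases hB with h | h
      · exact h.2
      · exact h.le
    refine Good.dom2 (F := Fm.cast _) (eta := 1) (eps := 0) zero_le_one le_rfl
      ?_ ?_ ?_ ?_ ?_ ?_ ?_ ?_ ?_ ?_ ?_ ?_ ?_ ?_ ?_ ?_ (by exact_mod_cast hg) <;>
      simp only [Fm.cast, mkF, rlo, rhi, olo, ohi] <;> push_cast
    · nlinarith
    · positivity
    · exact le_rfl
    · exact p1
    · nlinarith
    · nlinarith
    · positivity
    · positivity
    · nlinarith [sq_nonneg rho]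
    · nlinarith [mul_nonneg hrho.le p2]
    · have := mul_le_mul_of_nonneg_left hr1 hger'
      have h2 : ((gr : ℝ) * er - gi * ei) * (27050680 / 10000000) ≤
          ((gr : ℝ) * er - gi * ei) * rho := by
        refine (le_of_eq ?_).trans this
        norm_num
      exact mul_le_mul hB' h2 (by positivity) (by positivity)
    · exact mul_le_mul_of_nonneg_right hB' p1
    · positivity
    · have : 0 ≤ B ^ 2 * (((gr : ℝ) * er - gi * ei) * rho) := by positivity
      linarith
    · nlinarith [mul_nonneg hger' (sub_nonneg.mpr hr2), mul_nonneg hger' (sub_nonneg.mpr ho2)]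
    · exact le_rfl
  · have hger' : (gr * er - gi * ei : ℝ) < 0 := by
      have : gr * er - gi * ei < 0 := by linarith [not_le.mp hger]
      exact_mod_cast this
    have hB' : (B2 : ℝ) = B ^ 2 := by
      rcases hB with h | h
      · linarith [h.1]
      · exact h
    refine Good.dom2 (F := Fm.cast _) (eta := 3 / 10000000) (eps := 1 / 500000) (by norm_num)
      (by norm_num)
      ?_ ?_ ?_ ?_ ?_ ?_ ?_ ?_ ?_ ?_ ?_ ?_ ?_ ?_ ?_ ?_ (by exact_mod_cast hg) <;>
      simp only [Fm.cast, mkF, rlo, rhi, olo, ohi] <;> push_cast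
    · nlinarith
    · positivity
    · exact le_rfl
    · exact p1
    · nlinarith
    · nlinarith
    · positivity
    · positivity
    · nlinarith [sq_nonneg rho]
    · nlinarith [mul_nonneg hrho.le p2]
    · rw [← hB']
      apply mul_le_mul_of_nonneg_left _ p6
      nlinarith
    · rw [hB']
    · positivity
    · rw [← hB']
      have h1 : -((gr : ℝ) * er - gi * ei) ≤ 1 := by linarith
      have h2 : (B2 : ℝ) * (-((gr : ℝ) * er - gi * ei)) ≤ 16 := by nlinarith
      nlinarith [mul_le_mul_of_nonneg_right h2 hrho.le]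
    · nlinarith [mul_nonneg (neg_nonneg.mpr hger'.le) (sub_nonneg.mpr hr1),
        mul_nonneg (neg_nonneg.mpr hger'.le) (sub_nonneg.mpr ho1)]
    · exact le_rfl

end Crest.Agent.R086.A4Chk
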