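import Mathlib
import Crest.Agent.R086.A4Dom

/-!
Row 86, Part A4 (helper523): checked multiplier certificates for `l ≥ 3` (all `Re lam, Im lam ≥ 0`),
`l = 2`, `Re lam ≥ 1/2` and `l = 2`, `Im lam ≥ 2`.  `_n` = form for `conj lam`, `_f` = form for `lam`.
-/

set_option autoImplicit false

namespace Crest.Agent.R086.A4Chk

/-- n -/
theorem l3_n : chk (mkq (16) (0) (0) (40/41) (9/41) (9/41) (40/41)) (2/5) 0 (-11753/3200)
    [(1/32, 293/20), (1/32, 581/50), (1/32, 953/100), (1/32, 8), (1/32, 343/50), (1/32, 597/100), (1/32, 527/100), (1/32, 471/100), (1/16, 106/25), (1/16, 7/2), (1/16, 149/50), (1/16, 129/50), (1/16, 57/25), (1/16, 203/100), (1/16, 183/100), (1/16, 167/100), (1/16, 153/100), (1/16, 7/5), (1/16, 13/10), (1/16, 6/5), (1/8, 28/25), (1/8, 49/50), (1/8, 43/50), (1/8, 77/100), (1/8, 69/100), (1/8, 31/50), (1/8, 14/25), (1/8, 1/2), (1/2, 23/50), (1/2, 7/20), (1/2, 29/100), (1/2, 13/50), (1, 13/50),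 (1, 3/10), (1, 33/100), (1, 7/20), (1, 19/50), (1, 39/100), (1, 41/100), (1, 21/50), (1, 21/50), (1, 21/50), (1, 21/50)] = true := by decide +kernel
/-- f -/
theorem l3_f : chk (mkq (16) (0) (0) (40/41) (-9/41) (5/13) (12/13)) (3/10) 0 (417/800)
    [(1/8, 1/5), (1/8, -1/50), (1/8, -6/25), (1/8, -11/25), (1/8, -31/50), (1/8, -77/100), (1/8, -22/25), (1/8, -24/25), (1/2, -9/10), (1/2, -13/20), (1/2, -41/100), (1/2, -23/100), (1/2, -9/100), (1/2, 1/100), (1/2, 2/25), (1/2, 7/50), (1/2, 9/50), (1/2, 21/100), (1/2, 23/100), (1/2, 1/4), (1/2, 27/100), (1/2, 7/25), (1, 3/10), (1, 31/100), (1, 8/25), (1, 8/25), (1, 8/25), (1, 8/25), (1, 8/25), (1, 31/100)] = true := by decide +kernel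
/-- n -/
theorem l2s_n : chk (mkq (49/4) (1/2) (0) (40/41) (9/41) (9/41) (40/41)) (2/5) 0 (-8481/3200)
    [(1/32, 857/100), (1/32, 361/50), (1/32, 31/5), (1/32, 541/100), (1/32, 479/100), (1/32, 107/25), (1/32, 193/50), (1/32, 88/25), (1/16, 161/50), (1/16, 137/50), (1/16, 239/100), (1/16, 211/100), (1/16, 189/100), (1/16, 171/100), (1/16, 39/25), (1/16, 143/100), (1/16, 33/25), (1/16, 123/100), (1/16, 23/20), (1/16, 107/100), (1/8, 101/100), (1/8, 89/100), (1/8, 4/5), (1/8, 73/100), (1/8, 33/50), (1/8, 3/5), (1/8, 14/25), (1/8, 13/25), (1/2, 12/25), (1/2, 39/100), (1/2, 7/20), (1/2, 33/100), (1, 33/100), (1, 7/20), (1, 37/100), (1, 39/100), (1, 41/100), (1, 41/100), (1, 43/100), (1, 43/100), (1, 11/25), (1, 43/100), (1, 21/50)] = true := by decide +kernel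
/-- f -/
theorem l2s_f : chk (mkq (49/4) (1/2) (0) (40/41) (-9/41) (5/13) (12/13)) (3/10) 0 (247/800)
    [(1/8, 11/50), (1/8, 9/100), (1/8, -1/25), (1/8, -3/20), (1/8, -1/4), (1/8, -33/100), (1/8, -2/5), (1/8, -9/20), (1/2, -12/25), (1/2, -19/50), (1/2, -13/50), (1/2, -7/50), (1/2, -1/25), (1/2, 1/25), (1/2, 1/10), (1/2, 7/50), (1/2, 9/50), (1/2, 21/100), (1/2, 23/100), (1/2, 1/4), (1/2, 13/50), (1/2, 7/25), (1, 3/10), (1, 31/100), (1, 31/100), (1, 8/25), (1, 8/25), (1, 8/25), (1, 8/25), (1, 8/25)] = true := by decide +kernel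
/-- n -/
theorem l2m_n : chk (mkq (49/4) (0) (-2) (77/85) (36/85) (0) (1)) (2/5) 0 (-18239/3200)
    [(1/64, 793/25), (1/64, 2669/100), (1/64, 2283/100), (1/64, 99/5), (1/64, 869/50), (1/64, 1541/100), (1/64, 689/50), (1/64, 621/50), (1/64, 1127/100), (1/64, 1029/100), (1/64, 189/20), (1/64, 218/25), (1/64, 202/25), (1/64, 188/25), (1/64, 703/100), (1/64, 659/100), (1/32, 31/5), (1/32, 551/100), (1/32, 124/25), (1/32, 9/2), (1/32, 103/25), (1/32, 19/5), (1/32, 88/25), (1/32, 329/100), (1/32, 77/25), (1/32, 29/10), (1/32, 137/50), (1/32, 13/5), (1/32, 247/100), (1/32, 59/25), (1/32, 9/4), (1/32, 54/25), (1/32, 207/100), (1/32, 199/100), (1/32, 48/25), (1/32, 37/20), (1/32, 179/100), (1/32, 173/100), (1/32, 42/25), (1/32, 163/100), (1/16, 79/50), (1/16, 149/100), (1/16, 141/100), (1/16, 67/50), (1/16, 32/25), (1/16, 61/50), (1/16, 29/25), (1/16, 111/100), (1/16, 107/100), (1/16, 51/50), (1/16, 49/50), (1/16,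 47/50), (1/16, 91/100), (1/16, 87/100), (1/16, 21/25), (1/16, 81/100), (1/4, 79/100), (1/4, 69/100), (1/4, 31/50), (1/4, 14/25), (1/4, 51/100), (1/4, 12/25), (1/4, 9/20), (1/4, 43/100), (1/2, 41/100), (1/2, 39/100), (1/2, 37/100), (1/2, 37/100), (1, 37/100), (1, 37/100), (1, 19/50), (1, 39/100), (1, 39/100), (1, 2/5), (1, 41/100), (1, 41/100), (1, 41/100)] = true := by decide +kernel
/-- f -/
theorem l2m_f : chk (mkq (49/4) (0) (2) (77/85) (-36/85) (8/17) (15/17)) (1/20) 0 (63/80)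
    [(1/8, 7/4), (1/8, 67/50), (1/8, 11/10), (1/8, 93/100), (1/8, 79/100), (1/8, 69/100), (1/8, 59/100), (1/8, 51/100), (1/4, 11/25), (1/4, 33/100), (1/4, 1/4), (1/4, 9/50), (1/2, 13/100), (1/2, 1/20), (1/2, 1/100), (1/2, -1/50), (1/2, -1/25), (1/2, -1/20), (1/2, -3/50), (1/2, -3/50), (1, -1/20), (1, -1/25), (1, -1/50), (1, 0), (1, 1/50), (1, 3/100), (1, 1/25), (1, 1/20), (1, 1/20)] = true := by decide +kernel

end Crest.Agent.R086.A4Chk
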