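import Crest.Agent.R086.A4Cert0
import Crest.Agent.R086.A4Cert1
import Crest.Agent.R086.A4Cert2
import Crest.Agent.R086.A4Main2

/-!
Row 86, Part A4 (helper374): the three rectangle certificates, `A4.Certs om rho` on the whole box
`om ∈ [0.3347760, 0.3347762]`, `rho ∈ [2.7050680, 2.7050684]` of `A.AData`.
-/

set_option autoImplicit false

namespace Crest.Agent.R086.A4Fix

theorem certs {om rho : ℝ} (hom : om ∈ Set.Icc (0.3347760 : ℝ) 0.3347762)
    (hrho : rho ∈ Set.Icc (2.7050680 : ℝ) 2.7050684) : A4.Certs om rho where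
  c0 := ⟨10, by norm_num, C0.cert hom.1 hom.2 hrho.1 hrho.2⟩
  c1 := ⟨10, by norm_num, C1.cert hom.1 hom.2 hrho.1 hrho.2⟩
  c2 := ⟨10, by norm_num, C2.cert hom.1 hom.2 hrho.1 hrho.2⟩

end Crest.Agent.R086.A4Fix
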