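import Mathlib

/-!
Row 86, part A (helper507): complex disk arithmetic for the backward Moebius recursion
`g ↦ (a-1) (g+z) / (g+z+a-b)` and its derivative, with rational certificates.
-/
set_option autoImplicit false
open Complex
open scoped ComplexConjugate

namespace Crest.Agent.R086.Disk

/-- exact image of a disk under inversion. -/
theorem inv_disk {q q0 : ℂ} {t : ℝ} (ht0 : 0 ≤ t) (h : ‖q - q0‖ ≤ t) (ht : t ^ 2 < ‖q0‖ ^ 2) :
    q ≠ 0 ∧ ‖q⁻¹ - conj q0 / ((‖q0‖ ^ 2 - t ^ 2 : ℝ) : ℂ)‖ ≤ t / (‖q0‖ ^ 2 - t ^ 2) := by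
  have hq0 : t < ‖q0‖ := lt_of_pow_lt_pow_left₀ 2 (norm_nonneg _) ht
  have hq : q ≠ 0 := by
    rintro rfl
    simp at h
    linarith
  refine ⟨hq, ?_⟩
  set D : ℝ := ‖q0‖ ^ 2 - t ^ 2 with hD
  have hDpos : 0 < D := by rw [hD]; linarith
  have hDc : (D : ℂ) ≠ 0 := by exact_mod_cast hDpos.ne'
  have key : ‖(D : ℂ) - q * conj q0‖ ≤ t * ‖q‖ := by
    apply le_of_sq_le_sq _ (by positivity)
    have e1 : ‖(D : ℂ) - q * conj q0‖ ^ 2 = normSq ((D : ℂ) - q * conj q0) := (Complex.normSq_eq_norm_sq _).symm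
    have e2 : ‖q - q0‖ ^ 2 = normSq (q - q0) := (Complex.normSq_eq_norm_sq _).symm
    have e3 : ‖q‖ ^ 2 = normSq q := (Complex.normSq_eq_norm_sq _).symm
    have e4 : ‖q0‖ ^ 2 = normSq q0 := (Complex.normSq_eq_norm_sq _).symm
    have h2 : ‖q - q0‖ ^ 2 ≤ t ^ 2 := pow_le_pow_left₀ (norm_nonneg _) h 2
    rw [e2] at h2
    rw [e1, mul_pow, e3]
    rw [e4] at hD
    simp only [normSq_apply, Complex.sub_re, Complex.sub_im, Complex.mul_re, Complex.mul_im,
      Complex.conj_re, Complex.conj_im, Complex.ofReal_re, Complex.ofReal_im] at *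
    nlinarith [mul_le_mul_of_nonneg_left h2 hDpos.le]
  have hqn : 0 < ‖q‖ := norm_pos_iff.mpr hq
  have e : q⁻¹ - conj q0 / (D : ℂ) = ((D : ℂ) - q * conj q0) / (q * D) := by
    field_simp
  rw [e, norm_div, norm_mul, Complex.norm_real, Real.norm_of_nonneg hDpos.le,
    div_le_div_iff₀ (by positivity) hDpos]
  nlinarith

theorem inv_disk' {q q0 p : ℂ} {t n0 rp D : ℝ} (ht0 : 0 ≤ t) (h : ‖q - q0‖ ≤ t)
    (hD : D = ‖q0‖ ^ 2 - t ^ 2) (hDpos : 0 < D) (h0 : ‖p * D - conj q0‖ ≤ n0)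
    (hr : n0 + t ≤ rp * D) : q ≠ 0 ∧ ‖q⁻¹ - p‖ ≤ rp := by
  obtain ⟨hq, h1⟩ := inv_disk ht0 h (by rw [hD] at hDpos; linarith)
  refine ⟨hq, ?_⟩
  rw [← hD] at h1
  have hDc : (D : ℂ) ≠ 0 := by exact_mod_cast hDpos.ne'
  have h2 : ‖p - conj q0 / (D : ℂ)‖ ≤ n0 / D := by
    have e : p - conj q0 / (D : ℂ) = (p * D - conj q0) / D := by field_simp
    rw [e, norm_div, Complex.norm_real, Real.norm_of_nonneg hDpos.le]
    gcongr
  have h3 : ‖q⁻¹ - p‖ ≤ ‖q⁻¹ - conj q0 / (D : ℂ)‖ + ‖p - conj q0 / (D : ℂ)‖ := by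
    have e : q⁻¹ - p = (q⁻¹ - conj q0 / (D : ℂ)) - (p - conj q0 / (D : ℂ)) := by ring
    rw [e]; exact norm_sub_le _ _
  have h4 : t / D + n0 / D ≤ rp := by
    rw [← add_div, div_le_iff₀ hDpos]; linarith
  linarith

section step
variable {al al0 be be0 iq p c' d dc dc' : ℂ} {h rp np na nb n1 n2 n3 n4 nd s : ℝ}

theorem X_err (h0 : 0 ≤ h) (hbe : ‖be - be0‖ ≤ h) (hiq : ‖iq - p‖ ≤ rp) (hp : ‖p‖ ≤ np)
    (hnb : ‖be0‖ ≤ nb) : ‖be * iq - be0 * p‖ ≤ h * (np + rp) + nb * rp := by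
  have hrp : 0 ≤ rp := (norm_nonneg _).trans hiq
  have hiqn : ‖iq‖ ≤ np + rp := by
    have : iq = p + (iq - p) := by ring
    rw [this]; exact (norm_add_le _ _).trans (add_le_add hp hiq)
  have e : be * iq - be0 * p = (be - be0) * iq + be0 * (iq - p) := by ring
  rw [e]
  refine (norm_add_le _ _).trans (add_le_add ?_ ?_)
  · rw [norm_mul]; exact mul_le_mul hbe hiqn (norm_nonneg _) h0
  · rw [norm_mul]; exact mul_le_mul hnb hiq (norm_nonneg _) ((norm_nonneg _).trans hnb)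

theorem step_val (h0 : 0 ≤ h) (hal : ‖al - al0‖ ≤ h) (hbe : ‖be - be0‖ ≤ h)
    (hiq : ‖iq - p‖ ≤ rp) (hp : ‖p‖ ≤ np) (hna : ‖al0‖ ≤ na) (hnb : ‖be0‖ ≤ nb)
    (hn1 : ‖1 - be0 * p‖ ≤ n1) (hn4 : ‖al0 * (1 - be0 * p) - c'‖ ≤ n4) :
    ‖al * (1 - be * iq) - c'‖ ≤
      n4 + h * (n1 + (h * (np + rp) + nb * rp)) + na * (h * (np + rp) + nb * rp) := by
  have hX := X_err h0 hbe hiq hp hnb
  set e1 := h * (np + rp) + nb * rp
  have h1X : ‖1 - be * iq‖ ≤ n1 + e1 := by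
    have e : 1 - be * iq = (1 - be0 * p) - (be * iq - be0 * p) := by ring
    rw [e]; exact (norm_sub_le _ _).trans (add_le_add hn1 hX)
  have e : al * (1 - be * iq) - c' = (al0 * (1 - be0 * p) - c') + (al - al0) * (1 - be * iq)
      - al0 * (be * iq - be0 * p) := by ring
  rw [e]
  refine (norm_sub_le _ _).trans (add_le_add ((norm_add_le _ _).trans (add_le_add hn4 ?_)) ?_)
  · rw [norm_mul]; exact mul_le_mul hal h1X (norm_nonneg _) h0
  · rw [norm_mul]; exact mul_le_mul hna hX (norm_nonneg _) ((norm_nonneg _).trans hna)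

theorem step_der (h0 : 0 ≤ h) (hal : ‖al - al0‖ ≤ h) (hbe : ‖be - be0‖ ≤ h)
    (hiq : ‖iq - p‖ ≤ rp) (hp : ‖p‖ ≤ np) (hna : ‖al0‖ ≤ na) (hnb : ‖be0‖ ≤ nb)
    (hn1 : ‖1 - be0 * p‖ ≤ n1) (hn2 : ‖1 - al0 * p‖ ≤ n2)
    (hd : ‖d - dc‖ ≤ s) (hnd : ‖dc‖ ≤ nd)
    (hn3 : ‖al0 * be0 * p * p * dc + (1 - be0 * p) * (1 - al0 * p) - dc'‖ ≤ n3) :
    ‖(be * iq) * (al * iq) * d + (1 - be * iq) * (1 - al * iq) - dc'‖ ≤
      n3 + ((h * (np + rp) + nb * rp) * (na * np + (h * (np + rp) + na * rp))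
          + nb * np * (h * (np + rp) + na * rp)) * (nd + s) + na * nb * np * np * s
        + ((h * (np + rp) + nb * rp) * (n2 + (h * (np + rp) + na * rp))
          + n1 * (h * (np + rp) + na * rp)) := by
  have hX := X_err h0 hbe hiq hp hnb
  have hY := X_err h0 hal hiq hp hna
  have hna0 : 0 ≤ na := (norm_nonneg _).trans hna
  have hnb0 : 0 ≤ nb := (norm_nonneg _).trans hnb
  have hnp0 : 0 ≤ np := (norm_nonneg _).trans hp
  have hs0 : 0 ≤ s := (norm_nonneg _).trans hd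
  set e1 := h * (np + rp) + nb * rp with he1
  set e2 := h * (np + rp) + na * rp with he2
  have he10 : 0 ≤ e1 := (norm_nonneg _).trans hX
  have he20 : 0 ≤ e2 := (norm_nonneg _).trans hY
  have hX0 : ‖be0 * p‖ ≤ nb * np := by
    rw [norm_mul]; exact mul_le_mul hnb hp (norm_nonneg _) hnb0
  have hY0 : ‖al0 * p‖ ≤ na * np := by
    rw [norm_mul]; exact mul_le_mul hna hp (norm_nonneg _) hna0
  have hYn : ‖al * iq‖ ≤ na * np + e2 := by
    have e : al * iq = al0 * p + (al * iq - al0 * p) := by ring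
    rw [e]; exact (norm_add_le _ _).trans (add_le_add hY0 hY)
  have h1Y : ‖1 - al * iq‖ ≤ n2 + e2 := by
    have e : 1 - al * iq = (1 - al0 * p) - (al * iq - al0 * p) := by ring
    rw [e]; exact (norm_sub_le _ _).trans (add_le_add hn2 hY)
  have hdn : ‖d‖ ≤ nd + s := by
    have e : d = dc + (d - dc) := by ring
    rw [e]; exact (norm_add_le _ _).trans (add_le_add hnd hd)
  have hA : ‖(be * iq) * (al * iq) - (be0 * p) * (al0 * p)‖ ≤ e1 * (na * np + e2) + nb * np * e2 := by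
    have e : (be * iq) * (al * iq) - (be0 * p) * (al0 * p)
        = (be * iq - be0 * p) * (al * iq) + (be0 * p) * (al * iq - al0 * p) := by ring
    rw [e]
    refine (norm_add_le _ _).trans (add_le_add ?_ ?_)
    · rw [norm_mul]; exact mul_le_mul hX hYn (norm_nonneg _) he10
    · rw [norm_mul]; exact mul_le_mul hX0 hY (norm_nonneg _) (by positivity)
  have hB : ‖(1 - be * iq) * (1 - al * iq) - (1 - be0 * p) * (1 - al0 * p)‖
      ≤ e1 * (n2 + e2) + n1 * e2 := by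
    have e : (1 - be * iq) * (1 - al * iq) - (1 - be0 * p) * (1 - al0 * p)
        = -((be * iq - be0 * p) * (1 - al * iq)) - (1 - be0 * p) * (al * iq - al0 * p) := by ring
    rw [e]
    refine (norm_sub_le _ _).trans (add_le_add ?_ ?_)
    · rw [norm_neg, norm_mul]; exact mul_le_mul hX h1Y (norm_nonneg _) he10
    · rw [norm_mul]; exact mul_le_mul hn1 hY (norm_nonneg _) ((norm_nonneg _).trans hn1)
  have e : (be * iq) * (al * iq) * d + (1 - be * iq) * (1 - al * iq) - dc'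
      = (al0 * be0 * p * p * dc + (1 - be0 * p) * (1 - al0 * p) - dc')
        + ((be * iq) * (al * iq) - (be0 * p) * (al0 * p)) * d
        + (be0 * p) * (al0 * p) * (d - dc)
        + ((1 - be * iq) * (1 - al * iq) - (1 - be0 * p) * (1 - al0 * p)) := by ring
  rw [e]
  refine (norm_add_le _ _).trans (add_le_add ((norm_add_le _ _).trans (add_le_add
    ((norm_add_le _ _).trans (add_le_add hn3 ?_)) ?_)) hB)
  · rw [norm_mul]; exact mul_le_mul hA hdn (norm_nonneg _) ((norm_nonneg _).trans hA)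
  · rw [norm_mul, norm_mul]
    calc ‖be0 * p‖ * ‖al0 * p‖ * ‖d - dc‖ ≤ (nb * np) * (na * np) * s := by gcongr
      _ = na * nb * np * np * s := by ring

end step

end Crest.Agent.R086.Disk
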