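import Crest.Agent.R086.A4Alg
import Crest.Agent.R086.Disk

/-!
Row 86, Part A4 (helper374): fixed-point disc arithmetic (`S = 10^12`) for the certificates `CertR`.
`mem z d : ‖S z - c‖ ≤ r`.  All operations are computed on `Int`/`Nat` (kernel friendly).
-/

set_option autoImplicit false

open Complex
open scoped ComplexConjugate

namespace Crest.Agent.R086.A4Fix

/-- fixed point disc -/
structure Dk where
  x : Int
  y : Int
  r : Nat

/-- upper bound of `√(x²+y²)` -/
def nrm (x y : Int) : Nat :=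
  let a := x.natAbs
  let b := y.natAbs
  let N := a * a + b * b
  let n := a + b
  let n1 := (n + N / n) / 2 + 1
  let n2 := (n1 + N / n1) / 2 + 1
  bif Nat.ble N (n2 * n2) then n2 else n

/-- upper bound of the norm of the centre -/
def Dk.n (d : Dk) : Nat := nrm d.x d.y

def add (d e : Dk) : Dk := ⟨d.x + e.x, d.y + e.y, d.r + e.r⟩
def sub (d e : Dk) : Dk := ⟨d.x - e.x, d.y - e.y, d.r + e.r⟩
def cjD (d : Dk) : Dk := ⟨d.x, -d.y, d.r⟩
/-- the integer `n` -/
def cst (n : Nat) : Dk := ⟨(n : Int) * 1000000000000, 0, 0⟩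
def mul (d e : Dk) : Dk :=
  ⟨(d.x * e.x - d.y * e.y) / 1000000000000, (d.x * e.y + d.y * e.x) / 1000000000000,
    (d.n * e.r + (e.n + e.r) * d.r) / 1000000000000 + 3⟩
/-- inverse, `none` if `0` may be in the disc -/
def inv (d : Dk) : Option Dk :=
  let N := d.x.natAbs * d.x.natAbs + d.y.natAbs * d.y.natAbs
  let R := d.r * d.r
  let D := N - R
  bif Nat.blt 0 D then
    some ⟨(d.x * 1000000000000000000000000) / (D : Int),
      ((-d.y) * 1000000000000000000000000) / (D : Int),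
      (d.r * 1000000000000000000000000) / D + 3⟩
  else none

/-- centre of the disc -/
noncomputable def cc (d : Dk) : ℂ := ⟨(d.x : ℝ), (d.y : ℝ)⟩

/-- scale -/
noncomputable def SR : ℝ := 1000000000000

theorem SR_pos : 0 < SR := by norm_num [SR]

def mem (z : ℂ) (d : Dk) : Prop := ‖(SR : ℂ) * z - cc d‖ ≤ d.r

theorem natAbs_sq (x : ℤ) : ((x.natAbs * x.natAbs : ℕ) : ℝ) = (x : ℝ) * x := by
  have h : ((x.natAbs * x.natAbs : ℕ) : ℤ) = x * x := Int.natAbs_mul_self
  rw [← Int.cast_natCast, h]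
  push_cast
  ring

theorem nrm_spec (x y : Int) : ‖(⟨(x : ℝ), (y : ℝ)⟩ : ℂ)‖ ≤ nrm x y := by
  have hN : ‖(⟨(x : ℝ), (y : ℝ)⟩ : ℂ)‖ ^ 2 =
      ((x.natAbs * x.natAbs + y.natAbs * y.natAbs : ℕ) : ℝ) := by
    rw [← Complex.normSq_eq_norm_sq, normSq_apply]
    rw [Nat.cast_add, natAbs_sq, natAbs_sq]
  have hsum : ‖(⟨(x : ℝ), (y : ℝ)⟩ : ℂ)‖ ≤ ((x.natAbs + y.natAbs : ℕ) : ℝ) := by
    apply le_of_sq_le_sq _ (by positivity)
    rw [hN]
    push_cast
    nlinarith [mul_nonneg (Nat.cast_nonneg (α := ℝ) x.natAbs) (Nat.cast_nonneg (α := ℝ) y.natAbs)]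
  unfold nrm
  simp only
  set n2 := ((x.natAbs + y.natAbs + (x.natAbs * x.natAbs + y.natAbs * y.natAbs) /
    (x.natAbs + y.natAbs)) / 2 + 1 + (x.natAbs * x.natAbs + y.natAbs * y.natAbs) /
    ((x.natAbs + y.natAbs + (x.natAbs * x.natAbs + y.natAbs * y.natAbs) /
    (x.natAbs + y.natAbs)) / 2 + 1)) / 2 + 1
  cases hb : Nat.ble (x.natAbs * x.natAbs + y.natAbs * y.natAbs) (n2 * n2) with
  | false => simpa using hsum
  | true =>
    simp only [cond_true]
    have h := Nat.le_of_ble_eq_true hb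
    apply le_of_sq_le_sq _ (by positivity)
    rw [hN, sq]
    exact_mod_cast h

theorem n_spec (d : Dk) : ‖cc d‖ ≤ d.n := nrm_spec d.x d.y

theorem mem.norm_le {z : ℂ} {d : Dk} (h : mem z d) : ‖(SR : ℂ) * z‖ ≤ d.n + d.r := by
  have e : (SR : ℂ) * z = cc d + ((SR : ℂ) * z - cc d) := by ring
  rw [e]
  exact (norm_add_le _ _).trans (add_le_add (n_spec d) h)

theorem mem_add {z w : ℂ} {d e : Dk} (h : mem z d) (h' : mem w e) : mem (z + w) (add d e) := by
  unfold mem at *
  have hc : cc (add d e) = cc d + cc e := by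
    apply Complex.ext <;> simp [cc, add]
  have e1 : (SR : ℂ) * (z + w) - cc (add d e) = ((SR : ℂ) * z - cc d) + ((SR : ℂ) * w - cc e) := by
    rw [hc]; ring
  rw [e1]
  refine (norm_add_le _ _).trans ?_
  simp only [add]
  push_cast
  exact add_le_add h h'

theorem mem_sub {z w : ℂ} {d e : Dk} (h : mem z d) (h' : mem w e) : mem (z - w) (sub d e) := by
  unfold mem at *
  have hc : cc (sub d e) = cc d - cc e := by
    apply Complex.ext <;> simp [cc, sub]
  have e1 : (SR : ℂ) * (z - w) - cc (sub d e) = ((SR : ℂ) * z - cc d) - ((SR : ℂ) * w - cc e) := by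
    rw [hc]; ring
  rw [e1]
  refine (norm_sub_le _ _).trans ?_
  simp only [sub]
  push_cast
  exact add_le_add h h'

theorem mem_cj {z : ℂ} {d : Dk} (h : mem z d) : mem (conj z) (cjD d) := by
  unfold mem at *
  have e1 : (SR : ℂ) * conj z - cc (cjD d) = conj ((SR : ℂ) * z - cc d) := by
    apply Complex.ext <;> simp [cc, cjD]
  rw [e1, Complex.norm_conj]
  exact h

theorem mem_cst (n : ℕ) : mem (n : ℂ) (cst n) := by
  unfold mem
  have : (SR : ℂ) * (n : ℂ) - cc (cst n) = 0 := by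
    apply Complex.ext <;> simp [cc, cst, SR]
    try ring
  rw [this]
  simp [cst]

/-- rounding error of a complex number -/
theorem floor_err {a b m : Int} (hm : 0 < m) :
    ‖(⟨(a : ℝ) / m, (b : ℝ) / m⟩ : ℂ) - ⟨((a / m : Int) : ℝ), ((b / m : Int) : ℝ)⟩‖ ≤ 2 := by
  have key : ∀ c : Int, |(c : ℝ) / m - ((c / m : Int) : ℝ)| ≤ 1 := by
    intro c
    have h1 : c / m * m ≤ c := Int.ediv_mul_le c hm.ne'
    have h2 : c < (c / m + 1) * m := Int.lt_ediv_add_one_mul_self c hm
    have h1' : ((c / m : Int) : ℝ) * m ≤ c := by exact_mod_cast h1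
    have h2' : (c : ℝ) < (((c / m : Int) : ℝ) + 1) * m := by exact_mod_cast h2
    have hm' : (0 : ℝ) < m := by exact_mod_cast hm
    rw [abs_le]
    constructor
    · have : ((c / m : Int) : ℝ) ≤ (c : ℝ) / m := by rw [le_div_iff₀ hm']; exact h1'
      linarith
    · have : (c : ℝ) / m ≤ ((c / m : Int) : ℝ) + 1 := by rw [div_le_iff₀ hm']; exact h2'.le
      linarith
  refine (Complex.norm_le_abs_re_add_abs_im _).trans ?_
  simp only [sub_re, sub_im]
  linarith [key a, key b]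

theorem natdiv_ceil (a m : ℕ) (hm : 0 < m) : (a : ℝ) / m ≤ ((a / m : ℕ) : ℝ) + 1 := by
  have hm' : (0 : ℝ) < m := by exact_mod_cast hm
  rw [div_le_iff₀ hm']
  have := Nat.lt_div_mul_add (a := a) hm
  have h2 : a < (a / m + 1) * m := by
    calc a < a / m * m + m := this
      _ = (a / m + 1) * m := by ring
  have h3 : (a : ℝ) < (((a / m : ℕ) : ℝ) + 1) * m := by exact_mod_cast h2
  exact h3.le

theorem mem_mul {z w : ℂ} {d e : Dk} (h : mem z d) (h' : mem w e) : mem (z * w) (mul d e) := by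
  have hw := h'.norm_le
  unfold mem at *
  have hS : (SR : ℂ) ≠ 0 := by exact_mod_cast SR_pos.ne'
  have e0 : (SR : ℂ) * z * ((SR : ℂ) * w) - cc d * cc e
      = cc d * ((SR : ℂ) * w - cc e) + ((SR : ℂ) * z - cc d) * ((SR : ℂ) * w) := by ring
  have h0 : ‖(SR : ℂ) * z * ((SR : ℂ) * w) - cc d * cc e‖ ≤
      ((d.n * e.r + (e.n + e.r) * d.r : ℕ) : ℝ) := by
    rw [e0]
    refine (norm_add_le _ _).trans ?_
    rw [norm_mul, norm_mul]
    push_cast
    refine add_le_add (mul_le_mul (n_spec d) h' (norm_nonneg _) (by positivity)) ?_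
    rw [mul_comm]
    exact mul_le_mul hw h (norm_nonneg _) (by positivity)
  have e1 : (SR : ℂ) * (z * w) - cc (mul d e) =
      ((SR : ℂ) * z * ((SR : ℂ) * w) - cc d * cc e) / (SR : ℂ) + (cc d * cc e / (SR : ℂ) - cc (mul d e)) := by
    field_simp
    ring
  rw [e1]
  refine (norm_add_le _ _).trans ?_
  have h1 : ‖((SR : ℂ) * z * ((SR : ℂ) * w) - cc d * cc e) / (SR : ℂ)‖ ≤
      (((d.n * e.r + (e.n + e.r) * d.r) / 1000000000000 : ℕ) : ℝ) + 1 := by
    rw [norm_div, Complex.norm_real, Real.norm_of_nonneg SR_pos.le]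
    refine le_trans ?_ (natdiv_ceil _ 1000000000000 (by norm_num))
    have : (((1000000000000 : ℕ)) : ℝ) = SR := by norm_num [SR]
    rw [this]
    exact div_le_div_of_nonneg_right h0 SR_pos.le
  have h2 : ‖cc d * cc e / (SR : ℂ) - cc (mul d e)‖ ≤ 2 := by
    have := floor_err (a := d.x * e.x - d.y * e.y) (b := d.x * e.y + d.y * e.x)
      (m := 1000000000000) (by norm_num)
    refine le_trans (le_of_eq ?_) this
    congr 1
    have hdiv : cc d * cc e / (SR : ℂ) = ⟨((d.x * e.x - d.y * e.y : ℤ) : ℝ) / ((1000000000000 : ℤ) : ℝ),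
        ((d.x * e.y + d.y * e.x : ℤ) : ℝ) / ((1000000000000 : ℤ) : ℝ)⟩ := by
      apply Complex.ext
      · rw [Complex.div_ofReal_re]; simp [cc, SR]
      · rw [Complex.div_ofReal_im]; simp [cc, SR]
    rw [hdiv]
    rfl
  calc _ ≤ (((d.n * e.r + (e.n + e.r) * d.r) / 1000000000000 : ℕ) : ℝ) + 1 + 2 := add_le_add h1 h2
    _ = ((mul d e).r : ℝ) := by simp only [mul]; push_cast; ring

theorem mem_inv {z : ℂ} {d e : Dk} (h : mem z d) (he : inv d = some e) : z ≠ 0 ∧ mem z⁻¹ e := by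
  unfold inv at he
  simp only at he
  set N := d.x.natAbs * d.x.natAbs + d.y.natAbs * d.y.natAbs with hN
  cases hb : Nat.blt 0 (N - d.r * d.r) with
  | false => rw [hb] at he; simp at he
  | true =>
    rw [hb] at he
    simp only [cond_true, Option.some.injEq] at he
    have hD : 0 < N - d.r * d.r := by
      have := Nat.le_of_ble_eq_true hb
      omega
    set D := N - d.r * d.r with hDd
    have hND : N = D + d.r * d.r := by omega
    have hcc : ‖cc d‖ ^ 2 = (N : ℝ) := by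
      rw [← Complex.normSq_eq_norm_sq, normSq_apply]
      rw [hN, Nat.cast_add, natAbs_sq, natAbs_sq]
      rfl
    have hDR : ((D : ℕ) : ℝ) = ‖cc d‖ ^ 2 - (d.r : ℝ) ^ 2 := by
      rw [hcc, hND]; push_cast; ring
    have hDpos : (0 : ℝ) < (D : ℝ) := by exact_mod_cast hD
    have hlt : ((d.r : ℝ)) ^ 2 < ‖cc d‖ ^ 2 := by linarith
    obtain ⟨hq, hi⟩ := Disk.inv_disk (q := (SR : ℂ) * z) (q0 := cc d) (t := (d.r : ℝ))
      (by positivity) h hlt
    rw [← hDR] at hi
    have hz : z ≠ 0 := by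
      rintro rfl
      simp at hq
    refine ⟨hz, ?_⟩
    have hS : (SR : ℂ) ≠ 0 := by exact_mod_cast SR_pos.ne'
    have hDc : ((D : ℝ) : ℂ) ≠ 0 := by exact_mod_cast hDpos.ne'
    have e1 : (SR : ℂ) * z⁻¹ - cc e = ((SR * SR : ℝ) : ℂ) * (((SR : ℂ) * z)⁻¹ - conj (cc d) / ((D : ℝ) : ℂ))
        + (((SR * SR : ℝ) : ℂ) * (conj (cc d) / ((D : ℝ) : ℂ)) - cc e) := by
      push_cast
      field_simp
      ring
    unfold mem
    rw [e1]
    refine (norm_add_le _ _).trans ?_
    have h1 : ‖((SR * SR : ℝ) : ℂ) * (((SR : ℂ) * z)⁻¹ - conj (cc d) / ((D : ℝ) : ℂ))‖ ≤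
        ((d.r * 1000000000000000000000000 / D : ℕ) : ℝ) + 1 := by
      rw [norm_mul, Complex.norm_real, Real.norm_of_nonneg (by positivity [SR_pos])]
      refine le_trans ?_ (natdiv_ceil _ D hD)
      calc SR * SR * ‖((SR : ℂ) * z)⁻¹ - conj (cc d) / ((D : ℝ) : ℂ)‖
          ≤ SR * SR * ((d.r : ℝ) / D) := by
            refine mul_le_mul_of_nonneg_left hi ?_
            have := SR_pos; positivity
        _ = ((d.r * 1000000000000000000000000 : ℕ) : ℝ) / D := by
            push_cast; unfold SR; ring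
    have h2 : ‖((SR * SR : ℝ) : ℂ) * (conj (cc d) / ((D : ℝ) : ℂ)) - cc e‖ ≤ 2 := by
      have := floor_err (a := d.x * 1000000000000000000000000)
        (b := (-d.y) * 1000000000000000000000000) (m := (D : ℤ)) (by exact_mod_cast hD)
      refine le_trans (le_of_eq ?_) this
      congr 1
      rw [← he]
      have hdiv : ((SR * SR : ℝ) : ℂ) * (conj (cc d) / ((D : ℝ) : ℂ)) =
          ⟨((d.x * 1000000000000000000000000 : ℤ) : ℝ) / ((D : ℤ) : ℝ),
            (((-d.y) * 1000000000000000000000000 : ℤ) : ℝ) / ((D : ℤ) : ℝ)⟩ := by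
        apply Complex.ext
        · rw [Complex.re_ofReal_mul, Complex.div_ofReal_re]
          simp [cc, SR]
          ring
        · rw [Complex.im_ofReal_mul, Complex.div_ofReal_im]
          simp [cc, SR]
          ring
      rw [hdiv]
      rfl
    have h3 : (e.r : ℝ) = ((d.r * 1000000000000000000000000 / D : ℕ) : ℝ) + 1 + 2 := by
      rw [← he]; push_cast; ring
    rw [h3]
    exact add_le_add h1 h2

end Crest.Agent.R086.A4Fix
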