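import Crest.Agent.R086.A4Fix

/-!
Row 86, Part A4 (helper374): the chain of enclosures, the check of one disc and the covering of the
boundary of the rectangle; `certR_of` gives `A4.CertR l om rho x0 x1 T M` for `l ≤ 2`.
-/

set_option autoImplicit false

open Complex Set
open scoped ComplexConjugate

namespace Crest.Agent.R086.A4Fix

open Crest.Agent.R086.A4 (ak zz stp uy Wr Chain PP BdR CertR)

/-- enclosure of `z = -i rho` -/
def Zd : Dk := ⟨0, -2705068200000, 200000⟩

/-- enclosure of `a_k` -/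
def aD (l k : Nat) (cx cy : Int) (h : Nat) : Dk :=
  ⟨cx + (l : Int) * 500000000000 + (k : Int) * 1000000000000, cy - 334776100000, h + 100000⟩

def stepD (l : Nat) (a g : Dk) : Option Dk :=
  match inv (add (add g Zd) (sub a (cst (l + 6)))) with
  | some p => some (mul (sub a (cst 1)) (sub (cst 1) (mul (sub a (cst (l + 6))) p)))
  | none => none

def startK (l : Nat) (a : Dk) : Nat :=
  (((l : Int) + 5) * 1000000000000 + 2 * a.x - 2 * (a.r : Int)
    - 2 * (((l : Int) + 6) * 1000000000000)).toNat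

def startD (l : Nat) (a : Dk) : Option Dk :=
  bif Nat.blt 0 (startK l a) then
    some (mul (sub a (cst 1)) (sub (cst 1) (mul (sub a (cst (l + 6)))
      ⟨((1000000000000000000000000 / startK l a : Nat) : Int), 0,
        1000000000000000000000000 / startK l a + 3⟩)))
  else none

def chainG (l : Nat) (cx cy : Int) (h : Nat) : Nat → Option Dk → Option Dk
  | 0, g => g
  | n + 1, g => chainG l cx cy h n (g.bind (stepD l (aD l (n + 4) cx cy h)))

def g3D (l N : Nat) (cx cy : Int) (h : Nat) : Option Dk :=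
  chainG l cx cy h N (startD l (aD l (N + 4) cx cy h))

def stpD (l : Nat) (a : Dk) (p : Dk × Dk) : Dk × Dk :=
  (add (mul (add (sub a (cst (l + 6))) Zd) p.1) p.2, mul (sub a (cst 1)) (add p.2 (mul Zd p.1)))

def uyD (l : Nat) (cx cy : Int) (h : Nat) (g : Dk) : Dk × Dk :=
  stpD l (aD l 1 cx cy h) (stpD l (aD l 2 cx cy h)
    (add (add (sub (aD l 3 cx cy h) (cst (l + 6))) Zd) g,
      mul (sub (aD l 3 cx cy h) (cst 1)) (add g Zd)))

def sqD (d : Dk) : Dk := mul d d

def PPd : Nat → Dk → Dk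
  | 0, L => mul (mul L (sub L (cst 1))) (sqD (sqD (add L (cst 1))))
  | 1, L => mul (mul (sub L ⟨500000000000, 0, 0⟩) (add L (cst 1))) (sqD (sqD (add L (cst 1))))
  | _, L => mul (sqD (add L (cst 1))) (sqD (sqD (add L ⟨1500000000000, 0, 0⟩)))

def WD (l : Nat) (cx cy : Int) (h : Nat) (p p' : Dk × Dk) : Dk :=
  mul (add (mul p.2 (cjD p'.1)) (mul (cjD p'.2) p.1)) (cjD (PPd l ⟨cx, cy, h⟩))

def posD (d : Dk) : Bool :=
  match d.x with
  | Int.ofNat n => Nat.blt d.r n
  | Int.negSucc _ => false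

/-- the check of one disc -/
def ok (l N : Nat) (cx cy : Int) (h : Nat) : Bool :=
  match g3D l N cx cy h with
  | some g =>
    match g3D l N cx (-cy) h with
    | some g' => posD (WD l cx cy h (uyD l cx cy h g) (uyD l cx (-cy) h g'))
    | none => false
  | none => false

/-! ### soundness -/

theorem mem_Zd {rho : ℝ} (h1 : 2.7050680 ≤ rho) (h2 : rho ≤ 2.7050684) : mem (zz rho) Zd := by
  unfold mem zz
  have e : (SR : ℂ) * (-I * (rho : ℂ)) - cc Zd = -I * ((SR * rho - 2705068200000 : ℝ) : ℂ) := by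
    apply Complex.ext <;> simp [cc, Zd, SR]
    ring
  rw [e, norm_mul, norm_neg, Complex.norm_I, one_mul, Complex.norm_real, Real.norm_eq_abs, abs_le]
  simp only [Zd, SR]
  push_cast
  constructor <;> linarith

theorem mem_aD {l k : ℕ} {om : ℝ} (h1 : 0.3347760 ≤ om) (h2 : om ≤ 0.3347762) {lam : ℂ} {cx cy : ℤ}
    {h : ℕ} (hl : mem lam ⟨cx, cy, h⟩) : mem (ak l om lam k) (aD l k cx cy h) := by
  unfold mem ak at *
  have e : (SR : ℂ) * (lam + (l : ℂ) / 2 - I * om + k) - cc (aD l k cx cy h) =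
      ((SR : ℂ) * lam - cc ⟨cx, cy, h⟩) - I * ((SR * om - 334776100000 : ℝ) : ℂ) := by
    apply Complex.ext
    · simp [cc, aD, SR]; ring
    · simp [cc, aD, SR]; ring
  rw [e]
  refine (norm_sub_le _ _).trans ?_
  have h3 : ‖I * ((SR * om - 334776100000 : ℝ) : ℂ)‖ ≤ 100000 := by
    rw [norm_mul, Complex.norm_I, one_mul, Complex.norm_real, Real.norm_eq_abs, abs_le]
    simp only [SR]
    constructor <;> linarith
  have h4 : (((aD l k cx cy h).r : ℕ) : ℝ) = (h : ℝ) + 100000 := by
    simp only [aD]; push_cast; ring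
  rw [h4]
  exact add_le_add hl h3

theorem step_alg {a z g b : ℂ} (hq : g + z + (a - b) ≠ 0) :
    (a - 1) * (g + z) / (g + z + a - b) = (a - 1) * (1 - (a - b) * (g + z + (a - b))⁻¹) := by
  have e : g + z + a - b = g + z + (a - b) := by ring
  rw [e]
  field_simp
  ring

theorem stepD_sound {l : ℕ} {a z g : ℂ} {da dg d : Dk} (hz : mem z Zd) (ha : mem a da)
    (hg : mem g dg) (h : stepD l da dg = some d) :
    mem ((a - 1) * (g + z) / (g + z + a - ((l : ℂ) + 6))) d := by
  unfold stepD at h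
  have hb : mem ((l : ℂ) + 6) (cst (l + 6)) := by
    have := mem_cst (l + 6); push_cast at this; exact this
  have h1 : mem 1 (cst 1) := by
    have := mem_cst 1; push_cast at this; exact this
  cases hi : inv (add (add dg Zd) (sub da (cst (l + 6)))) with
  | none => rw [hi] at h; simp at h
  | some p =>
    rw [hi] at h
    simp only [Option.some.injEq] at h
    obtain ⟨hq, hp⟩ := mem_inv (mem_add (mem_add hg hz) (mem_sub ha hb)) hi
    rw [step_alg hq, ← h]
    exact mem_mul (mem_sub ha h1) (mem_sub h1 (mem_mul (mem_sub ha hb) hp))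

theorem inv_half_re {q : ℂ} {h : ℝ} (hh : 0 < h) (hq : h ≤ q.re) :
    q ≠ 0 ∧ ‖q⁻¹ - ((1 / (2 * h) : ℝ) : ℂ)‖ ≤ 1 / (2 * h) := by
  have hq0 : q ≠ 0 := by
    rintro rfl
    simp at hq
    linarith
  refine ⟨hq0, ?_⟩
  have h2 : ((2 * h : ℝ) : ℂ) ≠ 0 := by
    have : (2 * h : ℝ) ≠ 0 := by positivity
    exact_mod_cast this
  have e : q⁻¹ - ((1 / (2 * h) : ℝ) : ℂ) = (((2 * h : ℝ) : ℂ) - q) / (q * ((2 * h : ℝ) : ℂ)) := by
    rw [Complex.ofReal_div, Complex.ofReal_one]
    field_simp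
  rw [e, norm_div, norm_mul, Complex.norm_real, Real.norm_of_nonneg (by positivity : (0:ℝ) ≤ 2 * h)]
  have key : ‖(((2 * h : ℝ) : ℂ) - q)‖ ≤ ‖q‖ := by
    apply le_of_sq_le_sq _ (norm_nonneg _)
    rw [← Complex.normSq_eq_norm_sq, ← Complex.normSq_eq_norm_sq, normSq_apply, normSq_apply]
    simp only [Complex.sub_re, Complex.sub_im, Complex.ofReal_re, Complex.ofReal_im]
    nlinarith
  have hqn : 0 < ‖q‖ := norm_pos_iff.mpr hq0
  rw [div_le_div_iff₀ (by positivity) (by positivity)]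
  nlinarith

theorem startD_sound {l : ℕ} {a z g : ℂ} {da d : Dk} (hz : z.re = 0) (ha : mem a da)
    (hg : ((l : ℝ) + 5) / 2 ≤ g.re) (h : startD l da = some d) :
    mem ((a - 1) * (g + z) / (g + z + a - ((l : ℂ) + 6))) d := by
  unfold startD at h
  cases hb : Nat.blt 0 (startK l da) with
  | false => rw [hb] at h; simp at h
  | true =>
    rw [hb] at h
    simp only [cond_true, Option.some.injEq] at h
    have hK : 0 < startK l da := Nat.le_of_ble_eq_true hb
    set K := startK l da with hKd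
    have hKR : ((K : ℕ) : ℝ) = ((l : ℝ) + 5) * 1000000000000 + 2 * da.x - 2 * (da.r : ℝ)
        - 2 * (((l : ℝ) + 6) * 1000000000000) := by
      have h0 : ((K : ℕ) : ℤ) = ((l : Int) + 5) * 1000000000000 + 2 * da.x - 2 * (da.r : Int)
          - 2 * (((l : Int) + 6) * 1000000000000) := by
        rw [hKd] at hK ⊢
        unfold startK at hK ⊢
        omega
      have := congrArg (Int.cast : ℤ → ℝ) h0
      push_cast at this
      exact this
    have hKpos : (0 : ℝ) < K := by exact_mod_cast hK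
    have hb' : mem ((l : ℂ) + 6) (cst (l + 6)) := by
      have := mem_cst (l + 6); push_cast at this; exact this
    have h1 : mem 1 (cst 1) := by
      have := mem_cst 1; push_cast at this; exact this
    set q : ℂ := g + z + (a - ((l : ℂ) + 6)) with hqd
    have hare : (da.x : ℝ) - da.r ≤ SR * a.re := by
      have h2 : |((SR : ℂ) * a - cc da).re| ≤ da.r := (Complex.abs_re_le_norm _).trans ha
      have h3 := (abs_le.1 h2).1
      simp only [Complex.sub_re, Complex.re_ofReal_mul, cc] at h3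
      linarith
    have hqre : (K : ℝ) / 2 ≤ ((SR : ℂ) * q).re := by
      rw [Complex.re_ofReal_mul, hqd]
      simp only [add_re, sub_re, hz, Complex.natCast_re, Complex.re_ofNat]
      rw [hKR]
      have h4 : SR * (((l : ℝ) + 5) / 2) ≤ SR * g.re := mul_le_mul_of_nonneg_left hg SR_pos.le
      have : SR = 1000000000000 := rfl
      rw [this] at h4 hare ⊢
      nlinarith
    obtain ⟨hq0, hi⟩ := inv_half_re (by positivity : (0 : ℝ) < (K : ℝ) / 2) hqre
    have hqne : q ≠ 0 := by
      intro h0; rw [h0] at hq0; simp at hq0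
    have hS : (SR : ℂ) ≠ 0 := by exact_mod_cast SR_pos.ne'
    have hc1 := natdiv_ceil 1000000000000000000000000 K hK
    have hc2 : ((1000000000000000000000000 / K : Nat) : ℝ) ≤ 1000000000000000000000000 / (K : ℝ) := by
      have := Nat.cast_div_le (α := ℝ) (m := 1000000000000000000000000) (n := K)
      push_cast at this
      exact this
    rw [Nat.cast_ofNat] at hc1
    have hp : mem q⁻¹ ⟨((1000000000000000000000000 / K : Nat) : Int), 0,
        1000000000000000000000000 / K + 3⟩ := by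
      generalize (1000000000000000000000000 / K : ℕ) = t at hc1 hc2 ⊢
      unfold mem
      have hK2 : 1 / (2 * ((K : ℝ) / 2)) = 1 / K := by ring
      rw [hK2] at hi
      have hSS : SR * SR = 1000000000000000000000000 := by norm_num [SR]
      have e1 : (SR : ℂ) * q⁻¹ - cc ⟨(t : Int), 0, t + 3⟩ =
          ((SR * SR : ℝ) : ℂ) * (((SR : ℂ) * q)⁻¹ - ((1 / (K : ℝ) : ℝ) : ℂ)) +
          ((SR * SR / K - (t : ℝ) : ℝ) : ℂ) := by
        have hc : cc ⟨(t : Int), 0, t + 3⟩ = ((t : ℝ) : ℂ) := by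
          apply Complex.ext <;> simp [cc]
        rw [hc]
        have hKc : (K : ℂ) ≠ 0 := by exact_mod_cast hKpos.ne'
        push_cast
        field_simp
        ring
      rw [e1]
      refine (norm_add_le _ _).trans ?_
      have h5 : ‖((SR * SR : ℝ) : ℂ) * (((SR : ℂ) * q)⁻¹ - ((1 / (K : ℝ) : ℝ) : ℂ))‖ ≤
          (t : ℝ) + 1 := by
        rw [norm_mul, Complex.norm_real, Real.norm_of_nonneg (by rw [hSS]; norm_num)]
        calc SR * SR * ‖((SR : ℂ) * q)⁻¹ - ((1 / (K : ℝ) : ℝ) : ℂ)‖ ≤ SR * SR * (1 / K) :=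
              mul_le_mul_of_nonneg_left hi (by rw [hSS]; norm_num)
          _ = 1000000000000000000000000 / (K : ℝ) := by rw [hSS]; ring
          _ ≤ _ := hc1
      have h6 : ‖((SR * SR / K - (t : ℝ) : ℝ) : ℂ)‖ ≤ 1 := by
        rw [Complex.norm_real, Real.norm_eq_abs, hSS, abs_le]
        constructor <;> linarith
      have h7 : (((t + 3 : ℕ)) : ℝ) = (t : ℝ) + 3 := by push_cast; ring
      rw [h7]
      linarith
    rw [step_alg hqne, ← h]
    exact mem_mul (mem_sub ha h1) (mem_sub h1 (mem_mul (mem_sub ha hb') hp))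

theorem chainG_zero (l : ℕ) (cx cy : ℤ) (h : ℕ) (g : Option Dk) : chainG l cx cy h 0 g = g := by
  rw [chainG]

theorem chainG_succ (l : ℕ) (cx cy : ℤ) (h n : ℕ) (g : Option Dk) : chainG l cx cy h (n + 1) g =
    chainG l cx cy h n (g.bind (stepD l (aD l (n + 4) cx cy h))) := by
  rw [chainG]

theorem chainG_sound {l M : ℕ} {om rho : ℝ} (h1 : 0.3347760 ≤ om) (h2 : om ≤ 0.3347762)
    (h3 : 2.7050680 ≤ rho) (h4 : rho ≤ 2.7050684) {lam : ℂ} {cx cy : ℤ} {h : ℕ}
    (hl : mem lam ⟨cx, cy, h⟩) {g : ℕ → ℂ}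
    (hg : ∀ k : ℕ, 3 ≤ k → k < M → g k = (ak l om lam (k + 1) - 1) * (g (k + 1) + zz rho) /
      (g (k + 1) + zz rho + ak l om lam (k + 1) - (l + 6))) (n : ℕ) :
    ∀ (og : Option Dk) (d : Dk), n + 3 < M + 1 → (∀ dg, og = some dg → mem (g (n + 3)) dg) →
      chainG l cx cy h n og = some d → mem (g 3) d := by
  induction n with
  | zero =>
    intro og d _ hm hc
    rw [chainG_zero] at hc
    exact hm d hc
  | succ n ih =>
    intro og d hn hm hc
    rw [chainG_succ] at hc
    refine ih _ d (by omega) ?_ hc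
    intro d' hd'
    obtain ⟨dg, e1, e2⟩ := Option.bind_eq_some_iff.1 hd'
    have hm' := hm dg e1
    rw [show n + 1 + 3 = n + 4 by ring] at hm'
    have e := hg (n + 3) (by omega) (by omega)
    rw [show n + 3 + 1 = n + 4 by ring] at e
    have hstep := stepD_sound (mem_Zd h3 h4) (mem_aD (l := l) (k := n + 4) h1 h2 hl) hm' e2
    rw [← e] at hstep
    exact hstep

theorem g3D_sound {l N : ℕ} {om rho : ℝ} (h1 : 0.3347760 ≤ om) (h2 : om ≤ 0.3347762)
    (h3 : 2.7050680 ≤ rho) (h4 : rho ≤ 2.7050684) {lam : ℂ} {cx cy : ℤ} {h : ℕ}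
    (hl : mem lam ⟨cx, cy, h⟩) {g : ℕ → ℂ} (hg : Chain l om rho lam (N + 4) g) {d : Dk}
    (hd : g3D l N cx cy h = some d) : mem (g 3) d := by
  unfold g3D at hd
  refine chainG_sound h1 h2 h3 h4 hl hg.2 N _ d (by omega) ?_ hd
  intro dg hs
  have hz : (zz rho).re = 0 := by unfold zz; simp
  have hstart := startD_sound (z := zz rho) (g := g (N + 4)) hz
    (mem_aD (l := l) (k := N + 4) h1 h2 hl) hg.1 hs
  have e := hg.2 (N + 3) (by omega) (by omega)
  rw [show N + 3 + 1 = N + 4 by ring] at e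
  rw [← e] at hstart
  exact hstart

theorem stpD_sound {l : ℕ} {a z : ℂ} {p : ℂ × ℂ} {da : Dk} {dp : Dk × Dk} (hz : mem z Zd)
    (ha : mem a da) (hp1 : mem p.1 dp.1) (hp2 : mem p.2 dp.2) :
    mem (stp l z a p).1 (stpD l da dp).1 ∧ mem (stp l z a p).2 (stpD l da dp).2 := by
  have hb : mem ((l : ℂ) + 6) (cst (l + 6)) := by
    have := mem_cst (l + 6); push_cast at this; exact this
  have h1 : mem 1 (cst 1) := by
    have := mem_cst 1; push_cast at this; exact this
  unfold stp stpD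
  exact ⟨mem_add (mem_mul (mem_add (mem_sub ha hb) hz) hp1) hp2,
    mem_mul (mem_sub ha h1) (mem_add hp2 (mem_mul hz hp1))⟩

theorem uyD_sound {l : ℕ} {om rho : ℝ} (h1 : 0.3347760 ≤ om) (h2 : om ≤ 0.3347762)
    (h3 : 2.7050680 ≤ rho) (h4 : rho ≤ 2.7050684) {lam g : ℂ} {cx cy : ℤ} {h : ℕ}
    (hl : mem lam ⟨cx, cy, h⟩) {dg : Dk} (hg : mem g dg) :
    mem (uy l om rho lam g).1 (uyD l cx cy h dg).1 ∧
      mem (uy l om rho lam g).2 (uyD l cx cy h dg).2 := by
  have hz := mem_Zd h3 h4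
  have hb : mem ((l : ℂ) + 6) (cst (l + 6)) := by
    have := mem_cst (l + 6); push_cast at this; exact this
  have h11 : mem 1 (cst 1) := by
    have := mem_cst 1; push_cast at this; exact this
  have ha : ∀ k, mem (ak l om lam k) (aD l k cx cy h) := fun k => mem_aD h1 h2 hl
  unfold uy uyD
  have e1 : (stp l (zz rho) (ak l om lam 3) (1, g)).1 = (ak l om lam 3 - ((l : ℂ) + 6)) + zz rho + g := by
    unfold stp; simp
  have e2 : (stp l (zz rho) (ak l om lam 3) (1, g)).2 = (ak l om lam 3 - 1) * (g + zz rho) := by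
    unfold stp; simp
  have f1 : mem (stp l (zz rho) (ak l om lam 3) (1, g)).1
      (add (add (sub (aD l 3 cx cy h) (cst (l + 6))) Zd) dg) := by
    rw [e1]; exact mem_add (mem_add (mem_sub (ha 3) hb) hz) hg
  have f2 : mem (stp l (zz rho) (ak l om lam 3) (1, g)).2
      (mul (sub (aD l 3 cx cy h) (cst 1)) (add dg Zd)) := by
    rw [e2]; exact mem_mul (mem_sub (ha 3) h11) (mem_add hg hz)
  obtain ⟨g1, g2⟩ := stpD_sound (l := l) (p := stp l (zz rho) (ak l om lam 3) (1, g))
    (dp := (add (add (sub (aD l 3 cx cy h) (cst (l + 6))) Zd) dg,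
      mul (sub (aD l 3 cx cy h) (cst 1)) (add dg Zd))) hz (ha 2) f1 f2
  exact stpD_sound hz (ha 1) g1 g2

theorem sqD_sound {z : ℂ} {d : Dk} (h : mem z d) : mem (z * z) (sqD d) := mem_mul h h

theorem PPd_sound {l : ℕ} (hl : l ≤ 2) {lam : ℂ} {L : Dk} (h : mem lam L) :
    mem (PP l lam) (PPd l L) := by
  have h1 : mem 1 (cst 1) := by
    have := mem_cst 1; push_cast at this; exact this
  have hh : mem (1 / 2) ⟨500000000000, 0, 0⟩ := by
    unfold mem
    have : (SR : ℂ) * (1 / 2) - cc ⟨500000000000, 0, 0⟩ = 0 := by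
      apply Complex.ext
      · rw [Complex.sub_re, Complex.re_ofReal_mul]; simp [cc, SR]; norm_num
      · rw [Complex.sub_im, Complex.im_ofReal_mul]; simp [cc, SR]
    rw [this]; simp
  have hh' : mem (3 / 2) ⟨1500000000000, 0, 0⟩ := by
    unfold mem
    have : (SR : ℂ) * (3 / 2) - cc ⟨1500000000000, 0, 0⟩ = 0 := by
      apply Complex.ext
      · rw [Complex.sub_re, Complex.re_ofReal_mul]; simp [cc, SR]; norm_num
      · rw [Complex.sub_im, Complex.im_ofReal_mul]; simp [cc, SR]
    rw [this]; simp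
  match l, hl with
  | 0, _ =>
    have e : PP 0 lam = lam * (lam - 1) * ((lam + 1) * (lam + 1) * ((lam + 1) * (lam + 1))) := by
      simp only [PP]; ring
    rw [e]
    exact mem_mul (mem_mul h (mem_sub h h1)) (sqD_sound (sqD_sound (mem_add h h1)))
  | 1, _ =>
    have e : PP 1 lam = (lam - 1 / 2) * (lam + 1) *
        ((lam + 1) * (lam + 1) * ((lam + 1) * (lam + 1))) := by
      simp only [PP]; ring
    rw [e]
    exact mem_mul (mem_mul (mem_sub h hh) (mem_add h h1)) (sqD_sound (sqD_sound (mem_add h h1)))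
  | 2, _ =>
    have e : PP 2 lam = ((lam + 1) * (lam + 1)) *
        ((lam + 3 / 2) * (lam + 3 / 2) * ((lam + 3 / 2) * (lam + 3 / 2))) := by
      simp only [PP]; ring
    rw [e]
    exact mem_mul (sqD_sound (mem_add h h1)) (sqD_sound (sqD_sound (mem_add h hh')))

theorem posD_sound {z : ℂ} {d : Dk} (h : mem z d) (hp : posD d = true) : 0 < z.re := by
  unfold posD at hp
  have h2 : |((SR : ℂ) * z - cc d).re| ≤ d.r := (Complex.abs_re_le_norm _).trans h
  have h3 := (abs_le.1 h2).1
  simp only [Complex.sub_re, Complex.re_ofReal_mul, cc] at h3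
  cases hx : d.x with
  | negSucc n => rw [hx] at hp; simp at hp
  | ofNat n =>
    rw [hx] at hp h3
    simp only at hp
    have h4 : d.r < n := Nat.lt_of_succ_le (Nat.le_of_ble_eq_true hp)
    have h5 : (d.r : ℝ) < n := by exact_mod_cast h4
    have h6 : ((Int.ofNat n : ℤ) : ℝ) = (n : ℝ) := by simp
    rw [h6] at h3
    have h7 : 0 < SR * z.re := by linarith
    exact (mul_pos_iff_of_pos_left SR_pos).1 h7

/-- soundness of the check of one disc -/
theorem ok_sound {l N : ℕ} (hl2 : l ≤ 2) {om rho : ℝ} (h1 : 0.3347760 ≤ om) (h2 : om ≤ 0.3347762)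
    (h3 : 2.7050680 ≤ rho) (h4 : rho ≤ 2.7050684) {cx cy : ℤ} {h : ℕ}
    (hok : ok l N cx cy h = true) {lam : ℂ} (hl : mem lam ⟨cx, cy, h⟩) {g g' : ℕ → ℂ}
    (hg : Chain l om rho lam (N + 4) g) (hg' : Chain l om rho (conj lam) (N + 4) g') :
    0 < (Wr l om rho lam (g 3) (g' 3) * conj (PP l lam)).re := by
  unfold ok at hok
  have hlc : mem (conj lam) ⟨cx, -cy, h⟩ := mem_cj hl
  cases hs : g3D l N cx cy h with
  | none => rw [hs] at hok; simp at hok
  | some d =>
    cases hs' : g3D l N cx (-cy) h with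
    | none => rw [hs, hs'] at hok; simp at hok
    | some d' =>
      rw [hs, hs'] at hok
      simp only at hok
      have e1 := g3D_sound h1 h2 h3 h4 hl hg hs
      have e2 := g3D_sound h1 h2 h3 h4 hlc hg' hs'
      obtain ⟨u1, u2⟩ := uyD_sound (l := l) h1 h2 h3 h4 hl e1
      obtain ⟨v1, v2⟩ := uyD_sound (l := l) h1 h2 h3 h4 hlc e2
      refine posD_sound ?_ hok
      unfold WD Wr
      exact mem_mul (mem_add (mem_mul u2 (mem_cj v1)) (mem_mul (mem_cj v2) u1))
        (mem_cj (PPd_sound hl2 hl))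

/-- conjugation symmetry -/
theorem Wr_conj (l : ℕ) (om rho : ℝ) (lam g g' : ℂ) :
    Wr l om rho (conj lam) g' g * conj (PP l (conj lam)) =
      conj (Wr l om rho lam g g' * conj (PP l lam)) := by
  have hPP : conj (PP l (conj lam)) = PP l lam := by
    match l with
    | 0 => simp [PP]
    | 1 => simp [PP, map_ofNat]
    | 2 => simp [PP, map_ofNat]
    | (n + 3) => simp [PP, map_ofNat]
  rw [hPP]
  unfold Wr
  simp only [map_mul, map_add, Complex.conj_conj]
  ring

/-- covering of `[t0, t1]` (scaled) by the intervals `[c-h, c+h]` -/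
def covers : Int → List (Int × Nat) → Int → Bool
  | t, [], t1 => decide (t1 ≤ t)
  | t, (c, h) :: L, t1 => decide (c - (h : Int) ≤ t) && covers (c + (h : Int)) L t1

theorem covers_spec : ∀ (L : List (Int × Nat)) (t t1 : Int), covers t L t1 = true →
    ∀ s : ℝ, (t : ℝ) ≤ s → s < t1 → ∃ p ∈ L, |s - (p.1 : ℝ)| ≤ (p.2 : ℝ)
  | [], t, t1, h, s, hs, hs1 => by
    simp only [covers, decide_eq_true_eq] at h
    have : (t1 : ℝ) ≤ t := by exact_mod_cast h
    linarith
  | (c, h) :: L, t, t1, hh, s, hs, hs1 => by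
    simp only [covers, Bool.and_eq_true, decide_eq_true_eq] at hh
    obtain ⟨h1, h2⟩ := hh
    rcases lt_or_ge s ((c + (h : Int) : Int) : ℝ) with h3 | h3
    · refine ⟨(c, h), by simp, ?_⟩
      have h1' : ((c - (h : Int) : Int) : ℝ) ≤ t := by exact_mod_cast h1
      push_cast at h1' h3
      rw [abs_le]
      constructor <;> simp only <;> linarith
    · obtain ⟨p, hp, hp'⟩ := covers_spec L _ t1 h2 s h3 hs1
      exact ⟨p, by simp [hp], hp'⟩

/-- from the checks on the three sides (upper half) to the certificate -/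
theorem certR_of {l N : ℕ} (hl2 : l ≤ 2) {om rho : ℝ} (h1 : 0.3347760 ≤ om) (h2 : om ≤ 0.3347762)
    (h3 : 2.7050680 ≤ rho) (h4 : rho ≤ 2.7050684) {x0 x1 T : ℝ} {X0 X1 TT : Int}
    (hX0 : SR * x0 = X0) (hX1 : SR * x1 = X1) (hT : SR * T = TT)
    {LL LT LR : List (Int × Nat)} (cL : covers 0 LL (TT + 1) = true)
    (cT : covers X0 LT (X1 + 1) = true) (cR : covers 0 LR (TT + 1) = true)
    (oL : ∀ p ∈ LL, ok l N X0 p.1 p.2 = true) (oT : ∀ p ∈ LT, ok l N p.1 TT p.2 = true)
    (oR : ∀ p ∈ LR, ok l N X1 p.1 p.2 = true) : CertR l om rho x0 x1 T (N + 4) := by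
  have vert : ∀ (x : ℝ) (X : Int) (L : List (Int × Nat)), SR * x = X →
      covers 0 L (TT + 1) = true → (∀ p ∈ L, ok l N X p.1 p.2 = true) →
      ∀ lam : ℂ, lam.re = x → 0 ≤ lam.im → lam.im ≤ T → ∀ g g' : ℕ → ℂ,
        Chain l om rho lam (N + 4) g → Chain l om rho (conj lam) (N + 4) g' →
        0 < (Wr l om rho lam (g 3) (g' 3) * conj (PP l lam)).re := by
    intro x X L hX hc ho lam hre him him' g g' hg hg'
    obtain ⟨p, hp, hd⟩ := covers_spec L 0 (TT + 1) hc (SR * lam.im)
      (by simpa using mul_nonneg SR_pos.le him)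
      (by
        push_cast
        rw [← hT]
        have := mul_le_mul_of_nonneg_left him' SR_pos.le
        linarith)
    refine ok_sound hl2 h1 h2 h3 h4 (ho p hp) ?_ hg hg'
    unfold mem
    have e : (SR : ℂ) * lam - cc ⟨X, p.1, p.2⟩ = ((SR * lam.im - p.1 : ℝ) : ℂ) * I := by
      apply Complex.ext
      · rw [Complex.sub_re, Complex.re_ofReal_mul, hre, hX]; simp [cc]
      · rw [Complex.sub_im, Complex.im_ofReal_mul]; simp [cc]
    rw [e, norm_mul, Complex.norm_I, mul_one, Complex.norm_real]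
    exact hd
  have hor : ∀ lam : ℂ, lam.im = T → x0 ≤ lam.re → lam.re ≤ x1 → ∀ g g' : ℕ → ℂ,
        Chain l om rho lam (N + 4) g → Chain l om rho (conj lam) (N + 4) g' →
        0 < (Wr l om rho lam (g 3) (g' 3) * conj (PP l lam)).re := by
    intro lam him hre hre' g g' hg hg'
    obtain ⟨p, hp, hd⟩ := covers_spec LT X0 (X1 + 1) cT (SR * lam.re)
      (by rw [← hX0]; exact mul_le_mul_of_nonneg_left hre SR_pos.le)
      (by
        push_cast
        rw [← hX1]
        have := mul_le_mul_of_nonneg_left hre' SR_pos.le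
        linarith)
    refine ok_sound hl2 h1 h2 h3 h4 (oT p hp) ?_ hg hg'
    unfold mem
    have e : (SR : ℂ) * lam - cc ⟨p.1, TT, p.2⟩ = ((SR * lam.re - p.1 : ℝ) : ℂ) := by
      apply Complex.ext
      · rw [Complex.sub_re, Complex.re_ofReal_mul]; simp [cc]
      · rw [Complex.sub_im, Complex.im_ofReal_mul, him, hT]; simp [cc]
    rw [e, Complex.norm_real]
    exact hd
  -- the upper half of the boundary
  have up : ∀ lam ∈ BdR x0 x1 T, 0 ≤ lam.im → ∀ g g' : ℕ → ℂ,
        Chain l om rho lam (N + 4) g → Chain l om rho (conj lam) (N + 4) g' →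
        0 < (Wr l om rho lam (g 3) (g' 3) * conj (PP l lam)).re := by
    intro lam hlam him g g' hg hg'
    rcases hlam with ⟨h5, h6⟩ | ⟨h5, h6, h7⟩ | ⟨h5, h6⟩
    · rw [abs_of_nonneg him] at h6
      exact vert x0 X0 LL hX0 cL oL lam h5 him h6 g g' hg hg'
    · rw [abs_of_nonneg him] at h5
      exact hor lam h5 h6 h7 g g' hg hg'
    · rw [abs_of_nonneg him] at h6
      exact vert x1 X1 LR hX1 cR oR lam h5 him h6 g g' hg hg'
  intro lam hlam g g' hg hg'
  rcases le_total 0 lam.im with him | him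
  · exact up lam hlam him g g' hg hg'
  · have hmem : conj lam ∈ BdR x0 x1 T := by
      unfold BdR at *
      simpa using hlam
    have := up (conj lam) hmem (by simpa using him) g' g hg' (by rwa [Complex.conj_conj])
    rw [Wr_conj, Complex.conj_re] at this
    exact this

end Crest.Agent.R086.A4Fix
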