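import Mathlib

/-!
Row 86, Part A4 (helper522): the 14 numeric inequalities of the HP certificates (note 12972).
`C(t) = k + n t - m/(t+s) - q/(t+r)`; each inequality is one polynomial inequality on `[0,∞)`,
proved by the Bernstein form on a few intervals.
-/

set_option autoImplicit false
set_option maxRecDepth 10000

namespace Crest.Agent.R086.A4

def NumIneq (B2 al be ur er p0 p1 k n m s q r : ℝ) : Prop := ∀ t : ℝ, 0 ≤ t →
  (k + n * t - m / (t + s) - q / (t + r)) ^ 2 ≤
    (al + be * t) * (B2 * (ur + be * t) / (1 + 2 * er * t + t ^ 2) + (p0 + p1 * t) +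
      (n + m / (t + s) ^ 2 + q / (t + r) ^ 2))

theorem poly_P1f (t : ℝ) (ht : 0 ≤ t) :
    0 ≤ 348907960 + 25374397398*t + (-101341489357)*t^2 + 660893838030*t^3 + 16429556226475*t^4 + (-10458524401000)*t^5 + 1892656350000*t^6 := by
  rcases le_total t 1 with h | h
  · have h1 : 0 ≤ t - 0 := by linarith
    have h2 : 0 ≤ 1 - t := by linarith
    have key : 348907960 + 25374397398*t + (-101341489357)*t^2 + 660893838030*t^3 + 16429556226475*t^4 + (-10458524401000)*t^5 + 1892656350000*t^6 =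
        348907960 * (t - 0)^0 * (1 - t)^6 + 27467845158 * (t - 0)^1 * (1 - t)^5 + 30764117033 * (t - 0)^2 * (1 - t)^4 + 516250013782 * (t - 0)^3 * (1 - t)^3 + 18063166397803 * (t - 0)^4 * (1 - t)^2 + 24106869043362 * (t - 0)^5 * (1 - t)^1 + 8448963829506 * (t - 0)^6 * (1 - t)^0 := by ring
    rw [key]; positivity
  rcases le_total t 4 with h | h
  · have h1 : 0 ≤ t - 1 := by linarith
    have h2 : 0 ≤ 4 - t := by linarith
    have key : 348907960 + 25374397398*t + (-101341489357)*t^2 + 660893838030*t^3 + 16429556226475*t^4 + (-10458524401000)*t^5 + 1892656350000*t^6 =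
        (104308195426/9) * (t - 1)^0 * (4 - t)^6 + 178949965402 * (t - 1)^1 * (4 - t)^5 + (82656408228883/81) * (t - 1)^2 * (4 - t)^4 + (203392641318382/81) * (t - 1)^3 * (4 - t)^3 + (59282785139411/27) * (t - 1)^4 * (4 - t)^2 + (33532496235046/81) * (t - 1)^5 * (4 - t)^1 + (143281711695040/81) * (t - 1)^6 * (4 - t)^0 := by ring
    rw [key]; positivity
  have h1 : 0 ≤ t - 4 := by linarith
  have key : 348907960 + 25374397398*t + (-101341489357)*t^2 + 660893838030*t^3 + 16429556226475*t^4 + (-10458524401000)*t^5 + 1892656350000*t^6 =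
      1289535405255360 + 2478473321805582 * (t - 4)^1 + 2159411549668603 * (t - 4)^2 + 1012770017301630 * (t - 4)^3 + 261496592206475 * (t - 4)^4 + 34965227999000 * (t - 4)^5 + 1892656350000 * (t - 4)^6 := by ring
  rw [key]; positivity

theorem num_P1f : NumIneq 16 (73/2665) (40/41) (1207/2665) (16/65) (-4237/500) (172/125)
    (1/10) (1/10) (1/50) (1/20) 0 1 := by
  intro t ht
  have hQ := poly_P1f t ht
  have hd : 0 < 1 + 2 * (16/65) * t + t ^ 2 := by positivity
  have hs : 0 < t + (1/20) := by positivity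
  have hr : 0 < t + 1 := by positivity
  rw [← sub_nonneg]
  have e : ((73/2665) + (40/41) * t) * (16 * ((1207/2665) + (40/41) * t) / (1 + 2 * (16/65) * t + t ^ 2) + ((-4237/500) + (172/125) * t) +
      ((1/10) + (1/50) / (t + (1/20)) ^ 2 + 0 / (t + 1) ^ 2)) -
      ((1/10) + (1/10) * t - (1/50) / (t + (1/20)) - 0 / (t + 1)) ^ 2 =
      (348907960 + 25374397398*t + (-101341489357)*t^2 + 660893838030*t^3 + 16429556226475*t^4 + (-10458524401000)*t^5 + 1892656350000*t^6) / (1420445000000 * ((1 + 2 * (16/65) * t + t ^ 2) * (t + (1/20)) ^ 2)) := by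
    field_simp
    ring
  rw [e]
  exact div_nonneg hQ (by positivity)

theorem poly_P1n (t : ℝ) (ht : 0 ≤ t) :
    0 ≤ 37194831 + 12545201358*t + (-49094579369)*t^2 + 3616288640*t^3 + 162178351640*t^4 + (-114354412000)*t^5 + 23786150000*t^6 := by
  rcases le_total t (1/2) with h | h
  · have h1 : 0 ≤ t - 0 := by linarith
    have h2 : 0 ≤ (1/2) - t := by linarith
    have key : 37194831 + 12545201358*t + (-49094579369)*t^2 + 3616288640*t^3 + 162178351640*t^4 + (-114354412000)*t^5 + 23786150000*t^6 =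
        2380469184 * (t - 0)^0 * ((1/2) - t)^6 + 415729258560 * (t - 0)^1 * ((1/2) - t)^5 + 1257425985136 * (t - 0)^2 * ((1/2) - t)^4 + 948951047744 * (t - 0)^3 * ((1/2) - t)^3 + 72596186816 * (t - 0)^4 * ((1/2) - t)^2 + 34970869248 * (t - 0)^5 * ((1/2) - t)^1 + 91034684416 * (t - 0)^6 * ((1/2) - t)^0 := by ring
    rw [key]; positivity
  rcases le_total t (5/2) with h | h
  · have h1 : 0 ≤ t - (1/2) := by linarith
    have h2 : 0 ≤ (5/2) - t := by linarith
    have key : 37194831 + 12545201358*t + (-49094579369)*t^2 + 3616288640*t^3 + 162178351640*t^4 + (-114354412000)*t^5 + 23786150000*t^6 =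
        (88901059/4) * (t - (1/2))^0 * ((5/2) - t)^6 + 632606703 * (t - (1/2))^1 * ((5/2) - t)^5 + (15528544297/2) * (t - (1/2))^2 * ((5/2) - t)^4 + 37869568974 * (t - (1/2))^3 * ((5/2) - t)^3 + (257553432499/4) * (t - (1/2))^4 * ((5/2) - t)^2 + 21697434995 * (t - (1/2))^5 * ((5/2) - t)^1 + 11810905134 * (t - (1/2))^6 * ((5/2) - t)^0 := by ring
    rw [key]; positivity
  have h1 : 0 ≤ t - (5/2) := by linarith
  have key : 37194831 + 12545201358*t + (-49094579369)*t^2 + 3616288640*t^3 + 162178351640*t^4 + (-114354412000)*t^5 + 23786150000*t^6 =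
      755897928576 + 1573375865888 * (t - (5/2))^1 + 2129036162556 * (t - (5/2))^2 + 1911420930040 * (t - (5/2))^3 + 962699764140 * (t - (5/2))^4 + 242437838000 * (t - (5/2))^5 + 23786150000 * (t - (5/2))^6 := by ring
  rw [key]; positivity

theorem num_P1n : NumIneq 16 (720/1681) (40/41) 0 (9/41) (-2029/250) (223/125)
    (7/10) (3/5) (12/25) (3/50) 0 1 := by
  intro t ht
  have hQ := poly_P1n t ht
  have hd : 0 < 1 + 2 * (9/41) * t + t ^ 2 := by positivity
  have hs : 0 < t + (3/50) := by positivity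
  have hr : 0 < t + 1 := by positivity
  rw [← sub_nonneg]
  have e : ((720/1681) + (40/41) * t) * (16 * (0 + (40/41) * t) / (1 + 2 * (9/41) * t + t ^ 2) + ((-2029/250) + (223/125) * t) +
      ((3/5) + (12/25) / (t + (3/50)) ^ 2 + 0 / (t + 1) ^ 2)) -
      ((7/10) + (3/5) * t - (12/25) / (t + (3/50)) - 0 / (t + 1)) ^ 2 =
      (37194831 + 12545201358*t + (-49094579369)*t^2 + 3616288640*t^3 + 162178351640*t^4 + (-114354412000)*t^5 + 23786150000*t^6) / (17230250000 * ((1 + 2 * (9/41) * t + t ^ 2) * (t + (3/50)) ^ 2)) := by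
    field_simp
    ring
  rw [e]
  exact div_nonneg hQ (by positivity)

theorem poly_P2f (t : ℝ) (ht : 0 ≤ t) :
    0 ≤ 2335871360 + 108953659173*t + (-552762208248)*t^2 + 677942883305*t^3 + 12520523100750*t^4 + (-9546335818500)*t^5 + 2184734825000*t^6 := by
  rcases le_total t (1/2) with h | h
  · have h1 : 0 ≤ t - 0 := by linarith
    have h2 : 0 ≤ (1/2) - t := by linarith
    have key : 2335871360 + 108953659173*t + (-552762208248)*t^2 + 677942883305*t^3 + 12520523100750*t^4 + (-9546335818500)*t^5 + 2184734825000*t^6 =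
        149495767040 * (t - 0)^0 * ((1/2) - t)^6 + 4383491695776 * (t - 0)^1 * ((1/2) - t)^5 + 10830826641312 * (t - 0)^2 * ((1/2) - t)^4 + 7901848014728 * (t - 0)^3 * ((1/2) - t)^3 + 50395157051472 * (t - 0)^4 * ((1/2) - t)^2 + 80294921110368 * (t - 0)^5 * ((1/2) - t)^1 + 33389516186048 * (t - 0)^6 * ((1/2) - t)^0 := by ring
    rw [key]; positivity
  rcases le_total t (5/2) with h | h
  · have h1 : 0 ≤ t - (1/2) := by linarith
    have h2 : 0 ≤ (5/2) - t := by linarith
    have key : 2335871360 + 108953659173*t + (-552762208248)*t^2 + 677942883305*t^3 + 12520523100750*t^4 + (-9546335818500)*t^5 + 2184734825000*t^6 =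
        (521711190407/64) * (t - (1/2))^0 * ((5/2) - t)^6 + (2658225785703/16) * (t - (1/2))^1 * ((5/2) - t)^5 + (82779671430543/64) * (t - (1/2))^2 * ((5/2) - t)^4 + (36717971363829/8) * (t - (1/2))^3 * ((5/2) - t)^3 + (432615674092653/64) * (t - (1/2))^4 * ((5/2) - t)^2 + (42334067402991/16) * (t - (1/2))^5 * ((5/2) - t)^1 + (97618915751805/64) * (t - (1/2))^6 * ((5/2) - t)^0 := by ring
    rw [key]; positivity
  have h1 : 0 ≤ t - (5/2) := by linarith
  have key : 2335871360 + 108953659173*t + (-552762208248)*t^2 + 677942883305*t^3 + 12520523100750*t^4 + (-9546335818500)*t^5 + 2184734825000*t^6 =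
      97618915751805 + 208188612449433 * (t - (5/2))^1 + 262554515577477 * (t - (5/2))^2 + 211966818047055 * (t - (5/2))^3 + 98010215213250 * (t - (5/2))^4 + 23224686556500 * (t - (5/2))^5 + 2184734825000 * (t - (5/2))^6 := by ring
  rw [key]; positivity

theorem num_P2f : NumIneq (49/4) (267/3965) (60/61) (1653/3965) (16/65) (-911/125) (1423/1000)
    (3/10) (1/10) (2/25) (1/10) 0 1 := by
  intro t ht
  have hQ := poly_P2f t ht
  have hd : 0 < 1 + 2 * (16/65) * t + t ^ 2 := by positivity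
  have hs : 0 < t + (1/10) := by positivity
  have hr : 0 < t + 1 := by positivity
  rw [← sub_nonneg]
  have e : ((267/3965) + (60/61) * t) * ((49/4) * ((1653/3965) + (60/61) * t) / (1 + 2 * (16/65) * t + t ^ 2) + ((-911/125) + (1423/1000) * t) +
      ((1/10) + (2/25) / (t + (1/10)) ^ 2 + 0 / (t + 1) ^ 2)) -
      ((3/10) + (1/10) * t - (2/25) / (t + (1/10)) - 0 / (t + 1)) ^ 2 =
      (2335871360 + 108953659173*t + (-552762208248)*t^2 + 677942883305*t^3 + 12520523100750*t^4 + (-9546335818500)*t^5 + 2184734825000*t^6) / (1572122500000 * ((1 + 2 * (16/65) * t + t ^ 2) * (t + (1/10)) ^ 2)) := by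
    field_simp
    ring
  rw [e]
  exact div_nonneg hQ (by positivity)

theorem poly_P2n (t : ℝ) (ht : 0 ≤ t) :
    0 ≤ 94107872 + 34020812798*t + (-108856935575)*t^2 + (-39750498856)*t^3 + 469674058945*t^4 + (-314959988500)*t^5 + 72606012500*t^6 := by
  rcases le_total t (1/2) with h | h
  · have h1 : 0 ≤ t - 0 := by linarith
    have h2 : 0 ≤ (1/2) - t := by linarith
    have key : 94107872 + 34020812798*t + (-108856935575)*t^2 + (-39750498856)*t^3 + 469674058945*t^4 + (-314959988500)*t^5 + 72606012500*t^6 =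
        6022903808 * (t - 0)^0 * ((1/2) - t)^6 + 1124803432384 * (t - 0)^1 * ((1/2) - t)^5 + 3791962635600 * (t - 0)^2 * ((1/2) - t)^4 + 3722270303872 * (t - 0)^3 * ((1/2) - t)^3 + 1451422100516 * (t - 0)^4 * ((1/2) - t)^2 + 686084115744 * (t - 0)^5 * ((1/2) - t)^1 + 356356224576 * (t - 0)^6 * ((1/2) - t)^0 := by ring
    rw [key]; positivity
  rcases le_total t (7/2) with h | h
  · have h1 : 0 ≤ t - (1/2) := by linarith
    have h2 : 0 ≤ (7/2) - t := by linarith
    have key : 94107872 + 34020812798*t + (-108856935575)*t^2 + (-39750498856)*t^3 + 469674058945*t^4 + (-314959988500)*t^5 + 72606012500*t^6 =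
        (206224667/27) * (t - (1/2))^0 * ((7/2) - t)^6 + (6279199501/27) * (t - (1/2))^1 * ((7/2) - t)^5 + (1181217752609/324) * (t - (1/2))^2 * ((7/2) - t)^4 + (1886353284701/81) * (t - (1/2))^3 * ((7/2) - t)^3 + (2438165874223/54) * (t - (1/2))^4 * ((7/2) - t)^2 + (123346895666/81) * (t - (1/2))^5 * ((7/2) - t)^1 + (15825811471529/324) * (t - (1/2))^6 * ((7/2) - t)^0 := by ring
    rw [key]; positivity
  have h1 : 0 ≤ t - (7/2) := by linarith
  have key : 94107872 + 34020812798*t + (-108856935575)*t^2 + (-39750498856)*t^3 + 469674058945*t^4 + (-314959988500)*t^5 + 72606012500*t^6 =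
      (142432303243761/4) + (141692221869765/2) * (t - (7/2))^1 + (249549229404953/4) * (t - (7/2))^2 + 30212743453874 * (t - (7/2))^3 + 8299229057070 * (t - (7/2))^4 + 1209766274000 * (t - (7/2))^5 + 72606012500 * (t - (7/2))^6 := by ring
  rw [key]; positivity

theorem num_P2n : NumIneq (49/4) (1320/3721) (60/61) 0 (11/61) (-6763/1000) (1799/1000)
    (3/5) (7/10) (2/5) (3/50) 0 1 := by
  intro t ht
  have hQ := poly_P2n t ht
  have hd : 0 < 1 + 2 * (11/61) * t + t ^ 2 := by positivity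
  have hs : 0 < t + (3/50) := by positivity
  have hr : 0 < t + 1 := by positivity
  rw [← sub_nonneg]
  have e : ((1320/3721) + (60/61) * t) * ((49/4) * (0 + (60/61) * t) / (1 + 2 * (11/61) * t + t ^ 2) + ((-6763/1000) + (1799/1000) * t) +
      ((7/10) + (2/5) / (t + (3/50)) ^ 2 + 0 / (t + 1) ^ 2)) -
      ((3/5) + (7/10) * t - (2/5) / (t + (3/50)) - 0 / (t + 1)) ^ 2 =
      (94107872 + 34020812798*t + (-108856935575)*t^2 + (-39750498856)*t^3 + 469674058945*t^4 + (-314959988500)*t^5 + 72606012500*t^6) / (56745250000 * ((1 + 2 * (11/61) * t + t ^ 2) * (t + (3/50)) ^ 2)) := by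
    field_simp
    ring
  rw [e]
  exact div_nonneg hQ (by positivity)

theorem poly_P3f (t : ℝ) (ht : 0 ≤ t) :
    0 ≤ 26448328 + 454851188*t + 4009556098*t^2 + 75292141223*t^3 + 111250828893*t^4 + 192485238620*t^5 + 22074867900*t^6 + (-5177942875)*t^7 + 2498585625*t^8 := by
  rcases le_total t 4 with h | h
  · have h1 : 0 ≤ t - 0 := by linarith
    have h2 : 0 ≤ 4 - t := by linarith
    have key : 26448328 + 454851188*t + 4009556098*t^2 + 75292141223*t^3 + 111250828893*t^4 + 192485238620*t^5 + 22074867900*t^6 + (-5177942875)*t^7 + 2498585625*t^8 =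
        (3306041/8192) * (t - 0)^0 * (4 - t)^8 + (126936961/4096) * (t - 0)^1 * (4 - t)^7 + (4851830251/4096) * (t - 0)^2 * (4 - t)^6 + (327706439365/4096) * (t - 0)^3 * (4 - t)^5 + (837523771887/1024) * (t - 0)^4 * (4 - t)^4 + (22535057608755/4096) * (t - 0)^5 * (4 - t)^3 + (56362674814869/4096) * (t - 0)^6 * (4 - t)^2 + (51608047099783/4096) * (t - 0)^7 * (4 - t)^1 + (49975042838351/8192) * (t - 0)^8 * (4 - t)^0 := by ring
    rw [key]; positivity
  have h1 : 0 ≤ t - 4 := by linarith
  have key : 26448328 + 454851188*t + 4009556098*t^2 + 75292141223*t^3 + 111250828893*t^4 + 192485238620*t^5 + 22074867900*t^6 + (-5177942875)*t^7 + 2498585625*t^8 =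
      399800342706808 + 593168497014484 * (t - 4)^1 + 394756944853302 * (t - 4)^2 + 157793300414711 * (t - 4)^3 + 42434986257293 * (t - 4)^4 + 7937424142220 * (t - 4)^5 + 996458827400 * (t - 4)^6 + 74776797125 * (t - 4)^7 + 2498585625 * (t - 4)^8 := by ring
  rw [key]; positivity

theorem num_P3f : NumIneq (49/4) (76/1445) (77/85) (4/5) (8/17) (-2729/1000) (279/1000)
    (-5/2) (3/10) (4/5) (1/5) (-14/5) (2/5) := by
  intro t ht
  have hQ := poly_P3f t ht
  have hd : 0 < 1 + 2 * (8/17) * t + t ^ 2 := by positivity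
  have hs : 0 < t + (1/5) := by positivity
  have hr : 0 < t + (2/5) := by positivity
  rw [← sub_nonneg]
  have e : ((76/1445) + (77/85) * t) * ((49/4) * ((4/5) + (77/85) * t) / (1 + 2 * (8/17) * t + t ^ 2) + ((-2729/1000) + (279/1000) * t) +
      ((3/10) + (4/5) / (t + (1/5)) ^ 2 + (-14/5) / (t + (2/5)) ^ 2)) -
      ((-5/2) + (3/10) * t - (4/5) / (t + (1/5)) - (-14/5) / (t + (2/5))) ^ 2 =
      (26448328 + 454851188*t + 4009556098*t^2 + 75292141223*t^3 + 111250828893*t^4 + 192485238620*t^5 + 22074867900*t^6 + (-5177942875)*t^7 + 2498585625*t^8) / (15353125000 * ((1 + 2 * (8/17) * t + t ^ 2) * (t + (1/5)) ^ 2 * (t + (2/5)) ^ 2)) := by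
    field_simp
    ring
  rw [e]
  exact div_nonneg hQ (by positivity)

theorem poly_P3n (t : ℝ) (ht : 0 ≤ t) :
    0 ≤ 102980943 + (-1468810932)*t + 12986320457*t^2 + 14331106108*t^3 + (-205946739036)*t^4 + 352229900040*t^5 + (-2327258550)*t^6 + (-109995542000)*t^7 + 32976260000*t^8 := by
  rcases le_total t (1/2) with h | h
  · have h1 : 0 ≤ t - 0 := by linarith
    have h2 : 0 ≤ (1/2) - t := by linarith
    have key : 102980943 + (-1468810932)*t + 12986320457*t^2 + 14331106108*t^3 + (-205946739036)*t^4 + 352229900040*t^5 + (-2327258550)*t^6 + (-109995542000)*t^7 + 32976260000*t^8 =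
        26363121408 * (t - 0)^0 * ((1/2) - t)^8 + 22897171968 * (t - 0)^1 * ((1/2) - t)^7 + 253237313600 * (t - 0)^2 * ((1/2) - t)^6 + 2973513464576 * (t - 0)^3 * ((1/2) - t)^5 + 6729842314624 * (t - 0)^4 * ((1/2) - t)^4 + 5741753865024 * (t - 0)^5 * ((1/2) - t)^3 + 2516146826792 * (t - 0)^6 * ((1/2) - t)^2 + 1208891559216 * (t - 0)^7 * ((1/2) - t)^1 + 454442744360 * (t - 0)^8 * ((1/2) - t)^0 := by ring
    rw [key]; positivity
  rcases le_total t (5/2) with h | h
  · have h1 : 0 ≤ t - (1/2) := by linarith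
    have h2 : 0 ≤ (5/2) - t := by linarith
    have key : 102980943 + (-1468810932)*t + 12986320457*t^2 + 14331106108*t^3 + (-205946739036)*t^4 + 352229900040*t^5 + (-2327258550)*t^6 + (-109995542000)*t^7 + 32976260000*t^8 =
        (56805343045/8192) * (t - (1/2))^0 * ((5/2) - t)^8 + (104235496387/512) * (t - (1/2))^1 * ((5/2) - t)^7 + (5910107874701/2048) * (t - (1/2))^2 * ((5/2) - t)^6 + (5791817053379/256) * (t - (1/2))^3 * ((5/2) - t)^5 + (397448886795459/4096) * (t - (1/2))^4 * ((5/2) - t)^4 + (108899960359727/512) * (t - (1/2))^5 * ((5/2) - t)^3 + (417388102573745/2048) * (t - (1/2))^6 * ((5/2) - t)^2 + (2285824410531/32) * (t - (1/2))^7 * ((5/2) - t)^1 + (296570429694141/8192) * (t - (1/2))^8 * ((5/2) - t)^0 := by ring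
    rw [key]; positivity
  have h1 : 0 ≤ t - (5/2) := by linarith
  have key : 102980943 + (-1468810932)*t + 12986320457*t^2 + 14331106108*t^3 + (-205946739036)*t^4 + 352229900040*t^5 + (-2327258550)*t^6 + (-109995542000)*t^7 + 32976260000*t^8 =
      (296570429694141/32) + (223424048557149/8) * (t - (5/2))^1 + (367332943628711/8) * (t - (5/2))^2 + 49196355968248 * (t - (5/2))^3 + (67988790857303/2) * (t - (5/2))^4 + 14734633634290 * (t - (5/2))^5 + 3843596256450 * (t - (5/2))^6 + 549529658000 * (t - (5/2))^7 + 32976260000 * (t - (5/2))^8 := by ring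
  rw [key]; positivity

theorem num_P3n : NumIneq (49/4) (36/85) (77/85) (-36/85) 0 (-1951/500) (1657/1000)
    (5/2) (3/5) (3/10) (1/20) (39/20) (3/5) := by
  intro t ht
  have hQ := poly_P3n t ht
  have hd : 0 < 1 + 2 * 0 * t + t ^ 2 := by positivity
  have hs : 0 < t + (1/20) := by positivity
  have hr : 0 < t + (3/5) := by positivity
  rw [← sub_nonneg]
  have e : ((36/85) + (77/85) * t) * ((49/4) * ((-36/85) + (77/85) * t) / (1 + 2 * 0 * t + t ^ 2) + ((-1951/500) + (1657/1000) * t) +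
      ((3/5) + (3/10) / (t + (1/20)) ^ 2 + (39/20) / (t + (3/5)) ^ 2)) -
      ((5/2) + (3/5) * t - (3/10) / (t + (1/20)) - (39/20) / (t + (3/5))) ^ 2 =
      (102980943 + (-1468810932)*t + 12986320457*t^2 + 14331106108*t^3 + (-205946739036)*t^4 + 352229900040*t^5 + (-2327258550)*t^6 + (-109995542000)*t^7 + 32976260000*t^8) / (28900000000 * ((1 + 2 * 0 * t + t ^ 2) * (t + (1/20)) ^ 2 * (t + (3/5)) ^ 2)) := by
    field_simp
    ring
  rw [e]
  exact div_nonneg hQ (by positivity)

theorem poly_P4f (t : ℝ) (ht : 0 ≤ t) :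
    0 ≤ 117802800 + 20573067300*t + (-61400589440)*t^2 + (-75624990193)*t^3 + 908036827740*t^4 + (-740409587125)*t^5 + 213356162500*t^6 := by
  rcases le_total t (1/2) with h | h
  · have h1 : 0 ≤ t - 0 := by linarith
    have h2 : 0 ≤ (1/2) - t := by linarith
    have key : 117802800 + 20573067300*t + (-61400589440)*t^2 + (-75624990193)*t^3 + 908036827740*t^4 + (-740409587125)*t^5 + 213356162500*t^6 =
        7539379200 * (t - 0)^0 * ((1/2) - t)^6 + 703574428800 * (t - 0)^1 * ((1/2) - t)^5 + 2422372024960 * (t - 0)^2 * ((1/2) - t)^4 + 2199531474296 * (t - 0)^3 * ((1/2) - t)^3 + 2619163184088 * (t - 0)^4 * ((1/2) - t)^2 + 3375765002078 * (t - 0)^5 * ((1/2) - t)^1 + 1443152479426 * (t - 0)^6 * ((1/2) - t)^0 := by ring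
    rw [key]; positivity
  rcases le_total t (7/2) with h | h
  · have h1 : 0 ≤ t - (1/2) := by linarith
    have h2 : 0 ≤ (7/2) - t := by linarith
    have key : 117802800 + 20573067300*t + (-61400589440)*t^2 + (-75624990193)*t^3 + 908036827740*t^4 + (-740409587125)*t^5 + 213356162500*t^6 =
        (721576239713/23328) * (t - (1/2))^0 * ((7/2) - t)^6 + (420393897119/486) * (t - (1/2))^1 * ((7/2) - t)^5 + (24783127587161/2592) * (t - (1/2))^2 * ((7/2) - t)^4 + (133768412116613/2916) * (t - (1/2))^3 * ((7/2) - t)^3 + (564239220181841/7776) * (t - (1/2))^4 * ((7/2) - t)^2 + (881335902203/108) * (t - (1/2))^5 * ((7/2) - t)^1 + (4341379932600779/23328) * (t - (1/2))^6 * ((7/2) - t)^0 := by ring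
    rw [key]; positivity
  have h1 : 0 ≤ t - (7/2) := by linarith
  have key : 117802800 + 20573067300*t + (-61400589440)*t^2 + (-75624990193)*t^3 + 908036827740*t^4 + (-740409587125)*t^5 + 213356162500*t^6 =
      (4341379932600779/32) + (4309651840121471/16) * (t - (7/2))^1 + (457372040799847/2) * (t - (7/2))^2 + (209779251038209/2) * (t - (7/2))^3 + (54310127824855/2) * (t - (7/2))^4 + 3740069825375 * (t - (7/2))^5 + 213356162500 * (t - (7/2))^6 := by ring
  rw [key]; positivity

theorem num_P4f : NumIneq 9 (21/221) (84/85) (2163/5525) (16/65) (-121/20) (291/200)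
    (3/10) (1/5) (3/25) (2/25) 0 1 := by
  intro t ht
  have hQ := poly_P4f t ht
  have hd : 0 < 1 + 2 * (16/65) * t + t ^ 2 := by positivity
  have hs : 0 < t + (2/25) := by positivity
  have hr : 0 < t + 1 := by positivity
  rw [← sub_nonneg]
  have e : ((21/221) + (84/85) * t) * (9 * ((2163/5525) + (84/85) * t) / (1 + 2 * (16/65) * t + t ^ 2) + ((-121/20) + (291/200) * t) +
      ((1/5) + (3/25) / (t + (2/25)) ^ 2 + 0 / (t + 1) ^ 2)) -
      ((3/10) + (1/5) * t - (3/25) / (t + (2/25)) - 0 / (t + 1)) ^ 2 =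
      (117802800 + 20573067300*t + (-61400589440)*t^2 + (-75624990193)*t^3 + 908036827740*t^4 + (-740409587125)*t^5 + 213356162500*t^6) / (152628125000 * ((1 + 2 * (16/65) * t + t ^ 2) * (t + (2/25)) ^ 2)) := by
    field_simp
    ring
  rw [e]
  exact div_nonneg hQ (by positivity)

theorem poly_P4n (t : ℝ) (ht : 0 ≤ t) :
    0 ≤ 971035920 + 69789639912*t + (-208313510384)*t^2 + (-105638996230)*t^3 + 1288470775225*t^4 + (-801648472500)*t^5 + 187258453125*t^6 := by
  rcases le_total t (3/4) with h | h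
  · have h1 : 0 ≤ t - 0 := by linarith
    have h2 : 0 ≤ (3/4) - t := by linarith
    have key : 971035920 + 69789639912*t + (-208313510384)*t^2 + (-105638996230)*t^3 + 1288470775225*t^4 + (-801648472500)*t^5 + 187258453125*t^6 =
        (441929236480/81) * (t - 0)^0 * ((3/4) - t)^6 + (26473105842176/81) * (t - 0)^1 * ((3/4) - t)^5 + (72408332005376/81) * (t - 0)^2 * ((3/4) - t)^4 + (13458167053184/81) * (t - 0)^3 * ((3/4) - t)^3 + (49566420634256/81) * (t - 0)^4 * ((3/4) - t)^2 + (132099679308464/81) * (t - 0)^5 * ((3/4) - t)^1 + (64782205030837/81) * (t - 0)^6 * ((3/4) - t)^0 := by ring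
    rw [key]; positivity
  rcases le_total t (19/4) with h | h
  · have h1 : 0 ≤ t - (3/4) := by linarith
    have h2 : 0 ≤ (19/4) - t := by linarith
    have key : 971035920 + 69789639912*t + (-208313510384)*t^2 + (-105638996230)*t^3 + 1288470775225*t^4 + (-801648472500)*t^5 + 187258453125*t^6 =
        (583039845277533/16777216) * (t - (3/4))^0 * ((19/4) - t)^6 + (7907364756869991/8388608) * (t - (3/4))^1 * ((19/4) - t)^5 + (162693131375486611/16777216) * (t - (3/4))^2 * ((19/4) - t)^4 + (180498753073631841/4194304) * (t - (3/4))^3 * ((19/4) - t)^3 + (1194820367905628851/16777216) * (t - (3/4))^4 * ((19/4) - t)^2 + (485440188261973671/8388608) * (t - (3/4))^5 * ((19/4) - t)^1 + (3492269095109821693/16777216) * (t - (3/4))^6 * ((19/4) - t)^0 := by ring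
    rw [key]; positivity
  have h1 : 0 ≤ t - (19/4) := by linarith
  have key : 971035920 + 69789639912*t + (-208313510384)*t^2 + (-105638996230)*t^3 + 1288470775225*t^4 + (-801648472500)*t^5 + 187258453125*t^6 =
      (3492269095109821693/4096) + (624460443566718213/512) * (t - (19/4))^1 + (190329901999739131/256) * (t - (19/4))^2 + (3918082555925595/16) * (t - (19/4))^3 + (729993636525475/16) * (t - (19/4))^4 + (9070434883125/2) * (t - (19/4))^5 + 187258453125 * (t - (19/4))^6 := by ring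
  rw [key]; positivity

theorem num_P4n : NumIneq 9 (2184/7225) (84/85) 0 (13/85) (-5411/1000) (1807/1000)
    (2/5) (9/10) (8/25) (2/25) 0 1 := by
  intro t ht
  have hQ := poly_P4n t ht
  have hd : 0 < 1 + 2 * (13/85) * t + t ^ 2 := by positivity
  have hs : 0 < t + (2/25) := by positivity
  have hr : 0 < t + 1 := by positivity
  rw [← sub_nonneg]
  have e : ((2184/7225) + (84/85) * t) * (9 * (0 + (84/85) * t) / (1 + 2 * (13/85) * t + t ^ 2) + ((-5411/1000) + (1807/1000) * t) +
      ((9/10) + (8/25) / (t + (2/25)) ^ 2 + 0 / (t + 1) ^ 2)) -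
      ((2/5) + (9/10) * t - (8/25) / (t + (2/25)) - 0 / (t + 1)) ^ 2 =
      (971035920 + 69789639912*t + (-208313510384)*t^2 + (-105638996230)*t^3 + 1288470775225*t^4 + (-801648472500)*t^5 + 187258453125*t^6) / (191914062500 * ((1 + 2 * (13/85) * t + t ^ 2) * (t + (2/25)) ^ 2)) := by
    field_simp
    ring
  rw [e]
  exact div_nonneg hQ (by positivity)

theorem poly_P5f (t : ℝ) (ht : 0 ≤ t) :
    0 ≤ 500068396 + 15642938145*t + 44653509339*t^2 + 41117209993*t^3 + 8785733987*t^4 + (-363267560)*t^5 + 522598700*t^6 := by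
  rcases le_total t 4 with h | h
  · have h1 : 0 ≤ t - 0 := by linarith
    have h2 : 0 ≤ 4 - t := by linarith
    have key : 500068396 + 15642938145*t + 44653509339*t^2 + 41117209993*t^3 + 8785733987*t^4 + (-363267560)*t^5 + 522598700*t^6 =
        (125017099/1024) * (t - 0)^0 * (4 - t)^6 + (16393040739/1024) * (t - 0)^1 * (4 - t)^5 + (129351992283/512) * (t - 0)^2 * (4 - t)^4 + (765630616371/512) * (t - 0)^3 * (4 - t)^3 + (3765901916903/1024) * (t - 0)^4 * (4 - t)^2 + (3798624477383/1024) * (t - 0)^5 * (4 - t)^1 + (232086112637/128) * (t - 0)^6 * (4 - t)^0 := by ring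
    rw [key]; positivity
  have h1 : 0 ≤ t - 4 := by linarith
  have key : 500068396 + 15642938145*t + 44653509339*t^2 + 41117209993*t^3 + 8785733987*t^4 + (-363267560)*t^5 + 522598700*t^6 =
      7426755604384 + 7341508929193 * (t - 4)^1 + 3155778261607 * (t - 4)^2 + 792492480185 * (t - 4)^3 + 126944070787 * (t - 4)^4 + 12179101240 * (t - 4)^5 + 522598700 * (t - 4)^6 := by ring
  rw [key]; positivity

theorem num_P5f : NumIneq 9 (76/1445) (77/85) (4/5) (8/17) (-1647/1000) (279/1000)
    (-6/5) (1/5) (-8/5) (11/10) 0 1 := by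
  intro t ht
  have hQ := poly_P5f t ht
  have hd : 0 < 1 + 2 * (8/17) * t + t ^ 2 := by positivity
  have hs : 0 < t + (11/10) := by positivity
  have hr : 0 < t + 1 := by positivity
  rw [← sub_nonneg]
  have e : ((76/1445) + (77/85) * t) * (9 * ((4/5) + (77/85) * t) / (1 + 2 * (8/17) * t + t ^ 2) + ((-1647/1000) + (279/1000) * t) +
      ((1/5) + (-8/5) / (t + (11/10)) ^ 2 + 0 / (t + 1) ^ 2)) -
      ((-6/5) + (1/5) * t - (-8/5) / (t + (11/10)) - 0 / (t + 1)) ^ 2 =
      (500068396 + 15642938145*t + 44653509339*t^2 + 41117209993*t^3 + 8785733987*t^4 + (-363267560)*t^5 + 522598700*t^6) / (2456500000 * ((1 + 2 * (8/17) * t + t ^ 2) * (t + (11/10)) ^ 2)) := by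
    field_simp
    ring
  rw [e]
  exact div_nonneg hQ (by positivity)

theorem poly_P5n (t : ℝ) (ht : 0 ≤ t) :
    0 ≤ 8651002 + (-142287489)*t + 656030355*t^2 + 4556209575*t^3 + (-15712363435)*t^4 + 21659584744*t^5 + 226943012*t^6 + (-5355492320)*t^7 + 3100500800*t^8 := by
  rcases le_total t (1/4) with h | h
  · have h1 : 0 ≤ t - 0 := by linarith
    have h2 : 0 ≤ (1/4) - t := by linarith
    have key : 8651002 + (-142287489)*t + 656030355*t^2 + 4556209575*t^3 + (-15712363435)*t^4 + 21659584744*t^5 + 226943012*t^6 + (-5355492320)*t^7 + 3100500800*t^8 =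
        566952067072 * (t - 0)^0 * ((1/4) - t)^8 + 2204378316800 * (t - 0)^1 * ((1/4) - t)^7 + 2243090673664 * (t - 0)^2 * ((1/4) - t)^6 + 3581473750016 * (t - 0)^3 * ((1/4) - t)^5 + 17705239998720 * (t - 0)^4 * ((1/4) - t)^4 + 35850324059648 * (t - 0)^5 * ((1/4) - t)^3 + 33908827444800 * (t - 0)^6 * ((1/4) - t)^2 + 15722364347136 * (t - 0)^7 * ((1/4) - t)^1 + 2937530790144 * (t - 0)^8 * ((1/4) - t)^0 := by ring
    rw [key]; positivity
  rcases le_total t (17/4) with h | h
  · have h1 : 0 ≤ t - (1/4) := by linarith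
    have h2 : 0 ≤ (17/4) - t := by linarith
    have key : 8651002 + (-142287489)*t + 656030355*t^2 + 4556209575*t^3 + (-15712363435)*t^4 + 21659584744*t^5 + 226943012*t^6 + (-5355492320)*t^7 + 3100500800*t^8 =
        (11474729649/16777216) * (t - (1/4))^0 * ((17/4) - t)^8 + (72239432571/2097152) * (t - (1/4))^1 * ((17/4) - t)^7 + (2456813733171/4194304) * (t - (1/4))^2 * ((17/4) - t)^6 + (9803163357785/2097152) * (t - (1/4))^3 * ((17/4) - t)^5 + (443166380381195/8388608) * (t - (1/4))^4 * ((17/4) - t)^4 + (946719348158869/2097152) * (t - (1/4))^5 * ((17/4) - t)^3 + (3537991621182891/4194304) * (t - (1/4))^6 * ((17/4) - t)^2 + (1542150749592359/2097152) * (t - (1/4))^7 * ((17/4) - t)^1 + (56959597658949185/16777216) * (t - (1/4))^8 * ((17/4) - t)^0 := by ring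
    rw [key]; positivity
  have h1 : 0 ≤ t - (17/4) := by linarith
  have key : 8651002 + (-142287489)*t + 656030355*t^2 + 4556209575*t^3 + (-15712363435)*t^4 + 21659584744*t^5 + 226943012*t^6 + (-5355492320)*t^7 + 3100500800*t^8 =
      (56959597658949185/256) + (27708723454678413/64) * (t - (17/4))^1 + (23791566546220885/64) * (t - (17/4))^2 + (1468747161666385/8) * (t - (17/4))^3 + (227701823873655/4) * (t - (17/4))^4 + 11324706827520 * (t - (17/4))^5 + 1408979326092 * (t - (17/4))^6 + 100061534880 * (t - (17/4))^7 + 3100500800 * (t - (17/4))^8 := by ring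
  rw [key]; positivity

theorem num_P5n : NumIneq 9 (36/85) (77/85) (-36/85) 0 (-3329/1000) (1657/1000)
    (23/10) (2/5) (1/5) (1/20) (9/5) (1/2) := by
  intro t ht
  have hQ := poly_P5n t ht
  have hd : 0 < 1 + 2 * 0 * t + t ^ 2 := by positivity
  have hs : 0 < t + (1/20) := by positivity
  have hr : 0 < t + (1/2) := by positivity
  rw [← sub_nonneg]
  have e : ((36/85) + (77/85) * t) * (9 * ((-36/85) + (77/85) * t) / (1 + 2 * 0 * t + t ^ 2) + ((-3329/1000) + (1657/1000) * t) +
      ((2/5) + (1/5) / (t + (1/20)) ^ 2 + (9/5) / (t + (1/2)) ^ 2)) -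
      ((23/10) + (2/5) * t - (1/5) / (t + (1/20)) - (9/5) / (t + (1/2))) ^ 2 =
      (8651002 + (-142287489)*t + 656030355*t^2 + 4556209575*t^3 + (-15712363435)*t^4 + 21659584744*t^5 + 226943012*t^6 + (-5355492320)*t^7 + 3100500800*t^8) / (2312000000 * ((1 + 2 * 0 * t + t ^ 2) * (t + (1/20)) ^ 2 * (t + (1/2)) ^ 2)) := by
    field_simp
    ring
  rw [e]
  exact div_nonneg hQ (by positivity)

theorem poly_P6f (t : ℝ) (ht : 0 ≤ t) :
    0 ≤ 439049000 + 29805088240*t + (-62788141127)*t^2 + (-91213695950)*t^3 + 1083943586875*t^4 + (-965995250000)*t^5 + 337782031250*t^6 := by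
  rcases le_total t (3/4) with h | h
  · have h1 : 0 ≤ t - 0 := by linarith
    have h2 : 0 ≤ (3/4) - t := by linarith
    have key : 439049000 + 29805088240*t + (-62788141127)*t^2 + (-91213695950)*t^3 + 1083943586875*t^4 + (-965995250000)*t^5 + 337782031250*t^6 =
        (1798344704000/729) * (t - 0)^0 * ((3/4) - t)^6 + (34117099765760/243) * (t - 0)^1 * ((3/4) - t)^5 + (37790827641088/81) * (t - 0)^2 * ((3/4) - t)^4 + (215306429584768/729) * (t - 0)^3 * ((3/4) - t)^3 + (335514435712784/243) * (t - 0)^4 * ((3/4) - t)^2 + (143080367704352/81) * (t - 0)^5 * ((3/4) - t)^1 + (503165038390322/729) * (t - 0)^6 * ((3/4) - t)^0 := by ring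
    rw [key]; positivity
  have h1 : 0 ≤ t - (3/4) := by linarith
  have key : 439049000 + 29805088240*t + (-62788141127)*t^2 + (-91213695950)*t^3 + 1083943586875*t^4 + (-965995250000)*t^5 + 337782031250*t^6 =
      (251582519195161/2048) + (144272243416897/256) * (t - (3/4))^1 + (117522352016519/128) * (t - (3/4))^2 + (4615437376775/8) * (t - (3/4))^3 + (2491978304375/8) * (t - (3/4))^4 + 554023890625 * (t - (3/4))^5 + 337782031250 * (t - (3/4))^6 := by ring
  rw [key]; positivity

theorem num_P6f : NumIneq (25/4) (276/2125) (84/85) (36/85) (7/25) (-967/200) (1373/1000)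
    (1/10) (2/5) (3/25) (2/25) 0 1 := by
  intro t ht
  have hQ := poly_P6f t ht
  have hd : 0 < 1 + 2 * (7/25) * t + t ^ 2 := by positivity
  have hs : 0 < t + (2/25) := by positivity
  have hr : 0 < t + 1 := by positivity
  rw [← sub_nonneg]
  have e : ((276/2125) + (84/85) * t) * ((25/4) * ((36/85) + (84/85) * t) / (1 + 2 * (7/25) * t + t ^ 2) + ((-967/200) + (1373/1000) * t) +
      ((2/5) + (3/25) / (t + (2/25)) ^ 2 + 0 / (t + 1) ^ 2)) -
      ((1/10) + (2/5) * t - (3/25) / (t + (2/25)) - 0 / (t + 1)) ^ 2 =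
      (439049000 + 29805088240*t + (-62788141127)*t^2 + (-91213695950)*t^3 + 1083943586875*t^4 + (-965995250000)*t^5 + 337782031250*t^6) / (282226562500 * ((1 + 2 * (7/25) * t + t ^ 2) * (t + (2/25)) ^ 2)) := by
    field_simp
    ring
  rw [e]
  exact div_nonneg hQ (by positivity)

theorem poly_P6n (t : ℝ) (ht : 0 ≤ t) :
    0 ≤ 84329605 + 3189280168*t + (-6000650932)*t^2 + 1195792920*t^3 + 51880806175*t^4 + (-26827130500)*t^5 + 9987117500*t^6 := by
  rcases le_total t 1 with h | h
  · have h1 : 0 ≤ t - 0 := by linarith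
    have h2 : 0 ≤ 1 - t := by linarith
    have key : 84329605 + 3189280168*t + (-6000650932)*t^2 + 1195792920*t^3 + 51880806175*t^4 + (-26827130500)*t^5 + 9987117500*t^6 =
        84329605 * (t - 0)^0 * (1 - t)^6 + 3695257798 * (t - 0)^1 * (1 - t)^5 + 11210693983 * (t - 0)^2 * (1 - t)^4 + 10772582972 * (t - 0)^3 * (1 - t)^3 + 52622025098 * (t - 0)^4 * (1 - t)^2 + 72971635352 * (t - 0)^5 * (1 - t)^1 + 33509544936 * (t - 0)^6 * (1 - t)^0 := by ring
    rw [key]; positivity
  have h1 : 0 ≤ t - 1 := by linarith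
  have key : 84329605 + 3189280168*t + (-6000650932)*t^2 + 1195792920*t^3 + 51880806175*t^4 + (-26827130500)*t^5 + 9987117500*t^6 =
      33509544936 + 128085634264 * (t - 1)^1 + 190407022378 * (t - 1)^2 + 140190062620 * (t - 1)^3 + 67551916175 * (t - 1)^4 + 33095574500 * (t - 1)^5 + 9987117500 * (t - 1)^6 := by ring
  rw [key]; positivity

theorem num_P6n : NumIneq (25/4) (2184/7225) (84/85) 0 (13/85) (-2029/500) (1807/1000)
    (3/10) (9/10) (3/10) (1/10) 0 1 := by
  intro t ht
  have hQ := poly_P6n t ht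
  have hd : 0 < 1 + 2 * (13/85) * t + t ^ 2 := by positivity
  have hs : 0 < t + (1/10) := by positivity
  have hr : 0 < t + 1 := by positivity
  rw [← sub_nonneg]
  have e : ((2184/7225) + (84/85) * t) * ((25/4) * (0 + (84/85) * t) / (1 + 2 * (13/85) * t + t ^ 2) + ((-2029/500) + (1807/1000) * t) +
      ((9/10) + (3/10) / (t + (1/10)) ^ 2 + 0 / (t + 1) ^ 2)) -
      ((3/10) + (9/10) * t - (3/10) / (t + (1/10)) - 0 / (t + 1)) ^ 2 =
      (84329605 + 3189280168*t + (-6000650932)*t^2 + 1195792920*t^3 + 51880806175*t^4 + (-26827130500)*t^5 + 9987117500*t^6) / ((30706250000/3) * ((1 + 2 * (13/85) * t + t ^ 2) * (t + (1/10)) ^ 2)) := by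
    field_simp
    ring
  rw [e]
  exact div_nonneg hQ (by positivity)

theorem poly_P7f (t : ℝ) (ht : 0 ≤ t) :
    0 ≤ 3777570 + 105345683*t + 118455111*t^2 + (-5791101)*t^3 + 5225987*t^4 := by
  rcases le_total t 4 with h | h
  · have h1 : 0 ≤ t - 0 := by linarith
    have h2 : 0 ≤ 4 - t := by linarith
    have key : 3777570 + 105345683*t + 118455111*t^2 + (-5791101)*t^3 + 5225987*t^4 =
        (1888785/128) * (t - 0)^0 * (4 - t)^4 + (109123253/64) * (t - 0)^1 * (4 - t)^3 + (99440481/8) * (t - 0)^2 * (4 - t)^2 + (1174797891/64) * (t - 0)^3 * (4 - t)^1 + (1643832143/128) * (t - 0)^4 * (4 - t)^0 := by ring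
    rw [key]; positivity
  have h1 : 0 ≤ t - 4 := by linarith
  have key : 3777570 + 105345683*t + 118455111*t^2 + (-5791101)*t^3 + 5225987*t^4 =
      3287664286 + 2112866395 * (t - 4)^1 + 550656651 * (t - 4)^2 + 77824691 * (t - 4)^3 + 5225987 * (t - 4)^4 := by ring
  rw [key]; positivity

theorem num_P7f : NumIneq (25/4) (76/1445) (77/85) (4/5) (8/17) (-113/200) (279/1000)
    (3/10) (1/5) 0 1 0 1 := by
  intro t ht
  have hQ := poly_P7f t ht
  have hd : 0 < 1 + 2 * (8/17) * t + t ^ 2 := by positivity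
  have hs : 0 < t + 1 := by positivity
  have hr : 0 < t + 1 := by positivity
  rw [← sub_nonneg]
  have e : ((76/1445) + (77/85) * t) * ((25/4) * ((4/5) + (77/85) * t) / (1 + 2 * (8/17) * t + t ^ 2) + ((-113/200) + (279/1000) * t) +
      ((1/5) + 0 / (t + 1) ^ 2 + 0 / (t + 1) ^ 2)) -
      ((3/10) + (1/5) * t - 0 / (t + 1) - 0 / (t + 1)) ^ 2 =
      (3777570 + 105345683*t + 118455111*t^2 + (-5791101)*t^3 + 5225987*t^4) / (24565000 * ((1 + 2 * (8/17) * t + t ^ 2))) := by
    field_simp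
    ring
  rw [e]
  exact div_nonneg hQ (by positivity)

theorem poly_P7n (t : ℝ) (ht : 0 ≤ t) :
    0 ≤ 1125466 + 107076891*t + (-269996701)*t^2 + (-16069749)*t^3 + 722827883*t^4 + (-303771640)*t^5 + 99856300*t^6 := by
  rcases le_total t (3/4) with h | h
  · have h1 : 0 ≤ t - 0 := by linarith
    have h2 : 0 ≤ (3/4) - t := by linarith
    have key : 1125466 + 107076891*t + (-269996701)*t^2 + (-16069749)*t^3 + 722827883*t^4 + (-303771640)*t^5 + 99856300*t^6 =
        (4609908736/729) * (t - 0)^0 * ((3/4) - t)^6 + (118866553856/243) * (t - 0)^1 * ((3/4) - t)^5 + (363925759232/243) * (t - 0)^2 * ((3/4) - t)^4 + (865542143552/729) * (t - 0)^3 * ((3/4) - t)^3 + (159865228496/243) * (t - 0)^4 * ((3/4) - t)^2 + (226356387200/243) * (t - 0)^5 * ((3/4) - t)^1 + (398023337500/729) * (t - 0)^6 * ((3/4) - t)^0 := by ring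
    rw [key]; positivity
  have h1 : 0 ≤ t - (3/4) := by linarith
  have key : 1125466 + 107076891*t + (-269996701)*t^2 + (-16069749)*t^3 + 722827883*t^4 + (-303771640)*t^5 + 99856300*t^6 =
      (99505834375/1024) + (71211285975/128) * (t - (3/4))^1 + (84849998333/64) * (t - (3/4))^2 + (5144943825/4) * (t - (3/4))^3 + (1704887057/4) * (t - (3/4))^4 + 145581710 * (t - (3/4))^5 + 99856300 * (t - (3/4))^6 := by ring
  rw [key]; positivity

theorem num_P7n : NumIneq (25/4) (36/85) (77/85) (-36/85) 0 (-2757/1000) (1657/1000)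
    (7/10) (9/10) (1/2) (1/10) 0 1 := by
  intro t ht
  have hQ := poly_P7n t ht
  have hd : 0 < 1 + 2 * 0 * t + t ^ 2 := by positivity
  have hs : 0 < t + (1/10) := by positivity
  have hr : 0 < t + 1 := by positivity
  rw [← sub_nonneg]
  have e : ((36/85) + (77/85) * t) * ((25/4) * ((-36/85) + (77/85) * t) / (1 + 2 * 0 * t + t ^ 2) + ((-2757/1000) + (1657/1000) * t) +
      ((9/10) + (1/2) / (t + (1/10)) ^ 2 + 0 / (t + 1) ^ 2)) -
      ((7/10) + (9/10) * t - (1/2) / (t + (1/10)) - 0 / (t + 1)) ^ 2 =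
      (1125466 + 107076891*t + (-269996701)*t^2 + (-16069749)*t^3 + 722827883*t^4 + (-303771640)*t^5 + 99856300*t^6) / (144500000 * ((1 + 2 * 0 * t + t ^ 2) * (t + (1/10)) ^ 2)) := by
    field_simp
    ring
  rw [e]
  exact div_nonneg hQ (by positivity)

end Crest.Agent.R086.A4
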