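import Crest.Agent.R086.PL

/-!
Row 86, Part A4 (helper371): positivity of `Re (W/(p ∏(z-ζ)))` on the boundary of a rectangle
implies that in the closed rectangle the only zeros of `W` are the points of `Z`, and they are simple.
-/

set_option autoImplicit false

open Complex Filter Set Topology Bornology

namespace Crest.Agent.R086.A4Rect

/-- the open rectangle `(x0,x1) × (-T,T)` -/
def Rc (x0 x1 T : ℝ) : Set ℂ := Ioo x0 x1 ×ℂ Ioo (-T) T

theorem rc_closure {x0 x1 T : ℝ} (hx : x0 < x1) (hT : 0 < T) :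
    closure (Rc x0 x1 T) = Icc x0 x1 ×ℂ Icc (-T) T := by
  unfold Rc
  rw [Complex.closure_reProdIm, closure_Ioo hx.ne, closure_Ioo (by linarith : (-T) ≠ T)]

theorem rc_bdd (x0 x1 T : ℝ) : IsBounded (Rc x0 x1 T) :=
  (Metric.isBounded_Ioo x0 x1).reProdIm (Metric.isBounded_Ioo (-T) T)

theorem rc_open (x0 x1 T : ℝ) : IsOpen (Rc x0 x1 T) := isOpen_Ioo.reProdIm isOpen_Ioo

/-- points of the frontier -/
theorem mem_frontier {x0 x1 T : ℝ} (hx : x0 < x1) (hT : 0 < T) {z : ℂ}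
    (hz : z ∈ frontier (Rc x0 x1 T)) :
    z ∈ Icc x0 x1 ×ℂ Icc (-T) T ∧ (z.re = x0 ∨ z.re = x1 ∨ z.im = -T ∨ z.im = T) := by
  rw [(rc_open x0 x1 T).frontier_eq] at hz
  obtain ⟨h1, h2⟩ := hz
  rw [rc_closure hx hT] at h1
  refine ⟨h1, ?_⟩
  by_contra hcon
  push Not at hcon
  apply h2
  rw [mem_reProdIm, mem_Icc, mem_Icc] at h1
  obtain ⟨⟨a1, a2⟩, b1, b2⟩ := h1
  obtain ⟨c1, c2, c3, c4⟩ := hcon
  unfold Rc
  rw [mem_reProdIm, mem_Ioo, mem_Ioo]
  exact ⟨⟨lt_of_le_of_ne a1 (Ne.symm c1), lt_of_le_of_ne a2 c2⟩,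
    lt_of_le_of_ne b1 (Ne.symm c3), lt_of_le_of_ne b2 c4⟩

/-- **Rectangle version of the positivity principle.** -/
theorem re_pos {E : ℂ → ℂ} {x0 x1 T : ℝ} (hx : x0 < x1) (hT : 0 < T)
    (hd : DiffContOnCl ℂ E (Rc x0 x1 T))
    (hbd : ∀ z ∈ frontier (Rc x0 x1 T), 0 < (E z).re) :
    ∀ z ∈ Icc x0 x1 ×ℂ Icc (-T) T, 0 < (E z).re := by
  set f : ℂ → ℂ := fun z => cexp (-E z) with hf
  have hfn : ∀ z, ‖f z‖ = Real.exp (-(E z).re) := by
    intro z; rw [hf, norm_exp, neg_re]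
  have hfd : DiffContOnCl ℂ f (Rc x0 x1 T) :=
    ⟨(hd.differentiableOn.neg).cexp, (hd.continuousOn.neg).cexp⟩
  have hne : (Rc x0 x1 T).Nonempty := by
    refine ⟨⟨(x0 + x1) / 2, 0⟩, ?_⟩
    unfold Rc
    rw [mem_reProdIm, mem_Ioo, mem_Ioo]
    exact ⟨⟨by simp; linarith, by simp; linarith⟩, by simp; linarith, by simp; linarith⟩
  obtain ⟨w, hw, hmax⟩ := Complex.exists_mem_frontier_isMaxOn_norm (rc_bdd x0 x1 T) hne hfd
  intro z hz
  rw [← rc_closure hx hT] at hz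
  have h1 : ‖f z‖ ≤ ‖f w‖ := hmax hz
  rw [hfn, hfn, Real.exp_le_exp] at h1
  have := hbd w hw
  linarith

/-- **Zeros in a closed rectangle from positivity on its boundary.** -/
theorem zeros {W p : ℂ → ℂ} {x0 x1 T : ℝ} (hx : x0 < x1) (hT : 0 < T) {U : Set ℂ} (hU : IsOpen U)
    (hsub : Icc x0 x1 ×ℂ Icc (-T) T ⊆ U) (hW : DifferentiableOn ℂ W U) (hp : DifferentiableOn ℂ p U)
    (hp0 : ∀ z ∈ Icc x0 x1 ×ℂ Icc (-T) T, p z ≠ 0)
    (Z : Finset ℂ) (hZre : ∀ ζ ∈ Z, ζ ∈ Rc x0 x1 T) (hZ : ∀ ζ ∈ Z, W ζ = 0)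
    (hbd : ∀ z ∈ frontier (Rc x0 x1 T), 0 < (W z * (starRingEnd ℂ) (p z * ∏ ζ ∈ Z, (z - ζ))).re) :
    (∀ z ∈ Icc x0 x1 ×ℂ Icc (-T) T, z ∉ Z → W z ≠ 0) ∧ ∀ ζ ∈ Z, deriv W ζ ≠ 0 := by
  classical
  have hRU : Rc x0 x1 T ⊆ U := by
    refine Subset.trans ?_ hsub
    rw [← rc_closure hx hT]; exact subset_closure
  obtain ⟨V, hV, hWV⟩ := PL.exists_factor hU Z W hW (fun ζ hζ => hRU (hZre ζ hζ)) hZ
  have hEd : DiffContOnCl ℂ (fun z => V z / p z) (Rc x0 x1 T) := by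
    constructor
    · refine (hV.mono hRU).div (hp.mono hRU) (fun z hz => hp0 z ?_)
      rw [← rc_closure hx hT]; exact subset_closure hz
    · rw [rc_closure hx hT]
      exact (hV.continuousOn.mono hsub).div (hp.continuousOn.mono hsub) (fun z hz => hp0 z hz)
  have key := re_pos (E := fun z => V z / p z) hx hT hEd ?_
  · constructor
    · intro z hz hzZ h0
      have h1 := key z hz
      have h2 : ∏ ζ ∈ Z, (z - ζ) ≠ 0 := by
        rw [Finset.prod_ne_zero_iff]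
        intro ζ hζ h
        rw [sub_eq_zero] at h
        exact hzZ (h ▸ hζ)
      rw [hWV z, mul_eq_zero] at h0
      rw [h0.resolve_left h2, zero_div, zero_re] at h1
      exact lt_irrefl _ h1
    · intro ζ hζ
      have hζU : ζ ∈ U := hRU (hZre ζ hζ)
      have hζc : ζ ∈ Icc x0 x1 ×ℂ Icc (-T) T := by
        rw [← rc_closure hx hT]; exact subset_closure (hZre ζ hζ)
      have hVd : DifferentiableAt ℂ V ζ := (hV ζ hζU).differentiableAt (hU.mem_nhds hζU)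
      have hWeq : W = fun z => (z - ζ) * ((∏ w ∈ Z.erase ζ, (z - w)) * V z) := by
        funext z
        rw [hWV z, ← Finset.mul_prod_erase Z _ hζ, mul_assoc]
      have hPd : DifferentiableAt ℂ (fun z => (∏ w ∈ Z.erase ζ, (z - w)) * V z) ζ := by
        refine DifferentiableAt.mul ?_ hVd
        fun_prop
      have hder : deriv W ζ = (∏ w ∈ Z.erase ζ, (ζ - w)) * V ζ := by
        rw [hWeq]
        have h1 : HasDerivAt (fun z : ℂ => z - ζ) 1 ζ := (hasDerivAt_id ζ).sub_const ζ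
        have h2 := (h1.mul hPd.hasDerivAt).deriv
        have h3 : ((fun z : ℂ => z - ζ) * fun z => (∏ w ∈ Z.erase ζ, (z - w)) * V z)
            = fun z => (z - ζ) * ((∏ w ∈ Z.erase ζ, (z - w)) * V z) := rfl
        rw [h3] at h2
        rw [h2]; simp
      rw [hder]
      refine mul_ne_zero ?_ ?_
      · rw [Finset.prod_ne_zero_iff]
        intro w hw h
        rw [sub_eq_zero] at h
        exact (Finset.ne_of_mem_erase hw) h.symm
      · intro h0
        have := key ζ hζc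
        simp [h0] at this
  · intro z hz
    have hb := hbd z hz
    have hzc : z ∈ Icc x0 x1 ×ℂ Icc (-T) T := (mem_frontier hx hT hz).1
    have hP : p z * ∏ ζ ∈ Z, (z - ζ) ≠ 0 := by
      intro h
      rw [h, map_zero, mul_zero, zero_re] at hb
      exact lt_irrefl _ hb
    have hPn : ∏ ζ ∈ Z, (z - ζ) ≠ 0 := right_ne_zero_of_mul hP
    have hpn : p z ≠ 0 := left_ne_zero_of_mul hP
    have e1 : V z / p z = W z / (p z * ∏ ζ ∈ Z, (z - ζ)) := by
      rw [hWV z, mul_comm (p z), mul_div_mul_left _ _ hPn]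
    show 0 < (V z / p z).re
    rw [e1]
    have hns : 0 < normSq (p z * ∏ ζ ∈ Z, (z - ζ)) := normSq_pos.2 hP
    have e2 : W z / (p z * ∏ ζ ∈ Z, (z - ζ)) =
        W z * (starRingEnd ℂ) (p z * ∏ ζ ∈ Z, (z - ζ)) *
          ((normSq (p z * ∏ ζ ∈ Z, (z - ζ)))⁻¹ : ℝ) := by
      rw [div_eq_mul_inv, Complex.inv_def, mul_assoc, ofReal_inv]
    rw [e2, re_mul_ofReal]
    positivity

end Crest.Agent.R086.A4Rect
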