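import Crest.Agent.R086.A4Alg
import Crest.Agent.R086.A4Rect
import Crest.Agent.R086.JW

/-!
Row 86, Part A4 (helper371): the Wronskian `W1 conj W~ + conj W1~ W` of the outgoing solutions has
no zeros in `Re lam ≥ 0` except the symmetry ones, from
* Theorem V (`ThmV`), * the numeric certificate `Cert`, * the large `|Im lam|` statement `LT`.
-/

set_option autoImplicit false

open Complex Filter Set Topology

namespace Crest.Agent.R086.A4

open JCx

local notation "cj" => (starRingEnd ℂ)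

noncomputable section

/-- outgoing value at level `k` -/
def Lf (l : ℕ) (om rho : ℝ) (k : ℕ) (lam : ℂ) : ℂ := W (ak l om lam k) ((l : ℂ) + 6) rho

/-- `-rho` times the outgoing derivative at level `k` -/
def Ly (l : ℕ) (om rho : ℝ) (k : ℕ) (lam : ℂ) : ℂ := -rho * W1 (ak l om lam k) ((l : ℂ) + 6) rho

/-- `G` at level `k` -/
def Gk (l : ℕ) (om rho : ℝ) (k : ℕ) (lam : ℂ) : ℂ := Ly l om rho k lam / Lf l om rho k lam

/-- the Wronskian `-rho (f1 f~ + f~1 f)` -/
def Dw (l : ℕ) (om rho : ℝ) (lam : ℂ) : ℂ :=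
  Ly l om rho 0 lam * cj (Lf l om rho 0 (cj lam)) + cj (Ly l om rho 0 (cj lam)) * Lf l om rho 0 lam

/-- **Theorem V** (helper11). -/
def ThmV (l : ℕ) (om rho : ℝ) : Prop :=
  ∀ lam : ℂ, 5 / 2 ≤ lam.re → Lf l om rho 0 lam ≠ 0 ∧ ((l : ℝ) + 5) / 2 < (Gk l om rho 0 lam).re

/-- Large `|Im lam|` statement. -/
def LT (l : ℕ) (om rho x0 T : ℝ) : Prop :=
  ∀ lam : ℂ, x0 ≤ lam.re → lam.re ≤ 5 / 2 → T ≤ |lam.im| →
    Lf l om rho 0 lam ≠ 0 ∧ 0 < (Gk l om rho 0 lam).re

theorem ak_add (l : ℕ) (om : ℝ) (lam : ℂ) (j k : ℕ) :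
    ak l om (lam + j) k = ak l om lam (j + k) := by
  unfold ak; push_cast; ring

theorem ak_succ (l : ℕ) (om : ℝ) (lam : ℂ) (k : ℕ) :
    ak l om lam (k + 1) = ak l om lam k + 1 := by
  unfold ak; push_cast; ring

theorem ak_re (l : ℕ) (om : ℝ) (lam : ℂ) (k : ℕ) :
    (ak l om lam k).re = lam.re + l / 2 + k := by
  unfold ak
  simp

theorem Lf_add (l : ℕ) (om rho : ℝ) (lam : ℂ) (k : ℕ) :
    Lf l om rho 0 (lam + k) = Lf l om rho k lam := by
  unfold Lf; rw [ak_add, add_zero]

theorem Ly_add (l : ℕ) (om rho : ℝ) (lam : ℂ) (k : ℕ) :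
    Ly l om rho 0 (lam + k) = Ly l om rho k lam := by
  unfold Ly; rw [ak_add, add_zero]

theorem Gk_add (l : ℕ) (om rho : ℝ) (lam : ℂ) (k : ℕ) :
    Gk l om rho 0 (lam + k) = Gk l om rho k lam := by
  unfold Gk; rw [Lf_add, Ly_add]

/-- contiguous relations for the outgoing solution. -/
theorem W_down {a b z : ℂ} (ha : -1 < a.re) (hz : 0 < z.re) :
    W a b z = I / (a + 1) * ((a + 1 - b + -I * z) * W (a + 1) b z + -z * W1 (a + 1) b z) := by
  have h1 : 0 < (a + 1).re := by simp; linarith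
  have hne : a + 1 ≠ 0 := by intro h; rw [h] at h1; simp at h1
  have e1 := W_eq (b := b) h1 hz
  have e2 : W1 (a + 1) b z = I * (a + 1) * J (a + 2) (b - a - 2) z := by
    unfold W1; rw [show a + 1 + 1 = a + 2 by ring, show b - (a + 1) - 1 = b - a - 2 by ring]
  rw [show b - (a + 1) - 1 = b - a - 2 by ring] at e1
  rw [e1, e2]
  unfold W
  field_simp
  linear_combination ((a + 1 - b - I * z) * J (a + 1) (b - a - 2) z
    + z * J (a + 2) (b - a - 2) z) * I_sq

theorem W1_down {a b z : ℂ} (ha : -1 < a.re) (hz : 0 < z.re) :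
    -z * W1 a b z =
      I / (a + 1) * (a * (-z * W1 (a + 1) b z + (-I * z) * W (a + 1) b z)) := by
  have h1 : 0 < (a + 1).re := by simp; linarith
  have hne : a + 1 ≠ 0 := by intro h; rw [h] at h1; simp at h1
  have e1 := W_eq (b := b) h1 hz
  have e2 : W1 (a + 1) b z = I * (a + 1) * J (a + 2) (b - a - 2) z := by
    unfold W1; rw [show a + 1 + 1 = a + 2 by ring, show b - (a + 1) - 1 = b - a - 2 by ring]
  rw [show b - (a + 1) - 1 = b - a - 2 by ring] at e1
  have e3 : J (a + 1) (b - a - 1) z = J (a + 1) (b - a - 2) z + I * J (a + 2) (b - a - 2) z := by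
    have := J_shift (a := a + 1) (c := b - a - 2) (z := z) h1 hz
    rw [show b - a - 2 + 1 = b - a - 1 by ring, show a + 1 + 1 = a + 2 by ring] at this
    exact this
  rw [e1, e2]
  unfold W1
  rw [e3]
  field_simp
  linear_combination (-(z * a * J (a + 1) (b - a - 2) z)) * I_sq

/-- the downward step on `(Lf, Ly)` -/
theorem step_eq {l : ℕ} {om rho : ℝ} (hr : 0 < rho) {lam : ℂ} {k : ℕ}
    (ha : -1 < (ak l om lam k).re) :
    (Lf l om rho k lam, Ly l om rho k lam) =
      (I / ak l om lam (k + 1)) •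
        stp l (zz rho) (ak l om lam (k + 1)) (Lf l om rho (k + 1) lam, Ly l om rho (k + 1) lam) := by
  have hz : 0 < ((rho : ℝ) : ℂ).re := by simpa using hr
  have e1 := W_down (b := (l : ℂ) + 6) ha hz
  have e2 := W1_down (b := (l : ℂ) + 6) ha hz
  unfold stp Lf Ly zz
  rw [ak_succ]
  ext
  · simp only [Prod.smul_mk, smul_eq_mul]
    rw [e1]
  · simp only [Prod.smul_mk, smul_eq_mul]
    rw [e2]
    ring

theorem stp_smul (l : ℕ) (z a c : ℂ) (p : ℂ × ℂ) : stp l z a (c • p) = c • stp l z a p := by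
  unfold stp
  ext
  · simp only [Prod.smul_mk, smul_eq_mul, Prod.smul_fst, Prod.smul_snd]; ring
  · simp only [Prod.smul_mk, smul_eq_mul, Prod.smul_fst, Prod.smul_snd]; ring

/-- the common factor -/
def Cf (l : ℕ) (om rho : ℝ) (lam : ℂ) : ℂ :=
  (I / ak l om lam 1) * (I / ak l om lam 2) * (I / ak l om lam 3) * Lf l om rho 3 lam

theorem pair0_eq {l : ℕ} {om rho : ℝ} (hr : 0 < rho) {lam : ℂ}
    (ha : -1 < lam.re + l / 2) (h3 : Lf l om rho 3 lam ≠ 0) :
    (Lf l om rho 0 lam, Ly l om rho 0 lam) =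
      Cf l om rho lam • uy l om rho lam (Gk l om rho 3 lam) := by
  have k0 : -1 < (ak l om lam 0).re := by rw [ak_re]; simpa using ha
  have k1 : -1 < (ak l om lam 1).re := by rw [ak_re]; push_cast; linarith
  have k2 : -1 < (ak l om lam 2).re := by rw [ak_re]; push_cast; linarith
  have e3 : (Lf l om rho 3 lam, Ly l om rho 3 lam) =
      Lf l om rho 3 lam • ((1 : ℂ), Gk l om rho 3 lam) := by
    unfold Gk
    ext
    · simp
    · simp only [Prod.smul_mk, smul_eq_mul]
      field_simp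
  rw [step_eq hr k0, step_eq hr k1, step_eq hr k2, e3]
  unfold uy Cf
  simp only [stp_smul, smul_smul, Nat.reduceAdd, zero_add]
  congr 1
  ring

theorem Dw_eq {l : ℕ} {om rho : ℝ} (hr : 0 < rho) {lam : ℂ}
    (ha : -1 < lam.re + l / 2) (h3 : Lf l om rho 3 lam ≠ 0) (h3' : Lf l om rho 3 (cj lam) ≠ 0) :
    Dw l om rho lam = Cf l om rho lam * cj (Cf l om rho (cj lam)) *
      Wr l om rho lam (Gk l om rho 3 lam) (Gk l om rho 3 (cj lam)) := by
  have e1 := pair0_eq (om := om) hr ha h3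
  have e2 := pair0_eq (om := om) (lam := cj lam) hr (by simpa using ha) h3'
  rw [Prod.ext_iff] at e1 e2
  obtain ⟨a1, a2⟩ := e1
  obtain ⟨b1, b2⟩ := e2
  simp only [Prod.smul_fst, Prod.smul_snd, smul_eq_mul] at a1 a2 b1 b2
  unfold Dw Wr
  rw [a1, a2, b1, b2]
  simp only [map_mul]
  ring

/-- if both `G`'s have positive real part the Wronskian does not vanish. -/
theorem Dw_ne_of_pos {l : ℕ} {om rho : ℝ} {lam : ℂ}
    (h1 : Lf l om rho 0 lam ≠ 0) (h2 : 0 < (Gk l om rho 0 lam).re)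
    (h3 : Lf l om rho 0 (cj lam) ≠ 0) (h4 : 0 < (Gk l om rho 0 (cj lam)).re) :
    Dw l om rho lam ≠ 0 := by
  have e1 : Ly l om rho 0 lam = Gk l om rho 0 lam * Lf l om rho 0 lam := by
    unfold Gk; field_simp
  have e2 : Ly l om rho 0 (cj lam) = Gk l om rho 0 (cj lam) * Lf l om rho 0 (cj lam) := by
    unfold Gk; field_simp
  have e3 : Dw l om rho lam =
      Lf l om rho 0 lam * cj (Lf l om rho 0 (cj lam)) *
        (Gk l om rho 0 lam + cj (Gk l om rho 0 (cj lam))) := by
    unfold Dw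
    rw [e1, e2, map_mul]; ring
  rw [e3]
  refine mul_ne_zero (mul_ne_zero h1 ?_) ?_
  · simpa using h3
  · intro h
    have := congrArg Complex.re h
    simp at this
    linarith

theorem Lf_diff {l : ℕ} {om rho : ℝ} (hr : 0 < rho) {k : ℕ} {lam : ℂ}
    (ha : -1 < (ak l om lam k).re) : DifferentiableAt ℂ (Lf l om rho k) lam := by
  have hz : 0 < ((rho : ℝ) : ℂ).re := by simpa using hr
  unfold Lf
  refine W_differentiableAt (f := fun w => ak l om w k) (g := fun _ => (l : ℂ) + 6)
    (h := fun _ => (rho : ℂ)) ?_ (by fun_prop) (by fun_prop) ha hz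
  unfold ak; fun_prop

theorem Ly_diff {l : ℕ} {om rho : ℝ} (hr : 0 < rho) {k : ℕ} {lam : ℂ}
    (ha : -1 < (ak l om lam k).re) : DifferentiableAt ℂ (Ly l om rho k) lam := by
  have hz : 0 < ((rho : ℝ) : ℂ).re := by simpa using hr
  unfold Ly
  refine DifferentiableAt.const_mul ?_ _
  refine W1_differentiableAt (f := fun w => ak l om w k) (g := fun _ => (l : ℂ) + 6)
    (h := fun _ => (rho : ℂ)) ?_ (by fun_prop) (by fun_prop) ha hz
  unfold ak; fun_prop

theorem conj_diff {f : ℂ → ℂ} {z : ℂ} (h : DifferentiableAt ℂ f (cj z)) :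
    DifferentiableAt ℂ (fun w => cj (f (cj w))) z := by
  have := h.conj_conj
  rw [Complex.conj_conj] at this
  exact this

/-- the chain of `G`'s -/
theorem chain {l : ℕ} {om rho : ℝ} (hr : 0 < rho) (hV : ThmV l om rho) {lam : ℂ}
    (hlam : -1 / 2 ≤ lam.re) {M : ℕ} (hM : 3 ≤ M) :
    Chain l om rho lam M (fun k => Gk l om rho k lam) := by
  have hne : ∀ k : ℕ, 3 ≤ k → Lf l om rho k lam ≠ 0 ∧
      ((l : ℝ) + 5) / 2 < (Gk l om rho k lam).re := by
    intro k hk
    have h1 : (5 : ℝ) / 2 ≤ (lam + k).re := by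
      simp only [add_re, natCast_re]
      have : (3 : ℝ) ≤ k := by exact_mod_cast hk
      linarith
    have := hV (lam + k) h1
    rwa [Lf_add, Gk_add] at this
  refine ⟨(hne M hM).2.le, fun k hk hkM => ?_⟩
  have hk1 := (hne (k + 1) (by omega)).1
  have hk0 := (hne k hk).1
  have ha : -1 < (ak l om lam k).re := by
    rw [ak_re]
    have : (3 : ℝ) ≤ k := by exact_mod_cast hk
    have : (0 : ℝ) ≤ l := Nat.cast_nonneg l
    linarith
  have e := step_eq (l := l) (om := om) hr ha
  rw [Prod.ext_iff] at e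
  obtain ⟨e1, e2⟩ := e
  simp only [stp, Prod.smul_mk, smul_eq_mul] at e1 e2
  show Ly l om rho k lam / Lf l om rho k lam = _
  have hak : ak l om lam (k + 1) ≠ 0 := by
    intro h
    rw [h, div_zero, zero_mul] at e1
    exact hk0 e1
  have hK : (ak l om lam (k + 1) - (l + 6) + zz rho) * Lf l om rho (k + 1) lam
      + Ly l om rho (k + 1) lam ≠ 0 := by
    intro h
    rw [h, mul_zero] at e1
    exact hk0 e1
  have hI : I / ak l om lam (k + 1) ≠ 0 := div_ne_zero I_ne_zero hak
  rw [e1, e2, mul_div_mul_left _ _ hI]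
  have hG : Gk l om rho (k + 1) lam = Ly l om rho (k + 1) lam / Lf l om rho (k + 1) lam := rfl
  show _ = (ak l om lam (k + 1) - 1) * (Gk l om rho (k + 1) lam + zz rho) /
      (Gk l om rho (k + 1) lam + zz rho + ak l om lam (k + 1) - (l + 6))
  rw [hG]
  have hd : Ly l om rho (k + 1) lam / Lf l om rho (k + 1) lam + zz rho + ak l om lam (k + 1) -
      ((l : ℂ) + 6) = ((ak l om lam (k + 1) - (l + 6) + zz rho) * Lf l om rho (k + 1) lam
      + Ly l om rho (k + 1) lam) / Lf l om rho (k + 1) lam := by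
    field_simp; ring
  have hn : Ly l om rho (k + 1) lam / Lf l om rho (k + 1) lam + zz rho =
      (Ly l om rho (k + 1) lam + zz rho * Lf l om rho (k + 1) lam) / Lf l om rho (k + 1) lam := by
    field_simp
  rw [hd, hn]
  field_simp

/-- exact zeros from the profile equation `J (1 - i om, 5 + i om, rho) = 0`. -/
theorem Dw_zero {l : ℕ} {om rho : ℝ} (hr : 0 < rho) (hom : om ≠ 0)
    (hJ : J (1 - I * om) (5 + I * om) rho = 0) : ∀ ζ ∈ Zs l, Dw l om rho ζ = 0 := by
  have hz : 0 < ((rho : ℝ) : ℂ).re := by simpa using hr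
  match l with
  | 0 =>
    intro ζ hζ
    have hζ' : ζ = 0 ∨ ζ = 1 := by simpa [Zs] using hζ
    rcases hζ' with rfl | rfl
    · -- Ly 0 = 0
      have h0 : Ly 0 om rho 0 0 = 0 := by
        unfold Ly W1 ak
        simp only [Nat.cast_zero, zero_div, add_zero, zero_sub, zero_add]
        rw [show -(I * (om : ℂ)) + 1 = 1 - I * om by ring,
          show (6 : ℂ) - -(I * om) - 1 = 5 + I * om by ring, hJ]
        simp
      unfold Dw
      rw [map_zero, h0]; simp
    · have e : Lf 0 om rho 0 1 = Lf 0 om rho 1 0 := by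
        have := Lf_add 0 om rho 0 1
        simpa using this
      have e' : Ly 0 om rho 0 1 = Ly 0 om rho 1 0 := by
        have := Ly_add 0 om rho 0 1
        simpa using this
      have h0 : Ly 0 om rho 0 0 = 0 := by
        unfold Ly W1 ak
        simp only [Nat.cast_zero, zero_div, add_zero, zero_sub, zero_add]
        rw [show -(I * (om : ℂ)) + 1 = 1 - I * om by ring,
          show (6 : ℂ) - -(I * om) - 1 = 5 + I * om by ring, hJ]
        simp
      unfold Dw
      rw [map_one, e, e']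
      have ha : -1 < (ak 0 om 0 0).re := by rw [ak_re]; simp
      have e2 := step_eq (l := 0) (om := om) hr ha
      rw [Prod.ext_iff] at e2
      obtain ⟨-, e2⟩ := e2
      simp only [stp, Prod.smul_mk, smul_eq_mul, zero_add] at e2
      rw [h0] at e2
      have hak : ak 0 om 0 1 ≠ 0 := by
        intro h
        have := congrArg Complex.re h
        rw [ak_re] at this
        simp at this
      have hak1 : ak 0 om 0 1 - 1 ≠ 0 := by
        intro h
        have := congrArg Complex.im h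
        unfold ak at this
        simp at this
        exact hom this
      have h1 : Ly 0 om rho 1 0 + zz rho * Lf 0 om rho 1 0 = 0 := by
        rcases mul_eq_zero.1 e2.symm with h | h
        · exact absurd h (div_ne_zero I_ne_zero hak)
        · exact (mul_eq_zero.1 h).resolve_left hak1
      have h2 : Ly 0 om rho 1 0 = -(zz rho * Lf 0 om rho 1 0) := by linear_combination h1
      rw [h2]
      unfold zz
      simp only [map_neg, map_mul, conj_I, conj_ofReal]
      ring
  | 1 =>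
    intro ζ hζ
    have hζ' : ζ = 1 / 2 := by simpa [Zs] using hζ
    subst hζ'
    have h0 : Lf 1 om rho 0 (1 / 2) = 0 := by
      unfold Lf
      have ha : 0 < (ak 1 om (1 / 2) 0).re := by rw [ak_re]; norm_num
      rw [W_eq ha hz]
      have : ak 1 om (1 / 2) 0 = 1 - I * om := by unfold ak; push_cast; ring
      rw [this, show ((1 : ℕ) : ℂ) + 6 - (1 - I * (om : ℂ)) - 1 = 5 + I * om by push_cast; ring, hJ]
      simp
    unfold Dw
    rw [show cj (1 / 2 : ℂ) = 1 / 2 by rw [map_div₀, map_one, map_ofNat], h0]; simp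
  | (n + 2) => intro ζ hζ; simp [Zs] at hζ

theorem pp_diff (l : ℕ) : Differentiable ℂ (pp l) := by
  match l with
  | 0 => unfold pp; fun_prop
  | 1 => unfold pp; fun_prop
  | 2 => unfold pp; fun_prop
  | (n + 3) => unfold pp; fun_prop

theorem pp_ne (l : ℕ) {lam : ℂ} (h : -1 < lam.re) : pp l lam ≠ 0 := by
  have h1 : lam + 1 ≠ 0 := by
    intro h0
    have := congrArg Complex.re h0
    simp at this; linarith
  have h2 : lam + 3 / 2 ≠ 0 := by
    intro h0
    have := congrArg Complex.re h0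
    simp at this; linarith
  match l with
  | 0 => exact pow_ne_zero _ h1
  | 1 => exact pow_ne_zero _ h1
  | 2 => exact mul_ne_zero (pow_ne_zero _ h1) (pow_ne_zero _ h2)
  | (n + 3) =>
    refine mul_ne_zero (pow_ne_zero _ h1) (pow_ne_zero _ ?_)
    intro h0
    have := congrArg Complex.re h0
    simp at this
    have hn : (0 : ℝ) ≤ n := Nat.cast_nonneg n
    linarith

/-- zero-freeness in the rectangle from Theorem V and the certificate. -/
theorem rect {l : ℕ} {om rho x0 T : ℝ} {M : ℕ} (hr : 0 < rho) (hom : om ≠ 0)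
    (hJ : J (1 - I * om) (5 + I * om) rho = 0) (hV : ThmV l om rho) (hM : 3 ≤ M)
    (hx0 : -1 / 2 < x0) (hx1 : x0 ≤ 0) (hx2 : l = 0 → x0 < 0) (hT : 0 < T)
    (hC : Cert l om rho x0 T M) :
    (∀ lam : ℂ, x0 ≤ lam.re → lam.re ≤ 5 / 2 → |lam.im| ≤ T → lam ∉ Zs l → Dw l om rho lam ≠ 0) ∧
      ∀ ζ ∈ Zs l, deriv (Dw l om rho) ζ ≠ 0 := by
  classical
  set U : Set ℂ := {lam : ℂ | -1 / 2 < lam.re} with hUd
  have hU : IsOpen U := isOpen_lt continuous_const continuous_re
  set w : ℂ → ℂ := fun lam =>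
    Wr l om rho lam (Gk l om rho 3 lam) (Gk l om rho 3 (cj lam)) with hwd
  have hl0 : (0 : ℝ) ≤ l := Nat.cast_nonneg l
  have hne3 : ∀ lam : ℂ, -1 / 2 ≤ lam.re → Lf l om rho 3 lam ≠ 0 := by
    intro lam hlam
    have := (hV (lam + 3) (by simp; linarith)).1
    have e := Lf_add l om rho lam 3
    push_cast at e
    rwa [e] at this
  have hk : ∀ (k : ℕ) (lam : ℂ), lam ∈ U → -1 < (ak l om lam k).re := by
    intro k lam hlam
    rw [ak_re]
    have h1 : -1 / 2 < lam.re := hlam
    have hk0 : (0 : ℝ) ≤ k := Nat.cast_nonneg k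
    linarith
  have hG : ∀ lam ∈ U, DifferentiableAt ℂ (Gk l om rho 3) lam := by
    intro lam hlam
    unfold Gk
    exact (Ly_diff hr (hk 3 lam hlam)).div (Lf_diff hr (hk 3 lam hlam))
      (hne3 lam (le_of_lt hlam))
  have hakd : ∀ (k : ℕ) (lam : ℂ), DifferentiableAt ℂ (fun lam => ak l om lam k) lam := by
    intro k lam; unfold ak; fun_prop
  have huy : ∀ lam ∈ U, DifferentiableAt ℂ (fun lam => uy l om rho lam (Gk l om rho 3 lam)) lam := by
    intro lam hlam
    have hg := hG lam hlam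
    have d1 := hakd 1 lam
    have d2 := hakd 2 lam
    have d3 := hakd 3 lam
    unfold uy stp
    fun_prop
  have hcU : ∀ lam ∈ U, cj lam ∈ U := by
    intro lam hlam
    show -1 / 2 < (cj lam).re
    rw [conj_re]; exact hlam
  have hw : DifferentiableOn ℂ w U := by
    intro lam hlam
    refine DifferentiableAt.differentiableWithinAt ?_
    have h1 := huy lam hlam
    have h2 := huy (cj lam) (hcU lam hlam)
    have a1 : DifferentiableAt ℂ (fun lam => (uy l om rho lam (Gk l om rho 3 lam)).1) lam :=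
      h1.fst
    have a2 : DifferentiableAt ℂ (fun lam => (uy l om rho lam (Gk l om rho 3 lam)).2) lam :=
      h1.snd
    have b1 : DifferentiableAt ℂ
        (fun lam => cj ((uy l om rho (cj lam) (Gk l om rho 3 (cj lam))).1)) lam :=
      conj_diff (f := fun lam => (uy l om rho lam (Gk l om rho 3 lam)).1) h2.fst
    have b2 : DifferentiableAt ℂ
        (fun lam => cj ((uy l om rho (cj lam) (Gk l om rho 3 (cj lam))).2)) lam :=
      conj_diff (f := fun lam => (uy l om rho lam (Gk l om rho 3 lam)).2) h2.snd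
    exact (a2.mul b1).add (b2.mul a1)
  -- the factor
  set K : ℂ → ℂ := fun lam => Cf l om rho lam * cj (Cf l om rho (cj lam)) with hKd
  have hDw : ∀ lam ∈ U, Dw l om rho lam = K lam * w lam := by
    intro lam hlam
    have h1 : -1 / 2 < lam.re := hlam
    exact Dw_eq hr (by linarith) (hne3 lam h1.le) (hne3 (cj lam) (by rw [conj_re]; exact h1.le))
  have hak0 : ∀ (k : ℕ) (lam : ℂ), lam ∈ U → ak l om lam (k + 1) ≠ 0 := by
    intro k lam hlam h0
    have h1 := congrArg Complex.re h0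
    rw [ak_re] at h1
    have h2 : -1 / 2 < lam.re := hlam
    have hk0 : (0 : ℝ) ≤ k := Nat.cast_nonneg k
    push_cast at h1
    simp only [zero_re] at h1
    linarith
  have hCne : ∀ lam ∈ U, Cf l om rho lam ≠ 0 := by
    intro lam hlam
    unfold Cf
    exact mul_ne_zero (mul_ne_zero (mul_ne_zero (div_ne_zero I_ne_zero (hak0 0 lam hlam))
      (div_ne_zero I_ne_zero (hak0 1 lam hlam))) (div_ne_zero I_ne_zero (hak0 2 lam hlam)))
      (hne3 lam (le_of_lt hlam))
  have hKne : ∀ lam ∈ U, K lam ≠ 0 := by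
    intro lam hlam
    refine mul_ne_zero (hCne lam hlam) ?_
    simpa using hCne (cj lam) (hcU lam hlam)
  have hCd : ∀ lam ∈ U, DifferentiableAt ℂ (Cf l om rho) lam := by
    intro lam hlam
    have d1 := hakd 1 lam
    have d2 := hakd 2 lam
    have d3 := hakd 3 lam
    have n1 := hak0 0 lam hlam
    have n2 := hak0 1 lam hlam
    have n3 := hak0 2 lam hlam
    have hL := Lf_diff (l := l) (om := om) hr (hk 3 lam hlam)
    unfold Cf
    exact ((((differentiableAt_const _).div d1 n1).mul ((differentiableAt_const _).div d2 n2)).mul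
      ((differentiableAt_const _).div d3 n3)).mul hL
  have hKdiff : ∀ lam ∈ U, DifferentiableAt ℂ K lam := fun lam hlam =>
    (hCd lam hlam).mul (conj_diff (hCd (cj lam) (hcU lam hlam)))
  have hx15 : x0 < 5 / 2 := by linarith
  have hRsub : Icc x0 (5 / 2) ×ℂ Icc (-T) T ⊆ U := by
    intro lam hlam
    rw [mem_reProdIm] at hlam
    show -1 / 2 < lam.re
    linarith [hlam.1.1]
  have hZR : ∀ ζ ∈ Zs l, ζ ∈ A4Rect.Rc x0 (5 / 2) T := by
    intro ζ hζ
    unfold A4Rect.Rc
    rw [mem_reProdIm, mem_Ioo, mem_Ioo]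
    match l, hx2, hζ with
    | 0, hx2, hζ =>
      have hζ' : ζ = 0 ∨ ζ = 1 := by simpa [Zs] using hζ
      have := hx2 rfl
      rcases hζ' with rfl | rfl
      · simp only [zero_re, zero_im]; exact ⟨⟨this, by norm_num⟩, by linarith, hT⟩
      · simp only [one_re, one_im]; exact ⟨⟨by linarith, by norm_num⟩, by linarith, hT⟩
    | 1, _, hζ =>
      have hζ' : ζ = 1 / 2 := by simpa [Zs] using hζ
      subst hζ'
      have e1 : (1 / 2 : ℂ).re = 1 / 2 := by norm_num
      have e2 : (1 / 2 : ℂ).im = 0 := by norm_num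
      rw [e1, e2]
      exact ⟨⟨by linarith, by norm_num⟩, by linarith, hT⟩
    | (n + 2), _, hζ => simp [Zs] at hζ
  have hwz : ∀ ζ ∈ Zs l, w ζ = 0 := by
    intro ζ hζ
    have h1 := Dw_zero (l := l) hr hom hJ ζ hζ
    have hζU : ζ ∈ U := by
      have := hZR ζ hζ
      unfold A4Rect.Rc at this
      rw [mem_reProdIm] at this
      show -1 / 2 < ζ.re
      linarith [this.1.1]
    rw [hDw ζ hζU] at h1
    exact (mul_eq_zero.1 h1).resolve_left (hKne ζ hζU)
  obtain ⟨r1, r2⟩ := A4Rect.zeros (W := w) (p := pp l) hx15 hT hU hRsub hw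
    (pp_diff l).differentiableOn
    (fun lam hlam => pp_ne l (by
      rw [mem_reProdIm] at hlam
      linarith [hlam.1.1])) (Zs l) hZR hwz (by
      intro lam hlam
      obtain ⟨hm, hcase⟩ := A4Rect.mem_frontier hx15 hT hlam
      rw [mem_reProdIm, mem_Icc, mem_Icc] at hm
      have hBd : lam ∈ Bd x0 T := by
        have hab : |lam.im| ≤ T := abs_le.2 hm.2
        rcases hcase with h | h | h | h
        · exact Or.inl ⟨h, hab⟩
        · exact Or.inr (Or.inr ⟨h, hab⟩)
        · refine Or.inr (Or.inl ⟨?_, hm.1.1, hm.1.2⟩)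
          rw [h, abs_neg, abs_of_pos hT]
        · refine Or.inr (Or.inl ⟨?_, hm.1.1, hm.1.2⟩)
          rw [h, abs_of_pos hT]
      have hre : -1 / 2 ≤ lam.re := by linarith [hm.1.1]
      have key := hC lam hBd _ _ (chain hr hV hre hM) (chain hr hV (lam := cj lam)
        (by rw [conj_re]; exact hre) hM)
      rw [PP_eq] at key
      exact key)
  constructor
  · intro lam h1 h2 h3 h4
    have hmem : lam ∈ Icc x0 (5 / 2) ×ℂ Icc (-T) T := by
      rw [mem_reProdIm]
      exact ⟨⟨h1, h2⟩, abs_le.1 h3⟩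
    rw [hDw lam (hRsub hmem)]
    exact mul_ne_zero (hKne lam (hRsub hmem)) (r1 lam hmem h4)
  · intro ζ hζ
    have hζU : ζ ∈ U := by
      have := hZR ζ hζ
      unfold A4Rect.Rc at this
      rw [mem_reProdIm] at this
      show -1 / 2 < ζ.re
      linarith [this.1.1]
    have hev : Dw l om rho =ᶠ[𝓝 ζ] fun lam => K lam * w lam := by
      filter_upwards [hU.mem_nhds hζU] with lam hlam
      exact hDw lam hlam
    rw [hev.deriv_eq]
    have hwd' : DifferentiableAt ℂ w ζ := (hw ζ hζU).differentiableAt (hU.mem_nhds hζU)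
    have hd := ((hKdiff ζ hζU).hasDerivAt.mul hwd'.hasDerivAt).deriv
    have e3 : (K * w) = fun lam => K lam * w lam := rfl
    rw [e3] at hd
    rw [hd, hwz ζ hζ, mul_zero, zero_add]
    exact mul_ne_zero (hKne ζ hζU) (r2 ζ hζ)

/-- **A4 for one degree.** -/
theorem nonvanishing {l : ℕ} {om rho x0 T : ℝ} {M : ℕ} (hr : 0 < rho) (hom : om ≠ 0)
    (hJ : J (1 - I * om) (5 + I * om) rho = 0) (hV : ThmV l om rho) (hM : 3 ≤ M)
    (hx0 : -1 / 2 < x0) (hx1 : x0 ≤ 0) (hx2 : l = 0 → x0 < 0) (hT : 0 < T)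
    (hC : Cert l om rho x0 T M) (hLT : LT l om rho x0 T) :
    (∀ lam : ℂ, x0 ≤ lam.re → lam ∉ Zs l → Dw l om rho lam ≠ 0) ∧
      ∀ ζ ∈ Zs l, deriv (Dw l om rho) ζ ≠ 0 := by
  obtain ⟨r1, r2⟩ := rect hr hom hJ hV hM hx0 hx1 hx2 hT hC
  refine ⟨fun lam h1 h2 => ?_, r2⟩
  have hl0 : (0 : ℝ) ≤ l := Nat.cast_nonneg l
  rcases le_total (5 / 2) lam.re with h | h
  · have a1 := hV lam h
    have a2 := hV (cj lam) (by rw [conj_re]; exact h)
    exact Dw_ne_of_pos a1.1 (by linarith [a1.2]) a2.1 (by linarith [a2.2])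
  · rcases le_total |lam.im| T with h' | h'
    · exact r1 lam h1 h h' h2
    · have a1 := hLT lam h1 h h'
      have a2 := hLT (cj lam) (by rw [conj_re]; exact h1) (by rw [conj_re]; exact h)
        (by rw [conj_im, abs_neg]; exact h')
      exact Dw_ne_of_pos a1.1 a1.2 a2.1 a2.2

/-- **A4 for a degree with `LT` everywhere (`T = 0`)**, `l ≥ 2`. -/
theorem nonvanishing_of_LT {l : ℕ} {om rho : ℝ} (hV : ThmV l om rho) (hLT : LT l om rho 0 0) :
    ∀ lam : ℂ, 0 ≤ lam.re → Dw l om rho lam ≠ 0 := by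
  intro lam h1
  have hl0 : (0 : ℝ) ≤ l := Nat.cast_nonneg l
  rcases le_total (5 / 2) lam.re with h | h
  · have a1 := hV lam h
    have a2 := hV (cj lam) (by rw [conj_re]; exact h)
    exact Dw_ne_of_pos a1.1 (by linarith [a1.2]) a2.1 (by linarith [a2.2])
  · have a1 := hLT lam h1 h (abs_nonneg _)
    have a2 := hLT (cj lam) (by rw [conj_re]; exact h1) (by rw [conj_re]; exact h) (abs_nonneg _)
    exact Dw_ne_of_pos a1.1 a1.2 a2.1 a2.2

end

end Crest.Agent.R086.A4
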