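import Mathlib
import Crest.Agent.R086.A4HPW
import Crest.Agent.R086.A4Main

/-!
Row 86, part A4 (helper11): Theorem V in the form of `A4Main.lean`, and Lemma HP in terms of
`Lf`, `Gk`.
-/
set_option autoImplicit false
open Complex Set

namespace Crest.Agent.R086.A4

open Crest.Agent.R086.JCx Crest.Agent.R086.A4HP

theorem GW_eq (l : ℕ) (om rho : ℝ) (lam : ℂ) :
    GW (ak l om lam 0) ((l : ℂ) + 6) rho = Gk l om rho 0 lam := by
  unfold GW Gk Ly Lf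
  rw [neg_mul]

/-- **THEOREM V** (all `l`, all `om`). -/
theorem thmV (l : ℕ) (om : ℝ) {rho : ℝ} (h0 : 0 < rho) : ThmV l om rho := by
  intro lam hlam
  have hl : (0 : ℝ) ≤ l := Nat.cast_nonneg l
  have hB : (0 : ℝ) < ((l : ℝ) + 5) / 2 := by positivity
  have hre : (ak l om lam 0).re = lam.re + (l : ℝ) / 2 := by
    unfold ak
    simp
  have ha : ((l : ℝ) + 5) / 2 ≤ (ak l om lam 0).re := by rw [hre]; linarith
  obtain ⟨h1, h2⟩ := thmV_W (a := ak l om lam 0) (b := (l : ℂ) + 6) hB h0 ha (by push_cast; ring)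
  refine ⟨h1, ?_⟩
  rw [← GW_eq]
  exact h2

/-- **LEMMA HP** for the outgoing solution of degree `l` at `lam`: nonvanishing and half plane. -/
theorem hp_form (l : ℕ) (om : ℝ) {rho : ℝ} (lam : ℂ) {e g : ℂ} {c c' : ℝ → ℝ}
    (hlam : -1 < lam.re + (l : ℝ) / 2)
    (hd : Dat (((l : ℝ) + 5) / 2) rho (ak l om lam 0) e g c c') (hA0 : 0 < AA rho e g 0) :
    Lf l om rho 0 lam ≠ 0 ∧
      (g * ((((l : ℝ) + 5) / 2 : ℝ) + I * rho / 2 - Gk l om rho 0 lam)).re ≤ -c 0 := by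
  have hre : (ak l om lam 0).re = lam.re + (l : ℝ) / 2 := by
    unfold ak
    simp
  have ha : -1 < (ak l om lam 0).re := by rw [hre]; exact hlam
  have hb : (l : ℂ) + 6 = 2 * ((((l : ℝ) + 5) / 2 : ℝ) : ℂ) + 1 := by push_cast; ring
  have h1 := hp_W_ne ha hb hd hA0
  refine ⟨h1, ?_⟩
  have h2 := hp_G ha hb hd h1
  rw [GW_eq] at h2
  exact h2

/-- **LEMMA HP**, strict version (`A(0) = 0` allowed). -/
theorem hp_form' (l : ℕ) (om : ℝ) {rho : ℝ} (lam : ℂ) {e g : ℂ} {c c' : ℝ → ℝ}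
    (hlam : -1 < lam.re + (l : ℝ) / 2)
    (hd : Dat (((l : ℝ) + 5) / 2) rho (ak l om lam 0) e g c c')
    (hst : ∀ x : ℝ, 0 < x → 0 < AA rho e g x ∧
      c x ^ 2 < AA rho e g x * (PPx (((l : ℝ) + 5) / 2) rho (ak l om lam 0) e g x + c' x)) :
    Lf l om rho 0 lam ≠ 0 ∧
      (g * ((((l : ℝ) + 5) / 2 : ℝ) + I * rho / 2 - Gk l om rho 0 lam)).re < -c 0 := by
  have hre : (ak l om lam 0).re = lam.re + (l : ℝ) / 2 := by
    unfold ak
    simp
  have ha : -1 < (ak l om lam 0).re := by rw [hre]; exact hlam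
  have hb : (l : ℂ) + 6 = 2 * ((((l : ℝ) + 5) / 2 : ℝ) : ℂ) + 1 := by push_cast; ring
  have h1 := hp_W_ne' ha hb hd hst
  refine ⟨h1, ?_⟩
  have h2 := hp_G_lt ha hb hd hst
  rw [GW_eq] at h2
  exact h2

end Crest.Agent.R086.A4
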