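import Mathlib
import Crest.Agent.R086.A4ThmV
import Crest.Agent.R086.A4Sum
import Crest.Agent.R086.A4Num

/-!
Row 86, Part A4 (helper522): from the numeric inequalities `NumIneq` to 11's Lemma HP.
-/

set_option autoImplicit false

open Complex Set

namespace Crest.Agent.R086.A4

open Crest.Agent.R086.JCx Crest.Agent.R086.A4HP

theorem AA_eq {rho g1 g2 e1 e2 : ℝ} (he : e1 ^ 2 + e2 ^ 2 = 1) (x : ℝ) :
    AA rho ⟨e1, e2⟩ ⟨g1, g2⟩ x = rho * (g1 * e1 + g2 * e2) + g1 * x := by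
  unfold AA rr
  simp only [mul_re, mul_im, add_re, add_im, conj_re, conj_im, ofReal_re, ofReal_im]
  linear_combination (g1 * x) * he

theorem PPx_eq {l : ℕ} {om rho : ℝ} {lam : ℂ} (h0 : 0 < rho) {g1 g2 e1 e2 : ℝ}
    (he : e1 ^ 2 + e2 ^ 2 = 1) (he1 : 0 ≤ e1) {t : ℝ} (ht : 0 ≤ t) :
    rho * PPx (((l : ℝ) + 5) / 2) rho (ak l om lam 0) ⟨e1, e2⟩ ⟨g1, g2⟩ (rho * t) =
      (((l : ℝ) + 5) / 2) ^ 2 * ((g1 * e1 - g2 * e2) + g1 * t) / (1 + 2 * e1 * t + t ^ 2) +
      (-(rho ^ 2 / 4) * ((g1 * e1 - g2 * e2) +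
        t * ((g1 * e1 - g2 * e2) * e1 - (g1 * e2 + g2 * e1) * e2)) +
        rho * (-(g1 * e2 + g2 * e1) * (3 - lam.re) + (lam.im - om) * (g1 * e1 - g2 * e2))) := by
  have hd : 0 < 1 + 2 * e1 * t + t ^ 2 := by positivity
  have hn : normSq (rr rho ⟨e1, e2⟩ (rho * t)) = rho ^ 2 * (1 + 2 * e1 * t + t ^ 2) := by
    unfold rr
    rw [normSq_apply]
    simp only [add_re, add_im, mul_re, mul_im, ofReal_re, ofReal_im]
    linear_combination (rho ^ 2 * t ^ 2) * he
  set B : ℝ := ((l : ℝ) + 5) / 2 with hB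
  have e0 : I * ((B : ℂ) + 1 / 2 - ak l om lam 0) = (⟨lam.im - om, 3 - lam.re⟩ : ℂ) := by
    unfold ak
    apply Complex.ext
    · simp [hB]
    · simp [hB]; ring
  have e1' : ((⟨g1, g2⟩ : ℂ) * (⟨e1, e2⟩ : ℂ) * ((B : ℂ) ^ 2 / rr rho ⟨e1, e2⟩ (rho * t))).re =
      B ^ 2 * (((g1 * e1 - g2 * e2) + g1 * t) / (rho * (1 + 2 * e1 * t + t ^ 2))) := by
    rw [div_eq_mul_inv, Complex.inv_def, hn]
    have : ((B : ℂ) ^ 2) = ((B ^ 2 : ℝ) : ℂ) := by push_cast; rfl
    rw [this]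
    unfold rr
    simp only [mul_re, mul_im, add_re, add_im, conj_re, conj_im, ofReal_re, ofReal_im]
    clear_value B
    have hrho : rho ≠ 0 := h0.ne'
    have hd' := hd.ne'
    field_simp
    linear_combination (g1 * t * B ^ 2 * rho) * he
  unfold PPx
  rw [e0, mul_add, mul_sub, add_re, sub_re, e1']
  have e2' : ((⟨g1, g2⟩ : ℂ) * (⟨e1, e2⟩ : ℂ) * (rr rho ⟨e1, e2⟩ (rho * t) / 4)).re =
      rho / 4 * ((g1 * e1 - g2 * e2) + t * ((g1 * e1 - g2 * e2) * e1 - (g1 * e2 + g2 * e1) * e2)) := by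
    unfold rr
    simp only [mul_re, mul_im, add_re, add_im, ofReal_re, ofReal_im, div_ofNat_re, div_ofNat_im]
    ring
  have e3' : ((⟨g1, g2⟩ : ℂ) * (⟨e1, e2⟩ : ℂ) * (⟨lam.im - om, 3 - lam.re⟩ : ℂ)).re =
      -(g1 * e2 + g2 * e1) * (3 - lam.re) + (lam.im - om) * (g1 * e1 - g2 * e2) := by
    simp only [mul_re, mul_im]
    ring
  rw [e2', e3']
  field_simp
  ring

/-- **HP from a numeric inequality.** -/
theorem form {l : ℕ} {om rho : ℝ} {lam : ℂ} (h0 : 0 < rho) (hlam : 0 ≤ lam.re)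
    {g1 g2 e1 e2 : ℝ} (he : e1 ^ 2 + e2 ^ 2 = 1) (he1 : 0 ≤ e1) (he2 : 0 < e2)
    {B2 al ur p0 p1 k n m s q r : ℝ} (hs : 0 < s) (hr : 0 < r)
    (hal : al = g1 * e1 + g2 * e2) (hur : ur = g1 * e1 - g2 * e2)
    (hal0 : 0 < al) (hbe : 0 ≤ g1)
    (hnum : NumIneq B2 al g1 ur e1 p0 p1 k n m s q r)
    (hB : ∀ t : ℝ, 0 ≤ t → B2 * (ur + g1 * t) ≤ (((l : ℝ) + 5) / 2) ^ 2 * (ur + g1 * t))
    (hp : ∀ t : ℝ, 0 ≤ t → p0 + p1 * t ≤ -(rho ^ 2 / 4) * (ur +
        t * (ur * e1 - (g1 * e2 + g2 * e1) * e2)) +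
        rho * (-(g1 * e2 + g2 * e1) * (3 - lam.re) + (lam.im - om) * ur)) :
    Lf l om rho 0 lam ≠ 0 ∧
      ((⟨g1, g2⟩ : ℂ) * ((((l : ℝ) + 5) / 2 : ℝ) + I * rho / 2 - Gk l om rho 0 lam)).re ≤
        -(k - m / s - q / r) := by
  have key : ∀ t : ℝ, 0 ≤ t → (k + n * t - m / (t + s) - q / (t + r)) ^ 2 ≤
      (al + g1 * t) * (rho * PPx (((l : ℝ) + 5) / 2) rho (ak l om lam 0) ⟨e1, e2⟩ ⟨g1, g2⟩
        (rho * t) + (n + m / (t + s) ^ 2 + q / (t + r) ^ 2)) := by
    intro t ht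
    rw [PPx_eq h0 he he1 ht, ← hur]
    have hd : 0 < 1 + 2 * e1 * t + t ^ 2 := by positivity
    refine (hnum t ht).trans ?_
    have h1 : 0 ≤ al + g1 * t := by positivity
    refine mul_le_mul_of_nonneg_left ?_ h1
    have h2 := hp t ht
    have h3 : B2 * (ur + g1 * t) / (1 + 2 * e1 * t + t ^ 2) ≤
        (((l : ℝ) + 5) / 2) ^ 2 * (ur + g1 * t) / (1 + 2 * e1 * t + t ^ 2) :=
      div_le_div_of_nonneg_right (hB t ht) hd.le
    linarith
  -- the functions of the variable `x`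
  set c : ℝ → ℝ := fun x => k + n * (x / rho) - m / (x / rho + s) - q / (x / rho + r) with hc
  set c' : ℝ → ℝ := fun x => (n + m / (x / rho + s) ^ 2 + q / (x / rho + r) ^ 2) / rho with hc'
  have hder : ∀ x : ℝ, 0 ≤ x → HasDerivAt c (c' x) x := by
    intro x hx
    have hx0 : 0 ≤ x / rho := by positivity
    have a1 : HasDerivAt (fun x : ℝ => x / rho) (1 / rho) x := (hasDerivAt_id x).div_const rho
    have a2 := (a1.add_const s)
    have a3 := (a1.add_const r)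
    have hs1 : x / rho + s ≠ 0 := by positivity
    have hr1 : x / rho + r ≠ 0 := by positivity
    have b1 := (hasDerivAt_const x m).div a2 hs1
    have b2 := (hasDerivAt_const x q).div a3 hr1
    have b3 := (((a1.const_mul n).const_add k).sub b1).sub b2
    refine b3.congr_deriv ?_
    simp only [hc']
    field_simp
    ring
  have hconv : ∀ x : ℝ, rho * (x / rho) = x := fun x => by field_simp
  have kx : ∀ x : ℝ, 0 ≤ x → c x ^ 2 ≤ AA rho ⟨e1, e2⟩ ⟨g1, g2⟩ x *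
      (PPx (((l : ℝ) + 5) / 2) rho (ak l om lam 0) ⟨e1, e2⟩ ⟨g1, g2⟩ x + c' x) := by
    intro x hx
    have h1 := key (x / rho) (by positivity)
    rw [hconv] at h1
    rw [AA_eq he, ← hal]
    refine h1.trans (le_of_eq ?_)
    simp only [hc']
    field_simp
  have hApos : ∀ x : ℝ, 0 ≤ x → 0 < AA rho ⟨e1, e2⟩ ⟨g1, g2⟩ x := by
    intro x hx
    rw [AA_eq he, ← hal]; positivity
  have hD : Dat (((l : ℝ) + 5) / 2) rho (ak l om lam 0) ⟨e1, e2⟩ ⟨g1, g2⟩ c c' := by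
    refine ⟨by positivity, h0, ?_, he1, he2, ?_, ?_, ?_, ?_, ?_, kx⟩
    · rw [Complex.norm_def, normSq_apply]
      simp only
      rw [show e1 * e1 + e2 * e2 = 1 by linarith [he]]; simp
    · intro x hx
      exact (hder x hx).continuousAt.continuousWithinAt
    · intro x hx
      exact (hder x hx).hasDerivWithinAt
    · refine ⟨|k| + |n| / rho + |m| / s + |q| / r, 1, fun x hx => ?_⟩
      have hx0 : 0 ≤ x / rho := by positivity
      have t1 : |m / (x / rho + s)| ≤ |m| / s := by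
        rw [abs_div, abs_of_pos (show 0 < x / rho + s by positivity)]
        exact div_le_div_of_nonneg_left (abs_nonneg m) hs (by linarith)
      have t2 : |q / (x / rho + r)| ≤ |q| / r := by
        rw [abs_div, abs_of_pos (show 0 < x / rho + r by positivity)]
        exact div_le_div_of_nonneg_left (abs_nonneg q) hr (by linarith)
      have t3 : |n * (x / rho)| = |n| / rho * x := by
        rw [abs_mul, abs_of_nonneg hx0]; ring
      have t4 : |c x| ≤ |k| + |n * (x / rho)| + |m / (x / rho + s)| + |q / (x / rho + r)| := by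
        simp only [hc]
        refine (abs_sub _ _).trans ?_
        refine add_le_add ((abs_sub _ _).trans ?_) le_rfl
        exact add_le_add (abs_add_le _ _) le_rfl
      rw [t3] at t4
      have u1 : 0 ≤ |k| := abs_nonneg k
      have u2 : 0 ≤ |n| / rho := by positivity
      have u3 : 0 ≤ |m| / s := by positivity
      have u4 : 0 ≤ |q| / r := by positivity
      rw [pow_one]
      nlinarith [mul_nonneg u1 hx, mul_nonneg u3 hx, mul_nonneg u4 hx]
    · intro x hx; exact (hApos x hx).le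
    · intro x hx
      have h1 := kx x hx
      have h2 := hApos x hx
      by_contra hcon
      push Not at hcon
      have h3 := mul_neg_of_pos_of_neg h2 hcon
      have h4 := sq_nonneg (c x)
      linarith
  obtain ⟨r1, r2⟩ := hp_form l om lam (by have : (0 : ℝ) ≤ l := Nat.cast_nonneg l; linarith) hD
    (hApos 0 le_rfl)
  refine ⟨r1, r2.trans (le_of_eq ?_)⟩
  simp [hc]

end Crest.Agent.R086.A4
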