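import Mathlib
import Crest.Agent.R086.A4Alg
import Crest.Agent.R086.Disk

/-!
Row 86, Part A4 (helper545): complex disc arithmetic with integer centre and radius at the fixed scale `2^40`,
checked by the kernel (`decide +kernel`), and the certificate driver for `A4.CertR`.
-/

set_option autoImplicit false

open Complex

namespace Crest.Agent.R086.IDisc

/-- disc: centre `(x + i y) / SN`, radius `r / SN` -/
structure D where
  x : Int
  y : Int
  r : Nat

def SN : ℕ := 1099511627776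
/-- `SN / 2` -/
def SH : ℕ := 549755813888

def nb (x y : Int) : Nat :=
  max x.natAbs y.natAbs + (min x.natAbs y.natAbs * 27147) / 65536 + 1

def add (a b : D) : D := ⟨a.x + b.x, a.y + b.y, a.r + b.r⟩
def sub (a b : D) : D := ⟨a.x - b.x, a.y - b.y, a.r + b.r⟩
def cj (a : D) : D := ⟨a.x, -a.y, a.r⟩
def mul (a b : D) : D :=
  ⟨(a.x * b.x - a.y * b.y) / (SN : Int), (a.x * b.y + a.y * b.x) / (SN : Int),
    (nb a.x a.y * b.r + nb b.x b.y * a.r + a.r * b.r) / SN + 3⟩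
def den (a : D) : Int := a.x * a.x + a.y * a.y - (a.r * a.r : ℕ)
def inv (a : D) : D :=
  ⟨(a.x * (SN * SN : ℕ)) / den a, (-a.y * (SN * SN : ℕ)) / den a, (a.r * (SN * SN)) / (den a).toNat + 3⟩
def nat (k : ℕ) : D := ⟨(k * SN : ℕ), 0, 0⟩

/-- level parameter `a + k` -/
def lev (a : D) (k : ℕ) : D := ⟨a.x + (k * SN : ℕ), a.y, a.r⟩

/-- data: `om` (centre, radius), `rho` -/
structure Box where
  om : Int
  omr : ℕ
  rho : Int
  rhor : ℕ

def zzD (B : Box) : D := ⟨0, -B.rho, B.rhor⟩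
def a0D (B : Box) (l : ℕ) (lam : D) : D := ⟨lam.x + (l * SH : ℕ), lam.y - B.om, lam.r + B.omr⟩

def hStart (l : ℕ) (a : D) (M : ℕ) : Int :=
  ((l + 5) * SH : ℕ) + ((lev a M).x - (lev a M).r) - ((l + 6) * SN : ℕ)

/-- enclosure of `g (M-1)` -/
def start (l : ℕ) (a : D) (M : ℕ) : D :=
  mul (sub (lev a M) (nat 1)) (sub (nat 1) (mul (sub (lev a M) (nat (l + 6)))
    ⟨((SN * SN) / (2 * (hStart l a M).toNat) : ℕ), 0, (SN * SN) / (2 * (hStart l a M).toNat) + 2⟩))

def qD (l : ℕ) (z a g : D) (k : ℕ) : D := add (add g z) (sub (lev a k) (nat (l + 6)))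

def stepD (l : ℕ) (z a g : D) (k : ℕ) : D :=
  mul (sub (lev a k) (nat 1)) (sub (nat 1) (mul (sub (lev a k) (nat (l + 6))) (inv (qD l z a g k))))

/-- `j` steps from level `m+3`: enclosure of `g (m+3-j)` and success flag -/
def goD (l : ℕ) (z a : D) (m : ℕ) : ℕ → D × Bool
  | 0 => (start l a (m + 4), decide (0 < hStart l a (m + 4)))
  | j + 1 =>
    let p := goD l z a m j
    (stepD l z a p.1 (m + 3 - j), p.2 && decide (0 < den (qD l z a p.1 (m + 3 - j))))

def stpD (l : ℕ) (z a : D) (p : D × D) : D × D :=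
  (add (mul (add (sub a (nat (l + 6))) z) p.1) p.2, mul (sub a (nat 1)) (add p.2 (mul z p.1)))

def uyD (l : ℕ) (z a g : D) : D × D :=
  stpD l z (lev a 1) (stpD l z (lev a 2) (stpD l z (lev a 3) (nat 1, g)))

def pw (a : D) : ℕ → D
  | 0 => nat 1
  | n + 1 => mul (pw a n) a

def half (k : ℕ) : D := ⟨(k * SH : ℕ), 0, 0⟩

def PPD (l : ℕ) (lam : D) : D :=
  match l with
  | 0 => mul (mul lam (sub lam (nat 1))) (pw (add lam (nat 1)) 4)
  | 1 => mul (sub lam (half 1)) (pw (add lam (nat 1)) 5)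
  | 2 => mul (pw (add lam (nat 1)) 2) (pw (add lam (half 3)) 4)
  | (n + 3) => mul (pw (add lam (nat 1)) 2) (pw (add lam (nat (n + 3))) 4)

def WD (p p' : D × D) : D := add (mul p.2 (cj p'.1)) (mul (cj p'.2) p.1)

def test (B : Box) (l m : ℕ) (lam : D) : Bool :=
  let a := a0D B l lam
  let a' := a0D B l (cj lam)
  let z := zzD B
  let g := goD l z a m m
  let g' := goD l z a' m m
  let T := mul (WD (uyD l z a g.1) (uyD l z a' g'.1)) (cj (PPD l lam))
  g.2 && g'.2 && decide ((T.r : Int) < T.x)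

def segOK (f : ℕ → ℕ → Bool) : ℕ → List ℕ → Bool
  | _, [] => true
  | t, d :: ds => f t d && segOK f (t + d) ds

/-- vertical side at `X` (scaled): unit `2^-16` -/
def fV (B : Box) (l m : ℕ) (X : Int) (t d : ℕ) : Bool :=
  test B l m ⟨X, ((2 * t + d) * 8388608 : ℕ), d * 8388608 + 1⟩
/-- horizontal side at height `Y` (scaled), left end `X` -/
def fH (B : Box) (l m : ℕ) (X Y : Int) (t d : ℕ) : Bool :=
  test B l m ⟨X + ((2 * t + d) * 8388608 : ℕ), Y, d * 8388608 + 1⟩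

/-! ### soundness -/

/-- centre (scaled) -/
noncomputable def ctr (d : D) : ℂ := ⟨(d.x : ℝ), (d.y : ℝ)⟩

@[simp] theorem ctr_re (d : D) : (ctr d).re = d.x := rfl
@[simp] theorem ctr_im (d : D) : (ctr d).im = d.y := rfl

/-- `z` in the disc `d` -/
def has (d : D) (z : ℂ) : Prop := ‖((SN : ℕ) : ℂ) * z - ctr d‖ ≤ d.r

theorem SN_pos' : 0 < SN := by norm_num [SN]

theorem SN_pos : (0 : ℝ) < (SN : ℕ) := by exact_mod_cast SN_pos'

theorem SN_ne : ((SN : ℕ) : ℂ) ≠ 0 := by exact_mod_cast SN_pos'.ne'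

theorem SN_half : (SH : ℝ) = (SN : ℝ) / 2 := by norm_num [SN, SH]

theorem has_add {a b : D} {z w : ℂ} (h1 : has a z) (h2 : has b w) : has (add a b) (z + w) := by
  unfold has at *
  have e : ((SN : ℕ) : ℂ) * (z + w) - ctr (add a b) =
      (((SN : ℕ) : ℂ) * z - ctr a) + (((SN : ℕ) : ℂ) * w - ctr b) := by
    have : ctr (add a b) = ctr a + ctr b := by
      apply Complex.ext <;> simp [add]
    rw [this]; ring
  rw [e]
  refine (norm_add_le _ _).trans ?_
  simp only [add]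
  push_cast
  linarith

theorem has_sub {a b : D} {z w : ℂ} (h1 : has a z) (h2 : has b w) : has (sub a b) (z - w) := by
  unfold has at *
  have e : ((SN : ℕ) : ℂ) * (z - w) - ctr (sub a b) =
      (((SN : ℕ) : ℂ) * z - ctr a) - (((SN : ℕ) : ℂ) * w - ctr b) := by
    have : ctr (sub a b) = ctr a - ctr b := by
      apply Complex.ext <;> simp [sub]
    rw [this]; ring
  rw [e]
  refine (norm_sub_le _ _).trans ?_
  simp only [sub]
  push_cast
  linarith

theorem has_cj {a : D} {z : ℂ} (h1 : has a z) : has (cj a) ((starRingEnd ℂ) z) := by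
  unfold has at *
  have e : ((SN : ℕ) : ℂ) * (starRingEnd ℂ) z - ctr (cj a) =
      (starRingEnd ℂ) (((SN : ℕ) : ℂ) * z - ctr a) := by
    apply Complex.ext <;> simp [cj]
  rw [e, RCLike.norm_conj]
  exact h1

theorem has_nat (k : ℕ) : has (nat k) (k : ℂ) := by
  unfold has
  have e : ((SN : ℕ) : ℂ) * (k : ℂ) - ctr (nat k) = 0 := by
    apply Complex.ext <;> simp [nat]; ring
  rw [e]
  simp [nat]

theorem has_one : has (nat 1) 1 := by
  have := has_nat 1
  simpa using this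

theorem has_half (k : ℕ) : has (half k) ((k : ℂ) / 2) := by
  unfold has
  have e : ((SN : ℕ) : ℂ) * ((k : ℂ) / 2) - ctr (half k) = 0 := by
    apply Complex.ext
    · simp [half, SN_half]; ring
    · simp [half]
  rw [e]
  simp [half]

theorem has_lev {a : D} {z : ℂ} (h : has a z) (k : ℕ) : has (lev a k) (z + k) := by
  unfold has at *
  have e : ((SN : ℕ) : ℂ) * (z + k) - ctr (lev a k) = ((SN : ℕ) : ℂ) * z - ctr a := by
    apply Complex.ext <;> simp [lev]; ring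
  rw [e]
  exact h

theorem norm_ctr_le (a : D) : ‖ctr a‖ ≤ (nb a.x a.y : ℝ) := by
  set p : ℝ := |(a.x : ℝ)| with hp
  set q : ℝ := |(a.y : ℝ)| with hq
  have hp0 : 0 ≤ p := abs_nonneg _
  have hq0 : 0 ≤ q := abs_nonneg _
  have hn : ‖ctr a‖ ^ 2 = p ^ 2 + q ^ 2 := by
    rw [← Complex.normSq_eq_norm_sq, Complex.normSq_apply, hp, hq, sq_abs, sq_abs]
    simp; ring
  have hM : ((max a.x.natAbs a.y.natAbs : ℕ) : ℝ) = max p q := by
    rw [Nat.cast_max, hp, hq]; simp [Nat.cast_natAbs]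
  have hm : ((min a.x.natAbs a.y.natAbs : ℕ) : ℝ) = min p q := by
    rw [Nat.cast_min, hp, hq]; simp [Nat.cast_natAbs]
  have hfl : min p q * 27147 / 65536 ≤
      (((min a.x.natAbs a.y.natAbs * 27147) / 65536 : ℕ) : ℝ) + 1 := by
    have h := Nat.lt_div_mul_add (a := min a.x.natAbs a.y.natAbs * 27147) (b := 65536) (by norm_num)
    have h' : ((min a.x.natAbs a.y.natAbs * 27147 : ℕ) : ℝ) <
        (((min a.x.natAbs a.y.natAbs * 27147) / 65536 * 65536 + 65536 : ℕ) : ℝ) := by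
      exact_mod_cast h
    rw [Nat.cast_mul, hm, Nat.cast_add, Nat.cast_mul] at h'
    rw [div_le_iff₀ (by norm_num)]
    norm_num at h' ⊢
    linarith
  have h1 : max p q + min p q * 27147 / 65536 ≤ (nb a.x a.y : ℝ) := by
    unfold nb
    rw [Nat.cast_add, Nat.cast_add, hM, Nat.cast_one]
    linarith
  refine le_trans ?_ h1
  apply le_of_sq_le_sq _ (by positivity)
  rw [hn]
  rcases le_total p q with h | h
  · rw [max_eq_right h, min_eq_left h]
    nlinarith [mul_nonneg hp0 (sub_nonneg.mpr h), sq_nonneg p]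
  · rw [max_eq_left h, min_eq_right h]
    nlinarith [mul_nonneg hq0 (sub_nonneg.mpr h), sq_nonneg q]

theorem ediv_bound (X d : Int) (hd : 0 < d) : |(X : ℝ) / d - ((X / d : Int) : ℝ)| ≤ 1 := by
  have h1 := Int.mul_ediv_add_emod X d
  have h2 := Int.emod_nonneg X hd.ne'
  have h3 := Int.emod_lt_of_pos X hd
  have hdR : (0 : ℝ) < d := by exact_mod_cast hd
  have e : (X : ℝ) / d - ((X / d : Int) : ℝ) = ((X % d : Int) : ℝ) / d := by
    have : (X : ℝ) = (d : ℝ) * ((X / d : Int) : ℝ) + ((X % d : Int) : ℝ) := by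
      exact_mod_cast h1.symm
    field_simp
    linarith
  rw [e, abs_of_nonneg (div_nonneg (by exact_mod_cast h2) hdR.le), div_le_one hdR]
  exact_mod_cast h3.le

theorem ndiv_bound (X d : ℕ) (hd : 0 < d) : (X : ℝ) / d ≤ ((X / d : ℕ) : ℝ) + 1 := by
  have hdR : (0 : ℝ) < d := by exact_mod_cast hd
  rw [div_le_iff₀ hdR]
  have h := Nat.lt_div_mul_add (a := X) (b := d) hd
  have h' : (X : ℝ) < ((X / d * d + d : ℕ) : ℝ) := by exact_mod_cast h
  push_cast at h'
  linarith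

/-- rounding of a complex number to integers -/
theorem round_bound {c : ℂ} {X Y : Int} (hx : |c.re - X| ≤ 1) (hy : |c.im - Y| ≤ 1) :
    ‖c - (⟨(X : ℝ), (Y : ℝ)⟩ : ℂ)‖ ≤ 2 := by
  refine (Complex.norm_le_abs_re_add_abs_im _).trans ?_
  simp only [Complex.sub_re, Complex.sub_im]
  linarith

theorem has_mul {a b : D} {z w : ℂ} (h1 : has a z) (h2 : has b w) : has (mul a b) (z * w) := by
  unfold has at *
  have hS := SN_pos
  have e : ((SN : ℕ) : ℂ) * (z * w) - ctr (mul a b) =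
      ((((SN : ℕ) : ℂ) * z - ctr a) * (((SN : ℕ) : ℂ) * w - ctr b) +
        ctr a * (((SN : ℕ) : ℂ) * w - ctr b) + ctr b * (((SN : ℕ) : ℂ) * z - ctr a)) / ((SN : ℕ) : ℂ) +
      (ctr a * ctr b / ((SN : ℕ) : ℂ) - ctr (mul a b)) := by
    have := SN_ne
    field_simp
    ring
  rw [e]
  have hr : ‖ctr a * ctr b / ((SN : ℕ) : ℂ) - ctr (mul a b)‖ ≤ 2 := by
    have hc : ctr a * ctr b / ((SN : ℕ) : ℂ) =
        (⟨((a.x * b.x - a.y * b.y : Int) : ℝ) / ((SN : ℕ) : ℝ),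
          ((a.x * b.y + a.y * b.x : Int) : ℝ) / ((SN : ℕ) : ℝ)⟩ : ℂ) := by
      have e1 : ((SN : ℕ) : ℂ) = (((SN : ℕ) : ℝ) : ℂ) := by push_cast; rfl
      rw [e1]
      apply Complex.ext
      · rw [Complex.div_ofReal_re]; simp
      · rw [Complex.div_ofReal_im]; simp
    rw [hc]
    refine round_bound ?_ ?_
    · have := ediv_bound (a.x * b.x - a.y * b.y) ((SN : ℕ) : Int) (by exact_mod_cast SN_pos')
      simpa [mul] using this
    · have := ediv_bound (a.x * b.y + a.y * b.x) ((SN : ℕ) : Int) (by exact_mod_cast SN_pos')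
      simpa [mul] using this
  have hn1 := norm_ctr_le a
  have hn2 := norm_ctr_le b
  have hm : ‖((((SN : ℕ) : ℂ) * z - ctr a) * (((SN : ℕ) : ℂ) * w - ctr b) +
        ctr a * (((SN : ℕ) : ℂ) * w - ctr b) + ctr b * (((SN : ℕ) : ℂ) * z - ctr a)) /
        ((SN : ℕ) : ℂ)‖ ≤
      ((nb a.x a.y * b.r + nb b.x b.y * a.r + a.r * b.r : ℕ) : ℝ) / ((SN : ℕ) : ℝ) := by
    rw [norm_div]
    have e1 : ‖((SN : ℕ) : ℂ)‖ = ((SN : ℕ) : ℝ) := by simp
    rw [e1]
    refine div_le_div_of_nonneg_right ?_ hS.le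
    have t1 : ‖(((SN : ℕ) : ℂ) * z - ctr a) * (((SN : ℕ) : ℂ) * w - ctr b)‖ ≤ (a.r : ℝ) * b.r := by
      rw [norm_mul]; exact mul_le_mul h1 h2 (norm_nonneg _) (Nat.cast_nonneg _)
    have t2 : ‖ctr a * (((SN : ℕ) : ℂ) * w - ctr b)‖ ≤ (nb a.x a.y : ℝ) * b.r := by
      rw [norm_mul]; exact mul_le_mul hn1 h2 (norm_nonneg _) (Nat.cast_nonneg _)
    have t3 : ‖ctr b * (((SN : ℕ) : ℂ) * z - ctr a)‖ ≤ (nb b.x b.y : ℝ) * a.r := by
      rw [norm_mul]; exact mul_le_mul hn2 h1 (norm_nonneg _) (Nat.cast_nonneg _)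
    have t4 := norm_add₃_le (a := (((SN : ℕ) : ℂ) * z - ctr a) * (((SN : ℕ) : ℂ) * w - ctr b))
      (b := ctr a * (((SN : ℕ) : ℂ) * w - ctr b)) (c := ctr b * (((SN : ℕ) : ℂ) * z - ctr a))
    push_cast at t1 t2 t3 t4 ⊢
    linarith
  have hf := ndiv_bound (nb a.x a.y * b.r + nb b.x b.y * a.r + a.r * b.r) SN SN_pos'
  refine (norm_add_le _ _).trans ?_
  have e2 : ((mul a b).r : ℝ) =
      (((nb a.x a.y * b.r + nb b.x b.y * a.r + a.r * b.r) / SN : ℕ) : ℝ) + 3 := by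
    simp only [mul]; push_cast; ring
  rw [e2]
  linarith

theorem has_inv {a : D} {z : ℂ} (h : has a z) (hd : 0 < den a) : z ≠ 0 ∧ has (inv a) z⁻¹ := by
  unfold has at h
  have hS := SN_pos
  have hSc := SN_ne
  have hdR : (0 : ℝ) < den a := by exact_mod_cast hd
  have hD : ‖ctr a‖ ^ 2 - ((a.r : ℕ) : ℝ) ^ 2 = den a := by
    rw [← Complex.normSq_eq_norm_sq, Complex.normSq_apply]
    simp only [ctr_re, ctr_im, den]
    push_cast
    ring
  obtain ⟨hq, hi⟩ := Disk.inv_disk (Nat.cast_nonneg a.r) h (by linarith)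
  have hz : z ≠ 0 := by
    rintro rfl
    simp at hq
  refine ⟨hz, ?_⟩
  unfold has
  rw [hD] at hi
  set S2 : ℝ := ((SN * SN : ℕ) : ℝ) with hS2
  have hS2p : 0 < S2 := by rw [hS2]; push_cast; positivity
  have e1 : ((SN : ℕ) : ℂ) * z⁻¹ = (S2 : ℂ) * (((SN : ℕ) : ℂ) * z)⁻¹ := by
    rw [hS2]; push_cast; field_simp
  have e2 : ((SN : ℕ) : ℂ) * z⁻¹ - ctr (inv a) =
      (S2 : ℂ) * ((((SN : ℕ) : ℂ) * z)⁻¹ - (starRingEnd ℂ) (ctr a) / ((den a : ℝ) : ℂ)) +
      ((S2 : ℂ) * ((starRingEnd ℂ) (ctr a) / ((den a : ℝ) : ℂ)) - ctr (inv a)) := by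
    rw [e1]; ring
  rw [e2]
  have h1 : ‖(S2 : ℂ) * ((((SN : ℕ) : ℂ) * z)⁻¹ - (starRingEnd ℂ) (ctr a) / ((den a : ℝ) : ℂ))‖ ≤
      ((a.r * (SN * SN) : ℕ) : ℝ) / ((den a).toNat : ℝ) := by
    rw [norm_mul, Complex.norm_real, Real.norm_of_nonneg hS2p.le]
    have hdn : (((den a).toNat : ℕ) : ℝ) = (den a : ℝ) := by
      have : (((den a).toNat : ℕ) : Int) = den a := Int.toNat_of_nonneg hd.le
      exact_mod_cast this
    rw [hdn]
    calc S2 * ‖(((SN : ℕ) : ℂ) * z)⁻¹ - (starRingEnd ℂ) (ctr a) / ((den a : ℝ) : ℂ)‖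
        ≤ S2 * (((a.r : ℕ) : ℝ) / (den a : ℝ)) := by gcongr
      _ = ((a.r * (SN * SN) : ℕ) : ℝ) / (den a : ℝ) := by rw [hS2]; push_cast; ring
  have h2 := ndiv_bound (a.r * (SN * SN)) (den a).toNat (by omega)
  have h3 : ‖(S2 : ℂ) * ((starRingEnd ℂ) (ctr a) / ((den a : ℝ) : ℂ)) - ctr (inv a)‖ ≤ 2 := by
    have hc : (S2 : ℂ) * ((starRingEnd ℂ) (ctr a) / ((den a : ℝ) : ℂ)) =
        (⟨((a.x * (SN * SN : ℕ) : Int) : ℝ) / (den a : ℝ),
          ((-a.y * (SN * SN : ℕ) : Int) : ℝ) / (den a : ℝ)⟩ : ℂ) := by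
      apply Complex.ext
      · rw [Complex.re_ofReal_mul, Complex.div_ofReal_re]; simp [hS2]; ring
      · rw [Complex.im_ofReal_mul, Complex.div_ofReal_im]; simp [hS2]; ring
    rw [hc]
    refine round_bound ?_ ?_
    · exact ediv_bound (a.x * (SN * SN : ℕ)) (den a) hd
    · exact ediv_bound (-a.y * (SN * SN : ℕ)) (den a) hd
  refine (norm_add_le _ _).trans ?_
  have e3 : ((inv a).r : ℝ) = ((a.r * (SN * SN) / (den a).toNat : ℕ) : ℝ) + 3 := by
    simp only [inv]; push_cast; ring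
  rw [e3]
  linarith

theorem inv_halfplane {q : ℂ} {h : ℝ} (hh : 0 < h) (hq : h ≤ q.re) :
    q ≠ 0 ∧ ‖q⁻¹ - ((1 / (2 * h) : ℝ) : ℂ)‖ ≤ 1 / (2 * h) := by
  have hq0 : q ≠ 0 := by
    rintro rfl
    simp at hq
    linarith
  refine ⟨hq0, ?_⟩
  have h2 : ((2 * h : ℝ) : ℂ) ≠ 0 := by
    have : (2 * h : ℝ) ≠ 0 := by positivity
    exact_mod_cast this
  have e : q⁻¹ - ((1 / (2 * h) : ℝ) : ℂ) = (((2 * h : ℝ) : ℂ) - q) / (q * ((2 * h : ℝ) : ℂ)) := by
    rw [Complex.ofReal_div, Complex.ofReal_one]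
    field_simp
  rw [e, norm_div, norm_mul, Complex.norm_real, Real.norm_of_nonneg (by positivity : (0:ℝ) ≤ 2 * h)]
  have key : ‖(((2 * h : ℝ) : ℂ) - q)‖ ≤ ‖q‖ := by
    apply le_of_sq_le_sq _ (norm_nonneg _)
    rw [← Complex.normSq_eq_norm_sq, ← Complex.normSq_eq_norm_sq, normSq_apply, normSq_apply]
    simp only [Complex.sub_re, Complex.sub_im, Complex.ofReal_re, Complex.ofReal_im]
    nlinarith
  have hqn : 0 < ‖q‖ := norm_pos_iff.mpr hq0
  rw [div_le_div_iff₀ (by positivity) (by positivity)]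
  nlinarith

/-- the inverse of a number in a half plane -/
theorem has_inv_half {q : ℂ} {h : Int} (hh : 0 < h) (hq : (h : ℝ) ≤ (SN : ℝ) * q.re) :
    q ≠ 0 ∧ has ⟨((SN * SN) / (2 * h.toNat) : ℕ), 0, (SN * SN) / (2 * h.toNat) + 2⟩ q⁻¹ := by
  have hS := SN_pos
  have hSc := SN_ne
  have hhR : (0 : ℝ) < h := by exact_mod_cast hh
  obtain ⟨hq0, hi⟩ := inv_halfplane (q := ((SN : ℕ) : ℂ) * q) hhR (by
    have : (((SN : ℕ) : ℂ) * q).re = (SN : ℝ) * q.re := by
      simp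
    rw [this]; exact hq)
  have hz : q ≠ 0 := by
    rintro rfl
    simp at hq0
  refine ⟨hz, ?_⟩
  unfold has
  set S2 : ℝ := ((SN * SN : ℕ) : ℝ) with hS2
  have hS2p : 0 < S2 := by rw [hS2]; push_cast; positivity
  have hhn : ((h.toNat : ℕ) : ℝ) = (h : ℝ) := by
    have : ((h.toNat : ℕ) : Int) = h := Int.toNat_of_nonneg hh.le
    exact_mod_cast this
  have e1 : ((SN : ℕ) : ℂ) * q⁻¹ = (S2 : ℂ) * (((SN : ℕ) : ℂ) * q)⁻¹ := by
    rw [hS2]; push_cast; field_simp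
  set c : ℕ := (SN * SN) / (2 * h.toNat) with hc
  have hb := ediv_bound ((SN * SN : ℕ) : Int) ((2 * h.toNat : ℕ) : Int) (by
    have : 0 < h.toNat := by omega
    exact_mod_cast (by omega : 0 < 2 * h.toNat))
  have hb' : |S2 / (2 * (h : ℝ)) - (c : ℝ)| ≤ 1 := by
    have e : (((SN * SN : ℕ) : Int) / ((2 * h.toNat : ℕ) : Int)) = ((c : ℕ) : Int) := by
      rw [hc]; norm_cast
    rw [e] at hb
    have e2 : (((2 * h.toNat : ℕ) : Int) : ℝ) = 2 * (h : ℝ) := by
      push_cast; rw [hhn]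
    rw [e2] at hb
    simpa [hS2] using hb
  have hcc : ctr ⟨(c : ℕ), 0, c + 2⟩ = ((c : ℝ) : ℂ) := by
    apply Complex.ext <;> simp
  have e3 : ((SN : ℕ) : ℂ) * q⁻¹ - ctr ⟨(c : ℕ), 0, c + 2⟩ =
      (S2 : ℂ) * ((((SN : ℕ) : ℂ) * q)⁻¹ - ((1 / (2 * (h : ℝ)) : ℝ) : ℂ)) +
        ((S2 / (2 * (h : ℝ)) - (c : ℝ) : ℝ) : ℂ) := by
    rw [e1, hcc]
    push_cast
    ring
  rw [e3]
  refine (norm_add_le _ _).trans ?_
  rw [norm_mul, Complex.norm_real, Complex.norm_real, Real.norm_of_nonneg hS2p.le, Real.norm_eq_abs]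
  have h4 : S2 * ‖(((SN : ℕ) : ℂ) * q)⁻¹ - ((1 / (2 * (h : ℝ)) : ℝ) : ℂ)‖ ≤ S2 * (1 / (2 * (h : ℝ))) := by
    gcongr
  have h5 : S2 * (1 / (2 * (h : ℝ))) = S2 / (2 * (h : ℝ)) := by ring
  have h6 := (abs_le.mp hb').2
  rw [h5] at h4
  have e4 : (((c + 2 : ℕ)) : ℝ) = (c : ℝ) + 2 := by push_cast; ring
  show _ ≤ (((c + 2 : ℕ)) : ℝ)
  rw [e4]
  linarith

/-! ### the chain -/

/-- `B` encloses `om`, `rho` -/
def Box.ok (B : Box) (om rho : ℝ) : Prop :=
  |(SN : ℝ) * om - B.om| ≤ B.omr ∧ |(SN : ℝ) * rho - B.rho| ≤ B.rhor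

theorem has_zz {B : Box} {om rho : ℝ} (hB : B.ok om rho) : has (zzD B) (A4.zz rho) := by
  unfold has A4.zz zzD
  have e : ((SN : ℕ) : ℂ) * (-I * rho) - ctr ⟨0, -B.rho, B.rhor⟩ =
      ((-((SN : ℝ) * rho - B.rho) : ℝ) : ℂ) * I := by
    apply Complex.ext <;> simp
    ring
  rw [e, norm_mul, Complex.norm_I, mul_one, Complex.norm_real, Real.norm_eq_abs, abs_neg]
  exact hB.2

theorem has_a0 {B : Box} {om rho : ℝ} (hB : B.ok om rho) {l : ℕ} {d : D} {lam : ℂ} (h : has d lam) :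
    has (a0D B l d) (lam + (l : ℂ) / 2 - I * om) := by
  unfold has at *
  have e : ((SN : ℕ) : ℂ) * (lam + (l : ℂ) / 2 - I * om) - ctr (a0D B l d) =
      (((SN : ℕ) : ℂ) * lam - ctr d) + ((-((SN : ℝ) * om - B.om) : ℝ) : ℂ) * I := by
    have hh := SN_half
    apply Complex.ext
    · simp [a0D, hh]; ring
    · simp [a0D]; ring
  rw [e]
  refine (norm_add_le _ _).trans ?_
  rw [norm_mul, Complex.norm_I, mul_one, Complex.norm_real, Real.norm_eq_abs, abs_neg]
  have := hB.1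
  simp only [a0D]
  push_cast
  linarith

theorem ak_eq (l : ℕ) (om : ℝ) (lam : ℂ) (k : ℕ) :
    A4.ak l om lam k = (lam + (l : ℂ) / 2 - I * om) + k := by
  unfold A4.ak; ring

theorem mobius_eq {a g z b : ℂ} (hq : g + z + a - b ≠ 0) :
    (a - 1) * (g + z) / (g + z + a - b) = (a - 1) * (1 - (a - b) * (g + z + (a - b))⁻¹) := by
  have e : g + z + (a - b) = g + z + a - b := by ring
  rw [e]
  field_simp
  ring

theorem has_start {l : ℕ} {om rho : ℝ} {lam : ℂ} {a : D} {m : ℕ} {g : ℕ → ℂ}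
    (ha : has a (lam + (l : ℂ) / 2 - I * om))
    (hg : A4.Chain l om rho lam (m + 4) g) (hh : 0 < hStart l a (m + 4)) :
    has (start l a (m + 4)) (g (m + 3)) := by
  have hS := SN_pos
  have hk := hg.2 (m + 3) (by omega) (by omega)
  rw [show m + 3 + 1 = m + 4 from rfl] at hk
  rw [hk, ak_eq]
  have hl := has_lev ha (m + 4)
  set A : ℂ := lam + (l : ℂ) / 2 - I * om + ((m + 4 : ℕ) : ℂ) with hA
  set q : ℂ := g (m + 4) + A4.zz rho + (A - ((l : ℂ) + 6)) with hq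
  have hqre : (hStart l a (m + 4) : ℝ) ≤ (SN : ℝ) * q.re := by
    have h1 : |((((SN : ℕ) : ℂ) * A - ctr (lev a (m + 4)))).re| ≤ (lev a (m + 4)).r :=
      (Complex.abs_re_le_norm _).trans hl
    have h2 := (abs_le.mp h1).1
    have h3 : ((((SN : ℕ) : ℂ) * A - ctr (lev a (m + 4)))).re =
        (SN : ℝ) * A.re - ((lev a (m + 4)).x : ℝ) := by simp
    rw [h3] at h2
    have h4 : q.re = (g (m + 4)).re + (A.re - ((l : ℝ) + 6)) := by
      rw [hq]
      simp [A4.zz]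
    have h5 := hg.1
    have h6 := SN_half
    rw [h4]
    unfold hStart
    push_cast
    rw [h6]
    nlinarith
  obtain ⟨hq0, hiq⟩ := has_inv_half hh hqre
  have hq0' : g (m + 4) + A4.zz rho + A - ((l : ℂ) + 6) ≠ 0 := by
    have e : g (m + 4) + A4.zz rho + A - ((l : ℂ) + 6) = q := by rw [hq]; ring
    rw [e]; exact hq0
  rw [mobius_eq hq0']
  have hb : has (nat (l + 6)) ((l : ℂ) + 6) := by
    have := has_nat (l + 6)
    push_cast at this
    exact this
  exact has_mul (has_sub hl has_one) (has_sub has_one (has_mul (has_sub hl hb) hiq))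

theorem has_step {l : ℕ} {om rho : ℝ} {lam : ℂ} {z a d : D} {k : ℕ} {g : ℂ}
    (hz : has z (A4.zz rho)) (ha : has a (lam + (l : ℂ) / 2 - I * om)) (hg : has d g)
    (hd : 0 < den (qD l z a d k)) :
    has (stepD l z a d k) ((A4.ak l om lam k - 1) * (g + A4.zz rho) /
      (g + A4.zz rho + A4.ak l om lam k - ((l : ℂ) + 6))) := by
  rw [ak_eq]
  have hl := has_lev ha k
  set A : ℂ := lam + (l : ℂ) / 2 - I * om + (k : ℂ) with hA
  have hb : has (nat (l + 6)) ((l : ℂ) + 6) := by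
    have := has_nat (l + 6)
    push_cast at this
    exact this
  have hq : has (qD l z a d k) (g + A4.zz rho + (A - ((l : ℂ) + 6))) :=
    has_add (has_add hg hz) (has_sub hl hb)
  obtain ⟨hq0, hiq⟩ := has_inv hq hd
  have hq0' : g + A4.zz rho + A - ((l : ℂ) + 6) ≠ 0 := by
    have e : g + A4.zz rho + A - ((l : ℂ) + 6) = g + A4.zz rho + (A - ((l : ℂ) + 6)) := by ring
    rw [e]; exact hq0
  rw [mobius_eq hq0']
  exact has_mul (has_sub hl has_one) (has_sub has_one (has_mul (has_sub hl hb) hiq))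

theorem has_go {l : ℕ} {om rho : ℝ} {lam : ℂ} {z a : D} {m : ℕ} {g : ℕ → ℂ}
    (hz : has z (A4.zz rho)) (ha : has a (lam + (l : ℂ) / 2 - I * om))
    (hg : A4.Chain l om rho lam (m + 4) g) :
    ∀ j : ℕ, j ≤ m → (goD l z a m j).2 = true → has (goD l z a m j).1 (g (m + 3 - j)) := by
  intro j
  induction j with
  | zero =>
    intro _ h
    simp only [goD, decide_eq_true_eq] at h ⊢
    exact has_start ha hg h
  | succ j ih =>
    intro hj h
    simp only [goD, Bool.and_eq_true, decide_eq_true_eq] at h ⊢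
    have h1 := ih (by omega) h.1
    have hk := hg.2 (m + 3 - (j + 1)) (by omega) (by omega)
    have e : m + 3 - (j + 1) + 1 = m + 3 - j := by omega
    rw [e] at hk
    rw [hk]
    exact has_step hz ha h1 h.2

theorem has_stp {l : ℕ} {z a : D} {p : D × D} {z' a' : ℂ} {p' : ℂ × ℂ} (hz : has z z') (ha : has a a')
    (h1 : has p.1 p'.1) (h2 : has p.2 p'.2) :
    has (stpD l z a p).1 (A4.stp l z' a' p').1 ∧ has (stpD l z a p).2 (A4.stp l z' a' p').2 := by
  have hb : has (nat (l + 6)) ((l : ℂ) + 6) := by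
    have := has_nat (l + 6)
    push_cast at this
    exact this
  exact ⟨has_add (has_mul (has_add (has_sub ha hb) hz) h1) h2,
    has_mul (has_sub ha has_one) (has_add h2 (has_mul hz h1))⟩

theorem has_uy {l : ℕ} {om rho : ℝ} {lam g : ℂ} {z a d : D} (hz : has z (A4.zz rho))
    (ha : has a (lam + (l : ℂ) / 2 - I * om)) (hg : has d g) :
    has (uyD l z a d).1 (A4.uy l om rho lam g).1 ∧ has (uyD l z a d).2 (A4.uy l om rho lam g).2 := by
  have hak : ∀ k : ℕ, has (lev a k) (A4.ak l om lam k) := by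
    intro k; rw [ak_eq]; exact has_lev ha k
  have h3 := has_stp (l := l) (p := (nat 1, d)) (p' := (1, g)) hz (hak 3) has_one hg
  have h2 := has_stp (l := l) hz (hak 2) h3.1 h3.2
  exact has_stp (l := l) hz (hak 1) h2.1 h2.2

theorem has_pw {a : D} {z : ℂ} (h : has a z) : ∀ n : ℕ, has (pw a n) (z ^ n)
  | 0 => by rw [pow_zero]; exact has_one
  | n + 1 => by rw [pow_succ]; exact has_mul (has_pw h n) h

theorem has_PP {l : ℕ} {d : D} {lam : ℂ} (h : has d lam) : has (PPD l d) (A4.PP l lam) := by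
  match l with
  | 0 =>
    simp only [PPD, A4.PP]
    exact has_mul (has_mul h (has_sub h has_one)) (has_pw (has_add h has_one) 4)
  | 1 =>
    simp only [PPD, A4.PP]
    have := has_half 1
    rw [Nat.cast_one] at this
    exact has_mul (has_sub h this) (has_pw (has_add h has_one) 5)
  | 2 =>
    simp only [PPD, A4.PP]
    have h3 := has_half 3
    have e : (((3 : ℕ) : ℂ) / 2) = 3 / 2 := by norm_num
    rw [e] at h3
    exact has_mul (has_pw (has_add h has_one) 2) (has_pw (has_add h h3) 4)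
  | (n + 3) =>
    simp only [PPD, A4.PP]
    have h3 := has_nat (n + 3)
    push_cast at h3
    exact has_mul (has_pw (has_add h has_one) 2) (has_pw (has_add h h3) 4)

/-- what a certificate says at `lam` -/
def Good (l : ℕ) (om rho : ℝ) (M : ℕ) (lam : ℂ) : Prop :=
  ∀ g g' : ℕ → ℂ, A4.Chain l om rho lam M g →
    A4.Chain l om rho ((starRingEnd ℂ) lam) M g' →
    0 < (A4.Wr l om rho lam (g 3) (g' 3) * (starRingEnd ℂ) (A4.PP l lam)).re

theorem good_of_test {B : Box} {om rho : ℝ} (hB : B.ok om rho) {l m : ℕ} {d : D} {lam : ℂ}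
    (h : test B l m d = true) (hd : has d lam) : Good l om rho (m + 4) lam := by
  intro g g' hg hg'
  simp only [test, Bool.and_eq_true, decide_eq_true_eq] at h
  have hz := has_zz hB
  have ha := has_a0 hB (l := l) hd
  have ha' := has_a0 hB (l := l) (has_cj hd)
  have h1 := has_go hz ha hg m le_rfl h.1.1
  have h1' := has_go hz ha' hg' m le_rfl h.1.2
  have e : m + 3 - m = 3 := by omega
  rw [e] at h1 h1'
  have h2 := has_uy hz ha h1
  have h2' := has_uy hz ha' h1'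
  have hT := has_mul (has_add (has_mul h2.2 (has_cj h2'.1)) (has_mul (has_cj h2'.2) h2.1))
    (has_cj (has_PP (l := l) hd))
  have h3 := h.2
  change (((mul (WD (uyD l (zzD B) (a0D B l d) (goD l (zzD B) (a0D B l d) m m).1)
    (uyD l (zzD B) (a0D B l (cj d)) (goD l (zzD B) (a0D B l (cj d)) m m).1))
    (cj (PPD l d))).r : Int) < _) at h3
  set T := mul (WD (uyD l (zzD B) (a0D B l d) (goD l (zzD B) (a0D B l d) m m).1)
    (uyD l (zzD B) (a0D B l (cj d)) (goD l (zzD B) (a0D B l (cj d)) m m).1)) (cj (PPD l d)) with hTdef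
  have hT' : has T (A4.Wr l om rho lam (g 3) (g' 3) * (starRingEnd ℂ) (A4.PP l lam)) := hT
  set w := A4.Wr l om rho lam (g 3) (g' 3) * (starRingEnd ℂ) (A4.PP l lam)
  have h4 : |((((SN : ℕ) : ℂ) * w - ctr T)).re| ≤ T.r := (Complex.abs_re_le_norm _).trans hT'
  have h5 := (abs_le.mp h4).1
  have h6 : ((((SN : ℕ) : ℂ) * w - ctr T)).re = (SN : ℝ) * w.re - (T.x : ℝ) := by simp
  rw [h6] at h5
  have h7 : (T.r : ℝ) < T.x := by exact_mod_cast h3
  have h8 : 0 < (SN : ℝ) * w.re := by linarith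
  exact (mul_pos_iff_of_pos_left SN_pos).mp h8

theorem Wr_conj (l : ℕ) (om rho : ℝ) (lam g g' : ℂ) :
    A4.Wr l om rho ((starRingEnd ℂ) lam) g' g = (starRingEnd ℂ) (A4.Wr l om rho lam g g') := by
  unfold A4.Wr
  rw [Complex.conj_conj]
  simp only [map_add, map_mul, Complex.conj_conj]
  ring

theorem PP_conj (l : ℕ) (lam : ℂ) :
    A4.PP l ((starRingEnd ℂ) lam) = (starRingEnd ℂ) (A4.PP l lam) := by
  match l with
  | 0 => simp only [A4.PP, map_mul, map_pow, map_add, map_sub, map_one]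
  | 1 => simp only [A4.PP, map_mul, map_pow, map_add, map_sub, map_div₀, map_one, map_ofNat]
  | 2 => simp only [A4.PP, map_mul, map_pow, map_add, map_div₀, map_one, map_ofNat]
  | (n + 3) => simp only [A4.PP, map_mul, map_pow, map_add, map_one, map_natCast, map_ofNat]

theorem Good.conj {l : ℕ} {om rho : ℝ} {M : ℕ} {lam : ℂ} (h : Good l om rho M lam) :
    Good l om rho M ((starRingEnd ℂ) lam) := by
  intro g g' hg hg'
  rw [Complex.conj_conj] at hg'
  have h1 := h g' g hg' hg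
  rw [Wr_conj, PP_conj, ← map_mul, Complex.conj_re]
  exact h1

theorem segOK_spec {f : ℕ → ℕ → Bool} : ∀ (ds : List ℕ) (t : ℕ), segOK f t ds = true →
    ∀ s : ℝ, (t : ℝ) ≤ s → s ≤ ((t + ds.sum : ℕ) : ℝ) → ds ≠ [] →
      ∃ t' d' : ℕ, f t' d' = true ∧ (t' : ℝ) ≤ s ∧ s ≤ ((t' + d' : ℕ) : ℝ)
  | [], _, _, _, _, _, h => absurd rfl h
  | d :: ds, t, h, s, h1, h2, _ => by
    simp only [segOK, Bool.and_eq_true] at h
    rcases le_or_gt s ((t + d : ℕ) : ℝ) with h3 | h3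
    · exact ⟨t, d, h.1, h1, h3⟩
    · have hne : ds ≠ [] := by
        rintro rfl
        simp at h2
        push_cast at h3
        linarith
      refine segOK_spec ds (t + d) h.2 s h3.le ?_ hne
      rw [List.sum_cons] at h2
      rw [add_assoc]
      exact h2

theorem has_of_abs {x y : Int} {r : ℕ} {z : ℂ} {u v : ℝ} (hu : |(SN : ℝ) * z.re - x| ≤ u)
    (hv : |(SN : ℝ) * z.im - y| ≤ v) (h : u + v ≤ r) : has ⟨x, y, r⟩ z := by
  unfold has
  refine (Complex.norm_le_abs_re_add_abs_im _).trans ?_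
  have e1 : (((SN : ℕ) : ℂ) * z - ctr ⟨x, y, r⟩).re = (SN : ℝ) * z.re - x := by simp
  have e2 : (((SN : ℕ) : ℂ) * z - ctr ⟨x, y, r⟩).im = (SN : ℝ) * z.im - y := by simp
  rw [e1, e2]
  linarith

theorem good_V {B : Box} {om rho : ℝ} (hB : B.ok om rho) {l m : ℕ} {X : Int} {x : ℝ}
    (hX : |(SN : ℝ) * x - X| ≤ 1) {ds : List ℕ} (hne : ds ≠ []) (hds : segOK (fV B l m X) 0 ds = true)
    {lam : ℂ} (hre : lam.re = x) (h0 : 0 ≤ lam.im) (h1 : lam.im * 65536 ≤ (ds.sum : ℝ)) :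
    Good l om rho (m + 4) lam := by
  obtain ⟨t, d, hf, h2, h3⟩ := segOK_spec ds 0 hds (lam.im * 65536) (by simp; positivity)
    (by rw [zero_add]; exact h1) hne
  refine good_of_test hB hf ?_
  have hSN : (SN : ℝ) = 65536 * 16777216 := by norm_num [SN]
  refine has_of_abs (u := 1) (v := (d * 8388608 : ℕ)) (by rw [hre]; exact hX) ?_ (by push_cast; linarith)
  rw [hSN, abs_le]
  push_cast at h3 ⊢
  constructor <;> nlinarith

theorem good_H {B : Box} {om rho : ℝ} (hB : B.ok om rho) {l m : ℕ} {X Y : Int} {x y : ℝ}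
    (hX : |(SN : ℝ) * x - X| ≤ 1) (hY : (SN : ℝ) * y = Y) {ds : List ℕ} (hne : ds ≠ [])
    (hds : segOK (fH B l m X Y) 0 ds = true)
    {lam : ℂ} (him : lam.im = y) (h0 : x ≤ lam.re) (h1 : (lam.re - x) * 65536 ≤ (ds.sum : ℝ)) :
    Good l om rho (m + 4) lam := by
  obtain ⟨t, d, hf, h2, h3⟩ := segOK_spec ds 0 hds ((lam.re - x) * 65536)
    (by simp; linarith) (by rw [zero_add]; exact h1) hne
  refine good_of_test hB hf ?_
  have hSN : (SN : ℝ) = 65536 * 16777216 := by norm_num [SN]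
  refine has_of_abs (u := (d * 8388608 : ℕ) + 1) (v := 0) ?_ ?_ (by push_cast; linarith)
  · rw [hSN] at hX ⊢
    rw [abs_le] at hX ⊢
    push_cast at h3 ⊢
    constructor <;> nlinarith
  · rw [him, hY]; simp

/-- **driver**: four kernel checks give the certificate on the whole rectangle. -/
theorem certR_of {B : Box} {om rho : ℝ} (hB : B.ok om rho) {l m : ℕ} {X0 X1 Y : Int} {x0 x1 T : ℝ}
    (hX0 : |(SN : ℝ) * x0 - X0| ≤ 1) (hX1 : |(SN : ℝ) * x1 - X1| ≤ 1) (hY : (SN : ℝ) * T = Y)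
    {L1 L2 L3 : List ℕ} (n1 : L1 ≠ []) (n2 : L2 ≠ []) (n3 : L3 ≠ [])
    (h1 : segOK (fV B l m X0) 0 L1 = true) (s1 : T * 65536 ≤ (L1.sum : ℝ))
    (h2 : segOK (fH B l m X0 Y) 0 L2 = true) (s2 : (x1 - x0) * 65536 ≤ (L2.sum : ℝ))
    (h3 : segOK (fV B l m X1) 0 L3 = true) (s3 : T * 65536 ≤ (L3.sum : ℝ)) :
    A4.CertR l om rho x0 x1 T (m + 4) := by
  have key : ∀ lam ∈ A4.BdR x0 x1 T, 0 ≤ lam.im → Good l om rho (m + 4) lam := by
    intro lam hlam h0
    rcases hlam with h | h | h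
    · refine good_V hB hX0 n1 h1 h.1 h0 ?_
      have := (abs_le.mp h.2).2
      linarith
    · rw [abs_of_nonneg h0] at h
      refine good_H hB hX0 hY n2 h2 h.1 h.2.1 ?_
      have := h.2.2
      linarith
    · refine good_V hB hX1 n3 h3 h.1 h0 ?_
      have := (abs_le.mp h.2).2
      linarith
  intro lam hlam
  rcases le_total 0 lam.im with h0 | h0
  · exact key lam hlam h0
  · have h1 := key ((starRingEnd ℂ) lam) (by
      unfold A4.BdR at *
      simpa using hlam) (by simpa using h0)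
    have h2 := h1.conj
    rwa [Complex.conj_conj] at h2

end Crest.Agent.R086.IDisc
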