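import Mathlib
import Crest.Agent.R086.IDisc

/-!
Row 86, Part A4 (helper545): numeric certificate `CertR 0` (kernel-checked complex discs), `M = 10`.
-/

set_option autoImplicit false
set_option maxRecDepth 100000

namespace Crest.Agent.R086.A4Cert0

open Crest.Agent.R086.IDisc

/-- centre and radius of the box of `AData` -/
def B0 : Box := ⟨368090214651, 109954, 2974253939827, 219905⟩

theorem B0_ok {om rho : ℝ} (h1 : om ∈ Set.Icc (0.3347760 : ℝ) 0.3347762)
    (h2 : rho ∈ Set.Icc (2.7050680 : ℝ) 2.7050684) : B0.ok om rho := by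
  obtain ⟨a, b⟩ := h1
  obtain ⟨c, d⟩ := h2
  unfold Box.ok B0 SN
  constructor
  · rw [abs_le]; constructor <;> norm_num at * <;> linarith
  · rw [abs_le]; constructor <;> norm_num at * <;> linarith

def L1 : List ℕ :=
  [239, 235, 233, 234, 236, 240, 244, 252, 260, 268, 279, 290, 302, 318, 335, 349, 368, 387, 411,
  432, 455, 479, 505, 532, 555, 585, 616, 642, 669, 705, 735, 766, 799, 833, 868, 905, 943, 983,
  1024, 1056, 1101, 1135, 1143, 1164, 1172, 1181, 1190, 1185, 1208, 1216, 1211, 1205, 1186, 1181,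
  1176, 1184, 1179, 1173, 1182, 1191, 1200, 1209, 1217, 1226, 1250, 1274, 1299, 1323, 1348, 1390,
  1433, 1443, 1470, 1481, 1492, 1521, 1550, 1561, 1590, 1621, 1653, 1705, 1738, 1772, 1827, 1861,
  1919, 1979, 2016, 2079, 2144, 2211, 2279, 2350, 2423, 2498, 2546, 2596, 2646, 2698, 2751, 2804,
  2859, 2948, 3040, 3099, 3195, 3294, 3397, 3503, 3612, 3682, 3797, 3871, 3946, 4023, 4100, 4180,
  4262, 4345, 4429, 4520, 1983]

def L2 : List ℕ :=
  [301, 452, 679, 1019, 1529, 2294, 3442, 5002, 5276, 5688, 5998, 6185, 6595, 6954, 7579, 7815,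
  8150, 8596, 9368, 8659]

def L3 : List ℕ :=
  [301, 452, 679, 1019, 1529, 2294, 3442, 3751, 3780, 3853, 4108, 4429, 4411, 4548, 4903, 5056,
  5154, 5436, 5797, 5978, 6025, 6213, 6698, 6908, 6962, 7180, 7572, 7897, 8050, 8207, 8559, 9126,
  9518, 9592, 9666, 7515]

theorem s1 : segOK (fV B0 0 6 (-54975581389)) 0 L1 = true := by decide +kernel
theorem s2 : segOK (fH B0 0 6 (-54975581389) 3298534883328) 0 L2 = true := by decide +kernel
theorem s3 : segOK (fV B0 0 6 1649267441664) 0 L3 = true := by decide +kernel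

theorem sum1 : L1.sum = 196608 := by decide +kernel
theorem sum2 : L2.sum = 101581 := by decide +kernel
theorem sum3 : L3.sum = 196608 := by decide +kernel

/-- **CERTIFICATE** for `l = 0` -/
theorem cert {om rho : ℝ} (h1 : om ∈ Set.Icc (0.3347760 : ℝ) 0.3347762)
    (h2 : rho ∈ Set.Icc (2.7050680 : ℝ) 2.7050684) :
    A4.CertR 0 om rho (-1 / 20) (3 / 2) 3 10 := by
  refine certR_of (B := B0) (B0_ok h1 h2) (m := 6) (X0 := -54975581389) (X1 := 1649267441664) (Y := 3298534883328)
    ?_ ?_ ?_ (L1 := L1) (L2 := L2) (L3 := L3) (by simp [L1]) (by simp [L2]) (by simp [L3])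
    s1 ?_ s2 ?_ s3 ?_
  · rw [abs_le]; unfold SN; constructor <;> norm_num
  · rw [abs_le]; unfold SN; constructor <;> norm_num
  · unfold SN; norm_num
  · rw [sum1]; norm_num
  · rw [sum2]; norm_num
  · rw [sum3]; norm_num

end Crest.Agent.R086.A4Cert0
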