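import Mathlib
import Crest.Agent.R086.IDisc

/-!
Row 86, Part A4 (helper545): numeric certificate `CertR 1` (kernel-checked complex discs), `M = 10`.
-/

set_option autoImplicit false
set_option maxRecDepth 100000

namespace Crest.Agent.R086.A4Cert1

open Crest.Agent.R086.IDisc

/-- centre and radius of the box of `AData` -/
def B0 : Box := ⟨368090214651, 109954, 2974253939827, 219905⟩

theorem B0_ok {om rho : ℝ} (h1 : om ∈ Set.Icc (0.3347760 : ℝ) 0.3347762)
    (h2 : rho ∈ Set.Icc (2.7050680 : ℝ) 2.7050684) : B0.ok om rho := by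
  obtain ⟨a, b⟩ := h1
  obtain ⟨c, d⟩ := h2
  unfold Box.ok B0 SN
  constructor
  · rw [abs_le]; constructor <;> norm_num at * <;> linarith
  · rw [abs_le]; constructor <;> norm_num at * <;> linarith

def L1 : List ℕ :=
  [128, 127, 128, 127, 126, 127, 126, 127, 126, 125, 126, 125, 126, 125, 126, 125, 126, 125, 126,
  125, 126, 125, 126, 125, 126, 127, 126, 127, 126, 127, 128, 127, 128, 127, 129, 128, 129, 130,
  129, 131, 131, 131, 132, 131, 132, 134, 133, 135, 135, 135, 137, 137, 137, 139, 139, 139, 141,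
  141, 141, 143, 143, 143, 145, 145, 147, 147, 149, 150, 151, 151, 153, 153, 155, 155, 157, 158,
  159, 160, 163, 163, 165, 166, 169, 170, 172, 173, 174, 177, 178, 179, 181, 184, 186, 187, 189,
  192, 193, 196, 199, 200, 203, 206, 209, 212, 216, 219, 222, 226, 230, 234, 236, 240, 244, 246,
  248, 252, 254, 256, 261, 263, 267, 271, 275, 279, 283, 287, 292, 297, 302, 307, 312, 317, 323,
  332, 338, 345, 351, 362, 369, 375, 386, 398, 410, 418, 431, 449, 457, 471, 485, 494, 509, 525,
  541, 558, 575, 599, 617, 636, 648, 660, 673, 686, 707, 728, 750, 773, 797, 822, 857, 883, 920,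
  958, 1010, 1053, 1098, 1145, 1193, 1244, 1297, 1321, 1346, 1372, 1398, 1442, 1487, 1533, 1599,
  1667, 1737, 1811, 1888, 1969, 2053, 2117, 2133, 2150, 2166, 2208, 2251, 2294, 2366, 2440, 2516,
  2595, 2675, 2789, 2908, 3033, 3162, 3224, 3286, 3389, 3455, 3522, 3590, 3702, 3774, 3892, 4014,
  4139, 4268, 3868]

def L2 : List ℕ :=
  [301, 452, 679, 1019, 1529, 2294, 3442, 4841, 5105, 5443, 5548, 5786, 6102, 6579, 6938, 7033,
  2445]

def L3 : List ℕ :=
  [301, 452, 679, 1019, 1529, 1702, 1715, 1768, 1843, 1921, 1891, 1882, 1919, 1979, 2086, 2175,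
  2217, 2208, 2225, 2294, 2392, 2522, 2689, 2710, 2795, 2849, 3004, 3168, 3415, 3441, 3467, 3575,
  3728, 3975, 4285, 4368, 4452, 4591, 4841, 5162, 5566, 5609, 5784, 6031, 6289, 6632, 6916, 6970,
  7018, 1791]

theorem s1 : segOK (fV B0 1 6 (0)) 0 L1 = true := by decide +kernel
theorem s2 : segOK (fH B0 1 6 (0) 2748779069440) 0 L2 = true := by decide +kernel
theorem s3 : segOK (fV B0 1 6 1099511627776) 0 L3 = true := by decide +kernel

theorem sum1 : L1.sum = 163840 := by decide +kernel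
theorem sum2 : L2.sum = 65536 := by decide +kernel
theorem sum3 : L3.sum = 163840 := by decide +kernel

/-- **CERTIFICATE** for `l = 1` -/
theorem cert {om rho : ℝ} (h1 : om ∈ Set.Icc (0.3347760 : ℝ) 0.3347762)
    (h2 : rho ∈ Set.Icc (2.7050680 : ℝ) 2.7050684) :
    A4.CertR 1 om rho 0 1 (5 / 2) 10 := by
  refine certR_of (B := B0) (B0_ok h1 h2) (m := 6) (X0 := 0) (X1 := 1099511627776) (Y := 2748779069440)
    ?_ ?_ ?_ (L1 := L1) (L2 := L2) (L3 := L3) (by simp [L1]) (by simp [L2]) (by simp [L3])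
    s1 ?_ s2 ?_ s3 ?_
  · rw [abs_le]; unfold SN; constructor <;> norm_num
  · rw [abs_le]; unfold SN; constructor <;> norm_num
  · unfold SN; norm_num
  · rw [sum1]; norm_num
  · rw [sum2]; norm_num
  · rw [sum3]; norm_num

end Crest.Agent.R086.A4Cert1
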