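import Mathlib
import Crest.Agent.R086.IDisc

/-!
Row 86, Part A4 (helper545): numeric certificate `CertR 2` (kernel-checked complex discs), `M = 10`.
-/

set_option autoImplicit false
set_option maxRecDepth 100000

namespace Crest.Agent.R086.A4Cert2

open Crest.Agent.R086.IDisc

/-- centre and radius of the box of `AData` -/
def B0 : Box := ⟨368090214651, 109954, 2974253939827, 219905⟩

theorem B0_ok {om rho : ℝ} (h1 : om ∈ Set.Icc (0.3347760 : ℝ) 0.3347762)
    (h2 : rho ∈ Set.Icc (2.7050680 : ℝ) 2.7050684) : B0.ok om rho := by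
  obtain ⟨a, b⟩ := h1
  obtain ⟨c, d⟩ := h2
  unfold Box.ok B0 SN
  constructor
  · rw [abs_le]; constructor <;> norm_num at * <;> linarith
  · rw [abs_le]; constructor <;> norm_num at * <;> linarith

def L1 : List ℕ :=
  [301, 452, 679, 795, 782, 769, 757, 745, 733, 729, 725, 722, 719, 724, 721, 726, 723, 702, 682,
  672, 661, 643, 639, 629, 619, 616, 613, 603, 600, 597, 595, 592, 596, 594, 592, 575, 559, 543,
  534, 526, 511, 503, 494, 491, 483, 474, 467, 459, 451, 448, 441, 433, 426, 420, 413, 411, 404,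
  398, 395, 392, 389, 383, 372, 366, 355, 348, 342, 337, 327, 321, 319, 310, 308, 303, 298, 294,
  289, 287, 282, 278, 277, 273, 271, 266, 265, 260, 259, 257, 253, 252, 251, 249, 247, 245, 244,
  240, 241, 239, 237, 235, 236, 234, 233, 231, 232, 230, 231, 229, 230, 228, 229, 230, 228, 226,
  224, 222, 220, 218, 217, 215, 216, 214, 213, 212, 211, 209, 207, 208, 206, 207, 205, 203, 204,
  205, 203, 204, 202, 204, 202, 204, 202, 204, 202, 204, 205, 203, 206, 204, 207, 208, 209, 210,
  209, 212, 211, 212, 214, 213, 215, 216, 217, 220, 221, 222, 223, 224, 225, 229, 230, 231, 235,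
  236, 240, 241, 245, 247, 251, 255, 257, 262, 264, 268, 272, 276, 281, 285, 290, 295, 293, 298,
  297, 302, 304, 306, 308, 310, 316, 318, 320, 326, 328, 334, 336, 342, 345, 351, 357, 363, 369,
  375, 381, 388, 395, 402, 410, 418, 426, 435, 442, 456, 464, 478, 487, 502, 512, 528, 544, 561,
  578, 596, 622, 641, 668, 696, 725, 748, 762, 786, 801, 826, 852, 879, 906, 935, 964, 1005,
  1036, 1068, 1113, 1160, 1209, 1260, 1313, 1369, 1427, 1487, 1550, 1634, 1723, 1776, 1831, 1888,
  1947, 2007, 2069, 2158, 2250, 2323]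

def L2 : List ℕ :=
  [301, 452, 679, 1019, 1529, 2294, 2661, 2775, 2958, 3050, 3146, 3245, 3422, 3609, 1628]

def L3 : List ℕ :=
  [301, 452, 679, 1019, 1529, 1594, 1569, 1544, 1537, 1549, 1560, 1571, 1600, 1556, 1532, 1508,
  1501, 1494, 1488, 1499, 1510, 1539, 1568, 1580, 1555, 1530, 1506, 1499, 1492, 1486, 1479, 1490,
  1502, 1531, 1560, 1516, 1509, 1485, 1478, 1489, 1500, 1511, 1540, 1570, 1619, 1669, 1740, 1773,
  1786, 1779, 1813, 1827, 1861, 1919, 1956, 2017, 2080, 2169, 2261, 2305, 2323, 2367, 2441, 2517,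
  2596, 2707, 2854, 3010, 3245, 3460, 3527, 3637, 2307]

theorem s1 : segOK (fV B0 2 6 (0)) 0 L1 = true := by decide +kernel
theorem s2 : segOK (fH B0 2 6 (0) 2199023255552) 0 L2 = true := by decide +kernel
theorem s3 : segOK (fV B0 2 6 549755813888) 0 L3 = true := by decide +kernel

theorem sum1 : L1.sum = 131072 := by decide +kernel
theorem sum2 : L2.sum = 32768 := by decide +kernel
theorem sum3 : L3.sum = 131072 := by decide +kernel

/-- **CERTIFICATE** for `l = 2` -/
theorem cert {om rho : ℝ} (h1 : om ∈ Set.Icc (0.3347760 : ℝ) 0.3347762)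
    (h2 : rho ∈ Set.Icc (2.7050680 : ℝ) 2.7050684) :
    A4.CertR 2 om rho 0 (1 / 2) 2 10 := by
  refine certR_of (B := B0) (B0_ok h1 h2) (m := 6) (X0 := 0) (X1 := 549755813888) (Y := 2199023255552)
    ?_ ?_ ?_ (L1 := L1) (L2 := L2) (L3 := L3) (by simp [L1]) (by simp [L2]) (by simp [L3])
    s1 ?_ s2 ?_ s3 ?_
  · rw [abs_le]; unfold SN; constructor <;> norm_num
  · rw [abs_le]; unfold SN; constructor <;> norm_num
  · unfold SN; norm_num
  · rw [sum1]; norm_num
  · rw [sum2]; norm_num
  · rw [sum3]; norm_num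

end Crest.Agent.R086.A4Cert2
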