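import Mathlib
import Crest.Agent.R086.A4Form
import Crest.Agent.R086.A4Main2

/-!
Row 86, Part A4 (helper522): `Outside om rho` (371's `A4Main2`) from Lemma HP (helper11) and the 14
numeric inequalities of `A4Num`.
-/

set_option autoImplicit false

open Complex Set

namespace Crest.Agent.R086.A4

open Crest.Agent.R086.JCx Crest.Agent.R086.A4HP

local notation "cj" => (starRingEnd ℂ)

theorem hp_f {rho om sg mu sg0 mu0 ur ui v p0 p1 : ℝ} (hrL : 2.705068 ≤ rho) (hrH : rho ≤ 2.7050684)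
    (hom : om ≤ 0.3347762) (hsg : sg0 ≤ sg) (hmu : mu0 ≤ mu) (hur : 0 ≤ ur) (hui : 0 ≤ ui)
    (hv : v ≤ 0)
    (h0 : p0 ≤ -(2.7050684 ^ 2 / 4) * ur + 2.705068 * (-ui * (3 - sg0) + (mu0 - 0.3347762) * ur))
    (h0' : p0 ≤ -(2.7050684 ^ 2 / 4) * ur + 2.7050684 * (-ui * (3 - sg0) + (mu0 - 0.3347762) * ur))
    (h1 : p1 ≤ -(2.705068 ^ 2 / 4) * v) :
    ∀ t : ℝ, 0 ≤ t → p0 + p1 * t ≤ -(rho ^ 2 / 4) * (ur + t * v) +
      rho * (-ui * (3 - sg) + (mu - om) * ur) := by
  intro t ht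
  have hr0 : 0 ≤ rho := by linarith
  have a1 : -ui * (3 - sg0) + (mu0 - 0.3347762) * ur ≤ -ui * (3 - sg) + (mu - om) * ur := by
    nlinarith [mul_nonneg hui (sub_nonneg.2 hsg), mul_nonneg hur (sub_nonneg.2 hmu),
      mul_nonneg hur (sub_nonneg.2 hom)]
  have a2 := mul_le_mul_of_nonneg_left a1 hr0
  have a3 : 2.705068 ^ 2 ≤ rho ^ 2 := by nlinarith
  have a4 : rho ^ 2 ≤ 2.7050684 ^ 2 := by nlinarith
  have a5 : p0 ≤ -(2.7050684 ^ 2 / 4) * ur + rho * (-ui * (3 - sg0) + (mu0 - 0.3347762) * ur) := by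
    rcases le_total 0 (-ui * (3 - sg0) + (mu0 - 0.3347762) * ur) with h | h
    · have := mul_le_mul_of_nonneg_right hrL h
      linarith
    · have := mul_le_mul_of_nonpos_right hrH h
      linarith
  have a6 : -(2.7050684 ^ 2 / 4) * ur ≤ -(rho ^ 2 / 4) * ur := by
    have := mul_le_mul_of_nonneg_right a4 hur
    linarith
  have a7 : p1 * t ≤ -(rho ^ 2 / 4) * (t * v) := by
    have b1 : p1 ≤ -(rho ^ 2 / 4) * v := by
      have := mul_le_mul_of_nonpos_right a3 hv
      linarith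
    have := mul_le_mul_of_nonneg_right b1 ht
    calc p1 * t ≤ -(rho ^ 2 / 4) * v * t := this
      _ = -(rho ^ 2 / 4) * (t * v) := by ring
  have a8 : -(rho ^ 2 / 4) * (ur + t * v) = -(rho ^ 2 / 4) * ur + -(rho ^ 2 / 4) * (t * v) := by ring
  rw [a8]
  linarith

theorem hp_n {rho om sg mu sg0 mu0 ur ui v p0 p1 : ℝ} (hrL : 2.705068 ≤ rho) (hrH : rho ≤ 2.7050684)
    (hom : 0.3347760 ≤ om) (hsg : sg0 ≤ sg) (hmu : mu ≤ -mu0) (hur : ur ≤ 0) (hui : 0 ≤ ui)
    (hv : v ≤ 0)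
    (h0 : p0 ≤ -(2.705068 ^ 2 / 4) * ur + 2.705068 * (-ui * (3 - sg0) + (-mu0 - 0.3347760) * ur))
    (h0' : p0 ≤ -(2.705068 ^ 2 / 4) * ur + 2.7050684 * (-ui * (3 - sg0) + (-mu0 - 0.3347760) * ur))
    (h1 : p1 ≤ -(2.705068 ^ 2 / 4) * v) :
    ∀ t : ℝ, 0 ≤ t → p0 + p1 * t ≤ -(rho ^ 2 / 4) * (ur + t * v) +
      rho * (-ui * (3 - sg) + (mu - om) * ur) := by
  intro t ht
  have hr0 : 0 ≤ rho := by linarith
  have hur' : 0 ≤ -ur := by linarith
  have a1 : -ui * (3 - sg0) + (-mu0 - 0.3347760) * ur ≤ -ui * (3 - sg) + (mu - om) * ur := by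
    nlinarith [mul_nonneg hui (sub_nonneg.2 hsg), mul_nonneg hur' (sub_nonneg.2 hmu),
      mul_nonneg hur' (sub_nonneg.2 hom)]
  have a2 := mul_le_mul_of_nonneg_left a1 hr0
  have a3 : 2.705068 ^ 2 ≤ rho ^ 2 := by nlinarith
  have a5 : p0 ≤ -(2.705068 ^ 2 / 4) * ur + rho * (-ui * (3 - sg0) + (-mu0 - 0.3347760) * ur) := by
    rcases le_total 0 (-ui * (3 - sg0) + (-mu0 - 0.3347760) * ur) with h | h
    · have := mul_le_mul_of_nonneg_right hrL h
      linarith
    · have := mul_le_mul_of_nonpos_right hrH h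
      linarith
  have a6 : -(2.705068 ^ 2 / 4) * ur ≤ -(rho ^ 2 / 4) * ur := by
    have := mul_le_mul_of_nonpos_right a3 hur
    linarith
  have a7 : p1 * t ≤ -(rho ^ 2 / 4) * (t * v) := by
    have b1 : p1 ≤ -(rho ^ 2 / 4) * v := by
      have := mul_le_mul_of_nonpos_right a3 hv
      linarith
    have := mul_le_mul_of_nonneg_right b1 ht
    calc p1 * t ≤ -(rho ^ 2 / 4) * v * t := this
      _ = -(rho ^ 2 / 4) * (t * v) := by ring
  have a8 : -(rho ^ 2 / 4) * (ur + t * v) = -(rho ^ 2 / 4) * ur + -(rho ^ 2 / 4) * (t * v) := by ring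
  rw [a8]
  linarith

theorem pair_P1 {l : ℕ} (hl : 3 ≤ l) {om rho : ℝ} (ho1 : 0.3347760 ≤ om) (ho2 : om ≤ 0.3347762)
    (hr1 : 2.705068 ≤ rho) (hr2 : rho ≤ 2.7050684) {lam : ℂ} (hre : 0 ≤ lam.re)
    (him : 0 ≤ lam.im) : Dw l om rho lam ≠ 0 := by
  have h0 : 0 < rho := by linarith
  have hre0 : 0 ≤ lam.re := by linarith
  obtain ⟨f1, f2⟩ := form (l := l) (om := om) (lam := lam) h0 hre0
    (g1 := (40/41)) (g2 := -(9/41)) (e1 := (16/65)) (e2 := (63/65))
    (by norm_num) (by norm_num) (by norm_num) (by norm_num) (by norm_num)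
    (al := (73/2665)) (ur := (1207/2665)) (by norm_num) (by norm_num)
    (by norm_num) (by norm_num) num_P1f (by
      intro t ht
      have h3 : (3 : ℝ) ≤ l := by exact_mod_cast hl
      have h4 : (16 : ℝ) ≤ (((l : ℝ) + 5) / 2) ^ 2 := by nlinarith
      exact mul_le_mul_of_nonneg_right h4 (by positivity))
    (hp_f hr1 hr2 ho2 hre him (by norm_num) (by norm_num) (by norm_num) (by norm_num)
      (by norm_num) (by norm_num))
  obtain ⟨n1, n2⟩ := form (l := l) (om := om) (lam := cj lam) h0 (by rw [conj_re]; exact hre0)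
    (g1 := (40/41)) (g2 := (9/41)) (e1 := (9/41)) (e2 := (40/41))
    (by norm_num) (by norm_num) (by norm_num) (by norm_num) (by norm_num)
    (al := (720/1681)) (ur := 0) (by norm_num) (by norm_num)
    (by norm_num) (by norm_num) num_P1n (by
      intro t ht
      have h3 : (3 : ℝ) ≤ l := by exact_mod_cast hl
      have h4 : (16 : ℝ) ≤ (((l : ℝ) + 5) / 2) ^ 2 := by nlinarith
      exact mul_le_mul_of_nonneg_right h4 (by positivity))
    (by
      rw [conj_re, conj_im]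
      exact hp_n hr1 hr2 ho1 hre (neg_le_neg him) (by norm_num) (by norm_num) (by norm_num)
        (by norm_num) (by norm_num) (by norm_num))
  have hcj : cj (⟨(40/41), (9/41)⟩ : ℂ) = (⟨(40/41), -(9/41)⟩ : ℂ) := by
    apply Complex.ext <;> simp
  refine dw_ne_of_forms (⟨(40/41), (9/41)⟩ : ℂ) _ _ f1 n1 (by rw [hcj]; exact f2) n2 ?_

  have h3 : (3 : ℝ) ≤ l := by exact_mod_cast hl
  norm_num
  linarith

theorem pair_P2 {om rho : ℝ} (ho1 : 0.3347760 ≤ om) (ho2 : om ≤ 0.3347762)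
    (hr1 : 2.705068 ≤ rho) (hr2 : rho ≤ 2.7050684) {lam : ℂ} (hre : (1/2) ≤ lam.re)
    (him : 0 ≤ lam.im) : Dw 2 om rho lam ≠ 0 := by
  have h0 : 0 < rho := by linarith
  have hre0 : 0 ≤ lam.re := by linarith
  obtain ⟨f1, f2⟩ := form (l := 2) (om := om) (lam := lam) h0 hre0
    (g1 := (60/61)) (g2 := -(11/61)) (e1 := (16/65)) (e2 := (63/65))
    (by norm_num) (by norm_num) (by norm_num) (by norm_num) (by norm_num)
    (al := (267/3965)) (ur := (1653/3965)) (by norm_num) (by norm_num)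
    (by norm_num) (by norm_num) num_P2f (fun t ht => le_of_eq (by norm_num))
    (hp_f hr1 hr2 ho2 hre him (by norm_num) (by norm_num) (by norm_num) (by norm_num)
      (by norm_num) (by norm_num))
  obtain ⟨n1, n2⟩ := form (l := 2) (om := om) (lam := cj lam) h0 (by rw [conj_re]; exact hre0)
    (g1 := (60/61)) (g2 := (11/61)) (e1 := (11/61)) (e2 := (60/61))
    (by norm_num) (by norm_num) (by norm_num) (by norm_num) (by norm_num)
    (al := (1320/3721)) (ur := 0) (by norm_num) (by norm_num)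
    (by norm_num) (by norm_num) num_P2n (fun t ht => le_of_eq (by norm_num))
    (by
      rw [conj_re, conj_im]
      exact hp_n hr1 hr2 ho1 hre (neg_le_neg him) (by norm_num) (by norm_num) (by norm_num)
        (by norm_num) (by norm_num) (by norm_num))
  have hcj : cj (⟨(60/61), (11/61)⟩ : ℂ) = (⟨(60/61), -(11/61)⟩ : ℂ) := by
    apply Complex.ext <;> simp
  refine dw_ne_of_forms (⟨(60/61), (11/61)⟩ : ℂ) _ _ f1 n1 (by rw [hcj]; exact f2) n2 ?_

  norm_num

theorem pair_P3 {om rho : ℝ} (ho1 : 0.3347760 ≤ om) (ho2 : om ≤ 0.3347762)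
    (hr1 : 2.705068 ≤ rho) (hr2 : rho ≤ 2.7050684) {lam : ℂ} (hre : 0 ≤ lam.re)
    (him : 2 ≤ lam.im) : Dw 2 om rho lam ≠ 0 := by
  have h0 : 0 < rho := by linarith
  have hre0 : 0 ≤ lam.re := by linarith
  obtain ⟨f1, f2⟩ := form (l := 2) (om := om) (lam := lam) h0 hre0
    (g1 := (77/85)) (g2 := -(36/85)) (e1 := (8/17)) (e2 := (15/17))
    (by norm_num) (by norm_num) (by norm_num) (by norm_num) (by norm_num)
    (al := (76/1445)) (ur := (4/5)) (by norm_num) (by norm_num)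
    (by norm_num) (by norm_num) num_P3f (fun t ht => le_of_eq (by norm_num))
    (hp_f hr1 hr2 ho2 hre him (by norm_num) (by norm_num) (by norm_num) (by norm_num)
      (by norm_num) (by norm_num))
  obtain ⟨n1, n2⟩ := form (l := 2) (om := om) (lam := cj lam) h0 (by rw [conj_re]; exact hre0)
    (g1 := (77/85)) (g2 := (36/85)) (e1 := 0) (e2 := 1)
    (by norm_num) (by norm_num) (by norm_num) (by norm_num) (by norm_num)
    (al := (36/85)) (ur := (-36/85)) (by norm_num) (by norm_num)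
    (by norm_num) (by norm_num) num_P3n (fun t ht => le_of_eq (by norm_num))
    (by
      rw [conj_re, conj_im]
      exact hp_n hr1 hr2 ho1 hre (neg_le_neg him) (by norm_num) (by norm_num) (by norm_num)
        (by norm_num) (by norm_num) (by norm_num))
  have hcj : cj (⟨(77/85), (36/85)⟩ : ℂ) = (⟨(77/85), -(36/85)⟩ : ℂ) := by
    apply Complex.ext <;> simp
  refine dw_ne_of_forms (⟨(77/85), (36/85)⟩ : ℂ) _ _ f1 n1 (by rw [hcj]; exact f2) n2 ?_

  norm_num

theorem pair_P4 {om rho : ℝ} (ho1 : 0.3347760 ≤ om) (ho2 : om ≤ 0.3347762)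
    (hr1 : 2.705068 ≤ rho) (hr2 : rho ≤ 2.7050684) {lam : ℂ} (hre : 1 ≤ lam.re)
    (him : 0 ≤ lam.im) : Dw 1 om rho lam ≠ 0 := by
  have h0 : 0 < rho := by linarith
  have hre0 : 0 ≤ lam.re := by linarith
  obtain ⟨f1, f2⟩ := form (l := 1) (om := om) (lam := lam) h0 hre0
    (g1 := (84/85)) (g2 := -(13/85)) (e1 := (16/65)) (e2 := (63/65))
    (by norm_num) (by norm_num) (by norm_num) (by norm_num) (by norm_num)
    (al := (21/221)) (ur := (2163/5525)) (by norm_num) (by norm_num)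
    (by norm_num) (by norm_num) num_P4f (fun t ht => le_of_eq (by norm_num))
    (hp_f hr1 hr2 ho2 hre him (by norm_num) (by norm_num) (by norm_num) (by norm_num)
      (by norm_num) (by norm_num))
  obtain ⟨n1, n2⟩ := form (l := 1) (om := om) (lam := cj lam) h0 (by rw [conj_re]; exact hre0)
    (g1 := (84/85)) (g2 := (13/85)) (e1 := (13/85)) (e2 := (84/85))
    (by norm_num) (by norm_num) (by norm_num) (by norm_num) (by norm_num)
    (al := (2184/7225)) (ur := 0) (by norm_num) (by norm_num)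
    (by norm_num) (by norm_num) num_P4n (fun t ht => le_of_eq (by norm_num))
    (by
      rw [conj_re, conj_im]
      exact hp_n hr1 hr2 ho1 hre (neg_le_neg him) (by norm_num) (by norm_num) (by norm_num)
        (by norm_num) (by norm_num) (by norm_num))
  have hcj : cj (⟨(84/85), (13/85)⟩ : ℂ) = (⟨(84/85), -(13/85)⟩ : ℂ) := by
    apply Complex.ext <;> simp
  refine dw_ne_of_forms (⟨(84/85), (13/85)⟩ : ℂ) _ _ f1 n1 (by rw [hcj]; exact f2) n2 ?_

  norm_num

theorem pair_P5 {om rho : ℝ} (ho1 : 0.3347760 ≤ om) (ho2 : om ≤ 0.3347762)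
    (hr1 : 2.705068 ≤ rho) (hr2 : rho ≤ 2.7050684) {lam : ℂ} (hre : 0 ≤ lam.re)
    (him : (5/2) ≤ lam.im) : Dw 1 om rho lam ≠ 0 := by
  have h0 : 0 < rho := by linarith
  have hre0 : 0 ≤ lam.re := by linarith
  obtain ⟨f1, f2⟩ := form (l := 1) (om := om) (lam := lam) h0 hre0
    (g1 := (77/85)) (g2 := -(36/85)) (e1 := (8/17)) (e2 := (15/17))
    (by norm_num) (by norm_num) (by norm_num) (by norm_num) (by norm_num)
    (al := (76/1445)) (ur := (4/5)) (by norm_num) (by norm_num)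
    (by norm_num) (by norm_num) num_P5f (fun t ht => le_of_eq (by norm_num))
    (hp_f hr1 hr2 ho2 hre him (by norm_num) (by norm_num) (by norm_num) (by norm_num)
      (by norm_num) (by norm_num))
  obtain ⟨n1, n2⟩ := form (l := 1) (om := om) (lam := cj lam) h0 (by rw [conj_re]; exact hre0)
    (g1 := (77/85)) (g2 := (36/85)) (e1 := 0) (e2 := 1)
    (by norm_num) (by norm_num) (by norm_num) (by norm_num) (by norm_num)
    (al := (36/85)) (ur := (-36/85)) (by norm_num) (by norm_num)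
    (by norm_num) (by norm_num) num_P5n (fun t ht => le_of_eq (by norm_num))
    (by
      rw [conj_re, conj_im]
      exact hp_n hr1 hr2 ho1 hre (neg_le_neg him) (by norm_num) (by norm_num) (by norm_num)
        (by norm_num) (by norm_num) (by norm_num))
  have hcj : cj (⟨(77/85), (36/85)⟩ : ℂ) = (⟨(77/85), -(36/85)⟩ : ℂ) := by
    apply Complex.ext <;> simp
  refine dw_ne_of_forms (⟨(77/85), (36/85)⟩ : ℂ) _ _ f1 n1 (by rw [hcj]; exact f2) n2 ?_

  norm_num

theorem pair_P6 {om rho : ℝ} (ho1 : 0.3347760 ≤ om) (ho2 : om ≤ 0.3347762)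
    (hr1 : 2.705068 ≤ rho) (hr2 : rho ≤ 2.7050684) {lam : ℂ} (hre : (3/2) ≤ lam.re)
    (him : 0 ≤ lam.im) : Dw 0 om rho lam ≠ 0 := by
  have h0 : 0 < rho := by linarith
  have hre0 : 0 ≤ lam.re := by linarith
  obtain ⟨f1, f2⟩ := form (l := 0) (om := om) (lam := lam) h0 hre0
    (g1 := (84/85)) (g2 := -(13/85)) (e1 := (7/25)) (e2 := (24/25))
    (by norm_num) (by norm_num) (by norm_num) (by norm_num) (by norm_num)
    (al := (276/2125)) (ur := (36/85)) (by norm_num) (by norm_num)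
    (by norm_num) (by norm_num) num_P6f (fun t ht => le_of_eq (by norm_num))
    (hp_f hr1 hr2 ho2 hre him (by norm_num) (by norm_num) (by norm_num) (by norm_num)
      (by norm_num) (by norm_num))
  obtain ⟨n1, n2⟩ := form (l := 0) (om := om) (lam := cj lam) h0 (by rw [conj_re]; exact hre0)
    (g1 := (84/85)) (g2 := (13/85)) (e1 := (13/85)) (e2 := (84/85))
    (by norm_num) (by norm_num) (by norm_num) (by norm_num) (by norm_num)
    (al := (2184/7225)) (ur := 0) (by norm_num) (by norm_num)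
    (by norm_num) (by norm_num) num_P6n (fun t ht => le_of_eq (by norm_num))
    (by
      rw [conj_re, conj_im]
      exact hp_n hr1 hr2 ho1 hre (neg_le_neg him) (by norm_num) (by norm_num) (by norm_num)
        (by norm_num) (by norm_num) (by norm_num))
  have hcj : cj (⟨(84/85), (13/85)⟩ : ℂ) = (⟨(84/85), -(13/85)⟩ : ℂ) := by
    apply Complex.ext <;> simp
  refine dw_ne_of_forms (⟨(84/85), (13/85)⟩ : ℂ) _ _ f1 n1 (by rw [hcj]; exact f2) n2 ?_

  norm_num

theorem pair_P7 {om rho : ℝ} (ho1 : 0.3347760 ≤ om) (ho2 : om ≤ 0.3347762)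
    (hr1 : 2.705068 ≤ rho) (hr2 : rho ≤ 2.7050684) {lam : ℂ} (hre : 0 ≤ lam.re)
    (him : 3 ≤ lam.im) : Dw 0 om rho lam ≠ 0 := by
  have h0 : 0 < rho := by linarith
  have hre0 : 0 ≤ lam.re := by linarith
  obtain ⟨f1, f2⟩ := form (l := 0) (om := om) (lam := lam) h0 hre0
    (g1 := (77/85)) (g2 := -(36/85)) (e1 := (8/17)) (e2 := (15/17))
    (by norm_num) (by norm_num) (by norm_num) (by norm_num) (by norm_num)
    (al := (76/1445)) (ur := (4/5)) (by norm_num) (by norm_num)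
    (by norm_num) (by norm_num) num_P7f (fun t ht => le_of_eq (by norm_num))
    (hp_f hr1 hr2 ho2 hre him (by norm_num) (by norm_num) (by norm_num) (by norm_num)
      (by norm_num) (by norm_num))
  obtain ⟨n1, n2⟩ := form (l := 0) (om := om) (lam := cj lam) h0 (by rw [conj_re]; exact hre0)
    (g1 := (77/85)) (g2 := (36/85)) (e1 := 0) (e2 := 1)
    (by norm_num) (by norm_num) (by norm_num) (by norm_num) (by norm_num)
    (al := (36/85)) (ur := (-36/85)) (by norm_num) (by norm_num)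
    (by norm_num) (by norm_num) num_P7n (fun t ht => le_of_eq (by norm_num))
    (by
      rw [conj_re, conj_im]
      exact hp_n hr1 hr2 ho1 hre (neg_le_neg him) (by norm_num) (by norm_num) (by norm_num)
        (by norm_num) (by norm_num) (by norm_num))
  have hcj : cj (⟨(77/85), (36/85)⟩ : ℂ) = (⟨(77/85), -(36/85)⟩ : ℂ) := by
    apply Complex.ext <;> simp
  refine dw_ne_of_forms (⟨(77/85), (36/85)⟩ : ℂ) _ _ f1 n1 (by rw [hcj]; exact f2) n2 ?_

  norm_num

/-- **371's `Outside`**. -/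
theorem outside {om rho : ℝ} (ho1 : 0.3347760 ≤ om) (ho2 : om ≤ 0.3347762)
    (hr1 : 2.705068 ≤ rho) (hr2 : rho ≤ 2.7050684) : Outside om rho := by
  have key : ∀ (l : ℕ) (Q : ℝ → ℝ → Prop),
      (∀ lam : ℂ, 0 ≤ lam.im → 0 ≤ lam.re ∧ Q lam.re |lam.im| → Dw l om rho lam ≠ 0) →
      ∀ lam : ℂ, 0 ≤ lam.re → Q lam.re |lam.im| → Dw l om rho lam ≠ 0 := by
    intro l Q h lam h1 h2
    exact Dw_ne_of_upper (P := fun a b => 0 ≤ a ∧ Q a b) h lam ⟨h1, h2⟩
  refine ⟨key 0 (fun a b => 3 / 2 ≤ a ∨ 3 ≤ b) ?_, key 1 (fun a b => 1 ≤ a ∨ 5 / 2 ≤ b) ?_,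
    key 2 (fun a b => 1 / 2 ≤ a ∨ 2 ≤ b) ?_, ?_⟩
  · rintro lam h0 ⟨h1, h2 | h2⟩
    · exact pair_P6 ho1 ho2 hr1 hr2 h2 h0
    · exact pair_P7 ho1 ho2 hr1 hr2 h1 (by rwa [abs_of_nonneg h0] at h2)
  · rintro lam h0 ⟨h1, h2 | h2⟩
    · exact pair_P4 ho1 ho2 hr1 hr2 h2 h0
    · exact pair_P5 ho1 ho2 hr1 hr2 h1 (by rwa [abs_of_nonneg h0] at h2)
  · rintro lam h0 ⟨h1, h2 | h2⟩
    · exact pair_P2 ho1 ho2 hr1 hr2 h2 h0
    · exact pair_P3 ho1 ho2 hr1 hr2 h1 (by rwa [abs_of_nonneg h0] at h2)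
  · intro l hl lam h1
    exact key l (fun _ _ => True) (fun lam h0 h => pair_P1 hl ho1 ho2 hr1 hr2 h.1 h0) lam h1 trivial

end Crest.Agent.R086.A4
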