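import Mathlib
import Crest.Agent.R086.A4Conv
import Crest.Agent.R086.A4C01
import Crest.Agent.R086.A4Main2
import Crest.Agent.R086.A4Cert23

/-!
Row 86, part A4 (helper523): the rows `l = 2`, `l ≥ 3` of the outside region and the assembly
`Outside om rho` (helper371's Prop) for the box of `AData`.
-/

set_option autoImplicit false

open Set Complex
open scoped ComplexConjugate

namespace Crest.Agent.R086.A4Chk

open A4HP JCx A4

theorem mkF_eq (B rho om s m gr gi er ei : ℝ) :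
    mkF B rho om s m gr gi er ei = A4Conv.mkF B rho (3 - s) (m - om) gr gi er ei := by
  unfold mkF A4Conv.mkF
  congr 1 <;> ring

theorem formC {l : ℕ} {om rho : ℝ} {lam : ℂ} {B2 sig m gr gi er ei sT c0 : ℚ} {L : List (ℚ × ℚ)}
    (hbox : A4Conv.Box om rho) (hl : 0 ≤ lam.re)
    (hchk : chk (mkq B2 sig m gr gi er ei) sT 0 c0 L = true)
    (hs : sideB B2 gr gi er ei = true)
    (he : er ^ 2 + ei ^ 2 = 1) (he2 : 0 < ei) (hg2 : 0 < gr * er + gi * ei)
    (hsig : (sig : ℝ) ≤ lam.re)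
    (hm : (m : ℝ) * (gr * er - gi * ei) ≤ lam.im * (gr * er - gi * ei))
    (hB : (0 ≤ gr * er - gi * ei ∧ (B2 : ℝ) ≤ (((l : ℝ) + 5) / 2) ^ 2) ∨
      (B2 : ℝ) = (((l : ℝ) + 5) / 2) ^ 2) :
    Lf l om rho 0 lam ≠ 0 ∧
      ((⟨(gr : ℝ), (gi : ℝ)⟩ : ℂ) *
        ((((l : ℝ) + 5) / 2 : ℝ) + I * rho / 2 - Gk l om rho 0 lam)).re ≤ -(c0 : ℝ) := by
  have h1 := hbox.r1
  have h0 : 0 < rho := by norm_num at h1; linarith
  have hs' := hs
  unfold sideB at hs'
  simp only [Bool.and_eq_true, decide_eq_true_eq] at hs'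
  obtain ⟨⟨⟨⟨⟨⟨⟨q1, -⟩, q2⟩, -⟩, -⟩, -⟩, -⟩, -⟩ := hs'
  refine A4Conv.form_of_good (er := er) (ei := ei) hl h0 (by exact_mod_cast he)
    (by exact_mod_cast q2) (by exact_mod_cast he2) (by exact_mod_cast q1) (by exact_mod_cast hg2) ?_
  have := good_of_chk hchk hs (B := ((l : ℝ) + 5) / 2) hbox.r1 hbox.r2 hbox.o1 hbox.o2 hsig hm hB
  rwa [mkF_eq] at this

/-- `l ≥ 3` -/
theorem ne_l3 {l : ℕ} (hl3 : 3 ≤ l) {om rho : ℝ} (hb : A4Conv.Box om rho) {lam : ℂ}
    (hl : 0 ≤ lam.re) (hm : 0 ≤ lam.im) : Dw l om rho lam ≠ 0 := by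
  have hl' : (3 : ℝ) ≤ l := by exact_mod_cast hl3
  have hB : (((16 : ℚ) : ℝ)) ≤ (((l : ℝ) + 5) / 2) ^ 2 := by push_cast; nlinarith
  refine A4Conv.row (gi := 9 / 41) (by norm_num)
    (formC hb hl l3_f (by decide +kernel) (by norm_num) (by norm_num) (by norm_num)
      (by push_cast; linarith) ?_ (Or.inl ⟨by norm_num, hB⟩))
    (formC hb (by simpa using hl) l3_n (by decide +kernel) (by norm_num) (by norm_num)
      (by norm_num) (by rw [conj_re]; push_cast; linarith) (by norm_num)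
      (Or.inl ⟨by norm_num, hB⟩)) (by push_cast; linarith)
  refine mul_le_mul_of_nonneg_right ?_ (by norm_num)
  push_cast; linarith

theorem ne_l2s {om rho : ℝ} (hb : A4Conv.Box om rho) {lam : ℂ} (hs : 1 / 2 ≤ lam.re)
    (hm : 0 ≤ lam.im) : Dw 2 om rho lam ≠ 0 := by
  have hl : 0 ≤ lam.re := by linarith
  refine A4Conv.row (gi := 9 / 41) (by norm_num)
    (formC hb hl l2s_f (by decide +kernel) (by norm_num) (by norm_num) (by norm_num)
      (by push_cast; linarith) ?_ (Or.inr (by norm_num)))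
    (formC hb (by simpa using hl) l2s_n (by decide +kernel) (by norm_num) (by norm_num)
      (by norm_num) (by rw [conj_re]; push_cast; linarith) (by norm_num)
      (Or.inr (by norm_num))) (by norm_num)
  refine mul_le_mul_of_nonneg_right ?_ (by norm_num)
  push_cast; linarith

theorem ne_l2m {om rho : ℝ} (hb : A4Conv.Box om rho) {lam : ℂ} (hl : 0 ≤ lam.re)
    (hm : 2 ≤ lam.im) : Dw 2 om rho lam ≠ 0 := by
  refine A4Conv.row (gi := 36 / 85) (by norm_num)
    (formC hb hl l2m_f (by decide +kernel) (by norm_num) (by norm_num) (by norm_num)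
      (by push_cast; linarith) ?_ (Or.inr (by norm_num)))
    (formC hb (by simpa using hl) l2m_n (by decide +kernel) (by norm_num) (by norm_num)
      (by norm_num) (by rw [conj_re]; push_cast; linarith) ?_
      (Or.inr (by norm_num))) (by norm_num)
  · refine mul_le_mul_of_nonneg_right ?_ (by norm_num)
    push_cast; linarith
  · refine mul_le_mul_of_nonpos_right ?_ (by norm_num)
    rw [conj_im]
    push_cast; linarith

/-- `Outside.o2` -/
theorem out2 {om rho : ℝ} (hb : A4Conv.Box om rho) :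
    ∀ lam : ℂ, 0 ≤ lam.re → (1 / 2 ≤ lam.re ∨ 2 ≤ |lam.im|) → Dw 2 om rho lam ≠ 0 := by
  intro lam h1 h2
  refine Dw_ne_of_upper (P := fun x y => 0 ≤ x ∧ (1 / 2 ≤ x ∨ 2 ≤ y)) ?_ lam ⟨h1, h2⟩
  rintro lam hm ⟨h1, h2 | h2⟩
  · exact ne_l2s hb h2 hm
  · rw [abs_of_nonneg hm] at h2; exact ne_l2m hb h1 h2

/-- `Outside.o3` -/
theorem out3 {om rho : ℝ} (hb : A4Conv.Box om rho) :
    ∀ l : ℕ, 3 ≤ l → ∀ lam : ℂ, 0 ≤ lam.re → Dw l om rho lam ≠ 0 := by
  intro l hl3 lam h1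
  refine Dw_ne_of_upper (P := fun x _ => 0 ≤ x) ?_ lam h1
  intro lam hm h1
  exact ne_l3 hl3 hb h1 hm

/-- **`Outside`** for the whole box of `AData`. -/
theorem outside {om rho : ℝ} (hb : A4Conv.Box om rho) : Outside om rho :=
  ⟨A4Conv.out0 hb, A4Conv.out1 hb, out2 hb, out3 hb⟩

end Crest.Agent.R086.A4Chk
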