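import Mathlib
import Crest.Agent.R086.A3

/-!
Row 86, Part A (helper522): `3/5 |U(R)| ≤ |U(r)|` for `r ≥ R` (from 592's A3: `|U(r)| > |Γ(1 - i om)|`,
and the Taylor expansion of order 4 of `(1+is)^(4+i om)` at `rho = R²/4`).
-/

set_option autoImplicit false

open MeasureTheory Complex Set Filter Topology

namespace Crest.Agent.R086.A3

open Crest.Agent.R086.JInt

lemma MA_re (om v : ℝ) : (MA (1 - I * om) (4 + I * om) v).re =
    1 + (3 * om) * v + (-12 - 7/2 * om ^ 2 - 1/2 * om ^ 4) * v ^ 2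
      + (-18 * om - 13/2 * om ^ 3 - 1/2 * om ^ 5) * v ^ 3
      + (24 + 205/6 * om ^ 2 + 91/8 * om ^ 4 + 5/4 * om ^ 6 + 1/24 * om ^ 8) * v ^ 4 := by
  unfold MA MB
  have e2 : (v : ℂ) ^ 2 = ((v ^ 2 : ℝ) : ℂ) := by push_cast; rfl
  have e3 : (v : ℂ) ^ 3 = ((v ^ 3 : ℝ) : ℂ) := by push_cast; rfl
  have e4 : (v : ℂ) ^ 4 = ((v ^ 4 : ℝ) : ℂ) := by push_cast; rfl
  rw [e2, e3, e4]
  simp only [add_re, add_im, mul_re, mul_im, sub_re, sub_im, div_ofNat_re, div_ofNat_im, I_re, I_im,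
    ofReal_re, ofReal_im, one_re, one_im, re_ofNat, im_ofNat]
  ring

lemma MA_im (om v : ℝ) : (MA (1 - I * om) (4 + I * om) v).im =
    (4 + om ^ 2) * v + (11 * om + 2 * om ^ 3) * v ^ 2
      + (-24 - 44/3 * om ^ 2 - 17/6 * om ^ 4 - 1/6 * om ^ 6) * v ^ 3 := by
  unfold MA MB
  have e2 : (v : ℂ) ^ 2 = ((v ^ 2 : ℝ) : ℂ) := by push_cast; rfl
  have e3 : (v : ℂ) ^ 3 = ((v ^ 3 : ℝ) : ℂ) := by push_cast; rfl
  have e4 : (v : ℂ) ^ 4 = ((v ^ 4 : ℝ) : ℂ) := by push_cast; rfl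
  rw [e2, e3, e4]
  simp only [add_re, add_im, mul_re, mul_im, sub_re, sub_im, div_ofNat_re, div_ofNat_im, I_re, I_im,
    ofReal_re, ofReal_im, one_re, one_im, re_ofNat, im_ofNat]
  ring

lemma norm_MA_le {om v : ℝ} (h1 : 0.334776 ≤ om) (h2 : om ≤ 0.3347762) (h3 : 0.369676 ≤ v)
    (h4 : v ≤ 0.369677) : ‖MA (1 - I * om) (4 + I * om) v‖ ≤ 3 / 4 := by
  have ho : 0 ≤ om := by linarith
  have hv : 0 ≤ v := by linarith
  have U : ∀ i j : ℕ, om ^ i * v ^ j ≤ 0.3347762 ^ i * 0.369677 ^ j := fun i j => by gcongr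
  have L : ∀ i j : ℕ, (0.334776 : ℝ) ^ i * 0.369676 ^ j ≤ om ^ i * v ^ j := fun i j => by gcongr
  have hre1 : (MA (1 - I * om) (4 + I * om) v).re ≤ -0.11 := by
    rw [MA_re]
    have u1 := U 1 1
    have l1 := L 0 2; have l2 := L 2 2; have l3 := L 4 2
    have l4 := L 1 3; have l5 := L 3 3; have l6 := L 5 3
    have u2 := U 0 4; have u3 := U 2 4; have u4 := U 4 4; have u5 := U 6 4; have u6 := U 8 4
    norm_num at u1 l1 l2 l3 l4 l5 l6 u2 u3 u4 u5 u6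
    nlinarith
  have hre2 : -0.118 ≤ (MA (1 - I * om) (4 + I * om) v).re := by
    rw [MA_re]
    have u1 := L 1 1
    have l1 := U 0 2; have l2 := U 2 2; have l3 := U 4 2
    have l4 := U 1 3; have l5 := U 3 3; have l6 := U 5 3
    have u2 := L 0 4; have u3 := L 2 4; have u4 := L 4 4; have u5 := L 6 4; have u6 := L 8 4
    norm_num at u1 l1 l2 l3 l4 l5 l6 u2 u3 u4 u5 u6
    nlinarith
  have him1 : (MA (1 - I * om) (4 + I * om) v).im ≤ 0.737 := by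
    rw [MA_im]
    have u1 := U 2 1; have u2 := U 1 2; have u3 := U 3 2
    have l1 := L 0 3; have l2 := L 2 3; have l3 := L 4 3; have l4 := L 6 3
    norm_num at u1 u2 u3 l1 l2 l3 l4
    nlinarith
  have him2 : 0 ≤ (MA (1 - I * om) (4 + I * om) v).im := by
    rw [MA_im]
    have u1 := L 2 1; have u2 := L 1 2; have u3 := L 3 2
    have l1 := U 0 3; have l2 := U 2 3; have l3 := U 4 3; have l4 := U 6 3
    norm_num at u1 u2 u3 l1 l2 l3 l4
    nlinarith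
  have h5 : ‖MA (1 - I * om) (4 + I * om) v‖ ^ 2 ≤ (3 / 4) ^ 2 := by
    rw [Complex.sq_norm, normSq_apply]
    nlinarith
  exact le_of_sq_le_sq h5 (by norm_num)

lemma norm_ki_le {k om K : ℝ} (hK : 0 ≤ K) (h : k ^ 2 + om ^ 2 ≤ K ^ 2) :
    ‖((k : ℂ) + I * om)‖ ≤ K := by
  have h5 : ‖((k : ℂ) + I * om)‖ ^ 2 ≤ K ^ 2 := by
    rw [Complex.sq_norm, normSq_apply]
    simp
    nlinarith
  exact le_of_sq_le_sq h5 hK

/-- remainder bound of order 5 for `c = 4 + i om` -/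
lemma taylor45 {om : ℝ} (hom : 0 ≤ om) (s : ℝ) (hs : 0 ≤ s) :
    ‖((1 : ℂ) + I * s) ^ (4 + I * om : ℂ) - T5 (4 + I * om) s‖ ≤
      ‖(4 + I * om : ℂ)‖ * ‖(3 + I * om : ℂ)‖ * ‖(2 + I * om : ℂ)‖ * ‖(1 + I * om : ℂ)‖
        * ‖(I * om : ℂ)‖ / 120 * s ^ 5 := by
  have r0 : ∀ s : ℝ, 0 ≤ s → ‖((1 : ℂ) + I * s) ^ ((I * om : ℂ) - 1) - 0‖ ≤ 1 * s ^ 0 := by
    intro s hs
    rw [sub_zero, pow_zero, mul_one]
    exact norm_g_le_one (by simp) (by simpa using hom) hs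
  have r1 := taylor_step r0 (fun s => hasDerivAt_T1 _ s) (by simp [T1])
  have e1 : (1 + I * om : ℂ) - 1 = I * om := by ring
  have r2 := taylor_step (c := 1 + I * om) (p := T1 (1 + I * om - 1)) (by rw [e1]; exact r1)
    (fun s => hasDerivAt_T2 _ s) (by simp [T2])
  have e2 : (2 + I * om : ℂ) - 1 = 1 + I * om := by ring
  have r3 := taylor_step (c := 2 + I * om) (p := T2 (2 + I * om - 1)) (by rw [e2]; exact r2)
    (fun s => hasDerivAt_T3 _ s) (by simp [T3])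
  have e3 : (3 + I * om : ℂ) - 1 = 2 + I * om := by ring
  have r4 := taylor_step (c := 3 + I * om) (p := T3 (3 + I * om - 1)) (by rw [e3]; exact r3)
    (fun s => hasDerivAt_T4 _ s) (by simp [T4])
  have e4 : (4 + I * om : ℂ) - 1 = 3 + I * om := by ring
  have r5 := taylor_step (c := 4 + I * om) (p := T4 (4 + I * om - 1)) (by rw [e4]; exact r4)
    (fun s => hasDerivAt_T5 _ s) (by simp [T5])
  refine (r5 s hs).trans (le_of_eq ?_)
  push_cast
  ring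

/-- **lower bound**: `3/5 |U(R)| ≤ |U(r)|`. -/
theorem lower {om R : ℝ} (h1 : 0.3347760 ≤ om) (h2 : om ≤ 0.3347762) (hR : 0 < R)
    (h3 : 2.7050680 ≤ R ^ 2 / 4) (h4 : R ^ 2 / 4 ≤ 2.7050684) (hz : j5 om (R ^ 2 / 4) = 0)
    {r : ℝ} (hr : R ≤ r) : 3 / 5 * ‖Ur om R‖ ≤ ‖Ur om r‖ := by
  have hU := norm_U_ge (by linarith) (by linarith) hR hz hr
  set G : ℝ := ‖Complex.Gamma (1 - I * om)‖ with hG
  have hG2 : 1 / 2 ≤ G := norm_Gamma_ge (by linarith) (by linarith)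
  set rho : ℝ := R ^ 2 / 4 with hrho
  have hrho0 : 0 < rho := by linarith
  have ha : (1 - I * om : ℂ).re = 1 := by simp
  have ha0 : 0 < (1 - I * om : ℂ).re := by rw [ha]; exact one_pos
  obtain ⟨i5, e5⟩ := integral_T5 (a := 1 - I * om) ha0 hrho0 (4 + I * om)
  have b5 := J_sub_le ha hrho0 (taylor45 (by linarith)) i5
  rw [e5] at b5
  have hJ0 : ‖J (1 - I * om) 0 rho‖ = 1 / rho * G := by
    rw [J_zero ha0 hrho0, norm_mul, ← hG]
    congr 1
    have : (1 / (rho : ℂ)) = ((1 / rho : ℝ) : ℂ) := by push_cast; rfl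
    rw [this, Complex.norm_cpow_eq_rpow_re_of_pos (by positivity), ha, Real.rpow_one]
  -- numeric bounds
  have hv1 : 0.369676 ≤ 1 / rho := by
    rw [le_div_iff₀ hrho0]; linarith
  have hv2 : 1 / rho ≤ 0.369677 := by
    rw [div_le_iff₀ hrho0]; linarith
  have hMA := norm_MA_le (by linarith) h2 hv1 hv2
  have n1 : ‖(1 + I * om : ℂ)‖ ≤ 1.0546 := by
    have := norm_ki_le (k := 1) (om := om) (K := 1.0546) (by norm_num) (by nlinarith)
    simpa using this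
  have n2 : ‖(2 + I * om : ℂ)‖ ≤ 2.0279 := by
    have := norm_ki_le (k := 2) (om := om) (K := 2.0279) (by norm_num) (by nlinarith)
    simpa using this
  have n3 : ‖(3 + I * om : ℂ)‖ ≤ 3.0187 := by
    have := norm_ki_le (k := 3) (om := om) (K := 3.0187) (by norm_num) (by nlinarith)
    simpa using this
  have n4 : ‖(4 + I * om : ℂ)‖ ≤ 4.0140 := by
    have := norm_ki_le (k := 4) (om := om) (K := 4.0140) (by norm_num) (by nlinarith)
    simpa using this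
  have n5 : ‖(5 + I * om : ℂ)‖ ≤ 5.0113 := by
    have := norm_ki_le (k := 5) (om := om) (K := 5.0113) (by norm_num) (by nlinarith)
    simpa using this
  have n0 : ‖(I * om : ℂ)‖ ≤ 0.3347762 := by
    rw [norm_mul, Complex.norm_I, one_mul, Complex.norm_real, Real.norm_of_nonneg (by linarith)]
    exact h2
  have hC : ‖(4 + I * om : ℂ)‖ * ‖(3 + I * om : ℂ)‖ * ‖(2 + I * om : ℂ)‖ * ‖(1 + I * om : ℂ)‖
        * ‖(I * om : ℂ)‖ / 120 ≤ 4.0140 * 3.0187 * 2.0279 * 1.0546 * 0.3347762 / 120 := by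
    gcongr
  have hf : ((Nat.factorial 5 : ℕ) : ℝ) / rho ^ (5 + 1) ≤ 120 * 0.369677 ^ 6 := by
    have e1 : ((Nat.factorial 5 : ℕ) : ℝ) = 120 := by norm_num [Nat.factorial]
    have e2 : (120 : ℝ) / rho ^ (5 + 1) = 120 * (1 / rho) ^ 6 := by field_simp
    rw [e1, e2]
    gcongr
  have hrem : ‖(4 + I * om : ℂ)‖ * ‖(3 + I * om : ℂ)‖ * ‖(2 + I * om : ℂ)‖ * ‖(1 + I * om : ℂ)‖
        * ‖(I * om : ℂ)‖ / 120 * (((Nat.factorial 5 : ℕ) : ℝ) / rho ^ (5 + 1)) ≤ 0.0223 := by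
    refine (mul_le_mul hC hf (by positivity) (by norm_num)).trans (by norm_num)
  have hj4 : ‖j4 om rho‖ ≤ 0.369677 * G * (3 / 4) + 0.0223 := by
    have t1 : ‖J (1 - I * om) 0 rho * MA (1 - I * om) (4 + I * om) (1 / rho)‖ ≤
        0.369677 * G * (3 / 4) := by
      rw [norm_mul, hJ0]
      gcongr
    have t2 : j4 om rho = (j4 om rho - J (1 - I * om) 0 rho * MA (1 - I * om) (4 + I * om) (1 / rho))
        + J (1 - I * om) 0 rho * MA (1 - I * om) (4 + I * om) (1 / rho) := by ring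
    rw [t2]
    refine (norm_add_le _ _).trans ?_
    have t3 : ‖j4 om rho - J (1 - I * om) 0 rho * MA (1 - I * om) (4 + I * om) (1 / rho)‖ ≤ 0.0223 :=
      b5.trans hrem
    linarith
  have hW : ‖Ur om R‖ ≤ 5.0113 * (0.369677 * G * (3 / 4) + 0.0223) := by
    unfold Ur W
    rw [← hrho, hz, mul_zero, add_zero, norm_neg, norm_mul]
    exact mul_le_mul n5 hj4 (norm_nonneg _) (by norm_num)
  nlinarith

end Crest.Agent.R086.A3
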