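import Crest.Agent.R086.Defs

/-! Row 86: the symbol class (helper148). -/

set_option autoImplicit false
open scoped ContDiff

namespace Crest.Agent.R086

/-- `f` is a (classical) symbol of order `-δ`: `|D^j f(y)| ≤ C_j (1+|y|)^(-δ-j)` for all `j`. -/
def Sym (δ : ℝ) (f : R12 → ℂ) : Prop :=
  ContDiff ℝ ∞ f ∧ ∀ j : ℕ, ∃ C : ℝ, ∀ y : R12,
    ‖iteratedFDeriv ℝ j f y‖ ≤ C * (1 + ‖y‖) ^ (-δ - j)

end Crest.Agent.R086
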