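import Crest.Agent.R086.Defs

/-!
Row 86 (S0114), PART D-TORUS: frozen interface (helper277).
Scheme = discrete modulation with two Wiener norms (notes 12416 / 12409 D7 / note of helper277).
VERSION 2 (16:40 UTC): low regularity index `N` free, linear input = `LINStmt`/`ForcedStmt`.

Everything is at FUNCTION level: torus functions are functions `R12 → ℂ` that are
`IsSmoothPeriodic`; their Fourier coefficients are `cf v k`; norms are weighted `ℓ¹` norms of `cf`.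
-/

set_option autoImplicit false

open MeasureTheory Complex
open scoped ContDiff Topology
open Crest.AnalysisR.PDE.NLS (IsSmoothPeriodic periodCell sobolevDistSq IsClassicalSolution)

namespace Crest.Agent.R086

noncomputable section

/-! The linear input is `LINStmt` + `ForcedStmt` of `DLIface.lean` (helper575), used only in
`NearStep`. VERSION 2: the regularity index `N` of the low norm is a free parameter (large). -/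

/-- index set of the 14 modes -/
abbrev MIx : Type := Option (Option (Fin 12))

/-! ### Part 2: torus functions -/

abbrev Z12 : Type := Fin 12 → ℤ

/-- lattice vector -/
def zv (k : Z12) : R12 := WithLp.toLp 2 fun i => ((k i : ℤ) : ℝ)
def nk (k : Z12) : ℝ := ‖zv k‖

/-- Fourier coefficient -/
def cf (v : R12 → ℂ) (k : Z12) : ℂ :=
  ((((2 * Real.pi) ^ 12 : ℝ)) : ℂ)⁻¹ *
    ∫ x in periodCell, v x * exp (-(I * ((inner ℝ (zv k) x : ℝ) : ℂ)))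

/-- plain Wiener norm -/
def l1 (v : R12 → ℂ) : ℝ := ∑' k, ‖cf v k‖
/-- weighted Wiener norm, weight `(1 + h|k|)^N`. -/
def wn (N : ℕ) (h : ℝ) (v : R12 → ℂ) : ℝ := ∑' k, (1 + h * nk k) ^ N * ‖cf v k‖
/-- top order seminorm, weight `(h|k|)^s`. -/
def hi (s : ℕ) (h : ℝ) (v : R12 → ℂ) : ℝ := ∑' k, (h * nk k) ^ s * ‖cf v k‖
/-- two-norm combination at scale `h`. -/
def nn (N s : ℕ) (μ h : ℝ) (v : R12 → ℂ) : ℝ := wn N h v + μ * hi s h v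
/-- scale invariant norm at distance `τ` from the blow-up time. -/
def nrm (n N s : ℕ) (μ τ : ℝ) (v : R12 → ℂ) : ℝ := τ ^ (1 / (n : ℝ)) * nn N s μ (Real.sqrt τ) v

/-- nonlinearity -/
def nl (n : ℕ) (z : ℂ) : ℂ := ((‖z‖ ^ n : ℝ) : ℂ) * z

/-- coefficientwise solution of `i u_t + Δu = |u|^n u` on the time set `J`. -/
structure IsSol (n : ℕ) (J : Set ℝ) (u : ℝ → R12 → ℂ) : Prop where
  smooth : ∀ t ∈ J, IsSmoothPeriodic (u t)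
  bdd : ∀ N : ℕ, ∀ K : Set ℝ, K ⊆ J → IsCompact K → ∃ B : ℝ, ∀ t ∈ K, wn N 1 (u t) ≤ B
  ode : ∀ t ∈ J, ∀ k : Z12, HasDerivWithinAt (fun t => cf (u t) k)
    (-(I * ((nk k ^ 2 : ℝ) : ℂ)) * cf (u t) k - I * cf (fun x => nl n (u t x)) k) J t

/-! #### TF: Fourier series (helper327) -/

/-- smooth periodic functions have rapidly decaying coefficients and equal their series -/
def TF1 : Prop := ∀ v : R12 → ℂ, IsSmoothPeriodic v →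
  (∀ N : ℕ, Summable fun k => (1 + nk k) ^ N * ‖cf v k‖) ∧
  ∀ x, v x = ∑' k, cf v k * exp (I * ((inner ℝ (zv k) x : ℝ) : ℂ))

/-- converse -/
def TF2 : Prop := ∀ c : Z12 → ℂ, (∀ N : ℕ, Summable fun k => (1 + nk k) ^ N * ‖c k‖) →
  ∃ v : R12 → ℂ, IsSmoothPeriodic v ∧ (∀ k, cf v k = c k) ∧
    ∀ x, v x = ∑' k, c k * exp (I * ((inner ℝ (zv k) x : ℝ) : ℂ))

/-- Sobolev controls Wiener -/
def TF3 : Prop := ∀ N : ℕ, ∃ C : ℝ, 0 ≤ C ∧ ∀ v w : R12 → ℂ, IsSmoothPeriodic v →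
  IsSmoothPeriodic w → wn N 1 (fun x => v x - w x) ≤ C * Real.sqrt (sobolevDistSq (N + 14) v w)

/-- sup norms of derivatives control Wiener -/
def TF4 : Prop := ∀ N : ℕ, ∃ C : ℝ, 0 ≤ C ∧ ∀ v : R12 → ℂ, IsSmoothPeriodic v → ∀ B : ℝ,
  (∀ j ≤ N + 14, ∀ x, ‖iteratedFDeriv ℝ j v x‖ ≤ B) → wn N 1 v ≤ C * B

/-! #### TN: norms of products -/

/-- algebra facts (all for smooth periodic functions, `0 ≤ h`) -/
structure TN : Prop where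
  sup_le : ∀ v, IsSmoothPeriodic v → ∀ x, ‖v x‖ ≤ l1 v
  l1_le : ∀ v, IsSmoothPeriodic v → ∀ (N : ℕ) (h : ℝ), 0 ≤ h → l1 v ≤ wn N h v
  wn_add : ∀ v w, IsSmoothPeriodic v → IsSmoothPeriodic w → ∀ (N : ℕ) (h : ℝ), 0 ≤ h →
    wn N h (fun x => v x + w x) ≤ wn N h v + wn N h w
  hi_add : ∀ v w, IsSmoothPeriodic v → IsSmoothPeriodic w → ∀ (s : ℕ) (h : ℝ), 0 ≤ h →
    hi s h (fun x => v x + w x) ≤ hi s h v + hi s h w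
  wn_smul : ∀ v, ∀ c : ℂ, ∀ (N : ℕ) (h : ℝ), wn N h (fun x => c * v x) = ‖c‖ * wn N h v
  hi_smul : ∀ v, ∀ c : ℂ, ∀ (s : ℕ) (h : ℝ), hi s h (fun x => c * v x) = ‖c‖ * hi s h v
  wn_conj : ∀ v, ∀ (N : ℕ) (h : ℝ), wn N h (fun x => starRingEnd ℂ (v x)) = wn N h v
  hi_conj : ∀ v, ∀ (s : ℕ) (h : ℝ), hi s h (fun x => starRingEnd ℂ (v x)) = hi s h v
  wn_trans : ∀ v, IsSmoothPeriodic v → ∀ (a : R12) (N : ℕ) (h : ℝ),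
    wn N h (fun x => v (x + a)) = wn N h v
  hi_trans : ∀ v, IsSmoothPeriodic v → ∀ (a : R12) (s : ℕ) (h : ℝ),
    hi s h (fun x => v (x + a)) = hi s h v
  wn_mul : ∀ v w, IsSmoothPeriodic v → IsSmoothPeriodic w → ∀ (N : ℕ) (h : ℝ), 0 ≤ h →
    wn N h (fun x => v x * w x) ≤ wn N h v * wn N h w
  hi_mul : ∀ s : ℕ, ∃ C : ℝ, 0 ≤ C ∧ ∀ v w, IsSmoothPeriodic v → IsSmoothPeriodic w →
    ∀ h : ℝ, 0 ≤ h →
      hi s h (fun x => v x * w x) ≤ 2 * l1 v * hi s h w + C * hi s h v * l1 w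
  wn_mono : ∀ v, IsSmoothPeriodic v → ∀ (N : ℕ) (h h' : ℝ), 0 ≤ h → h ≤ h' → wn N h v ≤ wn N h' v

/-! #### TC: flow (helper232) -/

/-- local existence, time controlled by the plain Wiener norm only (persistence of regularity). -/
def TC1 : Prop := ∀ n : ℕ, Even n → 2 ≤ n → ∃ c : ℝ, 0 < c ∧ ∀ R : ℝ, 0 < R → ∀ u₀ : R12 → ℂ,
  IsSmoothPeriodic u₀ → l1 u₀ ≤ R → ∀ t₀ : ℝ,
    ∃ u, IsSol n (Set.Icc t₀ (t₀ + c / R ^ n)) u ∧ u t₀ = u₀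

def TC2 : Prop := ∀ n : ℕ, Even n → 2 ≤ n → ∀ (t₀ t₁ : ℝ) (u v : ℝ → R12 → ℂ),
  IsSol n (Set.Icc t₀ t₁) u → IsSol n (Set.Icc t₀ t₁) v → u t₀ = v t₀ →
    ∀ t ∈ Set.Icc t₀ t₁, u t = v t

/-- continuation under an a-priori bound -/
def TC3 : Prop := ∀ n : ℕ, Even n → 2 ≤ n → ∀ (t₀ t₁ R : ℝ) (u₀ : R12 → ℂ), t₀ ≤ t₁ → 0 < R →
  IsSmoothPeriodic u₀ →
  (∀ t ∈ Set.Icc t₀ t₁, ∀ v, IsSol n (Set.Icc t₀ t) v → v t₀ = u₀ → l1 (v t) ≤ R) →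
    ∃ u, IsSol n (Set.Icc t₀ t₁) u ∧ u t₀ = u₀

/-- gluing along an increasing sequence of times -/
def TC4 : Prop := ∀ n : ℕ, Even n → 2 ≤ n → ∀ (t : ℕ → ℝ) (T : ℝ) (u : ℕ → ℝ → R12 → ℂ),
  t 0 = 0 → StrictMono t → Filter.Tendsto t Filter.atTop (𝓝 T) →
  (∀ j, IsSol n (Set.Icc (t j) (t (j + 1))) (u j)) → (∀ j, u j (t (j + 1)) = u (j + 1) (t (j + 1))) →
    ∃ v, IsSol n (Set.Ico 0 T) v ∧ ∀ j, ∀ x ∈ Set.Icc (t j) (t (j + 1)), v x = u j x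

/-- coefficientwise solutions are classical -/
def TC5 : Prop := ∀ n : ℕ, Even n → 2 ≤ n → ∀ (T : ℝ) (u : ℝ → R12 → ℂ), 0 < T →
  IsSol n (Set.Ico 0 T) u → IsClassicalSolution (n + 1) T u

/-! ### Part 3: the periodised profile -/

/-- cut-offs: `chi0 = 1` on `|x| ≤ 1`, support `|x| < 2`; `chi1`: 1/2, 1; `chi2`: 1/4, 1/2. -/
def chi0 : ContDiffBump (0 : R12) := ⟨1, 2, by norm_num, by norm_num⟩
def chi1 : ContDiffBump (0 : R12) := ⟨1 / 2, 1, by norm_num, by norm_num⟩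
def chi2 : ContDiffBump (0 : R12) := ⟨1 / 4, 1 / 2, by norm_num, by norm_num⟩

/-- periodisation (used only for functions supported in `|x| < 2`). -/
def perz (f : R12 → ℂ) (x : R12) : ℂ := ∑' k : Z12, f (x - (2 * Real.pi) • zv k)

/-- modulation parameters: blow-up time, blow-up point, phase -/
structure Par where
  T : ℝ
  x : R12
  th : ℝ

namespace Profile
variable {n : ℕ} (P : Profile n)

/-- `x ↦ Σ_k (chi0 · Q(·/√τ))(x - 2πk)` -/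
def qt (τ : ℝ) : R12 → ℂ := perz fun x => ((chi0 x : ℝ) : ℂ) * P.Q ((Real.sqrt τ)⁻¹ • x)
/-- periodised modes -/
def mt (m : MIx) (τ : ℝ) : R12 → ℂ :=
  perz fun x => ((chi0 x : ℝ) : ℂ) * P.mode1 m ((Real.sqrt τ)⁻¹ • x)

/-- amplitude `e^{i th} (T-t)^{-1/n + i om}` -/
def amp (a : Par) (t : ℝ) : ℂ :=
  exp (I * (a.th : ℂ)) * ((a.T - t : ℝ) : ℂ) ^ (-(1 / (n : ℂ)) + I * (P.om : ℂ))

/-- periodised self-similar solution with parameters `a` -/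
def prof (a : Par) (t : ℝ) (x : R12) : ℂ := P.amp a t * P.qt (a.T - t) (x - a.x)
/-- periodised mode with parameters `a` -/
def pmode (a : Par) (m : MIx) (t : ℝ) (x : R12) : ℂ := P.amp a t * P.mt m (a.T - t) (x - a.x)

/-- new parameters after modulation at time `t` with mode coefficients `b` -/
def shift (a : Par) (b : MIx → ℝ) (t : ℝ) : Par where
  T := a.T - b (some none) * (a.T - t)
  x := a.x - Real.sqrt (a.T - t) • WithLp.toLp 2 (fun j => b (some (some j)))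
  th := a.th + b none

/-- self-similar time form on one step: `τ(σ) = τ₀ e^{-σ}`, torus variable `x` unscaled. -/
structure ResSol (τ₀ S : ℝ) (U : ℝ → R12 → ℂ) : Prop where
  smooth : ∀ s ∈ Set.Icc 0 S, IsSmoothPeriodic (U s)
  bdd : ∀ N : ℕ, ∃ B : ℝ, ∀ s ∈ Set.Icc 0 S, wn N 1 (U s) ≤ B
  ode : ∀ s ∈ Set.Icc 0 S, ∀ k : Z12, HasDerivWithinAt (fun s => cf (U s) k)
    ((-(I * ((τ₀ * Real.exp (-s) * nk k ^ 2 : ℝ) : ℂ)) + (I * (P.om : ℂ) - 1 / (n : ℂ)))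
        * cf (U s) k - I * cf (fun x => nl n (U s x)) k) (Set.Icc 0 S) s

/-- perturbation `W = U - qt` -/
def pert (τ₀ : ℝ) (U : ℝ → R12 → ℂ) (s : ℝ) (x : R12) : ℂ := U s x - P.qt (τ₀ * Real.exp (-s)) x

/-- scale `h = √τ(σ)` -/
def hs (τ₀ s : ℝ) : ℝ := Real.sqrt (τ₀ * Real.exp (-s))

end Profile

open Profile

/-! #### TP: facts on the periodised profile -/

/-- TP1: smoothness, uniform bounds -/
def TP1 {n : ℕ} (P : Profile n) : Prop :=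
  (∀ τ : ℝ, 0 < τ → IsSmoothPeriodic (P.qt τ) ∧ ∀ m, IsSmoothPeriodic (P.mt m τ)) ∧
  ∀ N : ℕ, ∃ C : ℝ, 0 ≤ C ∧ ∀ τ : ℝ, 0 < τ → τ ≤ 1 → wn N (Real.sqrt τ) (P.qt τ) ≤ C ∧
    ∀ m, wn N (Real.sqrt τ) (P.mt m τ) ≤ C

/-- TP2: equation of the periodised profile with small error `gt`. -/
def TP2 {n : ℕ} (P : Profile n) : Prop :=
  ∃ gt : ℝ → R12 → ℂ, (∀ τ : ℝ, 0 < τ → IsSmoothPeriodic (gt τ)) ∧
  (∀ N : ℕ, ∃ C : ℝ, 0 ≤ C ∧ ∀ τ : ℝ, 0 < τ → τ ≤ 1 → wn N 1 (gt τ) ≤ C * τ) ∧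
  ∀ (τ₀ : ℝ), 0 < τ₀ → ∀ (s : ℝ) (k : Z12), HasDerivAt (fun s => cf (P.qt (τ₀ * Real.exp (-s))) k)
    ((-(I * ((τ₀ * Real.exp (-s) * nk k ^ 2 : ℝ) : ℂ)) + (I * (P.om : ℂ) - 1 / (n : ℂ)))
        * cf (P.qt (τ₀ * Real.exp (-s))) k - I * cf (fun x => nl n (P.qt (τ₀ * Real.exp (-s)) x)) k
      - cf (gt (τ₀ * Real.exp (-s))) k) s

/-- TP3: away from the centre the potentials are `O(τ)`; and changing the cut-off of a mode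
costs `O(τ^(1/n))`. -/
def TP3 {n : ℕ} (P : Profile n) : Prop :=
  ∀ N : ℕ, ∃ C : ℝ, 0 ≤ C ∧ ∀ τ : ℝ, 0 < τ → τ ≤ 1 →
    wn N 1 (fun x => (1 - perz (fun x => ((chi2 x : ℝ) : ℂ)) x) * ((‖P.qt τ x‖ ^ n : ℝ) : ℂ)) ≤ C * τ ∧
    wn N 1 (fun x => (1 - perz (fun x => ((chi2 x : ℝ) : ℂ)) x) *
      (((‖P.qt τ x‖ ^ (n - 2) : ℝ) : ℂ) * P.qt τ x ^ 2)) ≤ C * τ ∧
    ∀ m, wn N 1 (fun x => P.mt m τ x
      - perz (fun x => ((chi1 x : ℝ) : ℂ) * P.mode1 m ((Real.sqrt τ)⁻¹ • x)) x) ≤ C * τ ^ (1 / (n : ℝ))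

/-! ### Part 4: the step -/

/-- GROWTH on one step (and existence): `s` = top order (depends on `N, P` only), `C, r, τ₁` depend
on `S`. -/
def GrowStep {n : ℕ} (P : Profile n) (N : ℕ) : Prop :=
  ∃ s : ℕ, N + 1 ≤ s ∧ ∀ S : ℝ, 1 ≤ S → ∃ C r τ₁ : ℝ, 1 ≤ C ∧ 0 < r ∧ 0 < τ₁ ∧ τ₁ ≤ 1 ∧
    ∀ τ₀ : ℝ, 0 < τ₀ → τ₀ ≤ τ₁ → ∀ W₀ : R12 → ℂ, IsSmoothPeriodic W₀ →
      wn N (Real.sqrt τ₀) W₀ ≤ r →
      ∃ U, P.ResSol τ₀ S U ∧ (∀ x, U 0 x = P.qt τ₀ x + W₀ x) ∧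
        (∀ σ ∈ Set.Icc 0 S, wn N (hs τ₀ σ) (P.pert τ₀ U σ) ≤ 1 ∧
          wn N (hs τ₀ σ) (P.pert τ₀ U σ) ≤ C * (wn N (Real.sqrt τ₀) W₀ + τ₀)) ∧
        (∀ σ ∈ Set.Icc 0 S, hi s (hs τ₀ σ) (P.pert τ₀ U σ) ≤
          Real.exp (-σ) * hi s (Real.sqrt τ₀) W₀ + C * (wn N (Real.sqrt τ₀) W₀ + τ₀))

/-- NEAR/FAR analysis: the low norm at the end of the step, modulo the modes. -/
def NearStep {n : ℕ} (P : Profile n) (N : ℕ) : Prop :=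
  ∀ s : ℕ, N + 1 ≤ s → ∀ κ : ℝ, 0 < κ → ∀ S₁ : ℝ, ∃ S : ℝ, S₁ ≤ S ∧ 1 ≤ S ∧ ∃ C : ℝ, 1 ≤ C ∧
    ∀ τ₀ : ℝ, 0 < τ₀ → τ₀ ≤ 1 → ∀ U, P.ResSol τ₀ S U → ∀ L H : ℝ, 0 ≤ H → L ≤ 1 →
      (∀ σ ∈ Set.Icc 0 S, wn N (hs τ₀ σ) (P.pert τ₀ U σ) ≤ L) →
      (∀ σ ∈ Set.Icc 0 S, hi s (hs τ₀ σ) (P.pert τ₀ U σ) ≤ H) →
      ∃ b : MIx → ℝ, (∀ m, |b m| ≤ C * (L + Real.sqrt τ₀ * H + τ₀)) ∧
        wn N (hs τ₀ S) (fun x => P.pert τ₀ U S x - ∑ m, (b m : ℂ) * P.mt m (τ₀ * Real.exp (-S)) x)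
          ≤ κ * wn N (Real.sqrt τ₀) (P.pert τ₀ U 0)
            + C * (L ^ 2 + Real.sqrt τ₀ * (L + H) + τ₀ + τ₀ ^ (1 / (n : ℝ)) * L)

/-- ONE STEP in the original variables. -/
def OneStep {n : ℕ} (P : Profile n) (N s : ℕ) : Prop :=
  ∃ (μ S C c r τ₁ : ℝ), 0 < μ ∧ μ ≤ 1 ∧ 1 ≤ S ∧ 1 ≤ C ∧ 0 < c ∧ 0 < r ∧ 0 < τ₁ ∧ τ₁ ≤ 1 ∧
    ∀ (a : Par) (t₀ : ℝ), 0 < a.T - t₀ → a.T - t₀ ≤ τ₁ → ∀ u₀ : R12 → ℂ, IsSmoothPeriodic u₀ →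
    ∀ δ : ℝ, δ ≤ r → nrm n N s μ (a.T - t₀) (fun x => u₀ x - P.prof a t₀ x) ≤ δ →
    ∃ (t₁ : ℝ) (u : ℝ → R12 → ℂ), t₁ = a.T - Real.exp (-S) * (a.T - t₀) ∧
      IsSol n (Set.Icc t₀ t₁) u ∧ u t₀ = u₀ ∧
      (∀ t ∈ Set.Icc t₀ t₁, nrm n N s μ (a.T - t) (fun x => u t x - P.prof a t x)
        ≤ C * (δ + (a.T - t₀) ^ c)) ∧
      ∃ b : MIx → ℝ, (∀ m, |b m| ≤ C * (δ + (a.T - t₀) ^ c)) ∧
        nrm n N s μ (a.T - t₁) (fun x => u t₁ x - P.prof a t₁ x - ∑ m, (b m : ℂ) * P.pmode a m t₁ x)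
          ≤ (1 / 8) * δ + C * (δ ^ 2 + (a.T - t₀) ^ c)

/-- MODULATION: second order Taylor expansion of the 14-parameter orbit at time `t`. -/
def Modul {n : ℕ} (P : Profile n) (N s : ℕ) : Prop :=
  ∃ (C c b₀ : ℝ), 1 ≤ C ∧ 0 < c ∧ 0 < b₀ ∧ b₀ ≤ 1 / 4 ∧ ∀ μ : ℝ, 0 < μ → μ ≤ 1 →
    ∀ (a : Par) (t : ℝ), 0 < a.T - t → a.T - t ≤ 1 → ∀ (b : MIx → ℝ) (β : ℝ), β ≤ b₀ →
      (∀ m, |b m| ≤ β) →
      nrm n N s μ ((shift a b t).T - t)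
          (fun x => P.prof (shift a b t) t x - P.prof a t x - ∑ m, (b m : ℂ) * P.pmode a m t x)
        ≤ C * (β ^ 2 + (a.T - t) ^ c) ∧
      ∀ w : R12 → ℂ, IsSmoothPeriodic w →
        nrm n N s μ ((shift a b t).T - t) w ≤ (1 + C * β) * nrm n N s μ (a.T - t) w

end

end Crest.Agent.R086
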