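import Crest.Agent.R086.TorC
import Crest.Agent.R086.TorDefs

/-!
Row 86, part D-torus, nodes TF1–TF4 (helper327).
-/

set_option autoImplicit false

noncomputable section

open scoped BigOperators ComplexConjugate ContDiff ENNReal
open Filter MeasureTheory Complex
open Crest.AnalysisR.PDE.NLS (IsSmoothPeriodic periodCell sobolevDistSq IsClassicalSolution)

namespace Crest.Agent.R086

lemma zv_eq (k : Z12) : zv k = Tor.kv k := rfl

lemma nk_eq (k : Z12) : nk k = ‖Tor.kv k‖ := rfl

lemma one_add_nk (k : Z12) : 1 + nk k = Tor.wt k := rfl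

lemma exp_zv (k : Z12) (x : R12) : exp (I * ((inner ℝ (zv k) x : ℝ) : ℂ)) = Tor.ek k x := rfl

lemma exp_neg_zv (k : Z12) (x : R12) :
    exp (-(I * ((inner ℝ (zv k) x : ℝ) : ℂ))) = Tor.ek (-k) x := by
  unfold Tor.ek
  rw [Tor.kv_neg, inner_neg_left, zv_eq]
  congr 1; push_cast; ring

lemma per_of {v : R12 → ℂ} (hv : IsSmoothPeriodic v) : Tor.Per v := hv.2

/-- the coefficient of `TorDefs` is the one of `Tor`. -/
lemma cf_eq_tor {v : R12 → ℂ} (hv : Tor.Per v) (k : Z12) : cf v k = Tor.cf v k := by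
  rw [Tor.cf_eq_integral hv]
  rw [Tor.integral_ubox_eq (d := 12) (fun x => Tor.ek (-k) x * v x)]
  unfold cf
  rw [Complex.real_smul]
  congr 1
  · push_cast; rfl
  · show ∫ x in periodCell, _ = ∫ x in periodCell, _
    refine integral_congr_ae (Eventually.of_forall fun x => ?_)
    simp only
    rw [exp_neg_zv]; ring

theorem tf1 : TF1 := by
  intro v hv
  have e : cf v = Tor.cf v := funext (cf_eq_tor hv.2)
  refine ⟨fun N => ?_, fun x => ?_⟩
  · rw [e]
    exact Tor.summable_cf hv.2 hv.1 N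
  · rw [e]
    have := congrFun (Tor.eq_synth_cf hv.2 hv.1) x
    exact this.symm

theorem tf2 : TF2 := by
  intro c hc
  have h0 : Summable fun k => ‖c k‖ := by simpa using hc 0
  refine ⟨Tor.synth c, ⟨Tor.contDiff_synth_infty hc, Tor.synth_per c⟩, fun k => ?_, fun x => rfl⟩
  rw [cf_eq_tor (Tor.synth_per c), Tor.cf_synth h0]

lemma wn_one (N : ℕ) (v : R12 → ℂ) : wn N 1 v = ∑' k, Tor.wt k ^ N * ‖cf v k‖ := by
  unfold wn
  refine tsum_congr fun k => ?_
  rw [one_mul, one_add_nk]

theorem tf3 : TF3 := by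
  intro N
  obtain ⟨C, hC, h⟩ := Tor.wiener_le_sobolev N (N + 14) (by omega)
  refine ⟨C, hC.le, fun v w hv hw => ?_⟩
  have hp : Tor.Per (fun x => v x - w x) := Tor.Per.sub hv.2 hw.2
  rw [wn_one]
  have e : ∀ k, cf (fun x => v x - w x) k = Tor.cf v k - Tor.cf w k := fun k => by
    rw [cf_eq_tor hp, Tor.cf_sub hv.2 hv.1.continuous hw.2 hw.1.continuous]
  simp only [e]
  exact (h v w hv hw).2

theorem tf4 : TF4 := by
  intro N
  obtain ⟨C, hC, h⟩ := Tor.wiener_le (d := 12) (N := N)
  have hvr : (volume (periodCell : Set R12)).toReal = (2 * Real.pi) ^ 12 := by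
    have h1 := Tor.integral_ubox_eq (d := 12) (fun _ => (1 : ℝ))
    simp only [integral_const, MeasurableSet.univ, measureReal_restrict_apply, Set.univ_inter,
      smul_eq_mul, mul_one] at h1
    have h2 : (volume : Measure (Fin 12 → ℝ)).real Tor.ubox = 1 := by
      rw [Measure.real, Tor.volume_ubox]; simp
    rw [h2, Tor.cell_eq] at h1
    have hpos : (0 : ℝ) < (2 * Real.pi) ^ 12 := by positivity
    have h3 : (2 * Real.pi) ^ 12 = (volume : Measure R12).real periodCell := by
      field_simp at h1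
      linarith
    exact h3.symm
  have hvol : volume (periodCell : Set R12) ≠ ⊤ := by
    intro htop
    rw [htop] at hvr
    have hpos : (0 : ℝ) < (2 * Real.pi) ^ 12 := by positivity
    rw [ENNReal.toReal_top] at hvr
    exact hpos.ne hvr
  refine ⟨C * Real.sqrt (2 * (volume (periodCell : Set R12)).toReal), by positivity,
    fun v hv B hB => ?_⟩
  have hB0 : 0 ≤ B := (norm_nonneg _).trans (hB 0 (by omega) 0)
  have h1 : ∀ j ≤ N + 14, Tor.sob v j ≤ B ^ 2 * (volume (periodCell : Set R12)).toReal := by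
    intro j hj
    have h2 := norm_setIntegral_le_of_norm_le_const (μ := volume) (s := (periodCell : Set R12))
      (f := fun x => ‖iteratedFDeriv ℝ j v x‖ ^ 2) (C := B ^ 2) (lt_top_iff_ne_top.2 hvol)
      (fun x _ => by
        rw [Real.norm_eq_abs, abs_of_nonneg (by positivity)]
        exact pow_le_pow_left₀ (norm_nonneg _) (hB j hj x) 2)
    exact (le_abs_self _).trans h2
  rw [wn_one]
  have e : cf v = Tor.cf v := funext (cf_eq_tor hv.2)
  rw [e]
  refine ((h v hv.2 hv.1).2).trans ?_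
  rw [mul_assoc]
  refine mul_le_mul_of_nonneg_left ?_ hC.le
  have h2 : Tor.sob v 0 + Tor.sob v (N + 12) ≤
      (2 * (volume (periodCell : Set R12)).toReal) * B ^ 2 := by
    have a := h1 0 (by omega)
    have b := h1 (N + 12) (by omega)
    linarith
  refine (Real.sqrt_le_sqrt h2).trans ?_
  rw [Real.sqrt_mul (by positivity), Real.sqrt_sq hB0]

/-- Fourier coefficients computed on any translate of the cell (helper893). -/
theorem cf_eq_box {v : R12 → ℂ} (hv : Tor.Per v) (k : Z12) (a : Fin 12 → ℝ) :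
    cf v k = ∫ x in {x : Fin 12 → ℝ | ∀ i, x i ∈ Set.Ioc (a i) (a i + 1)},
      Tor.ek (-k) (Tor.sc x) * v (Tor.sc x) := by
  rw [cf_eq_tor hv]
  exact Tor.cf_eq_box_tor hv k a

end Crest.Agent.R086
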