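import Crest.Agent.R086.PerzAlg
import Crest.Agent.R086.SymDefs
import Crest.Agent.R086.TF

/-!
# Row 86, Part D torus (helper893): symbols at scale `√τ` away from the centre.
-/

set_option autoImplicit false

open MeasureTheory Complex Filter
open scoped ContDiff Topology
open Crest.AnalysisR.PDE.NLS (IsSmoothPeriodic)

namespace Crest.Agent.R086.Perz

/-- a smooth function in `PS` has bounded derivatives of every order -/
theorem PS.deriv_bdd {g : R12 → ℂ} (hg : ContDiff ℝ ∞ g) (hs : PS g) (m : ℕ) :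
    ∃ C : ℝ, 0 ≤ C ∧ ∀ y, ‖iteratedFDeriv ℝ m g y‖ ≤ C := by
  have hz : ∀ y : R12, 2 < ‖y‖ → iteratedFDeriv ℝ m g y = 0 := by
    intro y hy
    have h1 : g =ᶠ[𝓝 y] fun _ => (0 : ℂ) := by
      have : {z : R12 | 2 < ‖z‖} ∈ 𝓝 y := (isOpen_lt continuous_const continuous_norm).mem_nhds hy
      filter_upwards [this] with z hz
      exact hs z (le_of_lt hz)
    rw [(h1.iteratedFDeriv ℝ m).eq_of_nhds]
    simp
  have hcs : HasCompactSupport (iteratedFDeriv ℝ m g) := by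
    refine HasCompactSupport.intro (isCompact_closedBall (0 : R12) 2) fun y hy => hz y ?_
    simpa using hy
  obtain ⟨C, hC⟩ := hcs.exists_bound_of_continuous
    (hg.continuous_iteratedFDeriv (by exact_mod_cast le_top))
  exact ⟨C, (norm_nonneg _).trans (hC 0), hC⟩

/-- derivatives of `ψ · G(·/√τ)`, `ψ = 0` near the centre, `G` a symbol of order `-δ` -/
theorem ann_bound {δ : ℝ} (hδ : 0 ≤ δ) {ψ G : R12 → ℂ} (hψ : ContDiff ℝ ∞ ψ) (hPS : PS ψ)
    {r0 : ℝ} (hr0 : 0 < r0) (h0 : ∀ x : R12, ‖x‖ ≤ r0 → ψ x = 0) (hG : Sym δ G) (N : ℕ) :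
    ∃ C : ℝ, 0 ≤ C ∧ ∀ τ : ℝ, 0 < τ → ∀ j ≤ N, ∀ x,
      ‖iteratedFDeriv ℝ j (fun x => ψ x * G ((Real.sqrt τ)⁻¹ • x)) x‖ ≤ C * τ ^ (δ / 2) := by
  choose! A hA0 hA using fun m => PS.deriv_bdd hψ hPS m
  choose! D hD using hG.2
  set E : ℕ → ℝ := fun k => |D k| * r0 ^ (-δ - k) with hE
  have hE0 : ∀ k, 0 ≤ E k := fun k => by simp only [hE]; positivity
  have hsc : ∀ (c : ℝ), 0 < c → ∀ (k : ℕ) (z : R12), r0 ≤ ‖z‖ →
      ‖iteratedFDeriv ℝ k (fun x => G (c • x)) z‖ ≤ E k * c ^ (-δ) := by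
    intro c hc k z hz
    have h1 := iteratedFDeriv_comp_const_smul (𝕜 := ℝ) (i := k) c
      (hG.1.of_le (by exact_mod_cast le_top))
    rw [h1, norm_smul, norm_pow, Real.norm_of_nonneg hc.le]
    have h2 := hD k (c • z)
    rw [norm_smul, Real.norm_of_nonneg hc.le] at h2
    have hs : -δ - (k : ℝ) ≤ 0 := by
      have : (0 : ℝ) ≤ k := Nat.cast_nonneg k
      linarith
    have h3 : (1 + c * ‖z‖) ^ (-δ - k) ≤ (c * r0) ^ (-δ - k) :=
      Real.rpow_le_rpow_of_nonpos (by positivity) (by nlinarith) hs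
    have h4 : c ^ k * (c * r0) ^ (-δ - k) = c ^ (-δ) * r0 ^ (-δ - k) := by
      rw [Real.mul_rpow hc.le hr0.le, ← mul_assoc, ← Real.rpow_natCast c k, ← Real.rpow_add hc]
      congr 2
      ring
    calc c ^ k * ‖iteratedFDeriv ℝ k G (c • z)‖
        ≤ c ^ k * (D k * (1 + c * ‖z‖) ^ (-δ - k)) := by gcongr
      _ ≤ c ^ k * (|D k| * (c * r0) ^ (-δ - k)) := by
          have : 0 ≤ (1 + c * ‖z‖) ^ (-δ - k) := by positivity
          have h5 : D k * (1 + c * ‖z‖) ^ (-δ - k) ≤ |D k| * (1 + c * ‖z‖) ^ (-δ - k) :=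
            mul_le_mul_of_nonneg_right (le_abs_self _) this
          have h6 : |D k| * (1 + c * ‖z‖) ^ (-δ - k) ≤ |D k| * (c * r0) ^ (-δ - k) :=
            mul_le_mul_of_nonneg_left h3 (abs_nonneg _)
          exact mul_le_mul_of_nonneg_left (h5.trans h6) (by positivity)
      _ = |D k| * (c ^ k * (c * r0) ^ (-δ - k)) := by ring
      _ = E k * c ^ (-δ) := by rw [h4]; simp only [hE]; ring
  set Bm : ℕ → ℝ := fun m => ∑ i ∈ Finset.range (m + 1), (m.choose i : ℝ) * A i * E (m - i) with hBm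
  have hBm0 : ∀ m, 0 ≤ Bm m := fun m => Finset.sum_nonneg fun i _ => by
    have := hA0 i; have := hE0 (m - i); positivity
  set Bt : ℝ := ∑ m ∈ Finset.range (N + 1), Bm m with hBt
  have hBt0 : 0 ≤ Bt := Finset.sum_nonneg fun m _ => hBm0 m
  refine ⟨Bt, hBt0, fun τ hτ m hm y => ?_⟩
  have hsq : 0 < Real.sqrt τ := Real.sqrt_pos.2 hτ
  set c : ℝ := (Real.sqrt τ)⁻¹ with hc
  have hc0 : 0 < c := inv_pos.2 hsq
  have hcδ : c ^ (-δ) = τ ^ (δ / 2) := by
    rw [hc, Real.inv_rpow hsq.le, Real.rpow_neg hsq.le, inv_inv, Real.sqrt_eq_rpow,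
      ← Real.rpow_mul hτ.le]
    congr 1
    ring
  rw [← hcδ]
  rcases lt_or_ge ‖y‖ r0 with hy | hy
  · have h1 : (fun z : R12 => ψ z * G (c • z)) =ᶠ[𝓝 y] fun _ => (0 : ℂ) := by
      have : {z : R12 | ‖z‖ < r0} ∈ 𝓝 y := (isOpen_lt continuous_norm continuous_const).mem_nhds hy
      filter_upwards [this] with z hz
      rw [h0 z (le_of_lt hz), zero_mul]
    rw [(h1.iteratedFDeriv ℝ m).eq_of_nhds]
    simp only [iteratedFDeriv_fun_zero, Pi.zero_apply, norm_zero]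
    positivity
  have hl := norm_iteratedFDeriv_mul_le (𝕜 := ℝ) (N := ∞) hψ
    (hG.1.comp (contDiff_const_smul c)) y (n := m) (by exact_mod_cast le_top)
  refine hl.trans ?_
  calc ∑ i ∈ Finset.range (m + 1), (m.choose i : ℝ) * ‖iteratedFDeriv ℝ i ψ y‖ *
        ‖iteratedFDeriv ℝ (m - i) (G ∘ fun x => c • x) y‖
      ≤ ∑ i ∈ Finset.range (m + 1), (m.choose i : ℝ) * A i * (E (m - i) * c ^ (-δ)) := by
        refine Finset.sum_le_sum fun i _ => ?_
        have h7 := hA i y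
        have h8 := hsc c hc0 (m - i) y hy
        have h9 := hA0 i
        gcongr
        exact h8
    _ = Bm m * c ^ (-δ) := by
        simp only [hBm]
        rw [Finset.sum_mul]
        refine Finset.sum_congr rfl fun i _ => ?_
        ring
    _ ≤ Bt * c ^ (-δ) := by
        refine mul_le_mul_of_nonneg_right ?_ (by positivity)
        exact Finset.single_le_sum (f := Bm) (fun i _ => hBm0 i)
          (Finset.mem_range.2 (by omega))

theorem PS.mul_left {ψ G : R12 → ℂ} (hPS : PS ψ) : PS (fun x => ψ x * G x) :=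
  fun x hx => by simp [hPS x hx]

/-- Wiener norm of the periodisation of `ψ · G(·/√τ)`, `ψ = 0` near the centre. -/
theorem ann_wn {δ : ℝ} (hδ : 0 ≤ δ) {ψ G : R12 → ℂ} (hψ : ContDiff ℝ ∞ ψ) (hPS : PS ψ)
    {r0 : ℝ} (hr0 : 0 < r0) (h0 : ∀ x : R12, ‖x‖ ≤ r0 → ψ x = 0) (hG : Sym δ G) (N : ℕ) :
    ∃ C : ℝ, 0 ≤ C ∧ ∀ τ : ℝ, 0 < τ →
      wn N 1 (perz (fun x => ψ x * G ((Real.sqrt τ)⁻¹ • x))) ≤ C * τ ^ (δ / 2) := by
  obtain ⟨C, hC0, hC⟩ := ann_bound hδ hψ hPS hr0 h0 hG (N + 14)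
  obtain ⟨C', hC'0, hC'⟩ := tf4 N
  refine ⟨C' * C, by positivity, fun τ hτ => ?_⟩
  have hs : ContDiff ℝ ∞ (fun x => ψ x * G ((Real.sqrt τ)⁻¹ • x)) :=
    hψ.mul (hG.1.comp (contDiff_const_smul _))
  have hps : PS (fun x => ψ x * G ((Real.sqrt τ)⁻¹ • x)) := hPS.mul_left
  rw [mul_assoc]
  refine hC' _ (isSmoothPeriodic_perz hs hps) (C * τ ^ (δ / 2)) fun j hj x => ?_
  obtain ⟨y, hy⟩ := iteratedFDeriv_perz hps j x
  rw [hy]
  exact hC τ hτ j hj y

end Crest.Agent.R086.Perz
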