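import Crest.Agent.R086.SHDefs

/-!
Row 86: FROZEN INTERFACE  Part B → Part C (owner helper777, with helper514).

`LimitProfile om0 R U`  : the obstacle profile (Part A/B).
`BData om0 R U`         : a sequence of finite-`n` profiles converging to it, with the bounds used by Part C.
`CStmt`                 : what Part C proves.
-/

set_option autoImplicit false

open MeasureTheory Complex Set Filter Topology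
open scoped ContDiff

namespace Crest.Agent.R086

/-- `f` has a density with weighted `L¹` norm at most `B`. -/
def XBd (N : ℕ) (f : R12 → ℂ) (B : ℝ) : Prop :=
  ∃ a : R12 → ℂ, Rep N a f ∧ ∫ ξ : R12, (1 + ‖ξ‖) ^ N * ‖a ξ‖ ≤ B

/-- smooth cut-off, `= 1` on `‖y‖ ≤ r1`, `= 0` on `r2 ≤ ‖y‖`, values in `[0,1]`. -/
structure IsCut (χ : R12 → ℝ) (r1 r2 : ℝ) : Prop where
  pos : 0 < r1
  lt : r1 < r2
  smooth : ContDiff ℝ ∞ χ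
  one : ∀ y, ‖y‖ ≤ r1 → χ y = 1
  zero : ∀ y, r2 ≤ ‖y‖ → χ y = 0
  nonneg : ∀ y, 0 ≤ χ y
  le_one : ∀ y, χ y ≤ 1

/-- The obstacle profile `U` (`n = ∞`), frequency `om0`, free boundary at `R`. -/
structure LimitProfile (om0 R : ℝ) (U : ℝ → ℂ) : Prop where
  om_lo : 33 / 100 < om0
  om_hi : om0 < 34 / 100
  R_lo : 328 / 100 < R
  R_hi : R < 330 / 100
  core : ∀ r, r ≤ R → U r = 1
  c1 : ContDiff ℝ 1 U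
  ode : ∀ r, R < r → HasDerivAt (deriv U) (-(11 / (r : ℂ) + I * r / 2) * deriv U r - om0 * U r) r
  lt_one : ∀ r, R < r → ‖U r‖ < 1
  anti : StrictAntiOn (fun r => ‖U r‖) (Ici R)
  lower : ∀ r, 6 / 10 ≤ ‖U r‖

/-- OUTPUT OF PART B. -/
structure BData (om0 R : ℝ) (U : ℝ → ℂ) where
  nn : ℕ → ℕ
  P : ∀ j, Profile (nn j)
  nn_tendsto : Tendsto nn atTop atTop
  om_tendsto : Tendsto (fun j => (P j).om) atTop (𝓝 om0)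
  /-- `Q(y) = q(|y|)` -/
  radial : ∀ j, ∀ y : R12, (P j).Q y = (P j).q ‖y‖
  /-- no zeros, `|q'| ≤ C min(r,1/r) |q|`, `|q''| ≤ C |q| / (1+r²)`, uniformly in `j` -/
  q_ne : ∀ j, ∀ r : ℝ, (P j).q r ≠ 0
  q_der : ∃ C : ℝ, ∀ᶠ j in atTop, ∀ r : ℝ, 0 ≤ r →
    ‖deriv (P j).q r‖ ≤ C * (r / (1 + r ^ 2)) * ‖(P j).q r‖ ∧
    ‖deriv (deriv (P j).q) r‖ ≤ C / (1 + r ^ 2) * ‖(P j).q r‖
  /-- two-sided decay, uniform in `j` -/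
  decay2 : ∃ A : ℝ, 0 < A ∧ ∀ᶠ j in atTop, ∀ r : ℝ, 0 ≤ r →
    1 / A ≤ ‖(P j).q r‖ * (1 + r) ^ ((2 : ℝ) / (nn j)) ∧
    ‖(P j).q r‖ * (1 + r) ^ ((2 : ℝ) / (nn j)) ≤ A
  /-- `q_n → U` in `C¹([0,8])` -/
  conv : ∀ e : ℝ, 0 < e → ∀ᶠ j in atTop, ∀ r ∈ Icc (0 : ℝ) 8,
    ‖(P j).q r - U r‖ ≤ e ∧ ‖deriv (P j).q r - deriv U r‖ ≤ e
  /-- `1/2 ≤ |q_n|` on `[0,8]` -/
  q_lower : ∀ᶠ j in atTop, ∀ r ∈ Icc (0 : ℝ) 8, 1 / 2 ≤ ‖(P j).q r‖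
  /-- `|q_n|^n ≤ C` -/
  pow_le : ∃ C : ℝ, ∀ᶠ j in atTop, ∀ r : ℝ, 0 ≤ r → ‖(P j).q r‖ ^ (nn j) ≤ C
  /-- `|q_n|^n ≥ c_δ` on `[0,R-δ]` -/
  pow_ge : ∀ del : ℝ, 0 < del → ∃ c : ℝ, 0 < c ∧ ∀ᶠ j in atTop, ∀ r ∈ Icc (0 : ℝ) (R - del),
    c ≤ ‖(P j).q r‖ ^ (nn j)
  /-- `(log |q_n|^n)' ≤ o(1)` on `[0,R+δ₀]` -/
  logder : ∃ del0 : ℝ, 0 < del0 ∧ ∀ e : ℝ, 0 < e → ∀ᶠ j in atTop, ∀ r ∈ Icc (0 : ℝ) (R + del0),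
    (nn j : ℝ) * (deriv (P j).q r / (P j).q r).re ≤ e
  /-- `|q_n| < 1` part: `|q_n|^n ≤ e^{-c n} r^{-2}` for `r ≥ r1 > R` -/
  pow_tail : ∀ r1 : ℝ, R < r1 → ∃ c : ℝ, 0 < c ∧ ∀ᶠ j in atTop, ∀ r : ℝ, r1 ≤ r →
    ‖(P j).q r‖ ^ (nn j) ≤ Real.exp (-c * nn j) / r ^ 2
  /-- the tail of the potentials is exponentially small in `X_20` -/
  tail : ∀ r1 r2 : ℝ, R < r1 → r1 < r2 → ∀ χ : R12 → ℝ, IsCut χ r1 r2 → ∃ c : ℝ, 0 < c ∧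
    ∀ᶠ j in atTop,
      XBd 20 (fun y => ((1 - χ y : ℝ) : ℂ) * (P j).V1 y) (Real.exp (-c * nn j)) ∧
      XBd 20 (fun y => ((1 - χ y : ℝ) : ℂ) * (P j).V2 y) (Real.exp (-c * nn j)) ∧
      XBd 20 (fun y => ((1 - χ y : ℝ) : ℂ) * (P j).V2c y) (Real.exp (-c * nn j))
  /-- polynomial bounds in `n` -/
  poly : ∃ K : ℕ, ∀ᶠ j in atTop,
      XBd 30 (P j).V1 ((nn j : ℝ) ^ K) ∧ XBd 30 (P j).V2 ((nn j : ℝ) ^ K) ∧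
      XBd 30 (P j).V2c ((nn j : ℝ) ^ K) ∧
      ∀ i : Fin 12,
        XBd 0 (fun y => ((y i : ℝ) : ℂ) * (P j).V1 y) ((nn j : ℝ) ^ K) ∧
        XBd 0 (fun y => ((y i : ℝ) : ℂ) * (P j).V2 y) ((nn j : ℝ) ^ K) ∧
        XBd 0 (fun y => ((y i : ℝ) : ℂ) * (P j).V2c y) ((nn j : ℝ) ^ K)

/-- What Part C proves from `BData` (with the Part A facts about `om0, R`). -/
def BData.CGood {om0 R : ℝ} {U : ℝ → ℂ} (B : BData om0 R U) : Prop :=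
  ∀ᶠ j in atTop, (B.P j).ModeGood N0

end Crest.Agent.R086
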