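import Mathlib

/-!
Row 86, part B: common definitions for the radial profile equation (interface of note 12485, helper651).
-/

set_option autoImplicit false

open Complex

namespace Crest.Agent.R086.B

/-- `(v, v1)` solves the radial profile equation `v'' + (11/r + i r/2) v' + (om + i eps) v = |v|^n v`
at every point of `s` -/
def IsSol (n : ℕ) (om eps : ℝ) (v v1 : ℝ → ℂ) (s : Set ℝ) : Prop :=
  ∀ r ∈ s, HasDerivAt v (v1 r) r ∧
    HasDerivAt v1 (-(11 / (r : ℂ) + I * r / 2) * v1 r - ((om : ℂ) + I * eps) * v r +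
      ((‖v r‖ ^ n : ℝ) : ℂ) * v r) r

/-- the linear equation `V'' + (11/r + i r/2) V' + om V = 0` -/
def IsLin (om : ℝ) (V V1 : ℝ → ℂ) (s : Set ℝ) : Prop :=
  ∀ r ∈ s, HasDerivAt V (V1 r) r ∧
    HasDerivAt V1 (-(11 / (r : ℂ) + I * r / 2) * V1 r - (om : ℂ) * V r) r

end Crest.Agent.R086.B
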