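import Mathlib

/-!
Row 86 (S0114), Part B interior (helper702).
Regular solutions of the singular ODE `w'' + (11/r) w' = F(r,w)` on `[0,ρ]`
for globally Lipschitz `F` (Volterra form, Banach contraction with exponential weight).
-/

set_option autoImplicit false

open Set MeasureTheory Complex

namespace Crest.Agent.R086.Core

/-- `avg f s = s * ∫_0^1 x^11 f(s x) dx = s^{-11} ∫_0^s t^11 f(t) dt`. -/
noncomputable def avg (f : ℝ → ℂ) (s : ℝ) : ℂ := (s : ℂ) * ∫ x in (0:ℝ)..1, ((x ^ 11 : ℝ) : ℂ) * f (s * x)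

theorem avg_zero (f : ℝ → ℂ) : avg f 0 = 0 := by simp [avg]

theorem avg_continuous {f : ℝ → ℂ} (hf : Continuous f) : Continuous (avg f) := by
  unfold avg
  refine (Complex.continuous_ofReal).mul ?_
  exact intervalIntegral.continuous_parametric_intervalIntegral_of_continuous'
    (f := fun s x => ((x ^ 11 : ℝ) : ℂ) * f (s * x)) (by fun_prop) 0 1

theorem avg_eq (f : ℝ → ℂ) {s : ℝ} (hs : s ≠ 0) :
    avg f s = ((s ^ 11 : ℝ) : ℂ)⁻¹ * ∫ t in (0:ℝ)..s, ((t ^ 11 : ℝ) : ℂ) * f t := by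
  have hs' : (s : ℂ) ≠ 0 := by exact_mod_cast hs
  have h1 : (∫ x in (0:ℝ)..1, ((x ^ 11 : ℝ) : ℂ) * f (s * x))
      = ∫ x in (0:ℝ)..1, (fun t : ℝ => (((t / s) ^ 11 : ℝ) : ℂ) * f t) (s * x) := by
    refine intervalIntegral.integral_congr (fun x _ => ?_)
    simp only
    rw [mul_div_cancel_left₀ x hs]
  unfold avg
  rw [h1, intervalIntegral.integral_comp_mul_left (fun t : ℝ => (((t / s) ^ 11 : ℝ) : ℂ) * f t) hs]
  have h2 : (∫ t in (s * 0)..(s * 1), (((t / s) ^ 11 : ℝ) : ℂ) * f t)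
      = ((s ^ 11 : ℝ) : ℂ)⁻¹ * ∫ t in (0:ℝ)..s, ((t ^ 11 : ℝ) : ℂ) * f t := by
    rw [mul_zero, mul_one, ← intervalIntegral.integral_const_mul]
    refine intervalIntegral.integral_congr (fun t _ => ?_)
    push_cast
    field_simp
  rw [h2, Complex.real_smul]
  push_cast
  field_simp

theorem avg_hasDerivAt {f : ℝ → ℂ} (hf : Continuous f) {s : ℝ} (hs : s ≠ 0) :
    HasDerivAt (avg f) (f s - (11 / s : ℂ) * avg f s) s := by
  have hs' : (s : ℂ) ≠ 0 := by exact_mod_cast hs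
  have h1 : HasDerivAt (fun u : ℝ => ((u ^ 11 : ℝ) : ℂ)⁻¹ * ∫ t in (0:ℝ)..u, ((t ^ 11 : ℝ) : ℂ) * f t)
      ((-((11 * s ^ 10 : ℝ) : ℂ) / (((s ^ 11 : ℝ) : ℂ)) ^ 2) * (∫ t in (0:ℝ)..s, ((t ^ 11 : ℝ) : ℂ) * f t)
        + ((s ^ 11 : ℝ) : ℂ)⁻¹ * (((s ^ 11 : ℝ) : ℂ) * f s)) s := by
    have hA : HasDerivAt (fun u : ℝ => ((u ^ 11 : ℝ) : ℂ)⁻¹)
        (-((11 * s ^ 10 : ℝ) : ℂ) / (((s ^ 11 : ℝ) : ℂ)) ^ 2) s := by
      have h := (hasDerivAt_pow 11 s).ofReal_comp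
      have h2 := h.fun_inv (by exact_mod_cast (pow_ne_zero 11 hs))
      refine h2.congr_deriv ?_
      norm_num
    have hc : Continuous (fun t : ℝ => ((t ^ 11 : ℝ) : ℂ) * f t) := by fun_prop
    have hB := intervalIntegral.integral_hasDerivAt_right (hc.intervalIntegrable 0 s)
      (hc.stronglyMeasurableAtFilter _ _) hc.continuousAt
    exact hA.mul hB
  have h2 : (avg f) =ᶠ[nhds s]
      (fun u : ℝ => ((u ^ 11 : ℝ) : ℂ)⁻¹ * ∫ t in (0:ℝ)..u, ((t ^ 11 : ℝ) : ℂ) * f t) := by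
    filter_upwards [isOpen_ne.mem_nhds hs] with u hu
    exact avg_eq f hu
  refine (h1.congr_of_eventuallyEq h2).congr_deriv ?_
  rw [avg_eq f hs]
  push_cast
  field_simp
  ring

theorem norm_avg_le {f : ℝ → ℂ} {s C : ℝ} (hs : 0 ≤ s)
    (h : ∀ t ∈ Icc 0 s, ‖f t‖ ≤ C) : ‖avg f s‖ ≤ s * C := by
  unfold avg
  rw [norm_mul, Complex.norm_real, Real.norm_of_nonneg hs]
  refine mul_le_mul_of_nonneg_left ?_ hs
  have := intervalIntegral.norm_integral_le_of_norm_le_const (a := (0:ℝ)) (b := 1) (C := C)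
    (f := fun x => ((x ^ 11 : ℝ) : ℂ) * f (s * x)) ?_
  · simpa using this
  · intro x hx
    rw [uIoc_of_le zero_le_one] at hx
    rw [norm_mul, Complex.norm_real, Real.norm_of_nonneg (by have := hx.1; positivity)]
    have h1 : x ^ 11 ≤ 1 := pow_le_one₀ hx.1.le hx.2
    have h2 : ‖f (s * x)‖ ≤ C := h _ ⟨by have := hx.1; positivity, by nlinarith [hx.2]⟩
    calc x ^ 11 * ‖f (s * x)‖ ≤ 1 * C := mul_le_mul h1 h2 (norm_nonneg _) zero_le_one
      _ = C := one_mul C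

/-- sharper bound: `‖avg f s‖ ≤ s C / 12`. -/
theorem norm_avg_le' {f : ℝ → ℂ} {s C : ℝ} (hs : 0 ≤ s) 
    (h : ∀ t ∈ Icc 0 s, ‖f t‖ ≤ C) : ‖avg f s‖ ≤ s * (C / 12) := by
  unfold avg
  rw [norm_mul, Complex.norm_real, Real.norm_of_nonneg hs]
  refine mul_le_mul_of_nonneg_left ?_ hs
  have h1 : ‖∫ x in (0:ℝ)..1, ((x ^ 11 : ℝ) : ℂ) * f (s * x)‖ ≤ ∫ x in (0:ℝ)..1, x ^ 11 * C := by
    refine intervalIntegral.norm_integral_le_of_norm_le zero_le_one ?_ ?_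
    · filter_upwards with x hx
      rw [norm_mul, Complex.norm_real, Real.norm_of_nonneg (by have := hx.1; positivity)]
      refine mul_le_mul_of_nonneg_left ?_ (by have := hx.1; positivity)
      exact h _ ⟨by have := hx.1; positivity, by nlinarith [hx.2]⟩
    · exact (by fun_prop : Continuous fun x : ℝ => x ^ 11 * C).intervalIntegrable _ _
  refine h1.trans ?_
  rw [intervalIntegral.integral_mul_const, integral_pow]
  norm_num
  linarith

/-- Regular solution on `[0,ρ]` of `w'' + (11/r) w' = F(r,w)`; `w1 = w'`. -/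
structure Reg (ρ : ℝ) (F : ℝ → ℂ → ℂ) (w w1 : ℝ → ℂ) : Prop where
  cont : ContinuousOn w (Icc 0 ρ)
  cont1 : ContinuousOn w1 (Icc 0 ρ)
  w1_zero : w1 0 = 0
  der : ∀ r ∈ Ioo 0 ρ, HasDerivAt w (w1 r) r
  der1 : ∀ r ∈ Ioo 0 ρ, HasDerivAt w1 (F r (w r) - (11 / r : ℂ) * w1 r) r

theorem avg_sub {f g : ℝ → ℂ} (hf : Continuous f) (hg : Continuous g) (s : ℝ) :
    avg (fun t => f t - g t) s = avg f s - avg g s := by
  unfold avg
  rw [← mul_sub, ← intervalIntegral.integral_sub]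
  · congr 1
    refine intervalIntegral.integral_congr (fun x _ => ?_)
    simp only
    ring
  · exact (by fun_prop : Continuous fun x : ℝ => ((x ^ 11 : ℝ) : ℂ) * f (s * x)).intervalIntegrable _ _
  · exact (by fun_prop : Continuous fun x : ℝ => ((x ^ 11 : ℝ) : ℂ) * g (s * x)).intervalIntegrable _ _

/-- basic weighted estimate -/
theorem key_est {f g : ℝ → ℂ} (hf : Continuous f) (hg : Continuous g) {ρ lam A δ : ℝ}
    (hlam : 0 < lam) (hA : 0 ≤ A)
    (h : ∀ t ∈ Icc 0 ρ, ‖f t - g t‖ ≤ A * Real.exp (lam * t) + δ) :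
    ∀ r ∈ Icc 0 ρ, ‖(∫ s in (0:ℝ)..r, avg f s) - ∫ s in (0:ℝ)..r, avg g s‖
      ≤ ρ * (A * Real.exp (lam * r) / lam + ρ * |δ|) := by
  intro r hr
  have hρ : 0 ≤ ρ := hr.1.trans hr.2
  rw [← intervalIntegral.integral_sub ((avg_continuous hf).intervalIntegrable _ _)
    ((avg_continuous hg).intervalIntegrable _ _)]
  have h1 : ‖∫ s in (0:ℝ)..r, (avg f s - avg g s)‖
      ≤ ∫ s in (0:ℝ)..r, ρ * (A * Real.exp (lam * s) + |δ|) := by
    refine intervalIntegral.norm_integral_le_of_norm_le hr.1 ?_ ?_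
    · filter_upwards with s hs
      rw [← avg_sub hf hg]
      have h2 : ‖avg (fun t => f t - g t) s‖ ≤ s * (A * Real.exp (lam * s) + |δ|) := by
        refine norm_avg_le hs.1.le (fun t ht => ?_)
        refine (h t ⟨ht.1, ht.2.trans (hs.2.trans hr.2)⟩).trans ?_
        refine add_le_add (mul_le_mul_of_nonneg_left (Real.exp_le_exp.mpr ?_) hA) (le_abs_self δ)
        exact mul_le_mul_of_nonneg_left ht.2 hlam.le
      refine h2.trans (mul_le_mul_of_nonneg_right (hs.2.trans hr.2) ?_)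
      have := Real.exp_pos (lam * s)
      positivity
    · exact (by fun_prop : Continuous fun s : ℝ => ρ * (A * Real.exp (lam * s) + |δ|)).intervalIntegrable _ _
  refine h1.trans ?_
  have h3 : ∀ s ∈ uIcc 0 r, HasDerivAt (fun s : ℝ => ρ * (A * (Real.exp (lam * s) / lam) + |δ| * s))
      (ρ * (A * Real.exp (lam * s) + |δ|)) s := by
    intro s _
    have e1 : HasDerivAt (fun s : ℝ => lam * s) lam s := by
      simpa using (hasDerivAt_id s).const_mul lam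
    have e2 := (e1.exp.div_const lam).const_mul A
    have e3 : HasDerivAt (fun s : ℝ => |δ| * s) |δ| s := by
      simpa using (hasDerivAt_id s).const_mul |δ|
    refine ((e2.add e3).const_mul ρ).congr_deriv ?_
    field_simp
  rw [intervalIntegral.integral_eq_sub_of_hasDerivAt h3
    ((by fun_prop : Continuous fun s : ℝ => ρ * (A * Real.exp (lam * s) + |δ|)).intervalIntegrable _ _)]
  have h4 : 0 ≤ ρ * (A * (1 / lam)) := by positivity
  have h5 : |δ| * r ≤ ρ * |δ| := by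
    rw [mul_comm]; exact mul_le_mul_of_nonneg_right hr.2 (abs_nonneg δ)
  simp only [mul_zero, Real.exp_zero, add_zero]
  have h6 : ρ * (|δ| * r) ≤ ρ * (ρ * |δ|) := mul_le_mul_of_nonneg_left h5 hρ
  calc ρ * (A * (Real.exp (lam * r) / lam) + |δ| * r) - ρ * (A * (1 / lam))
      ≤ ρ * (A * (Real.exp (lam * r) / lam) + |δ| * r) := by linarith
    _ = ρ * (A * Real.exp (lam * r) / lam) + ρ * (|δ| * r) := by ring
    _ ≤ ρ * (A * Real.exp (lam * r) / lam) + ρ * (ρ * |δ|) := by linarith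
    _ = _ := by ring

/-- clamp to `[0,ρ]` -/
noncomputable def cl (ρ t : ℝ) : ℝ := max 0 (min t ρ)

theorem cl_continuous (ρ : ℝ) : Continuous (cl ρ) := by unfold cl; fun_prop

theorem cl_mem {ρ : ℝ} (hρ : 0 ≤ ρ) (t : ℝ) : cl ρ t ∈ Icc 0 ρ :=
  ⟨le_max_left _ _, max_le hρ (min_le_right _ _)⟩

theorem cl_eq {ρ t : ℝ} (ht : t ∈ Icc 0 ρ) : cl ρ t = t := by
  unfold cl; rw [min_eq_left ht.2, max_eq_right ht.1]

theorem cont_cl {ρ : ℝ} (hρ : 0 ≤ ρ) {w : ℝ → ℂ} (hw : ContinuousOn w (Icc 0 ρ)) :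
    Continuous (fun t => w (cl ρ t)) := by
  rw [← continuousOn_univ]
  exact hw.comp (cl_continuous ρ).continuousOn (fun t _ => cl_mem hρ t)

theorem avg_congr {f g : ℝ → ℂ} {s : ℝ} (hs : 0 ≤ s) (h : ∀ t ∈ Icc 0 s, f t = g t) :
    avg f s = avg g s := by
  unfold avg
  congr 1
  refine intervalIntegral.integral_congr (fun x hx => ?_)
  rw [uIcc_of_le zero_le_one] at hx
  rw [h (s * x) ⟨mul_nonneg hs hx.1, by nlinarith [hx.2]⟩]

section RegRep

variable {ρ : ℝ} {F : ℝ → ℂ → ℂ} {w w1 : ℝ → ℂ}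

/-- the right-hand side along a solution, extended continuously to `ℝ` -/
noncomputable def gcl (ρ : ℝ) (F : ℝ → ℂ → ℂ) (w : ℝ → ℂ) (t : ℝ) : ℂ := F (cl ρ t) (w (cl ρ t))

theorem gcl_continuous (hρ : 0 ≤ ρ) (hF : Continuous (fun p : ℝ × ℂ => F p.1 p.2))
    (hw : ContinuousOn w (Icc 0 ρ)) : Continuous (gcl ρ F w) := by
  have := hF.comp ((cl_continuous ρ).prodMk (cont_cl hρ hw))
  exact this

theorem Reg.w1_eq (h : Reg ρ F w w1) (hF : Continuous (fun p : ℝ × ℂ => F p.1 p.2)) :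
    ∀ r ∈ Icc 0 ρ, w1 r = avg (gcl ρ F w) r := by
  intro r hr
  rcases eq_or_lt_of_le hr.1 with h0 | h0
  · rw [← h0, h.w1_zero, avg_zero]
  have hρ : 0 ≤ ρ := hr.1.trans hr.2
  have hg := gcl_continuous hρ hF h.cont
  have hne : ((r ^ 11 : ℝ) : ℂ) ≠ 0 := by exact_mod_cast (pow_ne_zero 11 h0.ne')
  rw [avg_eq _ h0.ne']
  have hsub : Icc 0 r ⊆ Icc 0 ρ := Icc_subset_Icc le_rfl hr.2
  have e := intervalIntegral.integral_eq_sub_of_hasDerivAt_of_le (a := 0) (b := r) hr.1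
    (f := fun t : ℝ => ((t ^ 11 : ℝ) : ℂ) * w1 t)
    (f' := fun t : ℝ => ((t ^ 11 : ℝ) : ℂ) * gcl ρ F w t)
    (by
      refine ContinuousOn.mul (by fun_prop) (h.cont1.mono hsub))
    (by
      intro t ht
      have ht' : t ∈ Ioo 0 ρ := ⟨ht.1, ht.2.trans_le hr.2⟩
      have e1 := ((hasDerivAt_pow 11 t).ofReal_comp).mul (h.der1 t ht')
      refine e1.congr_deriv ?_
      have : gcl ρ F w t = F t (w t) := by
        unfold gcl; rw [cl_eq ⟨ht'.1.le, ht'.2.le⟩]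
      rw [this]
      have htne : (t : ℂ) ≠ 0 := by exact_mod_cast ht.1.ne'
      push_cast
      field_simp
      ring)
    ((by fun_prop : Continuous fun t : ℝ => ((t ^ 11 : ℝ) : ℂ) * gcl ρ F w t).intervalIntegrable _ _)
  rw [e]
  simp only [h.w1_zero, mul_zero, sub_zero]
  field_simp

theorem Reg.w_eq (h : Reg ρ F w w1) (hF : Continuous (fun p : ℝ × ℂ => F p.1 p.2)) :
    ∀ r ∈ Icc 0 ρ, w r = w 0 + ∫ s in (0:ℝ)..r, avg (gcl ρ F w) s := by
  intro r hr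
  have hρ : 0 ≤ ρ := hr.1.trans hr.2
  have hg := gcl_continuous hρ hF h.cont
  have hsub : Icc 0 r ⊆ Icc 0 ρ := Icc_subset_Icc le_rfl hr.2
  have e := intervalIntegral.integral_eq_sub_of_hasDerivAt_of_le (a := 0) (b := r) hr.1
    (f := w) (f' := avg (gcl ρ F w)) (h.cont.mono hsub)
    (by
      intro t ht
      have ht' : t ∈ Ioo 0 ρ := ⟨ht.1, ht.2.trans_le hr.2⟩
      rw [← h.w1_eq hF t ⟨ht'.1.le, ht'.2.le⟩]
      exact h.der t ht')
    ((avg_continuous hg).intervalIntegrable _ _)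
  rw [e]; ring

end RegRep

/-- **Lipschitz dependence / uniqueness for regular solutions.** -/
theorem reg_dist {ρ K δ : ℝ} {F F' : ℝ → ℂ → ℂ} {w w1 w' w1' : ℝ → ℂ} (hρ : 0 < ρ)
    (hF : Continuous (fun p : ℝ × ℂ => F p.1 p.2)) (hF' : Continuous (fun p : ℝ × ℂ => F' p.1 p.2))
    (hK : 0 ≤ K) (hLip : ∀ r ∈ Icc 0 ρ, ∀ a b : ℂ, ‖F r a - F r b‖ ≤ K * ‖a - b‖)
    (h : Reg ρ F w w1) (h' : Reg ρ F' w' w1')
    (hδ : ∀ r ∈ Icc 0 ρ, ‖F r (w' r) - F' r (w' r)‖ ≤ δ) :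
    ∀ r ∈ Icc 0 ρ, ‖w r - w' r‖ ≤
      2 * Real.exp ((2 * ρ * K + 1) * ρ) * (‖w 0 - w' 0‖ + ρ ^ 2 * δ) := by
  have hδ0 : 0 ≤ δ := (norm_nonneg _).trans (hδ 0 ⟨le_rfl, hρ.le⟩)
  set lam : ℝ := 2 * ρ * K + 1 with hlam
  have hlam0 : 0 < lam := by positivity
  set φ : ℝ → ℝ := fun r => Real.exp (-(lam * r)) * ‖w r - w' r‖ with hφ
  have hφc : ContinuousOn φ (Icc 0 ρ) := by
    refine ContinuousOn.mul (by fun_prop) ?_
    exact (h.cont.sub h'.cont).norm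
  obtain ⟨r₀, hr₀, hmax⟩ := isCompact_Icc.exists_isMaxOn (nonempty_Icc.mpr hρ.le) hφc
  set m : ℝ := φ r₀ with hm
  have hm0 : 0 ≤ m := by rw [hm, hφ]; positivity
  have hle : ∀ r ∈ Icc 0 ρ, ‖w r - w' r‖ ≤ m * Real.exp (lam * r) := by
    intro r hr
    have h1 : φ r ≤ m := hmax hr
    have h2 : ‖w r - w' r‖ = φ r * Real.exp (lam * r) := by
      rw [hφ]
      simp only
      rw [mul_assoc, mul_comm ‖w r - w' r‖, ← mul_assoc, ← Real.exp_add]
      simp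
    rw [h2]
    exact mul_le_mul_of_nonneg_right h1 (Real.exp_pos _).le
  have hest : ∀ t ∈ Icc 0 ρ, ‖gcl ρ F w t - gcl ρ F' w' t‖ ≤ (K * m) * Real.exp (lam * t) + δ := by
    intro t ht
    unfold gcl
    rw [cl_eq ht]
    calc ‖F t (w t) - F' t (w' t)‖ = ‖(F t (w t) - F t (w' t)) + (F t (w' t) - F' t (w' t))‖ := by
          rw [sub_add_sub_cancel]
      _ ≤ ‖F t (w t) - F t (w' t)‖ + ‖F t (w' t) - F' t (w' t)‖ := norm_add_le _ _
      _ ≤ K * (m * Real.exp (lam * t)) + δ :=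
          add_le_add ((hLip t ht _ _).trans (mul_le_mul_of_nonneg_left (hle t ht) hK)) (hδ t ht)
      _ = _ := by ring
  have hk := key_est (gcl_continuous hρ.le hF h.cont) (gcl_continuous hρ.le hF' h'.cont) hlam0
    (mul_nonneg hK hm0) hest r₀ hr₀
  have hw : ‖w r₀ - w' r₀‖ ≤ ‖w 0 - w' 0‖ +
      ρ * ((K * m) * Real.exp (lam * r₀) / lam + ρ * |δ|) := by
    rw [h.w_eq hF r₀ hr₀, h'.w_eq hF' r₀ hr₀]
    calc _ = ‖(w 0 - w' 0) + ((∫ s in (0:ℝ)..r₀, avg (gcl ρ F w) s)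
          - ∫ s in (0:ℝ)..r₀, avg (gcl ρ F' w') s)‖ := by congr 1; ring
      _ ≤ _ := (norm_add_le _ _).trans (add_le_add le_rfl hk)
  have hexp1 : Real.exp (-(lam * r₀)) ≤ 1 := by
    rw [Real.exp_le_one_iff]
    have := mul_nonneg hlam0.le hr₀.1
    linarith
  have hmle : m ≤ ‖w 0 - w' 0‖ + ρ ^ 2 * δ + m / 2 := by
    have h1 : m = Real.exp (-(lam * r₀)) * ‖w r₀ - w' r₀‖ := rfl
    rw [h1]
    have h2 : Real.exp (-(lam * r₀)) * ‖w r₀ - w' r₀‖ ≤
        Real.exp (-(lam * r₀)) * (‖w 0 - w' 0‖ +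
        ρ * ((K * m) * Real.exp (lam * r₀) / lam + ρ * |δ|)) :=
      mul_le_mul_of_nonneg_left hw (Real.exp_pos _).le
    refine h2.trans ?_
    have h3 : Real.exp (-(lam * r₀)) * (ρ * ((K * m) * Real.exp (lam * r₀) / lam)) ≤ m / 2 := by
      have : Real.exp (-(lam * r₀)) * (ρ * ((K * m) * Real.exp (lam * r₀) / lam))
          = (Real.exp (-(lam * r₀)) * Real.exp (lam * r₀)) * (ρ * K * m / lam) := by ring
      rw [this, ← Real.exp_add]
      simp only [neg_add_cancel, Real.exp_zero, one_mul]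
      rw [div_le_div_iff₀ hlam0 (by norm_num)]
      rw [hlam]
      nlinarith [mul_nonneg (mul_nonneg hρ.le hK) hm0]
    have h4 : Real.exp (-(lam * r₀)) * ‖w 0 - w' 0‖ ≤ ‖w 0 - w' 0‖ :=
      mul_le_of_le_one_left (norm_nonneg _) hexp1
    have h5 : Real.exp (-(lam * r₀)) * (ρ * (ρ * |δ|)) ≤ ρ ^ 2 * δ := by
      rw [abs_of_nonneg hδ0]
      calc _ ≤ 1 * (ρ * (ρ * δ)) := mul_le_mul_of_nonneg_right hexp1 (by positivity)
        _ = _ := by ring
    calc _ = Real.exp (-(lam * r₀)) * ‖w 0 - w' 0‖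
        + Real.exp (-(lam * r₀)) * (ρ * ((K * m) * Real.exp (lam * r₀) / lam))
        + Real.exp (-(lam * r₀)) * (ρ * (ρ * |δ|)) := by ring
      _ ≤ ‖w 0 - w' 0‖ + m / 2 + ρ ^ 2 * δ := add_le_add (add_le_add h4 h3) h5
      _ = _ := by
          have : m / 2 = (Real.exp (-(lam * r₀)) * ‖w r₀ - w' r₀‖) / 2 := by rw [← h1]
          rw [this]; ring
  have hm2 : m ≤ 2 * (‖w 0 - w' 0‖ + ρ ^ 2 * δ) := by linarith
  intro r hr
  refine (hle r hr).trans ?_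
  have h6 : Real.exp (lam * r) ≤ Real.exp (lam * ρ) :=
    Real.exp_le_exp.mpr (mul_le_mul_of_nonneg_left hr.2 hlam0.le)
  have h7 : 0 ≤ ‖w 0 - w' 0‖ + ρ ^ 2 * δ := by positivity
  calc m * Real.exp (lam * r) ≤ (2 * (‖w 0 - w' 0‖ + ρ ^ 2 * δ)) * Real.exp (lam * ρ) :=
        mul_le_mul hm2 h6 (Real.exp_pos _).le (by positivity)
    _ = _ := by ring

section Existence

variable {ρ K : ℝ} {F : ℝ → ℂ → ℂ}

/-- auxiliary: right-hand side along `e^{lam t} u` -/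
noncomputable def gu (ρ lam : ℝ) (hρ : 0 ≤ ρ) (F : ℝ → ℂ → ℂ) (u : C(Icc (0:ℝ) ρ, ℂ)) (t : ℝ) : ℂ :=
  F (cl ρ t) (((Real.exp (lam * cl ρ t) : ℝ) : ℂ) * u ⟨cl ρ t, cl_mem hρ t⟩)

theorem gu_continuous (lam : ℝ) (hρ : 0 ≤ ρ) (hF : Continuous (fun p : ℝ × ℂ => F p.1 p.2))
    (u : C(Icc (0:ℝ) ρ, ℂ)) : Continuous (gu ρ lam hρ F u) := by
  have h1 : Continuous (fun t : ℝ => u ⟨cl ρ t, cl_mem hρ t⟩) :=
    u.continuous.comp ((cl_continuous ρ).subtype_mk _)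
  have h2 : Continuous (fun t : ℝ => (((Real.exp (lam * cl ρ t) : ℝ) : ℂ) * u ⟨cl ρ t, cl_mem hρ t⟩)) := by
    have := cl_continuous ρ
    exact (Complex.continuous_ofReal.comp (Real.continuous_exp.comp (this.const_mul lam))).mul h1
  exact hF.comp ((cl_continuous ρ).prodMk h2)

/-- the Volterra operator in the exponentially weighted variable -/
noncomputable def TT (ρ lam : ℝ) (hρ : 0 ≤ ρ) (F : ℝ → ℂ → ℂ) (hF : Continuous (fun p : ℝ × ℂ => F p.1 p.2))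
    (z : ℂ) (u : C(Icc (0:ℝ) ρ, ℂ)) : C(Icc (0:ℝ) ρ, ℂ) where
  toFun r := ((Real.exp (-(lam * (r : ℝ))) : ℝ) : ℂ) * (z + ∫ s in (0:ℝ)..(r : ℝ), avg (gu ρ lam hρ F u) s)
  continuous_toFun := by
    have h1 : Continuous (fun r : ℝ => ∫ s in (0:ℝ)..r, avg (gu ρ lam hρ F u) s) :=
      intervalIntegral.continuous_primitive
        (fun a b => (avg_continuous (gu_continuous lam hρ hF u)).intervalIntegrable a b) 0
    have h2 : Continuous (fun r : ℝ => ((Real.exp (-(lam * r)) : ℝ) : ℂ)) := by fun_prop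
    exact (h2.mul (continuous_const.add h1)).comp continuous_subtype_val

/-- **Existence of regular solutions** for globally Lipschitz right-hand sides. -/
theorem exists_reg (hρ : 0 < ρ) (hF : Continuous (fun p : ℝ × ℂ => F p.1 p.2))
    (hK : 0 ≤ K) (hLip : ∀ r ∈ Icc 0 ρ, ∀ a b : ℂ, ‖F r a - F r b‖ ≤ K * ‖a - b‖) (z : ℂ) :
    ∃ w w1 : ℝ → ℂ, Reg ρ F w w1 ∧ w 0 = z ∧ Continuous w ∧ Continuous w1 := by
  set lam : ℝ := 2 * ρ * K + 1 with hlam
  have hlam0 : 0 < lam := by positivity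
  have : Nonempty (Icc (0:ℝ) ρ) := ⟨⟨0, le_rfl, hρ.le⟩⟩
  have hcontr : ContractingWith (1/2 : NNReal) (TT ρ lam hρ.le F hF z) := by
    refine ⟨by norm_num, LipschitzWith.of_dist_le_mul (fun u v => ?_)⟩
    rw [ContinuousMap.dist_le (by positivity)]
    intro r
    have hest : ∀ t ∈ Icc 0 ρ, ‖gu ρ lam hρ.le F u t - gu ρ lam hρ.le F v t‖
        ≤ (K * dist u v) * Real.exp (lam * t) + 0 := by
      intro t ht
      unfold gu
      refine (hLip _ (cl_mem hρ.le t) _ _).trans ?_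
      rw [← mul_sub, norm_mul, Complex.norm_real, Real.norm_of_nonneg (Real.exp_pos _).le]
      have h1 : ‖u ⟨cl ρ t, cl_mem hρ.le t⟩ - v ⟨cl ρ t, cl_mem hρ.le t⟩‖ ≤ dist u v := by
        rw [← dist_eq_norm]; exact ContinuousMap.dist_apply_le_dist _
      have h2 : K * (Real.exp (lam * cl ρ t) * ‖u ⟨cl ρ t, cl_mem hρ.le t⟩ - v ⟨cl ρ t, cl_mem hρ.le t⟩‖)
          ≤ K * (Real.exp (lam * cl ρ t) * dist u v) := by
        gcongr
      have h3 : Real.exp (lam * cl ρ t) = Real.exp (lam * t) := by rw [cl_eq ht]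
      rw [h3] at h2 ⊢
      linarith
    have hk := key_est (gu_continuous lam hρ.le hF u) (gu_continuous lam hρ.le hF v) hlam0
      (by positivity) hest r r.2
    have e1 : dist ((TT ρ lam hρ.le F hF z u) r) ((TT ρ lam hρ.le F hF z v) r)
        = Real.exp (-(lam * (r:ℝ))) * ‖(∫ s in (0:ℝ)..(r:ℝ), avg (gu ρ lam hρ.le F u) s)
          - ∫ s in (0:ℝ)..(r:ℝ), avg (gu ρ lam hρ.le F v) s‖ := by
      rw [dist_eq_norm]
      change ‖((Real.exp (-(lam * (r : ℝ))) : ℝ) : ℂ) * (z + ∫ s in (0:ℝ)..(r : ℝ), avg (gu ρ lam hρ.le F u) s)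
        - ((Real.exp (-(lam * (r : ℝ))) : ℝ) : ℂ) * (z + ∫ s in (0:ℝ)..(r : ℝ), avg (gu ρ lam hρ.le F v) s)‖ = _
      rw [← mul_sub, norm_mul, Complex.norm_real, Real.norm_of_nonneg (Real.exp_pos _).le,
        add_sub_add_left_eq_sub]
    rw [e1]
    calc Real.exp (-(lam * (r:ℝ))) * ‖(∫ s in (0:ℝ)..(r:ℝ), avg (gu ρ lam hρ.le F u) s)
          - ∫ s in (0:ℝ)..(r:ℝ), avg (gu ρ lam hρ.le F v) s‖
        ≤ Real.exp (-(lam * (r:ℝ))) * (ρ * ((K * dist u v) * Real.exp (lam * r) / lam + ρ * |0|)) :=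
          mul_le_mul_of_nonneg_left hk (Real.exp_pos _).le
      _ = (Real.exp (-(lam * (r:ℝ))) * Real.exp (lam * r)) * (ρ * K / lam * dist u v) := by
          rw [abs_zero]; ring
      _ = ρ * K / lam * dist u v := by
          rw [← Real.exp_add]; simp
      _ ≤ ((1/2 : NNReal) : ℝ) * dist u v := by
          refine mul_le_mul_of_nonneg_right ?_ dist_nonneg
          rw [div_le_iff₀ hlam0, hlam]
          push_cast
          linarith
  set u := hcontr.fixedPoint with hu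
  have hfix : TT ρ lam hρ.le F hF z u = u := hcontr.fixedPoint_isFixedPt
  set g := gu ρ lam hρ.le F u with hg
  have hgc : Continuous g := gu_continuous lam hρ.le hF u
  set W : ℝ → ℂ := fun r => z + ∫ s in (0:ℝ)..r, avg g s with hW
  have hWu : ∀ (r : ℝ) (hr : r ∈ Icc 0 ρ), W r = ((Real.exp (lam * r) : ℝ) : ℂ) * u ⟨r, hr⟩ := by
    intro r hr
    have h1 : (TT ρ lam hρ.le F hF z u) ⟨r, hr⟩ = u ⟨r, hr⟩ := by rw [hfix]
    have h2 : (TT ρ lam hρ.le F hF z u) ⟨r, hr⟩ = ((Real.exp (-(lam * r)) : ℝ) : ℂ) * W r := rfl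
    rw [← h1, h2, ← mul_assoc, ← Complex.ofReal_mul, ← Real.exp_add]
    simp
  have hgW : ∀ r ∈ Icc 0 ρ, g r = F r (W r) := by
    intro r hr
    rw [hWu r hr, hg]
    unfold gu
    simp only [cl_eq hr]
  have hWd : ∀ r, HasDerivAt W (avg g r) r := by
    intro r
    have := (intervalIntegral.integral_hasDerivAt_right
      ((avg_continuous hgc).intervalIntegrable 0 r)
      ((avg_continuous hgc).stronglyMeasurableAtFilter _ _) (avg_continuous hgc).continuousAt)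
    exact this.const_add z
  have hWc : Continuous W := continuous_iff_continuousAt.mpr (fun r => (hWd r).continuousAt)
  refine ⟨W, avg g, ⟨hWc.continuousOn, (avg_continuous hgc).continuousOn, avg_zero g,
    fun r _ => hWd r, fun r hr => ?_⟩, by simp [hW], hWc, avg_continuous hgc⟩
  have := avg_hasDerivAt hgc hr.1.ne'
  rwa [hgW r ⟨hr.1.le, hr.2.le⟩] at this

end Existence

end Crest.Agent.R086.Core
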