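import Mathlib
import Crest.Agent.R086.CoreODE

/-!
Row 86 (S0114), Part B interior (helper702): maximum principle for regular solutions.
-/

set_option autoImplicit false

open Set MeasureTheory Complex

namespace Crest.Agent.R086.Core

theorem hasDerivAt_re' {f : ℝ → ℂ} {f' : ℂ} {x : ℝ} (h : HasDerivAt f f' x) :
    HasDerivAt (fun y => (f y).re) f'.re x :=
  (Complex.reCLM.hasFDerivAt (x := f x)).comp_hasDerivAt x h

theorem hasDerivAt_im' {f : ℝ → ℂ} {f' : ℂ} {x : ℝ} (h : HasDerivAt f f' x) :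
    HasDerivAt (fun y => (f y).im) f'.im x :=
  (Complex.imCLM.hasFDerivAt (x := f x)).comp_hasDerivAt x h

/-- **Maximum principle.** If `Re (conj w * F(r,w)) ≥ 0` whenever `‖w‖ > κ`, then
`‖w r‖ ≤ max ‖w ρ‖ κ` on `[0,ρ]`. -/
theorem max_principle {ρ κ : ℝ} {F : ℝ → ℂ → ℂ} {w w1 : ℝ → ℂ} (hρ : 0 < ρ)
    (hw : ContinuousOn w (Icc 0 ρ)) (hw1 : ContinuousOn w1 (Icc 0 ρ))
    (der : ∀ r ∈ Ioo 0 ρ, HasDerivAt w (w1 r) r)
    (der1 : ∀ r ∈ Ioo 0 ρ, HasDerivAt w1 (F r (w r) - (11 / r : ℂ) * w1 r) r)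
    (hF : ∀ r ∈ Ioo 0 ρ, ∀ a : ℂ, κ < ‖a‖ → 0 ≤ ((starRingEnd ℂ) a * F r a).re) :
    ∀ r ∈ Icc 0 ρ, ‖w r‖ ≤ max ‖w ρ‖ κ := by
  by_contra hcon
  push Not at hcon
  obtain ⟨r₁, hr₁, hbig⟩ := hcon
  -- the squared modulus
  set m : ℝ → ℝ := fun r => normSq (w r) with hm
  have hmc : ContinuousOn m (Icc 0 ρ) := Complex.continuous_normSq.comp_continuousOn hw
  have hm_sq : ∀ r, m r = ‖w r‖ ^ 2 := fun r => Complex.normSq_eq_norm_sq _
  obtain ⟨r₂, hr₂, hmax₂⟩ := isCompact_Icc.exists_isMaxOn (nonempty_Icc.mpr hρ.le) hmc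
  -- last maximum point
  set S : Set ℝ := Icc 0 ρ ∩ m ⁻¹' {m r₂} with hS
  have hSc : IsCompact S := by
    have : IsClosed S := hmc.preimage_isClosed_of_isClosed isClosed_Icc isClosed_singleton
    exact isCompact_Icc.of_isClosed_subset this inter_subset_left
  obtain ⟨r₀, hr₀⟩ := hSc.exists_isGreatest ⟨r₂, hr₂, rfl⟩
  have hr₀I : r₀ ∈ Icc 0 ρ := hr₀.1.1
  have hmr₀ : m r₀ = m r₂ := hr₀.1.2
  have hmax : ∀ r ∈ Icc 0 ρ, m r ≤ m r₀ := fun r hr => by rw [hmr₀]; exact hmax₂ hr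
  have hbig₀ : max ‖w ρ‖ κ < ‖w r₀‖ := by
    refine hbig.trans_le ?_
    have := hmax r₁ hr₁
    rw [hm_sq, hm_sq] at this
    exact (sq_le_sq₀ (norm_nonneg _) (norm_nonneg _)).mp this
  have hr₀ρ : r₀ < ρ := by
    refine lt_of_le_of_ne hr₀I.2 (fun h => ?_)
    rw [h] at hbig₀
    exact absurd (le_max_left ‖w ρ‖ κ) (not_le.mpr hbig₀)
  have hκ₀ : κ < ‖w r₀‖ := (le_max_right _ _).trans_lt hbig₀
  -- derivative of m
  have hmd : ∀ r ∈ Ioo 0 ρ, HasDerivAt m (2 * ((starRingEnd ℂ) (w r) * w1 r).re) r := by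
    intro r hr
    have h1 := der r hr
    have hre := hasDerivAt_re' h1
    have him := hasDerivAt_im' h1
    have h2 := (hre.mul hre).add (him.mul him)
    have h3 : m = fun x => (w x).re * (w x).re + (w x).im * (w x).im := by
      funext x; simp [hm, Complex.normSq_apply]
    rw [h3]
    refine h2.congr_deriv ?_
    simp [Complex.mul_re]
    ring
  -- weighted flux
  set h : ℝ → ℝ := fun r => r ^ 11 * (2 * ((starRingEnd ℂ) (w r) * w1 r).re) with hh
  have hhc : ContinuousOn h (Icc 0 ρ) := by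
    refine ContinuousOn.mul (by fun_prop) (ContinuousOn.mul continuousOn_const ?_)
    refine Complex.continuous_re.comp_continuousOn ?_
    exact (Complex.continuous_conj.comp_continuousOn hw).mul hw1
  have hhd : ∀ r ∈ Ioo 0 ρ, HasDerivAt h
      (2 * r ^ 11 * (‖w1 r‖ ^ 2 + ((starRingEnd ℂ) (w r) * F r (w r)).re)) r := by
    intro r hr
    have h1 := der r hr
    have h1' := der1 r hr
    have hre := hasDerivAt_re' h1
    have him := hasDerivAt_im' h1
    have hre1 := hasDerivAt_re' h1'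
    have him1 := hasDerivAt_im' h1'
    have h2 := (hasDerivAt_pow 11 r).mul (((hre.mul hre1).add (him.mul him1)).const_mul 2)
    have h3 : h = fun x => x ^ 11 * (2 * ((w x).re * (w1 x).re + (w x).im * (w1 x).im)) := by
      funext x; simp [hh, Complex.mul_re]
    rw [h3]
    refine h2.congr_deriv ?_
    have hr0 : r ≠ 0 := hr.1.ne'
    have e1 : ((11 / r : ℂ) * w1 r).re = 11 / r * (w1 r).re := by
      have : (11 / r : ℂ) = ((11 / r : ℝ) : ℂ) := by push_cast; rfl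
      rw [this, Complex.re_ofReal_mul]
    have e2 : ((11 / r : ℂ) * w1 r).im = 11 / r * (w1 r).im := by
      have : (11 / r : ℂ) = ((11 / r : ℝ) : ℂ) := by push_cast; rfl
      rw [this, Complex.im_ofReal_mul]
    rw [← Complex.normSq_eq_norm_sq, Complex.normSq_apply, Complex.sub_re, Complex.sub_im, e1, e2,
      Complex.mul_re]
    simp only [Complex.conj_re, Complex.conj_im, Pi.mul_apply, Pi.add_apply]
    field_simp
    push_cast
    ring
  -- flux vanishes at r₀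
  have hflux0 : h r₀ = 0 := by
    rcases eq_or_lt_of_le hr₀I.1 with h0 | h0
    · simp [hh, ← h0]
    · have hloc : IsLocalMax m r₀ := by
        filter_upwards [Ioo_mem_nhds h0 hr₀ρ] with r hr
        exact hmax r ⟨hr.1.le, hr.2.le⟩
      have := hloc.hasDerivAt_eq_zero (hmd r₀ ⟨h0, hr₀ρ⟩)
      simp only [hh]
      rw [this, mul_zero]
  -- neighbourhood where ‖w‖ > κ
  have hnb : ∃ δ > 0, r₀ + δ ≤ ρ ∧ ∀ r ∈ Icc r₀ (r₀ + δ), κ < ‖w r‖ := by
    have hc := (hw r₀ hr₀I).norm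
    have hev : ∀ᶠ r in nhdsWithin r₀ (Icc 0 ρ), κ < ‖w r‖ := hc.eventually (lt_mem_nhds hκ₀)
    rw [eventually_nhdsWithin_iff, Metric.eventually_nhds_iff] at hev
    obtain ⟨e, he, hev⟩ := hev
    refine ⟨min (e / 2) (ρ - r₀), lt_min (by positivity) (by linarith), ?_, ?_⟩
    · have := min_le_right (e / 2) (ρ - r₀); linarith
    · intro r hr
      have h1 := min_le_left (e / 2) (ρ - r₀)
      have h2 := min_le_right (e / 2) (ρ - r₀)
      refine hev ?_ ⟨hr₀I.1.trans hr.1, by linarith [hr.2]⟩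
      rw [Real.dist_eq, abs_of_nonneg (by linarith [hr.1])]
      linarith [hr.2]
  obtain ⟨δ, hδ, hδρ, hδw⟩ := hnb
  have hIcc : Icc r₀ (r₀ + δ) ⊆ Icc 0 ρ := Icc_subset_Icc hr₀I.1 hδρ
  have hIoo : ∀ r ∈ Ioo r₀ (r₀ + δ), r ∈ Ioo 0 ρ := fun r hr =>
    ⟨hr₀I.1.trans_lt hr.1, hr.2.trans_le hδρ⟩
  have hmonoh : MonotoneOn h (Icc r₀ (r₀ + δ)) := by
    refine monotoneOn_of_deriv_nonneg (convex_Icc _ _) (hhc.mono hIcc) ?_ ?_
    · intro r hr
      rw [interior_Icc] at hr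
      exact (hhd r (hIoo r hr)).differentiableAt.differentiableWithinAt
    · intro r hr
      rw [interior_Icc] at hr
      rw [(hhd r (hIoo r hr)).deriv]
      have h1 := hF r (hIoo r hr) (w r) (hδw r ⟨hr.1.le, hr.2.le⟩)
      have h2 : 0 < r := (hIoo r hr).1
      positivity
  have hhnn : ∀ r ∈ Icc r₀ (r₀ + δ), 0 ≤ h r := by
    intro r hr
    rw [← hflux0]
    exact hmonoh ⟨le_rfl, by linarith⟩ hr hr.1
  have hmonom : MonotoneOn m (Icc r₀ (r₀ + δ)) := by
    refine monotoneOn_of_deriv_nonneg (convex_Icc _ _) (hmc.mono hIcc) ?_ ?_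
    · intro r hr
      rw [interior_Icc] at hr
      exact (hmd r (hIoo r hr)).differentiableAt.differentiableWithinAt
    · intro r hr
      rw [interior_Icc] at hr
      rw [(hmd r (hIoo r hr)).deriv]
      have h1 := hhnn r ⟨hr.1.le, hr.2.le⟩
      have h2 : 0 < r := (hIoo r hr).1
      have h3 : 0 < r ^ 11 := by positivity
      simp only [hh] at h1
      exact (mul_nonneg_iff_of_pos_left h3).mp h1
  have hlast : r₀ + δ ∈ S := by
    refine ⟨hIcc ⟨by linarith, le_rfl⟩, ?_⟩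
    have h1 : m r₀ ≤ m (r₀ + δ) := hmonom ⟨le_rfl, by linarith⟩ ⟨by linarith, le_rfl⟩ (by linarith)
    have h2 : m (r₀ + δ) ≤ m r₀ := hmax _ (hIcc ⟨by linarith, le_rfl⟩)
    change m (r₀ + δ) = m r₂
    rw [← hmr₀]
    exact le_antisymm h2 h1
  have := hr₀.2 hlast
  linarith

end Crest.Agent.R086.Core
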