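import Mathlib
import Crest.Agent.R086.CoreMax
import Crest.Agent.R086.BDefs

/-!
Row 86 (S0114), Part B interior (helper702): existence for the interior boundary value problem
and the a-priori bounds (interface (I1) of note 12485).
-/

set_option autoImplicit false

open Set MeasureTheory Complex

namespace Crest.Agent.R086.Core

/-- the phase `e^{i r²/8}` -/
noncomputable def ph (r : ℝ) : ℂ := cexp (I * ((r ^ 2 / 8 : ℝ) : ℂ))

theorem norm_ph (r : ℝ) : ‖ph r‖ = 1 := by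
  unfold ph
  rw [mul_comm]
  exact Complex.norm_exp_ofReal_mul_I _

theorem ph_ne (r : ℝ) : ph r ≠ 0 := Complex.exp_ne_zero _

theorem ph_hasDerivAt (r : ℝ) : HasDerivAt ph (ph r * (I * (r / 4 : ℂ))) r := by
  unfold ph
  have h1 : HasDerivAt (fun r : ℝ => (r ^ 2 / 8 : ℝ)) (r / 4) r := by
    have := (hasDerivAt_pow 2 r).div_const 8
    refine this.congr_deriv ?_
    push_cast
    ring
  have h2 := (h1.ofReal_comp.const_mul I).cexp
  refine h2.congr_deriv ?_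
  push_cast
  ring

theorem ph_continuous : Continuous ph := by unfold ph; fun_prop

theorem ph_inv_hasDerivAt (r : ℝ) : HasDerivAt (fun x => (ph x)⁻¹) (-((ph r)⁻¹ * (I * (r / 4 : ℂ)))) r := by
  have := (ph_hasDerivAt r).fun_inv (ph_ne r)
  refine this.congr_deriv ?_
  have := ph_ne r
  field_simp

/-- the gauged right-hand side with a general real factor `p` -/
noncomputable def FF (p : ℂ → ℝ) (om eps r : ℝ) (a : ℂ) : ℂ :=
  ((p a : ℝ) : ℂ) * a - (((r ^ 2 / 16 + om : ℝ) : ℂ) + I * ((eps - 3 : ℝ) : ℂ)) * a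

/-- gauge transform, from `v` to `w = e^{ir²/8} v` -/
theorem gauge_der {v v1 : ℝ → ℂ} {n : ℕ} {om eps r : ℝ} (hr : r ≠ 0)
    (h : B.IsSol n om eps v v1 {r}) :
    HasDerivAt (fun x => ph x * v x) (ph r * (v1 r + I * (r / 4 : ℂ) * v r)) r ∧
    HasDerivAt (fun x : ℝ => ph x * (v1 x + I * (x / 4 : ℂ) * v x))
      (FF (fun a => ‖a‖ ^ n) om eps r (ph r * v r) -
        (11 / r : ℂ) * (ph r * (v1 r + I * (r / 4 : ℂ) * v r))) r := by
  obtain ⟨hv, hv1⟩ := h r rfl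
  have hrc : (r : ℂ) ≠ 0 := by exact_mod_cast hr
  constructor
  · refine ((ph_hasDerivAt r).mul hv).congr_deriv ?_
    ring
  · have hx : HasDerivAt (fun x : ℝ => I * ((x : ℂ) / 4)) (I * (1 / 4)) r := by
      have := ((Complex.ofRealCLM.hasDerivAt (x := r)).div_const 4).const_mul I
      simpa using this
    have h1 := (ph_hasDerivAt r).mul (hv1.add (hx.mul hv))
    refine h1.congr_deriv ?_
    have hn : ‖ph r * v r‖ = ‖v r‖ := by rw [norm_mul, norm_ph, one_mul]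
    unfold FF
    simp only [hn, Pi.add_apply, Pi.mul_apply]
    push_cast
    field_simp
    ring_nf
    simp only [I_sq]
    ring

/-- inverse gauge transform, from `w` to `v = e^{-ir²/8} w` -/
theorem ungauge_der {w w1 : ℝ → ℂ} {n : ℕ} {om eps r : ℝ} (hr : r ≠ 0)
    (hw : HasDerivAt w (w1 r) r)
    (hw1 : HasDerivAt w1 (FF (fun a => ‖a‖ ^ n) om eps r (w r) - (11 / r : ℂ) * w1 r) r) :
    B.IsSol n om eps (fun x => (ph x)⁻¹ * w x)
      (fun x : ℝ => (ph x)⁻¹ * (w1 x - I * (x / 4 : ℂ) * w x)) {r} := by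
  intro r' hr'
  rw [mem_singleton_iff] at hr'
  subst hr'
  have hrc : (r' : ℂ) ≠ 0 := by exact_mod_cast hr
  constructor
  · refine ((ph_inv_hasDerivAt r').mul hw).congr_deriv ?_
    ring
  · have hx : HasDerivAt (fun x : ℝ => I * ((x : ℂ) / 4)) (I * (1 / 4)) r' := by
      have := ((Complex.ofRealCLM.hasDerivAt (x := r')).div_const 4).const_mul I
      simpa using this
    have h1 := (ph_inv_hasDerivAt r').mul (hw1.sub (hx.mul hw))
    refine h1.congr_deriv ?_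
    have hn : ‖(ph r')⁻¹ * w r'‖ = ‖w r'‖ := by rw [norm_mul, norm_inv, norm_ph, inv_one, one_mul]
    unfold FF
    simp only [hn, Pi.sub_apply, Pi.mul_apply]
    push_cast
    field_simp
    ring_nf
    simp only [I_sq]
    ring

/-- truncated factor -/
noncomputable def pt (n : ℕ) (a : ℂ) : ℝ := (min ‖a‖ 2) ^ n

theorem pt_continuous (n : ℕ) : Continuous (pt n) := by unfold pt; fun_prop

theorem FF_continuous {p : ℂ → ℝ} (hp : Continuous p) (om eps : ℝ) :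
    Continuous (fun q : ℝ × ℂ => FF p om eps q.1 q.2) := by
  unfold FF; fun_prop

theorem pt_lip (n : ℕ) (a b : ℂ) : ‖((pt n a : ℝ) : ℂ) * a - ((pt n b : ℝ) : ℂ) * b‖
    ≤ ((n + 1) * 2 ^ n) * ‖a - b‖ := by
  wlog hab : ‖b‖ ≤ ‖a‖ with H
  · have := H n b a (le_of_not_ge hab)
    rw [norm_sub_rev, norm_sub_rev a b]
    exact this
  have h0a : 0 ≤ min ‖a‖ 2 := le_min (norm_nonneg _) (by norm_num)
  have h0b : 0 ≤ min ‖b‖ 2 := le_min (norm_nonneg _) (by norm_num)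
  have hle : min ‖b‖ 2 ≤ min ‖a‖ 2 := min_le_min_right _ hab
  have hpa0 : 0 ≤ pt n a := pow_nonneg h0a n
  have hpa : pt n a ≤ 2 ^ n := pow_le_pow_left₀ h0a (min_le_right _ _) n
  have hdiff : 0 ≤ pt n a - pt n b := sub_nonneg.mpr (pow_le_pow_left₀ h0b hle n)
  -- (pt a - pt b) * ‖b‖ ≤ n 2^n ‖a-b‖
  have hkey : (pt n a - pt n b) * ‖b‖ ≤ (n * 2 ^ n) * ‖a - b‖ := by
    rcases le_or_gt 2 ‖b‖ with hb | hb
    · have : pt n a = pt n b := by
        unfold pt; rw [min_eq_right hb, min_eq_right (hb.trans hab)]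
      rw [this, sub_self, zero_mul]; positivity
    · have h1 : pt n a - pt n b ≤ n * 2 ^ (n - 1) * (min ‖a‖ 2 - min ‖b‖ 2) := by
        rcases Nat.eq_zero_or_pos n with hn | hn
        · subst hn; simp [pt]
        have hgeo := (Commute.all (min ‖a‖ 2) (min ‖b‖ 2)).mul_geom_sum₂ n
        have : pt n a - pt n b = (min ‖a‖ 2 - min ‖b‖ 2) *
            ∑ i ∈ Finset.range n, (min ‖a‖ 2) ^ i * (min ‖b‖ 2) ^ (n - 1 - i) := by
          unfold pt; rw [← hgeo]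
        rw [this, mul_comm]
        refine mul_le_mul_of_nonneg_right ?_ (by linarith)
        calc ∑ i ∈ Finset.range n, (min ‖a‖ 2) ^ i * (min ‖b‖ 2) ^ (n - 1 - i)
            ≤ ∑ i ∈ Finset.range n, (2:ℝ) ^ i * 2 ^ (n - 1 - i) := by
              refine Finset.sum_le_sum (fun i _ => ?_)
              exact mul_le_mul (pow_le_pow_left₀ h0a (min_le_right _ _) _)
                (pow_le_pow_left₀ h0b (min_le_right _ _) _) (by positivity) (by positivity)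
          _ = ∑ i ∈ Finset.range n, (2:ℝ) ^ (n - 1) := by
              refine Finset.sum_congr rfl (fun i hi => ?_)
              rw [← pow_add]
              congr 1
              have := Finset.mem_range.mp hi
              omega
          _ = n * 2 ^ (n - 1) := by simp
      have h2 : min ‖a‖ 2 - min ‖b‖ 2 ≤ ‖a - b‖ := by
        have h3 : min ‖b‖ 2 = ‖b‖ := min_eq_left hb.le
        have h4 : min ‖a‖ 2 ≤ ‖a‖ := min_le_left _ _
        have h5 := norm_sub_norm_le a b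
        rw [h3]; linarith
      rcases Nat.eq_zero_or_pos n with hn | hn
      · subst hn; simp [pt]
      have h6 : (2:ℝ) ^ n = 2 ^ (n - 1) * 2 := by
        rw [← pow_succ]; congr 1; omega
      calc (pt n a - pt n b) * ‖b‖ ≤ (n * 2 ^ (n - 1) * ‖a - b‖) * 2 := by
            refine mul_le_mul (h1.trans ?_) hb.le (norm_nonneg _) (by positivity)
            exact mul_le_mul_of_nonneg_left h2 (by positivity)
        _ = _ := by rw [h6]; ring
  have e : ((pt n a : ℝ) : ℂ) * a - ((pt n b : ℝ) : ℂ) * b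
      = ((pt n a : ℝ) : ℂ) * (a - b) + ((pt n a - pt n b : ℝ) : ℂ) * b := by
    push_cast; ring
  rw [e]
  calc ‖((pt n a : ℝ) : ℂ) * (a - b) + ((pt n a - pt n b : ℝ) : ℂ) * b‖
      ≤ pt n a * ‖a - b‖ + (pt n a - pt n b) * ‖b‖ := by
        refine (norm_add_le _ _).trans ?_
        rw [norm_mul, norm_mul, Complex.norm_real, Complex.norm_real, Real.norm_of_nonneg hpa0,
          Real.norm_of_nonneg hdiff]
    _ ≤ 2 ^ n * ‖a - b‖ + (n * 2 ^ n) * ‖a - b‖ :=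
        add_le_add (mul_le_mul_of_nonneg_right hpa (norm_nonneg _)) hkey
    _ = _ := by ring

theorem FF_lip (n : ℕ) {ρ om eps : ℝ} (hρ' : ρ ≤ 18 / 5) (hom : om ∈ Icc (1/5 : ℝ) (1/2))
    (heps : eps ∈ Icc (0:ℝ) 1) : ∀ r ∈ Icc 0 ρ, ∀ a b : ℂ,
    ‖FF (pt n) om eps r a - FF (pt n) om eps r b‖ ≤ ((n + 1) * 2 ^ n + 5) * ‖a - b‖ := by
  intro r hr a b
  have e : FF (pt n) om eps r a - FF (pt n) om eps r b =
      (((pt n a : ℝ) : ℂ) * a - ((pt n b : ℝ) : ℂ) * b)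
      - (((r ^ 2 / 16 + om : ℝ) : ℂ) + I * ((eps - 3 : ℝ) : ℂ)) * (a - b) := by
    unfold FF; ring
  rw [e]
  have h1 : ‖(((r ^ 2 / 16 + om : ℝ) : ℂ) + I * ((eps - 3 : ℝ) : ℂ))‖ ≤ 5 := by
    refine (norm_add_le _ _).trans ?_
    rw [norm_mul, Complex.norm_I, one_mul, Complex.norm_real, Complex.norm_real,
      Real.norm_of_nonneg (by have := hom.1; positivity), Real.norm_eq_abs,
      abs_of_nonpos (by linarith [heps.2])]
    have : r ^ 2 ≤ (18/5) ^ 2 := by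
      have := hr.1; have := hr.2; nlinarith
    have := hom.2
    have := heps.1
    nlinarith
  calc _ ≤ ‖((pt n a : ℝ) : ℂ) * a - ((pt n b : ℝ) : ℂ) * b‖ +
        ‖(((r ^ 2 / 16 + om : ℝ) : ℂ) + I * ((eps - 3 : ℝ) : ℂ)) * (a - b)‖ := norm_sub_le _ _
    _ ≤ ((n + 1) * 2 ^ n) * ‖a - b‖ + 5 * ‖a - b‖ := by
        refine add_le_add (pt_lip n a b) ?_
        rw [norm_mul]
        exact mul_le_mul_of_nonneg_right h1 (norm_nonneg _)
    _ = _ := by ring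

theorem re_conj_FF (p : ℂ → ℝ) (om eps r : ℝ) (a : ℂ) :
    ((starRingEnd ℂ) a * FF p om eps r a).re = (p a - (r ^ 2 / 16 + om)) * ‖a‖ ^ 2 := by
  rw [← Complex.normSq_eq_norm_sq, Complex.normSq_apply]
  unfold FF
  simp only [Complex.mul_re, Complex.sub_re, Complex.sub_im, Complex.add_re, Complex.add_im,
    Complex.mul_im, Complex.ofReal_re, Complex.ofReal_im, Complex.conj_re, Complex.conj_im,
    Complex.I_re, Complex.I_im]
  ring

/-- the threshold constant `om + ρ²/16` -/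
theorem c0_bound {ρ om : ℝ} (hρ : 0 < ρ) (hρ' : ρ ≤ 18 / 5) (hom : om ∈ Icc (1/5 : ℝ) (1/2)) :
    0 < om + ρ ^ 2 / 16 ∧ om + ρ ^ 2 / 16 < 3 / 2 := by
  have h1 : ρ ^ 2 ≤ (18/5) ^ 2 := by nlinarith
  have := hom.1
  have := hom.2
  constructor
  · positivity
  · nlinarith

/-- the `n`-th root threshold -/
theorem exists_kappa (n : ℕ) (hn : 2 ≤ n) {c : ℝ} (hc : 0 < c) (hc' : c < 3 / 2) :
    ∃ κ : ℝ, 0 < κ ∧ κ < 2 ∧ κ ^ n = c := by
  refine ⟨c ^ ((n : ℝ)⁻¹), Real.rpow_pos_of_pos hc _, ?_, ?_⟩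
  · have h1 : (c ^ ((n : ℝ)⁻¹)) ^ n = c := Real.rpow_inv_natCast_pow hc.le (by omega)
    have h2 : (c ^ ((n : ℝ)⁻¹)) ^ n < 2 ^ n := by
      rw [h1]
      calc c < 2 := by linarith
        _ = 2 ^ 1 := by norm_num
        _ ≤ 2 ^ n := pow_le_pow_right₀ (by norm_num) (by omega)
    exact lt_of_pow_lt_pow_left₀ n (by norm_num) h2
  · exact Real.rpow_inv_natCast_pow hc.le (by omega)

/-- a-priori bound for gauged solutions with factor `p` satisfying `p ≥ c0` beyond `κ` -/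
theorem gauged_bound {p : ℂ → ℝ} {ρ om eps κ : ℝ} (hρ : 0 < ρ) {w w1 : ℝ → ℂ}
    (hw : ContinuousOn w (Icc 0 ρ)) (hw1 : ContinuousOn w1 (Icc 0 ρ))
    (der : ∀ r ∈ Ioo 0 ρ, HasDerivAt w (w1 r) r)
    (der1 : ∀ r ∈ Ioo 0 ρ, HasDerivAt w1 (FF p om eps r (w r) - (11 / r : ℂ) * w1 r) r)
    (hp : ∀ a : ℂ, κ < ‖a‖ → om + ρ ^ 2 / 16 ≤ p a) :
    ∀ r ∈ Icc 0 ρ, ‖w r‖ ≤ max ‖w ρ‖ κ := by
  refine max_principle hρ hw hw1 der der1 (fun r hr a ha => ?_)
  rw [re_conj_FF]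
  refine mul_nonneg ?_ (by positivity)
  have h1 := hp a ha
  have h2 : r ^ 2 ≤ ρ ^ 2 := by have := hr.1; have := hr.2; nlinarith
  linarith

/-- gauge a solution on `[0,ρ]` -/
theorem gauged {n : ℕ} {ρ om eps : ℝ} {v v1 : ℝ → ℂ}
    (hv : ContinuousOn v (Icc 0 ρ)) (hv1 : ContinuousOn v1 (Icc 0 ρ))
    (hsol : B.IsSol n om eps v v1 (Ioo 0 ρ)) :
    ContinuousOn (fun x => ph x * v x) (Icc 0 ρ) ∧
    ContinuousOn (fun x : ℝ => ph x * (v1 x + I * (x / 4 : ℂ) * v x)) (Icc 0 ρ) ∧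
    (∀ r ∈ Ioo 0 ρ, HasDerivAt (fun x => ph x * v x) (ph r * (v1 r + I * (r / 4 : ℂ) * v r)) r) ∧
    (∀ r ∈ Ioo 0 ρ, HasDerivAt (fun x : ℝ => ph x * (v1 x + I * (x / 4 : ℂ) * v x))
      (FF (fun a => ‖a‖ ^ n) om eps r (ph r * v r) -
        (11 / r : ℂ) * (ph r * (v1 r + I * (r / 4 : ℂ) * v r))) r) := by
  refine ⟨ph_continuous.continuousOn.mul hv, ph_continuous.continuousOn.mul
    (hv1.add (ContinuousOn.mul (by fun_prop) hv)), fun r hr => ?_, fun r hr => ?_⟩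
  · exact (gauge_der hr.1.ne' (fun r' hr' => by rw [mem_singleton_iff.mp hr']; exact hsol r hr)).1
  · exact (gauge_der hr.1.ne' (fun r' hr' => by rw [mem_singleton_iff.mp hr']; exact hsol r hr)).2

/-- **A-priori bound for `P = ‖v‖^n`**, any solution. -/
theorem apriori_P (n : ℕ) (hn : 2 ≤ n) {ρ om eps : ℝ} (hρ : 0 < ρ) (hρ' : ρ ≤ 18 / 5)
    (hom : om ∈ Icc (1/5 : ℝ) (1/2)) {v v1 : ℝ → ℂ}
    (hv : ContinuousOn v (Icc 0 ρ)) (hv1 : ContinuousOn v1 (Icc 0 ρ))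
    (hsol : B.IsSol n om eps v v1 (Ioo 0 ρ)) :
    ∀ r ∈ Icc 0 ρ, ‖v r‖ ^ n ≤ max (‖v ρ‖ ^ n) (om + ρ ^ 2 / 16) := by
  obtain ⟨hc, hc'⟩ := c0_bound hρ hρ' hom
  obtain ⟨κ, hκ0, _, hκn⟩ := exists_kappa n hn hc hc'
  obtain ⟨h1, h2, h3, h4⟩ := gauged hv hv1 hsol
  have hb := gauged_bound (κ := κ) hρ h1 h2 h3 h4 (fun a ha => by
    rw [← hκn]; exact pow_le_pow_left₀ hκ0.le ha.le n)
  intro r hr
  have h5 := hb r hr
  rw [norm_mul, norm_mul, norm_ph, norm_ph, one_mul, one_mul] at h5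
  calc ‖v r‖ ^ n ≤ (max ‖v ρ‖ κ) ^ n := pow_le_pow_left₀ (norm_nonneg _) h5 n
    _ ≤ max (‖v ρ‖ ^ n) (om + ρ ^ 2 / 16) := by
        rcases le_total ‖v ρ‖ κ with h | h
        · rw [max_eq_right h, hκn]; exact le_max_right _ _
        · rw [max_eq_left h]; exact le_max_left _ _

/-- **A-priori bound for `v` and `v'`**, any solution with `‖v ρ‖ ≤ 1`, `v' 0 = 0`. -/
theorem apriori_v1 (n : ℕ) (hn : 2 ≤ n) {ρ om eps : ℝ} (hρ : 0 < ρ) (hρ' : ρ ≤ 18 / 5)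
    (hom : om ∈ Icc (1/5 : ℝ) (1/2)) (heps : eps ∈ Icc (0:ℝ) 1) {v v1 : ℝ → ℂ}
    (hv : ContinuousOn v (Icc 0 ρ)) (hv1 : ContinuousOn v1 (Icc 0 ρ)) (hv10 : v1 0 = 0)
    (hsol : B.IsSol n om eps v v1 (Ioo 0 ρ)) (hb : ‖v ρ‖ ≤ 1) :
    (∀ r ∈ Icc 0 ρ, ‖v r‖ ^ n ≤ 3 / 2) ∧ (∀ r ∈ Icc 0 ρ, ‖v r‖ ≤ 2) ∧
      ∀ r ∈ Icc 0 ρ, ‖v1 r‖ ≤ 2 * r := by
  obtain ⟨hc, hc'⟩ := c0_bound hρ hρ' hom
  have hP : ∀ r ∈ Icc 0 ρ, ‖v r‖ ^ n ≤ 3 / 2 := by
    intro r hr
    refine (apriori_P n hn hρ hρ' hom hv hv1 hsol r hr).trans (max_le ?_ hc'.le)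
    exact (pow_le_one₀ (norm_nonneg _) hb).trans (by norm_num)
  have hv2 : ∀ r ∈ Icc 0 ρ, ‖v r‖ ≤ 2 := by
    intro r hr
    by_contra hcon
    push Not at hcon
    have h1 : (2:ℝ) ^ n ≤ ‖v r‖ ^ n := pow_le_pow_left₀ (by norm_num) hcon.le n
    have h2 : (2:ℝ) ^ 1 ≤ 2 ^ n := pow_le_pow_right₀ (by norm_num) (by omega)
    have h3 := hP r hr
    linarith
  refine ⟨hP, hv2, ?_⟩
  obtain ⟨h1, h2, h3, h4⟩ := gauged hv hv1 hsol
  have hFc : Continuous (fun q : ℝ × ℂ => FF (fun a : ℂ => ‖a‖ ^ n) om eps q.1 q.2) :=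
    FF_continuous (by fun_prop) om eps
  have hreg : Reg ρ (FF (fun a : ℂ => ‖a‖ ^ n) om eps) (fun x => ph x * v x)
      (fun x : ℝ => ph x * (v1 x + I * (x / 4 : ℂ) * v x)) :=
    ⟨h1, h2, by simp [hv10], h3, h4⟩
  intro r hr
  have e := hreg.w1_eq hFc r hr
  have hg : ∀ t ∈ Icc 0 r, ‖gcl ρ (FF (fun a : ℂ => ‖a‖ ^ n) om eps) (fun x => ph x * v x) t‖ ≤ 9 := by
    intro t ht
    have ht' : t ∈ Icc 0 ρ := ⟨ht.1, ht.2.trans hr.2⟩
    unfold gcl
    rw [cl_eq ht']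
    unfold FF
    simp only [norm_mul, norm_ph, one_mul]
    have ea : ((‖v t‖ ^ n : ℝ) : ℂ) * (ph t * v t)
        - (((t ^ 2 / 16 + om : ℝ) : ℂ) + I * ((eps - 3 : ℝ) : ℂ)) * (ph t * v t)
        = ((((‖v t‖ ^ n - (t ^ 2 / 16 + om)) : ℝ) : ℂ) - I * ((eps - 3 : ℝ) : ℂ)) * (ph t * v t) := by
      push_cast; ring
    rw [ea, norm_mul, norm_mul, norm_ph, one_mul]
    have hb1 : ‖((((‖v t‖ ^ n - (t ^ 2 / 16 + om)) : ℝ) : ℂ) - I * ((eps - 3 : ℝ) : ℂ))‖ ≤ 9 / 2 := by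
      refine (norm_sub_le _ _).trans ?_
      rw [norm_mul, Complex.norm_I, one_mul, Complex.norm_real, Complex.norm_real,
        Real.norm_eq_abs, Real.norm_eq_abs]
      have hA : |‖v t‖ ^ n - (t ^ 2 / 16 + om)| ≤ 3 / 2 := by
        have q1 := hP t ht'
        have q2 : 0 ≤ ‖v t‖ ^ n := by positivity
        have q3 : t ^ 2 ≤ ρ ^ 2 := by have := ht'.1; have := ht'.2; nlinarith
        have q4 := hom.1
        have q5 : 0 ≤ t ^ 2 := by positivity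
        rw [abs_le]
        constructor <;> linarith
      have hB : |eps - 3| ≤ 3 := by
        rw [abs_le]; constructor <;> linarith [heps.1, heps.2]
      linarith
    calc _ ≤ 9 / 2 * 2 := mul_le_mul hb1 (hv2 t ht') (norm_nonneg _) (by norm_num)
      _ = 9 := by norm_num
  have hb2 := norm_avg_le' hr.1 hg
  rw [← e] at hb2
  have e2 : v1 r = (ph r)⁻¹ * (ph r * (v1 r + I * (r / 4 : ℂ) * v r)) - I * (r / 4 : ℂ) * v r := by
    have := ph_ne r
    field_simp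
    ring
  have e3 : ‖I * (r / 4 : ℂ) * v r‖ ≤ r / 4 * 2 := by
    have : (r / 4 : ℂ) = ((r / 4 : ℝ) : ℂ) := by push_cast; rfl
    rw [norm_mul, norm_mul, Complex.norm_I, one_mul, this, Complex.norm_real,
      Real.norm_of_nonneg (by have := hr.1; positivity)]
    exact mul_le_mul_of_nonneg_left (hv2 r hr) (by have := hr.1; positivity)
  rw [e2]
  refine (norm_sub_le _ _).trans ?_
  rw [norm_mul, norm_inv, norm_ph, inv_one, one_mul]
  have := hr.1
  linarith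

/-- **Existence for the interior problem** (I1). -/
theorem exists_bvp (n : ℕ) (hn : 2 ≤ n) (rho om eps : ℝ) (hρ : 0 < rho) (hρ' : rho ≤ 18 / 5)
    (hom : om ∈ Icc (1/5 : ℝ) (1/2)) (heps : eps ∈ Icc (0:ℝ) 1) (b : ℂ) (hb : ‖b‖ ≤ 1) :
    ∃ v v1 : ℝ → ℂ, ContinuousOn v (Icc 0 rho) ∧ ContinuousOn v1 (Icc 0 rho) ∧ v1 0 = 0 ∧
      B.IsSol n om eps v v1 (Ioo 0 rho) ∧ v rho = b ∧
      (∀ r ∈ Icc 0 rho, ‖v r‖ ^ n ≤ max (‖b‖ ^ n) (om + rho ^ 2 / 16)) ∧
      (∀ r ∈ Icc 0 rho, ‖v1 r‖ ≤ 8 * r) := by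
  obtain ⟨hc, hc'⟩ := c0_bound hρ hρ' hom
  obtain ⟨κ, hκ0, hκ2, hκn⟩ := exists_kappa n hn hc hc'
  have hFc : Continuous (fun q : ℝ × ℂ => FF (pt n) om eps q.1 q.2) :=
    FF_continuous (pt_continuous n) om eps
  have hK : (0:ℝ) ≤ (n + 1) * 2 ^ n + 5 := by positivity
  have hLip := FF_lip n hρ' hom heps
  choose W W1 hReg hW0 hWc hW1c using fun a : ℝ => exists_reg hρ hFc hK hLip ((a : ℂ))
  have hp : ∀ a : ℂ, κ < ‖a‖ → om + rho ^ 2 / 16 ≤ pt n a := by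
    intro a ha
    rw [← hκn]
    exact pow_le_pow_left₀ hκ0.le (le_min ha.le hκ2.le) n
  have hmaxW : ∀ a : ℝ, ∀ r ∈ Icc 0 rho, ‖W a r‖ ≤ max ‖W a rho‖ κ := fun a =>
    gauged_bound hρ (hReg a).cont (hReg a).cont1 (hReg a).der (hReg a).der1 hp
  have hmemρ : rho ∈ Icc 0 rho := ⟨hρ.le, le_rfl⟩
  have hmem0 : (0:ℝ) ∈ Icc 0 rho := ⟨le_rfl, hρ.le⟩
  -- continuity of the shooting map
  set C : ℝ := 2 * Real.exp ((2 * rho * ((n + 1) * 2 ^ n + 5) + 1) * rho) with hC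
  have hdist : ∀ a a' : ℝ, ‖W a rho - W a' rho‖ ≤ C * |a - a'| := by
    intro a a'
    have := reg_dist (δ := 0) hρ hFc hFc hK hLip (hReg a) (hReg a') (fun r _ => by simp) rho hmemρ
    rw [hW0, hW0, mul_zero, add_zero, ← Complex.ofReal_sub, Complex.norm_real, Real.norm_eq_abs] at this
    exact this
  have hcont : Continuous (fun a : ℝ => ‖W a rho‖) := by
    refine continuous_norm.comp ?_
    have : LipschitzWith (Real.toNNReal C) (fun a : ℝ => W a rho) := by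
      refine LipschitzWith.of_dist_le_mul (fun a a' => ?_)
      rw [dist_eq_norm, Real.dist_eq, Real.coe_toNNReal _ (by positivity)]
      exact hdist a a'
    exact this.continuous
  -- zero solution
  have hzero : ‖W 0 rho‖ = 0 := by
    have hz : Reg rho (FF (pt n) om eps) (fun _ => 0) (fun _ => 0) := by
      refine ⟨continuousOn_const, continuousOn_const, rfl, fun r _ => hasDerivAt_const r 0, fun r _ => ?_⟩
      have : FF (pt n) om eps r 0 - (11 / r : ℂ) * 0 = 0 := by simp [FF]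
      rw [this]
      exact hasDerivAt_const r 0
    have := reg_dist (δ := 0) hρ hFc hFc hK hLip (hReg 0) hz (fun r _ => by simp) rho hmemρ
    rw [hW0] at this
    simp only [sub_zero, Complex.ofReal_zero, norm_zero, mul_zero, add_zero] at this
    exact le_antisymm this (norm_nonneg _)
  have htwo : 1 ≤ ‖W 2 rho‖ := by
    have h1 := hmaxW 2 0 hmem0
    rw [hW0] at h1
    have h2 : ‖((2:ℝ) : ℂ)‖ = 2 := by simp
    rw [h2] at h1
    rcases le_max_iff.mp h1 with h | h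
    · linarith
    · linarith
  obtain ⟨a, _, haw⟩ := intermediate_value_Icc (show (0:ℝ) ≤ 2 by norm_num) hcont.continuousOn
    (show ‖b‖ ∈ Icc ‖W 0 rho‖ ‖W 2 rho‖ from ⟨by rw [hzero]; exact norm_nonneg _, hb.trans htwo⟩)
  simp only at haw
  -- phase
  obtain ⟨c, hc1, hcb⟩ : ∃ c : ℂ, ‖c‖ = 1 ∧ c * W a rho = ph rho * b := by
    by_cases h0 : W a rho = 0
    · refine ⟨1, norm_one, ?_⟩
      rw [h0, norm_zero] at haw
      have : b = 0 := norm_eq_zero.mp haw.symm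
      rw [h0, this]; simp
    · refine ⟨ph rho * b / W a rho, ?_, by field_simp⟩
      rw [norm_div, norm_mul, norm_ph, one_mul, haw]
      exact div_self (by rw [← haw]; exact norm_ne_zero_iff.mpr h0)
  have hcn : ∀ x : ℂ, ‖c * x‖ = ‖x‖ := fun x => by rw [norm_mul, hc1, one_mul]
  set w : ℝ → ℂ := fun r => c * W a r with hw
  set w1 : ℝ → ℂ := fun r => c * W1 a r with hw1
  have hwbound : ∀ r ∈ Icc 0 rho, ‖w r‖ ≤ 2 := by
    intro r hr
    rw [hw]
    simp only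
    rw [hcn]
    refine (hmaxW a r hr).trans (max_le ?_ hκ2.le)
    rw [haw]; linarith
  have hpt : ∀ r ∈ Icc 0 rho, pt n (w r) = ‖w r‖ ^ n := by
    intro r hr
    unfold pt
    rw [min_eq_left (hwbound r hr)]
  have hwder : ∀ r ∈ Ioo 0 rho, HasDerivAt w (w1 r) r := fun r hr => ((hReg a).der r hr).const_mul c
  have hw1der : ∀ r ∈ Ioo 0 rho, HasDerivAt w1
      (FF (fun a => ‖a‖ ^ n) om eps r (w r) - (11 / r : ℂ) * w1 r) r := by
    intro r hr
    refine (((hReg a).der1 r hr).const_mul c).congr_deriv ?_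
    have h1 : pt n (W a r) = ‖w r‖ ^ n := by
      rw [← hpt r ⟨hr.1.le, hr.2.le⟩, hw]
      unfold pt
      simp only
      rw [hcn]
    unfold FF
    simp only [h1, hw, hw1]
    ring
  have hwc : ContinuousOn w (Icc 0 rho) := continuousOn_const.mul (hReg a).cont
  have hw1c : ContinuousOn w1 (Icc 0 rho) := continuousOn_const.mul (hReg a).cont1
  have hphi : ContinuousOn (fun x => (ph x)⁻¹) (Icc 0 rho) :=
    (ph_continuous.inv₀ ph_ne).continuousOn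
  have hvc : ContinuousOn (fun x => (ph x)⁻¹ * w x) (Icc 0 rho) := hphi.mul hwc
  have hv1c : ContinuousOn (fun x : ℝ => (ph x)⁻¹ * (w1 x - I * (x / 4 : ℂ) * w x)) (Icc 0 rho) :=
    hphi.mul (hw1c.sub (ContinuousOn.mul (by fun_prop) hwc))
  have hv10 : (fun x : ℝ => (ph x)⁻¹ * (w1 x - I * (x / 4 : ℂ) * w x)) 0 = 0 := by
    simp [hw1, (hReg a).w1_zero]
  have hsol : B.IsSol n om eps (fun x => (ph x)⁻¹ * w x)
      (fun x : ℝ => (ph x)⁻¹ * (w1 x - I * (x / 4 : ℂ) * w x)) (Ioo 0 rho) := by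
    intro r hr
    exact ungauge_der hr.1.ne' (hwder r hr) (hw1der r hr) r rfl
  have hvρ : (fun x => (ph x)⁻¹ * w x) rho = b := by
    simp only [hw, hcb]
    have := ph_ne rho
    field_simp
  have hvρ' : (ph rho)⁻¹ * w rho = b := hvρ
  refine ⟨_, _, hvc, hv1c, hv10, hsol, hvρ, ?_, ?_⟩
  · have := apriori_P n hn hρ hρ' hom hvc hv1c hsol
    rw [hvρ'] at this
    exact this
  · intro r hr
    have := (apriori_v1 n hn hρ hρ' hom heps hvc hv1c hv10 hsol (by rw [hvρ']; exact hb)).2.2 r hr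
    refine this.trans ?_
    have := hr.1
    linarith

end Crest.Agent.R086.Core
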