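import Crest.Agent.R086.BMono
import Crest.Agent.R086.CoreEx

/-!
Row 86, part B, item (I2): `v'(ρ)` of the interior solution depends (uniformly) continuously on
`(om, b)`, `b = v(ρ)` (owner helper548).  From `B.cmp`, `B.interp` (helper392) and `Core.apriori_v1` (helper702).
-/

set_option autoImplicit false

open Complex Set

namespace Crest.Agent.R086.BC

/-- `v1` of any interior solution is `41`-Lipschitz on `[0, ρ]` -/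
theorem lip_v1 (n : ℕ) (hn : 2 ≤ n) {ρ om eps : ℝ} (hρ : 0 < ρ) (hρ' : ρ ≤ 18 / 5)
    (hom : om ∈ Icc (1/5 : ℝ) (1/2)) (heps : eps ∈ Icc (0:ℝ) 1) {v v1 : ℝ → ℂ}
    (hv : ContinuousOn v (Icc 0 ρ)) (hv1 : ContinuousOn v1 (Icc 0 ρ)) (hv10 : v1 0 = 0)
    (hsol : B.IsSol n om eps v v1 (Ioo 0 ρ)) (hb : ‖v ρ‖ ≤ 1) :
    ∀ x ∈ Icc 0 ρ, ∀ y ∈ Icc 0 ρ, ‖v1 x - v1 y‖ ≤ 41 * |x - y| := by
  obtain ⟨hP, h2, h3⟩ := Core.apriori_v1 n hn hρ hρ' hom heps hv hv1 hv10 hsol hb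
  have key : ∀ x ∈ Icc 0 ρ, ∀ y ∈ Icc 0 ρ, x ≤ y → ‖v1 y - v1 x‖ ≤ 41 * (y - x) := by
    intro x hx y hy hxy
    refine B.mvt_norm (c := -1) hxy (hv1.mono (Icc_subset_Icc hx.1 hy.2))
      (fun r hr _ => (hsol r ⟨hx.1.trans_lt hr.1, hr.2.trans_le hy.2⟩).2) ?_
    intro r hr _
    have hr0 : 0 < r := hx.1.trans_lt hr.1
    have hrρ : r ≤ ρ := (hr.2.trans_le hy.2).le
    have hrI : r ∈ Icc 0 ρ := ⟨hr0.le, hrρ⟩
    have a1 : ‖(11 / (r : ℂ) + I * r / 2)‖ ≤ 11 / r + r / 2 := by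
      refine (norm_add_le _ _).trans (add_le_add ?_ ?_)
      · rw [norm_div, Complex.norm_real, Real.norm_of_nonneg hr0.le]
        norm_num
      · rw [norm_div, norm_mul, Complex.norm_I, one_mul, Complex.norm_real,
          Real.norm_of_nonneg hr0.le]
        norm_num
    have a2 : ‖((om : ℂ) + I * eps)‖ ≤ 3 / 2 := by
      refine (norm_add_le _ _).trans ?_
      rw [norm_mul, Complex.norm_I, one_mul, Complex.norm_real, Complex.norm_real,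
        Real.norm_of_nonneg heps.1, Real.norm_of_nonneg (by linarith [hom.1])]
      linarith [hom.2, heps.2]
    have a3 : ‖(((‖v r‖ ^ n : ℝ) : ℂ))‖ ≤ 3 / 2 := by
      rw [Complex.norm_real, Real.norm_of_nonneg (by positivity)]
      exact hP r hrI
    have b1 : ‖-(11 / (r : ℂ) + I * r / 2) * v1 r‖ ≤ (11 / r + r / 2) * (2 * r) := by
      rw [norm_mul, norm_neg]
      exact mul_le_mul a1 (h3 r hrI) (norm_nonneg _) (by positivity)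
    have b2 : ‖((om : ℂ) + I * eps) * v r‖ ≤ 3 / 2 * 2 := by
      rw [norm_mul]
      exact mul_le_mul a2 (h2 r hrI) (norm_nonneg _) (by norm_num)
    have b3 : ‖((‖v r‖ ^ n : ℝ) : ℂ) * v r‖ ≤ 3 / 2 * 2 := by
      rw [norm_mul]
      exact mul_le_mul a3 (h2 r hrI) (norm_nonneg _) (by norm_num)
    have b4 : (11 / r + r / 2) * (2 * r) = 22 + r ^ 2 := by
      field_simp
      ring
    have b5 : r ^ 2 ≤ 13 := by nlinarith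
    calc _ ≤ ‖-(11 / (r : ℂ) + I * r / 2) * v1 r - ((om : ℂ) + I * eps) * v r‖ +
          ‖((‖v r‖ ^ n : ℝ) : ℂ) * v r‖ := norm_add_le _ _
      _ ≤ (‖-(11 / (r : ℂ) + I * r / 2) * v1 r‖ + ‖((om : ℂ) + I * eps) * v r‖) +
          ‖((‖v r‖ ^ n : ℝ) : ℂ) * v r‖ := by gcongr; exact norm_sub_le _ _
      _ ≤ 41 := by linarith
  intro x hx y hy
  rcases le_total x y with h | h
  · rw [norm_sub_rev, abs_sub_comm, abs_of_nonneg (by linarith : 0 ≤ y - x)]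
    exact key x hx y hy h
  · rw [abs_of_nonneg (by linarith : 0 ≤ x - y)]
    exact key y hy x hx h

/-- **(I2)**, uniform version: modulus of continuity of `(om, b) ↦ v1(ρ)`, independent of `n`. -/
theorem cont_v1 {ρ eps : ℝ} (hρ : 0 < ρ) (hρ' : ρ ≤ 18 / 5) (heps : eps ∈ Icc (0:ℝ) 1)
    {eta : ℝ} (heta : 0 < eta) : ∃ del : ℝ, 0 < del ∧ ∀ n : ℕ, 2 ≤ n →
      ∀ om ∈ Icc (1/5 : ℝ) (1/2), ∀ om2 ∈ Icc (1/5 : ℝ) (1/2), ∀ b b2 : ℂ, ‖b‖ ≤ 1 → ‖b2‖ ≤ 1 →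
      |om2 - om| ≤ del → ‖b2 - b‖ ≤ del →
      ∀ v v1 w w1 : ℝ → ℂ,
        ContinuousOn v (Icc 0 ρ) → ContinuousOn v1 (Icc 0 ρ) → v1 0 = 0 →
        B.IsSol n om eps v v1 (Ioo 0 ρ) → v ρ = b →
        ContinuousOn w (Icc 0 ρ) → ContinuousOn w1 (Icc 0 ρ) → w1 0 = 0 →
        B.IsSol n om2 eps w w1 (Ioo 0 ρ) → w ρ = b2 →
        ∀ r ∈ Icc (ρ / 2) ρ, ‖w r - v r‖ ≤ eta ∧ ‖w1 r - v1 r‖ ≤ eta := by
  set h : ℝ := min (ρ / 4) (eta / 200) with hh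
  have hh0 : 0 < h := by rw [hh]; positivity
  have hh1 : h ≤ ρ / 4 := min_le_left _ _
  have hh2 : h ≤ eta / 200 := min_le_right _ _
  set d : ℝ := min eta (eta * h / 4) with hd
  have hd0 : 0 < d := by rw [hd]; positivity
  have hd1 : d ≤ eta := min_le_left _ _
  have hd2 : d ≤ eta * h / 4 := min_le_right _ _
  refine ⟨min 1 (d ^ 2 / 2560), by positivity, ?_⟩
  intro n hn om hom om2 hom2 b b2 hb hb2 hdom hdb v v1 w w1 hv hv1 hv10 hs hvb hw hw1 hw10 hS hwb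
  have e1 : |om2 - om| ≤ 1 := hdom.trans (min_le_left _ _)
  have e2 : |om2 - om| ≤ d ^ 2 / 2560 := hdom.trans (min_le_right _ _)
  have e3 : ‖b2 - b‖ ≤ 1 := hdb.trans (min_le_left _ _)
  have e4 : ‖b2 - b‖ ≤ d ^ 2 / 2560 := hdb.trans (min_le_right _ _)
  have hb' : ‖v ρ‖ ≤ 1 := by rw [hvb]; exact hb
  have hb2' : ‖w ρ‖ ≤ 1 := by rw [hwb]; exact hb2
  obtain ⟨_, hv2, _⟩ := Core.apriori_v1 n hn hρ hρ' hom heps hv hv1 hv10 hs hb'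
  obtain ⟨_, hw2, _⟩ := Core.apriori_v1 n hn hρ hρ' hom2 heps hw hw1 hw10 hS hb2'
  have hc := B.cmp (K := 2) hρ hρ' hom2.2 hw hw1 hv hv1 hS hs hw2 hv2
  have hdist : ∀ r ∈ Icc (ρ / 2) ρ, ‖w r - v r‖ ≤ d := by
    intro r hr
    have hr0 : 0 < r := by linarith [hr.1]
    have h1 := hc r ⟨hr0.le, hr.2⟩
    rw [hvb, hwb] at h1
    have h2 : (ρ / 2) ^ 10 ≤ r ^ 10 := pow_le_pow_left₀ (by positivity) hr.1 10
    have h3 : (ρ / 2) ^ 10 * ‖w r - v r‖ ^ 2 ≤ r ^ 10 * ‖w r - v r‖ ^ 2 :=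
      mul_le_mul_of_nonneg_right h2 (by positivity)
    have h4 : ‖b2 - b‖ ^ 2 ≤ d ^ 2 / 2560 := by
      calc ‖b2 - b‖ ^ 2 = ‖b2 - b‖ * ‖b2 - b‖ := sq _
        _ ≤ 1 * (d ^ 2 / 2560) := mul_le_mul e3 e4 (norm_nonneg _) zero_le_one
        _ = _ := one_mul _
    have h5 : ρ ^ 2 ≤ 13 := by nlinarith
    have h6 : 2 * (2:ℝ) ^ 2 * |om2 - om| * ρ ^ 12 / 72 ≤ ρ ^ 10 * (3 / 2 * (d ^ 2 / 2560)) := by
      have : 2 * (2:ℝ) ^ 2 * |om2 - om| * ρ ^ 12 / 72 = ρ ^ 10 * (ρ ^ 2 * |om2 - om| / 9) := by ring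
      rw [this]
      refine mul_le_mul_of_nonneg_left ?_ (by positivity)
      have : ρ ^ 2 * |om2 - om| ≤ 13 * (d ^ 2 / 2560) :=
        mul_le_mul h5 e2 (abs_nonneg _) (by norm_num)
      nlinarith [sq_nonneg d]
    have h7 : ρ ^ 10 * ‖b2 - b‖ ^ 2 ≤ ρ ^ 10 * (d ^ 2 / 2560) :=
      mul_le_mul_of_nonneg_left h4 (by positivity)
    have h8 : (ρ / 2) ^ 10 * ‖w r - v r‖ ^ 2 ≤ (ρ / 2) ^ 10 * d ^ 2 := by
      have : ρ ^ 10 * (d ^ 2 / 2560) + ρ ^ 10 * (3 / 2 * (d ^ 2 / 2560)) =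
          (ρ / 2) ^ 10 * d ^ 2 := by ring
      linarith
    have h9 : ‖w r - v r‖ ^ 2 ≤ d ^ 2 := le_of_mul_le_mul_left h8 (by positivity)
    exact (le_abs_self _).trans (abs_le_of_sq_le_sq h9 hd0.le)
  have hL1 := lip_v1 n hn hρ hρ' hom heps hv hv1 hv10 hs hb'
  have hL2 := lip_v1 n hn hρ hρ' hom2 heps hw hw1 hw10 hS hb2'
  have hI := B.interp (f := fun r => w r - v r) (f1 := fun r => w1 r - v1 r) (a := ρ / 2) (b := ρ)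
    (c := -1) (L := 82) (d := d) (h := h)
    ((hw.sub hv).mono (Icc_subset_Icc (by positivity) le_rfl))
    (fun x hx _ => (hS x ⟨by linarith [hx.1], hx.2⟩).1.sub (hs x ⟨by linarith [hx.1], hx.2⟩).1)
    (fun x hx y hy => by
      have hx' : x ∈ Icc 0 ρ := ⟨by linarith [hx.1], hx.2⟩
      have hy' : y ∈ Icc 0 ρ := ⟨by linarith [hy.1], hy.2⟩
      have : w1 x - v1 x - (w1 y - v1 y) = (w1 x - w1 y) - (v1 x - v1 y) := by ring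
      rw [this]
      refine (norm_sub_le _ _).trans ?_
      linarith [hL1 x hx' y hy', hL2 x hx' y hy'])
    hdist hh0 (by linarith)
  intro r hr
  refine ⟨(hdist r hr).trans hd1, (hI r hr).trans ?_⟩
  have h1 : 2 * d / h ≤ eta / 2 := by
    rw [div_le_iff₀ hh0]
    linarith
  linarith

/-- **(I2)** in the form consumed by `BMatchMain` -/
theorem cont_v1_at {n : ℕ} (hn : 2 ≤ n) {ρ eps om : ℝ} (hρ : 0 < ρ) (hρ' : ρ ≤ 18 / 5)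
    (heps : eps ∈ Icc (0:ℝ) 1) (hom : om ∈ Icc (1/5 : ℝ) (1/2)) {b : ℂ} (hb : ‖b‖ ≤ 1)
    {eta : ℝ} (heta : 0 < eta) : ∃ del : ℝ, 0 < del ∧
      ∀ om2 ∈ Icc (1/5 : ℝ) (1/2), ∀ b2 : ℂ, ‖b2‖ ≤ 1 → |om2 - om| ≤ del → ‖b2 - b‖ ≤ del →
      ∀ v v1 w w1 : ℝ → ℂ,
        ContinuousOn v (Icc 0 ρ) → ContinuousOn v1 (Icc 0 ρ) → v1 0 = 0 →
        B.IsSol n om eps v v1 (Ioo 0 ρ) → v ρ = b →
        ContinuousOn w (Icc 0 ρ) → ContinuousOn w1 (Icc 0 ρ) → w1 0 = 0 →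
        B.IsSol n om2 eps w w1 (Ioo 0 ρ) → w ρ = b2 → ‖w1 ρ - v1 ρ‖ ≤ eta := by
  obtain ⟨del, h0, h⟩ := cont_v1 hρ hρ' heps heta
  refine ⟨del, h0, fun om2 hom2 b2 hb2 h1 h2 v v1 w w1 a1 a2 a3 a4 a5 a6 a7 a8 a9 a10 => ?_⟩
  exact (h n hn om hom om2 hom2 b b2 hb hb2 h1 h2 v v1 w w1 a1 a2 a3 a4 a5 a6 a7 a8 a9 a10 ρ
    ⟨by linarith, le_rfl⟩).2

/-- any choice function of `v1(ρ)` is continuous in `(om, b)` -/
theorem continuousOn_choice {n : ℕ} (hn : 2 ≤ n) {ρ eps : ℝ} (hρ : 0 < ρ) (hρ' : ρ ≤ 18 / 5)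
    (heps : eps ∈ Icc (0:ℝ) 1) (F : ℝ × ℂ → ℂ)
    (hF : ∀ p : ℝ × ℂ, p.1 ∈ Icc (1/5 : ℝ) (1/2) → ‖p.2‖ ≤ 1 → ∃ v v1 : ℝ → ℂ,
      ContinuousOn v (Icc 0 ρ) ∧ ContinuousOn v1 (Icc 0 ρ) ∧ v1 0 = 0 ∧
      B.IsSol n p.1 eps v v1 (Ioo 0 ρ) ∧ v ρ = p.2 ∧ v1 ρ = F p) :
    ContinuousOn F {p : ℝ × ℂ | p.1 ∈ Icc (1/5 : ℝ) (1/2) ∧ ‖p.2‖ ≤ 1} := by
  intro p hp
  rw [Metric.continuousWithinAt_iff]
  intro e he
  obtain ⟨del, h0, h⟩ := cont_v1 hρ hρ' heps (half_pos he)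
  refine ⟨del, h0, fun {p2} hp2 hd => ?_⟩
  obtain ⟨v, v1, a1, a2, a3, a4, a5, a6⟩ := hF p hp.1 hp.2
  obtain ⟨w, w1, b1, b2, b3, b4, b5, b6⟩ := hF p2 hp2.1 hp2.2
  have hd' : max (dist p2.1 p.1) (dist p2.2 p.2) < del := hd
  have hd1 : |p2.1 - p.1| ≤ del := by
    rw [← Real.dist_eq]; exact ((le_max_left _ _).trans_lt hd').le
  have hd2 : ‖p2.2 - p.2‖ ≤ del := by
    rw [← dist_eq_norm]; exact ((le_max_right _ _).trans_lt hd').le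
  have := (h n hn p.1 hp.1 p2.1 hp2.1 p.2 p2.2 hp.2 hp2.2 hd1 hd2 v v1 w w1 a1 a2 a3 a4 a5
    b1 b2 b3 b4 b5 ρ ⟨by linarith, le_rfl⟩).2
  rw [dist_eq_norm, ← a6, ← b6]
  linarith

end Crest.Agent.R086.BC
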