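import Crest.Agent.R086.BDefs

/-!
Row 86, part B: interface of the exterior problem (captain of part B: helper514).
Only definitions.  `x = r^2/4`.
-/

set_option autoImplicit false

open Complex Set
open scoped ContDiff

namespace Crest.Agent.R086.B

/-- the profile equation in the variable `x = r^2/4`:
`x V'' + (6 + i x) V' + (om + i eps) V = |V|^n V` -/
def IsSolX (n : ℕ) (om eps : ℝ) (V V1 : ℝ → ℂ) (s : Set ℝ) : Prop :=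
  ∀ x ∈ s, HasDerivAt V (V1 x) x ∧
    HasDerivAt V1 ((-(6 + I * (x : ℂ)) * V1 x - ((om : ℂ) + I * eps) * V x +
      ((‖V x‖ ^ n : ℝ) : ℂ) * V x) / x) x

/-- the linear equation in the variable `x`: `x V'' + (6 + i x) V' + om V = 0` -/
def IsLinX (om : ℝ) (V V1 : ℝ → ℂ) (s : Set ℝ) : Prop :=
  ∀ x ∈ s, HasDerivAt V (V1 x) x ∧
    HasDerivAt V1 ((-(6 + I * (x : ℂ)) * V1 x - (om : ℂ) * V x) / x) x

/-- passage from `r` to `x` -/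
noncomputable def toX (v : ℝ → ℂ) (x : ℝ) : ℂ := v (2 * Real.sqrt x)

/-- the three potentials (without the factors `1 + n/2`, `n/2`), in any real variable -/
noncomputable def wA (n : ℕ) (V : ℝ → ℂ) (x : ℝ) : ℂ := ((‖V x‖ ^ n : ℝ) : ℂ)
noncomputable def wB (n : ℕ) (V : ℝ → ℂ) (x : ℝ) : ℂ := ((‖V x‖ ^ (n - 2) : ℝ) : ℂ) * (V x) ^ 2
noncomputable def wC (n : ℕ) (V : ℝ → ℂ) (x : ℝ) : ℂ :=
  ((‖V x‖ ^ (n - 2) : ℝ) : ℂ) * ((starRingEnd ℂ) (V x)) ^ 2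

/-- `w` is a symbol of order `-del` in `x` on `(X, oo)` with constants `C j` -/
def SymX (C : ℕ → ℝ) (del X : ℝ) (w : ℝ → ℂ) : Prop :=
  ContDiffOn ℝ ∞ w (Ioi X) ∧ ∀ j : ℕ, ∀ x, X < x → ‖iteratedDeriv j w x‖ ≤ C j * x ^ (-del - j)

/-- everything that is known of a profile `V` in the far region `x > X`;
`q < 1`, `c > 0` and `C` will be uniform in `n` -/
structure FarGood (n : ℕ) (q c X : ℝ) (C : ℕ → ℝ) (V : ℝ → ℂ) : Prop where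
  sym : SymX C (1 / n) X V
  lower : ∀ x, X < x → c ≤ ‖V x‖ * x ^ ((1 : ℝ) / n)
  upper : ∀ x, X < x → ‖V x‖ * x ^ ((1 : ℝ) / n) ≤ q
  symA : SymX (fun j => C j * q ^ n) 1 X (wA n V)
  symB : SymX (fun j => C j * q ^ n) 1 X (wB n V)
  symC : SymX (fun j => C j * q ^ n) 1 X (wC n V)

/-- FAR REGION (helper207).  Parameters `om ∈ [1/5,1/2]`, complex amplitude `k`, `kmin ≤ |k| ≤ kmax < 1`. -/
def FarStmt : Prop := ∀ kmin kmax : ℝ, 0 < kmin → kmin ≤ kmax → kmax < 1 →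
  ∃ (s q c : ℝ) (C : ℕ → ℝ) (V V1 : ℕ → ℝ → ℂ → ℝ → ℂ) (FL FL1 : ℝ → ℝ → ℂ),
    1 ≤ s ∧ 0 < q ∧ q < 1 ∧ 0 < c ∧
    (∀ om ∈ Icc (1/5 : ℝ) (1/2), IsLinX om (FL om) (FL1 om) (Ioi s) ∧
      Filter.Tendsto (fun x => ‖FL om x‖) Filter.atTop (nhds 1)) ∧
    -- uniqueness of the outgoing solution: holomorphic solutions of polynomial growth in the half plane
    (∀ om ∈ Icc (1/5 : ℝ) (1/2), ∀ G G1 : ℂ → ℂ,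
      (∀ z : ℂ, s < z.re → HasDerivAt G (G1 z) z ∧
        HasDerivAt G1 ((-(6 + I * z) * G1 z - (om : ℂ) * G z) / z) z) →
      (∃ (K : ℝ) (m : ℕ), ∀ z : ℂ, s < z.re → ‖G z‖ ≤ K * (1 + ‖z‖) ^ m ∧ ‖G1 z‖ ≤ K * (1 + ‖z‖) ^ m) →
      ∃ k : ℂ, ∀ x : ℝ, s < x → G x = k * FL om x) ∧
    (∀ x, s < x → ContinuousOn (fun om => FL om x) (Icc (1/5 : ℝ) (1/2)) ∧
      ContinuousOn (fun om => FL1 om x) (Icc (1/5 : ℝ) (1/2))) ∧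
    -- the nonlinear family
    (∀ n : ℕ, 2 ≤ n → Even n → ∀ om ∈ Icc (1/5 : ℝ) (1/2), ∀ k : ℂ, kmin ≤ ‖k‖ → ‖k‖ ≤ kmax →
      IsSolX n om (1 / n) (V n om k) (V1 n om k) (Ioi s) ∧
      FarGood n q c s C (V n om k)) ∧
    (∀ n : ℕ, 2 ≤ n → Even n → ∀ x, s < x →
      ContinuousOn (fun p : ℝ × ℂ => V n p.1 p.2 x)
        {p : ℝ × ℂ | p.1 ∈ Icc (1/5 : ℝ) (1/2) ∧ kmin ≤ ‖p.2‖ ∧ ‖p.2‖ ≤ kmax} ∧
      ContinuousOn (fun p : ℝ × ℂ => V1 n p.1 p.2 x)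
        {p : ℝ × ℂ | p.1 ∈ Icc (1/5 : ℝ) (1/2) ∧ kmin ≤ ‖p.2‖ ∧ ‖p.2‖ ≤ kmax}) ∧
    (∀ x₁, s < x₁ → ∀ η : ℝ, 0 < η → ∃ N : ℕ, ∀ n, N ≤ n → Even n → ∀ om ∈ Icc (1/5 : ℝ) (1/2),
      ∀ k : ℂ, kmin ≤ ‖k‖ → ‖k‖ ≤ kmax → ∀ x ∈ Ioc s x₁,
        ‖V n om k x - k * FL om x‖ ≤ η ∧ ‖V1 n om k x - k * FL1 om x‖ ≤ η)

/-- the linear outgoing family of part A, in the variable `r` (any normalisation) -/
structure OutFam (Uo Uo1 : ℝ → ℝ → ℂ) : Prop where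
  lin : ∀ om ∈ Icc (1/5 : ℝ) (1/2), IsLin om (Uo om) (Uo1 om) (Ioi 0)
  cont : ContinuousOn (fun p : ℝ × ℝ => Uo p.1 p.2) (Icc (1/5 : ℝ) (1/2) ×ˢ Ioi 0)
  cont1 : ContinuousOn (fun p : ℝ × ℝ => Uo1 p.1 p.2) (Icc (1/5 : ℝ) (1/2) ×ˢ Ioi 0)

/-- EXTERIOR (helper207 + helper514): parameters `om` near `om0`, complex amplitude `c` near `c0`. -/
def ExtStmt (om0 rho rX : ℝ) (c0 : ℂ) (Uo Uo1 : ℝ → ℝ → ℂ) : Prop :=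
  ∃ (del q cl X : ℝ) (C : ℕ → ℝ) (n1 : ℕ) (v v1 : ℕ → ℝ → ℂ → ℝ → ℂ),
    0 < del ∧ 0 < q ∧ q < 1 ∧ 0 < cl ∧ 1 ≤ X ∧ rX ^ 2 / 4 ≤ X ∧
    (∀ n : ℕ, n1 ≤ n → Even n → ∀ om : ℝ, |om - om0| ≤ del → ∀ c : ℂ, ‖c - c0‖ ≤ del →
      ContinuousOn (v n om c) (Ici rho) ∧ ContinuousOn (v1 n om c) (Ici rho) ∧
      IsSol n om (1 / n) (v n om c) (v1 n om c) (Ioi rho) ∧
      (∀ r, rho ≤ r → ‖v n om c r‖ ≤ q) ∧
      FarGood n q cl X C (toX (v n om c))) ∧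
    (∀ n : ℕ, n1 ≤ n → Even n →
      ContinuousOn (fun p : ℝ × ℂ => v n p.1 p.2 rho)
        {p : ℝ × ℂ | |p.1 - om0| ≤ del ∧ ‖p.2 - c0‖ ≤ del} ∧
      ContinuousOn (fun p : ℝ × ℂ => v1 n p.1 p.2 rho)
        {p : ℝ × ℂ | |p.1 - om0| ≤ del ∧ ‖p.2 - c0‖ ≤ del}) ∧
    -- uniform convergence on `[rho, 2 sqrt X + 1]` (this interval contains `[rho, rX]`)
    (∀ η : ℝ, 0 < η → ∃ N : ℕ, ∀ n, N ≤ n → Even n → ∀ om : ℝ, |om - om0| ≤ del →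
      ∀ c : ℂ, ‖c - c0‖ ≤ del → ∀ r ∈ Icc rho (2 * Real.sqrt X + 1),
        ‖v n om c r - c * Uo om r‖ ≤ η ∧ ‖v1 n om c r - c * Uo1 om r‖ ≤ η)

/-- OUTPUT OF THE MATCHING (helper651), input of the final assembly: for every even `n ≥ n1` one
solution on `[0,oo)`; `U`, `U1` = limit profile and derivative, `X` = beginning of the far region. -/
structure BSeq (om0 R : ℝ) (U U1 : ℝ → ℂ) where
  om : ℕ → ℝ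
  v : ℕ → ℝ → ℂ
  v1 : ℕ → ℝ → ℂ
  n1 : ℕ
  X : ℝ
  q : ℝ
  cl : ℝ
  C : ℕ → ℝ
  X_ge : 17 ≤ X
  q_pos : 0 < q
  q_lt : q < 1
  cl_pos : 0 < cl
  two_le : 2 ≤ n1
  om_lim : Filter.Tendsto om Filter.atTop (nhds om0)
  sol : ∀ n, n1 ≤ n → Even n → ContinuousOn (v n) (Ici 0) ∧ ContinuousOn (v1 n) (Ici 0) ∧
    v1 n 0 = 0 ∧ IsSol n (om n) (1 / n) (v n) (v1 n) (Ioi 0)
  om_mem : ∀ n, n1 ≤ n → Even n → om n ∈ Icc (1/5 : ℝ) (1/2)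
  /-- a priori bounds on `[0, 3]` (702) -/
  v1_le : ∀ n, n1 ≤ n → Even n → ∀ r ∈ Icc (0 : ℝ) 3, ‖v1 n r‖ ≤ 8 * r
  pow_le : ∀ n, n1 ≤ n → Even n → ∀ r, 0 ≤ r → ‖v n r‖ ^ n ≤ 3 / 2
  /-- uniform convergence on `[0, 2 sqrt X + 1]`, an interval which contains `[0, 9]` -/
  conv : ∀ e : ℝ, 0 < e → ∃ N : ℕ, ∀ n, N ≤ n → Even n → ∀ r ∈ Icc (0 : ℝ) (2 * Real.sqrt X + 1),
    ‖v n r - U r‖ ≤ e ∧ ‖v1 n r - U1 r‖ ≤ e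
  far : ∀ n, n1 ≤ n → Even n → FarGood n q cl X C (toX (v n))

end Crest.Agent.R086.B
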