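import Mathlib
import Crest.Prelude.Def_PeriodicNLS

/-!
Row 86 (S0114): common definitions (helper594, captain).
Equation in self-similar variables (eps = 1/n, n = p - 1 even):
  i U_s + (om + i eps) U + (i/2) y.grad U + Lap U = |U|^n U   on R^12.
-/

set_option autoImplicit false

open MeasureTheory Complex
open scoped ContDiff

namespace Crest.Agent.R086

abbrev R12 : Type := EuclideanSpace ℝ (Fin 12)

/-- basis vector -/
noncomputable abbrev ei (i : Fin 12) : R12 := EuclideanSpace.single i (1 : ℝ)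

/-- Laplacian, same normal form as in `IsClassicalSolution`. -/
noncomputable def lap (f : R12 → ℂ) (y : R12) : ℂ :=
  ∑ i : Fin 12, iteratedFDeriv ℝ 2 f y ![ei i, ei i]

/-- Euler field `y · ∇ f (y)`. -/
noncomputable def eul (f : R12 → ℂ) (y : R12) : ℂ := fderiv ℝ f y y

/-- `a` is a density representing `f` as a Fourier-L¹ function with weight `(1+|ξ|)^N`. -/
def Rep (N : ℕ) (a f : R12 → ℂ) : Prop :=
  Integrable (fun ξ : R12 => (((1 + ‖ξ‖) ^ N : ℝ) : ℂ) * a ξ) ∧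
  ∀ y : R12, f y = ∫ ξ : R12, exp (I * ((inner ℝ ξ y : ℝ) : ℂ)) * a ξ

/-- The class `X_N`: Fourier transforms of weighted `L¹` functions. -/
def InX (N : ℕ) (f : R12 → ℂ) : Prop := ∃ a : R12 → ℂ, Rep N a f

/-- Data of a self-similar profile for the power `|u|^n u`. -/
structure Profile (n : ℕ) where
  om : ℝ
  Q : R12 → ℂ
  neven : Even n
  two_le : 2 ≤ n
  smooth : ContDiff ℝ ∞ Q
  radial : ∃ q : ℝ → ℂ, ∀ y, Q y = q ‖y‖
  /-- symbol bounds with decay `|y|^(-2/n)` -/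
  decay : ∀ j : ℕ, ∃ C : ℝ, ∀ y : R12,
    ‖iteratedFDeriv ℝ j Q y‖ ≤ C * (1 + ‖y‖) ^ (-(2 : ℝ) / n - j)
  eqn : ∀ y : R12, lap Q y + (I / 2) * eul Q y + ((om : ℂ) + I / n) * Q y
    = ((‖Q y‖ ^ n : ℝ) : ℂ) * Q y
  Q_zero : Q 0 ≠ 0

namespace Profile
variable {n : ℕ} (P : Profile n)

/-- real potential `(1+n/2)|Q|^n` -/
noncomputable def V1 (y : R12) : ℂ := ((1 + (n : ℂ) / 2)) * ((‖P.Q y‖ ^ n : ℝ) : ℂ)
/-- `(n/2)|Q|^(n-2) Q^2` -/
noncomputable def V2 (y : R12) : ℂ := ((n : ℂ) / 2) * ((‖P.Q y‖ ^ (n - 2) : ℝ) : ℂ) * (P.Q y) ^ 2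
/-- conjugate coupling -/
noncomputable def V2c (y : R12) : ℂ :=
  ((n : ℂ) / 2) * ((‖P.Q y‖ ^ (n - 2) : ℝ) : ℂ) * (starRingEnd ℂ (P.Q y)) ^ 2

/-- First component of the complexified linearised generator:
`L(f,g)₁ = iΔf - ½ y·∇f + (i om - 1/n) f - i (V1 f + V2 g)`. -/
noncomputable def gen1 (f g : R12 → ℂ) (y : R12) : ℂ :=
  I * lap f y - (1 / 2) * eul f y + (I * P.om - 1 / n) * f y - I * (P.V1 y * f y + P.V2 y * g y)
/-- Second component (the conjugate equation):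
`L(f,g)₂ = -iΔg - ½ y·∇g + (-i om - 1/n) g + i (V1 g + V2c f)`. -/
noncomputable def gen2 (f g : R12 → ℂ) (y : R12) : ℂ :=
  -I * lap g y - (1 / 2) * eul g y + (-I * P.om - 1 / n) * g y + I * (P.V1 y * g y + P.V2c y * f y)

/-- Symmetry modes (complexified). Index `Option (Option (Fin 12))`:
`none` = phase (eigenvalue 0), `some none` = time (eigenvalue 1), `some (some j)` = translations (1/2). -/
noncomputable def mode1 : Option (Option (Fin 12)) → R12 → ℂ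
  | none, y => I * P.Q y
  | some none, y => ((1 : ℂ) / n - I * P.om) * P.Q y + (1 / 2) * eul P.Q y
  | some (some j), y => fderiv ℝ P.Q y (ei j)
noncomputable def mode2 (m : Option (Option (Fin 12))) (y : R12) : ℂ :=
  starRingEnd ℂ (P.mode1 m y)

/-- `(f,g)` lies in the complex span of the 14 symmetry modes. -/
def InE (f g : R12 → ℂ) : Prop :=
  ∃ c : Option (Option (Fin 12)) → ℂ, (∀ y, f y = ∑ m, c m * P.mode1 m y) ∧
    (∀ y, g y = ∑ m, c m * P.mode2 m y)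

/-- SPECTRAL HYPOTHESIS (output of Parts A,B,C; input of Part D), regularity index `N`. -/
def SpecGood (N : ℕ) : Prop :=
  ∀ (lam : ℂ), 0 ≤ lam.re → ∀ f g : R12 → ℂ, InX N f → InX N g →
    P.InE (fun y => P.gen1 f g y - lam * f y) (fun y => P.gen2 f g y - lam * g y) →
    P.InE f g

end Profile

/-- regularity index used everywhere -/
abbrev N0 : ℕ := 20

/-- TARGET of Parts A+B+C. -/
def ProfileThm : Prop :=
  ∀ n₀ : ℕ, ∃ n : ℕ, n₀ ≤ n ∧ ∃ P : Profile n, P.SpecGood N0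

/-- The conclusion of S0114 for one `p`. -/
def BlowupConcl (p : ℕ) : Prop :=
  ∃ k : ℕ, 8 < k ∧ ∃ U : Set (R12 → ℂ), U.Nonempty ∧
      (∀ v ∈ U, Crest.AnalysisR.PDE.NLS.IsSmoothPeriodic v) ∧
      (∀ u₀ ∈ U, ∃ δ : ℝ, 0 < δ ∧ ∀ v : R12 → ℂ, Crest.AnalysisR.PDE.NLS.IsSmoothPeriodic v →
        Crest.AnalysisR.PDE.NLS.sobolevDistSq k v u₀ < δ → v ∈ U) ∧
      ∀ u₀ ∈ U, ∃ T : ℝ, 0 < T ∧ ∃ u : ℝ → R12 → ℂ,
        Crest.AnalysisR.PDE.NLS.IsClassicalSolution p T u ∧ u 0 = u₀ ∧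
        ∃ xs : R12, ∃ c₀ : ℝ, 0 < c₀ ∧
          Filter.Tendsto (fun t : ℝ => (T - t) ^ (1 / ((p : ℝ) - 1)) * ‖u t xs‖)
            (nhdsWithin T (Set.Iio T)) (nhds c₀)

/-- TARGET of Part D. -/
def NonlinearThm : Prop :=
  ∀ (n : ℕ) (P : Profile n), P.SpecGood N0 → BlowupConcl (n + 1)

end Crest.Agent.R086
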