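import Mathlib
import Crest.Agent.R086.Defs
import Crest.Agent.R086.BExtDefs
import Crest.Agent.R086.BCIface

/-!
Row 86 (S0114), Part B, node BFin1 (helper97): elementary fields of `BData` from `BSeq`.
-/

set_option autoImplicit false

open MeasureTheory Set Filter Topology Complex
open scoped ContDiff

namespace Crest.Agent.R086.B

variable {om0 R : ℝ} {U U1 : ℝ → ℂ}

namespace BFin

/-- `P` is the profile attached to the `n`-th solution of `S` -/
def IsProf (S : BSeq om0 R U U1) {n : ℕ} (P : Profile n) : Prop :=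
  P.om = S.om n ∧ P.Q = fun y : R12 => S.v n ‖y‖

/-- the length of the compact interval -/
noncomputable def len (S : BSeq om0 R U U1) : ℝ := 2 * Real.sqrt S.X + 1

theorem four_le_sqrt (S : BSeq om0 R U U1) : 4 ≤ Real.sqrt S.X := by
  apply Real.le_sqrt_of_sq_le
  have := S.X_ge
  linarith

theorem nine_le_len (S : BSeq om0 R U U1) : 9 ≤ len S := by
  have := four_le_sqrt S
  unfold len
  linarith

theorem q_eq {S : BSeq om0 R U U1} {n : ℕ} {P : Profile n} (hP : IsProf S P) (r : ℝ) :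
    P.q r = S.v n |r| := by
  have h : ‖r • ei 0‖ = |r| := by
    rw [norm_smul, Real.norm_eq_abs]
    simp [ei]
  rw [Profile.q, hP.2]
  simp only [h]

theorem q_eq_of_nonneg {S : BSeq om0 R U U1} {n : ℕ} {P : Profile n} (hP : IsProf S P) {r : ℝ}
    (hr : 0 ≤ r) : P.q r = S.v n r := by
  rw [q_eq hP, abs_of_nonneg hr]

theorem radial {S : BSeq om0 R U U1} {n : ℕ} {P : Profile n} (hP : IsProf S P) (y : R12) :
    P.Q y = P.q ‖y‖ := by
  rw [q_eq_of_nonneg hP (norm_nonneg y), hP.2]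

theorem contDiff_q {n : ℕ} (P : Profile n) : ContDiff ℝ ∞ P.q := by
  have h : ContDiff ℝ ∞ (fun r : ℝ => r • ei 0) := contDiff_id.smul contDiff_const
  exact P.smooth.comp h

theorem hasDerivAt_q {S : BSeq om0 R U U1} {n : ℕ} {P : Profile n} (hP : IsProf S P)
    (hn : S.n1 ≤ n) (he : Even n) {r : ℝ} (hr : 0 < r) : HasDerivAt P.q (S.v1 n r) r := by
  have h := (((S.sol n hn he).2.2.2) r hr).1
  refine h.congr_of_eventuallyEq ?_
  filter_upwards [lt_mem_nhds hr] with t ht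
  exact q_eq_of_nonneg hP ht.le

theorem deriv_q {S : BSeq om0 R U U1} {n : ℕ} {P : Profile n} (hP : IsProf S P)
    (hn : S.n1 ≤ n) (he : Even n) {r : ℝ} (hr : 0 < r) : deriv P.q r = S.v1 n r :=
  (hasDerivAt_q hP hn he hr).deriv

theorem hasDerivAt_deriv_q {S : BSeq om0 R U U1} {n : ℕ} {P : Profile n} (hP : IsProf S P)
    (hn : S.n1 ≤ n) (he : Even n) {r : ℝ} (hr : 0 < r) :
    HasDerivAt (deriv P.q) (-(11 / (r : ℂ) + I * r / 2) * S.v1 n r
      - ((S.om n : ℂ) + I * ((1 / n : ℝ) : ℂ)) * S.v n r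
      + ((‖S.v n r‖ ^ n : ℝ) : ℂ) * S.v n r) r := by
  have h := (((S.sol n hn he).2.2.2) r hr).2
  refine h.congr_of_eventuallyEq ?_
  filter_upwards [lt_mem_nhds hr] with t ht
  exact deriv_q hP hn he ht

theorem continuous_deriv_q {n : ℕ} (P : Profile n) : Continuous (deriv P.q) :=
  (contDiff_q P).continuous_deriv (by simp)

theorem continuous_deriv_deriv_q {n : ℕ} (P : Profile n) : Continuous (deriv (deriv P.q)) := by
  have h := (contDiff_q P).continuous_iteratedDeriv 2 (WithTop.coe_le_coe.2 le_top)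
  simpa [iteratedDeriv_succ, iteratedDeriv_zero] using h

theorem deriv_q_zero {S : BSeq om0 R U U1} {n : ℕ} {P : Profile n} (hP : IsProf S P)
    (hn : S.n1 ≤ n) (he : Even n) : deriv P.q 0 = 0 := by
  have h1 : Tendsto (deriv P.q) (𝓝[>] 0) (𝓝 (deriv P.q 0)) :=
    ((continuous_deriv_q P).tendsto 0).mono_left nhdsWithin_le_nhds
  have h2 : Tendsto (S.v1 n) (𝓝[>] 0) (𝓝 (S.v1 n 0)) :=
    ((S.sol n hn he).2.1 0 (by simp : (0:ℝ) ∈ Ici 0)).mono_left
      (nhdsWithin_mono _ Ioi_subset_Ici_self)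
  have h3 : Tendsto (deriv P.q) (𝓝[>] 0) (𝓝 (S.v1 n 0)) := by
    refine h2.congr' ?_
    filter_upwards [self_mem_nhdsWithin] with t ht
    exact (deriv_q hP hn he ht).symm
  have h4 := tendsto_nhds_unique h1 h3
  rw [h4, (S.sol n hn he).2.2.1]

theorem deriv_q_nonneg {S : BSeq om0 R U U1} {n : ℕ} {P : Profile n} (hP : IsProf S P)
    (hn : S.n1 ≤ n) (he : Even n) {r : ℝ} (hr : 0 ≤ r) : deriv P.q r = S.v1 n r := by
  rcases hr.eq_or_lt with h | h
  · subst h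
    rw [deriv_q_zero hP hn he, (S.sol n hn he).2.2.1]
  · exact deriv_q hP hn he h

/-! ### bounds on the compact interval -/

theorem norm_v_le_two (S : BSeq om0 R U U1) {n : ℕ} (hn : S.n1 ≤ n) (he : Even n) {r : ℝ}
    (hr : 0 ≤ r) : ‖S.v n r‖ ≤ 2 := by
  by_contra h
  push Not at h
  have h1 := S.pow_le n hn he r hr
  have h2n : 2 ≤ n := S.two_le.trans hn
  have h2 : (2:ℝ) ^ 2 ≤ 2 ^ n := pow_le_pow_right₀ one_le_two h2n
  have h3 : (2:ℝ) ^ n ≤ ‖S.v n r‖ ^ n := pow_le_pow_left₀ (by norm_num) h.le n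
  linarith

theorem exists_lower (S : BSeq om0 R U U1) (L : LimitProfile om0 R U) :
    ∃ N : ℕ, S.n1 ≤ N ∧ ∀ n, N ≤ n → Even n → ∀ r ∈ Icc (0:ℝ) (len S), 1 / 2 ≤ ‖S.v n r‖ := by
  obtain ⟨N, hN⟩ := S.conv (1/10) (by norm_num)
  refine ⟨max N S.n1, le_max_right _ _, ?_⟩
  intro n hn he r hr
  have h1 := (hN n ((le_max_left _ _).trans hn) he r hr).1
  have h2 := L.lower r
  have h3 : ‖U r‖ ≤ ‖S.v n r‖ + ‖S.v n r - U r‖ := by
    calc ‖U r‖ = ‖S.v n r - (S.v n r - U r)‖ := by congr 1; ring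
      _ ≤ ‖S.v n r‖ + ‖S.v n r - U r‖ := norm_sub_le _ _
  linarith

theorem exists_v1_bound (S : BSeq om0 R U U1) :
    ∃ M : ℝ, 0 ≤ M ∧ ∃ N : ℕ, S.n1 ≤ N ∧ ∀ n, N ≤ n → Even n → ∀ r ∈ Icc (0:ℝ) (len S),
      ‖S.v1 n r‖ ≤ M := by
  obtain ⟨N, hN⟩ := S.conv 1 one_pos
  set m : ℕ := 2 * (max N S.n1) with hm
  have hmN : N ≤ m := by have := le_max_left N S.n1; omega
  have hm1 : S.n1 ≤ m := by have := le_max_right N S.n1; omega
  have hme : Even m := even_two_mul _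
  have hc : ContinuousOn (S.v1 m) (Icc 0 (len S)) :=
    ((S.sol m hm1 hme).2.1).mono Icc_subset_Ici_self
  obtain ⟨M, hM⟩ := (isCompact_Icc).exists_bound_of_continuousOn hc
  refine ⟨|M| + 2, by positivity, max N S.n1, le_max_right _ _, ?_⟩
  intro n hn he r hr
  have h1 := (hN n ((le_max_left _ _).trans hn) he r hr).2
  have h2 := (hN m hmN hme r hr).2
  have h3 := hM r hr
  have h4 : ‖S.v1 n r‖ ≤ ‖S.v1 n r - U1 r‖ + (‖S.v1 m r - U1 r‖ + ‖S.v1 m r‖) := by
    calc ‖S.v1 n r‖ = ‖(S.v1 n r - U1 r) - ((S.v1 m r - U1 r) - S.v1 m r)‖ := by congr 1; ring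
      _ ≤ ‖S.v1 n r - U1 r‖ + ‖(S.v1 m r - U1 r) - S.v1 m r‖ := norm_sub_le _ _
      _ ≤ _ := by gcongr; exact norm_sub_le _ _
  have := le_abs_self M
  linarith

/-! ### the far region in the variable `r` -/

/-- For `r > 2 sqrt X` : `v n r = V (r²/4)` with `V = toX (v n)`, `r²/4 > X`. -/
theorem toX_sq (v : ℝ → ℂ) {r : ℝ} (hr : 0 ≤ r) : toX v (r ^ 2 / 4) = v r := by
  unfold toX
  congr 1
  have : r ^ 2 / 4 = (r / 2) ^ 2 := by ring
  rw [this, Real.sqrt_sq (by linarith)]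
  ring

theorem X_lt_of (S : BSeq om0 R U U1) {r : ℝ} (hr : 2 * Real.sqrt S.X < r) : S.X < r ^ 2 / 4 := by
  have h0 : 0 ≤ S.X := by have := S.X_ge; linarith
  have h1 := four_le_sqrt S
  have h2 : (2 * Real.sqrt S.X) ^ 2 < r ^ 2 := by
    apply pow_lt_pow_left₀ hr (by linarith) (by norm_num)
  have h3 : (2 * Real.sqrt S.X) ^ 2 = 4 * S.X := by
    rw [mul_pow, Real.sq_sqrt h0]; norm_num
  linarith

theorem far_lower (S : BSeq om0 R U U1) {n : ℕ} (hn : S.n1 ≤ n) (he : Even n) {r : ℝ}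
    (hr : 2 * Real.sqrt S.X < r) : S.cl * (r ^ 2 / 4) ^ (-((1:ℝ) / n)) ≤ ‖S.v n r‖ := by
  have h1 := (S.far n hn he).lower (r ^ 2 / 4) (X_lt_of S hr)
  have h4 := four_le_sqrt S
  rw [toX_sq _ (by linarith : 0 ≤ r)] at h1
  have hx : 0 < r ^ 2 / 4 := by
    have := X_lt_of S hr; have := S.X_ge; linarith
  have hp : 0 < (r ^ 2 / 4) ^ ((1:ℝ) / n) := by positivity
  rw [Real.rpow_neg hx.le, ← div_eq_mul_inv, div_le_iff₀ hp]
  exact h1

theorem far_upper (S : BSeq om0 R U U1) {n : ℕ} (hn : S.n1 ≤ n) (he : Even n) {r : ℝ}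
    (hr : 2 * Real.sqrt S.X < r) : ‖S.v n r‖ ≤ S.q * (r ^ 2 / 4) ^ (-((1:ℝ) / n)) := by
  have h1 := (S.far n hn he).upper (r ^ 2 / 4) (X_lt_of S hr)
  have h4 := four_le_sqrt S
  rw [toX_sq _ (by linarith : 0 ≤ r)] at h1
  have hx : 0 < r ^ 2 / 4 := by
    have := X_lt_of S hr; have := S.X_ge; linarith
  have hp : 0 < (r ^ 2 / 4) ^ ((1:ℝ) / n) := by positivity
  rw [Real.rpow_neg hx.le, ← div_eq_mul_inv, le_div_iff₀ hp]
  exact h1

theorem q_ne (S : BSeq om0 R U U1) (L : LimitProfile om0 R U) :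
    ∃ N : ℕ, S.n1 ≤ N ∧ ∀ n, N ≤ n → Even n → ∀ P : Profile n, IsProf S P → ∀ r : ℝ, P.q r ≠ 0 := by
  obtain ⟨N, hN1, hN⟩ := exists_lower S L
  refine ⟨N, hN1, ?_⟩
  intro n hn he P hP r
  rw [q_eq hP]
  have h0 : 0 ≤ |r| := abs_nonneg r
  rcases le_or_gt (|r|) (len S) with h | h
  · have := hN n hn he |r| ⟨h0, h⟩
    intro hz
    rw [hz, norm_zero] at this
    norm_num at this
  · have h1 : 2 * Real.sqrt S.X < |r| := by unfold len at h; linarith
    have h2 := far_lower S (hN1.trans hn) he h1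
    have hx : 0 < |r| ^ 2 / 4 := by
      have := X_lt_of S h1; have := S.X_ge; linarith
    have hc := S.cl_pos
    have h3 : 0 < S.cl * (|r| ^ 2 / 4) ^ (-((1:ℝ) / n)) := by positivity
    intro hz
    rw [hz, norm_zero] at h2
    linarith

theorem q_lower (S : BSeq om0 R U U1) (L : LimitProfile om0 R U) :
    ∃ N : ℕ, S.n1 ≤ N ∧ ∀ n, N ≤ n → Even n → ∀ P : Profile n, IsProf S P →
      ∀ r ∈ Icc (0:ℝ) 8, 1 / 2 ≤ ‖P.q r‖ := by
  obtain ⟨N, hN1, hN⟩ := exists_lower S L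
  refine ⟨N, hN1, ?_⟩
  intro n hn he P hP r hr
  rw [q_eq_of_nonneg hP hr.1]
  exact hN n hn he r ⟨hr.1, hr.2.trans (by have := nine_le_len S; linarith)⟩

theorem pow_le (S : BSeq om0 R U U1) : ∀ n, S.n1 ≤ n → Even n → ∀ P : Profile n, IsProf S P →
    ∀ r : ℝ, 0 ≤ r → ‖P.q r‖ ^ n ≤ 3 / 2 := by
  intro n hn he P hP r hr
  rw [q_eq_of_nonneg hP hr]
  exact S.pow_le n hn he r hr

/-! ### `U1 = U'` -/

theorem U1_eq (S : BSeq om0 R U U1) (L : LimitProfile om0 R U) {r : ℝ} (hr : r ∈ Ico (0:ℝ) (len S)) :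
    U1 r = deriv U r := by
  have hlen := nine_le_len S
  rcases hr.1.eq_or_lt with h0 | h0
  · subst h0
    have hd : deriv U 0 = 0 := by
      have : U =ᶠ[𝓝 0] fun _ => (1:ℂ) := by
        have hR : (0:ℝ) < R := by have := L.R_lo; linarith
        filter_upwards [gt_mem_nhds hR] with t ht
        exact L.core t ht.le
      rw [this.deriv_eq]; simp
    rw [hd]
    by_contra hne
    have hpos : 0 < ‖U1 0‖ / 2 := by positivity
    obtain ⟨N, hN⟩ := S.conv (‖U1 0‖ / 2) hpos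
    set m : ℕ := 2 * (max N S.n1) with hm
    have hmN : N ≤ m := by have := le_max_left N S.n1; omega
    have hm1 : S.n1 ≤ m := by have := le_max_right N S.n1; omega
    have hme : Even m := even_two_mul _
    have h1 := (hN m hmN hme 0 ⟨le_rfl, by have := hlen; unfold len at this; linarith⟩).2
    rw [(S.sol m hm1 hme).2.2.1, zero_sub, norm_neg] at h1
    linarith
  · -- interior
    have key : HasDerivAt U (U1 r) r := by
      have hopen : IsOpen (Ioo (0:ℝ) (len S)) := isOpen_Ioo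
      refine hasDerivAt_of_tendstoUniformlyOn (l := atTop) (f := fun m : ℕ => S.v (2 * (m + S.n1)))
        (f' := fun m : ℕ => S.v1 (2 * (m + S.n1))) (g := U) (g' := U1) hopen ?_ ?_ ?_ ⟨h0, hr.2⟩
      · rw [Metric.tendstoUniformlyOn_iff]
        intro e he
        obtain ⟨N, hN⟩ := S.conv (e / 2) (by linarith)
        filter_upwards [eventually_ge_atTop N] with m hm x hx
        have := (hN (2 * (m + S.n1)) (by omega) (even_two_mul _) x ⟨hx.1.le, hx.2.le⟩).2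
        rw [dist_comm, dist_eq_norm]
        linarith
      · refine Eventually.of_forall fun m x hx => ?_
        exact ((S.sol (2 * (m + S.n1)) (by omega) (even_two_mul _)).2.2.2 x hx.1).1
      · intro x hx
        rw [Metric.tendsto_atTop]
        intro e he
        obtain ⟨N, hN⟩ := S.conv (e / 2) (by linarith)
        refine ⟨N, fun m hm => ?_⟩
        have := (hN (2 * (m + S.n1)) (by omega) (even_two_mul _) x ⟨hx.1.le, hx.2.le⟩).1
        rw [dist_eq_norm]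
        linarith
    exact key.deriv.symm

theorem conv (S : BSeq om0 R U U1) (L : LimitProfile om0 R U) (e : ℝ) (he : 0 < e) :
    ∃ N : ℕ, S.n1 ≤ N ∧ ∀ n, N ≤ n → Even n → ∀ P : Profile n, IsProf S P →
      ∀ r ∈ Icc (0:ℝ) 8, ‖P.q r - U r‖ ≤ e ∧ ‖deriv P.q r - deriv U r‖ ≤ e := by
  obtain ⟨N, hN⟩ := S.conv e he
  have hlen := nine_le_len S
  refine ⟨max N S.n1, le_max_right _ _, ?_⟩
  intro n hn hev P hP r hr
  have h1 := hN n ((le_max_left _ _).trans hn) hev r ⟨hr.1, hr.2.trans (by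
    have := hlen; unfold len at this; linarith)⟩
  rw [q_eq_of_nonneg hP hr.1, deriv_q_nonneg hP ((le_max_right _ _).trans hn) hev hr.1,
    ← U1_eq S L ⟨hr.1, lt_of_le_of_lt hr.2 (by linarith)⟩]
  exact h1

end BFin

end Crest.Agent.R086.B
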