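import Mathlib
import Crest.Agent.R086.Defs

/-!
Row 86 (S0114), Part B (helper97): from a radial function `V(|y|²/4)` to a `Profile`.

* `contDiff_rad`: `V` smooth on `[0,∞)` implies `y ↦ V(|y|²/4)` smooth on `ℝ^12`;
* `sym_of_radial`: symbol bounds for `V` imply symbol bounds for `V(|y|²/4)`;
* `lap_rad`, `eul_rad`: the Laplacian and the Euler field of radial functions;
* `profile_of_V`: the structure `Profile n`.
-/

set_option autoImplicit false

open MeasureTheory Set Filter Topology Complex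
open scoped ContDiff Nat

namespace Crest.Agent.R086.BRad

/-- `y ↦ |y|²/4`. -/
noncomputable def sq (y : R12) : ℝ := ‖y‖ ^ 2 / 4

theorem contDiff_sq : ContDiff ℝ ∞ sq := by
  unfold sq
  exact (contDiff_norm_sq ℝ).div_const 4

theorem sq_nonneg (y : R12) : 0 ≤ sq y := by unfold sq; positivity

theorem continuous_sq : Continuous sq := contDiff_sq.continuous

/-- the radial function attached to `V` -/
noncomputable def rad (V : ℝ → ℂ) (y : R12) : ℂ := V (sq y)

theorem contDiff_rad {V : ℝ → ℂ} (hV : ContDiffOn ℝ ∞ V (Ici 0)) : ContDiff ℝ ∞ (rad V) :=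
  hV.comp_contDiff contDiff_sq (fun y => sq_nonneg y)

/-- bounds for the derivatives of `|y|²/4` on the unit sphere -/
theorem exists_sphere_bound (j : ℕ) : ∃ D : ℝ, 1 ≤ D ∧ ∀ z : R12, ‖z‖ = 1 → ∀ i : ℕ, 1 ≤ i →
    i ≤ j → ‖iteratedFDeriv ℝ i sq z‖ ≤ D ^ i := by
  have hb : ∀ i : ℕ, ∃ B : ℝ, ∀ z : R12, z ∈ Metric.sphere (0 : R12) 1 →
      ‖iteratedFDeriv ℝ i sq z‖ ≤ B := by
    intro i
    have hc : Continuous (fun z : R12 => iteratedFDeriv ℝ i sq z) :=
      contDiff_sq.continuous_iteratedFDeriv (by exact_mod_cast le_top)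
    obtain ⟨B, hB⟩ := (isCompact_sphere (0 : R12) 1).exists_bound_of_continuousOn hc.continuousOn
    exact ⟨B, hB⟩
  choose B hB using hb
  refine ⟨1 + ∑ i ∈ Finset.range (j + 1), |B i|, ?_, ?_⟩
  · have : 0 ≤ ∑ i ∈ Finset.range (j + 1), |B i| := Finset.sum_nonneg fun i _ => abs_nonneg _
    linarith
  · intro z hz i hi hij
    have h1 : ‖iteratedFDeriv ℝ i sq z‖ ≤ |B i| :=
      (hB i z (by simpa using hz)).trans (le_abs_self _)
    have h2 : |B i| ≤ ∑ i ∈ Finset.range (j + 1), |B i| :=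
      Finset.single_le_sum (f := fun i => |B i|) (fun i _ => abs_nonneg _)
        (Finset.mem_range.2 (by omega))
    have h3 : (1 : ℝ) ≤ 1 + ∑ i ∈ Finset.range (j + 1), |B i| := by
      have : 0 ≤ ∑ i ∈ Finset.range (j + 1), |B i| := Finset.sum_nonneg fun i _ => abs_nonneg _
      linarith
    calc ‖iteratedFDeriv ℝ i sq z‖ ≤ 1 + ∑ i ∈ Finset.range (j + 1), |B i| := by linarith
      _ = (1 + ∑ i ∈ Finset.range (j + 1), |B i|) ^ 1 := (pow_one _).symm
      _ ≤ _ := pow_le_pow_right₀ h3 hi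

/-- **Symbol bounds of a radial function.** -/
theorem sym_of_radial {V : ℝ → ℂ} {δ : ℝ} (hδ : 0 ≤ δ) (hV : ContDiffOn ℝ ∞ V (Ici 0))
    (hdec : ∀ j : ℕ, ∃ C X : ℝ, ∀ x : ℝ, X ≤ x →
      ‖iteratedDerivWithin j V (Ici 0) x‖ ≤ C * x ^ (-δ - j)) (j : ℕ) :
    ∃ C : ℝ, ∀ y : R12, ‖iteratedFDeriv ℝ j (rad V) y‖ ≤ C * (1 + ‖y‖) ^ (-(2 * δ) - j) := by
  choose C X hCX using hdec
  obtain ⟨D, hD1, hD⟩ := exists_sphere_bound j
  have hQ : ContDiff ℝ ∞ (rad V) := contDiff_rad hV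
  set CC : ℝ := ∑ i ∈ Finset.range (j + 1), |C i| with hCC
  set XX : ℝ := 1 + ∑ i ∈ Finset.range (j + 1), |X i| with hXX
  have hCC0 : 0 ≤ CC := Finset.sum_nonneg fun i _ => abs_nonneg _
  have hXX1 : 1 ≤ XX := by
    have : 0 ≤ ∑ i ∈ Finset.range (j + 1), |X i| := Finset.sum_nonneg fun i _ => abs_nonneg _
    rw [hXX]; linarith
  have hCi : ∀ i, i ≤ j → C i ≤ CC := fun i hi =>
    (le_abs_self _).trans (Finset.single_le_sum (f := fun i => |C i|) (fun i _ => abs_nonneg _)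
        (Finset.mem_range.2 (by omega)))
  have hXi : ∀ i, i ≤ j → X i ≤ XX := fun i hi => by
    have h1 : |X i| ≤ ∑ i ∈ Finset.range (j + 1), |X i| :=
      Finset.single_le_sum (f := fun i => |X i|) (fun i _ => abs_nonneg _)
        (Finset.mem_range.2 (by omega))
    have := le_abs_self (X i)
    rw [hXX]; linarith
  -- large y
  set K : ℝ := (j ! : ℝ) * (CC * 4 ^ (δ + j)) * D ^ j with hK
  have hK0 : 0 ≤ K := by positivity
  have hlarge : ∀ y : R12, XX ≤ sq y → ‖iteratedFDeriv ℝ j (rad V) y‖ ≤ K * ‖y‖ ^ (-(2 * δ) - j) := by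
    intro y hy
    have hsq : 0 < sq y := lt_of_lt_of_le (by linarith) hy
    have hypos : 0 < ‖y‖ := by
      by_contra h
      have h0 : ‖y‖ = 0 := le_antisymm (not_lt.1 h) (norm_nonneg _)
      rw [sq, h0] at hsq; norm_num at hsq
    set l : ℝ := ‖y‖ with hl
    set z : R12 := l⁻¹ • y with hz
    have hz1 : ‖z‖ = 1 := by
      rw [hz, norm_smul, norm_inv, Real.norm_of_nonneg hypos.le, inv_mul_cancel₀ hypos.ne']
    have hlz : l • z = y := by rw [hz, smul_smul, mul_inv_cancel₀ hypos.ne', one_smul]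
    have hcomp : (fun w : R12 => rad V (l • w)) = (fun t : ℝ => V (l ^ 2 * t)) ∘ sq := by
      funext w
      simp only [rad, sq, Function.comp]
      congr 1
      rw [norm_smul, Real.norm_of_nonneg hypos.le]; ring
    have hsqz : sq z = 1 / 4 := by rw [sq, hz1]; norm_num
    have hg : ContDiffOn ℝ ∞ (fun t : ℝ => V (l ^ 2 * t)) (Ici 0) := by
      refine hV.comp (by fun_prop) ?_
      intro t ht
      have ht' : (0 : ℝ) ≤ t := ht
      show (0 : ℝ) ≤ l ^ 2 * t
      positivity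
    have hgb : ∀ i, i ≤ j → ‖iteratedFDerivWithin ℝ i (fun t : ℝ => V (l ^ 2 * t)) (Ici 0) (sq z)‖
        ≤ CC * 4 ^ (δ + j) * l ^ (-(2 * δ)) := by
      intro i hi
      rw [norm_iteratedFDerivWithin_eq_norm_iteratedDerivWithin, hsqz]
      have h1 := iteratedDerivWithin_comp_const_smul (n := i) (f := V) (s := Ici (0:ℝ)) (x := (1/4 : ℝ))
        (by norm_num : (1/4 : ℝ) ∈ Ici (0:ℝ)) (uniqueDiffOn_Ici 0)
        (hV.of_le (by exact_mod_cast le_top)) (l ^ 2) (by
          intro t ht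
          have ht' : (0 : ℝ) ≤ t := ht
          show (0 : ℝ) ≤ l ^ 2 * t
          positivity)
      rw [h1, norm_smul]
      have h2 : l ^ 2 * (1 / 4) = sq y := by rw [sq]; ring
      rw [h2]
      have h3 := hCX i (sq y) ((hXi i hi).trans hy)
      have h4 : ‖iteratedDerivWithin i V (Ici 0) (sq y)‖ ≤ CC * (sq y) ^ (-δ - i) := by
        refine h3.trans ?_
        exact mul_le_mul_of_nonneg_right (hCi i hi) (by positivity)
      have h5 : ‖(l ^ 2 : ℝ) ^ i‖ = l ^ ((2 * i : ℕ) : ℝ) := by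
        rw [Real.norm_of_nonneg (by positivity), Real.rpow_natCast, pow_mul]
      have h6 : (sq y) ^ (-δ - (i : ℝ)) = 4 ^ (δ + (i : ℝ)) * l ^ (-(2 * δ) - (2 * i : ℕ)) := by
        have e1 : sq y = l ^ (2 : ℝ) * 4⁻¹ := by rw [sq, Real.rpow_two]; ring
        rw [e1, Real.mul_rpow (by positivity) (by norm_num), ← Real.rpow_mul hypos.le,
          Real.inv_rpow (by norm_num), ← Real.rpow_neg (by norm_num)]
        rw [mul_comm]
        congr 1
        · congr 1; ring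
        · congr 1; push_cast; ring
      calc ‖(l ^ 2 : ℝ) ^ i‖ * ‖iteratedDerivWithin i V (Ici 0) (sq y)‖
          ≤ ‖(l ^ 2 : ℝ) ^ i‖ * (CC * (sq y) ^ (-δ - i)) :=
            mul_le_mul_of_nonneg_left h4 (norm_nonneg _)
        _ = CC * 4 ^ (δ + (i : ℝ)) * (l ^ ((2 * i : ℕ) : ℝ) * l ^ (-(2 * δ) - (2 * i : ℕ))) := by
            rw [h5, h6]; ring
        _ = CC * 4 ^ (δ + (i : ℝ)) * l ^ (-(2 * δ)) := by
            rw [← Real.rpow_add hypos]; congr 2; ring
        _ ≤ CC * 4 ^ (δ + j) * l ^ (-(2 * δ)) := by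
            have : (4 : ℝ) ^ (δ + (i : ℝ)) ≤ 4 ^ (δ + (j : ℝ)) := by
              apply Real.rpow_le_rpow_of_exponent_le (by norm_num)
              have : (i : ℝ) ≤ j := by exact_mod_cast hi
              linarith
            have h7 : 0 ≤ l ^ (-(2 * δ)) := by positivity
            exact mul_le_mul_of_nonneg_right (mul_le_mul_of_nonneg_left this hCC0) h7
    have hmain := norm_iteratedFDeriv_comp_le' (n := j) (N := ∞) (t := Ici (0:ℝ))
      (g := fun t : ℝ => V (l ^ 2 * t)) (f := sq)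
      (by rintro _ ⟨w, rfl⟩; exact sq_nonneg w) (uniqueDiffOn_Ici 0) hg contDiff_sq
      (by exact_mod_cast le_top) z hgb (fun i hi hij => hD z hz1 i hi hij)
    rw [← hcomp] at hmain
    have hsc := congrFun (iteratedFDeriv_comp_const_smul (i := j) l
      (hQ.of_le (by exact_mod_cast le_top) : ContDiff ℝ j (rad V))) z
    rw [hsc, norm_smul, hlz] at hmain
    have h8 : ‖l ^ j‖ = l ^ (j : ℝ) := by
      rw [Real.norm_of_nonneg (by positivity), Real.rpow_natCast]
    rw [h8] at hmain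
    have h9 : ‖iteratedFDeriv ℝ j (rad V) y‖
        = l ^ (-(j : ℝ)) * (l ^ (j : ℝ) * ‖iteratedFDeriv ℝ j (rad V) y‖) := by
      rw [← mul_assoc, ← Real.rpow_add hypos]; simp
    rw [h9]
    calc l ^ (-(j : ℝ)) * (l ^ (j : ℝ) * ‖iteratedFDeriv ℝ j (rad V) y‖)
        ≤ l ^ (-(j : ℝ)) * ((j ! : ℝ) * (CC * 4 ^ (δ + j) * l ^ (-(2 * δ))) * D ^ j) :=
          mul_le_mul_of_nonneg_left hmain (by positivity)
      _ = K * (l ^ (-(j : ℝ)) * l ^ (-(2 * δ))) := by rw [hK]; ring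
      _ = K * l ^ (-(2 * δ) - j) := by
          rw [← Real.rpow_add hypos]; congr 2; ring
  -- small y: compactness
  have hcont : Continuous fun y : R12 => iteratedFDeriv ℝ j (rad V) y :=
    hQ.continuous_iteratedFDeriv (by exact_mod_cast le_top)
  obtain ⟨B, hB⟩ := (isCompact_closedBall (0 : R12) (2 * XX)).exists_bound_of_continuousOn
    hcont.continuousOn
  set s : ℝ := 2 * δ + j with hs
  have hs0 : 0 ≤ s := by positivity
  have hexp : -(2 * δ) - (j : ℝ) = -s := by rw [hs]; ring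
  refine ⟨K * 2 ^ s + |B| * (1 + 2 * XX) ^ s, fun y => ?_⟩
  rw [hexp]
  have hpos1 : 0 < (1 + ‖y‖) ^ (-s) := by positivity
  rcases le_or_gt ‖y‖ (2 * XX) with hy | hy
  · have h1 : ‖iteratedFDeriv ℝ j (rad V) y‖ ≤ |B| :=
      (hB y (by simpa using hy)).trans (le_abs_self _)
    have h2 : (1 : ℝ) ≤ (1 + 2 * XX) ^ s * (1 + ‖y‖) ^ (-s) := by
      rw [Real.rpow_neg (by positivity), ← div_eq_mul_inv, one_le_div (by positivity)]
      exact Real.rpow_le_rpow (by positivity) (by linarith) hs0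
    calc ‖iteratedFDeriv ℝ j (rad V) y‖ ≤ |B| * 1 := by rw [mul_one]; exact h1
      _ ≤ |B| * ((1 + 2 * XX) ^ s * (1 + ‖y‖) ^ (-s)) :=
          mul_le_mul_of_nonneg_left h2 (abs_nonneg _)
      _ ≤ (K * 2 ^ s + |B| * (1 + 2 * XX) ^ s) * (1 + ‖y‖) ^ (-s) := by
          have : 0 ≤ K * 2 ^ s * (1 + ‖y‖) ^ (-s) := by positivity
          nlinarith
  · have hsq : XX ≤ sq y := by
      rw [sq]
      have : (2 * XX) ^ 2 ≤ ‖y‖ ^ 2 := by
        apply pow_le_pow_left₀ (by linarith) hy.le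
      nlinarith
    have hypos : 0 < ‖y‖ := by linarith
    have h1 := hlarge y hsq
    rw [hexp] at h1
    have h2 : ‖y‖ ^ (-s) ≤ 2 ^ s * (1 + ‖y‖) ^ (-s) := by
      rw [Real.rpow_neg hypos.le, Real.rpow_neg (by positivity), ← div_eq_mul_inv,
        le_div_iff₀ (by positivity), ← Real.inv_rpow hypos.le, ← Real.mul_rpow (by positivity) (by positivity)]
      apply Real.rpow_le_rpow (by positivity) _ hs0
      rw [inv_mul_le_iff₀ hypos]
      linarith
    calc ‖iteratedFDeriv ℝ j (rad V) y‖ ≤ K * ‖y‖ ^ (-s) := h1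
      _ ≤ K * (2 ^ s * (1 + ‖y‖) ^ (-s)) := mul_le_mul_of_nonneg_left h2 hK0
      _ ≤ (K * 2 ^ s + |B| * (1 + 2 * XX) ^ s) * (1 + ‖y‖) ^ (-s) := by
          have : 0 ≤ |B| * (1 + 2 * XX) ^ s * (1 + ‖y‖) ^ (-s) := by positivity
          nlinarith

end Crest.Agent.R086.BRad
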