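import Mathlib
import Crest.Agent.R086.BRad
import Crest.Agent.R086.Sym

/-!
Row 86 (S0114), Part B (helper97): quantitative versions.

* `sym_of_radialQ`: symbol bounds of `V` on `[0,∞)` (variable `x=|y|²/4`) give symbol bounds of
  `y ↦ V(|y|²/4)`, with a constant depending only on `δ, j`;
* `symQ`: symbol bounds up to order `N+13` give a bound of the weighted `L¹` norm of the density,
  with a constant depending only on `δ, N`;
* `symQ_radial`, `symQ_coord`: the combination, also with an extra factor `y_i`.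
-/

set_option autoImplicit false

open MeasureTheory Set Filter Topology Complex
open scoped ContDiff Nat

namespace Crest.Agent.R086.BRad

/-- derivatives of `|y|²/4` on the closed ball of radius `r` -/
theorem exists_ball_bound (j : ℕ) (r : ℝ) : ∃ D : ℝ, 1 ≤ D ∧ ∀ z : R12, ‖z‖ ≤ r → ∀ i : ℕ, 1 ≤ i →
    i ≤ j → ‖iteratedFDeriv ℝ i sq z‖ ≤ D ^ i := by
  have hb : ∀ i : ℕ, ∃ B : ℝ, ∀ z : R12, z ∈ Metric.closedBall (0 : R12) r →
      ‖iteratedFDeriv ℝ i sq z‖ ≤ B := by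
    intro i
    have hc : Continuous (fun z : R12 => iteratedFDeriv ℝ i sq z) :=
      contDiff_sq.continuous_iteratedFDeriv (by exact_mod_cast le_top)
    obtain ⟨B, hB⟩ := (isCompact_closedBall (0 : R12) r).exists_bound_of_continuousOn hc.continuousOn
    exact ⟨B, hB⟩
  choose B hB using hb
  refine ⟨1 + ∑ i ∈ Finset.range (j + 1), |B i|, ?_, ?_⟩
  · have : 0 ≤ ∑ i ∈ Finset.range (j + 1), |B i| := Finset.sum_nonneg fun i _ => abs_nonneg _
    linarith
  · intro z hz i hi hij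
    have h1 : ‖iteratedFDeriv ℝ i sq z‖ ≤ |B i| :=
      (hB i z (by simpa using hz)).trans (le_abs_self _)
    have h2 : |B i| ≤ ∑ i ∈ Finset.range (j + 1), |B i| :=
      Finset.single_le_sum (f := fun i => |B i|) (fun i _ => abs_nonneg _)
        (Finset.mem_range.2 (by omega))
    have h3 : (1 : ℝ) ≤ 1 + ∑ i ∈ Finset.range (j + 1), |B i| := by
      have : 0 ≤ ∑ i ∈ Finset.range (j + 1), |B i| := Finset.sum_nonneg fun i _ => abs_nonneg _
      linarith
    calc ‖iteratedFDeriv ℝ i sq z‖ ≤ 1 + ∑ i ∈ Finset.range (j + 1), |B i| := by linarith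
      _ = (1 + ∑ i ∈ Finset.range (j + 1), |B i|) ^ 1 := (pow_one _).symm
      _ ≤ _ := pow_le_pow_right₀ h3 hi

/-- **Symbol bounds of a radial function, uniform constant.** -/
theorem sym_of_radialQ {δ : ℝ} (hδ : 0 ≤ δ) (j : ℕ) : ∃ K : ℝ, 0 ≤ K ∧ ∀ (V : ℝ → ℂ) (B : ℝ),
    ContDiffOn ℝ ∞ V (Ici 0) → 0 ≤ B →
    (∀ i ≤ j, ∀ x : ℝ, 0 ≤ x → ‖iteratedDerivWithin i V (Ici 0) x‖ ≤ B * (1 + x) ^ (-δ - i)) →
    ∀ y : R12, ‖iteratedFDeriv ℝ j (rad V) y‖ ≤ K * B * (1 + ‖y‖) ^ (-(2 * δ) - j) := by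
  obtain ⟨D, hD1, hD⟩ := exists_ball_bound j 1
  set s : ℝ := 2 * δ + j with hs
  have hs0 : 0 ≤ s := by positivity
  have hexp : -(2 * δ) - (j : ℝ) = -s := by rw [hs]; ring
  set K1 : ℝ := (j ! : ℝ) * 4 ^ (δ + j) * D ^ j with hK1
  have hK10 : 0 ≤ K1 := by positivity
  refine ⟨K1 * 2 ^ s, by positivity, ?_⟩
  intro V B hV hB0 hdec y
  rw [hexp]
  have hQ : ContDiff ℝ ∞ (rad V) := contDiff_rad hV
  have h4 : (1 : ℝ) ≤ 4 ^ (δ + (j : ℝ)) := Real.one_le_rpow (by norm_num) (by positivity)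
  rcases le_or_gt ‖y‖ 1 with hy | hy
  · -- small y
    have hgb : ∀ i, i ≤ j → ‖iteratedFDerivWithin ℝ i V (Ici 0) (sq y)‖ ≤ B := by
      intro i hi
      rw [norm_iteratedFDerivWithin_eq_norm_iteratedDerivWithin]
      refine (hdec i hi (sq y) (sq_nonneg y)).trans ?_
      have : (1 + sq y) ^ (-δ - (i : ℝ)) ≤ 1 := by
        apply Real.rpow_le_one_of_one_le_of_nonpos
        · have := sq_nonneg y; linarith
        · have : (0 : ℝ) ≤ i := Nat.cast_nonneg i
          linarith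
      nlinarith
    have hmain := norm_iteratedFDeriv_comp_le' (n := j) (N := ∞) (t := Ici (0:ℝ))
      (g := V) (f := sq)
      (by rintro _ ⟨w, rfl⟩; exact sq_nonneg w) (uniqueDiffOn_Ici 0) hV contDiff_sq
      (by exact_mod_cast le_top) y hgb (fun i hi hij => hD y hy i hi hij)
    have h1 : ‖iteratedFDeriv ℝ j (rad V) y‖ ≤ (j ! : ℝ) * B * D ^ j := hmain
    have h2 : (1 : ℝ) ≤ 2 ^ s * (1 + ‖y‖) ^ (-s) := by
      rw [Real.rpow_neg (by positivity), ← div_eq_mul_inv, one_le_div (by positivity)]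
      exact Real.rpow_le_rpow (by positivity) (by linarith) hs0
    have h3 : (j ! : ℝ) * B * D ^ j ≤ K1 * B := by
      rw [hK1]
      have : 0 ≤ (j ! : ℝ) * B * D ^ j := by positivity
      nlinarith
    calc ‖iteratedFDeriv ℝ j (rad V) y‖ ≤ K1 * B * 1 := by rw [mul_one]; exact h1.trans h3
      _ ≤ K1 * B * (2 ^ s * (1 + ‖y‖) ^ (-s)) :=
          mul_le_mul_of_nonneg_left h2 (by positivity)
      _ = K1 * 2 ^ s * B * (1 + ‖y‖) ^ (-s) := by ring
  · -- large y
    have hypos : 0 < ‖y‖ := by linarith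
    have hsq : 0 < sq y := by unfold sq; positivity
    set l : ℝ := ‖y‖ with hl
    set z : R12 := l⁻¹ • y with hz
    have hz1 : ‖z‖ = 1 := by
      rw [hz, norm_smul, norm_inv, Real.norm_of_nonneg hypos.le, inv_mul_cancel₀ hypos.ne']
    have hlz : l • z = y := by rw [hz, smul_smul, mul_inv_cancel₀ hypos.ne', one_smul]
    have hcomp : (fun w : R12 => rad V (l • w)) = (fun t : ℝ => V (l ^ 2 * t)) ∘ sq := by
      funext w
      simp only [rad, sq, Function.comp]
      congr 1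
      rw [norm_smul, Real.norm_of_nonneg hypos.le]; ring
    have hsqz : sq z = 1 / 4 := by rw [sq, hz1]; norm_num
    have hg : ContDiffOn ℝ ∞ (fun t : ℝ => V (l ^ 2 * t)) (Ici 0) := by
      refine hV.comp (by fun_prop) ?_
      intro t ht
      have ht' : (0 : ℝ) ≤ t := ht
      show (0 : ℝ) ≤ l ^ 2 * t
      positivity
    have hgb : ∀ i, i ≤ j → ‖iteratedFDerivWithin ℝ i (fun t : ℝ => V (l ^ 2 * t)) (Ici 0) (sq z)‖
        ≤ B * 4 ^ (δ + j) * l ^ (-(2 * δ)) := by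
      intro i hi
      rw [norm_iteratedFDerivWithin_eq_norm_iteratedDerivWithin, hsqz]
      have h1 := iteratedDerivWithin_comp_const_smul (n := i) (f := V) (s := Ici (0:ℝ)) (x := (1/4 : ℝ))
        (by norm_num : (1/4 : ℝ) ∈ Ici (0:ℝ)) (uniqueDiffOn_Ici 0)
        (hV.of_le (by exact_mod_cast le_top)) (l ^ 2) (by
          intro t ht
          have ht' : (0 : ℝ) ≤ t := ht
          show (0 : ℝ) ≤ l ^ 2 * t
          positivity)
      rw [h1, norm_smul]
      have h2 : l ^ 2 * (1 / 4) = sq y := by rw [sq]; ring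
      rw [h2]
      have h4 : ‖iteratedDerivWithin i V (Ici 0) (sq y)‖ ≤ B * (sq y) ^ (-δ - i) := by
        refine (hdec i hi (sq y) hsq.le).trans ?_
        refine mul_le_mul_of_nonneg_left ?_ hB0
        apply Real.rpow_le_rpow_of_nonpos hsq (by linarith)
        have : (0 : ℝ) ≤ i := Nat.cast_nonneg i
        linarith
      have h5 : ‖(l ^ 2 : ℝ) ^ i‖ = l ^ ((2 * i : ℕ) : ℝ) := by
        rw [Real.norm_of_nonneg (by positivity), Real.rpow_natCast, pow_mul]
      have h6 : (sq y) ^ (-δ - (i : ℝ)) = 4 ^ (δ + (i : ℝ)) * l ^ (-(2 * δ) - (2 * i : ℕ)) := by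
        have e1 : sq y = l ^ (2 : ℝ) * 4⁻¹ := by rw [sq, Real.rpow_two]; ring
        rw [e1, Real.mul_rpow (by positivity) (by norm_num), ← Real.rpow_mul hypos.le,
          Real.inv_rpow (by norm_num), ← Real.rpow_neg (by norm_num)]
        rw [mul_comm]
        congr 1
        · congr 1; ring
        · congr 1; push_cast; ring
      calc ‖(l ^ 2 : ℝ) ^ i‖ * ‖iteratedDerivWithin i V (Ici 0) (sq y)‖
          ≤ ‖(l ^ 2 : ℝ) ^ i‖ * (B * (sq y) ^ (-δ - i)) :=
            mul_le_mul_of_nonneg_left h4 (norm_nonneg _)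
        _ = B * 4 ^ (δ + (i : ℝ)) * (l ^ ((2 * i : ℕ) : ℝ) * l ^ (-(2 * δ) - (2 * i : ℕ))) := by
            rw [h5, h6]; ring
        _ = B * 4 ^ (δ + (i : ℝ)) * l ^ (-(2 * δ)) := by
            rw [← Real.rpow_add hypos]; congr 2; ring
        _ ≤ B * 4 ^ (δ + j) * l ^ (-(2 * δ)) := by
            have : (4 : ℝ) ^ (δ + (i : ℝ)) ≤ 4 ^ (δ + (j : ℝ)) := by
              apply Real.rpow_le_rpow_of_exponent_le (by norm_num)
              have : (i : ℝ) ≤ j := by exact_mod_cast hi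
              linarith
            have h7 : 0 ≤ l ^ (-(2 * δ)) := by positivity
            exact mul_le_mul_of_nonneg_right (mul_le_mul_of_nonneg_left this hB0) h7
    have hmain := norm_iteratedFDeriv_comp_le' (n := j) (N := ∞) (t := Ici (0:ℝ))
      (g := fun t : ℝ => V (l ^ 2 * t)) (f := sq)
      (by rintro _ ⟨w, rfl⟩; exact sq_nonneg w) (uniqueDiffOn_Ici 0) hg contDiff_sq
      (by exact_mod_cast le_top) z hgb (fun i hi hij => hD z hz1.le i hi hij)
    rw [← hcomp] at hmain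
    have hsc := congrFun (iteratedFDeriv_comp_const_smul (i := j) l
      (hQ.of_le (by exact_mod_cast le_top) : ContDiff ℝ j (rad V))) z
    rw [hsc, norm_smul, hlz] at hmain
    have h8 : ‖l ^ j‖ = l ^ (j : ℝ) := by
      rw [Real.norm_of_nonneg (by positivity), Real.rpow_natCast]
    rw [h8] at hmain
    have h9 : ‖iteratedFDeriv ℝ j (rad V) y‖
        = l ^ (-(j : ℝ)) * (l ^ (j : ℝ) * ‖iteratedFDeriv ℝ j (rad V) y‖) := by
      rw [← mul_assoc, ← Real.rpow_add hypos]; simp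
    have h10 : ‖iteratedFDeriv ℝ j (rad V) y‖ ≤ K1 * B * l ^ (-s) := by
      rw [h9]
      calc l ^ (-(j : ℝ)) * (l ^ (j : ℝ) * ‖iteratedFDeriv ℝ j (rad V) y‖)
          ≤ l ^ (-(j : ℝ)) * ((j ! : ℝ) * (B * 4 ^ (δ + j) * l ^ (-(2 * δ))) * D ^ j) :=
            mul_le_mul_of_nonneg_left hmain (by positivity)
        _ = K1 * B * (l ^ (-(j : ℝ)) * l ^ (-(2 * δ))) := by rw [hK1]; ring
        _ = K1 * B * l ^ (-s) := by
            rw [← Real.rpow_add hypos]; congr 2; rw [hs]; ring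
    have h2 : l ^ (-s) ≤ 2 ^ s * (1 + l) ^ (-s) := by
      rw [Real.rpow_neg hypos.le, Real.rpow_neg (by positivity), ← div_eq_mul_inv,
        le_div_iff₀ (by positivity), ← Real.inv_rpow hypos.le, ← Real.mul_rpow (by positivity) (by positivity)]
      apply Real.rpow_le_rpow (by positivity) _ hs0
      rw [inv_mul_le_iff₀ hypos]
      linarith
    calc ‖iteratedFDeriv ℝ j (rad V) y‖ ≤ K1 * B * l ^ (-s) := h10
      _ ≤ K1 * B * (2 ^ s * (1 + l) ^ (-s)) := mul_le_mul_of_nonneg_left h2 (by positivity)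
      _ = K1 * 2 ^ s * B * (1 + l) ^ (-s) := by ring

/-! ### quantitative symbol lemma -/

open SymX

/-- one dyadic piece, uniform constant -/
theorem pieceQ (δ : ℝ) (N : ℕ) : ∃ C : ℝ, 0 ≤ C ∧ ∀ (f : R12 → ℂ) (B : ℝ), ContDiff ℝ ∞ f → 0 ≤ B →
    (∀ k ≤ N + 13, ∀ y, ‖iteratedFDeriv ℝ k f y‖ ≤ B * (1 + ‖y‖) ^ (-δ - k)) →
    ∀ R : ℝ, 1 ≤ R → RepB N (C * B * R ^ (-δ)) (fun y => psi (R⁻¹ • y) * f y) := by
  obtain ⟨C₀, hC₀, hcomp⟩ := repD_compact N
  choose! A hA0 hA using fun m => deriv_bdd psi_smooth (fun y hy => psi_outer hy.le) m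
  set E : ℕ → ℝ := fun k => 5 ^ |(-δ - k)| with hE
  have hE0 : ∀ k, 0 ≤ E k := fun k => by simp only [hE]; positivity
  set Bm : ℕ → ℝ := fun m => ∑ i ∈ Finset.range (m + 1), (m.choose i : ℝ) * A i * E (m - i) with hBm
  have hBm0 : ∀ m, 0 ≤ Bm m := fun m => Finset.sum_nonneg fun i _ => by
    have := hA0 i; have := hE0 (m - i); positivity
  set Bt : ℝ := ∑ m ∈ Finset.range (N + 13 + 1), Bm m with hBt
  have hBt0 : 0 ≤ Bt := Finset.sum_nonneg fun m _ => hBm0 m
  refine ⟨C₀ * Bt, by positivity, ?_⟩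
  intro f B hf hB0 hfb R hR
  have hR0 : 0 < R := lt_of_lt_of_le one_pos hR
  have hRp : 0 ≤ R ^ (-δ) := by positivity
  have hsc : ∀ (k : ℕ), k ≤ N + 13 → ∀ (z : R12), 1 ≤ ‖z‖ → ‖z‖ ≤ 4 →
      ‖iteratedFDeriv ℝ k (fun x => f (R • x)) z‖ ≤ E k * B * R ^ (-δ) := by
    intro k hk z hz1 hz4
    have h1 := iteratedFDeriv_comp_const_smul (𝕜 := ℝ) (i := k) R (hf.of_le (by exact_mod_cast le_top))
    rw [h1, norm_smul, norm_pow, Real.norm_of_nonneg hR0.le]
    have h2 := hfb k hk (R • z)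
    rw [norm_smul, Real.norm_of_nonneg hR0.le] at h2
    have h3 : (1 + R * ‖z‖) ^ (-δ - k) ≤ 5 ^ |(-δ - k)| * R ^ (-δ - k) := by
      rcases le_total 0 (-δ - k) with hs | hs
      · rw [abs_of_nonneg hs, ← Real.mul_rpow (by norm_num) hR0.le]
        refine Real.rpow_le_rpow (by positivity) ?_ hs
        nlinarith
      · have e1 : (1 + R * ‖z‖) ^ (-δ - k) ≤ R ^ (-δ - k) :=
          Real.rpow_le_rpow_of_nonpos hR0 (by nlinarith) hs
        have e2 : (1:ℝ) ≤ 5 ^ |(-δ - k)| := Real.one_le_rpow (by norm_num) (abs_nonneg _)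
        have e3 : 0 ≤ R ^ (-δ - k) := by positivity
        nlinarith
    have h4 : R ^ k * R ^ (-δ - k) = R ^ (-δ) := by
      rw [← Real.rpow_natCast R k, ← Real.rpow_add hR0]
      congr 1
      ring
    calc R ^ k * ‖iteratedFDeriv ℝ k f (R • z)‖
        ≤ R ^ k * (B * (1 + R * ‖z‖) ^ (-δ - k)) := by gcongr
      _ ≤ R ^ k * (B * (5 ^ |(-δ - k)| * R ^ (-δ - k))) := by
          exact mul_le_mul_of_nonneg_left (mul_le_mul_of_nonneg_left h3 hB0) (by positivity)
      _ = E k * B * (R ^ k * R ^ (-δ - k)) := by simp only [hE]; ring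
      _ = E k * B * R ^ (-δ) := by rw [h4]
  have hgs : ContDiff ℝ ∞ (fun z : R12 => psi z * f (R • z)) :=
    psi_smooth.mul (hf.comp (contDiff_const_smul R))
  have hgz : ∀ y : R12, 4 < ‖y‖ → psi y * f (R • y) = 0 := by
    intro y hy
    rw [psi_outer hy.le, zero_mul]
  have hgb : ∀ m ≤ N + 13, ∀ y : R12,
      ‖iteratedFDeriv ℝ m (fun z : R12 => psi z * f (R • z)) y‖ ≤ Bt * B * R ^ (-δ) := by
    intro m hm y
    rcases lt_or_ge ‖y‖ 1 with hy | hy
    · have h1 : (fun z : R12 => psi z * f (R • z)) =ᶠ[𝓝 y] fun _ => (0 : ℂ) := by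
        have : {z : R12 | ‖z‖ < 1} ∈ 𝓝 y := (isOpen_lt continuous_norm continuous_const).mem_nhds hy
        filter_upwards [this] with z hz
        rw [psi_inner (le_of_lt hz), zero_mul]
      rw [(h1.iteratedFDeriv ℝ m).eq_of_nhds]
      simp only [iteratedFDeriv_fun_zero, Pi.zero_apply, norm_zero]
      positivity
    rcases lt_or_ge 4 ‖y‖ with hy4 | hy4
    · have h1 : (fun z : R12 => psi z * f (R • z)) =ᶠ[𝓝 y] fun _ => (0 : ℂ) := by
        have : {z : R12 | 4 < ‖z‖} ∈ 𝓝 y := (isOpen_lt continuous_const continuous_norm).mem_nhds hy4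
        filter_upwards [this] with z hz
        rw [psi_outer (le_of_lt hz), zero_mul]
      rw [(h1.iteratedFDeriv ℝ m).eq_of_nhds]
      simp only [iteratedFDeriv_fun_zero, Pi.zero_apply, norm_zero]
      positivity
    have hl := norm_iteratedFDeriv_mul_le (𝕜 := ℝ) (N := ∞) psi_smooth
      (hf.comp (contDiff_const_smul R)) y (n := m) (by exact_mod_cast le_top)
    refine hl.trans ?_
    calc ∑ i ∈ Finset.range (m + 1), (m.choose i : ℝ) * ‖iteratedFDeriv ℝ i psi y‖ *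
          ‖iteratedFDeriv ℝ (m - i) (f ∘ fun x => R • x) y‖
        ≤ ∑ i ∈ Finset.range (m + 1), (m.choose i : ℝ) * A i * (E (m - i) * B * R ^ (-δ)) := by
          refine Finset.sum_le_sum fun i _ => ?_
          have h7 := hA i y
          have h8 := hsc (m - i) (by omega) y hy hy4
          have h9 := hA0 i
          gcongr
          exact h8
      _ = Bm m * B * R ^ (-δ) := by
          simp only [hBm]
          rw [Finset.sum_mul, Finset.sum_mul]
          refine Finset.sum_congr rfl fun i _ => ?_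
          ring
      _ ≤ Bt * B * R ^ (-δ) := by
          refine mul_le_mul_of_nonneg_right (mul_le_mul_of_nonneg_right ?_ hB0) hRp
          exact Finset.single_le_sum (f := Bm) (fun i _ => hBm0 i)
            (Finset.mem_range.2 (by omega))
  have h10 := (hcomp _ _ hgs hgz hgb).dil hR
  have h11 : (fun y : R12 => psi (R⁻¹ • y) * f (R • (R⁻¹ • y))) = fun y => psi (R⁻¹ • y) * f y := by
    funext y
    rw [smul_smul, mul_inv_cancel₀ hR0.ne', one_smul]
  rw [h11] at h10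
  refine ⟨_, (h10.mono (le_of_eq ?_))⟩
  ring

/-- inner piece, uniform constant -/
theorem innerQ (δ : ℝ) (N : ℕ) : ∃ C : ℝ, 0 ≤ C ∧ ∀ (f : R12 → ℂ) (B : ℝ), ContDiff ℝ ∞ f → 0 ≤ B →
    (∀ k ≤ N + 13, ∀ y, ‖iteratedFDeriv ℝ k f y‖ ≤ B * (1 + ‖y‖) ^ (-δ - k)) →
    RepB N (C * B) (fun y => cut y * f y) := by
  obtain ⟨C₀, hC₀, hcomp⟩ := repD_compact N
  choose! A hA0 hA using fun m => deriv_bdd cut_smooth
    (fun y (hy : (4:ℝ) < ‖y‖) => cut_zero (by linarith : (2:ℝ) ≤ ‖y‖)) m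
  set E : ℕ → ℝ := fun k => 5 ^ |(-δ - k)| with hE
  have hE0 : ∀ k, 0 ≤ E k := fun k => by simp only [hE]; positivity
  set Bm : ℕ → ℝ := fun m => ∑ i ∈ Finset.range (m + 1), (m.choose i : ℝ) * A i * E (m - i) with hBm
  have hBm0 : ∀ m, 0 ≤ Bm m := fun m => Finset.sum_nonneg fun i _ => by
    have := hA0 i; have := hE0 (m - i); positivity
  set Bt : ℝ := ∑ m ∈ Finset.range (N + 13 + 1), Bm m with hBt
  have hBt0 : 0 ≤ Bt := Finset.sum_nonneg fun m _ => hBm0 m
  refine ⟨C₀ * Bt, by positivity, ?_⟩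
  intro f B hf hB0 hfb
  have hgs : ContDiff ℝ ∞ (fun y => cut y * f y) := cut_smooth.mul hf
  have hgz : ∀ y : R12, 4 < ‖y‖ → cut y * f y = 0 := by
    intro y hy
    rw [cut_zero (by linarith), zero_mul]
  have hgb : ∀ m ≤ N + 13, ∀ y : R12,
      ‖iteratedFDeriv ℝ m (fun z : R12 => cut z * f z) y‖ ≤ Bt * B := by
    intro m hm y
    rcases lt_or_ge 4 ‖y‖ with hy4 | hy4
    · have h1 : (fun z : R12 => cut z * f z) =ᶠ[𝓝 y] fun _ => (0 : ℂ) := by
        have : {z : R12 | 4 < ‖z‖} ∈ 𝓝 y := (isOpen_lt continuous_const continuous_norm).mem_nhds hy4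
        filter_upwards [this] with z hz
        exact hgz z hz
      rw [(h1.iteratedFDeriv ℝ m).eq_of_nhds]
      simp only [iteratedFDeriv_fun_zero, Pi.zero_apply, norm_zero]
      positivity
    have hl := norm_iteratedFDeriv_mul_le (𝕜 := ℝ) (N := ∞) cut_smooth hf y (n := m)
      (by exact_mod_cast le_top)
    refine hl.trans ?_
    calc ∑ i ∈ Finset.range (m + 1), (m.choose i : ℝ) * ‖iteratedFDeriv ℝ i cut y‖ *
          ‖iteratedFDeriv ℝ (m - i) f y‖
        ≤ ∑ i ∈ Finset.range (m + 1), (m.choose i : ℝ) * A i * (E (m - i) * B) := by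
          refine Finset.sum_le_sum fun i _ => ?_
          have h7 := hA i y
          have h8 : ‖iteratedFDeriv ℝ (m - i) f y‖ ≤ E (m - i) * B := by
            refine (hfb (m - i) (by omega) y).trans ?_
            rw [mul_comm]
            refine mul_le_mul_of_nonneg_right ?_ hB0
            have hy0 := norm_nonneg y
            simp only [hE]
            calc (1 + ‖y‖) ^ (-δ - ((m - i : ℕ) : ℝ)) ≤ (1 + ‖y‖) ^ |(-δ - ((m - i : ℕ) : ℝ))| :=
                  Real.rpow_le_rpow_of_exponent_le (by linarith) (le_abs_self _)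
              _ ≤ 5 ^ |(-δ - ((m - i : ℕ) : ℝ))| :=
                  Real.rpow_le_rpow (by positivity) (by linarith) (abs_nonneg _)
          have h9 := hA0 i
          gcongr
      _ = Bm m * B := by
          simp only [hBm]
          rw [Finset.sum_mul]
          refine Finset.sum_congr rfl fun i _ => ?_
          ring
      _ ≤ Bt * B := by
          refine mul_le_mul_of_nonneg_right ?_ hB0
          exact Finset.single_le_sum (f := Bm) (fun i _ => hBm0 i)
            (Finset.mem_range.2 (by omega))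
  have h10 := hcomp _ _ hgs hgz hgb
  refine ⟨_, (h10.mono (le_of_eq ?_))⟩
  ring

/-- **Quantitative symbol lemma.** -/
theorem symQ {δ : ℝ} (hδ : 0 < δ) (N : ℕ) : ∃ C : ℝ, 0 ≤ C ∧ ∀ (f : R12 → ℂ) (B : ℝ),
    ContDiff ℝ ∞ f → 0 ≤ B →
    (∀ k ≤ N + 13, ∀ y, ‖iteratedFDeriv ℝ k f y‖ ≤ B * (1 + ‖y‖) ^ (-δ - k)) →
    RepB N (C * B) f := by
  obtain ⟨C, hC, hp⟩ := pieceQ δ N
  obtain ⟨C', hC', hi⟩ := innerQ δ N
  have hr : (0:ℝ) < 2 ^ (-δ) := by positivity
  have hr1 : (2:ℝ) ^ (-δ) < 1 := Real.rpow_lt_one_of_one_lt_of_neg one_lt_two (by linarith)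
  have hgeo := hasSum_geometric_of_lt_one hr.le hr1
  have hinv : 0 ≤ (1 - (2:ℝ) ^ (-δ))⁻¹ := inv_nonneg.2 (by linarith)
  refine ⟨C * (1 - 2 ^ (-δ))⁻¹ + C', by positivity, ?_⟩
  intro f B hf hB0 hfb
  have hpj : ∀ j : ℕ, RepB N (C * B * ((2:ℝ) ^ (-δ)) ^ j)
      (fun y => psi (((2:ℝ) ^ j)⁻¹ • y) * f y) := by
    intro j
    have h1 := hp f B hf hB0 hfb (2 ^ j) (one_le_pow₀ one_le_two)
    have h2 : ((2:ℝ) ^ j) ^ (-δ) = ((2:ℝ) ^ (-δ)) ^ j := by
      rw [← Real.rpow_natCast, ← Real.rpow_mul (by norm_num),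
        ← Real.rpow_natCast, ← Real.rpow_mul (by norm_num), mul_comm (j:ℝ)]
    rwa [h2] at h1
  have hs : Summable fun j : ℕ => C * B * ((2:ℝ) ^ (-δ)) ^ j := hgeo.summable.mul_left _
  have h4 := RepB.tsum hpj hs (f := fun y => (1 - cut y) * f y) (fun y =>
    (psi_hasSum y).mul_right (f y))
  have h5 := h4.add (hi f B hf hB0 hfb)
  have h6 : (fun y : R12 => (1 - cut y) * f y + cut y * f y) = f := by
    funext y; ring
  rw [h6] at h5
  refine h5.mono (le_of_eq ?_)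
  rw [tsum_mul_left, hgeo.tsum_eq]
  ring

end Crest.Agent.R086.BRad
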