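import Mathlib
import Crest.Agent.R086.BQuant

/-!
Row 86 (S0114), Part B (helper97): radial symbols are in the weighted Wiener algebra with uniform
constants (`symQ_radial`), also with an extra factor `y_i` (`symQ_coord`).
-/

set_option autoImplicit false

open MeasureTheory Set Filter Topology Complex
open scoped ContDiff Nat

namespace Crest.Agent.R086.BRad

open SymX

/-- uniform constant for all orders `≤ J` -/
theorem sym_of_radialQ' {δ : ℝ} (hδ : 0 ≤ δ) (J : ℕ) : ∃ K : ℝ, 0 ≤ K ∧ ∀ (V : ℝ → ℂ) (B : ℝ),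
    ContDiffOn ℝ ∞ V (Ici 0) → 0 ≤ B →
    (∀ i ≤ J, ∀ x : ℝ, 0 ≤ x → ‖iteratedDerivWithin i V (Ici 0) x‖ ≤ B * (1 + x) ^ (-δ - i)) →
    ∀ j ≤ J, ∀ y : R12, ‖iteratedFDeriv ℝ j (rad V) y‖ ≤ K * B * (1 + ‖y‖) ^ (-(2 * δ) - j) := by
  choose K hK0 hK using fun j : ℕ => sym_of_radialQ hδ j
  refine ⟨∑ j ∈ Finset.range (J + 1), K j, Finset.sum_nonneg fun i _ => hK0 i, ?_⟩
  intro V B hV hB hdec j hj y
  refine (hK j V B hV hB (fun i hi => hdec i (hi.trans hj)) y).trans ?_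
  have h1 : K j ≤ ∑ j ∈ Finset.range (J + 1), K j :=
    Finset.single_le_sum (f := K) (fun i _ => hK0 i) (Finset.mem_range.2 (by omega))
  have h2 : 0 ≤ (1 + ‖y‖) ^ (-(2 * δ) - (j : ℝ)) := by positivity
  exact mul_le_mul_of_nonneg_right (mul_le_mul_of_nonneg_right h1 hB) h2

/-- **Radial symbols are in `X_N`, uniform constant.** -/
theorem symQ_radial {δ : ℝ} (hδ : 0 < δ) (N : ℕ) : ∃ C : ℝ, 0 ≤ C ∧ ∀ (V : ℝ → ℂ) (B : ℝ),
    ContDiffOn ℝ ∞ V (Ici 0) → 0 ≤ B →
    (∀ i ≤ N + 13, ∀ x : ℝ, 0 ≤ x →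
      ‖iteratedDerivWithin i V (Ici 0) x‖ ≤ B * (1 + x) ^ (-δ - i)) →
    RepB N (C * B) (rad V) := by
  obtain ⟨K, hK0, hK⟩ := sym_of_radialQ' hδ.le (N + 13)
  obtain ⟨C, hC0, hC⟩ := symQ (δ := 2 * δ) (by positivity) N
  refine ⟨C * K, by positivity, ?_⟩
  intro V B hV hB hdec
  have h := hC (rad V) (K * B) (contDiff_rad hV) (by positivity)
    (fun k hk y => hK V B hV hB hdec k hk y)
  refine h.mono (le_of_eq ?_)
  ring

/-- the coordinate function as a continuous linear map to `ℂ` -/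
noncomputable def coordC (i : Fin 12) : R12 →L[ℝ] ℂ :=
  Complex.ofRealCLM.comp (EuclideanSpace.proj i : R12 →L[ℝ] ℝ)

theorem coordC_apply (i : Fin 12) (y : R12) : coordC i y = ((y i : ℝ) : ℂ) := by
  simp [coordC]

theorem norm_coordC_apply_le (i : Fin 12) (y : R12) : ‖coordC i y‖ ≤ ‖y‖ := by
  rw [coordC_apply, Complex.norm_real]
  exact PiLp.norm_apply_le y i

theorem norm_coordC_le (i : Fin 12) : ‖coordC i‖ ≤ 1 :=
  ContinuousLinearMap.opNorm_le_bound _ zero_le_one fun y => by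
    rw [one_mul]; exact norm_coordC_apply_le i y

theorem norm_iteratedFDeriv_coordC (i : Fin 12) (m : ℕ) (y : R12) :
    ‖iteratedFDeriv ℝ m (fun y => coordC i y) y‖ ≤ if m = 0 then ‖y‖ else if m = 1 then 1 else 0 := by
  rcases m with _ | m
  · simp only [if_true, norm_iteratedFDeriv_zero]
    exact norm_coordC_apply_le i y
  rw [if_neg (Nat.succ_ne_zero m)]
  have hf : fderiv ℝ (fun y : R12 => coordC i y) = fun _ => coordC i := by
    funext y
    exact (coordC i).fderiv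
  rw [← norm_iteratedFDeriv_fderiv, hf]
  rcases m with _ | m
  · simp only [norm_iteratedFDeriv_zero]
    simpa using norm_coordC_le i
  · rw [if_neg (by omega), iteratedFDeriv_const_of_ne (Nat.succ_ne_zero m)]
    simp

/-- **Radial symbols times a coordinate.** -/
theorem symQ_coord {δ : ℝ} (hδ : 1 / 2 < δ) (N : ℕ) : ∃ C : ℝ, 0 ≤ C ∧ ∀ (V : ℝ → ℂ) (B : ℝ),
    ContDiffOn ℝ ∞ V (Ici 0) → 0 ≤ B →
    (∀ i ≤ N + 13, ∀ x : ℝ, 0 ≤ x →
      ‖iteratedDerivWithin i V (Ici 0) x‖ ≤ B * (1 + x) ^ (-δ - i)) →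
    ∀ i : Fin 12, RepB N (C * B) (fun y => ((y i : ℝ) : ℂ) * rad V y) := by
  obtain ⟨K, hK0, hK⟩ := sym_of_radialQ' (δ := δ) (by linarith) (N + 13)
  obtain ⟨C, hC0, hC⟩ := symQ (δ := 2 * δ - 1) (by linarith) N
  refine ⟨C * ((N + 14 : ℕ) * K), by positivity, ?_⟩
  intro V B hV hB hdec i
  have hfun : (fun y : R12 => ((y i : ℝ) : ℂ) * rad V y) = fun y => coordC i y * rad V y := by
    funext y; rw [coordC_apply]
  have hcd : ContDiff ℝ ∞ (fun y : R12 => coordC i y) := (coordC i).contDiff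
  rw [hfun]
  have h := hC (fun y => coordC i y * rad V y) ((N + 14 : ℕ) * K * B)
    (hcd.mul (contDiff_rad hV)) (by positivity) ?_
  · refine h.mono (le_of_eq ?_)
    ring
  intro k hk y
  have hl := norm_iteratedFDeriv_mul_le (𝕜 := ℝ) (N := ∞) hcd (contDiff_rad hV) y (n := k)
    (by exact_mod_cast le_top)
  refine hl.trans ?_
  have hy0 : 0 < 1 + ‖y‖ := by positivity
  set T : ℝ := (1 + ‖y‖) ^ (-(2 * δ - 1) - (k : ℝ)) with hT
  have hT0 : 0 ≤ T := by positivity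
  have hterm : ∀ m ∈ Finset.range (k + 1),
      (k.choose m : ℝ) * ‖iteratedFDeriv ℝ m (fun y => coordC i y) y‖ *
        ‖iteratedFDeriv ℝ (k - m) (rad V) y‖ ≤ if m = 0 then K * B * T else if m = 1 then k * (K * B * T) else 0 := by
    intro m hm
    have hmk : m ≤ k := by simpa [Nat.lt_succ_iff] using hm
    have h1 := norm_iteratedFDeriv_coordC i m y
    have h2 := hK V B hV hB hdec (k - m) (by omega) y
    rcases Nat.eq_zero_or_pos m with h0 | hpos
    · subst h0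
      simp only [if_true] at h1 ⊢
      simp only [Nat.choose_zero_right, Nat.cast_one, one_mul, Nat.sub_zero] at h2 ⊢
      have e : (1 + ‖y‖) * (1 + ‖y‖) ^ (-(2 * δ) - (k : ℝ)) = T := by
        rw [hT]
        nth_rewrite 1 [← Real.rpow_one (1 + ‖y‖)]
        rw [← Real.rpow_add hy0]
        congr 1; ring
      calc ‖iteratedFDeriv ℝ 0 (fun y => coordC i y) y‖ * ‖iteratedFDeriv ℝ k (rad V) y‖
          ≤ (1 + ‖y‖) * (K * B * (1 + ‖y‖) ^ (-(2 * δ) - (k : ℝ))) := by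
            refine mul_le_mul (h1.trans (by linarith)) h2 (norm_nonneg _) hy0.le
        _ = K * B * ((1 + ‖y‖) * (1 + ‖y‖) ^ (-(2 * δ) - (k : ℝ))) := by ring
        _ = K * B * T := by rw [e]
    · rw [if_neg hpos.ne'] at h1 ⊢
      rcases eq_or_ne m 1 with h1' | h1'
      · subst h1'
        rw [if_pos rfl] at h1 ⊢
        have e : (1 + ‖y‖) ^ (-(2 * δ) - ((k - 1 : ℕ) : ℝ)) = T := by
          rw [hT]
          congr 1
          rw [Nat.cast_sub hmk]
          push_cast; ring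
        rw [e] at h2
        rw [Nat.choose_one_right]
        calc (k : ℝ) * ‖iteratedFDeriv ℝ 1 (fun y => coordC i y) y‖ * ‖iteratedFDeriv ℝ (k - 1) (rad V) y‖
            ≤ (k : ℝ) * 1 * (K * B * T) := by gcongr
          _ = k * (K * B * T) := by ring
      · rw [if_neg h1'] at h1 ⊢
        have h3 : ‖iteratedFDeriv ℝ m (fun y => coordC i y) y‖ = 0 := le_antisymm h1 (norm_nonneg _)
        rw [h3]; simp
  refine (Finset.sum_le_sum hterm).trans ?_
  have hKBT : 0 ≤ K * B * T := by positivity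
  have hbound : ∀ m ∈ Finset.range (k + 1),
      (if m = 0 then K * B * T else if m = 1 then k * (K * B * T) else 0)
        ≤ (if m = 0 then K * B * T else 0) + (if m = 1 then k * (K * B * T) else 0) := by
    intro m _
    split_ifs <;> simp_all
  refine (Finset.sum_le_sum hbound).trans ?_
  rw [Finset.sum_add_distrib, Finset.sum_ite_eq', Finset.sum_ite_eq']
  have h5 : (if (0:ℕ) ∈ Finset.range (k + 1) then K * B * T else 0) ≤ K * B * T := by
    split_ifs <;> simp [hKBT]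
  have h6 : (if (1:ℕ) ∈ Finset.range (k + 1) then (k : ℝ) * (K * B * T) else 0) ≤ k * (K * B * T) := by
    have : 0 ≤ (k : ℝ) * (K * B * T) := by positivity
    split_ifs <;> simp [this]
  have h7 : (k : ℝ) + 1 ≤ ((N + 14 : ℕ) : ℝ) := by exact_mod_cast (by omega : k + 1 ≤ N + 14)
  calc _ ≤ K * B * T + k * (K * B * T) := add_le_add h5 h6
    _ = ((k : ℝ) + 1) * (K * B * T) := by ring
    _ ≤ ((N + 14 : ℕ) : ℝ) * (K * B * T) := mul_le_mul_of_nonneg_right h7 hKBT
    _ = ((N + 14 : ℕ) : ℝ) * K * B * (1 + ‖y‖) ^ (-(2 * δ - 1) - (k : ℝ)) := by rw [hT]; ring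

end Crest.Agent.R086.BRad
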