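import Mathlib
import Crest.Agent.R086.Defs
import Crest.Agent.R086.BRad

/-!
Row 86 (S0114), Part B (helper97): Laplacian and Euler field of radial functions `V(|y|²/4)`,
and the structure `Profile n` from a radial solution.
-/

set_option autoImplicit false

open MeasureTheory Set Filter Topology Complex
open scoped ContDiff Nat

namespace Crest.Agent.R086.BRad

theorem sq_pos {y : R12} (hy : y ≠ 0) : 0 < sq y := by
  have : 0 < ‖y‖ := norm_pos_iff.2 hy
  unfold sq; positivity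

theorem hasFDerivAt_sq (y : R12) : HasFDerivAt sq ((2 : ℝ)⁻¹ • innerSL ℝ y) y := by
  have h := (hasStrictFDerivAt_norm_sq y).hasFDerivAt.mul_const (4 : ℝ)⁻¹
  have h2 : ((4 : ℝ)⁻¹ • (2 • innerSL ℝ y) : R12 →L[ℝ] ℝ) = (2 : ℝ)⁻¹ • innerSL ℝ y := by
    ext v
    simp
    ring
  rw [← h2]
  exact h

/-- first derivative of a radial function off the origin -/
theorem hasFDerivAt_rad {V : ℝ → ℂ} {y : R12} {v1 : ℂ} (hV : HasDerivAt V v1 (sq y)) :
    HasFDerivAt (rad V) (((2 : ℝ)⁻¹ • innerSL ℝ y).smulRight v1) y := by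
  have h := hV.hasFDerivAt.comp y (hasFDerivAt_sq y)
  refine h.congr_fderiv ?_
  ext v
  simp
  ring

theorem two_le_infty : (2 : ℕ∞ω) ≤ ∞ := WithTop.coe_le_coe.2 le_top

theorem fderiv_rad_apply {V : ℝ → ℂ} {y : R12} {v1 : ℂ} (hV : HasDerivAt V v1 (sq y)) (v : R12) :
    fderiv ℝ (rad V) y v = (((2 : ℝ)⁻¹ * inner ℝ y v : ℝ) : ℂ) * v1 := by
  rw [(hasFDerivAt_rad hV).fderiv]
  simp

theorem eul_rad {V : ℝ → ℂ} {y : R12} {v1 : ℂ} (hV : HasDerivAt V v1 (sq y)) :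
    eul (rad V) y = ((2 * sq y : ℝ) : ℂ) * v1 := by
  rw [eul, fderiv_rad_apply hV]
  congr 2
  rw [real_inner_self_eq_norm_sq, sq]; ring

/-- second derivative of a radial function in a fixed direction -/
theorem iteratedFDeriv_two_rad {V V1 : ℝ → ℂ} {v2 : ℂ} {y : R12}
    (hV : ∀ᶠ x in 𝓝 (sq y), HasDerivAt V (V1 x) x) (hV1 : HasDerivAt V1 v2 (sq y))
    (hQ : DifferentiableAt ℝ (fderiv ℝ (rad V)) y) (v : R12) :
    iteratedFDeriv ℝ 2 (rad V) y ![v, v]
      = (((2 : ℝ)⁻¹ * inner ℝ v v : ℝ) : ℂ) * V1 (sq y)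
        + ((((2 : ℝ)⁻¹ * inner ℝ y v) ^ 2 : ℝ) : ℂ) * v2 := by
  rw [iteratedFDeriv_two_apply]
  simp only [Matrix.cons_val_zero, Matrix.cons_val_one]
  have h1 : HasFDerivAt (fun w : R12 => fderiv ℝ (rad V) w v)
      ((fderiv ℝ (fderiv ℝ (rad V)) y).flip v) y := by
    have := hQ.hasFDerivAt.clm_apply (hasFDerivAt_const v y)
    refine this.congr_fderiv ?_
    ext w
    simp
  have hev : (fun w : R12 => fderiv ℝ (rad V) w v)
      =ᶠ[𝓝 y] fun w => (((2 : ℝ)⁻¹ * inner ℝ w v : ℝ) : ℂ) * V1 (sq w) := by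
    have := (continuous_sq.tendsto y).eventually hV
    filter_upwards [this] with w hw
    exact fderiv_rad_apply hw v
  have h2 : HasFDerivAt (fun w : R12 => (((2 : ℝ)⁻¹ * inner ℝ w v : ℝ) : ℂ) * V1 (sq w))
      ((((((2 : ℝ)⁻¹ * inner ℝ y v : ℝ) : ℂ)) • (((2 : ℝ)⁻¹ • innerSL ℝ y).smulRight v2))
        + (((2 : ℝ)⁻¹ • innerSL ℝ v).smulRight (V1 (sq y)))) y := by
    have ha : HasFDerivAt (fun w : R12 => (((2 : ℝ)⁻¹ * inner ℝ w v : ℝ) : ℂ))
        (((2 : ℝ)⁻¹ • innerSL ℝ v).smulRight (1 : ℂ)) y := by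
      have h3 : HasFDerivAt (fun w : R12 => (2 : ℝ)⁻¹ * inner ℝ w v) ((2 : ℝ)⁻¹ • innerSL ℝ v) y := by
        have h4 : HasFDerivAt (fun w : R12 => ((2 : ℝ)⁻¹ • innerSL ℝ v : R12 →L[ℝ] ℝ) w)
            ((2 : ℝ)⁻¹ • innerSL ℝ v) y := ContinuousLinearMap.hasFDerivAt _
        refine h4.congr_of_eventuallyEq ?_
        refine Eventually.of_forall fun w => ?_
        simp [real_inner_comm]
      have h5 := Complex.ofRealCLM.hasFDerivAt.comp y h3
      refine h5.congr_fderiv ?_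
      ext w
      simp
    have hb := hasFDerivAt_rad (V := V1) (y := y) hV1
    have hc := ha.mul hb
    refine hc.congr_fderiv ?_
    ext w
    simp [rad]
    ring
  have h3 := h1.unique (h2.congr_of_eventuallyEq hev)
  have h4 := congrArg (fun L : R12 →L[ℝ] ℂ => L v) h3
  simp only [ContinuousLinearMap.flip_apply] at h4
  rw [h4]
  simp
  ring

theorem lap_rad {V V1 : ℝ → ℂ} {v2 : ℂ} {y : R12}
    (hV : ∀ᶠ x in 𝓝 (sq y), HasDerivAt V (V1 x) x) (hV1 : HasDerivAt V1 v2 (sq y))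
    (hQ : DifferentiableAt ℝ (fderiv ℝ (rad V)) y) :
    lap (rad V) y = ((sq y : ℝ) : ℂ) * v2 + 6 * V1 (sq y) := by
  unfold lap
  simp_rw [iteratedFDeriv_two_rad hV hV1 hQ]
  rw [Finset.sum_add_distrib, ← Finset.sum_mul, ← Finset.sum_mul]
  have h1 : ∀ i : Fin 12, inner ℝ (ei i) (ei i) = (1 : ℝ) := by
    intro i
    simp [ei]
  have h2 : ∀ i : Fin 12, inner ℝ y (ei i) = y i := by
    intro i
    simp [ei, EuclideanSpace.inner_single_right]
  simp_rw [h1, h2]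
  have h3 : ∑ i : Fin 12, ((((2 : ℝ)⁻¹ * y i) ^ 2 : ℝ) : ℂ) = ((sq y : ℝ) : ℂ) := by
    rw [← Complex.ofReal_sum]
    congr 1
    rw [sq, EuclideanSpace.norm_sq_eq, Finset.sum_div]
    refine Finset.sum_congr rfl fun i _ => ?_
    rw [Real.norm_eq_abs, sq_abs]; ring
  rw [h3]
  simp
  ring

/-- **From a radial solution to the structure `Profile n`.** Here `V : [0,∞) → ℂ` is the profile in
the variable `x = |y|²/4`. -/
theorem profile_of_V (n : ℕ) (hn : Even n) (h2n : 2 ≤ n) (om : ℝ) (V V1 V2 : ℝ → ℂ)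
    (hV : ContDiffOn ℝ ∞ V (Ici 0))
    (hdec : ∀ j : ℕ, ∃ C X : ℝ, ∀ x : ℝ, X ≤ x →
      ‖iteratedDerivWithin j V (Ici 0) x‖ ≤ C * x ^ (-(1 / (n : ℝ)) - j))
    (h1 : ∀ x : ℝ, 0 < x → HasDerivAt V (V1 x) x)
    (h2 : ∀ x : ℝ, 0 < x → HasDerivAt V1 (V2 x) x)
    (hode : ∀ x : ℝ, 0 < x → (x : ℂ) * V2 x + (6 + I * x) * V1 x + ((om : ℂ) + I / n) * V x
      = ((‖V x‖ ^ n : ℝ) : ℂ) * V x)
    (h0 : V 0 ≠ 0) :
    ∃ P : Profile n, P.om = om ∧ P.Q = fun y : R12 => V (‖y‖ ^ 2 / 4) := by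
  have hQ : ContDiff ℝ ∞ (rad V) := contDiff_rad hV
  have hQ1 : ∀ y, DifferentiableAt ℝ (fderiv ℝ (rad V)) y := by
    intro y
    have : ContDiff ℝ 1 (fderiv ℝ (rad V)) := by
      refine ((hQ.of_le two_le_infty).fderiv_right (m := 1) ?_)
      norm_num
    exact (this.differentiable one_ne_zero) y
  have heq0 : ∀ y : R12, y ≠ 0 → lap (rad V) y + (I / 2) * eul (rad V) y
      + ((om : ℂ) + I / n) * rad V y = ((‖rad V y‖ ^ n : ℝ) : ℂ) * rad V y := by
    intro y hy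
    have hs := sq_pos hy
    have hev : ∀ᶠ x in 𝓝 (sq y), HasDerivAt V (V1 x) x := by
      filter_upwards [lt_mem_nhds hs] with x hx using h1 x hx
    rw [lap_rad hev (h2 _ hs) (hQ1 y), eul_rad (h1 _ hs)]
    rw [rad, ← hode (sq y) hs]
    push_cast
    ring
  have hlapc : Continuous (lap (rad V)) := by
    unfold lap
    refine continuous_finsetSum _ fun i _ => ?_
    have hc : Continuous fun y : R12 => iteratedFDeriv ℝ 2 (rad V) y :=
      hQ.continuous_iteratedFDeriv two_le_infty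
    exact (ContinuousMultilinearMap.apply ℝ (fun _ : Fin 2 => R12) ℂ ![ei i, ei i]).continuous.comp hc
  have heulc : Continuous (eul (rad V)) := by
    unfold eul
    have hc : Continuous (fderiv ℝ (rad V)) := hQ.continuous_fderiv (by simp)
    exact hc.clm_apply continuous_id
  have heq : ∀ y : R12, lap (rad V) y + (I / 2) * eul (rad V) y
      + ((om : ℂ) + I / n) * rad V y = ((‖rad V y‖ ^ n : ℝ) : ℂ) * rad V y := by
    have hL : Continuous fun y : R12 => lap (rad V) y + (I / 2) * eul (rad V) y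
      + ((om : ℂ) + I / n) * rad V y := by
      have := hQ.continuous
      fun_prop
    have hR : Continuous fun y : R12 => ((‖rad V y‖ ^ n : ℝ) : ℂ) * rad V y := by
      have := hQ.continuous
      fun_prop
    have hdense : Dense ({0}ᶜ : Set R12) := dense_compl_singleton 0
    have := hL.ext_on hdense hR (fun y hy => heq0 y hy)
    intro y
    exact congrFun this y
  refine ⟨{ om := om, Q := rad V, neven := hn, two_le := h2n, smooth := hQ,
            radial := ⟨fun r => V (r ^ 2 / 4), fun y => rfl⟩, decay := ?_, eqn := heq,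
            Q_zero := ?_ }, rfl, rfl⟩
  · intro j
    obtain ⟨C, hC⟩ := sym_of_radial (δ := 1 / (n : ℝ)) (by positivity) hV hdec j
    refine ⟨C, fun y => ?_⟩
    have h := hC y
    have e : -(2 * (1 / (n : ℝ))) - (j : ℝ) = -(2 : ℝ) / n - j := by ring
    rwa [e] at h
  · simpa [rad, sq] using h0

end Crest.Agent.R086.BRad
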