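import Crest.Agent.R086.RLiftB
import Crest.Agent.R086.BDefs
import Crest.Agent.R086.BRad2

/-!
Row 86 (S0114), Part B, item (5) of the frozen plan (helper367): regularity of the radial solution at
the origin, in the variable `x = r²/4`, and the structure `Profile n` from the pair `(v, v1)`.
-/

set_option autoImplicit false

open Complex Set Filter Topology
open scoped ContDiff

namespace Crest.Agent.R086.BSm0

variable {n : ℕ} {om eps : ℝ} {v v1 : ℝ → ℂ}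

/-- the profile in the variable `x = r²/4` -/
noncomputable def Vx (v : ℝ → ℂ) (x : ℝ) : ℂ := v (2 * Real.sqrt x)

/-- its first derivative -/
noncomputable def Vx1 (v1 : ℝ → ℂ) (x : ℝ) : ℂ := ((Real.sqrt x : ℝ) : ℂ)⁻¹ * v1 (2 * Real.sqrt x)

/-- its second derivative (from the equation) -/
noncomputable def Vx2 (n : ℕ) (om eps : ℝ) (v v1 : ℝ → ℂ) (x : ℝ) : ℂ :=
  (x : ℂ)⁻¹ * (((‖Vx v x‖ ^ n : ℝ) : ℂ) * Vx v x - (6 + I * x) * Vx1 v1 x
    - ((om : ℂ) + I * eps) * Vx v x)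

theorem sqrt_pos' {x : ℝ} (hx : 0 < x) : 0 < 2 * Real.sqrt x := by
  have := Real.sqrt_pos.2 hx
  positivity

theorem hasDerivAt_two_sqrt {x : ℝ} (hx : 0 < x) :
    HasDerivAt (fun x : ℝ => 2 * Real.sqrt x) ((Real.sqrt x)⁻¹) x := by
  have h := (Real.hasDerivAt_sqrt hx.ne').const_mul 2
  refine h.congr_deriv ?_
  have := (Real.sqrt_pos.2 hx).ne'
  field_simp

theorem Vx_zero : Vx v 0 = v 0 := by simp [Vx]

theorem Vx_sq {r : ℝ} (hr : 0 ≤ r) : Vx v (r ^ 2 / 4) = v r := by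
  have : r ^ 2 / 4 = (r / 2) ^ 2 := by ring
  rw [Vx, this, Real.sqrt_sq (by positivity)]
  congr 1; ring

theorem Vx_hasDerivAt (hs : B.IsSol n om eps v v1 (Ioi 0)) {x : ℝ} (hx : 0 < x) :
    HasDerivAt (Vx v) (Vx1 v1 x) x := by
  have h1 := ((hs _ (mem_Ioi.2 (sqrt_pos' hx))).1).scomp x (hasDerivAt_two_sqrt hx)
  refine h1.congr_deriv ?_
  rw [Complex.real_smul, Vx1]
  push_cast
  rfl

theorem Vx1_hasDerivAt (hs : B.IsSol n om eps v v1 (Ioi 0)) {x : ℝ} (hx : 0 < x) :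
    HasDerivAt (Vx1 v1) (Vx2 n om eps v v1 x) x := by
  have hq : 0 < Real.sqrt x := Real.sqrt_pos.2 hx
  have hq' : ((Real.sqrt x : ℝ) : ℂ) ≠ 0 := by exact_mod_cast hq.ne'
  have hx' : (x : ℂ) ≠ 0 := by exact_mod_cast hx.ne'
  have hxx : ((Real.sqrt x : ℝ) : ℂ) * ((Real.sqrt x : ℝ) : ℂ) = (x : ℂ) := by
    rw [← Complex.ofReal_mul, Real.mul_self_sqrt hx.le]
  have h1 := ((hs _ (mem_Ioi.2 (sqrt_pos' hx))).2).scomp x (hasDerivAt_two_sqrt hx)
  have h2 : HasDerivAt (fun x : ℝ => ((Real.sqrt x : ℝ) : ℂ)⁻¹)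
      (-((1 / (2 * Real.sqrt x) : ℝ) : ℂ) / ((Real.sqrt x : ℝ) : ℂ) ^ 2) x :=
    ((Real.hasDerivAt_sqrt hx.ne').ofReal_comp).fun_inv hq'
  have h3 := h2.mul h1
  refine h3.congr_deriv ?_
  simp only [Function.comp_def, Complex.real_smul, Vx2, Vx1, Vx]
  push_cast
  set w := v (2 * Real.sqrt x)
  set w1 := v1 (2 * Real.sqrt x)
  set q : ℂ := ((Real.sqrt x : ℝ) : ℂ) with hqdef
  rw [← hxx]
  field_simp
  ring

theorem Vx_ode {x : ℝ} (hx : 0 < x) :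
    (x : ℂ) * Vx2 n om eps v v1 x + (6 + I * x) * Vx1 v1 x + ((om : ℂ) + I * eps) * Vx v x
      = ((‖Vx v x‖ ^ n : ℝ) : ℂ) * Vx v x := by
  have hx' : (x : ℂ) ≠ 0 := by exact_mod_cast hx.ne'
  rw [Vx2]
  field_simp
  ring

/-- the profile is smooth up to `x = 0` -/
theorem Vx_contDiffOn (hn : Even n) (hc : ContinuousOn v (Ici 0))
    (hb : ∃ C r0 : ℝ, 0 < r0 ∧ ∀ r, 0 < r → r ≤ r0 → ‖v1 r‖ ≤ C)
    (hs : B.IsSol n om eps v v1 (Ioi 0)) : ContDiffOn ℝ ∞ (Vx v) (Ici 0) := by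
  have hG : ContDiffOn ℝ ∞ (RLift.Gf v) (Ici 0) := by
    refine RLift.Gf_contDiffOn (n := n) (c := (om : ℂ) + I * eps) (v1 := v1) hn
      (fun r hr => (hs r hr).1) (fun r hr => ?_) hc hb
    refine (hs r hr).2
  have h4 : ContDiffOn ℝ ∞ (fun x : ℝ => RLift.Gf v (4 * x)) (Ici 0) := by
    refine hG.comp (t := Ici 0) (f := fun x : ℝ => 4 * x) ?_ ?_
    · exact (contDiff_const.mul contDiff_id).contDiffOn
    · intro x hx
      have := mem_Ici.1 hx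
      exact mem_Ici.2 (by positivity)
  refine h4.congr fun x hx => ?_
  rw [Vx, RLift.Gf, Real.sqrt_mul (by norm_num : (0 : ℝ) ≤ 4)]
  have : Real.sqrt 4 = 2 := by
    rw [show (4 : ℝ) = 2 ^ 2 by norm_num, Real.sqrt_sq (by norm_num)]
  rw [this]

theorem bdd_near_zero (hc1 : ContinuousOn v1 (Ici 0)) :
    ∃ C r0 : ℝ, 0 < r0 ∧ ∀ r, 0 < r → r ≤ r0 → ‖v1 r‖ ≤ C := by
  have h : ContinuousOn v1 (Icc 0 1) := hc1.mono Icc_subset_Ici_self
  obtain ⟨C, hC⟩ := isCompact_Icc.exists_bound_of_continuousOn h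
  exact ⟨C, 1, one_pos, fun r h0 h1 => hC r ⟨h0.le, h1⟩⟩

/-- smooth up to `x = 0`, from continuity of `v`, `v1` on `[0,∞)` -/
theorem Vx_contDiffOn' (hn : Even n) (hc : ContinuousOn v (Ici 0)) (hc1 : ContinuousOn v1 (Ici 0))
    (hs : B.IsSol n om eps v v1 (Ioi 0)) : ContDiffOn ℝ ∞ (Vx v) (Ici 0) :=
  Vx_contDiffOn hn hc (bdd_near_zero hc1) hs

/-- `v` itself is smooth on `(0,∞)` -/
theorem v_contDiffOn (hn : Even n) (hc : ContinuousOn v (Ici 0)) (hc1 : ContinuousOn v1 (Ici 0))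
    (hs : B.IsSol n om eps v v1 (Ioi 0)) : ContDiffOn ℝ ∞ v (Ici 0) := by
  have h := Vx_contDiffOn' hn hc hc1 hs
  have h4 : ContDiffOn ℝ ∞ (fun r : ℝ => Vx v (r ^ 2 / 4)) (Ici 0) := by
    refine h.comp (t := Ici 0) (f := fun r : ℝ => r ^ 2 / 4) ?_ ?_
    · exact ((contDiff_id.pow 2).div_const 4).contDiffOn
    · intro x _
      exact mem_Ici.2 (by positivity)
  exact h4.congr fun r hr => (Vx_sq (mem_Ici.1 hr)).symm

/-- **item (5)**: the structure `Profile n` from the radial pair `(v, v1)`. -/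
theorem profile_of_sol (n : ℕ) (hn : Even n) (h2n : 2 ≤ n) (om : ℝ) (v v1 : ℝ → ℂ)
    (hc : ContinuousOn v (Ici 0)) (hc1 : ContinuousOn v1 (Ici 0))
    (hs : B.IsSol n om (1 / n) v v1 (Ioi 0))
    (hdec : ∀ j : ℕ, ∃ C : ℝ, ∀ᶠ x : ℝ in atTop,
      ‖iteratedDeriv j (Vx v) x‖ ≤ C * x ^ (-(1 / (n : ℝ)) - j))
    (h0 : v 0 ≠ 0) :
    ∃ P : Profile n, P.om = om ∧ P.Q = fun y : R12 => v ‖y‖ := by
  have hV := Vx_contDiffOn' hn hc hc1 hs
  obtain ⟨P, hP1, hP2⟩ := BRad.profile_of_V n hn h2n om (Vx v) (Vx1 v1) (Vx2 n om (1 / n) v v1) hV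
    (fun j => by
      obtain ⟨C, hC⟩ := hdec j
      obtain ⟨X, hX⟩ := eventually_atTop.1 hC
      refine ⟨C, max X 1, fun x hx => ?_⟩
      have hx0 : 0 < x := lt_of_lt_of_le one_pos (le_trans (le_max_right _ _) hx)
      have hCD : ContDiffAt ℝ ∞ (Vx v) x := hV.contDiffAt (Ici_mem_nhds hx0)
      rw [iteratedDerivWithin_eq_iteratedDeriv (uniqueDiffOn_Ici 0)
        (hCD.of_le (by exact_mod_cast le_top)) (mem_Ici.2 hx0.le)]
      exact hX x (le_trans (le_max_left _ _) hx))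
    (fun x hx => Vx_hasDerivAt hs hx) (fun x hx => Vx1_hasDerivAt hs hx)
    (fun x hx => by
      have := Vx_ode (n := n) (om := om) (eps := 1 / n) (v := v) (v1 := v1) hx
      rw [← this]
      push_cast
      ring)
    (by rw [Vx_zero]; exact h0)
  refine ⟨P, hP1, ?_⟩
  rw [hP2]
  funext y
  exact Vx_sq (norm_nonneg y)

end Crest.Agent.R086.BSm0
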