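import Mathlib
import Crest.Agent.R086.BFin1
import Crest.Agent.R086.BSm0
import Crest.Agent.R086.BQuant2

/-!
Row 86 (S0114), Part B (helper97): the field `poly` of `BData` from `BSeq` and the polynomial bounds
on a compact interval (`T3Out`).
-/

set_option autoImplicit false

open MeasureTheory Set Filter Topology Complex
open scoped ContDiff

namespace Crest.Agent.R086.B

variable {om0 R : ℝ} {U U1 : ℝ → ℂ}

/-- Output of T3 (helper2), in the form used here: polynomial bounds in `n` of all derivatives of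
the three potentials on `[0,b)`, `b > X`. -/
def T3Out (S : BSeq om0 R U U1) : Prop :=
  ∃ b : ℝ, S.X < b ∧ ∀ j : ℕ, ∃ K N : ℕ, ∀ n : ℕ, N ≤ n → Even n → ∀ x ∈ Ico (0:ℝ) b,
    ‖iteratedDerivWithin j (wA n (toX (S.v n))) (Ici 0) x‖ ≤ (n:ℝ) ^ K ∧
    ‖iteratedDerivWithin j (wB n (toX (S.v n))) (Ici 0) x‖ ≤ (n:ℝ) ^ K ∧
    ‖iteratedDerivWithin j (wC n (toX (S.v n))) (Ici 0) x‖ ≤ (n:ℝ) ^ K

namespace BFin

theorem contDiffOn_toX (S : BSeq om0 R U U1) {n : ℕ} (hn : S.n1 ≤ n) (he : Even n) :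
    ContDiffOn ℝ ∞ (toX (S.v n)) (Ici 0) := by
  obtain ⟨h1, h2, -, h4⟩ := S.sol n hn he
  exact BSm0.Vx_contDiffOn' he h1 h2 h4

theorem norm_pow_even {n : ℕ} (he : Even n) (z : ℂ) :
    ((‖z‖ ^ n : ℝ) : ℂ) = (z * (starRingEnd ℂ) z) ^ (n / 2) := by
  obtain ⟨m, hm⟩ := he
  have hm2 : n / 2 = m := by omega
  rw [hm2, Complex.mul_conj, Complex.normSq_eq_norm_sq, ← Complex.ofReal_pow]
  congr 1
  rw [hm, ← two_mul, pow_mul]

theorem contDiffOn_conj {V : ℝ → ℂ} {s : Set ℝ} (hV : ContDiffOn ℝ ∞ V s) :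
    ContDiffOn ℝ ∞ (fun x => (starRingEnd ℂ) (V x)) s :=
  Complex.conjCLE.contDiff.comp_contDiffOn hV

theorem contDiffOn_wA {V : ℝ → ℂ} {s : Set ℝ} (hV : ContDiffOn ℝ ∞ V s) {n : ℕ} (he : Even n) :
    ContDiffOn ℝ ∞ (wA n V) s := by
  have : wA n V = fun x => (V x * (starRingEnd ℂ) (V x)) ^ (n / 2) := by
    funext x
    exact norm_pow_even he (V x)
  rw [this]
  exact (hV.mul (contDiffOn_conj hV)).pow _

theorem contDiffOn_wB {V : ℝ → ℂ} {s : Set ℝ} (hV : ContDiffOn ℝ ∞ V s) {n : ℕ} (he : Even n) :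
    ContDiffOn ℝ ∞ (wB n V) s := by
  have he2 : Even (n - 2) := by
    obtain ⟨m, hm⟩ := he
    exact ⟨m - 1, by omega⟩
  exact (contDiffOn_wA hV he2).mul (hV.pow 2)

theorem contDiffOn_wC {V : ℝ → ℂ} {s : Set ℝ} (hV : ContDiffOn ℝ ∞ V s) {n : ℕ} (he : Even n) :
    ContDiffOn ℝ ∞ (wC n V) s := by
  have he2 : Even (n - 2) := by
    obtain ⟨m, hm⟩ := he
    exact ⟨m - 1, by omega⟩
  exact (contDiffOn_wA hV he2).mul ((contDiffOn_conj hV).pow 2)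

theorem iteratedDerivWithin_eq_of_pos {w : ℝ → ℂ} (j : ℕ) {x : ℝ} (hx : 0 < x) :
    iteratedDerivWithin j w (Ici 0) x = iteratedDeriv j w x := by
  rw [← iteratedDerivWithin_univ, iteratedDerivWithin, iteratedDerivWithin]
  congr 1
  rw [iteratedFDerivWithin_congr_set]
  filter_upwards [lt_mem_nhds hx] with t ht
  simp only [eq_iff_iff]
  constructor
  · intro _; trivial
  · intro _; exact ht.le

/-- polynomial bounds on `[0,b)` and symbol bounds on `(X,∞)` give polynomial symbol bounds -/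
theorem glue_poly {w : ℕ → ℝ → ℂ} {X b q : ℝ} {C : ℕ → ℝ} {n1 : ℕ} (hX : 1 ≤ X) (hb : X < b)
    (hq0 : 0 < q) (hq1 : q < 1)
    (h1 : ∀ j : ℕ, ∃ K N : ℕ, ∀ n : ℕ, N ≤ n → Even n → ∀ x ∈ Ico (0:ℝ) b,
      ‖iteratedDerivWithin j (w n) (Ici 0) x‖ ≤ (n:ℝ) ^ K)
    (h2 : ∀ n : ℕ, n1 ≤ n → Even n → SymX (fun j => C j * q ^ n) 1 X (w n)) (J : ℕ) :
    ∃ K N : ℕ, n1 ≤ N ∧ ∀ n : ℕ, N ≤ n → Even n → ∀ j ≤ J, ∀ x : ℝ, 0 ≤ x →
      ‖iteratedDerivWithin j (w n) (Ici 0) x‖ ≤ (n:ℝ) ^ K * (1 + x) ^ (-(1:ℝ) - j) := by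
  choose K N hKN using h1
  set D : ℝ := ∑ j ∈ Finset.range (J + 1), (|C j| * 2 ^ ((1:ℝ) + j) + (1 + b) ^ ((1:ℝ) + j)) with hD
  have hb0 : 0 < 1 + b := by linarith
  have hterm0 : ∀ j : ℕ, 0 ≤ |C j| * 2 ^ ((1:ℝ) + j) + (1 + b) ^ ((1:ℝ) + j) := fun j => by positivity
  have hDj : ∀ j ≤ J, |C j| * 2 ^ ((1:ℝ) + j) + (1 + b) ^ ((1:ℝ) + j) ≤ D := fun j hj =>
    Finset.single_le_sum (f := fun j : ℕ => |C j| * 2 ^ ((1:ℝ) + j) + (1 + b) ^ ((1:ℝ) + j))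
      (fun i _ => hterm0 i) (Finset.mem_range.2 (by omega))
  set Km : ℕ := ∑ j ∈ Finset.range (J + 1), K j with hKm
  have hKj : ∀ j ≤ J, K j ≤ Km := fun j hj =>
    Finset.single_le_sum (f := K) (fun i _ => Nat.zero_le _) (Finset.mem_range.2 (by omega))
  set Nm : ℕ := ∑ j ∈ Finset.range (J + 1), N j with hNm
  have hNj : ∀ j ≤ J, N j ≤ Nm := fun j hj =>
    Finset.single_le_sum (f := N) (fun i _ => Nat.zero_le _) (Finset.mem_range.2 (by omega))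
  obtain ⟨N2, hN2⟩ := exists_nat_ge D
  refine ⟨Km + 1, Nm + n1 + N2 + 1, by omega, ?_⟩
  intro n hn he j hj x hx
  have hnN : N j ≤ n := (hNj j hj).trans (by omega)
  have hn1 : n1 ≤ n := by omega
  have hnr : (1:ℝ) ≤ n := by exact_mod_cast (by omega : 1 ≤ n)
  have hnD : D ≤ n := hN2.trans (by exact_mod_cast (by omega : N2 ≤ n))
  have hj0 : (0:ℝ) ≤ j := Nat.cast_nonneg j
  have hx1 : 0 < 1 + x := by linarith
  have hDjn : |C j| * 2 ^ ((1:ℝ) + j) + (1 + b) ^ ((1:ℝ) + j) ≤ n := (hDj j hj).trans hnD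
  have hA0 : 0 ≤ |C j| * 2 ^ ((1:ℝ) + j) := by positivity
  have hB0 : 0 ≤ (1 + b) ^ ((1:ℝ) + j) := by positivity
  rcases lt_or_ge x b with hxb | hxb
  · have h3 := hKN j n hnN he x ⟨hx, hxb⟩
    have h4 : (1:ℝ) ≤ (1 + b) ^ ((1:ℝ) + j) * (1 + x) ^ (-(1:ℝ) - j) := by
      have e : (1 + x) ^ (-(1:ℝ) - j) = ((1 + x) ^ ((1:ℝ) + j))⁻¹ := by
        rw [← Real.rpow_neg hx1.le]; congr 1; ring
      rw [e, ← div_eq_mul_inv, one_le_div (by positivity)]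
      exact Real.rpow_le_rpow hx1.le (by linarith) (by positivity)
    calc ‖iteratedDerivWithin j (w n) (Ici 0) x‖ ≤ (n:ℝ) ^ K j := h3
      _ ≤ (n:ℝ) ^ Km := pow_le_pow_right₀ hnr (hKj j hj)
      _ = (n:ℝ) ^ Km * 1 := (mul_one _).symm
      _ ≤ (n:ℝ) ^ Km * ((1 + b) ^ ((1:ℝ) + j) * (1 + x) ^ (-(1:ℝ) - j)) :=
          mul_le_mul_of_nonneg_left h4 (by positivity)
      _ = (n:ℝ) ^ Km * (1 + b) ^ ((1:ℝ) + j) * (1 + x) ^ (-(1:ℝ) - j) := by ring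
      _ ≤ (n:ℝ) ^ Km * n * (1 + x) ^ (-(1:ℝ) - j) := by
          refine mul_le_mul_of_nonneg_right ?_ (by positivity)
          exact mul_le_mul_of_nonneg_left (by linarith) (by positivity)
      _ = (n:ℝ) ^ (Km + 1) * (1 + x) ^ (-(1:ℝ) - j) := by rw [pow_succ]
  · have hxX : X < x := lt_of_lt_of_le hb hxb
    have hx0 : 0 < x := by linarith
    rw [iteratedDerivWithin_eq_of_pos j hx0]
    have h3 := (h2 n hn1 he).2 j x hxX
    have hqn : q ^ n ≤ 1 := pow_le_one₀ hq0.le hq1.le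
    have hqn0 : 0 ≤ q ^ n := by positivity
    have h4 : x ^ (-(1:ℝ) - j) ≤ 2 ^ ((1:ℝ) + j) * (1 + x) ^ (-(1:ℝ) - j) := by
      have e : (1 + x) ^ (-(1:ℝ) - j) = ((1 + x) ^ ((1:ℝ) + j))⁻¹ := by
        rw [← Real.rpow_neg hx1.le]; congr 1; ring
      have e' : x ^ (-(1:ℝ) - j) = (x ^ ((1:ℝ) + j))⁻¹ := by
        rw [← Real.rpow_neg hx0.le]; congr 1; ring
      rw [e, e', ← div_eq_mul_inv, inv_eq_one_div, div_le_div_iff₀ (by positivity) (by positivity),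
        one_mul, ← Real.mul_rpow (by norm_num) hx0.le]
      exact Real.rpow_le_rpow hx1.le (by linarith) (by positivity)
    calc ‖iteratedDeriv j (w n) x‖ ≤ C j * q ^ n * x ^ (-(1:ℝ) - j) := h3
      _ ≤ |C j| * 1 * (2 ^ ((1:ℝ) + j) * (1 + x) ^ (-(1:ℝ) - j)) := by
          have := le_abs_self (C j)
          have := abs_nonneg (C j)
          have : C j * q ^ n ≤ |C j| * 1 := by nlinarith
          gcongr
      _ = |C j| * 2 ^ ((1:ℝ) + j) * (1 + x) ^ (-(1:ℝ) - j) := by ring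
      _ ≤ n * (1 + x) ^ (-(1:ℝ) - j) := by
          refine mul_le_mul_of_nonneg_right (by linarith) (by positivity)
      _ ≤ (n:ℝ) ^ (Km + 1) * (1 + x) ^ (-(1:ℝ) - j) := by
          refine mul_le_mul_of_nonneg_right ?_ (by positivity)
          calc (n:ℝ) = (n:ℝ) ^ 1 := (pow_one _).symm
            _ ≤ (n:ℝ) ^ (Km + 1) := pow_le_pow_right₀ hnr (by omega)

/-- the bound of one potential, `c n` = factor with `|c n| ≤ n` -/
theorem xbd_poly {w : ℕ → ℝ → ℂ} {X b q : ℝ} {C : ℕ → ℝ} {n1 : ℕ} (hX : 1 ≤ X) (hb : X < b)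
    (hq0 : 0 < q) (hq1 : q < 1)
    (h0 : ∀ n : ℕ, n1 ≤ n → Even n → ContDiffOn ℝ ∞ (w n) (Ici 0))
    (h1 : ∀ j : ℕ, ∃ K N : ℕ, ∀ n : ℕ, N ≤ n → Even n → ∀ x ∈ Ico (0:ℝ) b,
      ‖iteratedDerivWithin j (w n) (Ici 0) x‖ ≤ (n:ℝ) ^ K)
    (h2 : ∀ n : ℕ, n1 ≤ n → Even n → SymX (fun j => C j * q ^ n) 1 X (w n))
    (c : ℕ → ℂ) (hc : ∀ n : ℕ, 2 ≤ n → ‖c n‖ ≤ n) :
    ∃ K N : ℕ, n1 ≤ N ∧ ∀ n : ℕ, N ≤ n → Even n →
      XBd 30 (fun y => c n * BRad.rad (w n) y) ((n:ℝ) ^ K) ∧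
      ∀ i : Fin 12, XBd 0 (fun y => ((y i : ℝ) : ℂ) * (c n * BRad.rad (w n) y)) ((n:ℝ) ^ K) := by
  obtain ⟨K, N, hN1, hKN⟩ := glue_poly hX hb hq0 hq1 h1 h2 43
  obtain ⟨C1, hC10, hC1⟩ := BRad.symQ_radial (δ := 1) one_pos 30
  obtain ⟨C2, hC20, hC2⟩ := BRad.symQ_coord (δ := 1) (by norm_num) 0
  obtain ⟨N2, hN2⟩ := exists_nat_ge (C1 + C2)
  refine ⟨K + 2, N + N2 + 2, by omega, ?_⟩
  intro n hn he
  have hnN : N ≤ n := by omega
  have hn1 : n1 ≤ n := by omega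
  have hnr : (1:ℝ) ≤ n := by exact_mod_cast (by omega : 1 ≤ n)
  have hnC : C1 + C2 ≤ n := hN2.trans (by exact_mod_cast (by omega : N2 ≤ n))
  have hcn := hc n (by omega)
  have hb1 := hKN n hnN he
  have hV := h0 n hn1 he
  have hB : (0:ℝ) ≤ (n:ℝ) ^ K := by positivity
  have key : ∀ C' : ℝ, 0 ≤ C' → C' ≤ n → ‖c n‖ * (C' * (n:ℝ) ^ K) ≤ (n:ℝ) ^ (K + 2) := by
    intro C' h0' h'
    calc ‖c n‖ * (C' * (n:ℝ) ^ K) ≤ n * (n * (n:ℝ) ^ K) := by gcongr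
      _ = (n:ℝ) ^ (K + 2) := by ring
  constructor
  · have h3 := hC1 (w n) ((n:ℝ) ^ K) hV hB (fun i hi x hx => hb1 i (by omega) x hx)
    have h4 := h3.const_mul (c n)
    exact h4.mono (key C1 hC10 (by linarith))
  · intro i
    have h3 := hC2 (w n) ((n:ℝ) ^ K) hV hB (fun i hi x hx => hb1 i (by omega) x hx) i
    have h4 := h3.const_mul (c n)
    have h5 : (fun y : R12 => ((y i : ℝ) : ℂ) * (c n * BRad.rad (w n) y))
        = fun y => c n * (((y i : ℝ) : ℂ) * BRad.rad (w n) y) := by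
      funext y; ring
    rw [h5]
    exact h4.mono (key C2 hC20 (by linarith))

theorem V1_eq {S : BSeq om0 R U U1} {n : ℕ} {P : Profile n} (hP : IsProf S P) :
    P.V1 = fun y => (1 + (n : ℂ) / 2) * BRad.rad (wA n (toX (S.v n))) y := by
  funext y
  unfold Profile.V1 BRad.rad wA BRad.sq
  rw [toX_sq _ (norm_nonneg y), hP.2]

theorem V2_eq {S : BSeq om0 R U U1} {n : ℕ} {P : Profile n} (hP : IsProf S P) :
    P.V2 = fun y => ((n : ℂ) / 2) * BRad.rad (wB n (toX (S.v n))) y := by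
  funext y
  unfold Profile.V2 BRad.rad wB BRad.sq
  rw [toX_sq _ (norm_nonneg y), hP.2]
  ring

theorem V2c_eq {S : BSeq om0 R U U1} {n : ℕ} {P : Profile n} (hP : IsProf S P) :
    P.V2c = fun y => ((n : ℂ) / 2) * BRad.rad (wC n (toX (S.v n))) y := by
  funext y
  unfold Profile.V2c BRad.rad wC BRad.sq
  rw [toX_sq _ (norm_nonneg y), hP.2]
  ring

/-- **Field `poly` of `BData`.** -/
theorem poly (S : BSeq om0 R U U1) (T : T3Out S) :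
    ∃ K : ℕ, ∃ N : ℕ, S.n1 ≤ N ∧ ∀ n, N ≤ n → Even n → ∀ P : Profile n, IsProf S P →
      XBd 30 P.V1 ((n : ℝ) ^ K) ∧ XBd 30 P.V2 ((n : ℝ) ^ K) ∧ XBd 30 P.V2c ((n : ℝ) ^ K) ∧
      ∀ i : Fin 12,
        XBd 0 (fun y => ((y i : ℝ) : ℂ) * P.V1 y) ((n : ℝ) ^ K) ∧
        XBd 0 (fun y => ((y i : ℝ) : ℂ) * P.V2 y) ((n : ℝ) ^ K) ∧
        XBd 0 (fun y => ((y i : ℝ) : ℂ) * P.V2c y) ((n : ℝ) ^ K) := by
  obtain ⟨b, hb, hT⟩ := T
  have hX : 1 ≤ S.X := by have := S.X_ge; linarith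
  have hq0 := S.q_pos
  have hq1 := S.q_lt
  have hcA : ∀ n : ℕ, 2 ≤ n → ‖(1 + (n : ℂ) / 2)‖ ≤ n := by
    intro n hn
    have h2 : (2:ℝ) ≤ n := by exact_mod_cast hn
    refine (norm_add_le _ _).trans ?_
    rw [norm_div]
    simp only [norm_one, Complex.norm_natCast, Complex.norm_ofNat]
    linarith
  have hcB : ∀ n : ℕ, 2 ≤ n → ‖((n : ℂ) / 2)‖ ≤ n := by
    intro n hn
    have h2 : (2:ℝ) ≤ n := by exact_mod_cast hn
    rw [norm_div]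
    simp only [Complex.norm_natCast, Complex.norm_ofNat]
    linarith
  obtain ⟨KA, NA, hNA1, hA⟩ := xbd_poly (w := fun n => wA n (toX (S.v n))) hX hb hq0 hq1
    (fun n hn he => contDiffOn_wA (contDiffOn_toX S hn he) he)
    (fun j => by
      obtain ⟨K, N, h⟩ := hT j
      exact ⟨K, N, fun n hn he x hx => (h n hn he x hx).1⟩)
    (fun n hn he => (S.far n hn he).symA) (fun n => (1 + (n : ℂ) / 2)) hcA
  obtain ⟨KB, NB, hNB1, hB⟩ := xbd_poly (w := fun n => wB n (toX (S.v n))) hX hb hq0 hq1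
    (fun n hn he => contDiffOn_wB (contDiffOn_toX S hn he) he)
    (fun j => by
      obtain ⟨K, N, h⟩ := hT j
      exact ⟨K, N, fun n hn he x hx => (h n hn he x hx).2.1⟩)
    (fun n hn he => (S.far n hn he).symB) (fun n => ((n : ℂ) / 2)) hcB
  obtain ⟨KC, NC, hNC1, hC⟩ := xbd_poly (w := fun n => wC n (toX (S.v n))) hX hb hq0 hq1
    (fun n hn he => contDiffOn_wC (contDiffOn_toX S hn he) he)
    (fun j => by
      obtain ⟨K, N, h⟩ := hT j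
      exact ⟨K, N, fun n hn he x hx => (h n hn he x hx).2.2⟩)
    (fun n hn he => (S.far n hn he).symC) (fun n => ((n : ℂ) / 2)) hcB
  refine ⟨KA + KB + KC, NA + NB + NC + 1, by omega, ?_⟩
  intro n hn he P hP
  have hnr : (1:ℝ) ≤ n := by exact_mod_cast (by omega : 1 ≤ n)
  obtain ⟨a1, a2⟩ := hA n (by omega) he
  obtain ⟨b1, b2⟩ := hB n (by omega) he
  obtain ⟨c1, c2⟩ := hC n (by omega) he
  rw [V1_eq hP, V2_eq hP, V2c_eq hP]
  have eA : (n:ℝ) ^ KA ≤ (n:ℝ) ^ (KA + KB + KC) := pow_le_pow_right₀ hnr (by omega)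
  have eB : (n:ℝ) ^ KB ≤ (n:ℝ) ^ (KA + KB + KC) := pow_le_pow_right₀ hnr (by omega)
  have eC : (n:ℝ) ^ KC ≤ (n:ℝ) ^ (KA + KB + KC) := pow_le_pow_right₀ hnr (by omega)
  have mono : ∀ {N : ℕ} {f : R12 → ℂ} {B B' : ℝ}, XBd N f B → B ≤ B' → XBd N f B' := by
    rintro N f B B' ⟨a, ha, hB⟩ h
    exact ⟨a, ha, hB.trans h⟩
  exact ⟨mono a1 eA, mono b1 eB, mono c1 eC, fun i =>
    ⟨mono (a2 i) eA, mono (b2 i) eB, mono (c2 i) eC⟩⟩

end BFin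

end Crest.Agent.R086.B
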