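import Crest.Agent.R086.Sym
import Crest.Agent.R086.BRad

/-!
Row 86 (S0114), Part B, node T2 (helper35): quantitative symbol lemma and the weighted Fourier norm
of the tail `zeta(|y|²/4) g(|y|²/4)`.
-/

set_option autoImplicit false
set_option linter.style.longLine false

open MeasureTheory Complex Filter Topology
open scoped ContDiff

namespace Crest.Agent.R086.BTail2

open SymX

/-- `f` has symbol bounds of order `-δ` with one constant `B` for the first `M` derivatives. -/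
def SymB (M : ℕ) (δ B : ℝ) (f : R12 → ℂ) : Prop :=
  ∀ k ≤ M, ∀ y : R12, ‖iteratedFDeriv ℝ k f y‖ ≤ B * (1 + ‖y‖) ^ (-δ - k)

/-- one dyadic piece, uniform version -/
theorem pieceQ (N : ℕ) (δ : ℝ) :
    ∃ C : ℝ, 0 ≤ C ∧ ∀ (f : R12 → ℂ) (B : ℝ), ContDiff ℝ ∞ f → 0 ≤ B → SymB (N + 13) δ B f →
      ∀ R : ℝ, 1 ≤ R → RepB N (C * B * R ^ (-δ)) (fun y => psi (R⁻¹ • y) * f y) := by
  obtain ⟨C₀, hC₀, hcomp⟩ := repD_compact N
  choose! A hA0 hA using fun m => deriv_bdd psi_smooth (fun y hy => psi_outer hy.le) m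
  set E : ℕ → ℝ := fun k => 5 ^ |(-δ - k)| with hE
  have hE0 : ∀ k, 0 ≤ E k := fun k => by simp only [hE]; positivity
  set Bm : ℕ → ℝ := fun m => ∑ i ∈ Finset.range (m + 1), (m.choose i : ℝ) * A i * E (m - i) with hBm
  have hBm0 : ∀ m, 0 ≤ Bm m := fun m => Finset.sum_nonneg fun i _ => by
    have := hA0 i; have := hE0 (m - i); positivity
  set Bt : ℝ := ∑ m ∈ Finset.range (N + 13 + 1), Bm m with hBt
  have hBt0 : 0 ≤ Bt := Finset.sum_nonneg fun m _ => hBm0 m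
  refine ⟨C₀ * Bt, by positivity, ?_⟩
  intro f B hf hB0 hD R hR
  have hsc : ∀ k : ℕ, k ≤ N + 13 → ∀ z : R12, 1 ≤ ‖z‖ → ‖z‖ ≤ 4 →
      ‖iteratedFDeriv ℝ k (fun x => f (R • x)) z‖ ≤ B * E k * R ^ (-δ) := by
    intro k hk z hz1 hz4
    have hR0 : 0 < R := lt_of_lt_of_le one_pos hR
    have h1 := iteratedFDeriv_comp_const_smul (𝕜 := ℝ) (i := k) R (hf.of_le (by exact_mod_cast le_top))
    rw [h1, norm_smul, norm_pow, Real.norm_of_nonneg hR0.le]
    have h2 := hD k hk (R • z)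
    rw [norm_smul, Real.norm_of_nonneg hR0.le] at h2
    have h3 : (1 + R * ‖z‖) ^ (-δ - k) ≤ 5 ^ |(-δ - k)| * R ^ (-δ - k) := by
      rcases le_total 0 (-δ - k) with hs | hs
      · rw [abs_of_nonneg hs, ← Real.mul_rpow (by norm_num) hR0.le]
        refine Real.rpow_le_rpow (by positivity) ?_ hs
        nlinarith
      · have e1 : (1 + R * ‖z‖) ^ (-δ - k) ≤ R ^ (-δ - k) :=
          Real.rpow_le_rpow_of_nonpos hR0 (by nlinarith) hs
        have e2 : (1:ℝ) ≤ 5 ^ |(-δ - k)| := Real.one_le_rpow (by norm_num) (abs_nonneg _)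
        have e3 : 0 ≤ R ^ (-δ - k) := by positivity
        nlinarith
    have h4 : R ^ k * R ^ (-δ - k) = R ^ (-δ) := by
      rw [← Real.rpow_natCast R k, ← Real.rpow_add hR0]
      congr 1
      ring
    calc R ^ k * ‖iteratedFDeriv ℝ k f (R • z)‖
        ≤ R ^ k * (B * (1 + R * ‖z‖) ^ (-δ - k)) := by gcongr
      _ ≤ R ^ k * (B * (5 ^ |(-δ - k)| * R ^ (-δ - k))) := by
          exact mul_le_mul_of_nonneg_left (mul_le_mul_of_nonneg_left h3 hB0) (by positivity)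
      _ = B * E k * (R ^ k * R ^ (-δ - k)) := by simp only [hE]; ring
      _ = B * E k * R ^ (-δ) := by rw [h4]
  have hR0 : 0 < R := lt_of_lt_of_le one_pos hR
  have hRp : 0 ≤ R ^ (-δ) := by positivity
  have hgs : ContDiff ℝ ∞ (fun z : R12 => psi z * f (R • z)) :=
    psi_smooth.mul (hf.comp (contDiff_const_smul R))
  have hgz : ∀ y : R12, 4 < ‖y‖ → psi y * f (R • y) = 0 := by
    intro y hy
    rw [psi_outer hy.le, zero_mul]
  have hgb : ∀ m ≤ N + 13, ∀ y : R12,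
      ‖iteratedFDeriv ℝ m (fun z : R12 => psi z * f (R • z)) y‖ ≤ B * Bt * R ^ (-δ) := by
    intro m hm y
    rcases lt_or_ge ‖y‖ 1 with hy | hy
    · have h1 : (fun z : R12 => psi z * f (R • z)) =ᶠ[𝓝 y] fun _ => (0 : ℂ) := by
        have : {z : R12 | ‖z‖ < 1} ∈ 𝓝 y := (isOpen_lt continuous_norm continuous_const).mem_nhds hy
        filter_upwards [this] with z hz
        rw [psi_inner (le_of_lt hz), zero_mul]
      rw [(h1.iteratedFDeriv ℝ m).eq_of_nhds]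
      simp only [iteratedFDeriv_fun_zero, Pi.zero_apply, norm_zero]
      positivity
    rcases lt_or_ge 4 ‖y‖ with hy4 | hy4
    · have h1 : (fun z : R12 => psi z * f (R • z)) =ᶠ[𝓝 y] fun _ => (0 : ℂ) := by
        have : {z : R12 | 4 < ‖z‖} ∈ 𝓝 y := (isOpen_lt continuous_const continuous_norm).mem_nhds hy4
        filter_upwards [this] with z hz
        rw [psi_outer (le_of_lt hz), zero_mul]
      rw [(h1.iteratedFDeriv ℝ m).eq_of_nhds]
      simp only [iteratedFDeriv_fun_zero, Pi.zero_apply, norm_zero]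
      positivity
    have hl := norm_iteratedFDeriv_mul_le (𝕜 := ℝ) (N := ∞) psi_smooth
      (hf.comp (contDiff_const_smul R)) y (n := m) (by exact_mod_cast le_top)
    refine hl.trans ?_
    calc ∑ i ∈ Finset.range (m + 1), (m.choose i : ℝ) * ‖iteratedFDeriv ℝ i psi y‖ *
          ‖iteratedFDeriv ℝ (m - i) (f ∘ fun x => R • x) y‖
        ≤ ∑ i ∈ Finset.range (m + 1), (m.choose i : ℝ) * A i * (B * E (m - i) * R ^ (-δ)) := by
          refine Finset.sum_le_sum fun i _ => ?_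
          have h7 := hA i y
          have h8 := hsc (m - i) (by omega) y hy hy4
          have h9 := hA0 i
          gcongr
          exact h8
      _ = B * Bm m * R ^ (-δ) := by
          simp only [hBm]
          rw [Finset.mul_sum, Finset.sum_mul]
          refine Finset.sum_congr rfl fun i _ => ?_
          ring
      _ ≤ B * Bt * R ^ (-δ) := by
          refine mul_le_mul_of_nonneg_right (mul_le_mul_of_nonneg_left ?_ hB0) hRp
          exact Finset.single_le_sum (f := Bm) (fun i _ => hBm0 i)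
            (Finset.mem_range.2 (by omega))
  have h10 := (hcomp _ _ hgs hgz hgb).dil hR
  have h11 : (fun y : R12 => psi (R⁻¹ • y) * f (R • (R⁻¹ • y))) = fun y => psi (R⁻¹ • y) * f y := by
    funext y
    rw [smul_smul, mul_inv_cancel₀ hR0.ne', one_smul]
  rw [h11] at h10
  refine ⟨_, h10.mono (le_of_eq ?_)⟩
  ring

/-- the inner piece, uniform version -/
theorem innerQ (N : ℕ) (δ : ℝ) (hδ : 0 ≤ δ) :
    ∃ C : ℝ, 0 ≤ C ∧ ∀ (f : R12 → ℂ) (B : ℝ), ContDiff ℝ ∞ f → 0 ≤ B → SymB (N + 13) δ B f →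
      RepB N (C * B) (fun y => cut y * f y) := by
  obtain ⟨C₀, hC₀, hcomp⟩ := repD_compact N
  choose! A hA0 hA using fun m => deriv_bdd cut_smooth
    (fun y hy => cut_zero (by linarith : (2:ℝ) ≤ ‖y‖)) m
  set Bm : ℕ → ℝ := fun m => ∑ i ∈ Finset.range (m + 1), (m.choose i : ℝ) * A i with hBm
  have hBm0 : ∀ m, 0 ≤ Bm m := fun m => Finset.sum_nonneg fun i _ => by
    have := hA0 i; positivity
  set Bt : ℝ := ∑ m ∈ Finset.range (N + 13 + 1), Bm m with hBt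
  have hBt0 : 0 ≤ Bt := Finset.sum_nonneg fun m _ => hBm0 m
  refine ⟨C₀ * Bt, by positivity, ?_⟩
  intro f B hf hB0 hD
  have hs : ContDiff ℝ ∞ (fun y => cut y * f y) := cut_smooth.mul hf
  have hz : ∀ y : R12, 4 < ‖y‖ → cut y * f y = 0 := by
    intro y hy
    rw [cut_zero (by linarith), zero_mul]
  have hfb : ∀ k ≤ N + 13, ∀ y : R12, ‖iteratedFDeriv ℝ k f y‖ ≤ B := by
    intro k hk y
    refine (hD k hk y).trans ?_
    have h1 : (1 + ‖y‖) ^ (-δ - (k:ℝ)) ≤ 1 := by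
      refine Real.rpow_le_one_of_one_le_of_nonpos (by linarith [norm_nonneg y]) ?_
      have : (0:ℝ) ≤ k := Nat.cast_nonneg k
      linarith
    nlinarith
  have hgb : ∀ m ≤ N + 13, ∀ y : R12,
      ‖iteratedFDeriv ℝ m (fun z : R12 => cut z * f z) y‖ ≤ B * Bt := by
    intro m hm y
    have hl := norm_iteratedFDeriv_mul_le (𝕜 := ℝ) (N := ∞) cut_smooth hf y (n := m)
      (by exact_mod_cast le_top)
    refine hl.trans ?_
    calc ∑ i ∈ Finset.range (m + 1), (m.choose i : ℝ) * ‖iteratedFDeriv ℝ i cut y‖ *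
          ‖iteratedFDeriv ℝ (m - i) f y‖
        ≤ ∑ i ∈ Finset.range (m + 1), (m.choose i : ℝ) * A i * B := by
          refine Finset.sum_le_sum fun i _ => ?_
          have h7 := hA i y
          have h8 := hfb (m - i) (by omega) y
          have h9 := hA0 i
          gcongr
      _ = B * Bm m := by
          simp only [hBm]
          rw [Finset.mul_sum]
          refine Finset.sum_congr rfl fun i _ => ?_
          ring
      _ ≤ B * Bt := by
          refine mul_le_mul_of_nonneg_left ?_ hB0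
          exact Finset.single_le_sum (f := Bm) (fun i _ => hBm0 i)
            (Finset.mem_range.2 (by omega))
  refine ⟨_, (hcomp _ _ hs hz hgb).mono (le_of_eq ?_)⟩
  ring

/-- the tail, uniform version -/
theorem tailQ (N : ℕ) (δ : ℝ) (hδ : 0 < δ) :
    ∃ C : ℝ, 0 ≤ C ∧ ∀ (f : R12 → ℂ) (B : ℝ), ContDiff ℝ ∞ f → 0 ≤ B → SymB (N + 13) δ B f →
      ∀ Y : ℝ, 1 ≤ Y → RepB N (C * B * Y ^ (-δ)) (fun y => (1 - cut (Y⁻¹ • y)) * f y) := by
  obtain ⟨C, hC, hp⟩ := pieceQ N δ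
  have hr : (0:ℝ) < 2 ^ (-δ) := by positivity
  have hr1 : (2:ℝ) ^ (-δ) < 1 := Real.rpow_lt_one_of_one_lt_of_neg one_lt_two (by linarith)
  have hgeo := hasSum_geometric_of_lt_one hr.le hr1
  refine ⟨C * (1 - 2 ^ (-δ))⁻¹, mul_nonneg hC (inv_nonneg.2 (by linarith)),
    fun f B hf hB0 hD Y hY => ?_⟩
  have hY0 : 0 < Y := lt_of_lt_of_le one_pos hY
  have hpj : ∀ j : ℕ, RepB N (C * B * Y ^ (-δ) * ((2:ℝ) ^ (-δ)) ^ j)
      (fun y => psi (((2:ℝ) ^ j)⁻¹ • (Y⁻¹ • y)) * f y) := by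
    intro j
    have h1 := hp f B hf hB0 hD (2 ^ j * Y) (by
      have : (1:ℝ) ≤ 2 ^ j := one_le_pow₀ one_le_two
      nlinarith)
    have h2 : ((2:ℝ) ^ j * Y) ^ (-δ) = Y ^ (-δ) * ((2:ℝ) ^ (-δ)) ^ j := by
      rw [Real.mul_rpow (by positivity) hY0.le, ← Real.rpow_natCast, ← Real.rpow_mul (by norm_num),
        ← Real.rpow_natCast, ← Real.rpow_mul (by norm_num), mul_comm (j:ℝ), mul_comm]
    rw [h2] at h1
    have h3 : (fun y : R12 => psi (((2:ℝ) ^ j * Y)⁻¹ • y) * f y) =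
        fun y => psi (((2:ℝ) ^ j)⁻¹ • (Y⁻¹ • y)) * f y := by
      funext y
      rw [smul_smul, mul_inv]
    rw [h3] at h1
    refine h1.mono (le_of_eq ?_)
    ring
  have hs : Summable fun j : ℕ => C * B * Y ^ (-δ) * ((2:ℝ) ^ (-δ)) ^ j :=
    hgeo.summable.mul_left _
  have h4 := RepB.tsum hpj hs (f := fun y => (1 - cut (Y⁻¹ • y)) * f y) (fun y =>
    (psi_hasSum (Y⁻¹ • y)).mul_right (f y))
  refine h4.mono (le_of_eq ?_)
  rw [tsum_mul_left, hgeo.tsum_eq]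
  ring

/-- **Quantitative symbol lemma** -/
theorem repQ (N : ℕ) (δ : ℝ) (hδ : 0 < δ) :
    ∃ C : ℝ, 0 ≤ C ∧ ∀ (f : R12 → ℂ) (B : ℝ), ContDiff ℝ ∞ f → 0 ≤ B → SymB (N + 13) δ B f →
      RepB N (C * B) f := by
  obtain ⟨C, hC, h1⟩ := tailQ N δ hδ
  obtain ⟨C', hC', h2⟩ := innerQ N δ hδ.le
  refine ⟨C + C', by positivity, fun f B hf hB0 hD => ?_⟩
  have h3 := (h1 f B hf hB0 hD 1 le_rfl).add (h2 f B hf hB0 hD)
  have h4 : (fun y : R12 => (1 - cut ((1:ℝ)⁻¹ • y)) * f y + cut y * f y) = f := by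
    funext y
    rw [inv_one, one_smul]
    ring
  rw [h4] at h3
  refine h3.mono (le_of_eq ?_)
  rw [Real.one_rpow]
  ring

/-! ### radial functions -/

open BRad in
/-- symbol bounds of `h(|y|²/4)`, uniform version -/
theorem radQ (M : ℕ) (δ : ℝ) (hδ : 0 ≤ δ) (x0 : ℝ) (hx0 : 0 < x0) :
    ∃ C : ℝ, 0 ≤ C ∧ ∀ (h : ℝ → ℂ) (B : ℝ), ContDiff ℝ ∞ h → 0 ≤ B → (∀ x < x0, h x = 0) →
      (∀ j ≤ M, ∀ x, x0 ≤ x → ‖iteratedDeriv j h x‖ ≤ B * x ^ (-δ - j)) →
      SymB M (2 * δ) (C * B) (rad h) := by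
  choose D hD1 hD using exists_sphere_bound
  set l0 : ℝ := 2 * Real.sqrt x0 with hl0
  have hl00 : 0 < l0 := by positivity
  set κ : ℝ := (1 + l0) / l0 with hκ
  have hκ0 : 0 < κ := by positivity
  set Kj : ℕ → ℝ := fun j => (j.factorial : ℝ) * 4 ^ (δ + j) * D j ^ j * κ ^ (2 * δ + j) with hKj
  have hKj0 : ∀ j, 0 ≤ Kj j := fun j => by
    have := hD1 j
    simp only [hKj]; positivity
  refine ⟨∑ j ∈ Finset.range (M + 1), Kj j, Finset.sum_nonneg fun j _ => hKj0 j, ?_⟩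
  intro h B hh hB0 hz hb j hj y
  have hQ : ContDiff ℝ ∞ (rad h) := hh.comp contDiff_sq
  have hKle : Kj j ≤ ∑ j ∈ Finset.range (M + 1), Kj j :=
    Finset.single_le_sum (f := Kj) (fun i _ => hKj0 i) (Finset.mem_range.2 (by omega))
  have hpow0 : 0 ≤ (1 + ‖y‖) ^ (-(2 * δ) - (j:ℝ)) := by positivity
  rcases lt_or_ge (sq y) x0 with hy | hy
  · have h1 : rad h =ᶠ[𝓝 y] fun _ => (0 : ℂ) := by
      have : {w : R12 | sq w < x0} ∈ 𝓝 y := (isOpen_lt continuous_sq continuous_const).mem_nhds hy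
      filter_upwards [this] with w hw
      exact hz _ hw
    rw [(h1.iteratedFDeriv ℝ j).eq_of_nhds]
    simp only [iteratedFDeriv_fun_zero, Pi.zero_apply, norm_zero]
    have : 0 ≤ ∑ j ∈ Finset.range (M + 1), Kj j := Finset.sum_nonneg fun j _ => hKj0 j
    positivity
  · have hl0y : l0 ≤ ‖y‖ := by
      have h2 : x0 ≤ (‖y‖ / 2) ^ 2 := by
        have h3 : sq y = (‖y‖ / 2) ^ 2 := by rw [BRad.sq]; ring
        rw [← h3]; exact hy
      have h4 : Real.sqrt x0 ≤ ‖y‖ / 2 := Real.sqrt_le_iff.2 ⟨by positivity, h2⟩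
      rw [hl0]; linarith
    have hypos : 0 < ‖y‖ := lt_of_lt_of_le hl00 hl0y
    set l : ℝ := ‖y‖ with hl
    set z : R12 := l⁻¹ • y with hzdef
    have hz1 : ‖z‖ = 1 := by
      rw [hzdef, norm_smul, norm_inv, Real.norm_of_nonneg hypos.le, inv_mul_cancel₀ hypos.ne']
    have hlz : l • z = y := by rw [hzdef, smul_smul, mul_inv_cancel₀ hypos.ne', one_smul]
    have hcomp : (fun w : R12 => rad h (l • w)) = (fun t : ℝ => h (l ^ 2 * t)) ∘ sq := by
      funext w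
      simp only [rad, BRad.sq, Function.comp]
      congr 1
      rw [norm_smul, Real.norm_of_nonneg hypos.le]; ring
    have hsqz : sq z = 1 / 4 := by rw [BRad.sq, hz1]; norm_num
    have hg : ContDiff ℝ ∞ (fun t : ℝ => h (l ^ 2 * t)) := hh.comp (by fun_prop)
    have hgb : ∀ i, i ≤ j → ‖iteratedFDeriv ℝ i (fun t : ℝ => h (l ^ 2 * t)) (sq z)‖
        ≤ B * 4 ^ (δ + j) * l ^ (-(2 * δ)) := by
      intro i hi
      rw [norm_iteratedFDeriv_eq_norm_iteratedDeriv, hsqz]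
      have h1 := congrFun (iteratedDeriv_comp_const_smul (n := i) (f := h)
        (hh.of_le (by exact_mod_cast le_top) : ContDiff ℝ i h) (l ^ 2)) (1/4 : ℝ)
      rw [h1, norm_smul]
      have h2 : l ^ 2 * (1 / 4) = sq y := by rw [BRad.sq]; ring
      rw [h2]
      have h4 : ‖iteratedDeriv i h (sq y)‖ ≤ B * (sq y) ^ (-δ - i) := hb i (by omega) _ hy
      have h5 : ‖(l ^ 2 : ℝ) ^ i‖ = l ^ ((2 * i : ℕ) : ℝ) := by
        rw [Real.norm_of_nonneg (by positivity), Real.rpow_natCast, pow_mul]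
      have h6 : (sq y) ^ (-δ - (i : ℝ)) = 4 ^ (δ + (i : ℝ)) * l ^ (-(2 * δ) - (2 * i : ℕ)) := by
        have e1 : sq y = l ^ (2 : ℝ) * 4⁻¹ := by rw [BRad.sq, Real.rpow_two]; ring
        rw [e1, Real.mul_rpow (by positivity) (by norm_num), ← Real.rpow_mul hypos.le,
          Real.inv_rpow (by norm_num), ← Real.rpow_neg (by norm_num)]
        rw [mul_comm]
        congr 1
        · congr 1; ring
        · congr 1; push_cast; ring
      calc ‖(l ^ 2 : ℝ) ^ i‖ * ‖iteratedDeriv i h (sq y)‖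
          ≤ ‖(l ^ 2 : ℝ) ^ i‖ * (B * (sq y) ^ (-δ - i)) :=
            mul_le_mul_of_nonneg_left h4 (norm_nonneg _)
        _ = B * 4 ^ (δ + (i : ℝ)) * (l ^ ((2 * i : ℕ) : ℝ) * l ^ (-(2 * δ) - (2 * i : ℕ))) := by
            rw [h5, h6]; ring
        _ = B * 4 ^ (δ + (i : ℝ)) * l ^ (-(2 * δ)) := by
            rw [← Real.rpow_add hypos]; congr 2; ring
        _ ≤ B * 4 ^ (δ + j) * l ^ (-(2 * δ)) := by
            have : (4 : ℝ) ^ (δ + (i : ℝ)) ≤ 4 ^ (δ + (j : ℝ)) := by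
              apply Real.rpow_le_rpow_of_exponent_le (by norm_num)
              have : (i : ℝ) ≤ j := by exact_mod_cast hi
              linarith
            have h7 : 0 ≤ l ^ (-(2 * δ)) := by positivity
            exact mul_le_mul_of_nonneg_right (mul_le_mul_of_nonneg_left this hB0) h7
    have hmain := norm_iteratedFDeriv_comp_le (n := j) (N := ∞)
      (g := fun t : ℝ => h (l ^ 2 * t)) (f := sq) hg contDiff_sq
      (by exact_mod_cast le_top) z hgb (fun i hi hij => hD j z hz1 i hi hij)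
    rw [← hcomp] at hmain
    have hsc := congrFun (iteratedFDeriv_comp_const_smul (i := j) l
      (hQ.of_le (by exact_mod_cast le_top) : ContDiff ℝ j (rad h))) z
    rw [hsc, norm_smul, hlz] at hmain
    have h8 : ‖l ^ j‖ = l ^ (j : ℝ) := by
      rw [Real.norm_of_nonneg (by positivity), Real.rpow_natCast]
    rw [h8] at hmain
    have h9 : ‖iteratedFDeriv ℝ j (rad h) y‖
        = l ^ (-(j : ℝ)) * (l ^ (j : ℝ) * ‖iteratedFDeriv ℝ j (rad h) y‖) := by
      rw [← mul_assoc, ← Real.rpow_add hypos]; simp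
    have h10 : l ^ (-(2 * δ) - (j:ℝ)) ≤ κ ^ (2 * δ + j) * (1 + l) ^ (-(2 * δ) - (j:ℝ)) := by
      have hs0 : 0 ≤ 2 * δ + (j:ℝ) := by positivity
      have e1 : -(2 * δ) - (j:ℝ) = -(2 * δ + j) := by ring
      rw [e1, Real.rpow_neg hypos.le, Real.rpow_neg (by positivity), ← div_eq_mul_inv,
        le_div_iff₀ (by positivity), ← Real.inv_rpow hypos.le, ← Real.mul_rpow (by positivity) (by positivity)]
      apply Real.rpow_le_rpow (by positivity) _ hs0
      rw [inv_mul_le_iff₀ hypos, hκ, ← mul_div_assoc, le_div_iff₀ hl00]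
      nlinarith
    have hDj := hD1 j
    rw [h9]
    calc l ^ (-(j : ℝ)) * (l ^ (j : ℝ) * ‖iteratedFDeriv ℝ j (rad h) y‖)
        ≤ l ^ (-(j : ℝ)) * ((j.factorial : ℝ) * (B * 4 ^ (δ + j) * l ^ (-(2 * δ))) * D j ^ j) :=
          mul_le_mul_of_nonneg_left hmain (by positivity)
      _ = (j.factorial : ℝ) * 4 ^ (δ + j) * D j ^ j * B * (l ^ (-(j : ℝ)) * l ^ (-(2 * δ))) := by ring
      _ = (j.factorial : ℝ) * 4 ^ (δ + j) * D j ^ j * B * l ^ (-(2 * δ) - (j:ℝ)) := by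
          rw [← Real.rpow_add hypos]; congr 2; ring
      _ ≤ (j.factorial : ℝ) * 4 ^ (δ + j) * D j ^ j * B * (κ ^ (2 * δ + j) * (1 + l) ^ (-(2 * δ) - (j:ℝ))) := by
          exact mul_le_mul_of_nonneg_left h10 (by positivity)
      _ = Kj j * B * (1 + l) ^ (-(2 * δ) - (j:ℝ)) := by simp only [hKj]; ring
      _ ≤ (∑ j ∈ Finset.range (M + 1), Kj j) * B * (1 + l) ^ (-(2 * δ) - (j:ℝ)) := by
          exact mul_le_mul_of_nonneg_right (mul_le_mul_of_nonneg_right hKle hB0) hpow0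

/-! ### the cut-off -/

/-- bounds of the derivatives of a cut-off on the half line -/
theorem zeta_bound {zc : ℝ → ℂ} {x2 : ℝ} (hx2 : 0 < x2) (hz : ContDiff ℝ ∞ zc)
    (hz1 : ∀ x, x2 ≤ x → zc x = 1) (i : ℕ) :
    ∃ A : ℝ, 0 ≤ A ∧ ∀ x : ℝ, 0 < x → ‖iteratedDeriv i zc x‖ ≤ A * x ^ (-(i:ℝ)) := by
  have hc : Continuous (iteratedDeriv i zc) := hz.continuous_iteratedDeriv i (by exact_mod_cast le_top)
  obtain ⟨A, hA⟩ := (isCompact_Icc (a := (0:ℝ)) (b := x2)).exists_bound_of_continuousOn hc.continuousOn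
  have hA0 : 0 ≤ A := (norm_nonneg _).trans (hA 0 ⟨le_rfl, hx2.le⟩)
  refine ⟨A * x2 ^ (i:ℝ) + 1, by positivity, fun x hx => ?_⟩
  have hxi : 0 < x ^ (-(i:ℝ)) := by positivity
  rcases le_or_gt x x2 with h | h
  · refine (hA x ⟨hx.le, h⟩).trans ?_
    have h1 : (1:ℝ) ≤ x2 ^ (i:ℝ) * x ^ (-(i:ℝ)) := by
      rw [Real.rpow_neg hx.le, ← div_eq_mul_inv, one_le_div (by positivity)]
      exact Real.rpow_le_rpow hx.le h (by positivity)
    calc A ≤ A * (x2 ^ (i:ℝ) * x ^ (-(i:ℝ))) := by nlinarith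
      _ ≤ (A * x2 ^ (i:ℝ) + 1) * x ^ (-(i:ℝ)) := by nlinarith
  · have h1 : zc =ᶠ[𝓝 x] fun _ => (1 : ℂ) := by
      filter_upwards [isOpen_Ioi.mem_nhds (show x ∈ Set.Ioi x2 from h)] with w hw
      exact hz1 w (le_of_lt hw)
    have h2 : iteratedDeriv i zc x = iteratedDeriv i (fun _ : ℝ => (1 : ℂ)) x :=
      h1.iteratedDeriv_eq i
    rw [h2, iteratedDeriv_const]
    split_ifs with h3
    · subst h3
      simp only [norm_one, Nat.cast_zero, neg_zero, Real.rpow_zero, mul_one]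
      linarith
    · rw [norm_zero]
      positivity

/-- product with a cut-off: bounds on the whole half line -/
theorem cutQ (M : ℕ) (δ : ℝ) {x1 x1' x2 : ℝ} (h0 : 0 < x1) (h1 : x1 < x1') (h2 : x1' < x2)
    {zc : ℝ → ℂ} (hz : ContDiff ℝ ∞ zc) (hz0 : ∀ x ≤ x1', zc x = 0) (hz1 : ∀ x, x2 ≤ x → zc x = 1) :
    ∃ C : ℝ, 0 ≤ C ∧ ∀ (g : ℝ → ℂ) (B : ℝ), 0 ≤ B → ContDiffOn ℝ ∞ g (Set.Ioi x1) →
      (∀ j ≤ M, ∀ x, x1 < x → ‖iteratedDeriv j g x‖ ≤ B * x ^ (-δ - j)) →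
      ContDiff ℝ ∞ (fun x => zc x * g x) ∧ (∀ x < x1', zc x * g x = 0) ∧
      ∀ j ≤ M, ∀ x, x1' ≤ x → ‖iteratedDeriv j (fun x => zc x * g x) x‖ ≤ C * B * x ^ (-δ - j) := by
  choose A hA0 hA using fun i => zeta_bound (by linarith : 0 < x2) hz hz1 i
  set Cm : ℕ → ℝ := fun m => ∑ i ∈ Finset.range (m + 1), (m.choose i : ℝ) * A i with hCm
  have hCm0 : ∀ m, 0 ≤ Cm m := fun m => Finset.sum_nonneg fun i _ => by
    have := hA0 i; positivity
  refine ⟨∑ m ∈ Finset.range (M + 1), Cm m, Finset.sum_nonneg fun m _ => hCm0 m, ?_⟩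
  intro g B hB0 hg hb
  have hzer : ∀ x < x1', zc x * g x = 0 := fun x hx => by rw [hz0 x hx.le, zero_mul]
  refine ⟨?_, hzer, ?_⟩
  · rw [contDiff_iff_contDiffAt]
    intro x
    rcases lt_or_ge x x1' with hx | hx
    · have : (fun x => zc x * g x) =ᶠ[𝓝 x] fun _ => (0:ℂ) := by
        filter_upwards [isOpen_Iio.mem_nhds (show x ∈ Set.Iio x1' from hx)] with w hw
        exact hzer w hw
      exact contDiffAt_const.congr_of_eventuallyEq this
    · exact hz.contDiffAt.mul (hg.contDiffAt (isOpen_Ioi.mem_nhds (show x ∈ Set.Ioi x1 by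
        simpa using lt_of_lt_of_le h1 hx)))
  · intro j hj x hx
    have hxm : x ∈ Set.Ioi x1 := lt_of_lt_of_le h1 hx
    have hx0 : 0 < x := by linarith
    have hl := norm_iteratedFDerivWithin_mul_le (𝕜 := ℝ) (N := ∞) (s := Set.Ioi x1) hz.contDiffOn hg
      (uniqueDiffOn_Ioi x1) hxm (n := j) (by exact_mod_cast le_top)
    have e : ∀ (k : ℕ) (f : ℝ → ℂ), ‖iteratedFDerivWithin ℝ k f (Set.Ioi x1) x‖ = ‖iteratedDeriv k f x‖ := by
      intro k f
      rw [iteratedFDerivWithin_of_isOpen k isOpen_Ioi hxm, norm_iteratedFDeriv_eq_norm_iteratedDeriv]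
    rw [e] at hl
    simp only [e] at hl
    refine hl.trans ?_
    have hCle : Cm j ≤ ∑ m ∈ Finset.range (M + 1), Cm m :=
      Finset.single_le_sum (f := Cm) (fun i _ => hCm0 i) (Finset.mem_range.2 (by omega))
    have hp0 : 0 ≤ x ^ (-δ - (j:ℝ)) := by positivity
    calc ∑ i ∈ Finset.range (j + 1), (j.choose i : ℝ) * ‖iteratedDeriv i zc x‖ *
          ‖iteratedDeriv (j - i) g x‖
        ≤ ∑ i ∈ Finset.range (j + 1), (j.choose i : ℝ) * (A i * x ^ (-(i:ℝ))) *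
          (B * x ^ (-δ - ((j - i : ℕ) : ℝ))) := by
          refine Finset.sum_le_sum fun i _ => ?_
          have h7 := hA i x hx0
          have h8 := hb (j - i) (by omega) x hxm
          have h9 := hA0 i
          gcongr
      _ = ∑ i ∈ Finset.range (j + 1), ((j.choose i : ℝ) * A i) * (B * x ^ (-δ - (j:ℝ))) := by
          refine Finset.sum_congr rfl fun i hi => ?_
          have hi' : i ≤ j := by have := Finset.mem_range.1 hi; omega
          have e2 : x ^ (-(i:ℝ)) * x ^ (-δ - ((j - i : ℕ) : ℝ)) = x ^ (-δ - (j:ℝ)) := by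
            rw [← Real.rpow_add hx0, Nat.cast_sub hi']
            congr 1
            ring
          rw [← e2]
          ring
      _ = Cm j * B * x ^ (-δ - (j:ℝ)) := by
          rw [← Finset.sum_mul]
          simp only [hCm]
          ring
      _ ≤ (∑ m ∈ Finset.range (M + 1), Cm m) * B * x ^ (-δ - (j:ℝ)) :=
          mul_le_mul_of_nonneg_right (mul_le_mul_of_nonneg_right hCle hB0) hp0

/-- **Node T2**: the weighted Fourier norm of a radial tail, with linear dependence on the symbol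
constant. -/
theorem tail2 (N : ℕ) {δ x1 x1' x2 : ℝ} (hδ : 0 < δ) (h0 : 0 < x1) (h1 : x1 < x1') (h2 : x1' < x2)
    {zeta : ℝ → ℝ} (hz : ContDiff ℝ ∞ zeta) (hz0 : ∀ x ≤ x1', zeta x = 0)
    (hz1 : ∀ x, x2 ≤ x → zeta x = 1) :
    ∃ C : ℝ, 0 ≤ C ∧ ∀ (g : ℝ → ℂ) (B : ℝ), 0 ≤ B → ContDiffOn ℝ ∞ g (Set.Ioi x1) →
      (∀ j ≤ N + 13, ∀ x, x1 < x → ‖iteratedDeriv j g x‖ ≤ B * x ^ (-δ - j)) →
      RepB N (C * B) (fun y : R12 => ((zeta (‖y‖ ^ 2 / 4) : ℝ) : ℂ) * g (‖y‖ ^ 2 / 4)) := by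
  have hzc : ContDiff ℝ ∞ (fun x => ((zeta x : ℝ) : ℂ)) := Complex.ofRealCLM.contDiff.comp hz
  obtain ⟨C1, hC1, H1⟩ := cutQ (N + 13) δ h0 h1 h2 hzc (fun x hx => by rw [hz0 x hx]; simp)
    (fun x hx => by rw [hz1 x hx]; simp)
  obtain ⟨C2, hC2, H2⟩ := radQ (N + 13) δ hδ.le x1' (by linarith)
  obtain ⟨C3, hC3, H3⟩ := repQ N (2 * δ) (by linarith)
  refine ⟨C3 * (C2 * C1), by positivity, fun g B hB hg hb => ?_⟩
  obtain ⟨ha, hb', hc⟩ := H1 g B hB hg hb
  have h5 := H2 _ (C1 * B) ha (by positivity) hb' hc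
  have h6 : ContDiff ℝ ∞ (BRad.rad (fun x => ((zeta x : ℝ) : ℂ) * g x)) := ha.comp BRad.contDiff_sq
  have h7 := H3 _ (C2 * (C1 * B)) h6 (by positivity) h5
  have h8 : C3 * (C2 * (C1 * B)) = C3 * (C2 * C1) * B := by ring
  rw [h8] at h7
  exact h7

end Crest.Agent.R086.BTail2
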