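import Crest.Agent.R086.SymDefs

/-! Row 86, node SYM S1 (helper148): symbols of negative order are in the Wiener algebra. -/

set_option autoImplicit false
open MeasureTheory Complex Filter Topology
open scoped ContDiff SchwartzMap FourierTransform

namespace Crest.Agent.R086

namespace SymW

/-- weighted L¹ norm of a density -/
noncomputable def wn (N : ℕ) (a : R12 → ℂ) : ℝ := ∫ ξ : R12, (1 + ‖ξ‖) ^ N * ‖a ξ‖

lemma norm_weight (N : ℕ) (a : R12 → ℂ) (ξ : R12) :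
    ‖(((1 + ‖ξ‖) ^ N : ℝ) : ℂ) * a ξ‖ = (1 + ‖ξ‖) ^ N * ‖a ξ‖ := by
  rw [norm_mul, Complex.norm_real, Real.norm_of_nonneg (by positivity)]

/-- density of a Schwartz function -/
noncomputable def dens (g : 𝓢(R12, ℂ)) (ξ : R12) : ℂ :=
  (((2 * Real.pi)⁻¹ ^ 12 : ℝ) : ℂ) * (𝓕 g : 𝓢(R12, ℂ)) ((2 * Real.pi)⁻¹ • ξ)

lemma weight_bound (N : ℕ) (x : R12) : (1 + ‖x‖) ^ N ≤ 2 ^ N * (1 + ‖x‖ ^ N) := by
  have h0 : 0 ≤ ‖x‖ := norm_nonneg x
  rcases le_total 1 ‖x‖ with h | h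
  · calc (1 + ‖x‖) ^ N ≤ (2 * ‖x‖) ^ N := by gcongr; linarith
      _ = 2 ^ N * ‖x‖ ^ N := by rw [mul_pow]
      _ ≤ _ := by gcongr; linarith
  · calc (1 + ‖x‖) ^ N ≤ (2 * 1) ^ N := by gcongr; linarith
      _ = 2 ^ N * 1 := by rw [mul_one, mul_one]
      _ ≤ _ := by
        gcongr
        have : 0 ≤ ‖x‖ ^ N := by positivity
        linarith

lemma integrable_weight_schwartz (N : ℕ) (h : 𝓢(R12, ℂ)) :
    Integrable (fun x : R12 => (1 + ‖x‖) ^ N * ‖h x‖) := by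
  have h1 : Integrable (fun x : R12 => 2 ^ N * (‖x‖ ^ 0 * ‖h x‖ + ‖x‖ ^ N * ‖h x‖)) :=
    ((h.integrable_pow_mul volume 0).add (h.integrable_pow_mul volume N)).const_mul _
  refine h1.mono' ?_ (Eventually.of_forall fun x => ?_)
  · exact (((continuous_const.add continuous_norm).pow N).mul h.continuous.norm).aestronglyMeasurable
  · rw [Real.norm_of_nonneg (by positivity)]
    have := weight_bound N x
    calc (1 + ‖x‖) ^ N * ‖h x‖ ≤ (2 ^ N * (1 + ‖x‖ ^ N)) * ‖h x‖ := by gcongr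
      _ = _ := by ring

/-- scaling of representations -/
lemma rep_scale {N : ℕ} {a f : R12 → ℂ} (h : Rep N a f) {c : ℝ} (hc : 1 ≤ c) :
    Rep N (fun ξ => ((c ^ 12 : ℝ) : ℂ) * a (c • ξ)) (fun y => f (c⁻¹ • y)) ∧
    wn N (fun ξ => ((c ^ 12 : ℝ) : ℂ) * a (c • ξ)) ≤ wn N a := by
  have hc0 : 0 < c := by linarith
  have hcn : c ≠ 0 := hc0.ne'
  have hfr : Module.finrank ℝ R12 = 12 := by simp [R12]
  have hint := h.1.comp_smul (μ := volume) hcn
  have hw : ∀ ξ : R12, (1 + ‖ξ‖) ^ N ≤ (1 + ‖c • ξ‖) ^ N := by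
    intro ξ
    gcongr
    rw [norm_smul, Real.norm_of_nonneg hc0.le]
    nlinarith [norm_nonneg ξ]
  have hI : Integrable (fun ξ : R12 => (((1 + ‖ξ‖) ^ N : ℝ) : ℂ) * (((c ^ 12 : ℝ) : ℂ) * a (c • ξ))) := by
    have h2 : Integrable (fun ξ : R12 => (((((1 + ‖ξ‖) ^ N / (1 + ‖c • ξ‖) ^ N) * c ^ 12 : ℝ)) : ℂ) *
        ((((1 + ‖c • ξ‖) ^ N : ℝ) : ℂ) * a (c • ξ))) := by
      refine hint.bdd_mul (c := c ^ 12) ?_ (Eventually.of_forall fun ξ => ?_)
      · refine Continuous.aestronglyMeasurable ?_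
        refine Complex.continuous_ofReal.comp ?_
        refine Continuous.mul (Continuous.div (by fun_prop) (by fun_prop) (fun ξ => by positivity))
          continuous_const
      · rw [Complex.norm_real, Real.norm_of_nonneg (by positivity)]
        have : (1 + ‖ξ‖) ^ N / (1 + ‖c • ξ‖) ^ N ≤ 1 := by
          rw [div_le_one (by positivity)]
          exact hw ξ
        have h3 : 0 ≤ c ^ 12 := by positivity
        nlinarith
    refine h2.congr (Eventually.of_forall fun ξ => ?_)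
    have h4 : (((1 + ‖c • ξ‖) ^ N : ℝ) : ℂ) ≠ 0 := by
      rw [Complex.ofReal_ne_zero]; positivity
    simp only [Complex.ofReal_mul, Complex.ofReal_div]
    field_simp
  refine ⟨⟨hI, fun y => ?_⟩, ?_⟩
  · have h5 := Measure.integral_comp_smul (μ := (volume : Measure R12))
      (fun ξ : R12 => exp (I * ((inner ℝ ξ (c⁻¹ • y) : ℝ) : ℂ)) * a ξ) c
    show f (c⁻¹ • y) = _
    rw [h.2 (c⁻¹ • y)]
    have h6 : (∫ ξ : R12, exp (I * ((inner ℝ ξ y : ℝ) : ℂ)) * (((c ^ 12 : ℝ) : ℂ) * a (c • ξ))) =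
        ((c ^ 12 : ℝ) : ℂ) * ∫ ξ : R12, exp (I * ((inner ℝ (c • ξ) (c⁻¹ • y) : ℝ) : ℂ)) * a (c • ξ) := by
      rw [← integral_const_mul]
      refine integral_congr_ae (Eventually.of_forall fun ξ => ?_)
      have : inner ℝ (c • ξ) (c⁻¹ • y) = inner ℝ ξ y := by
        rw [inner_smul_left, inner_smul_right]
        simp
        field_simp
      simp only [this]
      ring
    rw [h6, h5, hfr, abs_of_pos (by positivity)]
    rw [Complex.real_smul, ← mul_assoc, ← Complex.ofReal_mul]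
    rw [mul_inv_cancel₀ (by positivity)]
    simp
  · unfold wn
    have h7 := Measure.integral_comp_smul (μ := (volume : Measure R12))
      (fun ξ : R12 => (1 + ‖ξ‖) ^ N * ‖a ξ‖) c
    rw [hfr, abs_of_pos (by positivity), smul_eq_mul] at h7
    have h8 : (∫ ξ : R12, (1 + ‖ξ‖) ^ N * ‖a ξ‖) = c ^ 12 * ∫ ξ : R12, (1 + ‖c • ξ‖) ^ N * ‖a (c • ξ)‖ := by
      rw [h7, ← mul_assoc, mul_inv_cancel₀ (by positivity), one_mul]
    rw [h8, ← integral_const_mul]
    have hI2 : Integrable (fun ξ : R12 => c ^ 12 * ((1 + ‖c • ξ‖) ^ N * ‖a (c • ξ)‖)) := by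
      refine Integrable.const_mul ?_ _
      refine (hint.norm).congr (Eventually.of_forall fun ξ => ?_)
      exact norm_weight N (fun ξ => a ξ) (c • ξ)
    refine integral_mono_of_nonneg (Eventually.of_forall fun ξ => by positivity) hI2
      (Eventually.of_forall fun ξ => ?_)
    simp only
    rw [norm_mul, Complex.norm_real, Real.norm_of_nonneg (by positivity)]
    have := mul_le_mul_of_nonneg_right (hw ξ) (norm_nonneg (a (c • ξ)))
    have h9 : 0 ≤ c ^ 12 := by positivity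
    nlinarith [mul_le_mul_of_nonneg_left this h9]

theorem integrable_tsum_of_summable {α : Type*} [MeasurableSpace α] {μ : Measure α} {F : ℕ → α → ℂ}
    (hF : ∀ k, Integrable (F k) μ) (hs : Summable fun k => ∫ a, ‖F k a‖ ∂μ) :
    Integrable (fun x => ∑' k, F k x) μ ∧ (∀ᵐ x ∂μ, Summable fun k => ‖F k x‖) ∧
    ∫ x, ‖∑' k, F k x‖ ∂μ ≤ ∑' k, ∫ x, ‖F k x‖ ∂μ := by
  have h1 : ∀ k, ∫⁻ a, ‖F k a‖ₑ ∂μ = ENNReal.ofReal (∫ a, ‖F k a‖ ∂μ) := fun k =>
    (ofReal_integral_norm_eq_lintegral_enorm (hF k)).symm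
  have h2 : ∑' k, ∫⁻ a, ‖F k a‖ₑ ∂μ = ENNReal.ofReal (∑' k, ∫ a, ‖F k a‖ ∂μ) := by
    simp_rw [h1]
    rw [ENNReal.ofReal_tsum_of_nonneg (fun k => integral_nonneg fun a => norm_nonneg _) hs]
  have h3 : ∫⁻ a, ∑' k, ‖F k a‖ₑ ∂μ = ENNReal.ofReal (∑' k, ∫ a, ‖F k a‖ ∂μ) := by
    rw [lintegral_tsum (fun k => (hF k).1.enorm), h2]
  have h4 : ∀ᵐ x ∂μ, Summable fun k => ‖F k x‖ := by
    have h5 := ae_lt_top' (AEMeasurable.tsum (fun k => (hF k).1.enorm))
      (by rw [h3]; exact ENNReal.ofReal_ne_top)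
    filter_upwards [h5] with x hx
    have : Summable fun k => ‖F k x‖₊ := by
      rw [← ENNReal.tsum_coe_ne_top_iff_summable]
      exact hx.ne
    exact NNReal.summable_coe.2 this
  have h6 : AEStronglyMeasurable (fun x => ∑' k, F k x) μ := by
    refine aestronglyMeasurable_of_tendsto_ae atTop (f := fun (n:ℕ) x => ∑ k ∈ Finset.range n, F k x)
      (fun n => ?_) ?_
    · exact Finset.aestronglyMeasurable_fun_sum _ (fun k _ => (hF k).1)
    · filter_upwards [h4] with x hx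
      exact hx.of_norm.hasSum.tendsto_sum_nat
  have h7 : ∫⁻ x, ‖∑' k, F k x‖ₑ ∂μ ≤ ENNReal.ofReal (∑' k, ∫ a, ‖F k a‖ ∂μ) := by
    rw [← h3]
    refine lintegral_mono_ae ?_
    filter_upwards [h4] with x hx
    have h8 : ‖∑' k, F k x‖ ≤ ∑' k, ‖F k x‖ := norm_tsum_le_tsum_norm hx
    have h9 : ∑' k, ‖F k x‖ₑ = ENNReal.ofReal (∑' k, ‖F k x‖) := by
      rw [ENNReal.ofReal_tsum_of_nonneg (fun k => norm_nonneg _) hx]
      simp
    rw [h9, ← ofReal_norm]
    exact ENNReal.ofReal_le_ofReal h8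
  have h10 : Integrable (fun x => ∑' k, F k x) μ := ⟨h6, lt_of_le_of_lt h7 ENNReal.ofReal_lt_top⟩
  refine ⟨h10, h4, ?_⟩
  rw [← ENNReal.ofReal_le_ofReal_iff (tsum_nonneg fun k => integral_nonneg fun a => norm_nonneg _)]
  rw [ofReal_integral_norm_eq_lintegral_enorm h10]
  exact h7

/-- summation of representations -/
lemma rep_sum {a h : ℕ → R12 → ℂ} {f : R12 → ℂ} {N : ℕ} (hr : ∀ k, Rep N (a k) (h k))
    (hs : Summable fun k => wn N (a k)) (hf : ∀ y, HasSum (fun k => h k y) (f y)) :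
    Rep N (fun ξ => ∑' k, a k ξ) f ∧ wn N (fun ξ => ∑' k, a k ξ) ≤ ∑' k, wn N (a k) := by
  have h1 : ∀ k, Integrable (fun ξ : R12 => (((1 + ‖ξ‖) ^ N : ℝ) : ℂ) * a k ξ) := fun k => (hr k).1
  have hwn : ∀ k, ∫ ξ : R12, ‖(((1 + ‖ξ‖) ^ N : ℝ) : ℂ) * a k ξ‖ = wn N (a k) := by
    intro k
    unfold wn
    exact integral_congr_ae (Eventually.of_forall fun ξ => (norm_weight N (a k) ξ))
  have h2 : Summable fun k => ∫ ξ : R12, ‖(((1 + ‖ξ‖) ^ N : ℝ) : ℂ) * a k ξ‖ := by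
    simp_rw [hwn]; exact hs
  obtain ⟨h3, h4, h5⟩ := integrable_tsum_of_summable h1 h2
  have h6 : ∀ ξ : R12, ∑' k, (((1 + ‖ξ‖) ^ N : ℝ) : ℂ) * a k ξ
      = (((1 + ‖ξ‖) ^ N : ℝ) : ℂ) * ∑' k, a k ξ := fun ξ => tsum_mul_left
  refine ⟨⟨?_, fun y => ?_⟩, ?_⟩
  · refine h3.congr (Eventually.of_forall fun ξ => ?_)
    simp only
    rw [h6]
  · have h0 : ∀ k, Integrable (a k) := by
      intro k
      refine (h1 k).mono ?_ (Eventually.of_forall fun ξ => ?_)
      · have h7 : AEStronglyMeasurable (fun ξ : R12 => ((((1 + ‖ξ‖) ^ N : ℝ) : ℂ))⁻¹ *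
          ((((1 + ‖ξ‖) ^ N : ℝ) : ℂ) * a k ξ)) volume := by
          refine AEStronglyMeasurable.mul (Continuous.aestronglyMeasurable ?_) (h1 k).1
          refine Continuous.inv₀ (Complex.continuous_ofReal.comp (by fun_prop)) (fun ξ => ?_)
          rw [Complex.ofReal_ne_zero]; positivity
        refine h7.congr (Eventually.of_forall fun ξ => ?_)
        have h8 : (((1 + ‖ξ‖) ^ N : ℝ) : ℂ) ≠ 0 := by
          rw [Complex.ofReal_ne_zero]; positivity
        simp only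
        field_simp
      · rw [norm_weight]
        have : (1:ℝ) ≤ (1 + ‖ξ‖) ^ N := one_le_pow₀ (by linarith [norm_nonneg ξ])
        nlinarith [norm_nonneg (a k ξ)]
    have h9 : ∀ k, Integrable (fun ξ : R12 => exp (I * ((inner ℝ ξ y : ℝ) : ℂ)) * a k ξ) := by
      intro k
      refine (h0 k).bdd_mul (c := 1) ?_ (Eventually.of_forall fun ξ => ?_)
      · exact Continuous.aestronglyMeasurable (by fun_prop)
      · rw [mul_comm, Complex.norm_exp_ofReal_mul_I]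
    have hnn : ∀ k, ∫ ξ : R12, ‖exp (I * ((inner ℝ ξ y : ℝ) : ℂ)) * a k ξ‖ ≤ wn N (a k) := by
      intro k
      rw [← hwn k]
      refine integral_mono (h9 k).norm (h1 k).norm (fun ξ => ?_)
      simp only
      rw [norm_weight, norm_mul, mul_comm I, Complex.norm_exp_ofReal_mul_I]
      have : (1:ℝ) ≤ (1 + ‖ξ‖) ^ N := one_le_pow₀ (by linarith [norm_nonneg ξ])
      nlinarith [norm_nonneg (a k ξ)]
    have h10 : Summable fun k => ∫ ξ : R12, ‖exp (I * ((inner ℝ ξ y : ℝ) : ℂ)) * a k ξ‖ :=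
      Summable.of_nonneg_of_le (fun k => integral_nonneg fun _ => norm_nonneg _) hnn hs
    have h11 := hasSum_integral_of_summable_integral_norm h9 h10
    have h12 : (fun k => ∫ ξ : R12, exp (I * ((inner ℝ ξ y : ℝ) : ℂ)) * a k ξ) = fun k => h k y := by
      funext k
      exact ((hr k).2 y).symm
    rw [h12] at h11
    rw [(hf y).unique h11]
    refine integral_congr_ae (Eventually.of_forall fun ξ => ?_)
    simp only
    rw [tsum_mul_left]
  · unfold wn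
    have h13 : (∫ ξ : R12, (1 + ‖ξ‖) ^ N * ‖∑' k, a k ξ‖) =
        ∫ ξ : R12, ‖∑' k, (((1 + ‖ξ‖) ^ N : ℝ) : ℂ) * a k ξ‖ := by
      refine integral_congr_ae (Eventually.of_forall fun ξ => ?_)
      simp only
      rw [h6, norm_weight N (fun ξ => ∑' k, a k ξ) ξ]
    rw [h13]
    refine h5.trans (le_of_eq ?_)
    exact tsum_congr hwn

lemma two_pi_inv_pos : 0 < (2 * Real.pi)⁻¹ := by positivity

lemma rep_dens (N : ℕ) (g : 𝓢(R12, ℂ)) : Rep N (dens g) g := by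
  have hc : (2 * Real.pi)⁻¹ ≠ 0 := two_pi_inv_pos.ne'
  have hfr : Module.finrank ℝ R12 = 12 := by simp [R12]
  set h : 𝓢(R12, ℂ) := 𝓕 g with hh
  constructor
  · have h1 := (integrable_weight_schwartz N h).comp_smul (μ := volume) hc
    have h2 : Integrable (fun ξ : R12 => (((1 + ‖ξ‖) ^ N : ℝ) : ℂ) * h ((2 * Real.pi)⁻¹ • ξ)) := by
      refine (h1.const_mul ((2 * Real.pi) ^ N)).mono' ?_ (Eventually.of_forall fun ξ => ?_)
      · refine Continuous.aestronglyMeasurable ?_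
        exact (Complex.continuous_ofReal.comp (by fun_prop)).mul (h.continuous.comp (by fun_prop))
      · rw [norm_mul, Complex.norm_real, Real.norm_of_nonneg (by positivity)]
        have h3 : (1 + ‖ξ‖) ^ N ≤ (2 * Real.pi) ^ N * (1 + ‖(2 * Real.pi)⁻¹ • ξ‖) ^ N := by
          rw [← mul_pow]
          gcongr
          rw [norm_smul, Real.norm_of_nonneg two_pi_inv_pos.le]
          have : 1 ≤ 2 * Real.pi := by nlinarith [Real.pi_gt_three]
          have h4 : 2 * Real.pi * (1 + (2 * Real.pi)⁻¹ * ‖ξ‖) = 2 * Real.pi + ‖ξ‖ := by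
            field_simp
          rw [h4]; linarith
        calc _ ≤ ((2 * Real.pi) ^ N * (1 + ‖(2 * Real.pi)⁻¹ • ξ‖) ^ N) * ‖h ((2 * Real.pi)⁻¹ • ξ)‖ := by
              gcongr
          _ = _ := by ring
    refine (h2.const_mul ((((2 * Real.pi)⁻¹ ^ 12 : ℝ) : ℂ))).congr (Eventually.of_forall fun ξ => ?_)
    simp only [dens, ← hh]
    ring
  · intro y
    have h5 : 𝓕⁻ h = g := by rw [hh]; simp
    have h6 : g y = 𝓕⁻ (h : R12 → ℂ) y := by
      rw [← SchwartzMap.fourierInv_coe, h5]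
    rw [h6, Real.fourierInv_eq']
    have h7 := Measure.integral_comp_smul (μ := (volume : Measure R12))
      (fun v : R12 => exp (↑(2 * Real.pi * inner ℝ v y) * I) • h v) ((2 * Real.pi)⁻¹)
    rw [hfr] at h7
    have h8 : |((2 * Real.pi)⁻¹ ^ 12)⁻¹| = (2 * Real.pi) ^ 12 := by
      rw [abs_of_pos (by positivity)]
      rw [inv_pow, inv_inv]
    rw [h8] at h7
    have h9 : (∫ v : R12, exp (↑(2 * Real.pi * inner ℝ v y) * I) • h v) =
        (((2 * Real.pi)⁻¹ ^ 12 : ℝ) : ℂ) * ∫ x : R12, exp (↑(2 * Real.pi * inner ℝ ((2 * Real.pi)⁻¹ • x) y) * I) • h ((2 * Real.pi)⁻¹ • x) := by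
      rw [h7, Complex.real_smul, ← mul_assoc, ← Complex.ofReal_mul, ← mul_pow,
        inv_mul_cancel₀ (by positivity)]
      simp
    rw [h9, ← integral_const_mul]
    refine integral_congr_ae (Eventually.of_forall fun ξ => ?_)
    simp only [dens, ← hh, smul_eq_mul]
    have h10 : 2 * Real.pi * inner ℝ ((2 * Real.pi)⁻¹ • ξ) y = inner ℝ ξ y := by
      rw [inner_smul_left]
      simp
      field_simp
    rw [h10, mul_comm (((inner ℝ ξ y : ℝ)) : ℂ) I]
    ring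

lemma wn_dens_le (N : ℕ) : ∃ (s : Finset (ℕ × ℕ)) (C : ℝ), 0 ≤ C ∧ ∀ g : 𝓢(R12, ℂ),
    wn N (dens g) ≤ C * (s.sup (schwartzSeminormFamily ℝ R12 ℂ)) g := by
  have hc : (2 * Real.pi)⁻¹ ≠ 0 := two_pi_inv_pos.ne'
  have hfr : Module.finrank ℝ R12 = 12 := by simp [R12]
  -- the seminorm
  let p := (volume : Measure R12).integrablePower
  let q : Seminorm ℝ 𝓢(R12, ℂ) := SchwartzMap.seminorm ℝ 0 0 + SchwartzMap.seminorm ℝ p 0
    + SchwartzMap.seminorm ℝ (N + p) 0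
  let L : 𝓢(R12, ℂ) →L[ℝ] 𝓢(R12, ℂ) := FourierTransform.fourierCLM ℝ 𝓢(R12, ℂ)
  have hq : Continuous (q.comp L.toLinearMap) := by
    have hq1 : Continuous q := by
      have := fun i => (schwartz_withSeminorms ℝ R12 ℂ).continuous_seminorm i
      exact ((this (0,0)).add (this (p,0))).add (this (N+p,0))
    exact hq1.comp L.continuous
  obtain ⟨s, C, -, hC⟩ := Seminorm.bound_of_continuous (schwartz_withSeminorms ℝ R12 ℂ)
    (q.comp L.toLinearMap) hq
  set A : ℝ := (2 * Real.pi) ^ N * 2 ^ N * (2 ^ p * ∫ x : R12, (1 + ‖x‖) ^ (- (p : ℝ))) with hA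
  have hA0 : 0 ≤ A := by
    rw [hA]
    have : 0 ≤ ∫ x : R12, (1 + ‖x‖) ^ (- (p : ℝ)) := integral_nonneg fun x => by positivity
    positivity
  refine ⟨s, A * (2 * C), by positivity, fun g => ?_⟩
  set h : 𝓢(R12, ℂ) := 𝓕 g with hh
  have h1 := Measure.integral_comp_smul (μ := (volume : Measure R12))
      (fun ξ : R12 => (1 + ‖ξ‖) ^ N * ‖h ξ‖) ((2 * Real.pi)⁻¹)
  rw [hfr] at h1
  have h8 : |((2 * Real.pi)⁻¹ ^ 12)⁻¹| = (2 * Real.pi) ^ 12 := by
    rw [abs_of_pos (by positivity), inv_pow, inv_inv]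
  rw [h8, smul_eq_mul] at h1
  have h2 : wn N (dens g) ≤ (2 * Real.pi) ^ N * ∫ ξ : R12, (1 + ‖ξ‖) ^ N * ‖h ξ‖ := by
    have h3 : (∫ ξ : R12, (1 + ‖ξ‖) ^ N * ‖h ξ‖) = (2 * Real.pi)⁻¹ ^ 12 *
        ∫ (x : R12), (1 + ‖(2 * Real.pi)⁻¹ • x‖) ^ N * ‖h ((2 * Real.pi)⁻¹ • x)‖ := by
      rw [h1, ← mul_assoc, ← mul_pow, inv_mul_cancel₀ (by positivity)]
      simp
    rw [h3, ← mul_assoc, ← integral_const_mul]
    unfold wn
    have h4 := (integrable_weight_schwartz N h).comp_smul (μ := volume) hc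
    refine integral_mono_of_nonneg (Eventually.of_forall fun ξ => by positivity) (h4.const_mul _)
      (Eventually.of_forall fun ξ => ?_)
    have h5 : (1 + ‖ξ‖) ^ N ≤ (2 * Real.pi) ^ N * (1 + ‖(2 * Real.pi)⁻¹ • ξ‖) ^ N := by
      rw [← mul_pow]
      gcongr
      rw [norm_smul, Real.norm_of_nonneg two_pi_inv_pos.le]
      have : 1 ≤ 2 * Real.pi := by nlinarith [Real.pi_gt_three]
      have h4 : 2 * Real.pi * (1 + (2 * Real.pi)⁻¹ * ‖ξ‖) = 2 * Real.pi + ‖ξ‖ := by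
        field_simp
      rw [h4]; linarith
    simp only [dens, ← hh]
    rw [norm_mul, Complex.norm_real, Real.norm_of_nonneg (by positivity)]
    calc (1 + ‖ξ‖) ^ N * ((2 * Real.pi)⁻¹ ^ 12 * ‖h ((2 * Real.pi)⁻¹ • ξ)‖)
        ≤ ((2 * Real.pi) ^ N * (1 + ‖(2 * Real.pi)⁻¹ • ξ‖) ^ N) * ((2 * Real.pi)⁻¹ ^ 12 * ‖h ((2 * Real.pi)⁻¹ • ξ)‖) := by
          gcongr
      _ = _ := by ring
  have h6 : (∫ ξ : R12, (1 + ‖ξ‖) ^ N * ‖h ξ‖) ≤ 2 ^ N * ((2 ^ p * ∫ x : R12, (1 + ‖x‖) ^ (- (p : ℝ))) *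
      (2 * q h)) := by
    have e0 := SchwartzMap.integral_pow_mul_iteratedFDeriv_le ℝ (volume : Measure R12) h 0 0
    have e1 := SchwartzMap.integral_pow_mul_iteratedFDeriv_le ℝ (volume : Measure R12) h N 0
    simp only [norm_iteratedFDeriv_zero, zero_add] at e0 e1
    have e2 : (∫ ξ : R12, (1 + ‖ξ‖) ^ N * ‖h ξ‖) ≤ ∫ ξ : R12, 2 ^ N * (‖ξ‖ ^ 0 * ‖h ξ‖ + ‖ξ‖ ^ N * ‖h ξ‖) := by
      refine integral_mono (integrable_weight_schwartz N h)
        (((h.integrable_pow_mul volume 0).add (h.integrable_pow_mul volume N)).const_mul _) (fun ξ => ?_)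
      have := weight_bound N ξ
      calc (1 + ‖ξ‖) ^ N * ‖h ξ‖ ≤ (2 ^ N * (1 + ‖ξ‖ ^ N)) * ‖h ξ‖ := by gcongr
        _ = _ := by simp; ring
    rw [integral_const_mul, integral_add (h.integrable_pow_mul volume 0) (h.integrable_pow_mul volume N)] at e2
    refine e2.trans ?_
    gcongr
    refine (add_le_add e0 e1).trans ?_
    rw [← mul_add]
    have hI : 0 ≤ ∫ x : R12, (1 + ‖x‖) ^ (- (p : ℝ)) := integral_nonneg fun x => by positivity
    refine mul_le_mul_of_nonneg_left ?_ (by positivity)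
    have n1 : 0 ≤ SchwartzMap.seminorm ℝ 0 0 h := apply_nonneg _ _
    have n2 : 0 ≤ SchwartzMap.seminorm ℝ p 0 h := apply_nonneg _ _
    have n3 : 0 ≤ SchwartzMap.seminorm ℝ (N+p) 0 h := apply_nonneg _ _
    have : q h = SchwartzMap.seminorm ℝ 0 0 h + SchwartzMap.seminorm ℝ p 0 h
      + SchwartzMap.seminorm ℝ (N + p) 0 h := rfl
    rw [this]
    change SchwartzMap.seminorm ℝ 0 0 h + SchwartzMap.seminorm ℝ p 0 h +
      (SchwartzMap.seminorm ℝ 0 0 h + SchwartzMap.seminorm ℝ (N + p) 0 h) ≤ _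
    linarith
  have h7 : q h ≤ C * (s.sup (schwartzSeminormFamily ℝ R12 ℂ)) g := by
    have h9 := hC g
    have h10 : (C • s.sup (schwartzSeminormFamily ℝ R12 ℂ)) g = (C : ℝ) * (s.sup (schwartzSeminormFamily ℝ R12 ℂ)) g := rfl
    rw [← h10]
    exact h9
  calc wn N (dens g) ≤ (2 * Real.pi) ^ N * (2 ^ N * ((2 ^ p * ∫ x : R12, (1 + ‖x‖) ^ (- (p : ℝ))) *
      (2 * q h))) := h2.trans (by gcongr)
    _ = A * (2 * q h) := by rw [hA]; ring
    _ ≤ A * (2 * (C * (s.sup (schwartzSeminormFamily ℝ R12 ℂ)) g)) := by gcongr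
    _ = _ := by ring

lemma norm_iteratedFDeriv_scale {f : R12 → ℂ} (hf : ContDiff ℝ ∞ f) {c : ℝ} (hc : 0 ≤ c) (j : ℕ) (x : R12) :
    ‖iteratedFDeriv ℝ j (fun z => f (c • z)) x‖ ≤ c ^ j * ‖iteratedFDeriv ℝ j f (c • x)‖ := by
  let g : R12 →L[ℝ] R12 := c • ContinuousLinearMap.id ℝ R12
  have h1 := ContinuousLinearMap.iteratedFDeriv_comp_right g (n := j) (hf.of_le (by exact_mod_cast le_top)) x (le_refl _)
  have h2 : (f ∘ g) = fun z => f (c • z) := rfl
  rw [h2] at h1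
  rw [h1]
  refine (ContinuousMultilinearMap.norm_compContinuousLinearMap_le _ _).trans ?_
  have h3 : ‖g‖ ≤ c := by
    have h0 : ‖g‖ ≤ ‖c‖ * ‖ContinuousLinearMap.id ℝ R12‖ := norm_smul_le c (ContinuousLinearMap.id ℝ R12)
    rw [Real.norm_of_nonneg hc] at h0
    have := ContinuousLinearMap.norm_id_le (𝕜 := ℝ) (E := R12)
    nlinarith
  rw [Finset.prod_const, Finset.card_univ, Fintype.card_fin, mul_comm]
  have h4 : g x = c • x := rfl
  rw [h4]
  gcongr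

/-- a cut-off function -/
structure Cut (χ : R12 → ℂ) (r1 r2 : ℝ) : Prop where
  smooth : ContDiff ℝ ∞ χ
  pos : 0 < r1
  lt : r1 < r2
  one : ∀ y, ‖y‖ ≤ r1 → χ y = 1
  zero : ∀ y, r2 ≤ ‖y‖ → χ y = 0

variable {χ : R12 → ℂ} {r1 r2 : ℝ}

/-- annular cut-off -/
noncomputable def theta (χ : R12 → ℂ) (z : R12) : ℂ := χ ((1/2 : ℝ) • z) - χ z

lemma theta_smooth (h : Cut χ r1 r2) : ContDiff ℝ ∞ (theta χ) := by
  unfold theta
  exact (h.smooth.comp (by fun_prop)).sub h.smooth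

lemma theta_eq_zero_of_le (h : Cut χ r1 r2) {z : R12} (hz : ‖z‖ ≤ r1) : theta χ z = 0 := by
  unfold theta
  rw [h.one z hz, h.one _ (by
    rw [norm_smul]; norm_num; linarith [norm_nonneg z]), sub_self]

lemma theta_eq_zero_of_ge (h : Cut χ r1 r2) {z : R12} (hz : 2 * r2 ≤ ‖z‖) : theta χ z = 0 := by
  have := h.pos
  have := h.lt
  unfold theta
  rw [h.zero z (by linarith), h.zero _ (by
    rw [norm_smul]; norm_num; linarith [norm_nonneg z]), sub_self]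

lemma tsupport_theta (h : Cut χ r1 r2) : tsupport (theta χ) ⊆ {z | r1 ≤ ‖z‖ ∧ ‖z‖ ≤ 2 * r2} := by
  refine closure_minimal ?_ ?_
  · intro z hz
    rw [Function.mem_support] at hz
    constructor
    · by_contra hcon
      exact hz (theta_eq_zero_of_le h (by linarith))
    · by_contra hcon
      exact hz (theta_eq_zero_of_ge h (by linarith))
  · exact (isClosed_le continuous_const continuous_norm).inter (isClosed_le continuous_norm continuous_const)

lemma hasCompactSupport_theta (h : Cut χ r1 r2) : HasCompactSupport (theta χ) := by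
  refine HasCompactSupport.intro (isCompact_closedBall (0 : R12) (2 * r2)) (fun z hz => ?_)
  apply theta_eq_zero_of_ge h
  simp at hz
  exact hz.le

lemma hasCompactSupport_cut (h : Cut χ r1 r2) : HasCompactSupport χ := by
  refine HasCompactSupport.intro (isCompact_closedBall (0 : R12) r2) (fun z hz => ?_)
  apply h.zero
  simp at hz
  exact hz.le

/-- the piece at scale `c` as a Schwartz function -/
noncomputable def piece (h : Cut χ r1 r2) {f : R12 → ℂ} (hf : ContDiff ℝ ∞ f) (c : ℝ) : 𝓢(R12, ℂ) :=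
  HasCompactSupport.toSchwartzMap (f := fun z => theta χ z * f (c • z))
    (hasCompactSupport_theta h).mul_right ((theta_smooth h).mul (hf.comp (by fun_prop)))

lemma piece_apply (h : Cut χ r1 r2) {f : R12 → ℂ} (hf : ContDiff ℝ ∞ f) (c : ℝ) (z : R12) :
    piece h hf c z = theta χ z * f (c • z) := rfl

lemma piece_seminorm (h : Cut χ r1 r2) {δ : ℝ} {f : R12 → ℂ} (hf : Sym δ f) (hδ : 0 ≤ δ) (k n : ℕ) :
    ∃ B : ℝ, 0 ≤ B ∧ ∀ c : ℝ, 1 ≤ c → SchwartzMap.seminorm ℝ k n (piece h hf.1 c) ≤ B * c ^ (-δ) := by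
  have hr1 := h.pos
  have hr2 := h.lt
  have hr2p : 0 < r2 := by linarith
  choose C hC using hf.2
  have hC0 : ∀ j, 0 ≤ C j := by
    intro j
    have := hC j 0
    simp only [norm_zero, add_zero, Real.one_rpow, mul_one] at this
    exact (norm_nonneg _).trans this
  -- bounds on theta
  have hth : ∀ i : ℕ, ∃ A : ℝ, 0 ≤ A ∧ ∀ z, ‖iteratedFDeriv ℝ i (theta χ) z‖ ≤ A := by
    intro i
    let T : 𝓢(R12, ℂ) := HasCompactSupport.toSchwartzMap (hasCompactSupport_theta h) (theta_smooth h)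
    exact ⟨SchwartzMap.seminorm ℝ 0 i T, apply_nonneg _ _, fun z => SchwartzMap.norm_iteratedFDeriv_le_seminorm ℝ T i z⟩
  choose A hA0 hA using hth
  -- bounds on scaled f
  have hsc : ∀ j : ℕ, ∀ c : ℝ, 1 ≤ c → ∀ z : R12, r1 ≤ ‖z‖ →
      ‖iteratedFDeriv ℝ j (fun z => f (c • z)) z‖ ≤ (C j * r1 ^ (-δ - j)) * c ^ (-δ) := by
    intro j c hc z hz
    have hc0 : 0 < c := by linarith
    refine (norm_iteratedFDeriv_scale hf.1 hc0.le j z).trans ?_
    have h1 := hC j (c • z)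
    have h2 : (1 + ‖c • z‖) ^ (-δ - (j:ℝ)) ≤ (c * r1) ^ (-δ - (j:ℝ)) := by
      refine Real.rpow_le_rpow_of_nonpos (by positivity) ?_ ?_
      · rw [norm_smul, Real.norm_of_nonneg hc0.le]
        nlinarith
      · have : (0:ℝ) ≤ j := Nat.cast_nonneg j
        linarith
    have h3 : (c * r1) ^ (-δ - (j:ℝ)) = c ^ (-δ) * (c ^ j)⁻¹ * r1 ^ (-δ - (j:ℝ)) := by
      rw [Real.mul_rpow hc0.le hr1.le]
      congr 1
      rw [Real.rpow_sub hc0, Real.rpow_natCast, div_eq_mul_inv]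
    have h4 : 0 < c ^ j := by positivity
    calc c ^ j * ‖iteratedFDeriv ℝ j f (c • z)‖ ≤ c ^ j * (C j * (c * r1) ^ (-δ - (j:ℝ))) := by
          gcongr
          exact h1.trans (mul_le_mul_of_nonneg_left h2 (hC0 j))
      _ = _ := by
        rw [h3]
        field_simp
  refine ⟨(2 * r2) ^ k * ∑ i ∈ Finset.range (n + 1), (n.choose i : ℝ) * A i * (C (n - i) * r1 ^ (-δ - ((n - i : ℕ) : ℝ))), ?_, ?_⟩
  · refine mul_nonneg (by positivity) (Finset.sum_nonneg fun i _ => ?_)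
    have := hA0 i
    have := hC0 (n - i)
    positivity
  · intro c hc
    have hc0 : 0 < c := by linarith
    have hcd : 0 < c ^ (-δ) := Real.rpow_pos_of_pos hc0 _
    have hsum0 : 0 ≤ ∑ i ∈ Finset.range (n + 1), (n.choose i : ℝ) * A i * (C (n - i) * r1 ^ (-δ - ((n - i : ℕ) : ℝ))) :=
      Finset.sum_nonneg fun i _ => by
        have := hA0 i
        have := hC0 (n - i)
        positivity
    refine SchwartzMap.seminorm_le_bound ℝ k n _ (by positivity) (fun x => ?_)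
    by_cases hx : x ∈ tsupport (theta χ)
    · obtain ⟨hx1, hx2⟩ := tsupport_theta h hx
      have h1 : ‖iteratedFDeriv ℝ n (fun z => theta χ z * f (c • z)) x‖ ≤
          ∑ i ∈ Finset.range (n + 1), (n.choose i : ℝ) * ‖iteratedFDeriv ℝ i (theta χ) x‖ *
            ‖iteratedFDeriv ℝ (n - i) (fun z => f (c • z)) x‖ :=
        norm_iteratedFDeriv_mul_le (theta_smooth h) (hf.1.comp (by fun_prop)) x
          (by exact_mod_cast le_top)
      have h2 : ‖iteratedFDeriv ℝ n (fun z => theta χ z * f (c • z)) x‖ ≤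
          (∑ i ∈ Finset.range (n + 1), (n.choose i : ℝ) * A i * (C (n - i) * r1 ^ (-δ - ((n - i : ℕ) : ℝ)))) * c ^ (-δ) := by
        refine h1.trans ?_
        rw [Finset.sum_mul]
        refine Finset.sum_le_sum fun i _ => ?_
        have e1 := hA i x
        have e2 := hsc (n - i) c hc x hx1
        have e3 := hA0 i
        calc _ ≤ (n.choose i : ℝ) * A i * ((C (n - i) * r1 ^ (-δ - ((n - i : ℕ) : ℝ))) * c ^ (-δ)) := by
              gcongr
          _ = _ := by ring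
      have h3 : ‖x‖ ^ k ≤ (2 * r2) ^ k := by gcongr
      calc ‖x‖ ^ k * ‖iteratedFDeriv ℝ n (piece h hf.1 c) x‖ ≤ (2 * r2) ^ k *
          ((∑ i ∈ Finset.range (n + 1), (n.choose i : ℝ) * A i * (C (n - i) * r1 ^ (-δ - ((n - i : ℕ) : ℝ)))) * c ^ (-δ)) := by
            have := h2
            have h5 : (piece h hf.1 c : R12 → ℂ) = fun z => theta χ z * f (c • z) := rfl
            rw [h5]
            exact mul_le_mul h3 h2 (norm_nonneg _) (by positivity)
        _ = _ := by ring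
    · have h1 : iteratedFDeriv ℝ n (piece h hf.1 c) x = 0 := by
        have h2 : x ∉ tsupport (fun z => theta χ z * f (c • z)) := by
          intro hcon
          exact hx (tsupport_mul_subset_left hcon)
        have h3 : x ∉ Function.support (iteratedFDeriv ℝ n (fun z => theta χ z * f (c • z))) :=
          fun hcon => h2 (support_iteratedFDeriv_subset n hcon)
        rw [Function.mem_support, not_not] at h3
        exact h3
      rw [h1, norm_zero, mul_zero]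
      positivity

lemma piece_wn (h : Cut χ r1 r2) {δ : ℝ} {f : R12 → ℂ} (hf : Sym δ f) (hδ : 0 ≤ δ) (N : ℕ) :
    ∃ B : ℝ, 0 ≤ B ∧ ∀ c : ℝ, 1 ≤ c → wn N (dens (piece h hf.1 c)) ≤ B * c ^ (-δ) := by
  obtain ⟨s, C, hC0, hC⟩ := wn_dens_le N
  choose B hB0 hB using fun (i : ℕ × ℕ) => piece_seminorm h hf hδ i.1 i.2
  refine ⟨C * ∑ i ∈ s, B i, mul_nonneg hC0 (Finset.sum_nonneg fun i _ => hB0 i), fun c hc => ?_⟩
  refine (hC _).trans ?_
  rw [mul_assoc]
  refine mul_le_mul_of_nonneg_left ?_ hC0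
  have hc0 : 0 < c := by linarith
  have hcd : 0 < c ^ (-δ) := Real.rpow_pos_of_pos hc0 _
  refine Seminorm.finset_sup_apply_le (mul_nonneg (Finset.sum_nonneg fun i _ => hB0 i) hcd.le) (fun i hi => ?_)
  refine (hB i c hc).trans ?_
  have := Finset.single_le_sum (f := B) (fun i _ => hB0 i) hi
  gcongr



/-- densities of the rescaled pieces -/
noncomputable def pd (h : Cut χ r1 r2) {f : R12 → ℂ} (hf : ContDiff ℝ ∞ f) (Y : ℝ) (k : ℕ) (ξ : R12) : ℂ :=
  (((2 ^ k * Y) ^ 12 : ℝ) : ℂ) * dens (piece h hf (2 ^ k * Y)) ((2 ^ k * Y) • ξ)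

lemma one_le_scale {Y : ℝ} (hY : 1 ≤ Y) (k : ℕ) : 1 ≤ 2 ^ k * Y := by
  have : (1:ℝ) ≤ 2 ^ k := one_le_pow₀ (by norm_num)
  nlinarith

lemma pd_rep (h : Cut χ r1 r2) {f : R12 → ℂ} (hf : ContDiff ℝ ∞ f) {Y : ℝ} (hY : 1 ≤ Y) (k N : ℕ) :
    Rep N (pd h hf Y k) (fun y => theta χ ((2 ^ k * Y)⁻¹ • y) * f y) ∧
    wn N (pd h hf Y k) ≤ wn N (dens (piece h hf (2 ^ k * Y))) := by
  have hc := one_le_scale hY k
  obtain ⟨h1, h2⟩ := rep_scale (rep_dens N (piece h hf (2 ^ k * Y))) hc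
  refine ⟨?_, h2⟩
  have h3 : (fun y => piece h hf (2 ^ k * Y) ((2 ^ k * Y)⁻¹ • y)) =
      fun y => theta χ ((2 ^ k * Y)⁻¹ • y) * f y := by
    funext y
    rw [piece_apply, smul_smul, mul_inv_cancel₀ (by positivity), one_smul]
  rw [← h3]
  exact h1

lemma hasSum_pieces (h : Cut χ r1 r2) (f : R12 → ℂ) {Y : ℝ} (hY : 1 ≤ Y) (y : R12) :
    HasSum (fun k : ℕ => theta χ ((2 ^ k * Y)⁻¹ • y) * f y) ((1 - χ (Y⁻¹ • y)) * f y) := by
  have hr1 := h.pos
  obtain ⟨K, hK⟩ : ∃ K : ℕ, ‖y‖ / r1 < 2 ^ K := pow_unbounded_of_one_lt _ (by norm_num)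
  have hk : ∀ k : ℕ, K ≤ k → ‖(2 ^ k * Y)⁻¹ • y‖ ≤ r1 := by
    intro k hk
    have hc := one_le_scale hY k
    rw [norm_smul, norm_inv, Real.norm_of_nonneg (by positivity)]
    rw [inv_mul_le_iff₀ (by positivity)]
    rw [div_lt_iff₀ hr1] at hK
    have h1 : (2:ℝ) ^ K ≤ 2 ^ k := pow_le_pow_right₀ (by norm_num) hk
    have h2 : (2:ℝ) ^ K * r1 ≤ 2 ^ k * Y * r1 := by
      have : (2:ℝ) ^ k ≤ 2 ^ k * Y := by
        have : (0:ℝ) < 2 ^ k := by positivity
        nlinarith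
      gcongr
      linarith
    linarith
  have h1 : HasSum (fun k : ℕ => theta χ ((2 ^ k * Y)⁻¹ • y) * f y)
      (∑ k ∈ Finset.range K, theta χ ((2 ^ k * Y)⁻¹ • y) * f y) := by
    refine hasSum_sum_of_ne_finset_zero (fun k hk' => ?_)
    rw [Finset.mem_range, not_lt] at hk'
    rw [theta_eq_zero_of_le h (hk k hk'), zero_mul]
  have h2 : ∑ k ∈ Finset.range K, theta χ ((2 ^ k * Y)⁻¹ • y) * f y = (1 - χ (Y⁻¹ • y)) * f y := by
    rw [← Finset.sum_mul]
    congr 1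
    have h3 : ∀ k : ℕ, theta χ ((2 ^ k * Y)⁻¹ • y) =
        χ ((2 ^ (k+1) * Y)⁻¹ • y) - χ ((2 ^ k * Y)⁻¹ • y) := by
      intro k
      unfold theta
      rw [smul_smul]
      congr 3
      have : (0:ℝ) < Y := by linarith
      field_simp
      ring
    rw [Finset.sum_congr rfl (fun k _ => h3 k),
      Finset.sum_range_sub (fun k : ℕ => χ ((2 ^ k * Y)⁻¹ • y))]
    rw [h.one _ (hk K le_rfl)]
    simp
  rw [← h2]
  exact h1

theorem tail_aux (h : Cut χ r1 r2) {δ : ℝ} (hδ : 0 < δ) {f : R12 → ℂ} (hf : Sym δ f) (N : ℕ) :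
    ∃ B : ℝ, 0 ≤ B ∧ ∀ Y : ℝ, 1 ≤ Y →
      Rep N (fun ξ => ∑' k, pd h hf.1 Y k ξ) (fun y => (1 - χ (Y⁻¹ • y)) * f y) ∧
      wn N (fun ξ => ∑' k, pd h hf.1 Y k ξ) ≤ B * Y ^ (-δ) := by
  obtain ⟨B, hB0, hB⟩ := piece_wn h hf hδ.le N
  set q : ℝ := 2 ^ (-δ) with hq
  have hq0 : 0 < q := Real.rpow_pos_of_pos (by norm_num) _
  have hq1 : q < 1 := Real.rpow_lt_one_of_one_lt_of_neg (by norm_num) (by linarith)
  have hgeo : Summable (fun k : ℕ => q ^ k) := summable_geometric_of_lt_one hq0.le hq1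
  refine ⟨B * ∑' k : ℕ, q ^ k, mul_nonneg hB0 (tsum_nonneg fun k => by positivity), fun Y hY => ?_⟩
  have hY0 : 0 < Y := by linarith
  have hbd : ∀ k, wn N (pd h hf.1 Y k) ≤ B * Y ^ (-δ) * q ^ k := by
    intro k
    refine ((pd_rep h hf.1 hY k N).2.trans (hB _ (one_le_scale hY k))).trans (le_of_eq ?_)
    rw [Real.mul_rpow (by positivity) hY0.le, ← Real.rpow_natCast, ← Real.rpow_natCast, hq,
      ← Real.rpow_mul (by norm_num), ← Real.rpow_mul (by norm_num)]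
    rw [mul_comm (k:ℝ) (-δ)]
    ring
  have hnn : ∀ k, 0 ≤ wn N (pd h hf.1 Y k) := fun k => integral_nonneg fun ξ => by positivity
  have hs : Summable fun k => wn N (pd h hf.1 Y k) :=
    Summable.of_nonneg_of_le hnn hbd (hgeo.mul_left _)
  obtain ⟨h1, h2⟩ := rep_sum (fun k => (pd_rep h hf.1 hY k N).1) hs (hasSum_pieces h f hY)
  refine ⟨h1, h2.trans ?_⟩
  have h3 : ∑' k, wn N (pd h hf.1 Y k) ≤ ∑' k, B * Y ^ (-δ) * q ^ k := hs.tsum_le_tsum hbd (hgeo.mul_left _)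
  rw [tsum_mul_left] at h3
  linarith

/-- existence of cut-off functions with values in `[0,1]` -/
theorem exists_cut {r1 r2 : ℝ} (h1 : 0 < r1) (h2 : r1 < r2) :
    ∃ g : R12 → ℝ, ContDiff ℝ ∞ g ∧ (∀ y, 0 ≤ g y) ∧ (∀ y, g y ≤ 1) ∧ Cut (fun y => (g y : ℂ)) r1 r2 := by
  let b : ContDiffBump (0 : R12) := ⟨r1, r2, h1, h2⟩
  refine ⟨b, b.contDiff, fun y => b.nonneg, fun y => b.le_one, ?_, h1, h2, fun y hy => ?_, fun y hy => ?_⟩
  · exact Complex.ofRealCLM.contDiff.comp b.contDiff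
  · rw [b.one_of_mem_closedBall (by simpa using hy)]
    simp
  · rw [b.zero_of_le_dist (by simpa using hy)]
    simp

end SymW

open SymW

/-- D2, tail estimate. -/
theorem Sym.tail {χ : R12 → ℂ} {r1 r2 : ℝ} (h : Cut χ r1 r2) {δ : ℝ} (hδ : 0 < δ) {f : R12 → ℂ}
    (hf : Sym δ f) (N : ℕ) : ∃ B : ℝ, 0 ≤ B ∧ ∀ Y : ℝ, 1 ≤ Y → ∃ a : R12 → ℂ,
      Rep N a (fun y => (1 - χ (Y⁻¹ • y)) * f y) ∧
      ∫ ξ : R12, (1 + ‖ξ‖) ^ N * ‖a ξ‖ ≤ B * Y ^ (-δ) := by
  obtain ⟨B, hB0, hB⟩ := tail_aux h hδ hf N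
  exact ⟨B, hB0, fun Y hY => ⟨_, hB Y hY⟩⟩

/-- products with a compactly supported smooth function are in the Wiener algebra -/
theorem exists_rep_of_hasCompactSupport {g : R12 → ℂ} (h1 : ContDiff ℝ ∞ g) (h2 : HasCompactSupport g) :
    ∃ a : R12 → ℂ, ∀ N, Rep N a g :=
  ⟨dens (HasCompactSupport.toSchwartzMap h2 h1), fun N => rep_dens N _⟩

/-- D2: a symbol of negative order is in the Wiener algebra, one density for all weights. -/
theorem Sym.exists_rep {δ : ℝ} (hδ : 0 < δ) {f : R12 → ℂ} (hf : Sym δ f) :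
    ∃ a : R12 → ℂ, ∀ N, Rep N a f := by
  obtain ⟨g, -, -, -, hc⟩ := exists_cut (r1 := 1) (r2 := 2) one_pos one_lt_two
  set χ : R12 → ℂ := fun y => (g y : ℂ)
  obtain ⟨a0, ha0⟩ := exists_rep_of_hasCompactSupport (g := fun y => χ y * f y) (hc.smooth.mul hf.1)
    (hasCompactSupport_cut hc).mul_right
  refine ⟨fun ξ => a0 ξ + ∑' k, pd hc hf.1 1 k ξ, fun N => ?_⟩
  obtain ⟨B, -, hB⟩ := tail_aux hc hδ hf N
  obtain ⟨h1, -⟩ := hB 1 le_rfl
  have h0 := ha0 N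
  have hint : ∀ (a : R12 → ℂ) (u : R12 → ℂ), Rep N a u → ∀ y : R12,
      Integrable (fun ξ : R12 => exp (I * ((inner ℝ ξ y : ℝ) : ℂ)) * a ξ) := by
    intro a u hu y
    have h3 : Integrable (fun ξ : R12 => (exp (I * ((inner ℝ ξ y : ℝ) : ℂ)) * ((((1 + ‖ξ‖) ^ N : ℝ) : ℂ))⁻¹) *
        ((((1 + ‖ξ‖) ^ N : ℝ) : ℂ) * a ξ)) := by
      refine hu.1.bdd_mul (c := 1) ?_ (Eventually.of_forall fun ξ => ?_)
      · refine Continuous.aestronglyMeasurable (Continuous.mul (by fun_prop) ?_)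
        refine Continuous.inv₀ (Complex.continuous_ofReal.comp (by fun_prop)) (fun ξ => ?_)
        rw [Complex.ofReal_ne_zero]; positivity
      · rw [norm_mul, mul_comm I, Complex.norm_exp_ofReal_mul_I, one_mul, norm_inv, Complex.norm_real,
          Real.norm_of_nonneg (by positivity)]
        exact inv_le_one_of_one_le₀ (one_le_pow₀ (by linarith [norm_nonneg ξ]))
    refine h3.congr (Eventually.of_forall fun ξ => ?_)
    have h8 : (((1 + ‖ξ‖) ^ N : ℝ) : ℂ) ≠ 0 := by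
      rw [Complex.ofReal_ne_zero]; positivity
    simp only
    field_simp
  constructor
  · refine (h0.1.add h1.1).congr (Eventually.of_forall fun ξ => ?_)
    simp only [Pi.add_apply]
    ring
  · intro y
    have e1 := h0.2 y
    have e2 := h1.2 y
    have e3 : f y = χ y * f y + (1 - χ ((1:ℝ)⁻¹ • y)) * f y := by
      rw [inv_one, one_smul]; ring
    rw [e3]
    simp only at e1 e2
    rw [e1, e2, ← integral_add (hint _ _ h0 y) (hint _ _ h1 y)]
    refine integral_congr_ae (Eventually.of_forall fun ξ => ?_)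
    simp only
    ring

theorem Sym.inX' {δ : ℝ} (hδ : 0 < δ) {f : R12 → ℂ} (hf : Sym δ f) (N : ℕ) : InX N f := by
  obtain ⟨a, ha⟩ := hf.exists_rep hδ
  exact ⟨a, ha N⟩

end Crest.Agent.R086
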