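import Mathlib
import Crest.Agent.R086.BTail2
import Crest.Agent.R086.BExtDefs
import Crest.Agent.R086.BCIface
import Crest.Agent.R086.BSm0
import Crest.Agent.R086.Wie
import Crest.Agent.R086.SymX

/-!
Row 86 (S0114), Part B (helper35): field `tail` of `BData` from the compact smallness (T1), the far
region (`FarGood`) and the tail lemma (T2).
-/

set_option autoImplicit false

open MeasureTheory Complex Set Filter Topology
open scoped ContDiff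

namespace Crest.Agent.R086.BTailFin

/-! ### products in the Wiener algebra -/

theorem gint_of_rep {N : ℕ} {a f : R12 → ℂ} (h : Rep N a f) :
    Wie.GInt volume (Wie.wtV R12 N) a := by
  refine h.1.congr (Eventually.of_forall fun ξ => ?_)
  simp only [Wie.wtV_apply, Wie.wt, Complex.real_smul]

theorem rep_of_gint {N : ℕ} {a : R12 → ℂ} (h : Wie.GInt volume (Wie.wtV R12 N) a) :
    Integrable (fun ξ : R12 => (((1 + ‖ξ‖) ^ N : ℝ) : ℂ) * a ξ) := by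
  refine Integrable.congr h (Eventually.of_forall fun ξ => ?_)
  simp only [Wie.wtV_apply, Wie.wt, Complex.real_smul]

/-- product of two functions with weighted densities -/
theorem repB_mul {N : ℕ} {B B' : ℝ} {f g : R12 → ℂ} (hf : RepB N B f) (hg : RepB N B' g) :
    RepB N (B * B') (fun y => f y * g y) := by
  obtain ⟨a, ha, hab⟩ := hf
  obtain ⟨b, hb, hbb⟩ := hg
  have hga := gint_of_rep ha
  have hgb := gint_of_rep hb
  refine ⟨Wie.cv volume a b, ⟨rep_of_gint (hga.cv hgb), fun y => ?_⟩, ?_⟩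
  · have hφ : Measurable (fun ξ : R12 => exp (I * ((inner ℝ ξ y : ℝ) : ℂ))) := by fun_prop
    have h1 : ∀ ξ : R12, ‖exp (I * ((inner ℝ ξ y : ℝ) : ℂ))‖ ≤ 1 := fun ξ => by
      rw [mul_comm I, Complex.norm_exp_ofReal_mul_I]
    rw [Wie.integral_mul_cv hga.integrable hgb.integrable hφ h1]
    show f y * g y = _
    rw [ha.2 y, hb.2 y, ← integral_mul_const]
    refine integral_congr_ae (Eventually.of_forall fun ξ => ?_)
    simp only
    rw [← integral_const_mul]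
    refine integral_congr_ae (Eventually.of_forall fun η => ?_)
    simp only
    rw [inner_add_left]
    push_cast
    rw [mul_add, Complex.exp_add]
    ring
  · have h1 := Wie.integral_norm_cv_le hga hgb
    simp only [Wie.wtV_apply, Wie.wt] at h1
    refine h1.trans ?_
    have h2 : 0 ≤ ∫ ξ : R12, (1 + ‖ξ‖) ^ N * ‖b ξ‖ := integral_nonneg fun ξ => by positivity
    have h3 : 0 ≤ ∫ ξ : R12, (1 + ‖ξ‖) ^ N * ‖a ξ‖ := integral_nonneg fun ξ => by positivity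
    exact mul_le_mul hab hbb h2 (h3.trans hab)

/-! ### smoothness of the potentials -/

theorem normpow_eq (m : ℕ) (z : ℂ) : ((‖z‖ ^ (2 * m) : ℝ) : ℂ) = (z * (starRingEnd ℂ) z) ^ m := by
  rw [Complex.mul_conj, ← Complex.ofReal_pow, Complex.normSq_eq_norm_sq, ← pow_mul]

theorem conj_smooth {V : ℝ → ℂ} {s : Set ℝ} (hV : ContDiffOn ℝ ∞ V s) :
    ContDiffOn ℝ ∞ (fun x => (starRingEnd ℂ) (V x)) s :=
  Complex.conjCLE.contDiff.comp_contDiffOn hV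

theorem normpow_smooth {n : ℕ} (hn : Even n) {V : ℝ → ℂ} {s : Set ℝ} (hV : ContDiffOn ℝ ∞ V s) :
    ContDiffOn ℝ ∞ (fun x => ((‖V x‖ ^ n : ℝ) : ℂ)) s := by
  obtain ⟨m, rfl⟩ := hn
  have h : (fun x => ((‖V x‖ ^ (m + m) : ℝ) : ℂ)) = fun x => (V x * (starRingEnd ℂ) (V x)) ^ m := by
    funext x
    rw [← two_mul, normpow_eq]
  rw [h]
  exact (hV.mul (conj_smooth hV)).pow m

theorem even_sub_two {n : ℕ} (hn : Even n) : Even (n - 2) := by
  obtain ⟨m, rfl⟩ := hn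
  exact ⟨m - 1, by omega⟩

theorem wA_smooth {n : ℕ} (hn : Even n) {V : ℝ → ℂ} {s : Set ℝ} (hV : ContDiffOn ℝ ∞ V s) :
    ContDiffOn ℝ ∞ (B.wA n V) s := normpow_smooth hn hV

theorem wB_smooth {n : ℕ} (hn : Even n) {V : ℝ → ℂ} {s : Set ℝ} (hV : ContDiffOn ℝ ∞ V s) :
    ContDiffOn ℝ ∞ (B.wB n V) s := (normpow_smooth (even_sub_two hn) hV).mul (hV.pow 2)

theorem wC_smooth {n : ℕ} (hn : Even n) {V : ℝ → ℂ} {s : Set ℝ} (hV : ContDiffOn ℝ ∞ V s) :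
    ContDiffOn ℝ ∞ (B.wC n V) s := (normpow_smooth (even_sub_two hn) hV).mul ((conj_smooth hV).pow 2)

/-! ### the assembly at the level of one function -/

/-- `(1-χ) w(|y|²/4)` has weighted norm at most `C * B`, if `w` is a symbol of order `-1` with
constant `B` on `(x1,∞)` -/
theorem one_sub_chi (N : ℕ) {r0 r1 r2 : ℝ} (h0 : 0 < r0) (h1 : r0 < r1) {χ : R12 → ℝ}
    (hχ : IsCut χ r1 r2) :
    ∃ C : ℝ, 0 ≤ C ∧ ∀ (w : ℝ → ℂ) (B : ℝ), 0 ≤ B → ContDiffOn ℝ ∞ w (Ioi (r0 ^ 2 / 4)) →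
      (∀ j ≤ N + 13, ∀ x, r0 ^ 2 / 4 < x → ‖iteratedDeriv j w x‖ ≤ B * x ^ (-(1:ℝ) - j)) →
      RepB N (C * B) (fun y : R12 => ((1 - χ y : ℝ) : ℂ) * w (‖y‖ ^ 2 / 4)) := by
  set rb : ℝ := (r0 + r1) / 2 with hrb
  have hb0 : r0 < rb := by rw [hrb]; linarith
  have hb1 : rb < r1 := by rw [hrb]; linarith
  set x1 : ℝ := r0 ^ 2 / 4
  set x1' : ℝ := rb ^ 2 / 4
  set x2 : ℝ := r1 ^ 2 / 4
  have hx0 : 0 < x1 := by positivity
  have hx1 : x1 < x1' := by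
    show r0 ^ 2 / 4 < rb ^ 2 / 4
    nlinarith
  have hx2 : x1' < x2 := by
    show rb ^ 2 / 4 < r1 ^ 2 / 4
    nlinarith
  have hd : 0 < x2 - x1' := by linarith
  set zeta : ℝ → ℝ := fun x => Real.smoothTransition ((x - x1') / (x2 - x1')) with hzeta
  have hz : ContDiff ℝ ∞ zeta := by
    have : ContDiff ℝ ∞ (fun x : ℝ => (x - x1') / (x2 - x1')) :=
      (contDiff_id.sub contDiff_const).div_const _
    exact (Real.smoothTransition.contDiff (n := (⊤ : ℕ∞))).comp this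
  have hz0 : ∀ x ≤ x1', zeta x = 0 := fun x hx =>
    Real.smoothTransition.zero_of_nonpos (div_nonpos_of_nonpos_of_nonneg (by linarith) hd.le)
  have hz1 : ∀ x, x2 ≤ x → zeta x = 1 := fun x hx =>
    Real.smoothTransition.one_of_one_le (by rw [le_div_iff₀ hd]; linarith)
  obtain ⟨C1, hC1, H1⟩ := BTail2.tail2 N (δ := 1) one_pos hx0 hx1 hx2 hz hz0 hz1
  -- the density of `χ`
  have hcs : HasCompactSupport (fun y : R12 => ((χ y : ℝ) : ℂ)) := by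
    refine HasCompactSupport.intro (isCompact_closedBall (0 : R12) r2) fun y hy => ?_
    have h : r2 ≤ ‖y‖ := by
      have := mt Metric.mem_closedBall.2 hy
      rw [dist_zero_right] at this
      exact (not_le.1 this).le
    rw [hχ.zero y h]; simp
  have hcd : ContDiff ℝ ∞ (fun y : R12 => ((χ y : ℝ) : ℂ)) := Complex.ofRealCLM.contDiff.comp hχ.smooth
  obtain ⟨a, ha⟩ := exists_rep_of_hasCompactSupport hcd hcs
  set Bχ : ℝ := ∫ ξ : R12, (1 + ‖ξ‖) ^ N * ‖a ξ‖ with hBχ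
  have hBχ0 : 0 ≤ Bχ := integral_nonneg fun ξ => by positivity
  have hχr : RepB N Bχ (fun y : R12 => ((χ y : ℝ) : ℂ)) := ⟨a, ha N, le_rfl⟩
  refine ⟨(1 + Bχ) * C1, by positivity, fun w B hB hw hb => ?_⟩
  have h5 := H1 w B hB hw hb
  have h6 := RepB.add h5 (RepB.const_mul (repB_mul hχr h5) (-1))
  have e1 : C1 * B + ‖(-1 : ℂ)‖ * (Bχ * (C1 * B)) = (1 + Bχ) * C1 * B := by
    rw [norm_neg, norm_one]; ring
  rw [e1] at h6
  have e2 : (fun y : R12 => ((1 - χ y : ℝ) : ℂ) * w (‖y‖ ^ 2 / 4)) = fun y : R12 =>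
      ((zeta (‖y‖ ^ 2 / 4) : ℝ) : ℂ) * w (‖y‖ ^ 2 / 4) +
        -1 * (((χ y : ℝ) : ℂ) * (((zeta (‖y‖ ^ 2 / 4) : ℝ) : ℂ) * w (‖y‖ ^ 2 / 4))) := by
    funext y
    rcases le_or_gt ‖y‖ r1 with hy | hy
    · rw [hχ.one y hy]; push_cast; ring
    · have : x2 ≤ ‖y‖ ^ 2 / 4 := by
        show r1 ^ 2 / 4 ≤ ‖y‖ ^ 2 / 4
        have := hχ.pos
        nlinarith
      rw [hz1 _ this]; push_cast; ring
  rw [e2]
  exact h6

/-! ### node T1 (helper292) as a hypothesis -/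

/-- **T1**: on compact `x`-intervals where `|V| ≤ M < 1` the potentials are exponentially small with
all derivatives. -/
def T1Stmt : Prop := ∀ a b M B1 : ℝ, 0 < a → a < b → 0 ≤ M → M < 1 → 0 ≤ B1 →
  ∃ C : ℕ → ℝ, ∀ n : ℕ, 2 ≤ n → Even n → ∀ om ∈ Icc (0 : ℝ) 1, ∀ eps ∈ Icc (0 : ℝ) 1,
    ∀ V V1 : ℝ → ℂ, B.IsSolX n om eps V V1 (Ioo a b) →
      (∀ x ∈ Ioo a b, ‖V x‖ ≤ M ∧ ‖V1 x‖ ≤ B1) → ∀ j : ℕ, ∀ x ∈ Ioo a b,
        ‖iteratedDeriv j (B.wA n V) x‖ ≤ C j * ((1 + M) / 2) ^ n ∧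
        ‖iteratedDeriv j (B.wB n V) x‖ ≤ C j * ((1 + M) / 2) ^ n ∧
        ‖iteratedDeriv j (B.wC n V) x‖ ≤ C j * ((1 + M) / 2) ^ n

theorem toX_eq (v : ℝ → ℂ) : B.toX v = BSm0.Vx v := rfl

theorem toX_sq (v : ℝ → ℂ) {r : ℝ} (hr : 0 ≤ r) : B.toX v (r ^ 2 / 4) = v r := BSm0.Vx_sq hr

/-- from `r` to `x` -/
theorem isSolX {n : ℕ} {om eps : ℝ} {v v1 : ℝ → ℂ} (h : B.IsSol n om eps v v1 (Ioi 0)) :
    B.IsSolX n om eps (B.toX v) (BSm0.Vx1 v1) (Ioi 0) := by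
  intro x hx
  refine ⟨BSm0.Vx_hasDerivAt h hx, ?_⟩
  refine (BSm0.Vx1_hasDerivAt h hx).congr_deriv ?_
  have hx' : (x : ℂ) ≠ 0 := by exact_mod_cast (mem_Ioi.1 hx).ne'
  rw [BSm0.Vx2, toX_eq]
  field_simp
  ring

variable {om0 R : ℝ} {U U1 : ℝ → ℂ}

theorem exists_bound_v1 (S : B.BSeq om0 R U U1) : ∃ K : ℝ, 0 ≤ K ∧ ∃ N : ℕ, ∀ n, N ≤ n → Even n →
    ∀ r ∈ Icc (0 : ℝ) (2 * Real.sqrt S.X + 1), ‖S.v1 n r‖ ≤ K := by
  obtain ⟨N, hN⟩ := S.conv 1 one_pos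
  set n0 : ℕ := 2 * max N S.n1
  have hmm : max N S.n1 ≤ n0 := Nat.le_mul_of_pos_left _ two_pos
  have hn0 : N ≤ n0 := (le_max_left _ _).trans hmm
  have hn1 : S.n1 ≤ n0 := (le_max_right _ _).trans hmm
  have he : Even n0 := even_two_mul _
  have hc : ContinuousOn (S.v1 n0) (Icc 0 (2 * Real.sqrt S.X + 1)) :=
    (S.sol n0 hn1 he).2.1.mono Icc_subset_Ici_self
  obtain ⟨K, hK⟩ := isCompact_Icc.exists_bound_of_continuousOn hc
  refine ⟨|K| + 2, by positivity, N, fun n hn hen r hr => ?_⟩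
  have h1 := (hN n hn hen r hr).2
  have h2 := (hN n0 hn0 he r hr).2
  have h3 := hK r hr
  have h4 : S.v1 n r = (S.v1 n r - U1 r) + -(S.v1 n0 r - U1 r) + S.v1 n0 r := by ring
  rw [h4]
  refine (norm_add₃_le).trans ?_
  rw [norm_neg]
  linarith [le_abs_self K]

/-- **symbol estimate with an exponentially small constant**, on `(r0²/4, ∞)`, `r0 > R` -/
theorem sym_tail (S : B.BSeq om0 R U U1) (L : LimitProfile om0 R U) (T1 : T1Stmt) {r0 : ℝ}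
    (hr0 : R < r0) (h8 : r0 ≤ 8) (N : ℕ) : ∃ K Θ : ℝ, 0 ≤ K ∧ 0 < Θ ∧ Θ < 1 ∧ ∃ n0 : ℕ, ∀ n : ℕ,
      n0 ≤ n → Even n → 2 ≤ n ∧
      (ContDiffOn ℝ ∞ (B.wA n (B.toX (S.v n))) (Ioi (r0 ^ 2 / 4)) ∧
        ContDiffOn ℝ ∞ (B.wB n (B.toX (S.v n))) (Ioi (r0 ^ 2 / 4)) ∧
        ContDiffOn ℝ ∞ (B.wC n (B.toX (S.v n))) (Ioi (r0 ^ 2 / 4))) ∧
      ∀ j ≤ N, ∀ x, r0 ^ 2 / 4 < x →
        ‖iteratedDeriv j (B.wA n (B.toX (S.v n))) x‖ ≤ K * Θ ^ n * x ^ (-(1:ℝ) - j) ∧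
        ‖iteratedDeriv j (B.wB n (B.toX (S.v n))) x‖ ≤ K * Θ ^ n * x ^ (-(1:ℝ) - j) ∧
        ‖iteratedDeriv j (B.wC n (B.toX (S.v n))) x‖ ≤ K * Θ ^ n * x ^ (-(1:ℝ) - j) := by
  have hR := L.R_lo
  have hr0p : 0 < r0 := by linarith
  have hX := S.X_ge
  have hXp : 0 < S.X := by linarith
  have hsX : 4 ≤ Real.sqrt S.X := by
    rw [show (4:ℝ) = Real.sqrt (4 ^ 2) by rw [Real.sqrt_sq (by norm_num)]]
    exact Real.sqrt_le_sqrt (by linarith)
  set rX : ℝ := 2 * Real.sqrt S.X + 1 with hrX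
  set a : ℝ := r0 ^ 2 / 4 with ha
  set b : ℝ := rX ^ 2 / 4 with hb
  have hrX9 : 9 ≤ rX := by rw [hrX]; linarith
  have hap : 0 < a := by positivity
  have hab : a < b := by
    rw [ha, hb]; nlinarith
  have hXb : S.X < b := by
    have := Real.sq_sqrt hXp.le
    rw [hb, hrX]; nlinarith [Real.sqrt_nonneg S.X]
  have hb1 : 1 ≤ b := by linarith
  have hbp : 0 < b := by linarith
  set m0 : ℝ := ‖U r0‖ with hm0
  have hm1 : m0 < 1 := L.lt_one r0 hr0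
  have hm00 : 0 ≤ m0 := norm_nonneg _
  set M : ℝ := (1 + m0) / 2 with hM
  have hM0 : 0 ≤ M := by rw [hM]; linarith
  have hM1 : M < 1 := by rw [hM]; linarith
  obtain ⟨K1, hK10, N1, hN1⟩ := exists_bound_v1 S
  set B1 : ℝ := K1 / Real.sqrt a with hB1
  have hsa : 0 < Real.sqrt a := Real.sqrt_pos.2 hap
  have hB10 : 0 ≤ B1 := by positivity
  obtain ⟨C1, hC1⟩ := T1 a b M B1 hap hab hM0 hM1 hB10
  obtain ⟨N2, hN2⟩ := S.conv ((1 - m0) / 2) (by linarith)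
  set θ : ℝ := (1 + M) / 2 with hθ
  have hθ0 : 0 < θ := by rw [hθ]; linarith
  have hθ1 : θ < 1 := by rw [hθ]; linarith
  set Θ : ℝ := max θ S.q with hΘ
  have hΘ0 : 0 < Θ := lt_max_of_lt_left hθ0
  have hΘ1 : Θ < 1 := max_lt hθ1 S.q_lt
  set KA : ℝ := ∑ j ∈ Finset.range (N + 1), |C1 j| * b ^ ((1:ℝ) + j) with hKA
  set KB : ℝ := ∑ j ∈ Finset.range (N + 1), |S.C j| with hKB
  have hKA0 : 0 ≤ KA := Finset.sum_nonneg fun j _ => by positivity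
  have hKB0 : 0 ≤ KB := Finset.sum_nonneg fun j _ => by positivity
  refine ⟨KA + KB, Θ, by positivity, hΘ0, hΘ1, max (max N1 N2) S.n1, fun n hn hen => ?_⟩
  have hnN1 : N1 ≤ n := (le_max_left _ _).trans ((le_max_left _ _).trans hn)
  have hnN2 : N2 ≤ n := (le_max_right _ _).trans ((le_max_left _ _).trans hn)
  have hnn1 : S.n1 ≤ n := (le_max_right _ _).trans hn
  have h2n : 2 ≤ n := S.two_le.trans hnn1
  obtain ⟨hc, hc1, -, hsol⟩ := S.sol n hnn1 hen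
  have hsolX := isSolX hsol
  have hom := S.om_mem n hnn1 hen
  have hVs : ContDiffOn ℝ ∞ (B.toX (S.v n)) (Ioi a) :=
    (BSm0.Vx_contDiffOn' hen hc hc1 hsol).mono fun x hx => mem_Ici.2 (hap.le.trans (mem_Ioi.1 hx).le)
  refine ⟨h2n, ⟨wA_smooth hen hVs, wB_smooth hen hVs, wC_smooth hen hVs⟩, fun j hj x hx => ?_⟩
  have hxp : 0 < x := hap.trans hx
  have hnpos : (0:ℝ) < n := by exact_mod_cast (by omega : 0 < n)
  rcases lt_or_ge x b with hxb | hxb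
  · -- compact region
    have hmem : x ∈ Ioo a b := ⟨hx, hxb⟩
    have hbound : ∀ x ∈ Ioo a b, ‖B.toX (S.v n) x‖ ≤ M ∧ ‖BSm0.Vx1 (S.v1 n) x‖ ≤ B1 := by
      intro x hx
      have hx0 : 0 < x := hap.trans hx.1
      have hr1 : r0 < 2 * Real.sqrt x := by
        have h1 : r0 / 2 < Real.sqrt x := Real.lt_sqrt_of_sq_lt (by rw [div_pow]; have := hx.1; rw [ha] at this; linarith)
        linarith
      have hr2 : 2 * Real.sqrt x ≤ rX := by
        have h1 : Real.sqrt x ≤ rX / 2 := Real.sqrt_le_iff.2 ⟨by positivity, by rw [div_pow]; have := hx.2; rw [hb] at this; linarith⟩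
        linarith
      have hmr : 2 * Real.sqrt x ∈ Icc (0:ℝ) rX := ⟨by positivity, hr2⟩
      constructor
      · have h1 := (hN2 n hnN2 hen _ hmr).1
        have h2 : ‖U (2 * Real.sqrt x)‖ ≤ m0 :=
          (L.anti.antitoneOn (mem_Ici.2 hr0.le) (mem_Ici.2 (hr0.le.trans hr1.le)) hr1.le)
        have h3 : B.toX (S.v n) x = (S.v n (2 * Real.sqrt x) - U (2 * Real.sqrt x)) + U (2 * Real.sqrt x) := by
          rw [B.toX]; ring
        rw [h3]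
        refine (norm_add_le _ _).trans ?_
        rw [hM]; linarith
      · have h1 := hN1 n hnN1 hen _ hmr
        rw [BSm0.Vx1, norm_mul, norm_inv, Complex.norm_real, Real.norm_of_nonneg (Real.sqrt_nonneg x),
          inv_mul_eq_div, hB1]
        have h2 : Real.sqrt a ≤ Real.sqrt x := Real.sqrt_le_sqrt hx.1.le
        exact div_le_div₀ hK10 h1 hsa h2
    have hS : B.IsSolX n (S.om n) (1 / n) (B.toX (S.v n)) (BSm0.Vx1 (S.v1 n)) (Ioo a b) :=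
      fun x hx => hsolX x (mem_Ioi.2 (hap.trans hx.1))
    have h1n : (1 / (n:ℝ)) ∈ Icc (0:ℝ) 1 := by
      refine ⟨by positivity, ?_⟩
      rw [div_le_one hnpos]
      exact_mod_cast (by omega : 1 ≤ n)
    have h5 := hC1 n h2n hen (S.om n) ⟨by linarith [hom.1], by linarith [hom.2]⟩ (1 / n) h1n _ _ hS
      hbound j x hmem
    have h6 : C1 j * θ ^ n ≤ (KA + KB) * Θ ^ n * x ^ (-(1:ℝ) - j) := by
      have h7 : C1 j ≤ KA * x ^ (-(1:ℝ) - j) := by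
        have h8 : |C1 j| * b ^ ((1:ℝ) + j) ≤ KA :=
          Finset.single_le_sum (f := fun j : ℕ => |C1 j| * b ^ ((1:ℝ) + j))
            (fun j _ => by positivity) (Finset.mem_range.2 (by omega))
        have h9 : x ^ ((1:ℝ) + j) ≤ b ^ ((1:ℝ) + j) := Real.rpow_le_rpow hxp.le hxb.le (by positivity)
        have h10 : x ^ (-(1:ℝ) - j) = (x ^ ((1:ℝ) + j))⁻¹ := by
          rw [← Real.rpow_neg hxp.le]; congr 1; ring
        rw [h10, ← div_eq_mul_inv, le_div_iff₀ (Real.rpow_pos_of_pos hxp _)]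
        calc C1 j * x ^ ((1:ℝ) + j) ≤ |C1 j| * b ^ ((1:ℝ) + j) := by
              gcongr
              exact le_abs_self _
          _ ≤ KA := h8
      have h11 : θ ^ n ≤ Θ ^ n := pow_le_pow_left₀ hθ0.le (le_max_left _ _) n
      have h12 : 0 ≤ x ^ (-(1:ℝ) - j) := (Real.rpow_pos_of_pos hxp _).le
      calc C1 j * θ ^ n ≤ KA * x ^ (-(1:ℝ) - j) * θ ^ n := by gcongr
        _ ≤ KA * x ^ (-(1:ℝ) - j) * Θ ^ n := by gcongr
        _ ≤ (KA + KB) * Θ ^ n * x ^ (-(1:ℝ) - j) := by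
          have : 0 ≤ KB * Θ ^ n * x ^ (-(1:ℝ) - j) := by positivity
          nlinarith
    exact ⟨h5.1.trans h6, h5.2.1.trans h6, h5.2.2.trans h6⟩
  · -- far region
    have hF := S.far n hnn1 hen
    have hXx : S.X < x := hXb.trans_le hxb
    have h6 : S.C j * S.q ^ n * x ^ (-(1:ℝ) - j) ≤ (KA + KB) * Θ ^ n * x ^ (-(1:ℝ) - j) := by
      have h12 : 0 ≤ x ^ (-(1:ℝ) - j) := (Real.rpow_pos_of_pos hxp _).le
      have h8 : |S.C j| ≤ KB :=
        Finset.single_le_sum (f := fun j : ℕ => |S.C j|)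
          (fun j _ => by positivity) (Finset.mem_range.2 (by omega))
      have h11 : S.q ^ n ≤ Θ ^ n := pow_le_pow_left₀ S.q_pos.le (le_max_right _ _) n
      refine mul_le_mul_of_nonneg_right ?_ h12
      calc S.C j * S.q ^ n ≤ |S.C j| * S.q ^ n := by
            gcongr
            · exact pow_nonneg S.q_pos.le n
            · exact le_abs_self _
        _ ≤ (KA + KB) * Θ ^ n := by
            refine mul_le_mul (by linarith) h11 (pow_nonneg S.q_pos.le n) (by positivity)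
    exact ⟨(hF.symA.2 j x hXx).trans h6, (hF.symB.2 j x hXx).trans h6, (hF.symC.2 j x hXx).trans h6⟩

theorem eventually_small {K Θ : ℝ} (hΘ0 : 0 < Θ) (hΘ1 : Θ < 1) :
    ∃ c : ℝ, 0 < c ∧ ∀ᶠ n : ℕ in atTop, (n : ℝ) * (K * Θ ^ n) ≤ Real.exp (-c * n) := by
  set c : ℝ := -Real.log Θ / 2 with hc
  have hlog : Real.log Θ < 0 := Real.log_neg hΘ0 hΘ1
  have hc0 : 0 < c := by rw [hc]; linarith
  refine ⟨c, hc0, ?_⟩
  have h1 : Tendsto (fun n : ℕ => (n : ℝ) * (Real.exp (-c)) ^ n) atTop (𝓝 0) := by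
    have := tendsto_self_mul_const_pow_of_lt_one (r := Real.exp (-c)) (Real.exp_pos _).le
      (by rw [Real.exp_lt_one_iff]; linarith)
    exact this
  have h2 : Tendsto (fun n : ℕ => |K| * ((n : ℝ) * (Real.exp (-c)) ^ n)) atTop (𝓝 0) := by
    simpa using h1.const_mul |K|
  filter_upwards [h2.eventually (gt_mem_nhds one_pos)] with n hn
  have h3 : Θ ^ n = Real.exp (-c * n) * (Real.exp (-c)) ^ n := by
    rw [← Real.exp_nat_mul, ← Real.exp_add, ← Real.rpow_natCast, Real.rpow_def_of_pos hΘ0]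
    congr 1
    rw [hc]; ring
  rw [h3]
  have h4 : 0 ≤ (Real.exp (-c)) ^ n := by positivity
  calc (n : ℝ) * (K * (Real.exp (-c * n) * (Real.exp (-c)) ^ n))
      = K * ((n : ℝ) * (Real.exp (-c)) ^ n) * Real.exp (-c * n) := by ring
    _ ≤ |K| * ((n : ℝ) * (Real.exp (-c)) ^ n) * Real.exp (-c * n) := by
        gcongr
        exact le_abs_self _
    _ ≤ 1 * Real.exp (-c * n) := by
        gcongr
    _ = Real.exp (-c * n) := one_mul _

/-- **field `tail`** for the functions of `BSeq` -/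
theorem tail_of (S : B.BSeq om0 R U U1) (L : LimitProfile om0 R U) (T1 : T1Stmt) :
    ∀ r1 r2 : ℝ, R < r1 → r1 < r2 → ∀ χ : R12 → ℝ, IsCut χ r1 r2 → ∃ c : ℝ, 0 < c ∧
      ∀ᶠ n : ℕ in atTop, Even n → 2 ≤ n ∧ ∀ c0 : ℂ, ‖c0‖ ≤ n →
        XBd 20 (fun y : R12 => ((1 - χ y : ℝ) : ℂ) * (c0 * B.wA n (B.toX (S.v n)) (‖y‖ ^ 2 / 4)))
          (Real.exp (-c * n)) ∧
        XBd 20 (fun y : R12 => ((1 - χ y : ℝ) : ℂ) * (c0 * B.wB n (B.toX (S.v n)) (‖y‖ ^ 2 / 4)))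
          (Real.exp (-c * n)) ∧
        XBd 20 (fun y : R12 => ((1 - χ y : ℝ) : ℂ) * (c0 * B.wC n (B.toX (S.v n)) (‖y‖ ^ 2 / 4)))
          (Real.exp (-c * n)) := by
  intro r1 r2 h1 h2 χ hχ
  have hR := L.R_lo
  set r0 : ℝ := min ((R + r1) / 2) 8 with hr0
  have hRr0 : R < r0 := lt_min (by linarith) (by linarith [L.R_hi])
  have h08 : r0 ≤ 8 := min_le_right _ _
  have h01 : r0 < r1 := (min_le_left _ _).trans_lt (by linarith)
  obtain ⟨C, hC, H⟩ := one_sub_chi 20 (by linarith) h01 hχ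
  obtain ⟨K, Θ, hK, hΘ0, hΘ1, n0, hn0⟩ := sym_tail S L T1 hRr0 h08 (20 + 13)
  obtain ⟨c, hc, hev⟩ := eventually_small (K := C * K) hΘ0 hΘ1
  refine ⟨c, hc, ?_⟩
  filter_upwards [hev, eventually_ge_atTop n0] with n hn hnn0 hen
  obtain ⟨h2n, ⟨sA, sB, sC⟩, hj⟩ := hn0 n hnn0 hen
  refine ⟨h2n, fun c0 hc0 => ?_⟩
  have key : ∀ w : ℝ → ℂ, ContDiffOn ℝ ∞ w (Ioi (r0 ^ 2 / 4)) →
      (∀ j ≤ 20 + 13, ∀ x, r0 ^ 2 / 4 < x → ‖iteratedDeriv j w x‖ ≤ K * Θ ^ n * x ^ (-(1:ℝ) - j)) →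
      XBd 20 (fun y : R12 => ((1 - χ y : ℝ) : ℂ) * (c0 * w (‖y‖ ^ 2 / 4))) (Real.exp (-c * n)) := by
    intro w hw hb
    have h3 := RepB.const_mul (H w (K * Θ ^ n) (by positivity) hw hb) c0
    have h4 : ‖c0‖ * (C * (K * Θ ^ n)) ≤ Real.exp (-c * n) := by
      refine le_trans ?_ hn
      have : 0 ≤ C * (K * Θ ^ n) := by positivity
      calc ‖c0‖ * (C * (K * Θ ^ n)) ≤ n * (C * (K * Θ ^ n)) := by gcongr
        _ = n * (C * K * Θ ^ n) := by ring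
    obtain ⟨a, ha, hab⟩ := RepB.mono h3 h4
    refine ⟨a, ?_, hab⟩
    have e : (fun y : R12 => ((1 - χ y : ℝ) : ℂ) * (c0 * w (‖y‖ ^ 2 / 4))) =
        fun y : R12 => c0 * (((1 - χ y : ℝ) : ℂ) * w (‖y‖ ^ 2 / 4)) := by
      funext y; ring
    rw [e]
    exact ha
  exact ⟨key _ sA fun j hj' x hx => (hj j hj' x hx).1, key _ sB fun j hj' x hx => (hj j hj' x hx).2.1,
    key _ sC fun j hj' x hx => (hj j hj' x hx).2.2⟩

/-- potentials of a profile whose function is `y ↦ v |y|` -/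
theorem V1_eq {n : ℕ} (P : Profile n) {v : ℝ → ℂ} (hP : P.Q = fun y : R12 => v ‖y‖) (y : R12) :
    P.V1 y = (1 + (n : ℂ) / 2) * B.wA n (B.toX v) (‖y‖ ^ 2 / 4) := by
  rw [Profile.V1, B.wA, toX_sq v (norm_nonneg y), hP]

theorem V2_eq {n : ℕ} (P : Profile n) {v : ℝ → ℂ} (hP : P.Q = fun y : R12 => v ‖y‖) (y : R12) :
    P.V2 y = ((n : ℂ) / 2) * B.wB n (B.toX v) (‖y‖ ^ 2 / 4) := by
  rw [Profile.V2, B.wB, toX_sq v (norm_nonneg y), hP]; ring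

theorem V2c_eq {n : ℕ} (P : Profile n) {v : ℝ → ℂ} (hP : P.Q = fun y : R12 => v ‖y‖) (y : R12) :
    P.V2c y = ((n : ℂ) / 2) * B.wC n (B.toX v) (‖y‖ ^ 2 / 4) := by
  rw [Profile.V2c, B.wC, toX_sq v (norm_nonneg y), hP]; ring

/-- **field `tail` of `BData`**, for any choice of profiles on the functions of `BSeq`. -/
theorem tail_profile (S : B.BSeq om0 R U U1) (L : LimitProfile om0 R U) (T1 : T1Stmt) :
    ∀ r1 r2 : ℝ, R < r1 → r1 < r2 → ∀ χ : R12 → ℝ, IsCut χ r1 r2 → ∃ c : ℝ, 0 < c ∧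
      ∀ᶠ n : ℕ in atTop, Even n → ∀ P : Profile n, P.Q = (fun y : R12 => S.v n ‖y‖) →
        XBd 20 (fun y : R12 => ((1 - χ y : ℝ) : ℂ) * P.V1 y) (Real.exp (-c * n)) ∧
        XBd 20 (fun y : R12 => ((1 - χ y : ℝ) : ℂ) * P.V2 y) (Real.exp (-c * n)) ∧
        XBd 20 (fun y : R12 => ((1 - χ y : ℝ) : ℂ) * P.V2c y) (Real.exp (-c * n)) := by
  intro r1 r2 h1 h2 χ hχ
  obtain ⟨c, hc, hev⟩ := tail_of S L T1 r1 r2 h1 h2 χ hχ
  refine ⟨c, hc, ?_⟩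
  filter_upwards [hev] with n hn hen P hP
  obtain ⟨h2n, hn⟩ := hn hen
  have h2 : (2:ℝ) ≤ n := by exact_mod_cast h2n
  have e1 : ‖(1 + (n : ℂ) / 2)‖ ≤ n := by
    have : (1 + (n : ℂ) / 2) = ((1 + (n:ℝ) / 2 : ℝ) : ℂ) := by push_cast; ring
    rw [this, Complex.norm_real, Real.norm_of_nonneg (by positivity)]
    linarith
  have e2 : ‖((n : ℂ) / 2)‖ ≤ n := by
    have : ((n : ℂ) / 2) = (((n:ℝ) / 2 : ℝ) : ℂ) := by push_cast; ring
    rw [this, Complex.norm_real, Real.norm_of_nonneg (by positivity)]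
    linarith
  simp_rw [V1_eq P hP, V2_eq P hP, V2c_eq P hP]
  exact ⟨(hn _ e1).1, (hn _ e2).2.1, (hn _ e2).2.2⟩

end Crest.Agent.R086.BTailFin
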