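import Crest.Agent.R086.PFacts
import Crest.Agent.R086.BExtDefs
import Crest.Agent.R086.BCIface
import Crest.Agent.R086.A3Ode

/-!
Row 86, part B (helper548): `PF.Lim` from `LimitProfile`, and the fields `pow_ge`, `logder` of `BData`
(in the variables of `BSeq`).
-/

set_option autoImplicit false

open Complex Set Filter Topology

namespace Crest.Agent.R086.PF

open Crest.Agent.R086.B

/-- `U' = 0` on `[0,R]` -/
lemma deriv_core {om0 R : ℝ} {U : ℝ → ℂ} (L : LimitProfile om0 R U) : ∀ r, r ≤ R → deriv U r = 0 := by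
  have hcd : Continuous (deriv U) := L.c1.continuous_deriv le_rfl
  have h1 : ∀ r, r < R → deriv U r = 0 := by
    intro r hr
    have : U =ᶠ[𝓝 r] fun _ => (1 : ℂ) := by
      filter_upwards [Iio_mem_nhds hr] with x hx
      exact L.core x (le_of_lt hx)
    rw [this.deriv_eq, deriv_const]
  intro r hr
  rcases hr.lt_or_eq with h | h
  · exact h1 r h
  · subst h
    have hcl : r ∈ closure (Iio r) := by rw [closure_Iio]; exact Set.mem_Iic.mpr le_rfl
    have hset : IsClosed {x | deriv U x = 0} := isClosed_eq hcd continuous_const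
    exact (closure_minimal (fun x hx => h1 x hx) hset) hcl

/-- the limit profile satisfies the hypotheses `PF.Lim` with `T = 9/2` -/
theorem lim_of_limitProfile {om0 R : ℝ} {U : ℝ → ℂ} (L : LimitProfile om0 R U) :
    Lim R om0 (9 / 2) U (deriv U) := by
  have hR1 := L.R_lo
  have hR2 := L.R_hi
  have ho1 := L.om_lo
  have ho2 := L.om_hi
  have hcd : Continuous (deriv U) := L.c1.continuous_deriv le_rfl
  have hc : Continuous U := L.c1.continuous
  have hdU : ∀ r, HasDerivAt U (deriv U r) r := fun r =>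
    ((L.c1.differentiable one_ne_zero) r).hasDerivAt
  refine
    { R1 := by linarith
      RT := by linarith
      T8 := by norm_num
      o0 := by linarith
      o1 := by linarith
      cU := hc.continuousOn
      cU1 := hcd.continuousOn
      core := fun r hr => L.core r hr.2
      core1 := fun r hr => deriv_core L r hr.2
      low := fun r _ => by
        have := L.lower r
        norm_num at this ⊢
        linarith
      le := ?_
      neg := ?_ }
  · intro r _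
    rcases le_or_gt r R with h | h
    · rw [L.core r h]; simp
    · exact (L.lt_one r h).le
  · intro r hr
    have h1 := A3.re_conj_mul_neg (om := om0) (R := R) (b := 9 / 2) (U := U) (U1 := deriv U)
      (by linarith) (by linarith) (by nlinarith) hc.continuousOn hcd.continuousOn
      (fun x _ => hdU x) (fun x hx => L.ode x hx.1)
      (by rw [L.core R le_rfl]; exact one_ne_zero) (deriv_core L R le_rfl) r hr
    have h2 : 6 / 10 ≤ ‖U r‖ := L.lower r
    have h3 : U r ≠ 0 := norm_ne_zero_iff.mp (by linarith)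
    have h4 : 0 < normSq (U r) := normSq_pos.mpr h3
    have h5 : (deriv U r / U r).re = ((starRingEnd ℂ (U r)) * deriv U r).re / normSq (U r) := by
      rw [Complex.div_re, Complex.mul_re, Complex.conj_re, Complex.conj_im]
      field_simp
      ring
    rw [h5]
    exact div_neg_of_neg_of_pos h1 h4

/-- all facts on one interval, for the sequence -/
theorem facts_of_BSeq {om0 R T : ℝ} {U U1 : ℝ → ℂ} (S : BSeq om0 R U U1) (L : Lim R om0 T U U1)
    {η : ℝ} (hη : 0 < η) : ∃ N : ℕ, ∀ n : ℕ, N ≤ n → Even n →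
      (∀ r ∈ Icc (0 : ℝ) T, 1 / 2 ≤ ‖S.v n r‖) ∧
      (∀ r ∈ Icc (0 : ℝ) R, |sg (S.v n) (S.v1 n) r| ≤ η) ∧
      (∀ r ∈ Icc (0 : ℝ) R, |ta (S.v n) (S.v1 n) r| ≤ η * r) ∧
      (∀ r ∈ Icc (0 : ℝ) T, n * sg (S.v n) (S.v1 n) r ≤ η) ∧
      (∀ r ∈ Icc (0 : ℝ) T, ‖S.v n r‖ ^ n ≤ om0 + η) ∧
      (∀ r ∈ Icc (0 : ℝ) (R - η), om0 - η ≤ ‖S.v n r‖ ^ n) := by
  obtain ⟨δ, hδ, n0, h⟩ := pfacts L hη
  obtain ⟨N1, hN1⟩ := S.conv δ hδ
  obtain ⟨N2, hN2⟩ := (Metric.tendsto_atTop.mp S.om_lim) δ hδ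
  refine ⟨max (max n0 S.n1) (max N1 N2), fun n hn hev => ?_⟩
  have h1 : n0 ≤ n := (le_max_left _ _).trans ((le_max_left _ _).trans hn)
  have h2 : S.n1 ≤ n := (le_max_right _ _).trans ((le_max_left _ _).trans hn)
  have h3 : N1 ≤ n := (le_max_left _ _).trans ((le_max_right _ _).trans hn)
  have h4 : N2 ≤ n := (le_max_right _ _).trans ((le_max_right _ _).trans hn)
  obtain ⟨a1, a2, a3, a4⟩ := S.sol n h2 hev
  have hT : T ≤ 2 * Real.sqrt S.X + 1 := by
    have hX := S.X_ge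
    have : (4 : ℝ) ≤ Real.sqrt S.X := by
      apply Real.le_sqrt_of_sq_le
      norm_num
      linarith
    linarith [L.T8]
  have hsub : Icc (0 : ℝ) T ⊆ Ici 0 := fun x hx => hx.1
  refine h n h1 (S.om n) (S.v n) (S.v1 n) ?_ (fun r hr => a4 r hr.1) (a1.mono hsub) (a2.mono hsub) a3 ?_
  · have := hN2 n h4
    rw [Real.dist_eq] at this
    exact this.le
  · intro r hr
    exact hN1 n h3 hev r ⟨hr.1, hr.2.trans hT⟩

/-- `BData.logder`, in the variables of `BSeq` -/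
theorem logder_of_BSeq {om0 R : ℝ} {U : ℝ → ℂ} (L : LimitProfile om0 R U) (S : BSeq om0 R U (deriv U)) :
    ∃ del0 : ℝ, 0 < del0 ∧ ∀ e : ℝ, 0 < e → ∃ N : ℕ, ∀ n : ℕ, N ≤ n → Even n →
      ∀ r ∈ Icc (0 : ℝ) (R + del0), (n : ℝ) * (S.v1 n r / S.v n r).re ≤ e := by
  refine ⟨1, one_pos, fun e he => ?_⟩
  obtain ⟨N, hN⟩ := facts_of_BSeq S (lim_of_limitProfile L) he
  refine ⟨N, fun n hn hev r hr => ?_⟩
  obtain ⟨_, _, _, h, _, _⟩ := hN n hn hev
  exact h r ⟨hr.1, hr.2.trans (by linarith [L.R_hi])⟩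

/-- `BData.pow_ge`, in the variables of `BSeq` -/
theorem pow_ge_of_BSeq {om0 R : ℝ} {U : ℝ → ℂ} (L : LimitProfile om0 R U) (S : BSeq om0 R U (deriv U)) :
    ∀ del : ℝ, 0 < del → ∃ c : ℝ, 0 < c ∧ ∃ N : ℕ, ∀ n : ℕ, N ≤ n → Even n →
      ∀ r ∈ Icc (0 : ℝ) (R - del), c ≤ ‖S.v n r‖ ^ n := by
  intro del hdel
  have ho := L.om_lo
  obtain ⟨N, hN⟩ := facts_of_BSeq S (lim_of_limitProfile L) (η := min del (1 / 10))
    (lt_min hdel (by norm_num))
  refine ⟨1 / 10, by norm_num, N, fun n hn hev r hr => ?_⟩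
  obtain ⟨_, _, _, _, _, h⟩ := hN n hn hev
  have h1 := h r ⟨hr.1, hr.2.trans (by linarith [min_le_left del (1 / 10)])⟩
  linarith [min_le_right del (1 / 10 : ℝ)]

/-- more exports for part C: `P → om0` on the core, `tau → 0` -/
theorem core_of_BSeq {om0 R : ℝ} {U : ℝ → ℂ} (L : LimitProfile om0 R U) (S : BSeq om0 R U (deriv U))
    {η : ℝ} (hη : 0 < η) : ∃ N : ℕ, ∀ n : ℕ, N ≤ n → Even n →
      (∀ r ∈ Icc (0 : ℝ) R, |(S.v1 n r / S.v n r).re| ≤ η) ∧
      (∀ r ∈ Icc (0 : ℝ) R, |(S.v1 n r / S.v n r).im| ≤ η * r) ∧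
      (∀ r ∈ Icc (0 : ℝ) (9 / 2), (n : ℝ) * (S.v1 n r / S.v n r).re ≤ η) ∧
      (∀ r ∈ Icc (0 : ℝ) (9 / 2), ‖S.v n r‖ ^ n ≤ om0 + η) ∧
      (∀ r ∈ Icc (0 : ℝ) (R - η), om0 - η ≤ ‖S.v n r‖ ^ n) := by
  obtain ⟨N, hN⟩ := facts_of_BSeq S (lim_of_limitProfile L) hη
  exact ⟨N, fun n hn hev => (hN n hn hev).2⟩

end Crest.Agent.R086.PF
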