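import Crest.Agent.R086.BFin2
import Crest.Agent.R086.BPolyFin
import Crest.Agent.R086.BTailFin
import Crest.Agent.R086.PFacts2

/-!
Row 86 (S0114), Part B (helper97): `BData` from `BSeq`, `LimitProfile` and the outputs of T1, T3.
-/

set_option autoImplicit false

open MeasureTheory Set Filter Topology Complex
open scoped ContDiff

namespace Crest.Agent.R086.B

variable {om0 R : ℝ} {U U1 : ℝ → ℂ}

namespace BAsm

open BFin

theorem exists_profile (S : BSeq om0 R U U1) (L : LimitProfile om0 R U) :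
    ∃ N : ℕ, S.n1 ≤ N ∧ ∀ n, N ≤ n → Even n → ∃ P : Profile n, IsProf S P := by
  obtain ⟨N, hN1, hN⟩ := exists_lower S L
  have hlen := nine_le_len S
  refine ⟨N, hN1, ?_⟩
  intro n hn he
  have hn1 := hN1.trans hn
  obtain ⟨h1, h2, h3, h4⟩ := S.sol n hn1 he
  refine BSm0.profile_of_sol n he (S.two_le.trans hn1) (S.om n) (S.v n) (S.v1 n) h1 h2 h4 ?_ ?_
  · intro j
    refine ⟨S.C j, ?_⟩
    filter_upwards [eventually_gt_atTop S.X] with x hx
    exact (S.far n hn1 he).sym.2 j x hx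
  · have h := hN n hn he 0 ⟨le_rfl, by linarith⟩
    intro h0
    rw [h0, norm_zero] at h
    linarith

/-- a statement which holds for all large even `n` and the attached profiles -/
theorem eventually_of {S : BSeq om0 R U U1} {N0 : ℕ} {P : ∀ j : ℕ, Profile (2 * (N0 + j))}
    (hP : ∀ j, IsProf S (P j)) {A : ∀ n : ℕ, Profile n → Prop}
    (h : ∃ N : ℕ, S.n1 ≤ N ∧ ∀ n, N ≤ n → Even n → ∀ P : Profile n, IsProf S P → A n P) :
    ∀ᶠ j in atTop, A (2 * (N0 + j)) (P j) := by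
  obtain ⟨N, -, hN⟩ := h
  filter_upwards [eventually_ge_atTop N] with j hj
  exact hN _ (by omega) (even_two_mul _) _ (hP j)

/-- **`BData` from the sequence of solutions.** -/
theorem bdata_of_bseq (S : BSeq om0 R U (deriv U)) (L : LimitProfile om0 R U)
    (T1 : BTailFin.T1Stmt) (T3 : T3Out S) : Nonempty (BData om0 R U) := by
  obtain ⟨Na, hNa1, hNa⟩ := exists_profile S L
  obtain ⟨Nb, hNb1, hNb⟩ := q_ne S L
  set N0 : ℕ := Na + Nb with hN0
  have hex : ∀ j : ℕ, ∃ P : Profile (2 * (N0 + j)), IsProf S P := fun j =>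
    hNa _ (by omega) (even_two_mul _)
  choose P hP using hex
  have hnn : Tendsto (fun j : ℕ => 2 * (N0 + j)) atTop atTop := by
    refine tendsto_atTop_mono (fun j => ?_) tendsto_id
    simp only [id]
    omega
  have hn1 : ∀ j : ℕ, S.n1 ≤ 2 * (N0 + j) := fun j => by omega
  refine ⟨{
    nn := fun j => 2 * (N0 + j)
    P := P
    nn_tendsto := hnn
    om_tendsto := ?_
    radial := fun j y => radial (hP j) y
    q_ne := fun j r => hNb _ (by omega) (even_two_mul _) _ (hP j) r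
    q_der := ?_
    decay2 := ?_
    conv := fun e he => eventually_of hP (A := fun n P => ∀ r ∈ Icc (0 : ℝ) 8,
      ‖P.q r - U r‖ ≤ e ∧ ‖deriv P.q r - deriv U r‖ ≤ e) (conv S L e he)
    q_lower := eventually_of hP (A := fun n P => ∀ r ∈ Icc (0 : ℝ) 8, 1 / 2 ≤ ‖P.q r‖) (q_lower S L)
    pow_le := ⟨3 / 2, Eventually.of_forall fun j => pow_le S _ (hn1 j) (even_two_mul _) _ (hP j)⟩
    pow_ge := ?_
    logder := ?_
    pow_tail := ?_
    tail := ?_
    poly := ?_ }⟩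
  · have h : (fun j => (P j).om) = fun j => S.om (2 * (N0 + j)) := by
      funext j; exact (hP j).1
    rw [h]
    exact S.om_lim.comp hnn
  · obtain ⟨C, hC⟩ := q_der S L
    exact ⟨C, eventually_of hP (A := fun n P => ∀ r : ℝ, 0 ≤ r →
      ‖deriv P.q r‖ ≤ C * (r / (1 + r ^ 2)) * ‖P.q r‖ ∧
      ‖deriv (deriv P.q) r‖ ≤ C / (1 + r ^ 2) * ‖P.q r‖) hC⟩
  · obtain ⟨A, hA, h⟩ := decay2 S L
    exact ⟨A, hA, eventually_of hP (A := fun n P => ∀ r : ℝ, 0 ≤ r →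
      1 / A ≤ ‖P.q r‖ * (1 + r) ^ ((2 : ℝ) / n) ∧ ‖P.q r‖ * (1 + r) ^ ((2 : ℝ) / n) ≤ A) h⟩
  · intro del hdel
    obtain ⟨c, hc, N, h⟩ := PF.pow_ge_of_BSeq L S del hdel
    refine ⟨c, hc, ?_⟩
    filter_upwards [eventually_ge_atTop N] with j hj r hr
    rw [q_eq_of_nonneg (hP j) hr.1]
    exact h _ (by omega) (even_two_mul _) r hr
  · obtain ⟨del0, hdel0, h⟩ := PF.logder_of_BSeq L S
    refine ⟨del0, hdel0, fun e he => ?_⟩
    obtain ⟨N, h⟩ := h e he
    filter_upwards [eventually_ge_atTop N] with j hj r hr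
    rw [q_eq_of_nonneg (hP j) hr.1, deriv_q_nonneg (hP j) (hn1 j) (even_two_mul _) hr.1]
    exact h _ (by omega) (even_two_mul _) r hr
  · intro r1 hr1
    obtain ⟨c, hc, h⟩ := pow_tail S L r1 hr1
    exact ⟨c, hc, eventually_of hP (A := fun n P => ∀ r : ℝ, r1 ≤ r →
      ‖P.q r‖ ^ n ≤ Real.exp (-c * n) / r ^ 2) h⟩
  · intro r1 r2 h1 h2 χ hχ
    obtain ⟨c, hc, h⟩ := BTailFin.tail_profile S L T1 r1 r2 h1 h2 χ hχ
    refine ⟨c, hc, ?_⟩
    filter_upwards [hnn.eventually h] with j hj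
    exact hj (even_two_mul _) (P j) (hP j).2
  · obtain ⟨K, h⟩ := poly S T3
    exact ⟨K, eventually_of hP (A := fun n P =>
      XBd 30 P.V1 ((n : ℝ) ^ K) ∧ XBd 30 P.V2 ((n : ℝ) ^ K) ∧ XBd 30 P.V2c ((n : ℝ) ^ K) ∧
      ∀ i : Fin 12,
        XBd 0 (fun y => ((y i : ℝ) : ℂ) * P.V1 y) ((n : ℝ) ^ K) ∧
        XBd 0 (fun y => ((y i : ℝ) : ℂ) * P.V2 y) ((n : ℝ) ^ K) ∧
        XBd 0 (fun y => ((y i : ℝ) : ℂ) * P.V2c y) ((n : ℝ) ^ K)) h⟩

end BAsm

end Crest.Agent.R086.B
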