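import Mathlib

/-!
# Row 86, part B: global flow of a Lipschitz ODE, jointly continuous in a compact parameter
(helper384; generalises helper514's `R202/LinODE`)
-/

set_option autoImplicit false

open Set Filter Topology MeasureTheory
open scoped Nat NNReal

namespace Crest.Agent.R086.BFlow

variable {X : Type*} [TopologicalSpace X]
  {E : Type*} [NormedAddCommGroup E] [NormedSpace ℝ E]

/-- Picard iterates. -/
noncomputable def pic (F : X → ℝ → E → E) (t0 : ℝ) (x0 : X → E) : ℕ → X → ℝ → E
  | 0 => fun κ _ => x0 κ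
  | n + 1 => fun κ t => x0 κ + ∫ s in t0..t, F κ s (pic F t0 x0 n κ s)

theorem continuous_pic {F : X → ℝ → E → E}
    (hF : Continuous fun p : X × ℝ × E => F p.1 p.2.1 p.2.2) (t0 : ℝ)
    {x0 : X → E} (hx : Continuous x0) (n : ℕ) :
    Continuous (Function.uncurry (pic F t0 x0 n)) := by
  induction n with
  | zero => exact hx.comp continuous_fst
  | succ n ih =>
    have h2 : Continuous fun p : (X × ℝ) × ℝ => F p.1.1 p.2 (pic F t0 x0 n p.1.1 p.2) := by
      have h3 : Continuous fun p : (X × ℝ) × ℝ => pic F t0 x0 n p.1.1 p.2 :=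
        ih.comp ((continuous_fst.comp continuous_fst).prodMk continuous_snd)
      exact hF.comp ((continuous_fst.comp continuous_fst).prodMk (continuous_snd.prodMk h3))
    have h4 := intervalIntegral.continuous_parametric_intervalIntegral_of_continuous
      (μ := volume) (a₀ := t0)
      (f := fun (p : X × ℝ) (s : ℝ) => F p.1 s (pic F t0 x0 n p.1 s)) h2 continuous_snd
    exact (hx.comp continuous_fst).add h4

theorem continuous_comp {F : X → ℝ → E → E}
    (hF : Continuous fun p : X × ℝ × E => F p.1 p.2.1 p.2.2) (κ : X) {g : ℝ → E}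
    (hg : Continuous g) : Continuous fun s => F κ s (g s) :=
  hF.comp (continuous_const.prodMk (continuous_id.prodMk hg))

theorem continuous_slice {S : X → ℝ → E} (h : Continuous (Function.uncurry S)) (κ : X) :
    Continuous (S κ) := h.comp (continuous_const.prodMk continuous_id)

theorem integral_abs_pow (t0 t : ℝ) (n : ℕ) :
    |∫ s in t0..t, |s - t0| ^ n| = |t - t0| ^ (n + 1) / (n + 1) := by
  rcases le_total t0 t with h | h
  · have : (∫ s in t0..t, |s - t0| ^ n) = ∫ s in t0..t, (s - t0) ^ n := by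
      refine intervalIntegral.integral_congr fun s hs => ?_
      rw [Set.uIcc_of_le h] at hs
      simp only [abs_of_nonneg (sub_nonneg.2 hs.1)]
    rw [this]
    have h3 : (∫ s in t0..t, (s - t0) ^ n) = (t - t0) ^ (n + 1) / (n + 1) := by
      rw [intervalIntegral.integral_comp_sub_right (fun x => x ^ n) t0]
      simp
    rw [h3, abs_of_nonneg (sub_nonneg.2 h), abs_of_nonneg]
    exact div_nonneg (pow_nonneg (sub_nonneg.2 h) _) (by positivity)
  · have : (∫ s in t0..t, |s - t0| ^ n) = ∫ s in t0..t, (t0 - s) ^ n := by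
      refine intervalIntegral.integral_congr fun s hs => ?_
      rw [Set.uIcc_of_ge h] at hs
      simp only [abs_of_nonpos (sub_nonpos.2 hs.2), neg_sub]
    rw [this]
    have h3 : (∫ s in t0..t, (t0 - s) ^ n) = -((t0 - t) ^ (n + 1) / (n + 1)) := by
      rw [intervalIntegral.integral_comp_sub_left (fun x => x ^ n) t0]
      rw [integral_pow]
      simp
      ring
    rw [h3, abs_neg, abs_of_nonpos (sub_nonpos.2 h), neg_sub, abs_of_nonneg]
    exact div_nonneg (pow_nonneg (sub_nonneg.2 h) _) (by positivity)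

theorem mem_Icc_of_uIcc {t0 t R s : ℝ} (ht : t ∈ Icc (t0 - R) (t0 + R)) (hs : s ∈ Set.uIcc t0 t) :
    s ∈ Icc (t0 - R) (t0 + R) := by
  have hR : t0 ∈ Icc (t0 - R) (t0 + R) := by constructor <;> linarith [ht.1, ht.2]
  exact (Set.uIcc_subset_Icc hR ht) hs

theorem norm_diff_le {F : X → ℝ → E → E}
    (hF : Continuous fun p : X × ℝ × E => F p.1 p.2.1 p.2.2) {K : ℝ≥0}
    (hK : ∀ κ t, LipschitzWith K (F κ t)) (t0 : ℝ) {x0 : X → E} (hx : Continuous x0)
    {R M : ℝ} (hM0 : 0 ≤ M)
    (hM : ∀ κ, ∀ t ∈ Icc (t0 - R) (t0 + R), ‖F κ t (x0 κ)‖ ≤ M)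
    (n : ℕ) (κ : X) (t : ℝ) (ht : t ∈ Icc (t0 - R) (t0 + R)) :
    ‖pic F t0 x0 (n + 1) κ t - pic F t0 x0 n κ t‖ ≤ (M * R) * ((K * |t - t0|) ^ n / n !) := by
  induction n generalizing t with
  | zero =>
    have h1 : pic F t0 x0 (0 + 1) κ t - pic F t0 x0 0 κ t = ∫ s in t0..t, F κ s (x0 κ) := by
      simp [pic]
    rw [h1]
    have h2 : ‖∫ s in t0..t, F κ s (x0 κ)‖ ≤ M * |t - t0| :=
      intervalIntegral.norm_integral_le_of_norm_le_const fun s hs =>
        hM κ s (mem_Icc_of_uIcc ht (Set.uIoc_subset_uIcc hs))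
    have h3 : |t - t0| ≤ R := by rw [abs_le]; constructor <;> linarith [ht.1, ht.2]
    simpa using h2.trans (mul_le_mul_of_nonneg_left h3 hM0)
  | succ n ih =>
    have hR0 : 0 ≤ R := by linarith [ht.1, ht.2]
    have hi : ∀ m, IntervalIntegrable (fun s => F κ s (pic F t0 x0 m κ s)) volume t0 t :=
      fun m => (continuous_comp hF κ (continuous_slice (continuous_pic hF t0 hx m)
        κ)).intervalIntegrable _ _
    have h1 : pic F t0 x0 (n + 1 + 1) κ t - pic F t0 x0 (n + 1) κ t =
        ∫ s in t0..t, (F κ s (pic F t0 x0 (n + 1) κ s) - F κ s (pic F t0 x0 n κ s)) := by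
      rw [intervalIntegral.integral_sub (hi _) (hi _)]
      simp [pic]
    rw [h1]
    have hle : ‖∫ s in t0..t, (F κ s (pic F t0 x0 (n + 1) κ s) - F κ s (pic F t0 x0 n κ s))‖ ≤
        |∫ s in t0..t, (K : ℝ) * ((M * R) * ((K * |s - t0|) ^ n / n !))| := by
      refine intervalIntegral.norm_integral_le_abs_of_norm_le ?_ ?_
      · refine (MeasureTheory.ae_restrict_iff' measurableSet_uIoc).2
          (Filter.Eventually.of_forall ?_)
        intro s hs
        have hs' := mem_Icc_of_uIcc ht (Set.uIoc_subset_uIcc hs)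
        have h2 := (hK κ s).dist_le_mul (pic F t0 x0 (n + 1) κ s) (pic F t0 x0 n κ s)
        rw [dist_eq_norm, dist_eq_norm] at h2
        exact h2.trans (mul_le_mul_of_nonneg_left (ih s hs') K.coe_nonneg)
      · apply Continuous.intervalIntegrable
        fun_prop
    refine hle.trans ?_
    have hcomp : (∫ s in t0..t, (K : ℝ) * ((M * R) * ((K * |s - t0|) ^ n / n !)))
        = (K : ℝ) ^ (n + 1) * (M * R) / n ! * ∫ s in t0..t, |s - t0| ^ n := by
      rw [← intervalIntegral.integral_const_mul]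
      congr 1
      funext s
      rw [mul_pow]
      ring
    rw [hcomp, abs_mul, integral_abs_pow, abs_of_nonneg (by positivity)]
    have hf : ((n + 1)! : ℝ) = (n + 1) * n ! := by
      rw [Nat.factorial_succ]; push_cast; ring
    rw [hf, mul_pow]
    have h1 : (0:ℝ) < n ! := by positivity
    have h2 : (0:ℝ) < (n:ℝ) + 1 := by positivity
    apply le_of_eq
    field_simp

variable [CompactSpace X] [CompleteSpace E]

/-- Global solutions of a Lipschitz ODE, jointly continuous in time and a compact parameter. -/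
theorem exists_flow {F : X → ℝ → E → E}
    (hF : Continuous fun p : X × ℝ × E => F p.1 p.2.1 p.2.2) {K : ℝ≥0}
    (hK : ∀ κ t, LipschitzWith K (F κ t)) (t0 : ℝ) {x0 : X → E} (hx : Continuous x0) :
    ∃ S : X → ℝ → E, Continuous (Function.uncurry S) ∧ (∀ κ, S κ t0 = x0 κ) ∧
      ∀ κ t, HasDerivAt (S κ) (F κ t (S κ t)) t := by
  -- bound of `F κ t (x0 κ)`
  have hbound : ∀ R : ℝ, ∃ M, 0 ≤ M ∧ ∀ κ, ∀ t ∈ Icc (t0 - R) (t0 + R), ‖F κ t (x0 κ)‖ ≤ M := by
    intro R
    have hc : Continuous fun p : X × ℝ => F p.1 p.2 (x0 p.1) :=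
      hF.comp (continuous_fst.prodMk (continuous_snd.prodMk (hx.comp continuous_fst)))
    have hKc : IsCompact ((univ : Set X) ×ˢ Icc (t0 - R) (t0 + R)) :=
      isCompact_univ.prod isCompact_Icc
    obtain ⟨M, hM⟩ := hKc.bddAbove_image (f := fun p : X × ℝ => ‖F p.1 p.2 (x0 p.1)‖)
      hc.norm.continuousOn
    refine ⟨max M 0, le_max_right _ _, fun κ t ht => ?_⟩
    exact (hM ⟨(κ, t), ⟨mem_univ _, ht⟩, rfl⟩).trans (le_max_left _ _)
  set D : ℕ → X → ℝ → E := fun n κ t => pic F t0 x0 (n + 1) κ t - pic F t0 x0 n κ t with hDdef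
  have hDc : ∀ n, Continuous (Function.uncurry (D n)) := fun n =>
    (continuous_pic hF t0 hx (n + 1)).sub (continuous_pic hF t0 hx n)
  have hbd : ∀ R : ℝ, ∃ u : ℕ → ℝ, Summable u ∧ (∀ n, 0 ≤ u n) ∧
      ∀ n κ, ∀ t ∈ Icc (t0 - R) (t0 + R), ‖D n κ t‖ ≤ u n := by
    intro R
    obtain ⟨M, hM0, hM⟩ := hbound R
    refine ⟨fun n => (M * |R|) * ((K * |R|) ^ n / n !), ?_, fun n => by positivity, ?_⟩
    · exact (Real.summable_pow_div_factorial _).mul_left _
    · intro n κ t ht
      have hR0 : 0 ≤ R := by linarith [ht.1, ht.2]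
      refine (norm_diff_le hF hK t0 hx hM0 hM n κ t ht).trans ?_
      have h1 : |t - t0| ≤ |R| := by
        rw [abs_le, abs_of_nonneg hR0]
        constructor <;> linarith [ht.1, ht.2]
      have h2 : ((K : ℝ) * |t - t0|) ^ n ≤ (K * |R|) ^ n :=
        pow_le_pow_left₀ (by positivity) (mul_le_mul_of_nonneg_left h1 K.coe_nonneg) n
      have h3 : ((K : ℝ) * |t - t0|) ^ n / n ! ≤ (K * |R|) ^ n / n ! := by gcongr
      have h4 : M * R ≤ M * |R| := mul_le_mul_of_nonneg_left (le_abs_self R) hM0
      exact mul_le_mul h4 h3 (by positivity) (by positivity)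
  have hmem : ∀ t, t ∈ Icc (t0 - |t - t0|) (t0 + |t - t0|) := fun t => by
    constructor <;> linarith [neg_abs_le (t - t0), le_abs_self (t - t0)]
  have hsumm : ∀ κ t, Summable fun n => D n κ t := by
    intro κ t
    obtain ⟨u, hu, -, hb⟩ := hbd (|t - t0|)
    exact Summable.of_norm_bounded hu fun n => hb n κ t (hmem t)
  set S : X → ℝ → E := fun κ t => x0 κ + ∑' n, D n κ t with hS
  have hpart : ∀ κ t m, x0 κ + ∑ n ∈ Finset.range m, D n κ t = pic F t0 x0 m κ t := by
    intro κ t m
    rw [hDdef, Finset.sum_range_sub (fun n => pic F t0 x0 n κ t) m]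
    simp [pic]
  have hlim : ∀ κ t, Tendsto (fun m => pic F t0 x0 m κ t) atTop (𝓝 (S κ t)) := by
    intro κ t
    have h1 := ((hsumm κ t).hasSum.tendsto_sum_nat).const_add (x0 κ)
    simpa only [hpart] using h1
  have hcont : Continuous (Function.uncurry S) := by
    have h0 : Continuous fun p : X × ℝ => ∑' n, D n p.1 p.2 := by
      rw [continuous_iff_continuousAt]
      rintro ⟨κ, t⟩
      obtain ⟨u, hu, -, hb⟩ := hbd (|t - t0| + 1)
      have hon : ContinuousOn (fun p : X × ℝ => ∑' n, D n p.1 p.2)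
          (univ ×ˢ Icc (t0 - (|t - t0| + 1)) (t0 + (|t - t0| + 1))) := by
        refine continuousOn_tsum (fun n => (hDc n).continuousOn) hu ?_
        rintro n ⟨κ', t'⟩ ⟨_, ht'⟩
        exact hb n κ' t' ht'
      refine (hon.continuousAt ?_)
      refine prod_mem_nhds univ_mem (Icc_mem_nhds ?_ ?_)
      · linarith [neg_abs_le (t - t0)]
      · linarith [le_abs_self (t - t0)]
    exact (hx.comp continuous_fst).add h0
  have hS0 : ∀ κ, S κ t0 = x0 κ := by
    intro κ
    have h1 : ∀ m, pic F t0 x0 m κ t0 = x0 κ := by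
      intro m; cases m <;> simp [pic]
    exact tendsto_nhds_unique (hlim κ t0) (by simp only [h1]; exact tendsto_const_nhds)
  refine ⟨S, hcont, hS0, fun κ t => ?_⟩
  have hFS : Continuous fun s => F κ s (S κ s) := continuous_comp hF κ (continuous_slice hcont κ)
  have hint : ∀ t, S κ t = x0 κ + ∫ s in t0..t, F κ s (S κ s) := by
    intro t
    obtain ⟨u, hu, hu0, hb⟩ := hbd (|t - t0|)
    obtain ⟨M, hM0, hM⟩ := hbound (|t - t0|)
    have h1 : Tendsto (fun m => ∫ s in t0..t, F κ s (pic F t0 x0 m κ s)) atTop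
        (𝓝 (∫ s in t0..t, F κ s (S κ s))) := by
      refine intervalIntegral.tendsto_integral_filter_of_dominated_convergence
        (fun _ => M + K * ∑' n, u n) ?_ ?_ ?_ ?_
      · exact Filter.Eventually.of_forall fun m => (continuous_comp hF κ
          (continuous_slice (continuous_pic hF t0 hx m) κ)).aestronglyMeasurable
      · refine Filter.Eventually.of_forall fun m => Filter.Eventually.of_forall fun s hs => ?_
        have hs' := mem_Icc_of_uIcc (hmem t) (Set.uIoc_subset_uIcc hs)
        have h2 := (hK κ s).dist_le_mul (pic F t0 x0 m κ s) (x0 κ)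
        rw [dist_eq_norm, dist_eq_norm] at h2
        have h3 : ‖pic F t0 x0 m κ s - x0 κ‖ ≤ ∑' n, u n := by
          rw [← hpart κ s m, add_sub_cancel_left]
          exact (norm_sum_le _ _).trans ((Finset.sum_le_sum fun n _ => hb n κ s hs').trans
            (hu.sum_le_tsum _ fun n _ => hu0 n))
        have h4 := norm_add_le (F κ s (pic F t0 x0 m κ s) - F κ s (x0 κ)) (F κ s (x0 κ))
        rw [sub_add_cancel] at h4
        have h5 := mul_le_mul_of_nonneg_left h3 K.coe_nonneg
        linarith [hM κ s hs']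
      · exact continuous_const.intervalIntegrable _ _
      · refine Filter.Eventually.of_forall fun s _ => ?_
        exact ((hK κ s).continuous.tendsto _).comp (hlim κ s)
    have h2 : Tendsto (fun m => pic F t0 x0 (m + 1) κ t) atTop (𝓝 (S κ t)) :=
      (hlim κ t).comp (tendsto_add_atTop_nat 1)
    exact tendsto_nhds_unique h2 (h1.const_add (x0 κ))
  have hd : HasDerivAt (fun t => x0 κ + ∫ s in t0..t, F κ s (S κ s)) (F κ t (S κ t)) t := by
    have := intervalIntegral.integral_hasDerivAt_right (a := t0) (b := t)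
      (hFS.intervalIntegrable _ _) (hFS.stronglyMeasurableAtFilter _ _) hFS.continuousAt
    exact this.const_add _
  exact hd.congr_of_eventuallyEq (Filter.Eventually.of_forall hint)

end Crest.Agent.R086.BFlow
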