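import Crest.Agent.R086.BNear0
import Crest.Agent.R086.BFlow

set_option autoImplicit false

open Complex Set Filter Topology
open scoped NNReal



namespace Crest.Agent.R086.BNear
open Crest.Agent.R086.B

/-- Perturbation of the linear radial equation by the (tiny) nonlinearity on `[rho, r0]`, backwards
from `r0`, uniformly in a compact parameter. -/
theorem near {P : Type*} [TopologicalSpace P] [CompactSpace P] {om : P → ℝ} (hom : Continuous om)
    (hom1 : ∀ p, |om p| ≤ 1) {rho r0 : ℝ} (h0 : 0 < rho) (h1 : rho < r0)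
    {L L1 : P → ℝ → ℂ} (hL : ∀ p, IsLin (om p) (L p) (L1 p) (Icc rho r0))
    {M0 : ℝ} (hM0 : 0 ≤ M0) (hM1 : M0 < 1) (hM : ∀ p, ∀ r ∈ Icc rho r0, ‖L p r‖ ≤ M0)
    {n1 : ℕ} (z : ℕ → P → ℂ × ℂ) (hz : ∀ n, n1 ≤ n → Even n → Continuous (z n))
    (hzl : ∀ η : ℝ, 0 < η → ∃ N, ∀ n, N ≤ n → Even n → ∀ p, ‖z n p - (L p r0, L1 p r0)‖ ≤ η) :
    ∃ v v1 : ℕ → P → ℝ → ℂ,
      (∀ n, n1 ≤ n → Even n → Continuous (Function.uncurry (v n)) ∧
        Continuous (Function.uncurry (v1 n)) ∧ ∀ p, (v n p r0, v1 n p r0) = z n p) ∧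
      (∀ η : ℝ, 0 < η → ∃ N, ∀ n, N ≤ n → Even n → ∀ p, ∀ r ∈ Icc rho r0,
        ‖v n p r - L p r‖ ≤ η ∧ ‖v1 n p r - L1 p r‖ ≤ η) ∧
      (∃ N, ∀ n, N ≤ n → Even n → ∀ p, IsSol n (om p) (1 / n) (v n p) (v1 n p) (Icc rho r0)) := by
  classical
  set M : ℝ := (M0 + 1) / 2 with hMdef
  have hMpos : 0 ≤ M := by rw [hMdef]; linarith
  have hMlt : M < 1 := by rw [hMdef]; linarith
  have hM0M : M0 < M := by rw [hMdef]; linarith
  have hr0 : 0 < r0 := h0.trans h1
  -- the flow for each `n`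
  have hex : ∀ n : ℕ, ∃ S : P → ℝ → ℂ × ℂ, n1 ≤ n → Even n → (Continuous (Function.uncurry S) ∧
      (∀ p, S p r0 = z n p) ∧
      ∀ p t, HasDerivAt (S p) (fld n M rho r0 (om p) (1 / n) t (S p t)) t) := by
    intro n
    by_cases hn : n1 ≤ n ∧ Even n
    · have hFc : Continuous fun p : P × ℝ × (ℂ × ℂ) =>
          fld n M rho r0 (om p.1) (1 / n) p.2.1 p.2.2 := by
        have := fld_continuous n M (a := rho) (b := r0) h0 (1 / (n : ℝ))
        exact this.comp (((hom.comp continuous_fst).prodMk continuous_snd))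
      have hn1 : |(1 / (n : ℝ))| ≤ 1 := by
        rcases Nat.eq_zero_or_pos n with h | h
        · simp [h]
        · rw [abs_of_nonneg (by positivity), div_le_one (by exact_mod_cast h)]
          exact_mod_cast h
      have hKn : (0 : ℝ) ≤ 1 + (11 / rho + r0 / 2) + 2 + (n + 1) * M ^ n := by positivity
      have hFl : ∀ (p : P) (t : ℝ), LipschitzWith
          (⟨1 + (11 / rho + r0 / 2) + 2 + (n + 1) * M ^ n, hKn⟩ : ℝ≥0)
          (fld n M rho r0 (om p) (1 / n) t) := by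
        intro p t
        refine LipschitzWith.of_dist_le_mul fun x y => ?_
        rw [dist_eq_norm, dist_eq_norm]
        exact fld_lip hMpos h0 h1.le (hom1 p) hn1 t x y
      obtain ⟨S, hS⟩ := BFlow.exists_flow hFc hFl r0 (hz n hn.1 hn.2)
      exact ⟨S, fun _ _ => hS⟩
    · exact ⟨fun _ _ => 0, fun a b => absurd ⟨a, b⟩ hn⟩
  choose S hS using hex
  -- constants
  set Lc : ℝ := 1 + (11 / rho + r0 / 2) + 2 + 1 with hLc
  have hLpos : 0 < Lc := by rw [hLc]; positivity
  -- closeness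
  have hclose : ∀ η : ℝ, 0 < η → ∃ N, ∀ n, N ≤ n → Even n → ∀ p, ∀ r ∈ Icc rho r0,
      ‖S n p r - (L p r, L1 p r)‖ ≤ η := by
    intro η hη
    set G := Real.exp (Lc * (r0 - rho)) with hG
    have hGpos : 0 < G := Real.exp_pos _
    obtain ⟨N1, hN1⟩ := hzl (η / (2 * G)) (by positivity)
    -- `M^n + 1/n` small
    have hlim : Tendsto (fun n : ℕ => M ^ n + 1 / (n : ℝ)) atTop (𝓝 (0 + 0)) :=
      (tendsto_pow_atTop_nhds_zero_of_lt_one hMpos hMlt).add tendsto_one_div_atTop_nhds_zero_nat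
    rw [add_zero] at hlim
    have hev := hlim.eventually (gt_mem_nhds (show (0 : ℝ) < min 1 (η * Lc / (2 * G)) by positivity))
    obtain ⟨N2, hN2⟩ := eventually_atTop.1 hev
    refine ⟨max (max N1 N2) (max n1 1), fun n hn he p r hr => ?_⟩
    have hnN1 : N1 ≤ n := (le_max_left _ _).trans ((le_max_left _ _).trans hn)
    have hnN2 : N2 ≤ n := (le_max_right _ _).trans ((le_max_left _ _).trans hn)
    have hnn1 : n1 ≤ n := (le_max_left _ _).trans ((le_max_right _ _).trans hn)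
    have hn1 : 1 ≤ n := (le_max_right _ _).trans ((le_max_right _ _).trans hn)
    have hnpos : (0 : ℝ) < n := by exact_mod_cast hn1
    obtain ⟨hSc, hS0, hSd⟩ := hS n hnn1 he
    have hδ := hN2 n hnN2
    set δ : ℝ := M ^ n + 1 / (n : ℝ) with hδd
    have hδ0 : 0 ≤ δ := by rw [hδd]; positivity
    have hδ1 : δ ≤ 1 := (hδ.le).trans (min_le_left _ _)
    have hδ2 : δ ≤ η * Lc / (2 * G) := (hδ.le).trans (min_le_right _ _)
    have hderiv : ∀ t ∈ Icc rho r0, HasDerivAt (fun t => S n p t - (L p t, L1 p t))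
        (fld n M rho r0 (om p) (1 / n) t (S n p t) - (L1 p t, -(11 / (t : ℂ) + I * t / 2) * L1 p t
          - (om p : ℂ) * L p t)) t := by
      intro t ht
      exact (hSd p t).sub ((hL p t ht).1.prodMk (hL p t ht).2)
    have hbound : ∀ t ∈ Icc rho r0, ‖fld n M rho r0 (om p) (1 / n) t (S n p t) -
        (L1 p t, -(11 / (t : ℂ) + I * t / 2) * L1 p t - (om p : ℂ) * L p t)‖ ≤
        Lc * ‖S n p t - (L p t, L1 p t)‖ + δ := by
      intro t ht
      have hLn := hM p t ht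
      set A : ℂ := (S n p t).1 with hA
      set B : ℂ := (S n p t).2 with hB
      have hx1 : ‖A - L p t‖ ≤ ‖S n p t - (L p t, L1 p t)‖ := norm_fst_le (S n p t - (L p t, L1 p t))
      have hx2 : ‖B - L1 p t‖ ≤ ‖S n p t - (L p t, L1 p t)‖ := norm_snd_le (S n p t - (L p t, L1 p t))
      set X : ℝ := ‖S n p t - (L p t, L1 p t)‖ with hX
      have hX0 : 0 ≤ X := norm_nonneg _
      have hc := coef_norm h0 h1.le t
      rw [cl_eq ht] at hc
      have hAn : ‖A‖ ≤ X + 1 := by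
        calc ‖A‖ = ‖(A - L p t) + L p t‖ := by rw [sub_add_cancel]
          _ ≤ ‖A - L p t‖ + ‖L p t‖ := norm_add_le _ _
          _ ≤ X + 1 := by linarith
      rw [Prod.norm_def]
      have hcc : (0 : ℝ) ≤ 11 / rho + r0 / 2 := by positivity
      refine max_le ?_ ?_
      · show ‖B - L1 p t‖ ≤ _
        rw [hLc]
        nlinarith
      · show ‖(-(11 / ((cl rho r0 t : ℝ) : ℂ) + I * ((cl rho r0 t : ℝ) : ℂ) / 2) * B
          - ((om p : ℂ) + I * ((1 / n : ℝ) : ℂ)) * A + tn n M A) -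
          (-(11 / (t : ℂ) + I * t / 2) * L1 p t - (om p : ℂ) * L p t)‖ ≤ _
        rw [cl_eq ht]
        have e : (-(11 / (t : ℂ) + I * t / 2) * B
          - ((om p : ℂ) + I * ((1 / n : ℝ) : ℂ)) * A + tn n M A) -
          (-(11 / (t : ℂ) + I * t / 2) * L1 p t - (om p : ℂ) * L p t)
          = -(11 / (t : ℂ) + I * t / 2) * (B - L1 p t) - (om p : ℂ) * (A - L p t)
            - I * ((1 / n : ℝ) : ℂ) * A + tn n M A := by ring
        rw [e]
        have h3 : ‖(om p : ℂ) * (A - L p t)‖ ≤ 1 * X := by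
          rw [norm_mul, Complex.norm_real, Real.norm_eq_abs]
          exact mul_le_mul (hom1 p) hx1 (norm_nonneg _) zero_le_one
        have h4 : ‖I * ((1 / n : ℝ) : ℂ) * A‖ ≤ (1 / n) * (X + 1) := by
          rw [norm_mul, norm_mul, Complex.norm_I, one_mul, Complex.norm_real,
            Real.norm_of_nonneg (by positivity)]
          gcongr
        have h5 : ‖tn n M A‖ ≤ M ^ n * (X + 1) :=
          (tn_norm hMpos A).trans (by gcongr)
        have h6 : ‖-(11 / (t : ℂ) + I * t / 2) * (B - L1 p t)‖ ≤ (11 / rho + r0 / 2) * X := by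
          rw [norm_mul]
          exact mul_le_mul hc hx2 (norm_nonneg _) hcc
        calc _ ≤ ‖-(11 / (t : ℂ) + I * t / 2) * (B - L1 p t)‖ + ‖(om p : ℂ) * (A - L p t)‖
              + ‖I * ((1 / n : ℝ) : ℂ) * A‖ + ‖tn n M A‖ := by
              refine (norm_add_le _ _).trans (add_le_add ?_ le_rfl)
              refine (norm_sub_le _ _).trans (add_le_add ?_ le_rfl)
              exact norm_sub_le _ _
          _ ≤ (11 / rho + r0 / 2) * X + 1 * X + (1 / n) * (X + 1) + M ^ n * (X + 1) := by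
              gcongr
          _ = (11 / rho + r0 / 2) * X + 1 * X + δ * X + δ := by rw [hδd]; ring
          _ ≤ Lc * X + δ := by rw [hLc]; nlinarith
    have hgr := gronwall_back (e := fun t => S n p t - (L p t, L1 p t)) hLpos hδ0 hderiv hbound r hr
    have h7 : ‖S n p r0 - (L p r0, L1 p r0)‖ ≤ η / (2 * G) := by
      rw [hS0 p]; exact hN1 n hnN1 he p
    calc ‖S n p r - (L p r, L1 p r)‖ ≤ (‖S n p r0 - (L p r0, L1 p r0)‖ + δ / Lc) * G := hgr
      _ ≤ (η / (2 * G) + (η * Lc / (2 * G)) / Lc) * G := by gcongr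
      _ = η := by field_simp; ring
  refine ⟨fun n p r => (S n p r).1, fun n p r => (S n p r).2, ?_, ?_, ?_⟩
  · intro n hn he
    obtain ⟨hSc, hS0, hSd⟩ := hS n hn he
    refine ⟨continuous_fst.comp hSc, continuous_snd.comp hSc, fun p => ?_⟩
    rw [← hS0 p]
  · intro η hη
    obtain ⟨N, hN⟩ := hclose η hη
    refine ⟨N, fun n hn he p r hr => ?_⟩
    have h := hN n hn he p r hr
    exact ⟨(norm_fst_le (S n p r - (L p r, L1 p r))).trans h,
      (norm_snd_le (S n p r - (L p r, L1 p r))).trans h⟩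
  · obtain ⟨N, hN⟩ := hclose (M - M0) (by linarith)
    refine ⟨max N n1, fun n hn he p r hr => ?_⟩
    have h := hN n ((le_max_left _ _).trans hn) he p r hr
    obtain ⟨hSc, hS0, hSd⟩ := hS n ((le_max_right _ _).trans hn) he
    have hA : ‖(S n p r).1‖ ≤ M := by
      have h8 : ‖(S n p r).1 - L p r‖ ≤ M - M0 := (norm_fst_le (S n p r - (L p r, L1 p r))).trans h
      calc ‖(S n p r).1‖ = ‖((S n p r).1 - L p r) + L p r‖ := by rw [sub_add_cancel]
        _ ≤ ‖(S n p r).1 - L p r‖ + ‖L p r‖ := norm_add_le _ _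
        _ ≤ M := by linarith [hM p r hr]
    have hd := hSd p r
    unfold fld at hd
    rw [cl_eq hr, tn_eq hA] at hd
    exact ⟨hd.fst, hd.snd⟩

end Crest.Agent.R086.BNear
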