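import Crest.Agent.R086.BExtM
import Crest.Agent.R086.BNear

set_option autoImplicit false

open Complex Set Filter Topology
open scoped NNReal ContDiff

namespace Crest.Agent.R086.BExt
open Crest.Agent.R086.B
open Crest.Agent.R086.JCx

/-- the exterior problem from the far region and the linear outgoing family -/
theorem ext_of_far (hfar : FarStmt) {om0 R rho : ℝ} (rX : ℝ) (hom0 : om0 ∈ Ioo (1/5 : ℝ) (1/2))
    (hR : 0 < R) (hRr : R < rho) (c0 : ℂ)
    (hanti : StrictAntiOn (fun r => ‖c0 * Uo om0 r‖) (Ici R)) (hone : ‖c0 * Uo om0 R‖ ≤ 1)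
    (hlow : ∀ r, R ≤ r → 3 / 5 ≤ ‖c0 * Uo om0 r‖) : ExtStmt om0 rho rX c0 Uo Uo1 := by
  classical
  have hrho : 0 < rho := hR.trans hRr
  set M1 : ℝ := ‖c0 * Uo om0 rho‖ with hM1
  have hM1lt : M1 < 1 := lt_of_lt_of_le (hanti self_mem_Ici hRr.le hRr) hone
  have hM1ge : 3 / 5 ≤ M1 := hlow rho hRr.le
  set kmax : ℝ := (1 + M1) / 2 with hkmax
  have hk1 : kmax < 1 := by rw [hkmax]; linarith
  have hkM : M1 < kmax := by rw [hkmax]; linarith
  obtain ⟨s, q, cl, C, V, V1, FL, FL1, hs, hq0, hq1, hcl, hlin, huniq, hFLc, hsol, hVc, hconv⟩ :=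
    hfar (1/2) kmax (by norm_num) (by linarith) hk1
  set X : ℝ := max (s + 1) (max 17 (max (rX ^ 2 / 4) (rho ^ 2))) with hX
  have hsX : s < X := by
    have : s + 1 ≤ X := le_max_left _ _
    linarith
  have hX17 : 17 ≤ X := (le_max_left _ _).trans (le_max_right _ _)
  have hXr : rX ^ 2 / 4 ≤ X := (le_max_left _ _).trans ((le_max_right _ _).trans (le_max_right _ _))
  have hXrho : rho ^ 2 ≤ X :=
    (le_max_right _ _).trans ((le_max_right _ _).trans (le_max_right _ _))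
  have hX0 : 0 < X := by linarith
  clear_value X
  set r0 : ℝ := 2 * Real.sqrt X with hr0
  have hr0sq : r0 ^ 2 / 4 = X := by rw [hr0, mul_pow, Real.sq_sqrt hX0.le]; ring
  have hsq : 0 < Real.sqrt X := Real.sqrt_pos.2 hX0
  have hrho_r0 : rho < r0 := by
    have : rho ≤ Real.sqrt X := Real.le_sqrt_of_sq_le hXrho
    rw [hr0]; linarith
  have hr0pos : 0 < r0 := hrho.trans hrho_r0
  -- identification
  have hid := fun (om : ℝ) (hom : om ∈ Icc (1/5 : ℝ) (1/2)) =>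
    ident hs (hlin om hom).1 (huniq om hom)
  choose! kk hkk using hid
  have hom0' : om0 ∈ Icc (1/5 : ℝ) (1/2) := ⟨hom0.1.le, hom0.2.le⟩
  have hU0 : Uo om0 r0 ≠ 0 := by
    intro h
    have := hlow r0 (hRr.le.trans hrho_r0.le)
    rw [h, mul_zero, norm_zero] at this
    norm_num at this
  have hF0 : FL om0 X ≠ 0 := by
    intro h
    apply hU0
    rw [hr0, (hkk om0 hom0').1 X hsX, h, mul_zero]
  have hkkeq : ∀ om ∈ Icc (1/5 : ℝ) (1/2), FL om X ≠ 0 → Uo om r0 / FL om X = kk om := by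
    intro om hom h
    rw [hr0, (hkk om hom).1 X hsX, mul_div_assoc, div_self h, mul_one]
  -- amplitude at `om0`
  have hamp := amp_bounds (om0 := om0) (R := R) (rho := rho) (s := s) (c0 := c0)
    (k0 := c0 * kk om0) hR hRr.le (F := FL om0) (hlin om0 hom0').2
    (fun x hx => by rw [(hkk om0 hom0').1 x hx, mul_assoc]) hanti hlow
  obtain ⟨del, hdel0, hdel⟩ := exists_del (om0 := om0) (rho := rho) (r0 := r0) (M0 := kmax)
    (kmin := 1 / 2) (kmax := kmax) (c0 := c0) hom0 hrho (F := fun om => FL om X)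
    (hFLc X hsX).1 hr0pos hF0
    (by rw [hkkeq om0 hom0' hF0]; linarith [hamp.1])
    (by rw [hkkeq om0 hom0' hF0]; exact lt_of_le_of_lt hamp.2 hkM)
    (fun r hr => lt_of_le_of_lt (hanti.antitoneOn hRr.le (hRr.le.trans hr.1) hr.1) hkM)
  -- parameter space
  set Ps : Set (ℝ × ℂ) := {p : ℝ × ℂ | |p.1 - om0| ≤ del ∧ ‖p.2 - c0‖ ≤ del} with hPs
  have hPc : IsCompact Ps := by
    have : Ps = Metric.closedBall om0 del ×ˢ Metric.closedBall c0 del := by
      ext p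
      simp only [hPs, mem_ofPred_eq, mem_prod, Metric.mem_closedBall, dist_eq_norm, Real.norm_eq_abs]
    rw [this]
    exact (isCompact_closedBall _ _).prod (isCompact_closedBall _ _)
  have : CompactSpace Ps := isCompact_iff_compactSpace.1 hPc
  set kap : ℝ → ℂ → ℂ := fun om c => c * (Uo om r0 / FL om X) with hkap
  have hP : ∀ p : Ps, (p : ℝ × ℂ).1 ∈ Icc (1/5 : ℝ) (1/2) ∧ FL (p : ℝ × ℂ).1 X ≠ 0 ∧
      1 / 2 ≤ ‖kap (p : ℝ × ℂ).1 (p : ℝ × ℂ).2‖ ∧ ‖kap (p : ℝ × ℂ).1 (p : ℝ × ℂ).2‖ ≤ kmax ∧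
      ∀ r ∈ Icc rho r0, ‖(p : ℝ × ℂ).2 * Uo (p : ℝ × ℂ).1 r‖ ≤ kmax :=
    fun p => hdel _ p.2.1 _ p.2.2
  have hkapeq : ∀ p : Ps, kap (p : ℝ × ℂ).1 (p : ℝ × ℂ).2 = (p : ℝ × ℂ).2 * kk (p : ℝ × ℂ).1 := by
    intro p
    rw [hkap]
    simp only
    rw [hkkeq _ (hP p).1 (hP p).2.1]
  have homc : Continuous fun p : Ps => (p : ℝ × ℂ).1 := continuous_fst.comp continuous_subtype_val
  have hcc : Continuous fun p : Ps => (p : ℝ × ℂ).2 := continuous_snd.comp continuous_subtype_val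
  have hkapc : Continuous fun p : Ps => kap (p : ℝ × ℂ).1 (p : ℝ × ℂ).2 := by
    have h1 : Continuous fun p : Ps => Uo (p : ℝ × ℂ).1 r0 :=
      (Uo_continuousOn univ).comp_continuous (f := fun p : Ps => ((p : ℝ × ℂ).1, r0))
        (homc.prodMk continuous_const) fun p => ⟨mem_univ _, hr0pos⟩
    have h2 : Continuous fun p : Ps => FL (p : ℝ × ℂ).1 X :=
      (hFLc X hsX).1.comp_continuous homc fun p => (hP p).1
    exact hcc.mul (h1.div h2 fun p => (hP p).2.1)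
  -- the data at `r0`
  set z : ℕ → Ps → ℂ × ℂ := fun n p => (V n (p : ℝ × ℂ).1 (kap (p : ℝ × ℂ).1 (p : ℝ × ℂ).2) X,
    ((r0 / 2 : ℝ) : ℂ) * V1 n (p : ℝ × ℂ).1 (kap (p : ℝ × ℂ).1 (p : ℝ × ℂ).2) X) with hz
  have hzc : ∀ n, 2 ≤ n → Even n → Continuous (z n) := by
    intro n hn he
    obtain ⟨h1, h2⟩ := hVc n hn he X hsX
    have hm : ∀ p : Ps, ((p : ℝ × ℂ).1, kap (p : ℝ × ℂ).1 (p : ℝ × ℂ).2) ∈
        {p : ℝ × ℂ | p.1 ∈ Icc (1/5 : ℝ) (1/2) ∧ 1 / 2 ≤ ‖p.2‖ ∧ ‖p.2‖ ≤ kmax} :=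
      fun p => ⟨(hP p).1, (hP p).2.2.1, (hP p).2.2.2.1⟩
    have h3 := h1.comp_continuous (homc.prodMk hkapc) hm
    have h4 := h2.comp_continuous (homc.prodMk hkapc) hm
    exact h3.prodMk (continuous_const.mul h4)
  have hUoFL : ∀ (p : Ps) (r : ℝ), 0 < r → s < r ^ 2 / 4 →
      (p : ℝ × ℂ).2 * Uo (p : ℝ × ℂ).1 r =
        kap (p : ℝ × ℂ).1 (p : ℝ × ℂ).2 * FL (p : ℝ × ℂ).1 (r ^ 2 / 4) ∧
      (p : ℝ × ℂ).2 * Uo1 (p : ℝ × ℂ).1 r =
        kap (p : ℝ × ℂ).1 (p : ℝ × ℂ).2 * (((r / 2 : ℝ) : ℂ) * FL1 (p : ℝ × ℂ).1 (r ^ 2 / 4)) := by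
    intro p r hr hr'
    obtain ⟨h1, h2⟩ := (hkk _ (hP p).1).2.2 r hr hr'
    rw [h1, h2, hkapeq p]
    constructor <;> ring
  -- closeness to the linear solution in the far region, in the variable `r`
  have hfarclose : ∀ η : ℝ, 0 < η → ∃ N, ∀ n, N ≤ n → Even n → ∀ p : Ps, ∀ r ∈ Icc r0 (r0 + 1),
      ‖up (V n (p : ℝ × ℂ).1 (kap (p : ℝ × ℂ).1 (p : ℝ × ℂ).2)) r -
        (p : ℝ × ℂ).2 * Uo (p : ℝ × ℂ).1 r‖ ≤ η ∧
      ‖up1 (V1 n (p : ℝ × ℂ).1 (kap (p : ℝ × ℂ).1 (p : ℝ × ℂ).2)) r -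
        (p : ℝ × ℂ).2 * Uo1 (p : ℝ × ℂ).1 r‖ ≤ η := by
    intro η hη
    have hx1 : s < (r0 + 1) ^ 2 / 4 := by
      have : r0 ^ 2 / 4 ≤ (r0 + 1) ^ 2 / 4 := by gcongr; linarith
      linarith [hr0sq]
    obtain ⟨N, hN⟩ := hconv ((r0 + 1) ^ 2 / 4) hx1 (η / (r0 + 2)) (by positivity)
    refine ⟨N, fun n hn he p r hr => ?_⟩
    have hrpos : 0 < r := lt_of_lt_of_le hr0pos hr.1
    have hxs : s < r ^ 2 / 4 := by
      have : r0 ^ 2 / 4 ≤ r ^ 2 / 4 := by gcongr; exact hr.1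
      linarith [hr0sq]
    have hxl : r ^ 2 / 4 ≤ (r0 + 1) ^ 2 / 4 := by gcongr; exact hr.2
    obtain ⟨h1, h2⟩ := hN n hn he _ (hP p).1 _ (hP p).2.2.1 (hP p).2.2.2.1 (r ^ 2 / 4) ⟨hxs, hxl⟩
    obtain ⟨h3, h4⟩ := hUoFL p r hrpos hxs
    have hη' : η / (r0 + 2) ≤ η := div_le_self hη.le (by linarith)
    constructor
    · rw [h3]
      exact h1.trans hη'
    · rw [h4]
      unfold up1
      rw [show ((r / 2 : ℝ) : ℂ) * V1 n (p : ℝ × ℂ).1 (kap (p : ℝ × ℂ).1 (p : ℝ × ℂ).2) (r ^ 2 / 4) -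
        kap (p : ℝ × ℂ).1 (p : ℝ × ℂ).2 * (((r / 2 : ℝ) : ℂ) * FL1 (p : ℝ × ℂ).1 (r ^ 2 / 4)) =
        ((r / 2 : ℝ) : ℂ) * (V1 n (p : ℝ × ℂ).1 (kap (p : ℝ × ℂ).1 (p : ℝ × ℂ).2) (r ^ 2 / 4) -
        kap (p : ℝ × ℂ).1 (p : ℝ × ℂ).2 * FL1 (p : ℝ × ℂ).1 (r ^ 2 / 4)) by ring]
      rw [norm_mul, Complex.norm_real, Real.norm_of_nonneg (by positivity)]
      calc r / 2 * ‖_‖ ≤ (r0 + 2) * (η / (r0 + 2)) := by
            refine mul_le_mul (by linarith [hr.2]) h2 (norm_nonneg _) (by linarith)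
        _ = η := by field_simp
  have hzl : ∀ η : ℝ, 0 < η → ∃ N, ∀ n, N ≤ n → Even n → ∀ p : Ps,
      ‖z n p - ((p : ℝ × ℂ).2 * Uo (p : ℝ × ℂ).1 r0, (p : ℝ × ℂ).2 * Uo1 (p : ℝ × ℂ).1 r0)‖ ≤ η := by
    intro η hη
    obtain ⟨N, hN⟩ := hfarclose η hη
    refine ⟨N, fun n hn he p => ?_⟩
    obtain ⟨h1, h2⟩ := hN n hn he p r0 ⟨le_rfl, by linarith⟩
    unfold up at h1
    unfold up1 at h2
    rw [hr0sq] at h1 h2
    rw [Prod.norm_def]
    exact max_le h1 h2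
  have homb : ∀ p : Ps, |(p : ℝ × ℂ).1| ≤ 1 := by
    intro p
    obtain ⟨h1, h2⟩ := (hP p).1
    rw [abs_le]
    constructor <;> linarith
  obtain ⟨v, v1, hv1, hv2, N, hv3⟩ := BNear.near (P := Ps) (om := fun p : Ps => (p : ℝ × ℂ).1) homc
    homb hrho hrho_r0
    (L := fun p r => (p : ℝ × ℂ).2 * Uo (p : ℝ × ℂ).1 r)
    (L1 := fun p r => (p : ℝ × ℂ).2 * Uo1 (p : ℝ × ℂ).1 r)
    (fun p r hr => isLin_smul (isLin_Uo (p : ℝ × ℂ).1) (p : ℝ × ℂ).2 r (lt_of_lt_of_le hrho hr.1))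
    (M0 := kmax) (by linarith) hk1 (fun p r hr => (hP p).2.2.2.2 r hr) (n1 := 2) z hzc hzl
  obtain ⟨N', hN'⟩ := hv2 ((1 - kmax) / 2) (by linarith)
  -- the final family
  set vv : ℕ → ℝ → ℂ → ℝ → ℂ := fun n om c r =>
    if h : (om, c) ∈ Ps then (if r ≤ r0 then v n ⟨(om, c), h⟩ r else up (V n om (kap om c)) r)
    else 0 with hvv
  set vv1 : ℕ → ℝ → ℂ → ℝ → ℂ := fun n om c r =>
    if h : (om, c) ∈ Ps then (if r ≤ r0 then v1 n ⟨(om, c), h⟩ r else up1 (V1 n om (kap om c)) r)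
    else 0 with hvv1
  have evv : ∀ n (p : Ps), vv n (p : ℝ × ℂ).1 (p : ℝ × ℂ).2 = fun r =>
      if r ≤ r0 then v n p r else up (V n (p : ℝ × ℂ).1 (kap (p : ℝ × ℂ).1 (p : ℝ × ℂ).2)) r := by
    intro n p
    funext r
    have hp : ((p : ℝ × ℂ).1, (p : ℝ × ℂ).2) ∈ Ps := p.2
    rw [hvv]
    simp only [dif_pos hp]
  have evv1 : ∀ n (p : Ps), vv1 n (p : ℝ × ℂ).1 (p : ℝ × ℂ).2 = fun r =>
      if r ≤ r0 then v1 n p r else up1 (V1 n (p : ℝ × ℂ).1 (kap (p : ℝ × ℂ).1 (p : ℝ × ℂ).2)) r := by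
    intro n p
    funext r
    have hp : ((p : ℝ × ℂ).1, (p : ℝ × ℂ).2) ∈ Ps := p.2
    rw [hvv1]
    simp only [dif_pos hp]
  refine ⟨del, max q ((1 + kmax) / 2), cl, X, C, max (max 2 N) N', vv, vv1, hdel0,
    lt_of_lt_of_le hq0 (le_max_left _ _), max_lt hq1 (by linarith), hcl, by linarith, hXr, ?_, ?_, ?_⟩
  · intro n hn he om hom c hc
    have hn2 : 2 ≤ n := (le_max_left _ _).trans ((le_max_left _ _).trans hn)
    have hnN : N ≤ n := (le_max_right _ _).trans ((le_max_left _ _).trans hn)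
    have hnN' : N' ≤ n := (le_max_right _ _).trans hn
    set p : Ps := ⟨(om, c), ⟨hom, hc⟩⟩ with hp
    obtain ⟨hs1, hs2⟩ := hsol n hn2 he om (hP p).1 (kap om c) (hP p).2.2.1 (hP p).2.2.2.1
    have e1 := evv n p
    have e2 := evv1 n p
    rw [show ((p : ℝ × ℂ).1 : ℝ) = om from rfl, show ((p : ℝ × ℂ).2 : ℂ) = c from rfl] at e1 e2
    have hr0s : 2 * Real.sqrt s < r0 := by
      rw [hr0]
      have := Real.sqrt_lt_sqrt (by linarith : (0:ℝ) ≤ s) hsX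
      linarith
    have hw : IsSol n om (1 / n) (up (V n om (kap om c))) (up1 (V1 n om (kap om c))) (Ici r0) := by
      intro r hr
      exact isSol_up (by linarith) hs1 r (lt_of_lt_of_le hr0s hr)
    have hval := (hv1 n hn2 he).2.2 p
    have hval1 : v n p r0 = up (V n om (kap om c)) r0 := by
      have := congrArg Prod.fst hval
      rw [hz] at this
      simp only at this
      rw [this]
      unfold up
      rw [hr0sq]
    have hval2 : v1 n p r0 = up1 (V1 n om (kap om c)) r0 := by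
      have := congrArg Prod.snd hval
      rw [hz] at this
      simp only at this
      rw [this]
      unfold up1
      rw [hr0sq]
    have hsolI : IsSol n om (1 / n) (vv n om c) (vv1 n om c) (Ici rho) := by
      rw [e1, e2]
      exact glue_isSol (hv3 n hnN he p) hw hval1 hval2 hrho_r0.le
    refine ⟨fun r hr => (hsolI r hr).1.continuousAt.continuousWithinAt,
      fun r hr => (hsolI r hr).2.continuousAt.continuousWithinAt,
      fun r hr => hsolI r (mem_Ici.2 (le_of_lt (mem_Ioi.1 hr))), ?_, ?_⟩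
    · intro r hr
      rw [e1]
      simp only
      by_cases h : r ≤ r0
      · rw [if_pos h]
        refine le_trans ?_ (le_max_right _ _)
        have h1 := (hN' n hnN' he p r ⟨hr, h⟩).1
        have h2 := (hP p).2.2.2.2 r ⟨hr, h⟩
        calc ‖v n p r‖ = ‖(v n p r - (p : ℝ × ℂ).2 * Uo (p : ℝ × ℂ).1 r) +
              (p : ℝ × ℂ).2 * Uo (p : ℝ × ℂ).1 r‖ := by rw [sub_add_cancel]
          _ ≤ (1 - kmax) / 2 + kmax := (norm_add_le _ _).trans (add_le_add h1 h2)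
          _ = (1 + kmax) / 2 := by ring
      · rw [if_neg h]
        refine le_trans ?_ (le_max_left _ _)
        push Not at h
        have hx : X < r ^ 2 / 4 := by
          rw [← hr0sq]
          have : r0 ^ 2 < r ^ 2 := pow_lt_pow_left₀ h hr0pos.le (by norm_num)
          linarith
        have h1 := hs2.upper _ (hsX.trans hx)
        have h2 : 1 ≤ (r ^ 2 / 4) ^ ((1 : ℝ) / n) :=
          Real.one_le_rpow (by linarith) (by positivity)
        unfold up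
        calc ‖V n om (kap om c) (r ^ 2 / 4)‖ = ‖V n om (kap om c) (r ^ 2 / 4)‖ * 1 := by rw [mul_one]
          _ ≤ ‖V n om (kap om c) (r ^ 2 / 4)‖ * (r ^ 2 / 4) ^ ((1 : ℝ) / n) := by gcongr
          _ ≤ q := h1
    · refine FarGood.congr (FarGood.mono hs2 hq0 (le_max_left _ _) (by linarith) hsX.le) ?_
      intro x hx
      have hx0 : 0 ≤ x := by linarith
      have h1 : ¬ (2 * Real.sqrt x ≤ r0) := by
        rw [not_le, hr0]
        have := Real.sqrt_lt_sqrt hX0.le hx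
        linarith
      rw [e1]
      unfold toX
      simp only [if_neg h1]
      exact toX_up _ hx0
  · intro n hn he
    have hn2 : 2 ≤ n := (le_max_left _ _).trans ((le_max_left _ _).trans hn)
    obtain ⟨hc1, hc2, -⟩ := hv1 n hn2 he
    constructor
    · refine continuousOn_iff_continuous_domRestrict.2 ?_
      refine (hc1.comp (continuous_id.prodMk (continuous_const (y := rho)))).congr fun p => ?_
      have h9 := congrFun (evv n p) rho
      simp only [if_pos hrho_r0.le] at h9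
      exact h9.symm
    · refine continuousOn_iff_continuous_domRestrict.2 ?_
      refine (hc2.comp (continuous_id.prodMk (continuous_const (y := rho)))).congr fun p => ?_
      have h9 := congrFun (evv1 n p) rho
      simp only [if_pos hrho_r0.le] at h9
      exact h9.symm
  · intro η hη
    obtain ⟨Na, hNa⟩ := hv2 η hη
    obtain ⟨Nb, hNb⟩ := hfarclose η hη
    refine ⟨max Na Nb, fun n hn he om hom c hc r hr => ?_⟩
    set p : Ps := ⟨(om, c), ⟨hom, hc⟩⟩ with hp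
    have e1 := evv n p
    have e2 := evv1 n p
    rw [show ((p : ℝ × ℂ).1 : ℝ) = om from rfl, show ((p : ℝ × ℂ).2 : ℂ) = c from rfl] at e1 e2
    rw [e1, e2]
    simp only
    by_cases h : r ≤ r0
    · rw [if_pos h, if_pos h]
      exact hNa n ((le_max_left _ _).trans hn) he p r ⟨hr.1, h⟩
    · rw [if_neg h, if_neg h]
      push Not at h
      exact hNb n ((le_max_right _ _).trans hn) he p r ⟨h.le, hr.2⟩

end Crest.Agent.R086.BExt
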