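import Crest.Agent.R086.BExtDefs

set_option autoImplicit false

open Complex Set Filter Topology
open scoped ContDiff

namespace Crest.Agent.R086.BExt
open Crest.Agent.R086.B

/-! ### from `x` to `r` -/

theorem hasDerivAt_sq (r : ℝ) : HasDerivAt (fun r : ℝ => r ^ 2 / 4) (r / 2) r := by
  have := (hasDerivAt_pow 2 r).div_const 4
  refine this.congr_deriv ?_
  rw [show (2 : ℕ) - 1 = 1 by norm_num, pow_one]
  push_cast
  ring

/-- `v r = V (r^2/4)` -/
noncomputable def up (V : ℝ → ℂ) (r : ℝ) : ℂ := V (r ^ 2 / 4)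
/-- `v1 r = (r/2) V1 (r^2/4)` -/
noncomputable def up1 (V1 : ℝ → ℂ) (r : ℝ) : ℂ := ((r / 2 : ℝ) : ℂ) * V1 (r ^ 2 / 4)

theorem up_hasDerivAt {V V1 : ℝ → ℂ} {r : ℝ} (h : HasDerivAt V (V1 (r ^ 2 / 4)) (r ^ 2 / 4)) :
    HasDerivAt (up V) (up1 V1 r) r := by
  have := HasDerivAt.scomp r h (hasDerivAt_sq r)
  rw [Complex.real_smul] at this
  exact this

theorem isSol_up {n : ℕ} {om eps : ℝ} {V V1 : ℝ → ℂ} {s : ℝ} (hs : 0 ≤ s)
    (h : IsSolX n om eps V V1 (Ioi s)) :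
    IsSol n om eps (up V) (up1 V1) (Ioi (2 * Real.sqrt s)) := by
  intro r hr
  have hr' : 2 * Real.sqrt s < r := hr
  have hr0 : 0 < r := lt_of_le_of_lt (by positivity) hr'
  have hx : s < r ^ 2 / 4 := by
    have h1 := Real.sq_sqrt hs
    have h2 : (2 * Real.sqrt s) ^ 2 < r ^ 2 := by
      apply pow_lt_pow_left₀ hr' (by positivity) (by norm_num)
    nlinarith
  obtain ⟨h1, h2⟩ := h _ hx
  refine ⟨up_hasDerivAt h1, ?_⟩
  have h3 : HasDerivAt (fun r : ℝ => ((r / 2 : ℝ) : ℂ)) ((1 / 2 : ℝ) : ℂ) r := by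
    have : HasDerivAt (fun r : ℝ => r / 2) (1 / 2) r := (hasDerivAt_id r).div_const 2
    exact this.ofReal_comp
  have h4 := HasDerivAt.scomp r h2 (hasDerivAt_sq r)
  have h5 := h3.mul h4
  unfold up up1
  refine h5.congr_deriv ?_
  rw [Complex.real_smul]
  have hrc : (r : ℂ) ≠ 0 := by exact_mod_cast hr0.ne'
  simp only [Function.comp_apply]
  push_cast
  field_simp
  ring

theorem toX_up (V : ℝ → ℂ) {x : ℝ} (hx : 0 ≤ x) : toX (up V) x = V x := by
  unfold toX up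
  rw [mul_pow, Real.sq_sqrt hx]
  norm_num

/-! ### monotonicity and congruence of `FarGood` -/

theorem SymX.mono {C C' : ℕ → ℝ} {del X X' : ℝ} {w : ℝ → ℂ} (h : SymX C del X w) (hX : X ≤ X')
    (hX0 : 0 ≤ X') (hC : ∀ j, C j ≤ C' j) : SymX C' del X' w := by
  refine ⟨h.1.mono (Ioi_subset_Ioi hX), fun j x hx => (h.2 j x (lt_of_le_of_lt hX hx)).trans ?_⟩
  exact mul_le_mul_of_nonneg_right (hC j) (Real.rpow_nonneg (hX0.trans hx.le) _)

theorem SymX.congr {C : ℕ → ℝ} {del X : ℝ} {w w' : ℝ → ℂ} (h : SymX C del X w)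
    (he : ∀ x, X < x → w' x = w x) : SymX C del X w' := by
  refine ⟨h.1.congr fun x hx => he x hx, fun j x hx => ?_⟩
  have : w' =ᶠ[𝓝 x] w := by
    filter_upwards [Ioi_mem_nhds hx] with y hy using he y hy
  rw [this.iteratedDeriv_eq]
  exact h.2 j x hx

theorem SymX.nonneg {C : ℕ → ℝ} {del X : ℝ} {w : ℝ → ℂ} (h : SymX C del X w) (hX0 : 0 ≤ X) (j : ℕ) :
    0 ≤ C j := by
  have h1 := h.2 j (X + 1) (by linarith)
  have h2 : 0 < (X + 1) ^ (-del - j : ℝ) := Real.rpow_pos_of_pos (by linarith) _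
  have h3 : 0 ≤ C j * (X + 1) ^ (-del - j : ℝ) := (norm_nonneg _).trans h1
  by_contra hneg
  push Not at hneg
  nlinarith [mul_neg_of_neg_of_pos hneg h2]

theorem FarGood.congr {n : ℕ} {q c X : ℝ} {C : ℕ → ℝ} {V V' : ℝ → ℂ} (h : FarGood n q c X C V)
    (he : ∀ x, X < x → V' x = V x) : FarGood n q c X C V' := by
  refine ⟨SymX.congr h.sym he, fun x hx => ?_, fun x hx => ?_, SymX.congr h.symA fun x hx => ?_,
    SymX.congr h.symB fun x hx => ?_, SymX.congr h.symC fun x hx => ?_⟩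
  · rw [he x hx]; exact h.lower x hx
  · rw [he x hx]; exact h.upper x hx
  · unfold wA; rw [he x hx]
  · unfold wB; rw [he x hx]
  · unfold wC; rw [he x hx]

theorem FarGood.mono {n : ℕ} {q q' c X X' : ℝ} {C : ℕ → ℝ} {V : ℝ → ℂ} (h : FarGood n q c X C V)
    (hq0 : 0 < q) (hq : q ≤ q') (hX0 : 0 ≤ X) (hX : X ≤ X') : FarGood n q' c X' C V := by
  have hX' : 0 ≤ X' := hX0.trans hX
  have hC : ∀ j, 0 ≤ C j := SymX.nonneg h.sym hX0
  have hm : ∀ j, C j * q ^ n ≤ C j * q' ^ n := fun j =>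
    mul_le_mul_of_nonneg_left (pow_le_pow_left₀ hq0.le hq n) (hC j)
  exact ⟨SymX.mono h.sym hX hX' fun _ => le_rfl, fun x hx => h.lower x (lt_of_le_of_lt hX hx),
    fun x hx => (h.upper x (lt_of_le_of_lt hX hx)).trans hq, SymX.mono h.symA hX hX' hm,
    SymX.mono h.symB hX hX' hm, SymX.mono h.symC hX hX' hm⟩

/-! ### gluing at `r0` -/

theorem glue_hasDerivAt {f g : ℝ → ℂ} {r0 : ℝ} {d : ℂ} (hf : HasDerivAt f d r0)
    (hg : HasDerivAt g d r0) (h0 : f r0 = g r0) :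
    HasDerivAt (fun r => if r ≤ r0 then f r else g r) d r0 := by
  have h1 : HasDerivWithinAt (fun r => if r ≤ r0 then f r else g r) d (Iic r0) r0 :=
    hf.hasDerivWithinAt.congr (fun x hx => if_pos hx) (if_pos le_rfl)
  have h2 : HasDerivWithinAt (fun r => if r ≤ r0 then f r else g r) d (Ici r0) r0 := by
    refine hg.hasDerivWithinAt.congr (fun x hx => ?_) ?_
    · have hx' : r0 ≤ x := hx
      rcases eq_or_lt_of_le hx' with h | h
      · subst h; simp [h0]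
      · exact if_neg (not_le.2 h)
    · simp [h0]
  have h3 := h1.union h2
  rw [Iic_union_Ici] at h3
  exact hasDerivWithinAt_univ.1 h3

theorem glue_isSol {n : ℕ} {om eps r0 rho : ℝ} {v v1 w w1 : ℝ → ℂ}
    (hv : IsSol n om eps v v1 (Icc rho r0)) (hw : IsSol n om eps w w1 (Ici r0))
    (h0 : v r0 = w r0) (h1 : v1 r0 = w1 r0) (hr : rho ≤ r0) :
    IsSol n om eps (fun r => if r ≤ r0 then v r else w r)
      (fun r => if r ≤ r0 then v1 r else w1 r) (Ici rho) := by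
  intro r hr'
  rcases lt_trichotomy r r0 with h | h | h
  · obtain ⟨a1, a2⟩ := hv r ⟨hr', h.le⟩
    have e1 : (fun r => if r ≤ r0 then v r else w r) =ᶠ[𝓝 r] v := by
      filter_upwards [Iio_mem_nhds h] with y hy using if_pos (le_of_lt hy)
    have e2 : (fun r => if r ≤ r0 then v1 r else w1 r) =ᶠ[𝓝 r] v1 := by
      filter_upwards [Iio_mem_nhds h] with y hy using if_pos (le_of_lt hy)
    refine ⟨?_, ?_⟩
    · simp only [if_pos h.le]; exact a1.congr_of_eventuallyEq e1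
    · simp only [if_pos h.le]; exact a2.congr_of_eventuallyEq e2
  · subst h
    obtain ⟨a1, a2⟩ := hv r ⟨hr', le_rfl⟩
    obtain ⟨b1, b2⟩ := hw r self_mem_Ici
    refine ⟨?_, ?_⟩
    · simp only [if_pos le_rfl]
      exact glue_hasDerivAt a1 (by rw [h1]; exact b1) h0
    · simp only [if_pos le_rfl]
      exact glue_hasDerivAt a2 (by rw [h1, h0]; exact b2) h1
  · obtain ⟨a1, a2⟩ := hw r h.le
    have e1 : (fun r => if r ≤ r0 then v r else w r) =ᶠ[𝓝 r] w := by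
      filter_upwards [Ioi_mem_nhds h] with y hy using if_neg (not_le.2 hy)
    have e2 : (fun r => if r ≤ r0 then v1 r else w1 r) =ᶠ[𝓝 r] w1 := by
      filter_upwards [Ioi_mem_nhds h] with y hy using if_neg (not_le.2 hy)
    refine ⟨?_, ?_⟩
    · simp only [if_neg (not_le.2 h)]; exact a1.congr_of_eventuallyEq e1
    · simp only [if_neg (not_le.2 h)]; exact a2.congr_of_eventuallyEq e2

end Crest.Agent.R086.BExt
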