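import Crest.Agent.R086.BFarMain

/-!
Row 86, Part B, exterior problem (helper207): `farStmt : B.FarStmt`.
-/

set_option autoImplicit false

open MeasureTheory Filter Set Topology Complex
open scoped ContDiff

namespace Crest.Agent.R086.BFar

open Crest.Agent.R086.B (SymX wA wB wC IsSolX IsLinX FarGood)

lemma mem_KK_lin {kmax : ℝ} (hk : 1/2 ≤ kmax) {om e : ℝ} (hom : om ∈ Icc (1/5 : ℝ) (1/2))
    (he : e ∈ Icc (0:ℝ) (1/2)) : (om, e, (1/2 : ℂ)) ∈ KK kmax :=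
  ⟨hom, he, by norm_num; linarith⟩

/-- pointwise comparison of the nonlinear solution with the linear one -/
lemma compare {s0 kmax : ℝ} {m : ℕ} {F1 F0 : PP → ℂ → ℂ} (hs : 1 ≤ s0) (hk0 : 0 ≤ kmax)
    (hk1 : kmax < 1) (hk2 : 1/2 ≤ kmax)
    (hC : CU * (1 / (1 - (1 + kmax) / 2) + 6) / s0 ≤ 1 / 2)
    (h1 : IsFix s0 kmax 1 m F1) (h0 : IsFix s0 kmax 0 0 F0)
    {om e : ℝ} {k : ℂ} (hp : (om, e, k) ∈ KK kmax) {x : ℝ} (hx : s0 < x) :
    ‖VV F1 (om, e, k) x - k * (2 * VV F0 (om, e, (1/2 : ℂ)) x)‖ ≤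
      (13 * CU + 4) * ((1 + kmax) / 2) ^ (2 * m) ∧
    ‖VV1 1 m F1 (om, e, k) x - k * (2 * VV1 0 0 F0 (om, e, (1/2 : ℂ)) x)‖ ≤
      (13 * CU + 4) * ((1 + kmax) / 2) ^ (2 * m) := by
  obtain ⟨d1, d2⟩ := diff_est hs hk0 hk1 hk2 hC h1 h0 hp
  have hxH := real_mem_HP hx
  have hx1 : 1 ≤ x := by linarith
  have hxp : 0 < x := by linarith
  have e1 := d1 x hxH
  have e2 := d2 x hxH
  set p : PP := (om, e, k) with hpdef
  set p' : PP := (om, e, (1/2 : ℂ)) with hp'def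
  have haa : aa p' = aa p := rfl
  have hCU := CU_nonneg
  set Mm := ((1 + kmax) / 2) ^ (2 * m) with hMm
  have hMm0 : 0 ≤ Mm := by positivity
  have he0 : 0 ≤ e := hp.2.1.1
  have hc : ‖(x:ℂ) ^ (-aa p)‖ ≤ 1 := by
    rw [norm_real_cpow hxp]
    exact Real.rpow_le_one_of_one_le_of_nonpos hx1 (by simpa [hpdef] using he0)
  constructor
  · have h3 : VV F1 p x - k * (2 * VV F0 p' x) =
        (x:ℂ) ^ (-aa p) * (F1 p x - 2 * k * F0 p' x) := by
      unfold VV; rw [haa]; ring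
    rw [h3, norm_mul]
    calc ‖(x:ℂ) ^ (-aa p)‖ * ‖F1 p x - 2 * k * F0 p' x‖ ≤ 1 * (2 * Mm) := by gcongr
      _ ≤ _ := by nlinarith
  · have h3 : VV1 1 m F1 p x - k * (2 * VV1 0 0 F0 p' x) =
        (x:ℂ) ^ (-aa p) * ((UU 1 m F1 p x - 2 * k * UU 0 0 F0 p' x) -
          aa p / x * (F1 p x - 2 * k * F0 p' x)) := by
      unfold VV1; rw [haa]; ring
    have hax : ‖aa p / (x:ℂ)‖ ≤ 1 := by
      rw [norm_div, Complex.norm_real, Real.norm_of_nonneg hxp.le, div_le_one hxp]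
      exact (norm_aa_le hp).trans hx1
    rw [h3, norm_mul]
    calc ‖(x:ℂ) ^ (-aa p)‖ * ‖(UU 1 m F1 p x - 2 * k * UU 0 0 F0 p' x) -
          aa p / x * (F1 p x - 2 * k * F0 p' x)‖
        ≤ 1 * (CU * (13 * Mm) + 1 * (2 * Mm)) := by
          gcongr
          refine (norm_sub_le _ _).trans (add_le_add e2 ?_)
          rw [norm_mul]
          gcongr
      _ ≤ _ := by nlinarith

theorem farStmt : Crest.Agent.R086.B.FarStmt := by
  intro kmin kmax hkmin hkk hkmax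
  set km := max kmax (1/2) with hkm
  have hkm0 : 0 ≤ km := le_trans (by norm_num) (le_max_right kmax (1/2))
  have hkm1 : km < 1 := max_lt hkmax (by norm_num)
  have hkm2 : 1/2 ≤ km := le_max_right _ _
  have hkm3 : kmax ≤ km := le_max_left _ _
  obtain ⟨s0, hs1, hC, hfix⟩ := exists_fix hkm0 hkm1
  choose Fn hFn using fun m => hfix 1 (by simp) m
  obtain ⟨F0, hF0⟩ := hfix 0 (by simp) 0
  have hCU := CU_nonneg
  set s := max (2 * s0) (max (14 * CU / kmin) (28 * CU + 1)) with hs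
  have hss0 : 2 * s0 ≤ s := le_max_left _ _
  have hss1 : 14 * CU / kmin ≤ s := (le_max_left _ _).trans (le_max_right _ _)
  have hss2 : 28 * CU + 1 ≤ s := (le_max_right _ _).trans (le_max_right _ _)
  have hs14 : 14 * CU ≤ kmin * s := by
    rw [div_le_iff₀ hkmin] at hss1; linarith
  have hs0s : s0 ≤ s := by linarith
  have G1 : Good s0 km 1 := ⟨hs1, hkm0, hkm1, by simp⟩
  have G0 : Good s0 km 0 := ⟨hs1, hkm0, hkm1, by simp⟩
  set M := (1 + km) / 2 with hM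
  have hM1 : M < 1 := by rw [hM]; linarith
  have hM0 : 0 < M := by rw [hM]; linarith
  have hmem : ∀ n : ℕ, 2 ≤ n → ∀ om ∈ Icc (1/5 : ℝ) (1/2), ∀ k : ℂ, ‖k‖ ≤ kmax →
      (om, (1 / (n:ℝ)), k) ∈ KK km := by
    intro n hn om hom k hk
    refine ⟨hom, ⟨by positivity, ?_⟩, hk.trans hkm3⟩
    apply one_div_le_one_div_of_le (by norm_num)
    exact_mod_cast hn
  refine ⟨s, M, kmin / 2, fun j => ((j.factorial : ℝ) * 2 ^ (j+1)) * Real.exp Real.pi,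
    fun n om k x => VV (Fn (n/2)) (om, (1 / (n:ℝ)), k) x,
    fun n om k x => VV1 1 (n/2) (Fn (n/2)) (om, (1 / (n:ℝ)), k) x,
    fun om x => 2 * VV F0 (om, (0:ℝ), (1/2 : ℂ)) x,
    fun om x => 2 * VV1 0 0 F0 (om, (0:ℝ), (1/2 : ℂ)) x,
    by linarith, hM0, hM1, by positivity, ?_, ?_, ?_, ?_, ?_, ?_⟩
  · -- linear ODE and normalisation
    intro om hom
    have hp := mem_KK_lin (e := 0) hkm2 hom ⟨le_refl _, by norm_num⟩
    refine ⟨isLinX_of G0 hF0 hp hs0s, ?_⟩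
    have h1 : Tendsto (fun x : ℝ => F0 (om, (0:ℝ), (1/2 : ℂ)) (x:ℂ)) atTop (𝓝 (1/2 : ℂ)) := by
      rw [tendsto_iff_norm_sub_tendsto_zero]
      apply squeeze_zero' (Eventually.of_forall fun _ => norm_nonneg _)
        (g := fun x : ℝ => CU * 7 / x)
      · filter_upwards [eventually_gt_atTop s0] with x hx
        have := F_lim G0 hF0 hp (real_mem_HP hx)
        rw [ofReal_re] at this
        exact this
      · exact tendsto_const_nhds.div_atTop tendsto_id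
    have h2 : Tendsto (fun x : ℝ => 2 * ‖F0 (om, (0:ℝ), (1/2 : ℂ)) (x:ℂ)‖) atTop (𝓝 1) := by
      have := (h1.norm).const_mul 2
      have h3 : (2:ℝ) * ‖(1/2 : ℂ)‖ = 1 := by norm_num
      rw [h3] at this
      exact this
    refine h2.congr' ?_
    filter_upwards [eventually_gt_atTop 0] with x hx
    rw [norm_mul, norm_V_real hx]
    simp
  · -- uniqueness
    intro om hom G Gd hG hgr
    have hp := mem_KK_lin (e := 0) hkm2 hom ⟨le_refl _, by norm_num⟩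
    exact outgoing_unique G0 hF0 hp hs0s (by linarith) hG hgr
  · -- continuity of the linear family
    intro x hx
    have hx0 : s0 < x := by linarith
    have hmap : MapsTo (fun om : ℝ => (((om, (0:ℝ), (1/2 : ℂ)), (x:ℂ)) : PP × ℂ))
        (Icc (1/5 : ℝ) (1/2)) (KK km ×ˢ HP s0) := fun om hom =>
      ⟨mem_KK_lin hkm2 hom ⟨le_refl _, by norm_num⟩, real_mem_HP hx0⟩
    have hcm : ContinuousOn (fun om : ℝ => (((om, (0:ℝ), (1/2 : ℂ)), (x:ℂ)) : PP × ℂ))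
        (Icc (1/5 : ℝ) (1/2)) := by fun_prop
    exact ⟨continuousOn_const.mul (ContinuousOn.comp (g := fun q : PP × ℂ => VV F0 q.1 q.2)
        (f := fun om : ℝ => (((om, (0:ℝ), (1/2 : ℂ)), (x:ℂ)) : PP × ℂ))
        (VV_cont G0 hF0) hcm hmap),
      continuousOn_const.mul (ContinuousOn.comp (g := fun q : PP × ℂ => VV1 0 0 F0 q.1 q.2)
        (f := fun om : ℝ => (((om, (0:ℝ), (1/2 : ℂ)), (x:ℂ)) : PP × ℂ))
        (VV1_cont G0 hF0) hcm hmap)⟩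
  · -- nonlinear family
    intro n hn hev om hom k hk1 hk2
    obtain ⟨m, rfl⟩ := hev.exists_two_nsmul
    simp only [smul_eq_mul] at hn ⊢
    have hm : 1 ≤ m := by omega
    have hdiv : 2 * m / 2 = m := by omega
    have hp := hmem (2 * m) hn om hom k hk2
    simp only [hdiv]
    exact ⟨isSolX G1 hm (hFn m) hp hs0s,
      farGood hs1 hkm0 hkm1 hm (hFn m) hkmin hk1 hp hss0 hs14⟩
  · -- continuity in parameters
    intro n hn hev x hx
    have hx0 : s0 < x := by linarith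
    have hmap : MapsTo (fun p : ℝ × ℂ => (((p.1, (1 / (n:ℝ)), p.2), (x:ℂ)) : PP × ℂ))
        {p : ℝ × ℂ | p.1 ∈ Icc (1/5 : ℝ) (1/2) ∧ kmin ≤ ‖p.2‖ ∧ ‖p.2‖ ≤ kmax}
        (KK km ×ˢ HP s0) := fun p hp => ⟨hmem n hn p.1 hp.1 p.2 hp.2.2, real_mem_HP hx0⟩
    have hcm : ContinuousOn (fun p : ℝ × ℂ => (((p.1, (1 / (n:ℝ)), p.2), (x:ℂ)) : PP × ℂ))
        {p : ℝ × ℂ | p.1 ∈ Icc (1/5 : ℝ) (1/2) ∧ kmin ≤ ‖p.2‖ ∧ ‖p.2‖ ≤ kmax} := by fun_prop
    exact ⟨ContinuousOn.comp (g := fun q : PP × ℂ => VV (Fn (n/2)) q.1 q.2)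
        (f := fun p : ℝ × ℂ => (((p.1, (1 / (n:ℝ)), p.2), (x:ℂ)) : PP × ℂ))
        (VV_cont G1 (hFn (n/2))) hcm hmap,
      ContinuousOn.comp (g := fun q : PP × ℂ => VV1 1 (n/2) (Fn (n/2)) q.1 q.2)
        (f := fun p : ℝ × ℂ => (((p.1, (1 / (n:ℝ)), p.2), (x:ℂ)) : PP × ℂ))
        (VV1_cont G1 (hFn (n/2))) hcm hmap⟩
  · -- uniform convergence
    intro x₁ hx₁ η hη
    let K' : Set (ℝ × ℝ × ℝ) := Icc (1/5 : ℝ) (1/2) ×ˢ Icc (0:ℝ) (1/2) ×ˢ Icc s x₁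
    have hK' : IsCompact K' := isCompact_Icc.prod (isCompact_Icc.prod isCompact_Icc)
    have hmap : MapsTo (fun q : ℝ × ℝ × ℝ => (((q.1, q.2.1, (1/2 : ℂ)), (q.2.2:ℂ)) : PP × ℂ))
        K' (KK km ×ˢ HP s0) := fun q hq =>
      ⟨mem_KK_lin hkm2 hq.1 hq.2.1, real_mem_HP (by have := hq.2.2.1; linarith)⟩
    have hcm : ContinuousOn (fun q : ℝ × ℝ × ℝ =>
        (((q.1, q.2.1, (1/2 : ℂ)), (q.2.2:ℂ)) : PP × ℂ)) K' := by fun_prop
    have hu1 : ContinuousOn (fun q : ℝ × ℝ × ℝ => 2 * VV F0 (q.1, q.2.1, (1/2 : ℂ)) (q.2.2:ℂ)) K' :=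
      continuousOn_const.mul (ContinuousOn.comp (g := fun q : PP × ℂ => VV F0 q.1 q.2)
        (f := fun q : ℝ × ℝ × ℝ => (((q.1, q.2.1, (1/2 : ℂ)), (q.2.2:ℂ)) : PP × ℂ))
        (VV_cont G0 hF0) hcm hmap)
    have hu2 : ContinuousOn (fun q : ℝ × ℝ × ℝ =>
        2 * VV1 0 0 F0 (q.1, q.2.1, (1/2 : ℂ)) (q.2.2:ℂ)) K' :=
      continuousOn_const.mul (ContinuousOn.comp (g := fun q : PP × ℂ => VV1 0 0 F0 q.1 q.2)
        (f := fun q : ℝ × ℝ × ℝ => (((q.1, q.2.1, (1/2 : ℂ)), (q.2.2:ℂ)) : PP × ℂ))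
        (VV1_cont G0 hF0) hcm hmap)
    obtain ⟨δ1, hδ1, hd1⟩ := Metric.uniformContinuousOn_iff.1
      (hK'.uniformContinuousOn_of_continuous hu1) (η/2) (by positivity)
    obtain ⟨δ2, hδ2, hd2⟩ := Metric.uniformContinuousOn_iff.1
      (hK'.uniformContinuousOn_of_continuous hu2) (η/2) (by positivity)
    have hlim : Tendsto (fun n : ℕ => (13 * CU + 4) * M ^ n) atTop (𝓝 0) := by
      simpa using (tendsto_pow_atTop_nhds_zero_of_lt_one hM0.le hM1).const_mul (13 * CU + 4)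
    have hlim2 : Tendsto (fun n : ℕ => 1 / (n:ℝ)) atTop (𝓝 0) := tendsto_one_div_atTop_nhds_zero_nat
    obtain ⟨N, hN⟩ := eventually_atTop.1 (((tendsto_order.1 hlim).2 (η/2) (by positivity)).and
      (((tendsto_order.1 hlim2).2 (min δ1 δ2) (by positivity)).and (eventually_ge_atTop 2)))
    refine ⟨N, ?_⟩
    intro n hn hev om hom k hk1 hk2 x hx
    obtain ⟨hn1, hn2, hn3⟩ := hN n hn
    have hxs : s < x := hx.1
    have hx0 : s0 < x := by linarith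
    have hp := hmem n hn3 om hom k hk2
    obtain ⟨m, rfl⟩ := hev.exists_two_nsmul
    simp only [smul_eq_mul] at *
    have hdiv : 2 * m / 2 = m := by omega
    simp only [hdiv]
    set e : ℝ := 1 / ((2 * m : ℕ) : ℝ) with he
    obtain ⟨c1, c2⟩ := compare hs1 hkm0 hkm1 hkm2 hC (hFn m) hF0 hp hx0
    have hmem1 : ((om, e, x) : ℝ × ℝ × ℝ) ∈ K' := ⟨hom, hp.2.1, ⟨hxs.le, hx.2⟩⟩
    have hmem2 : ((om, 0, x) : ℝ × ℝ × ℝ) ∈ K' := ⟨hom, ⟨le_refl _, by norm_num⟩, ⟨hxs.le, hx.2⟩⟩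
    have he0 : 0 ≤ e := hp.2.1.1
    have hdist : dist ((om, e, x) : ℝ × ℝ × ℝ) (om, 0, x) = e := by
      simp [Prod.dist_eq, Real.dist_eq, abs_of_nonneg he0, he0]
    have f1 := hd1 _ hmem1 _ hmem2 (by rw [hdist]; exact hn2.trans_le (min_le_left _ _))
    have f2 := hd2 _ hmem1 _ hmem2 (by rw [hdist]; exact hn2.trans_le (min_le_right _ _))
    rw [dist_eq_norm] at f1 f2
    have hkn : ‖k‖ ≤ 1 := by linarith
    have comb : ∀ {a b d : ℂ}, ‖a - k * b‖ ≤ (13 * CU + 4) * M ^ (2 * m) → ‖b - d‖ < η / 2 →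
        ‖a - k * d‖ ≤ η := by
      intro a b d h1 h2
      calc ‖a - k * d‖ = ‖(a - k * b) + k * (b - d)‖ := by ring_nf
        _ ≤ ‖a - k * b‖ + ‖k * (b - d)‖ := norm_add_le _ _
        _ ≤ η / 2 + 1 * (η / 2) := by
            rw [norm_mul]
            gcongr
            exact h1.trans hn1.le
        _ = η := by ring
    exact ⟨comb c1 f1, comb c2 f2⟩

end Crest.Agent.R086.BFar
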