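import Crest.Agent.R086.BExt
import Crest.Agent.R086.BFarStmt
import Crest.Agent.R086.ABIface

set_option autoImplicit false

open Complex Set

namespace Crest.Agent.R086.BExt
open Crest.Agent.R086.B
open Crest.Agent.R086.JCx

/-- THE EXTERIOR PROBLEM, final form -/
theorem extStmt (D : A.AData) (rho rX : ℝ) (hrho : D.R < rho) :
    ExtStmt D.om rho rX (1 / A.fo 0 (-(I * D.om)) D.R) Uo Uo1 := by
  have hU : ∀ r, Uo D.om r = A.fo 0 (-(I * D.om)) r := fun r => rfl
  have hne := D.fo_ne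
  have hpos : 0 < ‖A.fo 0 (-(I * D.om)) D.R‖ := norm_pos_iff.2 hne
  have hn : ∀ r, ‖1 / A.fo 0 (-(I * D.om)) D.R * Uo D.om r‖ =
      ‖A.fo 0 (-(I * D.om)) r‖ / ‖A.fo 0 (-(I * D.om)) D.R‖ := by
    intro r
    rw [hU, norm_mul, norm_div, norm_one, one_div, div_eq_inv_mul]
  refine ext_of_far BFar.farStmt rX (R := D.R) ⟨?_, ?_⟩ D.R_pos hrho _ ?_ ?_ ?_
  · linarith [D.om_mem.1]
  · linarith [D.om_mem.2]
  · intro a ha b hb hab
    have := D.anti ha hb hab
    simp only [hn]
    simp only at this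
    exact div_lt_div_of_pos_right this hpos
  · rw [hn, div_self hpos.ne']
  · intro r hr
    rw [hn, le_div_iff₀ hpos]
    exact D.lower r hr

end Crest.Agent.R086.BExt
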