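import Crest.Agent.R086.BExtW

set_option autoImplicit false

open Complex Set Filter Topology
open scoped NNReal ContDiff



namespace Crest.Agent.R086.BExt
open Crest.Agent.R086.B
open Crest.Agent.R086.JCx

theorem isLin_smul {om : ℝ} {V V1 : ℝ → ℂ} {s : Set ℝ} (h : IsLin om V V1 s) (c : ℂ) :
    IsLin om (fun r => c * V r) (fun r => c * V1 r) s := by
  intro r hr
  obtain ⟨h1, h2⟩ := h r hr
  refine ⟨h1.const_mul c, (h2.const_mul c).congr_deriv ?_⟩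
  ring

/-- identification of `Uo` with the far linear family -/
theorem ident {om s : ℝ} (hs : 1 ≤ s) {FL FL1 : ℝ → ℝ → ℂ}
    (hlin : IsLinX om (FL om) (FL1 om) (Ioi s))
    (huniq : ∀ G G1 : ℂ → ℂ,
      (∀ z : ℂ, s < z.re → HasDerivAt G (G1 z) z ∧
        HasDerivAt G1 ((-(6 + I * z) * G1 z - (om : ℂ) * G z) / z) z) →
      (∃ (K : ℝ) (m : ℕ), ∀ z : ℂ, s < z.re → ‖G z‖ ≤ K * (1 + ‖z‖) ^ m ∧ ‖G1 z‖ ≤ K * (1 + ‖z‖) ^ m) →
      ∃ k : ℂ, ∀ x : ℝ, s < x → G x = k * FL om x) :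
    ∃ k : ℂ, (∀ x, s < x → Uo om (2 * Real.sqrt x) = k * FL om x) ∧
      (∀ x, s < x → Uo1 om (2 * Real.sqrt x) = k * (((2 * Real.sqrt x / 2 : ℝ) : ℂ) * FL1 om x)) ∧
      (∀ r, 0 < r → s < r ^ 2 / 4 → Uo om r = k * FL om (r ^ 2 / 4) ∧
        Uo1 om r = k * (((r / 2 : ℝ) : ℂ) * FL1 om (r ^ 2 / 4))) := by
  obtain ⟨k, hk⟩ := huniq (W (-(I * om)) 6) (W1 (-(I * om)) 6)
    (fun z hz => W_hol om (by linarith))
    (by
      obtain ⟨K, hK⟩ := W_growth om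
      exact ⟨K, 1, fun z hz => hK z (by linarith)⟩)
  have hmain : ∀ r, 0 < r → s < r ^ 2 / 4 → Uo om r = k * FL om (r ^ 2 / 4) ∧
        Uo1 om r = k * (((r / 2 : ℝ) : ℂ) * FL1 om (r ^ 2 / 4)) := by
    have hU : ∀ r, s < r ^ 2 / 4 → Uo om r = k * FL om (r ^ 2 / 4) := by
      intro r hr
      rw [Uo_eq]
      exact hk (r ^ 2 / 4) hr
    intro r hr0 hr
    refine ⟨hU r hr, ?_⟩
    have h1 : HasDerivAt (Uo om) (Uo1 om r) r := (isLin_Uo om r hr0).1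
    have h2 : HasDerivAt (fun r => k * up (FL om) r) (k * up1 (FL1 om) r) r :=
      (up_hasDerivAt (hlin _ hr).1).const_mul k
    have hopen : ∀ᶠ y in 𝓝 r, s < y ^ 2 / 4 := by
      have : ContinuousAt (fun y : ℝ => y ^ 2 / 4) r := by fun_prop
      exact this.eventually (lt_mem_nhds hr)
    have he : Uo om =ᶠ[𝓝 r] (fun r => k * up (FL om) r) := by
      filter_upwards [hopen] with y hy using hU y hy
    exact h1.unique (h2.congr_of_eventuallyEq he)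
  refine ⟨k, fun x hx => ?_, fun x hx => ?_, hmain⟩
  · have hx0 : 0 < x := by linarith
    have e : (2 * Real.sqrt x) ^ 2 / 4 = x := by rw [mul_pow, Real.sq_sqrt hx0.le]; ring
    have := (hmain (2 * Real.sqrt x) (by positivity) (by rw [e]; exact hx)).1
    rwa [e] at this
  · have hx0 : 0 < x := by linarith
    have e : (2 * Real.sqrt x) ^ 2 / 4 = x := by rw [mul_pow, Real.sq_sqrt hx0.le]; ring
    have := (hmain (2 * Real.sqrt x) (by positivity) (by rw [e]; exact hx)).2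
    rwa [e] at this


/-- choice of the parameter neighbourhood -/
theorem exists_del {om0 rho r0 M0 kmin kmax : ℝ} {c0 : ℂ} (hom0 : om0 ∈ Ioo (1/5 : ℝ) (1/2))
    (hrho : 0 < rho) {F : ℝ → ℂ} (hF : ContinuousOn F (Icc (1/5 : ℝ) (1/2))) (hr0 : 0 < r0)
    (hF0 : F om0 ≠ 0)
    (hk1 : kmin < ‖c0 * (Uo om0 r0 / F om0)‖) (hk2 : ‖c0 * (Uo om0 r0 / F om0)‖ < kmax)
    (hM : ∀ r ∈ Icc rho r0, ‖c0 * Uo om0 r‖ < M0) :
    ∃ del : ℝ, 0 < del ∧ ∀ om : ℝ, |om - om0| ≤ del → ∀ c : ℂ, ‖c - c0‖ ≤ del →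
      om ∈ Icc (1/5 : ℝ) (1/2) ∧ F om ≠ 0 ∧ kmin ≤ ‖c * (Uo om r0 / F om)‖ ∧
      ‖c * (Uo om r0 / F om)‖ ≤ kmax ∧ ∀ r ∈ Icc rho r0, ‖c * Uo om r‖ ≤ M0 := by
  have hUc : ∀ (om r : ℝ), 0 < r → ContinuousAt (fun p : ℝ × ℝ => Uo p.1 p.2) (om, r) := by
    intro om r hr
    exact (Uo_continuousOn univ).continuousAt (prod_mem_nhds univ_mem (Ioi_mem_nhds hr))
  have hFc : ContinuousAt F om0 := hF.continuousAt (Icc_mem_nhds hom0.1 hom0.2)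
  have e1 : ∀ᶠ p : ℝ × ℂ in 𝓝 (om0, c0), p.1 ∈ Icc (1/5 : ℝ) (1/2) := by
    have : ContinuousAt (fun p : ℝ × ℂ => p.1) (om0, c0) := continuousAt_fst
    exact this.eventually (Icc_mem_nhds hom0.1 hom0.2)
  have hFp : ContinuousAt (fun p : ℝ × ℂ => F p.1) (om0, c0) :=
    ContinuousAt.comp (f := fun p : ℝ × ℂ => p.1) (g := F) hFc continuousAt_fst
  have hUp : ContinuousAt (fun p : ℝ × ℂ => Uo p.1 r0) (om0, c0) :=
    ContinuousAt.comp (f := fun p : ℝ × ℂ => (p.1, r0)) (g := fun p : ℝ × ℝ => Uo p.1 p.2)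
      (hUc om0 r0 hr0) (by fun_prop)
  have e2 : ∀ᶠ p : ℝ × ℂ in 𝓝 (om0, c0), F p.1 ≠ 0 := hFp.eventually_ne hF0
  have hkc : ContinuousAt (fun p : ℝ × ℂ => ‖p.2 * (Uo p.1 r0 / F p.1)‖) (om0, c0) :=
    (continuousAt_snd.mul (hUp.div hFp hF0)).norm
  have e3 : ∀ᶠ p : ℝ × ℂ in 𝓝 (om0, c0), kmin < ‖p.2 * (Uo p.1 r0 / F p.1)‖ :=
    hkc.eventually (lt_mem_nhds hk1)
  have e4 : ∀ᶠ p : ℝ × ℂ in 𝓝 (om0, c0), ‖p.2 * (Uo p.1 r0 / F p.1)‖ < kmax :=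
    hkc.eventually (gt_mem_nhds hk2)
  have e5 : ∀ᶠ p : ℝ × ℂ in 𝓝 (om0, c0), ∀ r ∈ Icc rho r0, ‖p.2 * Uo p.1 r‖ < M0 := by
    refine isCompact_Icc.eventually_forall_of_forall_eventually fun r hr => ?_
    have hr' : 0 < r := lt_of_lt_of_le hrho hr.1
    have hc : ContinuousAt (fun z : (ℝ × ℂ) × ℝ => ‖z.1.2 * Uo z.1.1 z.2‖) ((om0, c0), r) := by
      have h1 : ContinuousAt (fun z : (ℝ × ℂ) × ℝ => Uo z.1.1 z.2) ((om0, c0), r) :=
        ContinuousAt.comp (f := fun z : (ℝ × ℂ) × ℝ => (z.1.1, z.2))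
          (g := fun p : ℝ × ℝ => Uo p.1 p.2) (hUc om0 r hr') (by fun_prop)
      exact (ContinuousAt.mul (by fun_prop) h1).norm
    exact hc.eventually (gt_mem_nhds (hM r hr))
  have hall := ((((e1.and e2).and e3).and e4).and e5)
  obtain ⟨δ, hδ, hδ'⟩ := Metric.eventually_nhds_iff.1 hall
  refine ⟨δ / 2, by positivity, fun om hom c hc => ?_⟩
  have hd : dist ((om, c) : ℝ × ℂ) (om0, c0) < δ := by
    rw [Prod.dist_eq]
    refine max_lt ?_ ?_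
    · rw [Real.dist_eq]; exact lt_of_le_of_lt hom (by linarith)
    · rw [dist_eq_norm]; exact lt_of_le_of_lt hc (by linarith)
  obtain ⟨⟨⟨⟨a1, a2⟩, a3⟩, a4⟩, a5⟩ := hδ' hd
  exact ⟨a1, a2, a3.le, a4.le, fun r hr => (a5 r hr).le⟩

/-- the far amplitude at `om0` -/
theorem amp_bounds {om0 R rho s : ℝ} {c0 k0 : ℂ} (hR : 0 < R) (hRr : R ≤ rho)
    {F : ℝ → ℂ} (hF1 : Tendsto (fun x => ‖F x‖) atTop (𝓝 1))
    (hid : ∀ x, s < x → c0 * Uo om0 (2 * Real.sqrt x) = k0 * F x)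
    (hanti : StrictAntiOn (fun r => ‖c0 * Uo om0 r‖) (Ici R))
    (hlow : ∀ r, R ≤ r → 3 / 5 ≤ ‖c0 * Uo om0 r‖) :
    3 / 5 ≤ ‖k0‖ ∧ ‖k0‖ ≤ ‖c0 * Uo om0 rho‖ := by
  have hlim : Tendsto (fun x => ‖k0‖ * ‖F x‖) atTop (𝓝 ‖k0‖) := by
    simpa using hF1.const_mul ‖k0‖
  have hrho0 : 0 < rho := lt_of_lt_of_le hR hRr
  have hev : ∀ᶠ x : ℝ in atTop, rho ≤ 2 * Real.sqrt x ∧ s < x := by
    filter_upwards [eventually_ge_atTop (rho ^ 2), eventually_gt_atTop s] with x hx hx'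
    refine ⟨?_, hx'⟩
    have : rho ≤ Real.sqrt x := Real.le_sqrt_of_sq_le hx
    have h0 := Real.sqrt_nonneg x
    linarith
  have heq : ∀ x, s < x → ‖k0‖ * ‖F x‖ = ‖c0 * Uo om0 (2 * Real.sqrt x)‖ := by
    intro x hx
    rw [hid x hx, norm_mul]
  constructor
  · refine ge_of_tendsto hlim ?_
    filter_upwards [hev] with x hx
    rw [heq x hx.2]
    exact hlow _ (hRr.trans hx.1)
  · refine le_of_tendsto hlim ?_
    filter_upwards [hev] with x hx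
    rw [heq x hx.2]
    exact hanti.antitoneOn hRr (hRr.trans hx.1) hx.1

end Crest.Agent.R086.BExt
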