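import Crest.Agent.R086.BExtA
import Crest.Agent.R086.OutFam

set_option autoImplicit false

open Complex Set Filter Topology
open scoped ContDiff

namespace Crest.Agent.R086.BExt
open Crest.Agent.R086.B
open Crest.Agent.R086.JCx

theorem W_growth (om : ℝ) : ∃ K : ℝ, ∀ z : ℂ, 1 ≤ z.re →
    ‖W (-(I * om)) 6 z‖ ≤ K * (1 + ‖z‖) ^ 1 ∧ ‖W1 (-(I * om)) 6 z‖ ≤ K * (1 + ‖z‖) ^ 1 := by
  obtain ⟨B, hB0, hB⟩ : ∃ B : ℝ, 0 ≤ B ∧ ∀ (a c z : ℂ), (a.re = 1 ∨ a.re = 2) →
      c.re ≤ 5 → |c.im| ≤ |om| → 1 ≤ z.re → ‖J a c z‖ ≤ B := by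
    refine ⟨Real.exp (Real.pi * |om|) * KM 1 2 5 1, ?_, ?_⟩
    · exact mul_nonneg (Real.exp_pos _).le (KM_nonneg _ _ _ one_pos)
    · intro a c z ha hc hci hz
      have h1 : (1 : ℝ) ≤ a.re := by rcases ha with h | h <;> rw [h] <;> norm_num
      have h2 : a.re ≤ (2 : ℝ) := by rcases ha with h | h <;> rw [h] <;> norm_num
      have := J_bound_re (a := a) (c := c) (z := z) 5 one_pos h1 h2 one_pos hz
        (by exact_mod_cast hc) hci
      refine this.trans ?_
      have h3 : z.re ^ (-a.re) ≤ 1 := Real.rpow_le_one_of_one_le_of_nonpos hz (by linarith)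
      have h4 : 0 ≤ Real.exp (Real.pi * |om|) * KM 1 2 5 1 :=
        mul_nonneg (Real.exp_pos _).le (KM_nonneg _ _ _ one_pos)
      exact mul_le_of_le_one_right h4 h3
  refine ⟨(7 + |om|) * B, fun z hz => ?_⟩
  have hz1 : 1 ≤ 1 + ‖z‖ := by linarith [norm_nonneg z]
  have h1 := hB (-(I * om) + 1) (6 - -(I * om) - 2) z (Or.inl (by simp)) (by simp; norm_num)
    (by simp) hz
  have h2 := hB (-(I * om) + 2) (6 - -(I * om) - 2) z (Or.inr (by simp)) (by simp; norm_num)
    (by simp) hz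
  have h3 := hB (-(I * om) + 1) (6 - -(I * om) - 1) z (Or.inl (by simp)) (by simp; norm_num)
    (by simp) hz
  have hom0 := abs_nonneg om
  rw [pow_one]
  constructor
  · unfold W
    have hA : ‖-(I * (om : ℂ)) + 1 - 6 - I * z‖ ≤ 5 + |om| + ‖z‖ := by
      have : -(I * (om : ℂ)) + 1 - 6 - I * z = -(I * (om : ℂ)) - 5 - I * z := by ring
      rw [this]
      calc ‖-(I * (om : ℂ)) - 5 - I * z‖ ≤ ‖-(I * (om : ℂ))‖ + ‖(5 : ℂ)‖ + ‖I * z‖ :=
            (norm_sub_le _ _).trans (add_le_add (norm_sub_le _ _) le_rfl)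
        _ = 5 + |om| + ‖z‖ := by
            rw [norm_neg, norm_mul, norm_mul, Complex.norm_I, Complex.norm_real, Real.norm_eq_abs]
            simp
            ring
    calc _ ≤ ‖-(I * (om : ℂ)) + 1 - 6 - I * z‖ * ‖J (-(I * om) + 1) (6 - -(I * om) - 2) z‖
          + ‖z‖ * ‖J (-(I * om) + 2) (6 - -(I * om) - 2) z‖ := by
          refine (norm_add_le _ _).trans ?_
          rw [norm_mul, norm_mul]
      _ ≤ (5 + |om| + ‖z‖) * B + ‖z‖ * B := by gcongr
      _ ≤ (7 + |om|) * B * (1 + ‖z‖) := by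
          have q1 := norm_nonneg z
          have q2 := mul_nonneg hB0 q1
          have q3 := mul_nonneg hom0 hB0
          have q4 := mul_nonneg q3 q1
          nlinarith
  · unfold W1
    calc _ ≤ |om| * B := by
          rw [norm_mul]
          have : ‖I * -(I * (om : ℂ))‖ = |om| := by
            rw [norm_mul, norm_neg, norm_mul, Complex.norm_I, Complex.norm_real, Real.norm_eq_abs]
            ring
          rw [this]
          gcongr
      _ ≤ (7 + |om|) * B * (1 + ‖z‖) := by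
          have q1 := norm_nonneg z
          have q2 := mul_nonneg hB0 q1
          have q3 := mul_nonneg hom0 hB0
          have q4 := mul_nonneg q3 q1
          nlinarith

theorem W_hol (om : ℝ) {z : ℂ} (hz : 0 < z.re) :
    HasDerivAt (W (-(I * om)) 6) (W1 (-(I * om)) 6 z) z ∧
    HasDerivAt (W1 (-(I * om)) 6)
      ((-(6 + I * z) * W1 (-(I * om)) 6 z - (om : ℂ) * W (-(I * om)) 6 z) / z) z := by
  have ha : -1 < (-(I * (om : ℂ))).re := by simp
  refine ⟨W_hasDerivAt ha hz, (W1_hasDerivAt ha hz).congr_deriv ?_⟩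
  have hz0 : z ≠ 0 := by
    intro h; rw [h] at hz; simp at hz
  have h := W_ode (a := -(I * (om : ℂ))) (b := 6) ha hz
  rw [eq_div_iff hz0]
  have hI : I * I = -1 := Complex.I_mul_I
  linear_combination h + ((om : ℂ) * W (-(I * om)) 6 z) * hI

end Crest.Agent.R086.BExt
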