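import Crest.Agent.R086.BFarOp2

/-!
Row 86, Part B, exterior problem (helper207): fixed points in the half plane.
-/

set_option autoImplicit false

open MeasureTheory Filter Set Topology Complex

namespace Crest.Agent.R086.BFar

abbrev PP : Type := ℝ × ℝ × ℂ

/-- parameters `(om, eps, k)` -/
def KK (kmax : ℝ) : Set PP :=
  {p | p.1 ∈ Icc (1/5 : ℝ) (1/2) ∧ p.2.1 ∈ Icc (0 : ℝ) (1/2) ∧ ‖p.2.2‖ ≤ kmax}

noncomputable def aa (p : PP) : ℂ := (p.2.1 : ℂ) - I * (p.1 : ℂ)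
noncomputable def bb (p : PP) : ℂ := 6 - 2 * aa p
noncomputable def tl (f : ℂ → ℂ) (x : ℂ) : ℂ := (starRingEnd ℂ) (f ((starRingEnd ℂ) x))
noncomputable def hh (c : ℂ) (m : ℕ) (p : PP) (f : ℂ → ℂ) (x : ℂ) : ℂ :=
  c * (f x * (f x * tl f x) ^ m) + aa p * (5 - aa p) * f x

lemma aa_re (p : PP) : (aa p).re = p.2.1 := by simp [aa]
lemma aa_im (p : PP) : (aa p).im = -p.1 := by simp [aa]

lemma admB_bb {kmax : ℝ} {p : PP} (hp : p ∈ KK kmax) : AdmB (bb p) := by
  obtain ⟨h1, h2, -⟩ := hp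
  refine ⟨?_, ?_, ?_⟩
  · simp only [bb, sub_re, mul_re, aa_re, aa_im]; norm_num; linarith [h2.1, h2.2]
  · simp only [bb, sub_re, mul_re, aa_re, aa_im]; norm_num; linarith [h2.1, h2.2]
  · simp only [bb, sub_im, mul_im, aa_re, aa_im]; norm_num
    rw [abs_of_nonneg (by linarith [h1.1])]; linarith [h1.2]

lemma norm_aa_le {kmax : ℝ} {p : PP} (hp : p ∈ KK kmax) : ‖aa p‖ ≤ 1 := by
  obtain ⟨h1, h2, -⟩ := hp
  calc ‖aa p‖ ≤ |(aa p).re| + |(aa p).im| := Complex.norm_le_abs_re_add_abs_im _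
    _ ≤ 1 := by
      rw [aa_re, aa_im, abs_neg, abs_of_nonneg h2.1, abs_of_nonneg (by linarith [h1.1])]
      linarith [h1.2, h2.2]

lemma norm_aa5_le {kmax : ℝ} {p : PP} (hp : p ∈ KK kmax) : ‖aa p * (5 - aa p)‖ ≤ 6 := by
  have h1 := norm_aa_le hp
  rw [norm_mul]
  have h2 : ‖5 - aa p‖ ≤ 6 := by
    calc ‖5 - aa p‖ ≤ ‖(5:ℂ)‖ + ‖aa p‖ := norm_sub_le _ _
      _ ≤ 6 := by norm_num; linarith
  nlinarith [norm_nonneg (aa p), norm_nonneg (5 - aa p)]

lemma norm_tl {f : ℂ → ℂ} {s M : ℝ} (hM : ∀ y ∈ HP s, ‖f y‖ ≤ M) {x : ℂ} (hx : x ∈ HP s) :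
    ‖tl f x‖ ≤ M := by
  unfold tl
  rw [RCLike.norm_conj]
  exact hM _ (conj_mem_HP hx)

lemma tl_diff {f : ℂ → ℂ} {s : ℝ} (hf : DifferentiableOn ℂ f (HP s)) :
    DifferentiableOn ℂ (tl f) (HP s) := by
  intro x hx
  have h1 : DifferentiableAt ℂ f ((starRingEnd ℂ) x) :=
    (hf _ (conj_mem_HP hx)).differentiableAt ((isOpen_HP s).mem_nhds (conj_mem_HP hx))
  have h2 := h1.conj_conj
  rw [Complex.conj_conj] at h2
  exact h2.differentiableWithinAt

lemma hh_diff {f : ℂ → ℂ} {s : ℝ} (hf : DifferentiableOn ℂ f (HP s)) (c : ℂ) (m : ℕ) (p : PP) :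
    DifferentiableOn ℂ (hh c m p f) (HP s) := by
  unfold hh
  have h1 := tl_diff hf
  exact ((hf.mul ((hf.mul h1).pow m)).const_mul c).add (hf.const_mul _)

lemma hh_bound {f : ℂ → ℂ} {s M kmax : ℝ} (hM1 : M ≤ 1) (hM : ∀ y ∈ HP s, ‖f y‖ ≤ M) {c : ℂ}
    (hc : ‖c‖ ≤ 1) (m : ℕ) {p : PP} (hp : p ∈ KK kmax) {x : ℂ} (hx : x ∈ HP s) :
    ‖hh c m p f x‖ ≤ 7 := by
  have h1 := hM x hx
  have h2 := norm_tl hM hx
  have hM0 : 0 ≤ M := (norm_nonneg _).trans h1
  unfold hh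
  have h3 : ‖c * (f x * (f x * tl f x) ^ m)‖ ≤ 1 := by
    rw [norm_mul, norm_mul, norm_pow, norm_mul]
    have h4 : (‖f x‖ * ‖tl f x‖) ^ m ≤ 1 := by
      apply pow_le_one₀ (by positivity)
      calc ‖f x‖ * ‖tl f x‖ ≤ 1 * 1 := by
            apply mul_le_mul (h1.trans hM1) (h2.trans hM1) (norm_nonneg _) (by norm_num)
        _ = 1 := by norm_num
    calc ‖c‖ * (‖f x‖ * (‖f x‖ * ‖tl f x‖) ^ m) ≤ 1 * (1 * 1) := by
          apply mul_le_mul hc _ (by positivity) (by norm_num)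
          exact mul_le_mul (h1.trans hM1) h4 (by positivity) (by norm_num)
      _ = 1 := by norm_num
  have h5 : ‖aa p * (5 - aa p) * f x‖ ≤ 6 := by
    rw [norm_mul]
    have h6 := norm_aa5_le hp
    calc ‖aa p * (5 - aa p)‖ * ‖f x‖ ≤ 6 * 1 :=
          mul_le_mul h6 (h1.trans hM1) (norm_nonneg _) (by norm_num)
      _ = 6 := by norm_num
  calc _ ≤ ‖c * (f x * (f x * tl f x) ^ m)‖ + ‖aa p * (5 - aa p) * f x‖ := norm_add_le _ _
    _ ≤ 7 := by linarith

lemma hh_lip {f g : ℂ → ℂ} {s M e kmax : ℝ} (hM1 : M < 1) (hf : ∀ y ∈ HP s, ‖f y‖ ≤ M)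
    (hg : ∀ y ∈ HP s, ‖g y‖ ≤ M) (hfg : ∀ y ∈ HP s, ‖f y - g y‖ ≤ e) {c : ℂ}
    (hc : ‖c‖ ≤ 1) (m : ℕ) {p : PP} (hp : p ∈ KK kmax) {x : ℂ} (hx : x ∈ HP s) :
    ‖hh c m p f x - hh c m p g x‖ ≤ (1 / (1 - M) + 6) * e := by
  have h1 := hf x hx
  have hM0 : 0 ≤ M := (norm_nonneg _).trans h1
  have he : 0 ≤ e := (norm_nonneg _).trans (hfg x hx)
  have ht : ‖tl f x - tl g x‖ ≤ e := by
    unfold tl
    rw [← map_sub, RCLike.norm_conj]
    exact hfg _ (conj_mem_HP hx)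
  have h2 := nl_lip (hf x hx) (hg x hx) (norm_tl hf hx) (norm_tl hg hx) (hfg x hx) ht m
  have h3 := geom_bd hM0 hM1 (2 * m)
  have e1 : hh c m p f x - hh c m p g x
      = c * (f x * (f x * tl f x) ^ m - g x * (g x * tl g x) ^ m)
        + aa p * (5 - aa p) * (f x - g x) := by unfold hh; ring
  rw [e1]
  have h4 : ‖c * (f x * (f x * tl f x) ^ m - g x * (g x * tl g x) ^ m)‖ ≤ 1 / (1 - M) * e := by
    rw [norm_mul]
    have h5 : (2 * (m:ℝ) + 1) * M ^ (2 * m) * e ≤ 1 / (1 - M) * e := by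
      apply mul_le_mul_of_nonneg_right _ he
      push_cast at h3
      exact h3
    calc ‖c‖ * _ ≤ 1 * (1 / (1 - M) * e) :=
          mul_le_mul hc (h2.trans h5) (norm_nonneg _) (by norm_num)
      _ = _ := one_mul _
  have h6 : ‖aa p * (5 - aa p) * (f x - g x)‖ ≤ 6 * e := by
    rw [norm_mul]
    exact mul_le_mul (norm_aa5_le hp) (hfg x hx) (norm_nonneg _) (by norm_num)
  calc _ ≤ _ := norm_add_le _ _
    _ ≤ 1 / (1 - M) * e + 6 * e := add_le_add h4 h6
    _ = _ := by ring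

lemma aa_cont (K : Set PP) : ContinuousOn aa K := by unfold aa; fun_prop
lemma bb_cont (K : Set PP) : ContinuousOn bb K := by
  unfold bb; exact continuousOn_const.sub (continuousOn_const.mul (aa_cont K))

lemma hh_cont {K : Set PP} {s : ℝ} {F : PP → ℂ → ℂ}
    (hF : ContinuousOn (fun q : PP × ℂ => F q.1 q.2) (K ×ˢ HP s)) (c : ℂ) (m : ℕ) :
    ContinuousOn (fun q : PP × ℂ => hh c m q.1 (F q.1) q.2) (K ×ˢ HP s) := by
  have h1 : ContinuousOn (fun q : PP × ℂ => tl (F q.1) q.2) (K ×ˢ HP s) := by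
    unfold tl
    apply Complex.continuous_conj.comp_continuousOn
    have h2 : ContinuousOn (fun q : PP × ℂ => ((q.1, (starRingEnd ℂ) q.2) : PP × ℂ)) (K ×ˢ HP s) :=
      continuousOn_fst.prodMk (Complex.continuous_conj.comp_continuousOn continuousOn_snd)
    exact ContinuousOn.comp (g := fun q : PP × ℂ => F q.1 q.2)
      (f := fun q : PP × ℂ => ((q.1, (starRingEnd ℂ) q.2) : PP × ℂ)) hF h2
      (fun q hq => ⟨hq.1, conj_mem_HP hq.2⟩)
  have h3 : ContinuousOn (fun q : PP × ℂ => aa q.1 * (5 - aa q.1)) (K ×ˢ HP s) := by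
    have := (aa_cont K).comp continuousOn_fst (fun (q : PP × ℂ) (hq : q ∈ K ×ˢ HP s) => hq.1)
    exact this.mul (continuousOn_const.sub this)
  unfold hh
  exact (continuousOn_const.mul (hF.mul ((hF.mul h1).pow m))).add (h3.mul hF)

/-- the solution set -/
structure IsFix (s0 kmax : ℝ) (c : ℂ) (m : ℕ) (F : PP → ℂ → ℂ) : Prop where
  cont : ContinuousOn (fun q : PP × ℂ => F q.1 q.2) (KK kmax ×ˢ HP s0)
  diff : ∀ p ∈ KK kmax, DifferentiableOn ℂ (F p) (HP s0)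
  bd : ∀ p ∈ KK kmax, ∀ x ∈ HP s0, ‖F p x‖ ≤ (1 + kmax) / 2
  eq : ∀ p ∈ KK kmax, ∀ x ∈ HP s0, F p x = p.2.2 + Af (bb p) (hh c m p (F p)) x

theorem exists_fix {kmax : ℝ} (hk0 : 0 ≤ kmax) (hk1 : kmax < 1) :
    ∃ s0 : ℝ, 1 ≤ s0 ∧ CU * (1 / (1 - (1 + kmax) / 2) + 6) / s0 ≤ 1 / 2 ∧
      ∀ (c : ℂ), ‖c‖ ≤ 1 → ∀ m : ℕ, ∃ F : PP → ℂ → ℂ, IsFix s0 kmax c m F := by
  set M := (1 + kmax) / 2 with hM
  have hM1 : M < 1 := by rw [hM]; linarith
  have hM0 : 0 ≤ M := by rw [hM]; linarith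
  set δ := (1 - kmax) / 2 with hδ
  have hδ0 : 0 < δ := by rw [hδ]; linarith
  have hCU := CU_nonneg
  set L := CU * (1 / (1 - M) + 6) with hL
  have hL0 : 0 ≤ L := by
    rw [hL]; apply mul_nonneg hCU
    have : 0 < 1 - M := by linarith
    positivity
  set s0 := max 1 (max (CU * 7 / δ) (2 * L)) with hs0
  have hs1 : 1 ≤ s0 := le_max_left _ _
  have hs2 : CU * 7 / δ ≤ s0 := (le_max_left _ _).trans (le_max_right _ _)
  have hs3 : 2 * L ≤ s0 := (le_max_right _ _).trans (le_max_right _ _)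
  have hspos : 0 < s0 := by linarith
  refine ⟨s0, hs1, ?_, ?_⟩
  · rw [div_le_iff₀ hspos]; linarith
  intro c hc m
  -- the set
  classical
  let K := KK kmax
  let S : Set (PP × ℂ → ℂ) := {F | ContinuousOn F (K ×ˢ HP s0) ∧
    (∀ p ∈ K, DifferentiableOn ℂ (fun x => F (p, x)) (HP s0)) ∧
    (∀ p ∈ K, ∀ x ∈ HP s0, ‖F (p, x) - p.2.2‖ ≤ δ) ∧ (∀ q, q ∉ K ×ˢ HP s0 → F q = 0)}
  have hSM : ∀ F ∈ S, ∀ p ∈ K, ∀ x ∈ HP s0, ‖F (p, x)‖ ≤ M := by
    intro F hF p hp x hx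
    have h1 := hF.2.2.1 p hp x hx
    have h2 : ‖p.2.2‖ ≤ kmax := hp.2.2
    calc ‖F (p, x)‖ = ‖(F (p, x) - p.2.2) + p.2.2‖ := by ring_nf
      _ ≤ ‖F (p, x) - p.2.2‖ + ‖p.2.2‖ := norm_add_le _ _
      _ ≤ M := by rw [hM]; rw [hδ] at h1; linarith
  let T : (PP × ℂ → ℂ) → (PP × ℂ → ℂ) := fun F q =>
    if q ∈ K ×ˢ HP s0 then q.1.2.2 + Af (bb q.1) (hh c m q.1 (fun x => F (q.1, x))) q.2 else 0
  have hfix : ∃ F ∈ S, T F = F := by
    apply fixpt_sup S
    · -- nonempty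
      refine ⟨fun q => if q ∈ K ×ˢ HP s0 then q.1.2.2 else 0, ?_, ?_, ?_, ?_⟩
      · apply ContinuousOn.congr (f := fun q : PP × ℂ => q.1.2.2) (by fun_prop)
        intro q hq; simp only [hq, if_true]
      · intro p hp
        apply DifferentiableOn.congr (f := fun _ : ℂ => p.2.2) (differentiableOn_const _)
        intro x hx
        have : ((p, x) : PP × ℂ) ∈ K ×ˢ HP s0 := ⟨hp, hx⟩
        simp only [this, if_true]
      · intro p hp x hx
        have : ((p, x) : PP × ℂ) ∈ K ×ˢ HP s0 := ⟨hp, hx⟩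
        simp only [this, if_true, sub_self, norm_zero]
        exact hδ0.le
      · intro q hq; simp only [hq, if_false]
    · -- closed
      intro F g hF hFg
      refine ⟨?_, ?_, ?_, ?_⟩
      · exact hFg.tendstoUniformlyOn.continuousOn (Frequently.of_forall fun k => (hF k).1)
      · intro p hp
        have h1 : TendstoUniformly (fun k x => F k (p, x)) (fun x => g (p, x)) atTop :=
          hFg.comp (fun x : ℂ => ((p, x) : PP × ℂ))
        exact (h1.tendstoUniformlyOn.tendstoLocallyUniformlyOn).differentiableOn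
          (Eventually.of_forall fun k => (hF k).2.1 p hp) (isOpen_HP s0)
      · intro p hp x hx
        have h1 : Tendsto (fun k => ‖F k (p, x) - p.2.2‖) atTop (𝓝 ‖g (p, x) - p.2.2‖) :=
          ((hFg.tendsto_at (p, x)).sub_const _).norm
        exact le_of_tendsto' h1 (fun k => (hF k).2.2.1 p hp x hx)
      · intro q hq
        have h1 := hFg.tendsto_at q
        have h2 : (fun k => F k q) = fun _ => (0:ℂ) := by
          funext k; exact (hF k).2.2.2 q hq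
        rw [h2] at h1
        exact (tendsto_nhds_unique h1 tendsto_const_nhds)
    · -- bounded
      intro f hf g hg
      refine ⟨2 * δ, ?_⟩
      intro q
      by_cases hq : q ∈ K ×ˢ HP s0
      · have h1 := hf.2.2.1 q.1 hq.1 q.2 hq.2
        have h2 := hg.2.2.1 q.1 hq.1 q.2 hq.2
        calc ‖f q - g q‖ = ‖(f (q.1, q.2) - q.1.2.2) - (g (q.1, q.2) - q.1.2.2)‖ := by
              simp
          _ ≤ _ := norm_sub_le _ _
          _ ≤ 2 * δ := by linarith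
      · rw [hf.2.2.2 q hq, hg.2.2.2 q hq]; simp; linarith
    · -- maps to
      intro F hF
      have hFM := hSM F hF
      have hFc : ContinuousOn (fun q : PP × ℂ => (fun p x => F (p, x)) q.1 q.2) (K ×ˢ HP s0) := hF.1
      have hhM : ∀ p ∈ K, ∀ x ∈ HP s0, ‖hh c m p (fun x => F (p, x)) x‖ ≤ 7 := fun p hp x hx =>
        hh_bound (s := s0) hM1.le (fun y hy => hFM p hp y hy) hc m hp hx
      refine ⟨?_, ?_, ?_, ?_⟩
      · apply ContinuousOn.congr (f := fun q : PP × ℂ =>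
          q.1.2.2 + Af (bb q.1) (hh c m q.1 (fun x => F (q.1, x))) q.2)
        · apply ContinuousOn.add (by fun_prop)
          exact Af_cont (h := fun p => hh c m p (fun x => F (p, x))) (bb_cont K)
            (fun p hp => admB_bb hp) hs1 (hh_cont (F := fun p x => F (p, x)) hFc c m) hhM
        · intro q hq; simp only [T, hq, if_true]
      · intro p hp
        apply DifferentiableOn.congr (f := fun x : ℂ =>
          p.2.2 + Af (bb p) (hh c m p (fun x => F (p, x))) x)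
        · apply DifferentiableOn.const_add
          intro x hx
          exact (Af_hasDerivAt (admB_bb hp) hs1 hx (hh_diff (hF.2.1 p hp) c m p)
            (hhM p hp)).differentiableAt.differentiableWithinAt
        · intro x hx
          have : ((p, x) : PP × ℂ) ∈ K ×ˢ HP s0 := ⟨hp, hx⟩
          simp only [T, this, if_true]
      · intro p hp x hx
        have hq : ((p, x) : PP × ℂ) ∈ K ×ˢ HP s0 := ⟨hp, hx⟩
        simp only [T, hq, if_true, add_sub_cancel_left]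
        refine (norm_Af_le (admB_bb hp) hs1 hx (hhM p hp)).trans ?_
        have hx1 : s0 < x.re := hx
        rw [div_le_iff₀ (by linarith)]
        rw [div_le_iff₀ hδ0] at hs2
        nlinarith
      · intro q hq; simp only [T, hq, if_false]
    · -- contraction
      intro f hf g hg C hC hfg q
      by_cases hq : q ∈ K ×ˢ HP s0
      · obtain ⟨hp, hx⟩ := hq
        have hq : q ∈ K ×ˢ HP s0 := ⟨hp, hx⟩
        simp only [T, hq, if_true, add_sub_add_left_eq_sub]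
        have hfM := hSM f hf q.1 hp
        have hgM := hSM g hg q.1 hp
        have hhf : ∀ x ∈ HP s0, ‖hh c m q.1 (fun x => f (q.1, x)) x‖ ≤ 7 := fun x hx =>
          hh_bound (s := s0) hM1.le (fun y hy => hfM y hy) hc m hp hx
        have hhg : ∀ x ∈ HP s0, ‖hh c m q.1 (fun x => g (q.1, x)) x‖ ≤ 7 := fun x hx =>
          hh_bound (s := s0) hM1.le (fun y hy => hgM y hy) hc m hp hx
        have hdf := hh_diff (s := s0) (hf.2.1 q.1 hp) c m q.1
        have hdg := hh_diff (s := s0) (hg.2.1 q.1 hp) c m q.1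
        rw [Af_sub (admB_bb hp) hs1 hx hdf hdg hhf hhg]
        have h1 : ∀ y ∈ HP s0, ‖(fun y => hh c m q.1 (fun x => f (q.1, x)) y -
            hh c m q.1 (fun x => g (q.1, x)) y) y‖ ≤ (1 / (1 - M) + 6) * C := fun y hy =>
          hh_lip hM1 hfM hgM (fun y _ => hfg (q.1, y)) hc m hp hy
        refine (norm_Af_le (admB_bb hp) hs1 hx h1).trans ?_
        have hx1 : s0 < q.2.re := hx
        rw [div_le_iff₀ (by linarith), ← mul_assoc, ← hL]
        nlinarith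
      · simp only [T, hq, if_false, sub_zero, norm_zero]; positivity
  obtain ⟨F, hF, hTF⟩ := hfix
  refine ⟨fun p x => F (p, x), hF.1, hF.2.1, hSM F hF, ?_⟩
  intro p hp x hx
  have hq : ((p, x) : PP × ℂ) ∈ K ×ˢ HP s0 := ⟨hp, hx⟩
  have h1 := congrFun hTF (p, x)
  simp only [T, hq, if_true] at h1
  exact h1.symm

end Crest.Agent.R086.BFar
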