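import Crest.Agent.R086.BFarSym

/-!
Row 86, Part B, exterior problem (helper207): the far region, assembly of `FarStmt`.
-/

set_option autoImplicit false

open MeasureTheory Filter Set Topology Complex
open scoped ContDiff

namespace Crest.Agent.R086.BFar

open Crest.Agent.R086.B (SymX wA wB wC IsSolX IsLinX FarGood)

variable {s0 kmax : ℝ} {c : ℂ} {m : ℕ} {F : PP → ℂ → ℂ}

/-- ODE for the nonlinear solution on the real axis -/
lemma isSolX (G1 : Good s0 kmax 1) (hm : 1 ≤ m) (hF : IsFix s0 kmax 1 m F) {om : ℝ} {k : ℂ} {s : ℝ}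
    (hp : (om, (1 / ((2 * m : ℕ) : ℝ)), k) ∈ KK kmax) (hs : s0 ≤ s) :
    IsSolX (2 * m) om (1 / ((2 * m : ℕ) : ℝ))
      (fun x => VV F (om, (1 / ((2 * m : ℕ) : ℝ)), k) x)
      (fun x => VV1 1 m F (om, (1 / ((2 * m : ℕ) : ℝ)), k) x) (Ioi s) := by
  intro x hx
  have hx' : s < x := hx
  have hx0 : s0 < x := by linarith
  have hxp : 0 < x := by linarith [G1.hs]
  refine ⟨(V_hasDerivAt G1 hF hp (real_mem_HP hx0)).comp_ofReal, ?_⟩
  have h1 := (V1_hasDerivAt G1 hF hp (real_mem_HP hx0)).comp_ofReal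
  refine h1.congr_deriv ?_
  have h2 : (1 * (F (om, (1 / ((2 * m : ℕ) : ℝ)), k) (x:ℂ) *
      tl (F (om, (1 / ((2 * m : ℕ) : ℝ)), k)) (x:ℂ)) ^ m / (x:ℂ) : ℂ)
      = ((‖VV F (om, (1 / ((2 * m : ℕ) : ℝ)), k) (x:ℂ)‖ ^ (2 * m) : ℝ) : ℂ) := by
    rw [norm_V_pow (by omega) hxp F (by rfl), F_tl_real, one_mul, ← ofReal_pow, ← ofReal_div,
      pow_mul]
  rw [h2]

lemma isLinX_of (G0 : Good s0 kmax 0) (hF : IsFix s0 kmax 0 0 F) {om : ℝ} {k : ℂ} {s : ℝ}
    (hp : (om, (0:ℝ), k) ∈ KK kmax) (hs : s0 ≤ s) :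
    IsLinX om (fun x => 2 * VV F (om, (0:ℝ), k) x)
      (fun x => 2 * VV1 0 0 F (om, (0:ℝ), k) x) (Ioi s) := by
  intro x hx
  have hx' : s < x := hx
  have hx0 : s0 < x := by linarith
  refine ⟨(V_hasDerivAt G0 hF hp (real_mem_HP hx0)).comp_ofReal.const_mul 2, ?_⟩
  have h1 := (V1_hasDerivAt G0 hF hp (real_mem_HP hx0)).comp_ofReal.const_mul 2
  refine h1.congr_deriv ?_
  push_cast
  ring

lemma VV_cont (G : Good s0 kmax c) (hF : IsFix s0 kmax c m F) :
    ContinuousOn (fun q : PP × ℂ => VV F q.1 q.2) (KK kmax ×ˢ HP s0) := by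
  have h1 : ContinuousOn (fun q : PP × ℂ => aa q.1) (KK kmax ×ˢ HP s0) :=
    (aa_cont (KK kmax)).comp continuousOn_fst (fun q hq => hq.1)
  unfold VV
  exact (continuousOn_snd.cpow h1.neg (fun q hq => slit_HP G.hs hq.2)).mul hF.cont

lemma VV1_cont (G : Good s0 kmax c) (hF : IsFix s0 kmax c m F) :
    ContinuousOn (fun q : PP × ℂ => VV1 c m F q.1 q.2) (KK kmax ×ˢ HP s0) := by
  have h1 : ContinuousOn (fun q : PP × ℂ => aa q.1) (KK kmax ×ˢ HP s0) :=
    (aa_cont (KK kmax)).comp continuousOn_fst (fun q hq => hq.1)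
  unfold VV1
  refine (continuousOn_snd.cpow h1.neg (fun q hq => slit_HP G.hs hq.2)).mul
    ((U_cont G hF).sub ((h1.div continuousOn_snd (fun q hq => ne_zero_HP G.hs hq.2)).mul hF.cont))

/-- uniqueness of the outgoing solution -/
lemma outgoing_unique (G0 : Good s0 kmax 0) (hF : IsFix s0 kmax 0 0 F) {om s : ℝ}
    (hp : (om, (0:ℝ), (1/2 : ℂ)) ∈ KK kmax) (hs : s0 ≤ s) (hs2 : 28 * CU < s)
    {G G1 : ℂ → ℂ} (hG : ∀ z : ℂ, s < z.re → HasDerivAt G (G1 z) z ∧
        HasDerivAt G1 ((-(6 + I * z) * G1 z - (om : ℂ) * G z) / z) z)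
    (hgr : ∃ (K : ℝ) (m : ℕ), ∀ z : ℂ, s < z.re → ‖G z‖ ≤ K * (1 + ‖z‖) ^ m ∧
      ‖G1 z‖ ≤ K * (1 + ‖z‖) ^ m) :
    ∃ k : ℂ, ∀ x : ℝ, s < x → G x = k * (2 * VV F (om, (0:ℝ), (1/2 : ℂ)) x) := by
  set p : PP := (om, (0:ℝ), (1/2 : ℂ)) with hpdef
  set g : ℂ → ℂ := VV F p with hg
  set g1 : ℂ → ℂ := VV1 0 0 F p with hg1
  have hsub : ∀ z : ℂ, s < z.re → z ∈ HP s0 := fun z hz => by
    show s0 < z.re; linarith
  have hs1 := G0.hs
  have hgd : ∀ z : ℂ, s < z.re → HasDerivAt g (g1 z) z := fun z hz =>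
    V_hasDerivAt G0 hF hp (hsub z hz)
  have hgd1 : ∀ z : ℂ, s < z.re → HasDerivAt g1 ((-(6 + I * z) * g1 z - (om : ℂ) * g z) / z) z := by
    intro z hz
    refine (V1_hasDerivAt G0 hF hp (hsub z hz)).congr_deriv ?_
    simp only [hpdef, hg, hg1]
    push_cast
    ring
  -- g is nonzero
  have hgne : ∀ z : ℂ, s < z.re → g z ≠ 0 := by
    intro z hz
    have hz0 := ne_zero_HP hs1 (hsub z hz)
    have h1 := F_lim G0 hF hp (hsub z hz)
    have h2 : CU * 7 / z.re < 1 / 4 := by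
      rw [div_lt_iff₀ (by linarith)]; linarith
    have h3 : F p z ≠ 0 := by
      intro h0
      rw [h0] at h1
      have h4 : ‖(0:ℂ) - p.2.2‖ = 1 / 2 := by simp [hpdef]
      rw [h4] at h1
      linarith
    simp only [hg, VV]
    refine mul_ne_zero ?_ h3
    rw [Ne, cpow_eq_zero_iff]
    push Not
    intro h; exact absurd h hz0
  -- bounds for g, g1
  obtain ⟨K, mm, hK⟩ := hgr
  have hCU := CU_nonneg
  have hnaa := norm_aa_le hp
  have hgb : ∀ z : ℂ, s < z.re → ‖g z‖ ≤ Real.exp Real.pi ∧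
      ‖g1 z‖ ≤ Real.exp Real.pi * (CU * 7 + 1) := by
    intro z hz
    have hzH := hsub z hz
    have hz0 := ne_zero_HP hs1 hzH
    have hz1 := one_le_norm hs1 hzH
    have hzp : 0 < ‖z‖ := by linarith
    have e1 : ‖z ^ (-aa p)‖ ≤ Real.exp Real.pi := by
      refine (norm_cpow_le hz0).trans ?_
      rw [neg_re, aa_re, neg_im, aa_im, neg_neg]
      have : (p.2.1 : ℝ) = 0 := rfl
      rw [this, neg_zero, Real.rpow_zero, one_mul]
      apply Real.exp_le_exp.2
      have := hp.1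
      rw [abs_of_nonneg (by linarith [this.1])]
      nlinarith [Real.pi_pos, this.2]
    have e2 : ‖F p z‖ ≤ 1 := (hF.bd p hp z hzH).trans (by linarith [G0.hk1])
    have e3 : ‖UU 0 0 F p z‖ ≤ CU * 7 := by
      refine (norm_Uf_le (admB_bb hp) hs1 hzH (fix_h7 G0 hF hp)).trans ?_
      exact div_le_self (by positivity) (one_le_pow₀ hz1)
    have e4 : ‖aa p / z * F p z‖ ≤ 1 := by
      rw [norm_mul, norm_div]
      have : ‖aa p‖ / ‖z‖ ≤ 1 := by
        rw [div_le_one hzp]; linarith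
      calc ‖aa p‖ / ‖z‖ * ‖F p z‖ ≤ 1 * 1 := by gcongr
        _ = 1 := by norm_num
    constructor
    · simp only [hg, VV]
      rw [norm_mul]
      calc ‖z ^ (-aa p)‖ * ‖F p z‖ ≤ Real.exp Real.pi * 1 := by gcongr
        _ = _ := mul_one _
    · simp only [hg1, VV1]
      rw [norm_mul]
      have e5 : ‖UU 0 0 F p z - aa p / z * F p z‖ ≤ CU * 7 + 1 :=
        (norm_sub_le _ _).trans (add_le_add e3 e4)
      gcongr
  -- the Wronskian
  let E : ℂ → ℂ := fun z => z ^ 6 * exp (I * z) * (G z * g1 z - G1 z * g z)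
  have hE : ∀ z : ℂ, s < z.re → HasDerivAt E 0 z := by
    intro z hz
    have hz0 := ne_zero_HP hs1 (hsub z hz)
    obtain ⟨h1, h2⟩ := hG z hz
    have h3 := hgd z hz
    have h4 := hgd1 z hz
    have h5 : HasDerivAt (fun z : ℂ => z ^ 6) (6 * z ^ 5) z := by
      simpa using hasDerivAt_pow 6 z
    have h6 : HasDerivAt (fun z : ℂ => exp (I * z)) (exp (I * z) * I) z := by
      have : HasDerivAt (fun y : ℂ => I * y) I z := by
        simpa using (hasDerivAt_id z).const_mul I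
      exact this.cexp
    have h7 := (h5.mul h6).mul ((h1.mul h4).sub (h2.mul h3))
    refine h7.congr_deriv ?_
    simp only [Pi.mul_apply, Pi.sub_apply]
    field_simp
    ring
  have hconv : Convex ℝ {z : ℂ | s < z.re} := convex_halfSpace_re_gt s
  have hopen : IsOpen {z : ℂ | s < z.re} := isOpen_lt continuous_const Complex.continuous_re
  have hEc : ∀ z w : ℂ, s < z.re → s < w.re → E z = E w := by
    intro z w hz hw
    exact hopen.is_const_of_deriv_eq_zero hconv.isPreconnected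
      (fun y hy => (hE y hy).differentiableAt.differentiableWithinAt)
      (fun y hy => (hE y hy).deriv) hz hw
  have hE0 : ∀ z : ℂ, s < z.re → E z = 0 := by
    intro z hz
    -- limit along the vertical ray
    have hray : ∀ t : ℝ, 0 ≤ t → s < (z + I * (t:ℂ)).re := by
      intro t ht; simpa using hz
    set B := ‖z‖ + 1 with hB
    have hB1 : 1 ≤ B := by rw [hB]; linarith [norm_nonneg z]
    have hK0 : 0 ≤ K := by
      have h1 := (norm_nonneg _).trans (hK z hz).1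
      have h2 : 0 < (1 + ‖z‖) ^ mm := by positivity
      by_contra h
      push Not at h
      nlinarith
    set Cc := Real.exp (-z.im) * (K * Real.exp Real.pi * (CU * 7 + 1) + K * Real.exp Real.pi)
      * (2 * B) ^ (6 + mm) with hCc
    have hbound : ∀ t : ℝ, 0 ≤ t → ‖E z‖ ≤ Cc * ((1 + t) ^ (6 + mm) * Real.exp (-t)) := by
      intro t ht
      have hz' := hray t ht
      rw [hEc z _ hz hz']
      obtain ⟨k1, k2⟩ := hK _ hz'
      obtain ⟨b1, b2⟩ := hgb _ hz'
      have hn : ‖z + I * (t:ℂ)‖ ≤ B * (1 + t) := by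
        calc ‖z + I * (t:ℂ)‖ ≤ ‖z‖ + ‖I * (t:ℂ)‖ := norm_add_le _ _
          _ = ‖z‖ + t := by simp [abs_of_nonneg ht]
          _ ≤ _ := by rw [hB]; nlinarith [norm_nonneg z]
      have hn2 : 1 + ‖z + I * (t:ℂ)‖ ≤ 2 * B * (1 + t) := by nlinarith
      have hn3 : ‖z + I * (t:ℂ)‖ ≤ 2 * B * (1 + t) := by linarith [norm_nonneg (z + I * (t:ℂ))]
      have hex : ‖exp (I * (z + I * (t:ℂ)))‖ = Real.exp (-z.im) * Real.exp (-t) := by
        rw [Complex.norm_exp, ← Real.exp_add]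
        congr 1
        simp [mul_add, ← mul_assoc]
      have hw : ‖G (z + I * (t:ℂ)) * g1 (z + I * (t:ℂ)) - G1 (z + I * (t:ℂ)) * g (z + I * (t:ℂ))‖ ≤
          (K * Real.exp Real.pi * (CU * 7 + 1) + K * Real.exp Real.pi) *
            (2 * B * (1 + t)) ^ mm := by
        have k1' : ‖G (z + I * (t:ℂ))‖ ≤ K * (2 * B * (1 + t)) ^ mm :=
          k1.trans (by gcongr)
        have k2' : ‖G1 (z + I * (t:ℂ))‖ ≤ K * (2 * B * (1 + t)) ^ mm :=
          k2.trans (by gcongr)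
        calc _ ≤ ‖G (z + I * (t:ℂ)) * g1 (z + I * (t:ℂ))‖ +
              ‖G1 (z + I * (t:ℂ)) * g (z + I * (t:ℂ))‖ := norm_sub_le _ _
          _ = ‖G (z + I * (t:ℂ))‖ * ‖g1 (z + I * (t:ℂ))‖ +
              ‖G1 (z + I * (t:ℂ))‖ * ‖g (z + I * (t:ℂ))‖ := by rw [norm_mul, norm_mul]
          _ ≤ (K * (2 * B * (1 + t)) ^ mm) * (Real.exp Real.pi * (CU * 7 + 1)) +
              (K * (2 * B * (1 + t)) ^ mm) * Real.exp Real.pi := by gcongr
          _ = _ := by ring
      show ‖(z + I * (t:ℂ)) ^ 6 * exp (I * (z + I * (t:ℂ))) * _‖ ≤ _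
      rw [norm_mul, norm_mul, norm_pow, hex]
      calc ‖z + I * (t:ℂ)‖ ^ 6 * (Real.exp (-z.im) * Real.exp (-t)) * _
          ≤ (2 * B * (1 + t)) ^ 6 * (Real.exp (-z.im) * Real.exp (-t)) *
            ((K * Real.exp Real.pi * (CU * 7 + 1) + K * Real.exp Real.pi) *
              (2 * B * (1 + t)) ^ mm) := by gcongr
        _ = Cc * ((1 + t) ^ (6 + mm) * Real.exp (-t)) := by
            rw [hCc, mul_pow (2 * B) (1 + t) 6, mul_pow (2 * B) (1 + t) mm, pow_add, pow_add]; ring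
    have hlim : Tendsto (fun t : ℝ => Cc * ((1 + t) ^ (6 + mm) * Real.exp (-t))) atTop (𝓝 0) := by
      have h1 : Tendsto (fun t : ℝ => t ^ (6 + mm) * Real.exp (-t)) atTop (𝓝 0) :=
        Real.tendsto_pow_mul_exp_neg_atTop_nhds_zero (6 + mm)
      have h2 := (h1.comp (tendsto_atTop_add_const_left atTop (1:ℝ) tendsto_id)).const_mul
        (Cc * Real.exp 1)
      rw [mul_zero] at h2
      refine h2.congr (fun t => ?_)
      simp only [Function.comp, id]
      rw [show -(1 + t) = -1 + -t by ring, Real.exp_add]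
      have : Real.exp 1 * Real.exp (-1) = 1 := by rw [← Real.exp_add]; simp
      calc _ = Cc * ((1 + t) ^ (6 + mm) * Real.exp (-t)) * (Real.exp 1 * Real.exp (-1)) := by ring
        _ = _ := by rw [this, mul_one]
    have h3 : ‖E z‖ ≤ 0 := by
      apply ge_of_tendsto hlim
      filter_upwards [eventually_ge_atTop 0] with t ht using hbound t ht
    exact norm_le_zero_iff.1 h3
  -- the ratio is constant
  have hw0 : ∀ z : ℂ, s < z.re → G z * g1 z - G1 z * g z = 0 := by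
    intro z hz
    have h1 := hE0 z hz
    have hz0 := ne_zero_HP hs1 (hsub z hz)
    simp only [E] at h1
    rcases mul_eq_zero.1 h1 with h2 | h2
    · rcases mul_eq_zero.1 h2 with h3 | h3
      · exact absurd (pow_eq_zero_iff (by norm_num) |>.1 h3) hz0
      · exact absurd h3 (Complex.exp_ne_zero _)
    · exact h2
  have hR : ∀ z : ℂ, s < z.re → HasDerivAt (fun z => G z / g z) 0 z := by
    intro z hz
    have h1 := (hG z hz).1.div (hgd z hz) (hgne z hz)
    refine h1.congr_deriv ?_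
    have := hw0 z hz
    rw [show G1 z * g z - G z * g1 z = -(G z * g1 z - G1 z * g z) by ring, this]
    simp
  have hRc : ∀ z w : ℂ, s < z.re → s < w.re → G z / g z = G w / g w := by
    intro z w hz hw
    exact hopen.is_const_of_deriv_eq_zero (f := fun z => G z / g z) hconv.isPreconnected
      (fun y hy => (hR y hy).differentiableAt.differentiableWithinAt)
      (fun y hy => (hR y hy).deriv) hz hw
  refine ⟨(G ((s+1 : ℝ) : ℂ) / g ((s+1 : ℝ) : ℂ)) / 2, ?_⟩
  intro x hx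
  have h1 := hRc (x:ℂ) ((s+1 : ℝ) : ℂ) (by simpa using hx) (by simp)
  have h2 := hgne (x:ℂ) (by simpa using hx)
  rw [← h1]
  show G x = G x / g x / 2 * (2 * g x)
  field_simp

end Crest.Agent.R086.BFar
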