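import Crest.Agent.R086.BFarTools

/-!
Row 86, Part B, exterior problem (helper207): the solution operator in the half plane.
`Uf β h` solves `u' = -(β/x + I) u + h/x²`, `Af β h` is its primitive vanishing at infinity.
-/

set_option autoImplicit false

open MeasureTheory Filter Set Topology Complex

namespace Crest.Agent.R086.BFar

noncomputable def Hf (β : ℂ) (h : ℂ → ℂ) (y : ℂ) : ℂ := y ^ (β - 2) * exp (I * y) * h y
noncomputable def Wf (β : ℂ) (h : ℂ → ℂ) (x : ℂ) : ℂ := ∫ t in Ioi (0:ℝ), Hf β h (x + I * (t:ℂ))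
noncomputable def pf (β x : ℂ) : ℂ := -I * (x ^ (-β) * exp (-(I * x)))
noncomputable def Uf (β : ℂ) (h : ℂ → ℂ) (x : ℂ) : ℂ := pf β x * Wf β h x
noncomputable def Af (β : ℂ) (h : ℂ → ℂ) (x : ℂ) : ℂ := -∫ t in Ioi (0:ℝ), Uf β h (x + 1 * (t:ℂ))

/-- admissible exponents -/
structure AdmB (β : ℂ) : Prop where
  lo : 2 ≤ β.re
  hi : β.re ≤ 6
  im : |β.im| ≤ 2

noncomputable def CI : ℝ := ∫ t in Ioi (0:ℝ), Real.exp (-(t/2))

lemma expInt : IntegrableOn (fun t : ℝ => Real.exp (-(t/2))) (Ioi 0) := by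
  have := exp_neg_integrableOn_Ioi (0:ℝ) (b := 1/2) (by norm_num)
  refine this.congr_fun (fun t _ => ?_) measurableSet_Ioi
  simp only; congr 1; ring

lemma CI_nonneg : 0 ≤ CI := integral_nonneg fun _ => (Real.exp_pos _).le

lemma one_le_norm {s : ℝ} (hs : 1 ≤ s) {x : ℂ} (hx : x ∈ HP s) : 1 ≤ ‖x‖ :=
  hs.trans ((le_of_lt hx).trans (Complex.re_le_norm x))

lemma ne_zero_HP {s : ℝ} (hs : 1 ≤ s) {x : ℂ} (hx : x ∈ HP s) : x ≠ 0 := by
  intro h
  have := one_le_norm hs hx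
  rw [h, norm_zero] at this; linarith

lemma slit_HP {s : ℝ} (hs : 1 ≤ s) {x : ℂ} (hx : x ∈ HP s) : x ∈ slitPlane := by
  left
  have : s < x.re := hx
  linarith

lemma norm_cpow_le {x γ : ℂ} (hx : x ≠ 0) : ‖x ^ γ‖ ≤ ‖x‖ ^ γ.re * Real.exp (Real.pi * |γ.im|) := by
  rw [Complex.norm_cpow_of_ne_zero hx, div_eq_mul_inv, ← Real.exp_neg]
  gcongr
  calc -(arg x * γ.im) ≤ |arg x * γ.im| := neg_le_abs _
    _ = |arg x| * |γ.im| := abs_mul _ _
    _ ≤ Real.pi * |γ.im| := by gcongr; exact abs_arg_le_pi x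

lemma poly_exp {t : ℝ} (ht : 0 ≤ t) : (1 + t) ^ 4 * Real.exp (-t) ≤ 4096 * Real.exp (-(t/2)) := by
  have h1 : t/8 + 1 ≤ Real.exp (t/8) := Real.add_one_le_exp _
  have h2 : (1 + t) ^ 4 ≤ 4096 * (t/8 + 1) ^ 4 := by
    have : (1 + t) ≤ 8 * (t/8+1) := by linarith
    calc (1+t)^4 ≤ (8 * (t/8+1))^4 := by gcongr
      _ = _ := by ring
  have h3 : (t/8+1)^4 ≤ Real.exp (t/2) := by
    calc (t/8+1)^4 ≤ Real.exp (t/8) ^ 4 := by gcongr
      _ = Real.exp (t/2) := by rw [← Real.exp_nat_mul]; congr 1; push_cast; ring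
  calc (1 + t) ^ 4 * Real.exp (-t) ≤ (4096 * Real.exp (t/2)) * Real.exp (-t) := by
        gcongr; exact h2.trans (by gcongr)
    _ = _ := by rw [mul_assoc, ← Real.exp_add]; congr 2; ring

lemma norm_Hf_le {β : ℂ} (hβ : AdmB β) {h : ℂ → ℂ} {s M : ℝ} (hs : 1 ≤ s) {x : ℂ} (hx : x ∈ HP s)
    (hM : ∀ y ∈ HP s, ‖h y‖ ≤ M) {t : ℝ} (ht : 0 ≤ t) :
    ‖Hf β h (x + I * (t:ℂ))‖ ≤
      Real.exp (2 * Real.pi) * ‖x‖ ^ (β.re - 2) * Real.exp (-x.im) * 4096 * Real.exp (-(t/2)) * M := by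
  have hy : x + I * (t:ℂ) ∈ HP s := HP_add hx (by simp) ht
  have hy0 := ne_zero_HP hs hy
  have hx1 := one_le_norm hs hx
  have hβlo := hβ.lo
  have hβhi := hβ.hi
  have hM0 : 0 ≤ M := (norm_nonneg _).trans (hM x hx)
  have h1 : ‖(x + I * (t:ℂ)) ^ (β - 2)‖ ≤
      (‖x‖ ^ (β.re - 2) * (1 + t) ^ 4) * Real.exp (2 * Real.pi) := by
    refine (norm_cpow_le hy0).trans ?_
    have hre : (β - 2).re = β.re - 2 := by simp
    have him : (β - 2).im = β.im := by simp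
    rw [hre, him]
    have hn : ‖x + I * (t:ℂ)‖ ≤ ‖x‖ * (1 + t) := by
      calc ‖x + I * (t:ℂ)‖ ≤ ‖x‖ + ‖I * (t:ℂ)‖ := norm_add_le _ _
        _ = ‖x‖ + t := by simp [abs_of_nonneg ht]
        _ ≤ _ := by nlinarith
    have h2 : ‖x + I * (t:ℂ)‖ ^ (β.re - 2) ≤ ‖x‖ ^ (β.re - 2) * (1 + t) ^ 4 := by
      calc ‖x + I * (t:ℂ)‖ ^ (β.re - 2) ≤ (‖x‖ * (1 + t)) ^ (β.re - 2) :=
            Real.rpow_le_rpow (norm_nonneg _) hn (by linarith)
        _ = ‖x‖ ^ (β.re - 2) * (1 + t) ^ (β.re - 2) := Real.mul_rpow (norm_nonneg _) (by linarith)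
        _ ≤ ‖x‖ ^ (β.re - 2) * (1 + t) ^ (4:ℝ) := by
            gcongr
            · linarith
            · linarith
        _ = _ := by norm_num
    have h3 : Real.exp (Real.pi * |β.im|) ≤ Real.exp (2 * Real.pi) := by
      apply Real.exp_le_exp.2
      have := hβ.im
      nlinarith [Real.pi_pos]
    gcongr
  have h4 : ‖exp (I * (x + I * (t:ℂ)))‖ = Real.exp (-x.im) * Real.exp (-t) := by
    rw [Complex.norm_exp, ← Real.exp_add]
    congr 1
    simp [mul_add, ← mul_assoc]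
  have h5 := hM _ hy
  have h6 := poly_exp ht
  unfold Hf
  rw [norm_mul, norm_mul, h4]
  calc ‖(x + I * (t:ℂ)) ^ (β - 2)‖ * (Real.exp (-x.im) * Real.exp (-t)) * ‖h (x + I * (t:ℂ))‖
      ≤ ((‖x‖ ^ (β.re - 2) * (1 + t) ^ 4) * Real.exp (2 * Real.pi)) *
        (Real.exp (-x.im) * Real.exp (-t)) * M := by gcongr
    _ = (Real.exp (2 * Real.pi) * ‖x‖ ^ (β.re - 2) * Real.exp (-x.im)) *
        ((1 + t) ^ 4 * Real.exp (-t)) * M := by ring
    _ ≤ (Real.exp (2 * Real.pi) * ‖x‖ ^ (β.re - 2) * Real.exp (-x.im)) *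
        (4096 * Real.exp (-(t/2))) * M := by gcongr
    _ = _ := by ring

lemma norm_pf_le {β : ℂ} (hβ : AdmB β) {x : ℂ} (hx : x ≠ 0) :
    ‖pf β x‖ ≤ ‖x‖ ^ (-β.re) * Real.exp (2 * Real.pi) * Real.exp x.im := by
  unfold pf
  rw [norm_mul, norm_mul, norm_neg, norm_I, one_mul]
  have h1 : ‖x ^ (-β)‖ ≤ ‖x‖ ^ (-β.re) * Real.exp (2 * Real.pi) := by
    refine (norm_cpow_le hx).trans ?_
    rw [neg_re, neg_im, abs_neg]
    have h3 : Real.exp (Real.pi * |β.im|) ≤ Real.exp (2 * Real.pi) := by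
      apply Real.exp_le_exp.2
      have := hβ.im
      nlinarith [Real.pi_pos]
    exact mul_le_mul_of_nonneg_left h3 (by positivity)
  have h2 : ‖exp (-(I * x))‖ = Real.exp x.im := by
    rw [Complex.norm_exp]; simp
  rw [h2]
  gcongr

/-- uniform bound of the full integrand of `Uf` -/
lemma norm_pfH_le {β : ℂ} (hβ : AdmB β) {h : ℂ → ℂ} {s M : ℝ} (hs : 1 ≤ s) {x : ℂ} (hx : x ∈ HP s)
    (hM : ∀ y ∈ HP s, ‖h y‖ ≤ M) {t : ℝ} (ht : 0 ≤ t) :
    ‖pf β x * Hf β h (x + I * (t:ℂ))‖ ≤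
      (Real.exp (4 * Real.pi) * 4096 * M / ‖x‖ ^ 2) * Real.exp (-(t/2)) := by
  have hx0 := ne_zero_HP hs hx
  have hxp : 0 < ‖x‖ := norm_pos_iff.2 hx0
  have hM0 : 0 ≤ M := (norm_nonneg _).trans (hM x hx)
  rw [norm_mul]
  calc ‖pf β x‖ * ‖Hf β h (x + I * (t:ℂ))‖
      ≤ (‖x‖ ^ (-β.re) * Real.exp (2 * Real.pi) * Real.exp x.im) *
        (Real.exp (2 * Real.pi) * ‖x‖ ^ (β.re - 2) * Real.exp (-x.im) * 4096 *
          Real.exp (-(t/2)) * M) :=
        mul_le_mul (norm_pf_le hβ hx0) (norm_Hf_le hβ hs hx hM ht) (norm_nonneg _) (by positivity)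
    _ = (‖x‖ ^ (-β.re) * ‖x‖ ^ (β.re - 2)) * (Real.exp (2 * Real.pi) * Real.exp (2 * Real.pi)) *
        (Real.exp x.im * Real.exp (-x.im)) * 4096 * M * Real.exp (-(t/2)) := by ring
    _ = _ := by
        rw [← Real.rpow_add hxp, ← Real.exp_add, ← Real.exp_add]
        rw [show -β.re + (β.re - 2) = -2 by ring, show x.im + -x.im = 0 by ring,
          show 2 * Real.pi + 2 * Real.pi = 4 * Real.pi by ring, Real.exp_zero,
          Real.rpow_neg hxp.le]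
        rw [show (2:ℝ) = ((2:ℕ):ℝ) by norm_num, Real.rpow_natCast]
        field_simp

lemma Uf_eq (β : ℂ) (h : ℂ → ℂ) (x : ℂ) :
    Uf β h x = ∫ t in Ioi (0:ℝ), pf β x * Hf β h (x + I * (t:ℂ)) := by
  unfold Uf Wf
  rw [integral_const_mul]

noncomputable def CU : ℝ := Real.exp (4 * Real.pi) * 4096 * CI

lemma CU_nonneg : 0 ≤ CU := by unfold CU; have := CI_nonneg; positivity

lemma norm_Uf_le {β : ℂ} (hβ : AdmB β) {h : ℂ → ℂ} {s M : ℝ} (hs : 1 ≤ s) {x : ℂ} (hx : x ∈ HP s)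
    (hM : ∀ y ∈ HP s, ‖h y‖ ≤ M) : ‖Uf β h x‖ ≤ CU * M / ‖x‖ ^ 2 := by
  rw [Uf_eq]
  have h1 := norm_integral_le_of_norm_le (μ := volume.restrict (Ioi (0:ℝ)))
    (f := fun t : ℝ => pf β x * Hf β h (x + I * (t:ℂ)))
    (g := fun t : ℝ => (Real.exp (4 * Real.pi) * 4096 * M / ‖x‖ ^ 2) * Real.exp (-(t/2)))
    (expInt.const_mul _)
    (by
      filter_upwards [self_mem_ae_restrict measurableSet_Ioi] with t ht
      exact norm_pfH_le hβ hs hx hM (le_of_lt ht))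
  refine h1.trans (le_of_eq ?_)
  rw [integral_const_mul]
  unfold CU CI
  ring

lemma Hf_diff {β : ℂ} {h : ℂ → ℂ} {s : ℝ} (hs : 1 ≤ s) (hh : DifferentiableOn ℂ h (HP s)) :
    DifferentiableOn ℂ (Hf β h) (HP s) := by
  intro y hy
  have h1 : DifferentiableWithinAt ℂ (fun y : ℂ => y ^ (β - 2)) (HP s) y :=
    (differentiableAt_id.cpow (differentiableAt_const _) (slit_HP hs hy)).differentiableWithinAt
  have h2 : DifferentiableWithinAt ℂ (fun y : ℂ => exp (I * y)) (HP s) y := by fun_prop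
  exact (h1.mul h2).mul (hh y hy)

lemma exists_ball {s : ℝ} {x : ℂ} (hx : x ∈ HP s) : ∃ r, 0 < r ∧ r ≤ 1 ∧
    Metric.closedBall x r ⊆ HP s := by
  obtain ⟨r, hr, hsub⟩ := Metric.nhds_basis_closedBall.mem_iff.1 ((isOpen_HP s).mem_nhds hx)
  refine ⟨min r 1, by positivity, min_le_right _ _, ?_⟩
  exact (Metric.closedBall_subset_closedBall (min_le_left _ _)).trans hsub

lemma Wf_hasDerivAt {β : ℂ} (hβ : AdmB β) {h : ℂ → ℂ} {s M : ℝ} (hs : 1 ≤ s) {x : ℂ}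
    (hx : x ∈ HP s) (hh : DifferentiableOn ℂ h (HP s)) (hM : ∀ y ∈ HP s, ‖h y‖ ≤ M) :
    HasDerivAt (Wf β h) (-(Hf β h x) / I) x := by
  obtain ⟨r, hr, hr1, hball⟩ := exists_ball hx
  have hM0 : 0 ≤ M := (norm_nonneg _).trans (hM x hx)
  set B := ‖x‖ + 1 with hB
  have hB0 : 0 < B := by positivity
  apply ray_hasDerivAt (e := I) I_ne_zero (by simp) hr hball (Hf_diff hs hh)
    (g := fun t => (Real.exp (2 * Real.pi) * B ^ 4 * Real.exp B * 4096 * M) * Real.exp (-(t/2)))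
  · exact expInt.const_mul _
  · have : Tendsto (fun t : ℝ => Real.exp (-(t/2))) atTop (𝓝 0) :=
      Real.tendsto_exp_neg_atTop_nhds_zero.comp (tendsto_id.atTop_div_const (by norm_num))
    simpa using this.const_mul (Real.exp (2 * Real.pi) * B ^ 4 * Real.exp B * 4096 * M)
  · intro y hy t ht
    have hyH := hball hy
    refine (norm_Hf_le hβ hs hyH hM ht).trans ?_
    have hyB : ‖y‖ ≤ B := by
      rw [mem_closedBall_iff_norm] at hy
      calc ‖y‖ = ‖x + (y - x)‖ := by ring_nf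
        _ ≤ ‖x‖ + ‖y - x‖ := norm_add_le _ _
        _ ≤ B := by rw [hB]; linarith
    have hy1 := one_le_norm hs hyH
    have h1 : ‖y‖ ^ (β.re - 2) ≤ B ^ 4 := by
      calc ‖y‖ ^ (β.re - 2) ≤ ‖y‖ ^ (4:ℝ) :=
            Real.rpow_le_rpow_of_exponent_le hy1 (by have := hβ.hi; linarith)
        _ = ‖y‖ ^ 4 := by norm_num
        _ ≤ B ^ 4 := by gcongr
    have h2 : Real.exp (-y.im) ≤ Real.exp B := by
      apply Real.exp_le_exp.2
      have := Complex.abs_im_le_norm y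
      have := neg_abs_le y.im
      linarith
    have e1 : Real.exp (2 * Real.pi) * ‖y‖ ^ (β.re - 2) * Real.exp (-y.im) * 4096 *
        Real.exp (-(t/2)) * M ≤ Real.exp (2 * Real.pi) * B ^ 4 * Real.exp B * 4096 *
        Real.exp (-(t/2)) * M := by gcongr
    refine e1.trans (le_of_eq (by ring))

lemma Uf_hasDerivAt {β : ℂ} (hβ : AdmB β) {h : ℂ → ℂ} {s M : ℝ} (hs : 1 ≤ s) {x : ℂ}
    (hx : x ∈ HP s) (hh : DifferentiableOn ℂ h (HP s)) (hM : ∀ y ∈ HP s, ‖h y‖ ≤ M) :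
    HasDerivAt (Uf β h) (-(β / x + I) * Uf β h x + h x / x ^ 2) x := by
  have hW := Wf_hasDerivAt hβ hs hx hh hM
  have hx0 := ne_zero_HP hs hx
  have h1 : HasDerivAt (fun y : ℂ => y ^ (-β)) (-β * x ^ (-β - 1)) x :=
    by simpa using (hasDerivAt_id x).cpow_const (c := -β) (slit_HP hs hx)
  have h2 : HasDerivAt (fun y : ℂ => exp (-(I * y))) (exp (-(I * x)) * (-I)) x := by
    have : HasDerivAt (fun y : ℂ => -(I * y)) (-I) x := by
      have h := (hasDerivAt_id x).const_mul (-I)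
      simp only [mul_one] at h
      refine h.congr_of_eventuallyEq (Eventually.of_forall fun y => ?_)
      simp
    exact this.cexp
  have h3 := ((h1.mul h2).const_mul (-I)).mul hW
  refine h3.congr_deriv ?_
  simp only [Pi.mul_apply]
  unfold Uf pf Hf
  have e1 : x ^ (-β - 1) = x ^ (-β) / x := by
    rw [cpow_sub _ _ hx0, cpow_one]
  have e2 : x ^ (β - 2) = x ^ β / x ^ 2 := by
    rw [cpow_sub _ _ hx0]; norm_num
  have e3 : x ^ (-β) * x ^ β = 1 := by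
    rw [← cpow_add _ _ hx0]; simp
  have e4 : exp (-(I * x)) * exp (I * x) = 1 := by
    rw [← Complex.exp_add]; simp
  rw [e1, e2]
  have e5 : -I * (x ^ (-β) * exp (-(I * x))) * (-(x ^ β / x ^ 2 * exp (I * x) * h x) / I)
      = (x ^ (-β) * x ^ β) * (exp (-(I * x)) * exp (I * x)) * (h x / x ^ 2) := by
    field_simp
  rw [e5, e3, e4]
  field_simp
  ring_nf

end Crest.Agent.R086.BFar
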