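import Crest.Agent.R086.BFarOp

/-!
Row 86, Part B, exterior problem (helper207): the primitive operator `Af`, linearity, continuity
in parameters.
-/

set_option autoImplicit false

open MeasureTheory Filter Set Topology Complex

namespace Crest.Agent.R086.BFar

lemma int_sq {a : ℝ} (ha : 0 < a) : IntegrableOn (fun t : ℝ => 1 / (a + t) ^ 2) (Ioi 0) ∧
    ∫ t in Ioi (0:ℝ), 1 / (a + t) ^ 2 = 1 / a := by
  have hd : ∀ t ∈ Ioi (0:ℝ), HasDerivAt (fun t : ℝ => -(1 / (a + t))) (1 / (a + t) ^ 2) t := by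
    intro t ht
    have ht' : a + t ≠ 0 := by have : (0:ℝ) < t := ht; positivity
    have h1 : HasDerivAt (fun t : ℝ => a + t) 1 t := (hasDerivAt_id t).const_add a
    have h2 := (h1.inv ht').neg
    refine (h2.congr_of_eventuallyEq (Eventually.of_forall fun y => ?_)).congr_deriv ?_
    · simp
    · ring
  have hcont : ContinuousWithinAt (fun t : ℝ => -(1 / (a + t))) (Ici 0) 0 := by
    apply ContinuousAt.continuousWithinAt
    have : a + 0 ≠ 0 := by linarith
    fun_prop (disch := assumption)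
  have hlim : Tendsto (fun t : ℝ => -(1 / (a + t))) atTop (𝓝 (-0)) := by
    apply Tendsto.neg
    simp only [one_div]
    exact tendsto_inv_atTop_zero.comp (tendsto_atTop_add_const_left _ a tendsto_id)
  have hpos : ∀ t ∈ Ioi (0:ℝ), 0 ≤ 1 / (a + t) ^ 2 := fun t _ => by positivity
  refine ⟨integrableOn_Ioi_deriv_of_nonneg hcont hd hpos hlim, ?_⟩
  rw [integral_Ioi_of_hasDerivAt_of_nonneg hcont hd hpos hlim]
  simp

lemma Uf_ray_bound {β : ℂ} (hβ : AdmB β) {h : ℂ → ℂ} {s M : ℝ} (hs : 1 ≤ s) {x : ℂ} (hx : x ∈ HP s)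
    (hM : ∀ y ∈ HP s, ‖h y‖ ≤ M) {t : ℝ} (ht : 0 ≤ t) :
    ‖Uf β h (x + 1 * (t:ℂ))‖ ≤ CU * M * (1 / (x.re + t) ^ 2) := by
  have hy : x + 1 * (t:ℂ) ∈ HP s := HP_add hx (by simp) ht
  have h1 := norm_Uf_le hβ hs hy hM
  refine h1.trans ?_
  have hM0 : 0 ≤ M := (norm_nonneg _).trans (hM x hx)
  have hx1 : s < x.re := hx
  have h2 : x.re + t ≤ ‖x + 1 * (t:ℂ)‖ := by
    have := Complex.re_le_norm (x + 1 * (t:ℂ))
    simpa using this
  have h3 : 0 < x.re + t := by linarith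
  rw [div_eq_mul_one_div]
  have hc := CU_nonneg
  gcongr

lemma norm_Af_le {β : ℂ} (hβ : AdmB β) {h : ℂ → ℂ} {s M : ℝ} (hs : 1 ≤ s) {x : ℂ} (hx : x ∈ HP s)
    (hM : ∀ y ∈ HP s, ‖h y‖ ≤ M) : ‖Af β h x‖ ≤ CU * M / x.re := by
  have hx1 : s < x.re := hx
  obtain ⟨h1, h2⟩ := int_sq (a := x.re) (by linarith)
  unfold Af
  rw [norm_neg]
  have h3 := norm_integral_le_of_norm_le (μ := volume.restrict (Ioi (0:ℝ)))
    (f := fun t : ℝ => Uf β h (x + 1 * (t:ℂ)))
    (g := fun t : ℝ => CU * M * (1 / (x.re + t) ^ 2)) (h1.const_mul _)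
    (by
      filter_upwards [self_mem_ae_restrict measurableSet_Ioi] with t ht
      exact Uf_ray_bound hβ hs hx hM (le_of_lt ht))
  refine h3.trans (le_of_eq ?_)
  rw [integral_const_mul, h2]; ring

lemma Uf_diff {β : ℂ} (hβ : AdmB β) {h : ℂ → ℂ} {s M : ℝ} (hs : 1 ≤ s)
    (hh : DifferentiableOn ℂ h (HP s)) (hM : ∀ y ∈ HP s, ‖h y‖ ≤ M) :
    DifferentiableOn ℂ (Uf β h) (HP s) := fun x hx =>
  (Uf_hasDerivAt hβ hs hx hh hM).differentiableAt.differentiableWithinAt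

lemma Af_hasDerivAt {β : ℂ} (hβ : AdmB β) {h : ℂ → ℂ} {s M : ℝ} (hs : 1 ≤ s) {x : ℂ}
    (hx : x ∈ HP s) (hh : DifferentiableOn ℂ h (HP s)) (hM : ∀ y ∈ HP s, ‖h y‖ ≤ M) :
    HasDerivAt (Af β h) (Uf β h x) x := by
  obtain ⟨r, hr, hr1, hball⟩ := exists_ball hx
  have hM0 : 0 ≤ M := (norm_nonneg _).trans (hM x hx)
  have hc := CU_nonneg
  have hs0 : 0 < s := by linarith
  have key := ray_hasDerivAt (e := (1:ℂ)) one_ne_zero (by simp) hr hball (Uf_diff hβ hs hh hM)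
    (g := fun t => CU * M * (1 / (s + t) ^ 2)) ((int_sq hs0).1.const_mul _)
    (by
      have h1 : Tendsto (fun t : ℝ => (s + t) ^ 2) atTop atTop :=
        (tendsto_pow_atTop (two_ne_zero)).comp (tendsto_atTop_add_const_left _ s tendsto_id)
      have h2 : Tendsto (fun t : ℝ => 1 / (s + t) ^ 2) atTop (𝓝 0) := by
        simp only [one_div]; exact tendsto_inv_atTop_zero.comp h1
      simpa using h2.const_mul (CU * M))
    (by
      intro y hy t ht
      have hyH := hball hy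
      refine (Uf_ray_bound hβ hs hyH hM ht).trans ?_
      have : s < y.re := hyH
      gcongr)
  have h2 := key.neg
  refine (h2.congr_of_eventuallyEq (Eventually.of_forall fun y => ?_)).congr_deriv ?_
  · rfl
  · simp

lemma Uf_sub {β : ℂ} (hβ : AdmB β) {h k : ℂ → ℂ} {s M : ℝ} (hs : 1 ≤ s) {x : ℂ} (hx : x ∈ HP s)
    (hh : DifferentiableOn ℂ h (HP s)) (hk : DifferentiableOn ℂ k (HP s))
    (hM : ∀ y ∈ HP s, ‖h y‖ ≤ M) (kM : ∀ y ∈ HP s, ‖k y‖ ≤ M) :
    Uf β h x - Uf β k x = Uf β (fun y => h y - k y) x := by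
  have hint : ∀ {g : ℂ → ℂ}, DifferentiableOn ℂ g (HP s) → (∀ y ∈ HP s, ‖g y‖ ≤ M) →
      Integrable (fun t : ℝ => pf β x * Hf β g (x + I * (t:ℂ))) (volume.restrict (Ioi 0)) := by
    intro g hg gM
    refine Integrable.mono' (g := fun t : ℝ => (Real.exp (4 * Real.pi) * 4096 * M / ‖x‖ ^ 2) *
      Real.exp (-(t/2))) (expInt.const_mul _) ?_ ?_
    · have : ContinuousOn (fun t : ℝ => pf β x * Hf β g (x + I * (t:ℂ))) (Ioi 0) := by
        apply continuousOn_const.mul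
        apply (Hf_diff (β := β) hs hg).continuousOn.comp (by fun_prop)
        intro t ht; exact HP_add hx (by simp) (le_of_lt ht)
      exact this.aestronglyMeasurable measurableSet_Ioi
    · filter_upwards [self_mem_ae_restrict measurableSet_Ioi] with t ht
      exact norm_pfH_le hβ hs hx gM (le_of_lt ht)
  rw [Uf_eq, Uf_eq, Uf_eq, ← integral_sub (hint hh hM) (hint hk kM)]
  congr 1
  funext t
  unfold Hf
  ring

lemma Af_sub {β : ℂ} (hβ : AdmB β) {h k : ℂ → ℂ} {s M : ℝ} (hs : 1 ≤ s) {x : ℂ} (hx : x ∈ HP s)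
    (hh : DifferentiableOn ℂ h (HP s)) (hk : DifferentiableOn ℂ k (HP s))
    (hM : ∀ y ∈ HP s, ‖h y‖ ≤ M) (kM : ∀ y ∈ HP s, ‖k y‖ ≤ M) :
    Af β h x - Af β k x = Af β (fun y => h y - k y) x := by
  have hx1 : s < x.re := hx
  have hint : ∀ {g : ℂ → ℂ}, DifferentiableOn ℂ g (HP s) → (∀ y ∈ HP s, ‖g y‖ ≤ M) →
      Integrable (fun t : ℝ => Uf β g (x + 1 * (t:ℂ))) (volume.restrict (Ioi 0)) := by
    intro g hg gM
    refine Integrable.mono' (g := fun t : ℝ => CU * M * (1 / (x.re + t) ^ 2))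
      ((int_sq (a := x.re) (by linarith)).1.const_mul _) ?_ ?_
    · have : ContinuousOn (fun t : ℝ => Uf β g (x + 1 * (t:ℂ))) (Ioi 0) := by
        apply (Uf_diff hβ hs hg gM).continuousOn.comp (by fun_prop)
        intro t ht; exact HP_add hx (by simp) (le_of_lt ht)
      exact this.aestronglyMeasurable measurableSet_Ioi
    · filter_upwards [self_mem_ae_restrict measurableSet_Ioi] with t ht
      exact Uf_ray_bound hβ hs hx gM (le_of_lt ht)
  unfold Af
  rw [← neg_sub_neg, neg_neg, neg_neg, ← neg_sub, ← integral_sub (hint hh hM) (hint hk kM)]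
  congr 1
  apply setIntegral_congr_fun measurableSet_Ioi
  intro t ht
  exact Uf_sub hβ hs (HP_add hx (by simp) (le_of_lt ht)) hh hk hM kM

section cont
variable {P : Type*} [TopologicalSpace P] [FirstCountableTopology P]

lemma Uf_cont {K : Set P} {β : P → ℂ} (hβc : ContinuousOn β K) (hβ : ∀ p ∈ K, AdmB (β p))
    {h : P → ℂ → ℂ} {s M : ℝ} (hs : 1 ≤ s)
    (hh : ContinuousOn (fun q : P × ℂ => h q.1 q.2) (K ×ˢ HP s))
    (hM : ∀ p ∈ K, ∀ y ∈ HP s, ‖h p y‖ ≤ M) :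
    ContinuousOn (fun q : P × ℂ => Uf (β q.1) (h q.1) q.2) (K ×ˢ HP s) := by
  have hsh : ∀ t : ℝ, 0 ≤ t → ContinuousOn (fun q : P × ℂ => h q.1 (q.2 + I * (t:ℂ)))
      (K ×ˢ HP s) := by
    intro t ht
    have : ContinuousOn (fun q : P × ℂ => (q.1, q.2 + I * (t:ℂ))) (K ×ˢ HP s) := by fun_prop
    refine hh.comp this ?_
    intro q hq
    exact ⟨hq.1, HP_add hq.2 (by simp) ht⟩
  have hβ1 : ContinuousOn (fun q : P × ℂ => β q.1) (K ×ˢ HP s) :=
    hβc.comp continuousOn_fst (fun q hq => hq.1)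
  have hpf : ContinuousOn (fun q : P × ℂ => pf (β q.1) q.2) (K ×ˢ HP s) := by
    unfold pf
    apply continuousOn_const.mul
    apply ContinuousOn.mul
    · exact continuousOn_snd.cpow hβ1.neg (fun q hq => slit_HP hs hq.2)
    · fun_prop
  simp_rw [Uf_eq]
  apply continuousOn_of_dominated
    (bound := fun t : ℝ => (Real.exp (4 * Real.pi) * 4096 * M) * Real.exp (-(t/2)))
  · intro q hq
    have : ContinuousOn (fun t : ℝ => pf (β q.1) q.2 * Hf (β q.1) (h q.1) (q.2 + I * (t:ℂ)))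
        (Ioi 0) := by
      apply continuousOn_const.mul
      have hmap : ∀ t ∈ Ioi (0:ℝ), q.2 + I * (t:ℂ) ∈ HP s :=
        fun t ht => HP_add hq.2 (by simp) (le_of_lt ht)
      have hhq : ContinuousOn (h q.1) (HP s) := by
        have : ContinuousOn (fun y : ℂ => (q.1, y)) (HP s) := by fun_prop
        exact hh.comp this (fun y hy => ⟨hq.1, hy⟩)
      unfold Hf
      apply ContinuousOn.mul
      · apply ContinuousOn.mul
        · apply ContinuousOn.cpow (by fun_prop) continuousOn_const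
          intro t ht; exact slit_HP hs (hmap t ht)
        · fun_prop
      · exact hhq.comp (by fun_prop) hmap
    exact this.aestronglyMeasurable measurableSet_Ioi
  · intro q hq
    filter_upwards [self_mem_ae_restrict measurableSet_Ioi] with t ht
    refine (norm_pfH_le (hβ _ hq.1) hs hq.2 (hM _ hq.1) (le_of_lt ht)).trans ?_
    have h1 := one_le_norm hs hq.2
    have hM0 : 0 ≤ M := (norm_nonneg _).trans (hM _ hq.1 _ hq.2)
    have h2 : Real.exp (4 * Real.pi) * 4096 * M / ‖q.2‖ ^ 2 ≤ Real.exp (4 * Real.pi) * 4096 * M :=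
      div_le_self (by positivity) (one_le_pow₀ h1)
    gcongr
  · exact expInt.const_mul _
  · filter_upwards [self_mem_ae_restrict measurableSet_Ioi] with t ht
    have ht' : (0:ℝ) ≤ t := le_of_lt ht
    apply hpf.mul
    unfold Hf
    apply ContinuousOn.mul
    · apply ContinuousOn.mul
      · apply ContinuousOn.cpow (by fun_prop) (hβ1.sub continuousOn_const)
        intro q hq; exact slit_HP hs (HP_add hq.2 (by simp) ht')
      · fun_prop
    · exact hsh t ht'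

lemma Af_cont {K : Set P} {β : P → ℂ} (hβc : ContinuousOn β K) (hβ : ∀ p ∈ K, AdmB (β p))
    {h : P → ℂ → ℂ} {s M : ℝ} (hs : 1 ≤ s)
    (hh : ContinuousOn (fun q : P × ℂ => h q.1 q.2) (K ×ˢ HP s))
    (hM : ∀ p ∈ K, ∀ y ∈ HP s, ‖h p y‖ ≤ M) :
    ContinuousOn (fun q : P × ℂ => Af (β q.1) (h q.1) q.2) (K ×ˢ HP s) := by
  have hU := Uf_cont hβc hβ hs hh hM
  have hs0 : 0 < s := by linarith
  unfold Af
  apply ContinuousOn.neg
  apply continuousOn_of_dominated (bound := fun t : ℝ => CU * M * (1 / (s + t) ^ 2))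
  · intro q hq
    have h1 : ContinuousOn (fun t : ℝ => ((q.1, q.2 + 1 * (t:ℂ)) : P × ℂ)) (Ioi 0) := by fun_prop
    have h2 : MapsTo (fun t : ℝ => ((q.1, q.2 + 1 * (t:ℂ)) : P × ℂ)) (Ioi 0) (K ×ˢ HP s) :=
      fun t ht => ⟨hq.1, HP_add hq.2 (by simp) (le_of_lt ht)⟩
    have h3 := ContinuousOn.comp (g := fun q : P × ℂ => Uf (β q.1) (h q.1) q.2)
      (f := fun t : ℝ => ((q.1, q.2 + 1 * (t:ℂ)) : P × ℂ)) hU h1 h2
    exact ContinuousOn.aestronglyMeasurable (f := fun t : ℝ => Uf (β q.1) (h q.1) (q.2 + 1 * (t:ℂ)))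
      h3 measurableSet_Ioi
  · intro q hq
    filter_upwards [self_mem_ae_restrict measurableSet_Ioi] with t ht
    have ht' : (0:ℝ) < t := ht
    refine (Uf_ray_bound (hβ _ hq.1) hs hq.2 (hM _ hq.1) ht'.le).trans ?_
    have hM0 : 0 ≤ M := (norm_nonneg _).trans (hM _ hq.1 _ hq.2)
    have h3 : s < q.2.re := hq.2
    have hc := CU_nonneg
    gcongr
  · exact (int_sq hs0).1.const_mul _
  · filter_upwards [self_mem_ae_restrict measurableSet_Ioi] with t ht
    have h1 : ContinuousOn (fun q : P × ℂ => ((q.1, q.2 + 1 * (t:ℂ)) : P × ℂ)) (K ×ˢ HP s) := by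
      fun_prop
    exact ContinuousOn.comp (g := fun q : P × ℂ => Uf (β q.1) (h q.1) q.2)
      (f := fun q : P × ℂ => ((q.1, q.2 + 1 * (t:ℂ)) : P × ℂ)) hU h1
      (fun q hq => ⟨hq.1, HP_add hq.2 (by simp) (le_of_lt ht)⟩)

end cont

end Crest.Agent.R086.BFar
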