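import Crest.Agent.R086.BFarFix
import Crest.Agent.R086.BExtDefs

/-!
Row 86, Part B, exterior problem (helper207): from the fixed point to solutions.
-/

set_option autoImplicit false

open MeasureTheory Filter Set Topology Complex
open scoped ContDiff

namespace Crest.Agent.R086.BFar

variable {s0 kmax : ℝ} {c : ℂ} {m : ℕ} {F : PP → ℂ → ℂ}

noncomputable def UU (c : ℂ) (m : ℕ) (F : PP → ℂ → ℂ) (p : PP) (x : ℂ) : ℂ :=
  Uf (bb p) (hh c m p (F p)) x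

structure Good (s0 kmax : ℝ) (c : ℂ) : Prop where
  hs : 1 ≤ s0
  hk0 : 0 ≤ kmax
  hk1 : kmax < 1
  hc : ‖c‖ ≤ 1

lemma fix_h7 (G : Good s0 kmax c) (hF : IsFix s0 kmax c m F) {p : PP} (hp : p ∈ KK kmax) :
    ∀ x ∈ HP s0, ‖hh c m p (F p) x‖ ≤ 7 := fun x hx =>
  hh_bound (s := s0) (M := (1 + kmax)/2) (by linarith [G.hk1]) (hF.bd p hp) G.hc m hp hx

lemma fix_hd (hF : IsFix s0 kmax c m F) {p : PP} (hp : p ∈ KK kmax) :
    DifferentiableOn ℂ (hh c m p (F p)) (HP s0) := hh_diff (hF.diff p hp) c m p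

lemma F_hasDerivAt (G : Good s0 kmax c) (hF : IsFix s0 kmax c m F) {p : PP} (hp : p ∈ KK kmax)
    {x : ℂ} (hx : x ∈ HP s0) : HasDerivAt (F p) (UU c m F p x) x := by
  have h1 := (Af_hasDerivAt (admB_bb hp) G.hs hx (fix_hd hF hp) (fix_h7 G hF hp)).const_add p.2.2
  refine h1.congr_of_eventuallyEq ?_
  filter_upwards [(isOpen_HP s0).mem_nhds hx] with y hy
  exact hF.eq p hp y hy

lemma U_hasDerivAt (G : Good s0 kmax c) (hF : IsFix s0 kmax c m F) {p : PP} (hp : p ∈ KK kmax)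
    {x : ℂ} (hx : x ∈ HP s0) : HasDerivAt (UU c m F p)
      (-(bb p / x + I) * UU c m F p x + hh c m p (F p) x / x ^ 2) x :=
  Uf_hasDerivAt (admB_bb hp) G.hs hx (fix_hd hF hp) (fix_h7 G hF hp)

lemma U_cont (G : Good s0 kmax c) (hF : IsFix s0 kmax c m F) :
    ContinuousOn (fun q : PP × ℂ => UU c m F q.1 q.2) (KK kmax ×ˢ HP s0) :=
  Uf_cont (h := fun p => hh c m p (F p)) (bb_cont _) (fun _ hp => admB_bb hp) G.hs
    (hh_cont hF.cont c m) (fun _ hp => fix_h7 G hF hp)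

lemma F_lim (G : Good s0 kmax c) (hF : IsFix s0 kmax c m F) {p : PP} (hp : p ∈ KK kmax)
    {x : ℂ} (hx : x ∈ HP s0) : ‖F p x - p.2.2‖ ≤ CU * 7 / x.re := by
  rw [hF.eq p hp x hx, add_sub_cancel_left]
  exact norm_Af_le (admB_bb hp) G.hs hx (fix_h7 G hF hp)

/-- the solution in the original variable -/
noncomputable def VV (F : PP → ℂ → ℂ) (p : PP) (x : ℂ) : ℂ := x ^ (-aa p) * F p x
noncomputable def VV1 (c : ℂ) (m : ℕ) (F : PP → ℂ → ℂ) (p : PP) (x : ℂ) : ℂ :=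
  x ^ (-aa p) * (UU c m F p x - aa p / x * F p x)

lemma cpow_hasDerivAt {x a : ℂ} (hx : x ∈ slitPlane) :
    HasDerivAt (fun y : ℂ => y ^ (-a)) (-(a / x) * x ^ (-a)) x := by
  have hx0 : x ≠ 0 := slitPlane_ne_zero hx
  have h1 : HasDerivAt (fun y : ℂ => y ^ (-a)) (-a * x ^ (-a - 1)) x := by
    simpa using (hasDerivAt_id x).cpow_const (c := -a) hx
  refine h1.congr_deriv ?_
  rw [cpow_sub _ _ hx0, cpow_one]; ring

lemma V_hasDerivAt (G : Good s0 kmax c) (hF : IsFix s0 kmax c m F) {p : PP} (hp : p ∈ KK kmax)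
    {x : ℂ} (hx : x ∈ HP s0) : HasDerivAt (VV F p) (VV1 c m F p x) x := by
  have h1 := (cpow_hasDerivAt (a := aa p) (slit_HP G.hs hx)).mul (F_hasDerivAt G hF hp hx)
  refine h1.congr_deriv ?_
  unfold VV1; ring

lemma I_mul_aa (p : PP) : I * aa p = (p.1 : ℂ) + I * (p.2.1 : ℂ) := by
  unfold aa; ring_nf; simp only [I_sq]; ring

lemma V1_hasDerivAt (G : Good s0 kmax c) (hF : IsFix s0 kmax c m F) {p : PP} (hp : p ∈ KK kmax)
    {x : ℂ} (hx : x ∈ HP s0) : HasDerivAt (VV1 c m F p)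
      ((-(6 + I * x) * VV1 c m F p x - ((p.1 : ℂ) + I * (p.2.1 : ℂ)) * VV F p x +
        (c * (F p x * tl (F p) x) ^ m / x) * VV F p x) / x) x := by
  have hx0 := ne_zero_HP G.hs hx
  have h1 := cpow_hasDerivAt (a := aa p) (slit_HP G.hs hx)
  have h2 := U_hasDerivAt G hF hp hx
  have h3 := F_hasDerivAt G hF hp hx
  have h4 : HasDerivAt (fun y : ℂ => aa p / y) (-(aa p) / x ^ 2) x := by
    have := (hasDerivAt_inv hx0).const_mul (aa p)
    refine (this.congr_of_eventuallyEq (Eventually.of_forall fun y => ?_)).congr_deriv ?_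
    · simp [div_eq_mul_inv]
    · field_simp
  have h5 := h1.mul (h2.sub (h4.mul h3))
  refine h5.congr_deriv ?_
  rw [← I_mul_aa]
  simp only [Pi.mul_apply, Pi.sub_apply]
  unfold VV1 VV hh bb
  field_simp
  ring

lemma norm_V_le (G : Good s0 kmax c) (hF : IsFix s0 kmax c m F) {p : PP} (hp : p ∈ KK kmax)
    {x : ℂ} (hx : x ∈ HP s0) :
    ‖VV F p x‖ ≤ (Real.exp Real.pi * ((1 + kmax) / 2)) * ‖x‖ ^ (-p.2.1) := by
  have hx0 := ne_zero_HP G.hs hx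
  have hxp : 0 < ‖x‖ := norm_pos_iff.2 hx0
  unfold VV
  rw [norm_mul]
  have h1 : ‖x ^ (-aa p)‖ ≤ ‖x‖ ^ (-p.2.1) * Real.exp Real.pi := by
    refine (norm_cpow_le hx0).trans ?_
    rw [neg_re, aa_re, neg_im, aa_im, neg_neg]
    have h3 : Real.exp (Real.pi * |p.1|) ≤ Real.exp Real.pi := by
      apply Real.exp_le_exp.2
      have := hp.1
      rw [abs_of_nonneg (by linarith [this.1])]
      nlinarith [Real.pi_pos, this.2]
    exact mul_le_mul_of_nonneg_left h3 (by positivity)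
  have h2 := hF.bd p hp x hx
  have hk := G.hk0
  calc ‖x ^ (-aa p)‖ * ‖F p x‖ ≤ (‖x‖ ^ (-p.2.1) * Real.exp Real.pi) * ((1 + kmax) / 2) := by
        gcongr
    _ = _ := by ring

lemma norm_real_cpow {x : ℝ} (hx : 0 < x) (p : PP) : ‖(x:ℂ) ^ (-aa p)‖ = x ^ (-p.2.1) := by
  rw [Complex.norm_cpow_eq_rpow_re_of_pos hx, neg_re, aa_re]

lemma tl_real (f : ℂ → ℂ) (x : ℝ) : tl f (x:ℂ) = (starRingEnd ℂ) (f x) := by
  unfold tl; rw [Complex.conj_ofReal]

lemma F_tl_real (f : ℂ → ℂ) (x : ℝ) : f (x:ℂ) * tl f (x:ℂ) = ((‖f x‖ ^ 2 : ℝ) : ℂ) := by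
  rw [tl_real, Complex.mul_conj, Complex.normSq_eq_norm_sq]

lemma real_mem_HP {x : ℝ} (hx : s0 < x) : (x:ℂ) ∈ HP s0 := by simpa [HP] using hx

lemma norm_V_real {x : ℝ} (hx : 0 < x) (F : PP → ℂ → ℂ) (p : PP) :
    ‖VV F p (x:ℂ)‖ = x ^ (-p.2.1) * ‖F p x‖ := by
  unfold VV
  rw [norm_mul, norm_real_cpow hx]

lemma norm_V_pow {n : ℕ} (hn : 0 < n) {x : ℝ} (hx : 0 < x) (F : PP → ℂ → ℂ) {p : PP}
    (hp : p.2.1 = 1 / n) : ‖VV F p (x:ℂ)‖ ^ n = ‖F p x‖ ^ n / x := by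
  rw [norm_V_real hx, mul_pow, ← Real.rpow_natCast, ← Real.rpow_mul hx.le, hp]
  have : -(1 / (n:ℝ)) * (n:ℝ) = -1 := by
    have : (n:ℝ) ≠ 0 := by positivity
    field_simp
  rw [this, Real.rpow_neg_one]; ring

lemma sup_trick {X : Type*} {s : Set X} {f : X → ℝ} {E B : ℝ} (hE : 0 ≤ E)
    (hB : ∀ x ∈ s, f x ≤ B)
    (h : ∀ C, 0 ≤ C → (∀ x ∈ s, f x ≤ C) → ∀ x ∈ s, f x ≤ C / 2 + E) :
    ∀ x ∈ s, f x ≤ 2 * E := by
  have hk : ∀ k : ℕ, ∀ x ∈ s, f x ≤ |B| / 2 ^ k + 2 * E := by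
    intro k
    induction k with
    | zero => intro x hx; have := hB x hx; have := le_abs_self B; simp; linarith
    | succ k ih =>
      intro x hx
      have := h _ (by positivity) ih x hx
      refine this.trans (le_of_eq ?_)
      rw [pow_succ]; field_simp; ring
  intro x hx
  have hlim : Tendsto (fun k : ℕ => |B| / 2 ^ k + 2 * E) atTop (𝓝 (0 + 2 * E)) := by
    apply Tendsto.add_const
    have : Tendsto (fun k : ℕ => |B| * (1/2 : ℝ) ^ k) atTop (𝓝 (|B| * 0)) :=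
      (tendsto_pow_atTop_nhds_zero_of_lt_one (by norm_num) (by norm_num)).const_mul _
    simp only [mul_zero] at this
    refine this.congr (fun k => ?_)
    rw [one_div, inv_pow]; ring
  rw [zero_add] at hlim
  exact ge_of_tendsto' hlim (fun k => hk k x hx)

lemma Uf_smul (β w : ℂ) (h : ℂ → ℂ) (x : ℂ) : Uf β (fun y => w * h y) x = w * Uf β h x := by
  unfold Uf Wf Hf
  rw [show (fun t : ℝ => (x + I * (t:ℂ)) ^ (β - 2) * exp (I * (x + I * (t:ℂ))) *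
      (w * h (x + I * (t:ℂ)))) = fun t : ℝ => w * ((x + I * (t:ℂ)) ^ (β - 2) *
      exp (I * (x + I * (t:ℂ))) * h (x + I * (t:ℂ))) by funext t; ring]
  rw [integral_const_mul]; ring

lemma Af_smul (β w : ℂ) (h : ℂ → ℂ) (x : ℂ) : Af β (fun y => w * h y) x = w * Af β h x := by
  unfold Af
  simp_rw [Uf_smul]
  rw [integral_const_mul]; ring

/-- difference between the nonlinear and the linear fixed point -/
lemma diff_est (hs : 1 ≤ s0) (hk0 : 0 ≤ kmax) (hk1 : kmax < 1) (hk2 : 1/2 ≤ kmax)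
    (hC : CU * (1 / (1 - (1 + kmax) / 2) + 6) / s0 ≤ 1 / 2)
    {F1 F0 : PP → ℂ → ℂ} (h1 : IsFix s0 kmax 1 m F1) (h0 : IsFix s0 kmax 0 0 F0)
    {om e : ℝ} {k : ℂ} (hp : (om, e, k) ∈ KK kmax) :
    (∀ x ∈ HP s0, ‖F1 (om, e, k) x - 2 * k * F0 (om, e, (1/2 : ℂ)) x‖ ≤
      2 * (((1 + kmax) / 2) ^ (2 * m))) ∧
    ∀ x ∈ HP s0, ‖UU 1 m F1 (om, e, k) x - 2 * k * UU 0 0 F0 (om, e, (1/2 : ℂ)) x‖ ≤
      CU * (13 * ((1 + kmax) / 2) ^ (2 * m)) := by
  set p : PP := (om, e, k) with hpdef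
  set p' : PP := (om, e, (1/2 : ℂ)) with hp'def
  have hp' : p' ∈ KK kmax := ⟨hp.1, hp.2.1, by norm_num [hp'def]; linarith⟩
  have haa : aa p' = aa p := rfl
  have hbb : bb p' = bb p := rfl
  set M := (1 + kmax) / 2 with hM
  have hM1 : M < 1 := by rw [hM]; linarith
  have hM0 : 0 ≤ M := by rw [hM]; linarith
  have G1 : Good s0 kmax 1 := ⟨hs, hk0, hk1, by simp⟩
  have G0 : Good s0 kmax 0 := ⟨hs, hk0, hk1, by simp⟩
  have hCU := CU_nonneg
  have hspos : 0 < s0 := by linarith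
  have hC6 : CU * 6 / s0 ≤ 1 / 2 := by
    refine le_trans ?_ hC
    have : 0 ≤ 1 / (1 - M) := by have : 0 < 1 - M := by linarith
                                 positivity
    gcongr
    linarith
  have hC1 : CU / s0 ≤ 1 := by
    have : CU * 6 / s0 = 6 * (CU / s0) := by ring
    rw [this] at hC6
    have : 0 ≤ CU / s0 := by positivity
    linarith
  -- the difference of the sources
  set D : ℂ → ℂ := fun x => F1 p x - 2 * k * F0 p' x with hD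
  have hsrc : ∀ x, hh 1 m p (F1 p) x - (2 * k * hh 0 0 p' (F0 p') x)
      = F1 p x * (F1 p x * tl (F1 p) x) ^ m + aa p * (5 - aa p) * D x := by
    intro x
    simp only [hh, haa, hD]; ring
  have hkn : ‖k‖ ≤ 1 := le_trans hp.2.2 hk1.le
  have hb1 : ∀ x ∈ HP s0, ‖hh 1 m p (F1 p) x‖ ≤ 14 := fun x hx =>
    (fix_h7 G1 h1 hp x hx).trans (by norm_num)
  have hb0 : ∀ x ∈ HP s0, ‖(fun y => 2 * k * hh 0 0 p' (F0 p') y) x‖ ≤ 14 := by
    intro x hx
    simp only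
    rw [norm_mul, norm_mul]
    have h7 := fix_h7 G0 h0 hp' x hx
    have : ‖(2:ℂ)‖ = 2 := by norm_num
    rw [this]
    have hkk := norm_nonneg k
    have hnn := norm_nonneg (hh 0 0 p' (F0 p') x)
    nlinarith
  have hd1 : DifferentiableOn ℂ (hh 1 m p (F1 p)) (HP s0) := fix_hd h1 hp
  have hd0 : DifferentiableOn ℂ (fun y => 2 * k * hh 0 0 p' (F0 p') y) (HP s0) :=
    (fix_hd h0 hp').const_mul _
  have hDeq : ∀ x ∈ HP s0, D x = Af (bb p) (fun y => hh 1 m p (F1 p) y -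
      (2 * k * hh 0 0 p' (F0 p') y)) x := by
    intro x hx
    rw [← Af_sub (admB_bb hp) hs hx hd1 hd0 hb1 hb0, Af_smul]
    simp only [hD]
    rw [h1.eq p hp x hx, h0.eq p' hp' x hx, hbb]
    simp only [hpdef, hp'def]
    ring
  have hUeq : ∀ x ∈ HP s0, UU 1 m F1 p x - 2 * k * UU 0 0 F0 p' x
      = Uf (bb p) (fun y => hh 1 m p (F1 p) y - (2 * k * hh 0 0 p' (F0 p') y)) x := by
    intro x hx
    rw [← Uf_sub (admB_bb hp) hs hx hd1 hd0 hb1 hb0, Uf_smul]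
    rfl
  have hsb : ∀ C : ℝ, 0 ≤ C → (∀ x ∈ HP s0, ‖D x‖ ≤ C) → ∀ x ∈ HP s0,
      ‖(fun y => hh 1 m p (F1 p) y - (2 * k * hh 0 0 p' (F0 p') y)) x‖ ≤ M ^ (2 * m) + 6 * C := by
    intro C hC0 hDC x hx
    simp only
    rw [hsrc]
    have e1 : ‖F1 p x * (F1 p x * tl (F1 p) x) ^ m‖ ≤ M ^ (2 * m) := by
      have f1 := h1.bd p hp x hx
      have f2 := norm_tl (h1.bd p hp) hx
      rw [norm_mul, norm_pow, norm_mul]
      calc ‖F1 p x‖ * (‖F1 p x‖ * ‖tl (F1 p) x‖) ^ m ≤ M * (M * M) ^ m := by gcongr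
        _ ≤ 1 * (M * M) ^ m := by gcongr
        _ = M ^ (2 * m) := by rw [one_mul, pow_mul, pow_two]
    have e2 : ‖aa p * (5 - aa p) * D x‖ ≤ 6 * C := by
      rw [norm_mul]
      exact mul_le_mul (norm_aa5_le hp) (hDC x hx) (norm_nonneg _) (by norm_num)
    exact (norm_add_le _ _).trans (add_le_add e1 e2)
  have hMp : 0 ≤ M ^ (2 * m) := by positivity
  have hmain : ∀ x ∈ HP s0, ‖D x‖ ≤ 2 * M ^ (2 * m) := by
    apply sup_trick (f := fun x => ‖D x‖) hMp (B := M + 2 * (1 * M))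
    · intro x hx
      have f1 := h1.bd p hp x hx
      have f0 := h0.bd p' hp' x hx
      simp only [hD]
      calc ‖F1 p x - 2 * k * F0 p' x‖ ≤ ‖F1 p x‖ + ‖2 * k * F0 p' x‖ := norm_sub_le _ _
        _ = ‖F1 p x‖ + 2 * (‖k‖ * ‖F0 p' x‖) := by rw [norm_mul, norm_mul]; norm_num; ring
        _ ≤ M + 2 * (1 * M) := by gcongr
    · intro C hC0 hDC x hx
      rw [hDeq x hx]
      refine (norm_Af_le (admB_bb hp) hs hx (hsb C hC0 hDC)).trans ?_
      have hx1 : s0 < x.re := hx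
      have e1 : CU * (M ^ (2 * m) + 6 * C) / x.re ≤ CU * (M ^ (2 * m) + 6 * C) / s0 := by
        gcongr
      refine e1.trans ?_
      have e2 : CU * (M ^ (2 * m) + 6 * C) / s0 = (CU / s0) * M ^ (2 * m) + (CU * 6 / s0) * C := by
        ring
      rw [e2]
      have e3 : (CU / s0) * M ^ (2 * m) ≤ 1 * M ^ (2 * m) := by gcongr
      have e4 : (CU * 6 / s0) * C ≤ 1 / 2 * C := by gcongr
      linarith
  refine ⟨hmain, ?_⟩
  intro x hx
  rw [hUeq x hx]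
  have hx1 := one_le_norm hs hx
  refine (norm_Uf_le (admB_bb hp) hs hx (hsb (2 * M ^ (2 * m)) (by positivity) hmain)).trans ?_
  have e1 : CU * (M ^ (2 * m) + 6 * (2 * M ^ (2 * m))) / ‖x‖ ^ 2 ≤
      CU * (M ^ (2 * m) + 6 * (2 * M ^ (2 * m))) :=
    div_le_self (by positivity) (one_le_pow₀ hx1)
  refine e1.trans (le_of_eq (by ring))

end Crest.Agent.R086.BFar
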