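import Crest.Agent.R086.BFarSol

/-!
Row 86, Part B, exterior problem (helper207): symbol bounds by Cauchy estimates, uniqueness.
-/

set_option autoImplicit false

open MeasureTheory Filter Set Topology Complex
open scoped ContDiff

namespace Crest.Agent.R086.BFar

open Crest.Agent.R086.B (SymX wA wB wC IsSolX IsLinX FarGood)

variable {s0 kmax : ℝ} {c : ℂ} {m : ℕ} {F : PP → ℂ → ℂ}

lemma iter_diff {G : ℂ → ℂ} (hG : DifferentiableOn ℂ G (HP s0)) (j : ℕ) :
    DifferentiableOn ℂ (iteratedDeriv j G) (HP s0) := by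
  induction j with
  | zero => simpa using hG
  | succ j ih => rw [iteratedDeriv_succ]; exact ih.deriv (isOpen_HP s0)

lemma iter_real {G : ℂ → ℂ} (hG : DifferentiableOn ℂ G (HP s0)) (j : ℕ) : ∀ x : ℝ, s0 < x →
    iteratedDeriv j (fun y : ℝ => G y) x = iteratedDeriv j G (x:ℂ) := by
  induction j with
  | zero => intro x _; simp
  | succ j ih =>
    intro x hx
    rw [iteratedDeriv_succ, iteratedDeriv_succ]
    have h1 : iteratedDeriv j (fun y : ℝ => G y) =ᶠ[𝓝 x] fun y : ℝ => iteratedDeriv j G (y:ℂ) := by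
      filter_upwards [lt_mem_nhds hx] with y hy using ih y hy
    rw [h1.deriv_eq]
    have h2 := ((iter_diff hG j).differentiableAt
      ((isOpen_HP s0).mem_nhds (real_mem_HP hx))).hasDerivAt
    exact h2.comp_ofReal.deriv

lemma cauchy_sym (hs0 : 1 ≤ s0) {G : ℂ → ℂ} (hG : DifferentiableOn ℂ G (HP s0)) {B δ s : ℝ}
    (hδ0 : 0 ≤ δ) (hδ1 : δ ≤ 1) (hB : 0 ≤ B) (hb : ∀ z ∈ HP s0, ‖G z‖ ≤ B * ‖z‖ ^ (-δ))
    (hs : 2 * s0 ≤ s) :
    SymX (fun j => ((j.factorial : ℝ) * 2 ^ (j+1)) * B) δ s (fun x => G x) := by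
  constructor
  · have h1 : ContDiffOn ℝ ∞ G (HP s0) := (hG.contDiffOn (isOpen_HP s0)).restrict_scalars ℝ
    have h2 : ContDiffOn ℝ ∞ (fun x : ℝ => (x:ℂ)) (Ioi s) := Complex.ofRealCLM.contDiff.contDiffOn
    exact h1.comp h2 (fun x hx => real_mem_HP (by have : s < x := hx; linarith))
  · intro j x hx
    have hx0 : s0 < x := by linarith
    have hxp : 0 < x := by linarith
    rw [iter_real hG j x hx0]
    have hsub : ∀ z ∈ Metric.closedBall (x:ℂ) (x/2), s0 < z.re ∧ x / 2 ≤ z.re := by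
      intro z hz
      rw [mem_closedBall_iff_norm] at hz
      have h1 := Complex.abs_re_le_norm (z - x)
      rw [sub_re, ofReal_re] at h1
      have h2 := (abs_le.1 (h1.trans hz)).1
      constructor <;> linarith
    have hC : ∀ z ∈ Metric.sphere (x:ℂ) (x/2), ‖G z‖ ≤ B * (2 * x ^ (-δ)) := by
      intro z hz
      have hz' := hsub z (Metric.sphere_subset_closedBall hz)
      refine (hb z hz'.1).trans ?_
      apply mul_le_mul_of_nonneg_left _ hB
      have h1 : x / 2 ≤ ‖z‖ := hz'.2.trans (Complex.re_le_norm z)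
      calc ‖z‖ ^ (-δ) ≤ (x/2) ^ (-δ) :=
            Real.rpow_le_rpow_of_nonpos (by positivity) h1 (by linarith)
        _ = x ^ (-δ) * 2 ^ δ := by
            rw [Real.div_rpow hxp.le (by norm_num), Real.rpow_neg (by norm_num : (0:ℝ) ≤ 2),
              div_inv_eq_mul]
        _ ≤ x ^ (-δ) * 2 ^ (1:ℝ) := by
            gcongr
            norm_num
        _ = 2 * x ^ (-δ) := by rw [Real.rpow_one]; ring
    have hdc : DiffContOnCl ℂ G (Metric.ball (x:ℂ) (x/2)) := by
      apply DifferentiableOn.diffContOnCl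
      rw [closure_ball _ (by positivity)]
      exact hG.mono (fun z hz => (hsub z hz).1)
    refine (Complex.norm_iteratedDeriv_le_of_forall_mem_sphere_norm_le j (by positivity) hdc
      hC).trans (le_of_eq ?_)
    rw [Real.rpow_sub hxp, Real.rpow_natCast, div_pow]
    field_simp
    ring

lemma SymX.congr {C : ℕ → ℝ} {δ X : ℝ} {w w' : ℝ → ℂ} (h : SymX C δ X w)
    (hw : ∀ x, X < x → w' x = w x) : SymX C δ X w' := by
  refine ⟨h.1.congr (fun x hx => hw x hx), ?_⟩
  intro j x hx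
  have h1 : w' =ᶠ[𝓝 x] w := by
    filter_upwards [lt_mem_nhds hx] with y hy using hw y hy
  rw [h1.iteratedDeriv_eq j]
  exact h.2 j x hx

lemma SymX.mono {C C' : ℕ → ℝ} {δ X : ℝ} {w : ℝ → ℂ} (h : SymX C δ X w) (hX : 0 ≤ X)
    (hC : ∀ j, C j ≤ C' j) : SymX C' δ X w := by
  refine ⟨h.1, fun j x hx => (h.2 j x hx).trans ?_⟩
  have : 0 ≤ x ^ (-δ - j) := Real.rpow_nonneg (by linarith) _
  exact mul_le_mul_of_nonneg_right (hC j) this

lemma SymX.conj {C : ℕ → ℝ} {δ X : ℝ} {w : ℝ → ℂ} (h : SymX C δ X w) :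
    SymX C δ X (fun x => (starRingEnd ℂ) (w x)) := by
  have hc : (fun x => (starRingEnd ℂ) (w x)) = Complex.conjLIE ∘ w := by
    funext x; simp
  constructor
  · rw [hc]; exact Complex.conjLIE.contDiff.comp_contDiffOn h.1
  · intro j x hx
    have h1 : ‖iteratedDeriv j (fun x => (starRingEnd ℂ) (w x)) x‖ = ‖iteratedDeriv j w x‖ := by
      rw [← norm_iteratedFDeriv_eq_norm_iteratedDeriv, ← norm_iteratedFDeriv_eq_norm_iteratedDeriv,
        hc, LinearIsometryEquiv.norm_iteratedFDeriv_comp_left]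
    rw [h1]; exact h.2 j x hx

lemma pow_split {m : ℕ} (a : ℝ) : a ^ (2 * m) = (a ^ 2) ^ m := by rw [pow_mul]

lemma aa_conj_cpow {x : ℝ} (hx : 0 < x) (w : ℂ) :
    (starRingEnd ℂ) ((x:ℂ) ^ w) = (x:ℂ) ^ ((starRingEnd ℂ) w) := by
  rw [Complex.cpow_conj _ _ (by rw [Complex.arg_ofReal_of_nonneg hx.le]; exact Real.pi_pos.ne),
    Complex.conj_ofReal]

/-- symbol facts of one solution -/
theorem farGood (hs1 : 1 ≤ s0) (hk0 : 0 ≤ kmax) (hk1 : kmax < 1) (hm : 1 ≤ m)
    (hF : IsFix s0 kmax 1 m F) {om : ℝ} {k : ℂ} {s kmin : ℝ} (hkmin : 0 < kmin)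
    (hk : kmin ≤ ‖k‖) (hp : (om, (1 / ((2 * m : ℕ) : ℝ)), k) ∈ KK kmax) (hs : 2 * s0 ≤ s)
    (hs2 : 14 * CU ≤ kmin * s) :
    FarGood (2 * m) ((1 + kmax) / 2) (kmin / 2) s
      (fun j => ((j.factorial : ℝ) * 2 ^ (j+1)) * Real.exp Real.pi)
      (fun x => VV F (om, (1 / ((2 * m : ℕ) : ℝ)), k) x) := by
  set e : ℝ := 1 / ((2 * m : ℕ) : ℝ) with he
  set p : PP := (om, e, k) with hpdef
  set M := (1 + kmax) / 2 with hM
  have hM0 : 0 < M := by rw [hM]; linarith
  have hM1 : M < 1 := by rw [hM]; linarith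
  have G1 : Good s0 kmax 1 := ⟨hs1, hk0, hk1, by simp⟩
  have hn0 : 0 < 2 * m := by omega
  have hd := hF.diff p hp
  have hdt := tl_diff hd
  have hbd := hF.bd p hp
  have he0 : 0 ≤ e := hp.2.1.1
  have he1 : e ≤ 1 := hp.2.1.2.trans (by norm_num)
  have hnn : ((2 * m : ℕ) : ℝ) ≠ 0 := by positivity
  have hxs : ∀ {x : ℝ}, s < x → s0 < x ∧ 0 < x := fun {x} hx => ⟨by linarith, by linarith⟩
  have homI := hp.1
  have hcp : ∀ w : ℂ, DifferentiableOn ℂ (fun z : ℂ => z ^ w) (HP s0) := fun w z hz =>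
    (differentiableAt_id.cpow (differentiableAt_const _)
      (slit_HP hs1 hz)).differentiableWithinAt
  have hFt : ∀ z ∈ HP s0, ‖F p z * tl (F p) z‖ ≤ M ^ 2 := by
    intro z hz
    rw [norm_mul, pow_two]
    exact mul_le_mul (hbd z hz) (norm_tl hbd hz) (norm_nonneg _) hM0.le
  have hepi : 1 ≤ Real.exp Real.pi := Real.one_le_exp Real.pi_pos.le
  -- the three potentials
  have hA : SymX (fun j => ((j.factorial : ℝ) * 2 ^ (j+1)) * M ^ (2 * m)) 1 s
      (wA (2 * m) (fun x => VV F p x)) := by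
    have h1 := cauchy_sym (s := s) hs1 (G := fun z => z⁻¹ * (F p z * tl (F p) z) ^ m)
      (B := M ^ (2 * m)) (δ := 1)
      (by
        have : DifferentiableOn ℂ (fun z : ℂ => z⁻¹) (HP s0) := fun z hz =>
          (differentiableAt_inv (ne_zero_HP hs1 hz)).differentiableWithinAt
        exact this.mul ((hd.mul hdt).pow m)) (by norm_num) (by norm_num) (by positivity)
      (by
        intro z hz
        rw [norm_mul, norm_inv, norm_pow, Real.rpow_neg_one, mul_comm, pow_mul]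
        gcongr
        exact hFt z hz) hs
    refine SymX.congr h1 (fun x hx => ?_)
    obtain ⟨hx0, hxp⟩ := hxs hx
    simp only [wA]
    rw [norm_V_pow hn0 hxp F (by rfl), F_tl_real, ← ofReal_pow, ← ofReal_inv, ← ofReal_mul, pow_mul]
    congr 1; ring
  have hB : SymX (fun j => ((j.factorial : ℝ) * 2 ^ (j+1)) * (Real.exp Real.pi * M ^ (2 * m))) 1 s
      (wB (2 * m) (fun x => VV F p x)) := by
    have h1 := cauchy_sym (s := s) hs1
      (G := fun z => z ^ (-1 + 2 * I * (om:ℂ)) * ((F p z) ^ 2 * (F p z * tl (F p) z) ^ (m - 1)))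
      (B := Real.exp Real.pi * M ^ (2 * m)) (δ := 1)
      ((hcp _).mul ((hd.pow 2).mul ((hd.mul hdt).pow (m-1)))) (by norm_num) (by norm_num)
      (by positivity)
      (by
        intro z hz
        have hz0 := ne_zero_HP hs1 hz
        rw [norm_mul, norm_mul, norm_pow, norm_pow]
        have e1 : ‖z ^ (-1 + 2 * I * (om:ℂ))‖ ≤ ‖z‖ ^ (-1 : ℝ) * Real.exp Real.pi := by
          refine (norm_cpow_le hz0).trans ?_
          have hre : (-1 + 2 * I * (om:ℂ)).re = -1 := by simp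
          have him : (-1 + 2 * I * (om:ℂ)).im = 2 * om := by simp
          rw [hre, him]
          have : Real.exp (Real.pi * |2 * om|) ≤ Real.exp Real.pi := by
            apply Real.exp_le_exp.2
            rw [abs_of_nonneg (by linarith [homI.1])]
            nlinarith [Real.pi_pos, homI.2]
          exact mul_le_mul_of_nonneg_left this (by positivity)
        have e2 : ‖F p z‖ ^ 2 * ‖F p z * tl (F p) z‖ ^ (m-1) ≤ M ^ (2 * m) := by
          calc ‖F p z‖ ^ 2 * ‖F p z * tl (F p) z‖ ^ (m-1) ≤ M ^ 2 * (M ^ 2) ^ (m-1) := by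
                gcongr
                · exact hbd z hz
                · exact hFt z hz
            _ = M ^ (2 * m) := by
                rw [← pow_mul, ← pow_add]; congr 1; omega
        calc _ ≤ (‖z‖ ^ (-1 : ℝ) * Real.exp Real.pi) * M ^ (2 * m) :=
              mul_le_mul e1 e2 (by positivity) (by positivity)
          _ = _ := by ring) hs
    refine SymX.congr h1 (fun x hx => ?_)
    obtain ⟨hx0, hxp⟩ := hxs hx
    have hxc : (x:ℂ) ≠ 0 := by exact_mod_cast hxp.ne'
    simp only [wB]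
    rw [norm_V_real hxp, mul_pow, F_tl_real]
    unfold VV
    have e1 : (x ^ (-e)) ^ (2 * m - 2) = x ^ (-e * ((2 * m - 2 : ℕ) : ℝ)) := by
      rw [← Real.rpow_natCast, ← Real.rpow_mul hxp.le]
    have e2 : ((x:ℂ) ^ (-aa p)) ^ 2 = (x:ℂ) ^ (-aa p * 2) := by
      have h := Complex.cpow_mul_nat (x:ℂ) (-aa p) 2
      push_cast at h
      exact h.symm
    have e3 : ‖F p (x:ℂ)‖ ^ (2 * m - 2) = (‖F p (x:ℂ)‖ ^ 2) ^ (m - 1) := by
      rw [← pow_mul]; congr 1; omega
    have e4 : (x:ℂ) ^ (-1 + 2 * I * (om:ℂ)) = ((x ^ (-e * ((2 * m - 2 : ℕ) : ℝ)) : ℝ) : ℂ) *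
        (x:ℂ) ^ (-aa p * 2) := by
      rw [Complex.ofReal_cpow hxp.le, ← cpow_add _ _ hxc]
      congr 1
      have h5 : ((2 * m - 2 : ℕ) : ℝ) = ((2 * m : ℕ) : ℝ) - 2 := by
        rw [Nat.cast_sub (by omega)]; norm_num
      have h6 : -e * ((2 * m - 2 : ℕ) : ℝ) = -1 + 2 * e := by
        rw [h5, he]; field_simp; ring
      rw [h6]
      simp only [aa, hpdef]
      push_cast; ring
    rw [mul_pow, e2, e4, show (p.2.1) = e from rfl, e1, e3]
    push_cast
    ring
  refine ⟨?_, ?_, ?_, ?_, ?_, ?_⟩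
  · -- sym
    have h1 := cauchy_sym (s := s) hs1 (G := VV F p) (B := Real.exp Real.pi * M) (δ := e)
      (fun z hz => (V_hasDerivAt G1 hF hp hz).differentiableAt.differentiableWithinAt)
      he0 he1 (by positivity) (fun z hz => norm_V_le G1 hF hp hz) hs
    have h2 := SymX.mono (C' := fun j => ((j.factorial : ℝ) * 2 ^ (j+1)) * Real.exp Real.pi) h1
      (by linarith) (fun j => by
        apply mul_le_mul_of_nonneg_left _ (by positivity)
        calc Real.exp Real.pi * M ≤ Real.exp Real.pi * 1 := by gcongr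
          _ = _ := mul_one _)
    exact h2
  · -- lower
    intro x hx
    obtain ⟨hx0, hxp⟩ := hxs hx
    rw [norm_V_real hxp, show p.2.1 = e from rfl]
    have h1 := F_lim G1 hF hp (real_mem_HP hx0)
    rw [ofReal_re] at h1
    have h2 : CU * 7 / x ≤ kmin / 2 := by
      rw [div_le_div_iff₀ hxp (by norm_num)]
      have : kmin * s ≤ kmin * x := by gcongr
      linarith
    have h3 : ‖k‖ - ‖F p x - k‖ ≤ ‖F p x‖ := by
      have h4 := norm_sub_norm_le k (k - F p x)
      rw [sub_sub_cancel, norm_sub_rev k] at h4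
      exact h4
    have h5 : x ^ (-e) * ‖F p x‖ * x ^ (1 / ((2 * m : ℕ) : ℝ)) = ‖F p x‖ := by
      rw [← he, Real.rpow_neg hxp.le]
      field_simp
    rw [h5]
    have h6 : ‖F p x - k‖ ≤ CU * 7 / x := h1
    linarith
  · intro x hx
    obtain ⟨hx0, hxp⟩ := hxs hx
    rw [norm_V_real hxp, show p.2.1 = e from rfl]
    have h5 : x ^ (-e) * ‖F p x‖ * x ^ (1 / ((2 * m : ℕ) : ℝ)) = ‖F p x‖ := by
      rw [← he, Real.rpow_neg hxp.le]
      field_simp
    rw [h5]
    exact hbd _ (real_mem_HP hx0)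
  · refine SymX.mono hA (by linarith) (fun j => ?_)
    have : (0:ℝ) ≤ ((j.factorial : ℝ) * 2 ^ (j+1)) * M ^ (2 * m) := by positivity
    nlinarith
  · refine SymX.mono hB (by linarith) (fun j => le_of_eq (by ring))
  · have h1 := SymX.conj hB
    have h2 := SymX.mono (C' := fun j => ((j.factorial : ℝ) * 2 ^ (j+1)) * Real.exp Real.pi *
      M ^ (2 * m)) h1 (by linarith) (fun j => le_of_eq (by ring))
    refine SymX.congr h2 (fun x _ => ?_)
    simp only [wB, wC, map_mul, map_pow, Complex.conj_ofReal]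

end Crest.Agent.R086.BFar
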