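import Mathlib

/-!
Row 86, Part B, exterior problem (helper207): tools.
* `ray_hasDerivAt`: derivative of a ray integral of a holomorphic function on a half plane;
* `fixpt_sup`: contraction principle for sets of functions closed under uniform limits;
* `pow_lip`: Lipschitz bound for `f^(m+1) g^m`.
-/

set_option autoImplicit false

open MeasureTheory Filter Set Topology Complex

namespace Crest.Agent.R086.BFar

/-- open half plane -/
def HP (s : ℝ) : Set ℂ := {x | s < x.re}

lemma isOpen_HP (s : ℝ) : IsOpen (HP s) := isOpen_lt continuous_const Complex.continuous_re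

lemma mem_HP {s : ℝ} {x : ℂ} : x ∈ HP s ↔ s < x.re := Iff.rfl

lemma HP_add {s : ℝ} {x e : ℂ} (hx : x ∈ HP s) (he : 0 ≤ e.re) {t : ℝ} (ht : 0 ≤ t) :
    x + e * (t : ℂ) ∈ HP s := by
  have : 0 ≤ e.re * t := mul_nonneg he ht
  simp only [HP, Set.mem_ofPred_eq, add_re, mul_re, ofReal_re, ofReal_im, mul_zero, sub_zero] at *
  linarith

lemma conj_mem_HP {s : ℝ} {x : ℂ} (hx : x ∈ HP s) : (starRingEnd ℂ) x ∈ HP s := by
  simpa [HP] using hx

lemma ray_hasDerivAt {e : ℂ} (he : e ≠ 0) (hedir : 0 ≤ e.re) {H : ℂ → ℂ} {s r : ℝ} {x0 : ℂ}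
    (hr : 0 < r) (hball : Metric.closedBall x0 r ⊆ HP s) (hH : DifferentiableOn ℂ H (HP s))
    {g : ℝ → ℝ} (hg : IntegrableOn g (Ioi 0)) (hg0 : Tendsto g atTop (𝓝 0))
    (hb : ∀ x ∈ Metric.closedBall x0 r, ∀ t : ℝ, 0 ≤ t → ‖H (x + e * (t : ℂ))‖ ≤ g t) :
    HasDerivAt (fun x => ∫ t in Ioi (0 : ℝ), H (x + e * (t : ℂ))) (-(H x0) / e) x0 := by
  have hx0 : x0 ∈ HP s := hball (Metric.mem_closedBall_self hr.le)
  have hopen := isOpen_HP s
  have hderiv : DifferentiableOn ℂ (deriv H) (HP s) := hH.deriv hopen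
  have hHd : ∀ y ∈ HP s, HasDerivAt H (deriv H y) y := fun y hy =>
    (hH.differentiableAt (hopen.mem_nhds hy)).hasDerivAt
  have hcont : ∀ x ∈ HP s, ContinuousOn (fun t : ℝ => H (x + e * (t : ℂ))) (Ici 0) := by
    intro x hx
    apply hH.continuousOn.comp (by fun_prop)
    intro t ht; exact HP_add hx hedir ht
  have hcont' : ContinuousOn (fun t : ℝ => deriv H (x0 + e * (t : ℂ))) (Ici 0) := by
    apply hderiv.continuousOn.comp (by fun_prop)
    intro t ht; exact HP_add hx0 hedir ht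
  have hmeas : ∀ x ∈ HP s, AEStronglyMeasurable (fun t : ℝ => H (x + e * (t : ℂ)))
      (volume.restrict (Ioi 0)) := fun x hx =>
    ((hcont x hx).mono Ioi_subset_Ici_self).aestronglyMeasurable measurableSet_Ioi
  have hr2 : 0 < r / 2 := by positivity
  have hbd : ∀ t : ℝ, 0 ≤ t → ∀ x ∈ Metric.ball x0 (r/2),
      ‖deriv H (x + e * (t : ℂ))‖ ≤ g t / (r/2) := by
    intro t ht x hx
    have hsub : Metric.closedBall x (r/2) ⊆ Metric.closedBall x0 r := by
      intro y hy
      rw [Metric.mem_closedBall] at *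
      rw [Metric.mem_ball] at hx
      linarith [dist_triangle y x x0]
    apply Complex.norm_deriv_le_of_forall_mem_sphere_norm_le hr2
    · apply DifferentiableOn.diffContOnCl
      rw [closure_ball _ hr2.ne']
      apply hH.mono
      intro y hy
      have : y - e * (t:ℂ) ∈ Metric.closedBall x (r/2) := by
        rw [Metric.mem_closedBall, dist_eq_norm] at *
        rw [show y - e * (t:ℂ) - x = y - (x + e * (t:ℂ)) by ring]; exact hy
      have h2 := hball (hsub this)
      have h3 := HP_add h2 hedir ht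
      simpa using h3
    · intro z hz
      have : z - e * (t:ℂ) ∈ Metric.closedBall x (r/2) := by
        rw [Metric.mem_closedBall, dist_eq_norm]
        rw [mem_sphere_iff_norm] at hz
        rw [show z - e * (t:ℂ) - x = z - (x + e * (t:ℂ)) by ring]; exact hz.le
      have h2 := hb _ (hsub this) t ht
      simpa using h2
  have key := hasDerivAt_integral_of_dominated_loc_of_deriv_le (μ := volume.restrict (Ioi (0:ℝ)))
    (F := fun (x : ℂ) (t : ℝ) => H (x + e * (t : ℂ)))
    (F' := fun (x : ℂ) (t : ℝ) => deriv H (x + e * (t : ℂ)))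
    (x₀ := x0) (s := Metric.ball x0 (r/2)) (bound := fun t => g t / (r/2))
    (Metric.ball_mem_nhds _ hr2)
    (by
      filter_upwards [hopen.mem_nhds hx0] with x hx using hmeas x hx)
    (by
      refine Integrable.mono' hg (hmeas x0 hx0) ?_
      filter_upwards [self_mem_ae_restrict measurableSet_Ioi] with t ht
      exact hb x0 (Metric.mem_closedBall_self hr.le) t (le_of_lt ht))
    ((hcont'.mono Ioi_subset_Ici_self).aestronglyMeasurable measurableSet_Ioi)
    (by
      filter_upwards [self_mem_ae_restrict measurableSet_Ioi] with t ht x hx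
      exact hbd t (le_of_lt ht) x hx)
    (hg.div_const _)
    (by
      filter_upwards [self_mem_ae_restrict measurableSet_Ioi] with t ht x hx
      have hx' : x ∈ HP s := hball ((Metric.ball_subset_closedBall.trans
        (Metric.closedBall_subset_closedBall (by linarith))) hx)
      have h1 := hHd _ (HP_add hx' hedir (le_of_lt ht))
      exact h1.comp_add_const x (e * (t:ℂ)))
  obtain ⟨hint, hd⟩ := key
  have hval : ∫ t in Ioi (0:ℝ), deriv H (x0 + e * (t : ℂ)) = -(H x0) / e := by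
    have h1 : ∫ t in Ioi (0:ℝ), e * deriv H (x0 + e * (t : ℂ)) = 0 - H (x0 + e * ((0:ℝ) : ℂ)) := by
      apply integral_Ioi_of_hasDerivAt_of_tendsto (f := fun t : ℝ => H (x0 + e * (t:ℂ)))
      · exact (hcont x0 hx0) 0 (by simp)
      · intro t ht
        have h2 := hHd _ (HP_add hx0 hedir (le_of_lt ht))
        have h3 : HasDerivAt (fun t : ℝ => x0 + e * (t:ℂ)) e t := by
          have := ((Complex.ofRealCLM.hasDerivAt (x := t)).const_mul e).const_add x0
          simpa using this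
        have h4 := h2.comp t h3
        rw [mul_comm]
        exact h4
      · exact hint.const_mul e
      · apply squeeze_zero_norm' _ hg0
        filter_upwards [eventually_ge_atTop 0] with t ht
        exact hb x0 (Metric.mem_closedBall_self hr.le) t ht
    rw [integral_const_mul] at h1
    field_simp
    rw [h1]; simp
  rw [hval] at hd
  exact hd

/-- contraction principle for a set of functions closed under uniform limits -/
lemma fixpt_sup {X E : Type*} [NormedAddCommGroup E] [CompleteSpace E] (S : Set (X → E))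
    (hne : S.Nonempty)
    (hcl : ∀ (F : ℕ → X → E) (g : X → E), (∀ k, F k ∈ S) → TendstoUniformly F g atTop → g ∈ S)
    (hbd : ∀ f ∈ S, ∀ g ∈ S, ∃ C : ℝ, ∀ x, ‖f x - g x‖ ≤ C)
    (T : (X → E) → (X → E)) (hT : ∀ f ∈ S, T f ∈ S)
    (hL : ∀ f ∈ S, ∀ g ∈ S, ∀ C : ℝ, 0 ≤ C → (∀ x, ‖f x - g x‖ ≤ C) →
      ∀ x, ‖T f x - T g x‖ ≤ C / 2) :
    ∃ f ∈ S, T f = f := by
  obtain ⟨f0, hf0⟩ := hne
  set F : ℕ → X → E := fun k => T^[k] f0 with hF
  have hFS : ∀ k, F k ∈ S := by
    intro k
    induction k with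
    | zero => simpa [hF] using hf0
    | succ k ih =>
      have : F (k+1) = T (F k) := by simp [hF, Function.iterate_succ_apply']
      rw [this]; exact hT _ ih
  have hFs : ∀ k, F (k+1) = T (F k) := fun k => by simp [hF, Function.iterate_succ_apply']
  obtain ⟨C, hC⟩ := hbd _ (hFS 0) _ (hFS 1)
  set C' := max C 0 with hC'
  have hC0 : 0 ≤ C' := le_max_right _ _
  have hstep : ∀ k x, ‖F k x - F (k+1) x‖ ≤ C' / 2 ^ k := by
    intro k
    induction k with
    | zero =>
      intro x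
      have h := (hC x).trans (le_max_left C 0)
      rw [pow_zero, div_one]
      exact h
    | succ k ih =>
      intro x
      have := hL _ (hFS k) _ (hFS (k+1)) (C' / 2^k) (by positivity) ih x
      rw [← hFs k, ← hFs (k+1)] at this
      calc _ ≤ _ := this
        _ = _ := by rw [pow_succ]; field_simp
  have hdist : ∀ x k, dist (F k x) (F (k+1) x) ≤ (2 * C') / 2 / 2 ^ k := by
    intro x k
    rw [dist_eq_norm]
    calc _ ≤ _ := hstep k x
      _ = _ := by ring
  have hcau : ∀ x, CauchySeq (fun k => F k x) := fun x =>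
    cauchySeq_of_le_geometric_two (hdist x)
  choose g hg using fun x => cauchySeq_tendsto_of_complete (hcau x)
  have hdg : ∀ k x, dist (F k x) (g x) ≤ 2 * C' / 2 ^ k := fun k x =>
    dist_le_of_le_geometric_two_of_tendsto (hdist x) (hg x) k
  have hlim : Tendsto (fun k : ℕ => 2 * C' / 2 ^ k) atTop (𝓝 0) := by
    have : Tendsto (fun k : ℕ => (2 * C') * (1/2 : ℝ) ^ k) atTop (𝓝 ((2 * C') * 0)) :=
      (tendsto_pow_atTop_nhds_zero_of_lt_one (by norm_num) (by norm_num)).const_mul _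
    simp only [mul_zero] at this
    refine this.congr (fun k => ?_)
    rw [one_div, inv_pow]; ring
  have hunif : TendstoUniformly F g atTop := by
    rw [Metric.tendstoUniformly_iff]
    intro e he
    filter_upwards [(tendsto_order.1 hlim).2 e he] with k hk x
    rw [dist_comm]
    exact (hdg k x).trans_lt hk
  have hgS := hcl F g hFS hunif
  refine ⟨g, hgS, ?_⟩
  funext x
  have h1 : Tendsto (fun k => F (k+1) x) atTop (𝓝 (T g x)) := by
    rw [tendsto_iff_norm_sub_tendsto_zero]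
    apply squeeze_zero (fun _ => norm_nonneg _) (g := fun k : ℕ => (2 * C' / 2 ^ k) / 2)
    · intro k
      rw [hFs k]
      apply hL _ (hFS k) _ hgS _ (by positivity)
      intro y
      rw [← dist_eq_norm]; exact hdg k y
    · simpa using hlim.div_const 2
  exact tendsto_nhds_unique h1 ((hg x).comp (tendsto_add_atTop_nat 1))

lemma pow_lip {a b : ℂ} {M : ℝ} (ha : ‖a‖ ≤ M) (hb : ‖b‖ ≤ M) (k : ℕ) :
    ‖a ^ k - b ^ k‖ ≤ k * M ^ (k - 1) * ‖a - b‖ := by
  have hM : 0 ≤ M := (norm_nonneg a).trans ha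
  induction k with
  | zero => simp
  | succ k ih =>
    rcases Nat.eq_zero_or_pos k with hk | hk
    · subst hk; simp
    · have h1 : a ^ (k+1) - b ^ (k+1) = (a ^ k - b ^ k) * a + b ^ k * (a - b) := by ring
      rw [h1]
      calc _ ≤ ‖(a ^ k - b ^ k) * a‖ + ‖b ^ k * (a - b)‖ := norm_add_le _ _
        _ = ‖a ^ k - b ^ k‖ * ‖a‖ + ‖b‖ ^ k * ‖a - b‖ := by rw [norm_mul, norm_mul, norm_pow]
        _ ≤ (k * M ^ (k - 1) * ‖a - b‖) * M + M ^ k * ‖a - b‖ := by gcongr
        _ = (k * (M ^ (k - 1) * M) + M ^ k) * ‖a - b‖ := by ring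
        _ = _ := by
          rw [← pow_succ, Nat.sub_add_cancel hk]
          push_cast
          ring

lemma nl_lip {a b a' b' : ℂ} {M e : ℝ} (ha : ‖a‖ ≤ M) (hb : ‖b‖ ≤ M) (ha' : ‖a'‖ ≤ M)
    (hb' : ‖b'‖ ≤ M) (hab : ‖a - b‖ ≤ e) (hab' : ‖a' - b'‖ ≤ e) (m : ℕ) :
    ‖a * (a * a') ^ m - b * (b * b') ^ m‖ ≤ (2 * m + 1) * M ^ (2 * m) * e := by
  have hM : 0 ≤ M := (norm_nonneg a).trans ha
  have he : 0 ≤ e := (norm_nonneg _).trans hab
  have h1 : a * (a * a') ^ m - b * (b * b') ^ m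
      = (a ^ (m+1) - b ^ (m+1)) * a' ^ m + b ^ (m+1) * (a' ^ m - b' ^ m) := by ring
  rw [h1]
  have h2 := pow_lip ha hb (m+1)
  have h3 := pow_lip ha' hb' m
  rw [Nat.add_sub_cancel] at h2
  calc _ ≤ ‖(a ^ (m+1) - b ^ (m+1)) * a' ^ m‖ + ‖b ^ (m+1) * (a' ^ m - b' ^ m)‖ := norm_add_le _ _
    _ = ‖a ^ (m+1) - b ^ (m+1)‖ * ‖a'‖ ^ m + ‖b‖ ^ (m+1) * ‖a' ^ m - b' ^ m‖ := by
        rw [norm_mul, norm_mul, norm_pow, norm_pow]
    _ ≤ (((m+1 : ℕ) : ℝ) * M ^ m * ‖a - b‖) * M ^ m + M ^ (m+1) * (m * M ^ (m - 1) * ‖a' - b'‖) := by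
        gcongr
    _ ≤ (((m+1 : ℕ) : ℝ) * M ^ m * e) * M ^ m + M ^ (m+1) * (m * M ^ (m - 1) * e) := by gcongr
    _ = _ := by
        rcases Nat.eq_zero_or_pos m with hm | hm
        · subst hm; simp
        · obtain ⟨l, rfl⟩ : ∃ l, m = l + 1 := ⟨m - 1, by omega⟩
          simp only [Nat.add_sub_cancel]
          push_cast; ring

lemma geom_bd {M : ℝ} (h0 : 0 ≤ M) (h1 : M < 1) (k : ℕ) :
    ((k : ℝ) + 1) * M ^ k ≤ 1 / (1 - M) := by
  have h2 : ∑ i ∈ Finset.range (k+1), M ^ i ≤ 1 / (1 - M) := by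
    have h3 : (∑ i ∈ Finset.range (k+1), M ^ i) * (1 - M) = 1 - M ^ (k+1) := by
      have := mul_neg_geom_sum M (k+1)
      rw [mul_comm]; exact this
    have : 0 ≤ M ^ (k+1) := by positivity
    rw [le_div_iff₀ (by linarith), h3]
    linarith
  refine le_trans ?_ h2
  calc ((k:ℝ) + 1) * M ^ k = ∑ i ∈ Finset.range (k+1), M ^ k := by
        rw [Finset.sum_const, Finset.card_range, nsmul_eq_mul]; push_cast; ring
    _ ≤ _ := by
        apply Finset.sum_le_sum
        intro i hi
        exact pow_le_pow_of_le_one h0 h1.le (by rw [Finset.mem_range] at hi; omega)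

end Crest.Agent.R086.BFar
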