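import Mathlib
import Crest.Agent.R086.BFin1

/-!
Row 86 (S0114), Part B, node BFin2 (helper97): the fields `decay2`, `pow_tail`, `q_der` of `BData`
from `BSeq`.
-/

set_option autoImplicit false

open MeasureTheory Set Filter Topology Complex
open scoped ContDiff

namespace Crest.Agent.R086.B

variable {om0 R : ℝ} {U U1 : ℝ → ℂ}

namespace BFin

theorem one_div_le_one (S : BSeq om0 R U U1) {n : ℕ} (hn : S.n1 ≤ n) : (1:ℝ) / n ≤ 1 := by
  have h2 : 2 ≤ n := S.two_le.trans hn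
  have h3 : (1:ℝ) ≤ n := by exact_mod_cast (by omega : 1 ≤ n)
  rw [div_le_one (by linarith)]
  exact h3

theorem decay2 (S : BSeq om0 R U U1) (L : LimitProfile om0 R U) :
    ∃ A : ℝ, 0 < A ∧ ∃ N : ℕ, S.n1 ≤ N ∧ ∀ n, N ≤ n → Even n → ∀ P : Profile n, IsProf S P →
      ∀ r : ℝ, 0 ≤ r → 1 / A ≤ ‖P.q r‖ * (1 + r) ^ ((2 : ℝ) / n) ∧
        ‖P.q r‖ * (1 + r) ^ ((2 : ℝ) / n) ≤ A := by
  obtain ⟨N, hN1, hN⟩ := exists_lower S L
  have hlen := nine_le_len S
  have hcl := S.cl_pos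
  set A : ℝ := 2 * (1 + len S) + 16 + 1 / S.cl with hA
  have hcl' : 0 < 1 / S.cl := by positivity
  have hA0 : 0 < A := by rw [hA]; linarith
  have hA2 : 2 ≤ A := by rw [hA]; linarith
  refine ⟨A, hA0, N, hN1, ?_⟩
  intro n hn he P hP r hr
  have hn1 := hN1.trans hn
  rw [q_eq_of_nonneg hP hr]
  have hinv := one_div_le_one S hn1
  have hn0 : (0:ℝ) ≤ 1 / n := by positivity
  have h2n : (2:ℝ) / n ≤ 1 := by
    have h2 : 2 ≤ n := S.two_le.trans hn1
    have h3 : (2:ℝ) ≤ n := by exact_mod_cast h2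
    rw [div_le_one (by linarith)]
    exact h3
  have h2n0 : (0:ℝ) ≤ 2 / n := by positivity
  rcases le_or_gt r (len S) with h | h
  · have h1 := hN n hn he r ⟨hr, h⟩
    have h2 := norm_v_le_two S hn1 he hr
    have h3 : (1:ℝ) ≤ (1 + r) ^ ((2 : ℝ) / n) := Real.one_le_rpow (by linarith) h2n0
    have h4 : (1 + r) ^ ((2 : ℝ) / n) ≤ 1 + len S := by
      calc (1 + r) ^ ((2 : ℝ) / n) ≤ (1 + r) ^ (1:ℝ) :=
            Real.rpow_le_rpow_of_exponent_le (by linarith) h2n
        _ = 1 + r := Real.rpow_one _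
        _ ≤ 1 + len S := by linarith
    constructor
    · have h5 : 1 / A ≤ 1 / 2 := one_div_le_one_div_of_le (by norm_num) hA2
      nlinarith
    · have h6 : ‖S.v n r‖ * (1 + r) ^ ((2 : ℝ) / n) ≤ 2 * (1 + len S) :=
        mul_le_mul h2 h4 (by linarith) (by norm_num)
      rw [hA]; linarith
  · have h1 : 2 * Real.sqrt S.X < r := by unfold len at h; linarith
    have hX : 0 < r ^ 2 / 4 := by
      have := X_lt_of S h1; have := S.X_ge; linarith
    have hlow := far_lower S hn1 he h1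
    have hup := far_upper S hn1 he h1
    have hr1 : 1 ≤ r := by linarith
    have hrat : (r ^ 2 / 4) ^ (-((1:ℝ) / n)) * (1 + r) ^ ((2 : ℝ) / n)
        = ((1 + r) ^ 2 / (r ^ 2 / 4)) ^ ((1:ℝ) / n) := by
      rw [Real.div_rpow (by positivity) hX.le, Real.rpow_neg hX.le, ← Real.rpow_natCast (1 + r) 2,
        ← Real.rpow_mul (by positivity)]
      rw [inv_mul_eq_div]
      congr 2
      push_cast
      ring
    have hb1 : (1:ℝ) ≤ (1 + r) ^ 2 / (r ^ 2 / 4) := by
      rw [le_div_iff₀ hX]; nlinarith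
    have hb2 : (1 + r) ^ 2 / (r ^ 2 / 4) ≤ 16 := by
      rw [div_le_iff₀ hX]; nlinarith
    have hr2 : (1:ℝ) ≤ ((1 + r) ^ 2 / (r ^ 2 / 4)) ^ ((1:ℝ) / n) := Real.one_le_rpow hb1 hn0
    have hr3 : ((1 + r) ^ 2 / (r ^ 2 / 4)) ^ ((1:ℝ) / n) ≤ 16 := by
      calc ((1 + r) ^ 2 / (r ^ 2 / 4)) ^ ((1:ℝ) / n) ≤ ((1 + r) ^ 2 / (r ^ 2 / 4)) ^ (1:ℝ) :=
            Real.rpow_le_rpow_of_exponent_le hb1 hinv
        _ = (1 + r) ^ 2 / (r ^ 2 / 4) := Real.rpow_one _
        _ ≤ 16 := hb2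
    have hT : 0 ≤ (1 + r) ^ ((2 : ℝ) / n) := by positivity
    constructor
    · have h5 : S.cl * ((r ^ 2 / 4) ^ (-((1:ℝ) / n)) * (1 + r) ^ ((2 : ℝ) / n))
          ≤ ‖S.v n r‖ * (1 + r) ^ ((2 : ℝ) / n) := by
        rw [← mul_assoc]
        exact mul_le_mul_of_nonneg_right hlow hT
      rw [hrat] at h5
      have h6 : 1 / A ≤ S.cl := by
        rw [div_le_iff₀ hA0]
        have : S.cl * (1 / S.cl) = 1 := by field_simp
        have h7 : 1 / S.cl ≤ A := by rw [hA]; linarith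
        nlinarith
      nlinarith
    · have h5 : ‖S.v n r‖ * (1 + r) ^ ((2 : ℝ) / n)
          ≤ S.q * ((r ^ 2 / 4) ^ (-((1:ℝ) / n)) * (1 + r) ^ ((2 : ℝ) / n)) := by
        rw [← mul_assoc]
        exact mul_le_mul_of_nonneg_right hup hT
      rw [hrat] at h5
      have hq := S.q_lt
      have hq0 := S.q_pos
      have h6 : S.q * ((1 + r) ^ 2 / (r ^ 2 / 4)) ^ ((1:ℝ) / n) ≤ 16 := by nlinarith
      rw [hA]; linarith

theorem pow_tail (S : BSeq om0 R U U1) (L : LimitProfile om0 R U) (r1 : ℝ) (hr1 : R < r1) :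
    ∃ c : ℝ, 0 < c ∧ ∃ N : ℕ, S.n1 ≤ N ∧ ∀ n, N ≤ n → Even n → ∀ P : Profile n, IsProf S P →
      ∀ r : ℝ, r1 ≤ r → ‖P.q r‖ ^ n ≤ Real.exp (-c * n) / r ^ 2 := by
  have hR : 0 < R := by have := L.R_lo; linarith
  have hlen := nine_le_len S
  have hu1 : ‖U r1‖ < 1 := L.lt_one r1 hr1
  obtain ⟨N0, hN0⟩ := S.conv ((1 - ‖U r1‖) / 2) (by linarith)
  set m : ℝ := max ((1 + ‖U r1‖) / 2) S.q with hm
  have hm1 : m < 1 := max_lt (by linarith) S.q_lt
  have hm0 : 0 < m := lt_of_lt_of_le S.q_pos (le_max_right _ _)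
  set c : ℝ := -Real.log m / 2 with hc
  have hc0 : 0 < c := by
    have := Real.log_neg hm0 hm1
    rw [hc]; linarith
  set K : ℝ := max ((len S) ^ 2) 4 with hK
  have hexp : Tendsto (fun n : ℕ => Real.exp (c * n)) atTop atTop := by
    refine Real.tendsto_exp_atTop.comp ?_
    exact tendsto_natCast_atTop_atTop.const_mul_atTop hc0
  obtain ⟨N2, hN2⟩ := (hexp.eventually_ge_atTop K).exists_forall_of_atTop
  refine ⟨c, hc0, max (max N0 S.n1) N2, (le_max_right _ _).trans (le_max_left _ _), ?_⟩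
  intro n hn he P hP r hr
  have hn0 : N0 ≤ n := ((le_max_left _ _).trans (le_max_left _ _)).trans hn
  have hn1 : S.n1 ≤ n := ((le_max_right _ _).trans (le_max_left _ _)).trans hn
  have hn2 : K ≤ Real.exp (c * n) := hN2 n ((le_max_right _ _).trans hn)
  have hrpos : 0 < r := by linarith
  rw [q_eq_of_nonneg hP hrpos.le]
  have hmn : m ^ n = Real.exp (-c * n) * Real.exp (-(c * n)) := by
    rw [← Real.exp_add]
    have : -c * n + -(c * n) = n * Real.log m := by rw [hc]; ring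
    rw [this, Real.exp_nat_mul, Real.exp_log hm0]
  have hfin : m ^ n * K ≤ Real.exp (-c * n) := by
    rw [hmn]
    have h1 : Real.exp (-(c * n)) * K ≤ 1 := by
      rw [Real.exp_neg, inv_mul_le_iff₀ (Real.exp_pos _), mul_one]
      exact hn2
    have h2 : 0 < Real.exp (-c * n) := Real.exp_pos _
    nlinarith
  rw [le_div_iff₀ (by positivity)]
  rcases le_or_gt r (len S) with h | h
  · have h1 := (hN0 n hn0 he r ⟨hrpos.le, h⟩).1
    have h2 : ‖U r‖ ≤ ‖U r1‖ := by
      rcases hr.eq_or_lt with h' | h'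
      · rw [h']
      · exact (L.anti (show r1 ∈ Ici R from hr1.le) (show r ∈ Ici R from (hr1.le.trans hr)) h').le
    have h3 : ‖S.v n r‖ ≤ m := by
      have h4 : ‖S.v n r‖ ≤ ‖S.v n r - U r‖ + ‖U r‖ := by
        calc ‖S.v n r‖ = ‖(S.v n r - U r) + U r‖ := by congr 1; ring
          _ ≤ _ := norm_add_le _ _
      have h5 : (1 + ‖U r1‖) / 2 ≤ m := le_max_left _ _
      linarith
    calc ‖S.v n r‖ ^ n * r ^ 2 ≤ m ^ n * K := by
          refine mul_le_mul (pow_le_pow_left₀ (norm_nonneg _) h3 n) ?_ (by positivity) (by positivity)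
          refine le_trans ?_ (le_max_left _ _)
          exact pow_le_pow_left₀ hrpos.le h 2
      _ ≤ _ := hfin
  · have h1 : 2 * Real.sqrt S.X < r := by unfold len at h; linarith
    have hX : 0 < r ^ 2 / 4 := by
      have := X_lt_of S h1; have := S.X_ge; linarith
    have hup := far_upper S hn1 he h1
    have h2n : 2 ≤ n := S.two_le.trans hn1
    have hnr : (n:ℝ) ≠ 0 := by
      have : (0:ℝ) < n := by exact_mod_cast (by omega : 0 < n)
      exact this.ne'
    have h3 : ‖S.v n r‖ ^ n ≤ S.q ^ n * (r ^ 2 / 4)⁻¹ := by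
      calc ‖S.v n r‖ ^ n ≤ (S.q * (r ^ 2 / 4) ^ (-((1:ℝ) / n))) ^ n :=
            pow_le_pow_left₀ (norm_nonneg _) hup n
        _ = S.q ^ n * (r ^ 2 / 4)⁻¹ := by
            rw [mul_pow, ← Real.rpow_natCast ((r ^ 2 / 4) ^ (-((1:ℝ) / n))) n,
              ← Real.rpow_mul hX.le]
            have : -((1:ℝ) / n) * n = -1 := by field_simp
            rw [this, Real.rpow_neg_one]
    calc ‖S.v n r‖ ^ n * r ^ 2 ≤ (S.q ^ n * (r ^ 2 / 4)⁻¹) * r ^ 2 :=
          mul_le_mul_of_nonneg_right h3 (by positivity)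
      _ = S.q ^ n * 4 := by field_simp
      _ ≤ m ^ n * K := by
          refine mul_le_mul (pow_le_pow_left₀ S.q_pos.le (le_max_right _ _) n) (le_max_right _ _)
            (by norm_num) (by positivity)
      _ ≤ _ := hfin

/-! ### derivative bounds -/

/-- first and second derivative of `q` in the far region -/
theorem far_deriv (S : BSeq om0 R U U1) {n : ℕ} (hn : S.n1 ≤ n) (he : Even n) {P : Profile n}
    (hP : IsProf S P) {r : ℝ} (hr : 2 * Real.sqrt S.X < r) :
    deriv P.q r = ((r / 2 : ℝ) : ℂ) * iteratedDeriv 1 (toX (S.v n)) (r ^ 2 / 4) ∧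
    deriv (deriv P.q) r = (1 / 2 : ℂ) * iteratedDeriv 1 (toX (S.v n)) (r ^ 2 / 4)
      + (((r / 2) ^ 2 : ℝ) : ℂ) * iteratedDeriv 2 (toX (S.v n)) (r ^ 2 / 4) := by
  set V := toX (S.v n) with hV
  have hsym := (S.far n hn he).sym.1
  have h4 := four_le_sqrt S
  have hcd : ∀ x, S.X < x → ContDiffAt ℝ ∞ V x := fun x hx =>
    hsym.contDiffAt (Ioi_mem_nhds hx)
  have hd1 : ∀ x, S.X < x → HasDerivAt V (deriv V x) x := fun x hx =>
    ((hcd x hx).differentiableAt (by simp)).hasDerivAt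
  have hd2 : ∀ x, S.X < x → HasDerivAt (deriv V) (deriv (deriv V) x) x := fun x hx => by
    have h1 : ContDiffOn ℝ ∞ (deriv V) (Ioi S.X) := hsym.deriv_of_isOpen isOpen_Ioi (by simp)
    exact ((h1.contDiffAt (Ioi_mem_nhds hx)).differentiableAt (by simp)).hasDerivAt
  have hsq : ∀ r : ℝ, HasDerivAt (fun r : ℝ => r ^ 2 / 4) (r / 2) r := by
    intro r
    have := ((hasDerivAt_pow 2 r).div_const 4)
    refine this.congr_deriv ?_
    push_cast; ring
  have hev : ∀ r : ℝ, 2 * Real.sqrt S.X < r → P.q =ᶠ[𝓝 r] fun t => V (t ^ 2 / 4) := by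
    intro r hr
    have hr0 : 0 < r := by linarith
    filter_upwards [lt_mem_nhds hr0] with t ht
    rw [q_eq_of_nonneg hP ht.le, hV, toX_sq _ ht.le]
  have hq1 : ∀ r : ℝ, 2 * Real.sqrt S.X < r → HasDerivAt P.q (((r / 2 : ℝ) : ℂ) * deriv V (r ^ 2 / 4)) r := by
    intro r hr
    have h1 := (hd1 _ (X_lt_of S hr)).scomp r (hsq r)
    have h2 := h1.congr_of_eventuallyEq (hev r hr)
    refine h2.congr_deriv ?_
    rw [Complex.real_smul]
  have hq1' : deriv P.q =ᶠ[𝓝 r] fun t => ((t / 2 : ℝ) : ℂ) * deriv V (t ^ 2 / 4) := by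
    filter_upwards [lt_mem_nhds hr] with t ht
    exact (hq1 t ht).deriv
  have hq2 : HasDerivAt (deriv P.q) ((1 / 2 : ℂ) * deriv V (r ^ 2 / 4)
      + ((r / 2 : ℝ) : ℂ) * (((r / 2 : ℝ) : ℂ) * deriv (deriv V) (r ^ 2 / 4))) r := by
    have h1 := (hd2 _ (X_lt_of S hr)).scomp r (hsq r)
    have h0 : HasDerivAt (fun t : ℝ => ((t / 2 : ℝ) : ℂ)) (1 / 2 : ℂ) r := by
      have := ((hasDerivAt_id r).div_const 2).ofReal_comp
      refine this.congr_deriv ?_
      push_cast; ring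
    have h2 := h0.mul h1
    have h3 := h2.congr_of_eventuallyEq hq1'
    refine h3.congr_deriv ?_
    simp only [Function.comp, Complex.real_smul]
  have e1 : iteratedDeriv 1 V (r ^ 2 / 4) = deriv V (r ^ 2 / 4) := by rw [iteratedDeriv_one]
  have e2 : iteratedDeriv 2 V (r ^ 2 / 4) = deriv (deriv V) (r ^ 2 / 4) := by
    rw [iteratedDeriv_succ, iteratedDeriv_one]
  refine ⟨?_, ?_⟩
  · rw [(hq1 r hr).deriv, e1]
  · rw [hq2.deriv, e1, e2]
    push_cast
    ring

set_option maxHeartbeats 2000000 in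
theorem q_der (S : BSeq om0 R U U1) (L : LimitProfile om0 R U) :
    ∃ C : ℝ, ∃ N : ℕ, S.n1 ≤ N ∧ ∀ n, N ≤ n → Even n → ∀ P : Profile n, IsProf S P →
      ∀ r : ℝ, 0 ≤ r →
        ‖deriv P.q r‖ ≤ C * (r / (1 + r ^ 2)) * ‖P.q r‖ ∧
        ‖deriv (deriv P.q) r‖ ≤ C / (1 + r ^ 2) * ‖P.q r‖ := by
  obtain ⟨N, hN1, hN⟩ := exists_lower S L
  obtain ⟨M, hM0, N', hN1', hN'⟩ := exists_v1_bound S
  have hlen := nine_le_len S
  have hcl := S.cl_pos
  have h4 := four_le_sqrt S
  set l := len S with hl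
  set K1 : ℝ := 2 * (8 + M) * (1 + l ^ 2) with hK1
  set K2 : ℝ := 2 * (11 * (8 + M) + l ^ 2 * (8 + M) + 6) * (1 + l ^ 2) with hK2
  set K3 : ℝ := 4 * (|S.C 1| / S.cl) with hK3
  set K4 : ℝ := 8 * ((|S.C 1| + |S.C 2|) / S.cl) with hK4
  have hK10 : 0 ≤ K1 := by positivity
  have hK20 : 0 ≤ K2 := by positivity
  have hK30 : 0 ≤ K3 := by positivity
  have hK40 : 0 ≤ K4 := by positivity
  set C : ℝ := K1 + K2 + K3 + K4 with hC
  refine ⟨C, max N N', hN1.trans (le_max_left _ _), ?_⟩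
  intro n hn he P hP
  have hnN : N ≤ n := (le_max_left _ _).trans hn
  have hnN' : N' ≤ n := (le_max_right _ _).trans hn
  have hn1 : S.n1 ≤ n := hN1.trans hnN
  -- positive `r`
  have hpos : ∀ r : ℝ, 0 < r → ‖deriv P.q r‖ ≤ C * (r / (1 + r ^ 2)) * ‖P.q r‖ ∧
        ‖deriv (deriv P.q) r‖ ≤ C / (1 + r ^ 2) * ‖P.q r‖ := by
    intro r hr
    rcases le_or_gt r l with h | h
    · have hlow := hN n hnN he r ⟨hr.le, h⟩
      have hup := norm_v_le_two S hn1 he hr.le
      have hv1 : ‖S.v1 n r‖ ≤ (8 + M) * r := by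
        rcases le_or_gt r 3 with h3 | h3
        · have := S.v1_le n hn1 he r ⟨hr.le, h3⟩
          nlinarith
        · have := hN' n hnN' he r ⟨hr.le, h⟩
          nlinarith
      have hfac : 1 ≤ 2 * (1 + l ^ 2) * (1 / (1 + r ^ 2)) * ‖S.v n r‖ := by
        have h5 : (1:ℝ) ≤ (1 + l ^ 2) * (1 / (1 + r ^ 2)) := by
          rw [mul_one_div, le_div_iff₀ (by positivity), one_mul]
          have : r ^ 2 ≤ l ^ 2 := pow_le_pow_left₀ hr.le h 2
          linarith
        nlinarith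
      rw [deriv_q hP hn1 he hr, (hasDerivAt_deriv_q hP hn1 he hr).deriv, q_eq_of_nonneg hP hr.le]
      constructor
      · calc ‖S.v1 n r‖ ≤ (8 + M) * r * 1 := by rw [mul_one]; exact hv1
          _ ≤ (8 + M) * r * (2 * (1 + l ^ 2) * (1 / (1 + r ^ 2)) * ‖S.v n r‖) :=
              mul_le_mul_of_nonneg_left hfac (by positivity)
          _ = K1 * (r / (1 + r ^ 2)) * ‖S.v n r‖ := by rw [hK1]; ring
          _ ≤ C * (r / (1 + r ^ 2)) * ‖S.v n r‖ := by
              have : K1 ≤ C := by rw [hC]; linarith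
              gcongr
      · have hpl := S.pow_le n hn1 he r hr.le
        have hom := S.om_mem n hn1 he
        have e1 : ‖-(11 / (r : ℂ) + I * r / 2) * S.v1 n r‖ ≤ 11 * (8 + M) + l ^ 2 * (8 + M) := by
          rw [norm_mul, norm_neg]
          have e2 : ‖(11 / (r : ℂ) + I * r / 2)‖ ≤ 11 / r + r / 2 := by
            refine (norm_add_le _ _).trans ?_
            rw [norm_div, norm_div, norm_mul]
            simp [abs_of_pos hr]
          calc ‖(11 / (r : ℂ) + I * r / 2)‖ * ‖S.v1 n r‖ ≤ (11 / r + r / 2) * ((8 + M) * r) := by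
                gcongr
            _ = 11 * (8 + M) + r ^ 2 * (8 + M) / 2 := by field_simp
            _ ≤ 11 * (8 + M) + l ^ 2 * (8 + M) := by
                have : r ^ 2 ≤ l ^ 2 := pow_le_pow_left₀ hr.le h 2
                nlinarith
        have e3 : ‖((S.om n : ℂ) + I * ((1 / n : ℝ) : ℂ)) * S.v n r‖ ≤ 3 := by
          rw [norm_mul]
          have e4 : ‖((S.om n : ℂ) + I * ((1 / n : ℝ) : ℂ))‖ ≤ 3 / 2 := by
            refine (norm_add_le _ _).trans ?_
            rw [norm_mul, Complex.norm_I, one_mul, Complex.norm_real, Complex.norm_real,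
              Real.norm_eq_abs, Real.norm_eq_abs, abs_of_nonneg (by linarith [hom.1] : 0 ≤ S.om n),
              abs_of_nonneg (by positivity)]
            have := one_div_le_one S hn1
            linarith [hom.2]
          nlinarith [norm_nonneg (S.v n r)]
        have e5 : ‖((‖S.v n r‖ ^ n : ℝ) : ℂ) * S.v n r‖ ≤ 3 := by
          rw [norm_mul, Complex.norm_real, Real.norm_of_nonneg (by positivity)]
          nlinarith [norm_nonneg (S.v n r)]
        have e6 : ‖-(11 / (r : ℂ) + I * r / 2) * S.v1 n r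
            - ((S.om n : ℂ) + I * ((1 / n : ℝ) : ℂ)) * S.v n r
            + ((‖S.v n r‖ ^ n : ℝ) : ℂ) * S.v n r‖ ≤ 11 * (8 + M) + l ^ 2 * (8 + M) + 6 := by
          refine (norm_add_le _ _).trans ?_
          refine (add_le_add (norm_sub_le _ _) le_rfl).trans ?_
          linarith
        refine e6.trans ?_
        calc 11 * (8 + M) + l ^ 2 * (8 + M) + 6
            = (11 * (8 + M) + l ^ 2 * (8 + M) + 6) * 1 := by ring
          _ ≤ (11 * (8 + M) + l ^ 2 * (8 + M) + 6) * (2 * (1 + l ^ 2) * (1 / (1 + r ^ 2)) * ‖S.v n r‖) :=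
              mul_le_mul_of_nonneg_left hfac (by positivity)
          _ = K2 / (1 + r ^ 2) * ‖S.v n r‖ := by rw [hK2]; ring
          _ ≤ C / (1 + r ^ 2) * ‖S.v n r‖ := by
              have : K2 ≤ C := by rw [hC]; linarith
              gcongr
    · have h1 : 2 * Real.sqrt S.X < r := by
        have : l = 2 * Real.sqrt S.X + 1 := rfl
        linarith
      have hX := X_lt_of S h1
      have hX17 := S.X_ge
      have hx0 : 0 < r ^ 2 / 4 := by linarith
      obtain ⟨hd1, hd2⟩ := far_deriv S hn1 he hP h1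
      have hsym := (S.far n hn1 he).sym.2
      have hb1 := hsym 1 _ hX
      have hb2 := hsym 2 _ hX
      have hlow := far_lower S hn1 he h1
      have hr1 : 1 ≤ r := by linarith
      rw [hd1, hd2, q_eq_of_nonneg hP hr.le]
      set x : ℝ := r ^ 2 / 4 with hx
      set w : ℝ := x ^ (-((1:ℝ) / n)) with hw
      have hw0 : 0 < w := by positivity
      have hb1' : ‖iteratedDeriv 1 (toX (S.v n)) x‖ ≤ |S.C 1| * (x⁻¹ * w) := by
        refine hb1.trans ?_
        have : x ^ (-(1 / (n:ℝ)) - ((1:ℕ):ℝ)) = x⁻¹ * w := by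
          rw [hw, ← Real.rpow_neg_one, ← Real.rpow_add hx0]
          congr 1; push_cast; ring
        rw [this]
        exact mul_le_mul_of_nonneg_right (le_abs_self _) (by positivity)
      have hb2' : ‖iteratedDeriv 2 (toX (S.v n)) x‖ ≤ |S.C 2| * (x⁻¹ * x⁻¹ * w) := by
        refine hb2.trans ?_
        have : x ^ (-(1 / (n:ℝ)) - ((2:ℕ):ℝ)) = x⁻¹ * x⁻¹ * w := by
          rw [hw, ← Real.rpow_neg_one, ← Real.rpow_add hx0, ← Real.rpow_add hx0]
          congr 1; push_cast; ring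
        rw [this]
        exact mul_le_mul_of_nonneg_right (le_abs_self _) (by positivity)
      have hwle : w ≤ ‖S.v n r‖ / S.cl := by
        rw [le_div_iff₀ hcl, mul_comm]; exact hlow
      have hxi : x⁻¹ = 4 / r ^ 2 := by rw [hx]; field_simp
      have hr2 : 4 / r ^ 2 ≤ 8 / (1 + r ^ 2) := by
        rw [div_le_div_iff₀ (by positivity) (by positivity)]
        nlinarith
      constructor
      · rw [norm_mul, Complex.norm_real, Real.norm_of_nonneg (by positivity)]
        calc r / 2 * ‖iteratedDeriv 1 (toX (S.v n)) x‖ ≤ r / 2 * (|S.C 1| * (x⁻¹ * w)) := by gcongr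
          _ ≤ r / 2 * (|S.C 1| * (8 / (1 + r ^ 2) * (‖S.v n r‖ / S.cl))) := by
              rw [hxi]; gcongr
          _ = K3 * (r / (1 + r ^ 2)) * ‖S.v n r‖ := by rw [hK3]; field_simp; ring
          _ ≤ C * (r / (1 + r ^ 2)) * ‖S.v n r‖ := by
              have : K3 ≤ C := by rw [hC]; linarith
              gcongr
      · have hn2 : ‖(1 / 2 : ℂ) * iteratedDeriv 1 (toX (S.v n)) x
            + (((r / 2) ^ 2 : ℝ) : ℂ) * iteratedDeriv 2 (toX (S.v n)) x‖
            ≤ 1 / 2 * ‖iteratedDeriv 1 (toX (S.v n)) x‖ + (r / 2) ^ 2 * ‖iteratedDeriv 2 (toX (S.v n)) x‖ := by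
          refine (norm_add_le _ _).trans ?_
          rw [norm_mul, norm_mul, Complex.norm_real, Real.norm_of_nonneg (by positivity)]
          simp
        refine hn2.trans ?_
        have hxr : (r / 2) ^ 2 = x := by rw [hx]; ring
        rw [hxr]
        calc 1 / 2 * ‖iteratedDeriv 1 (toX (S.v n)) x‖ + x * ‖iteratedDeriv 2 (toX (S.v n)) x‖
            ≤ 1 / 2 * (|S.C 1| * (x⁻¹ * w)) + x * (|S.C 2| * (x⁻¹ * x⁻¹ * w)) := by gcongr
          _ = (|S.C 1| / 2 + |S.C 2|) * (x⁻¹ * w) := by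
              have : x * x⁻¹ = 1 := mul_inv_cancel₀ hx0.ne'
              calc _ = |S.C 1| / 2 * (x⁻¹ * w) + |S.C 2| * ((x * x⁻¹) * (x⁻¹ * w)) := by ring
                _ = _ := by rw [this]; ring
          _ ≤ (|S.C 1| + |S.C 2|) * (8 / (1 + r ^ 2) * (‖S.v n r‖ / S.cl)) := by
              rw [hxi]
              have h0 := abs_nonneg (S.C 1)
              have h1 := abs_nonneg (S.C 2)
              gcongr
              linarith
          _ = K4 / (1 + r ^ 2) * ‖S.v n r‖ := by rw [hK4]; ring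
          _ ≤ C / (1 + r ^ 2) * ‖S.v n r‖ := by
              have : K4 ≤ C := by rw [hC]; linarith
              gcongr
  intro r hr
  rcases hr.eq_or_lt with h0 | h0
  · subst h0
    have hc0 : Continuous P.q := (contDiff_q P).continuous
    constructor
    · rw [deriv_q_zero hP hn1 he]; simp
    · have t1 : Tendsto (fun r => ‖deriv (deriv P.q) r‖) (𝓝[>] 0) (𝓝 ‖deriv (deriv P.q) 0‖) :=
        ((continuous_deriv_deriv_q P).norm.tendsto 0).mono_left nhdsWithin_le_nhds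
      have t2 : Tendsto (fun r : ℝ => C / (1 + r ^ 2) * ‖P.q r‖) (𝓝[>] 0)
          (𝓝 (C / (1 + (0:ℝ) ^ 2) * ‖P.q 0‖)) := by
        have hcont : Continuous fun r : ℝ => C / (1 + r ^ 2) * ‖P.q r‖ := by
          refine Continuous.mul ?_ hc0.norm
          exact continuous_const.div (by fun_prop) (fun r => by positivity)
        exact (hcont.tendsto 0).mono_left nhdsWithin_le_nhds
      refine le_of_tendsto_of_tendsto t1 t2 ?_
      filter_upwards [self_mem_nhdsWithin] with t ht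
      exact (hpos t ht).2
  · exact hpos r h0

end BFin

end Crest.Agent.R086.B
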