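import Mathlib

/-!
Row 86, part B (helper292): weighted jet norms `J k lam f s x = ∑_{i ≤ k} lam^i/i! |f^(i)(x)|`, which are
submultiplicative; used for the derivative bounds of powers.
-/

set_option autoImplicit false

open Finset
open scoped ContDiff

namespace Crest.Agent.R086.BJ

/-- weighted jet norm of `f` at `x` (derivatives within `s`) -/
noncomputable def J (k : ℕ) (lam : ℝ) (f : ℝ → ℂ) (s : Set ℝ) (x : ℝ) : ℝ :=
  ∑ i ∈ range (k + 1), lam ^ i / (i.factorial : ℝ) * ‖iteratedDerivWithin i f s x‖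

variable {k : ℕ} {lam : ℝ} {f g : ℝ → ℂ} {s : Set ℝ} {x : ℝ}

theorem J_nonneg (hl : 0 ≤ lam) : 0 ≤ J k lam f s x :=
  sum_nonneg fun i _ => by positivity

theorem le_J (hl : 0 < lam) {j : ℕ} (hj : j ≤ k) :
    ‖iteratedDerivWithin j f s x‖ ≤ (j.factorial : ℝ) / lam ^ j * J k lam f s x := by
  have h1 : lam ^ j / (j.factorial : ℝ) * ‖iteratedDerivWithin j f s x‖ ≤ J k lam f s x :=
    single_le_sum (f := fun i => lam ^ i / (i.factorial : ℝ) * ‖iteratedDerivWithin i f s x‖)
      (fun i _ => by positivity) (mem_range.2 (Nat.lt_succ_of_le hj))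
  have hfac : (0 : ℝ) < (j.factorial : ℝ) := by exact_mod_cast j.factorial_pos
  have hlj : 0 < lam ^ j := by positivity
  have h2 : (j.factorial : ℝ) / lam ^ j * (lam ^ j / (j.factorial : ℝ) *
      ‖iteratedDerivWithin j f s x‖) = ‖iteratedDerivWithin j f s x‖ := by
    field_simp
  calc ‖iteratedDerivWithin j f s x‖ = (j.factorial : ℝ) / lam ^ j * (lam ^ j / (j.factorial : ℝ) *
      ‖iteratedDerivWithin j f s x‖) := h2.symm
    _ ≤ _ := mul_le_mul_of_nonneg_left h1 (by positivity)

theorem J_congr (h : Set.EqOn f g s) (hx : x ∈ s) : J k lam f s x = J k lam g s x := by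
  refine sum_congr rfl fun i _ => ?_
  rw [iteratedDerivWithin_congr h hx]

theorem J_add (hl : 0 ≤ lam) (hs : UniqueDiffOn ℝ s) (hx : x ∈ s) (hf : ContDiffOn ℝ ∞ f s)
    (hg : ContDiffOn ℝ ∞ g s) :
    J k lam (fun y => f y + g y) s x ≤ J k lam f s x + J k lam g s x := by
  unfold J
  rw [← sum_add_distrib]
  refine sum_le_sum fun i _ => ?_
  rw [← mul_add]
  refine mul_le_mul_of_nonneg_left ?_ (by positivity)
  rw [iteratedDerivWithin_fun_add hx hs ((hf x hx).of_le (by exact_mod_cast le_top))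
    ((hg x hx).of_le (by exact_mod_cast le_top))]
  exact norm_add_le _ _

theorem J_mul (hl : 0 ≤ lam) (hs : UniqueDiffOn ℝ s) (hx : x ∈ s) (hf : ContDiffOn ℝ ∞ f s)
    (hg : ContDiffOn ℝ ∞ g s) :
    J k lam (fun y => f y * g y) s x ≤ J k lam f s x * J k lam g s x := by
  set F : ℕ → ℝ := fun i => lam ^ i / (i.factorial : ℝ) * ‖iteratedDerivWithin i f s x‖ with hF
  set G : ℕ → ℝ := fun i => lam ^ i / (i.factorial : ℝ) * ‖iteratedDerivWithin i g s x‖ with hG
  have hF0 : ∀ i, 0 ≤ F i := fun i => by simp only [hF]; positivity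
  have hG0 : ∀ i, 0 ≤ G i := fun i => by simp only [hG]; positivity
  have h1 : J k lam (fun y => f y * g y) s x ≤
      ∑ m ∈ range (k + 1), ∑ i ∈ range (m + 1), F i * G (m - i) := by
    refine sum_le_sum fun m _ => ?_
    have e : iteratedDerivWithin m (fun y => f y * g y) s x = ∑ i ∈ range (m + 1),
      (m.choose i : ℂ) * iteratedDerivWithin i f s x * iteratedDerivWithin (m - i) g s x :=
      iteratedDerivWithin_mul hx hs ((hf x hx).of_le (by exact_mod_cast le_top))
        ((hg x hx).of_le (by exact_mod_cast le_top))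
    rw [e]
    calc lam ^ m / (m.factorial : ℝ) * ‖∑ i ∈ range (m + 1),
          (m.choose i : ℂ) * iteratedDerivWithin i f s x * iteratedDerivWithin (m - i) g s x‖
        ≤ lam ^ m / (m.factorial : ℝ) * ∑ i ∈ range (m + 1),
          ‖(m.choose i : ℂ) * iteratedDerivWithin i f s x * iteratedDerivWithin (m - i) g s x‖ :=
          mul_le_mul_of_nonneg_left (norm_sum_le _ _) (by positivity)
      _ = ∑ i ∈ range (m + 1), F i * G (m - i) := by
          rw [mul_sum]
          refine sum_congr rfl fun i hi => ?_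
          have him : i ≤ m := Nat.lt_succ_iff.1 (mem_range.1 hi)
          rw [norm_mul, norm_mul, Complex.norm_natCast, Nat.cast_choose ℝ him]
          simp only [hF, hG]
          have e1 : lam ^ m = lam ^ i * lam ^ (m - i) := by
            rw [← pow_add]; congr 1; omega
          rw [e1]
          have f1 : (m.factorial : ℝ) ≠ 0 := by exact_mod_cast m.factorial_ne_zero
          have f2 : (i.factorial : ℝ) ≠ 0 := by exact_mod_cast i.factorial_ne_zero
          have f3 : ((m - i).factorial : ℝ) ≠ 0 := by exact_mod_cast (m - i).factorial_ne_zero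
          field_simp
  refine h1.trans ?_
  rw [sum_range_diag_flip (k + 1) (fun i j => F i * G j)]
  have h2 : J k lam f s x * J k lam g s x = ∑ i ∈ range (k + 1), ∑ j ∈ range (k + 1), F i * G j := by
    rw [← sum_mul_sum]; rfl
  rw [h2]
  refine sum_le_sum fun i _ => ?_
  refine sum_le_sum_of_subset_of_nonneg ?_ fun j _ _ => mul_nonneg (hF0 i) (hG0 j)
  exact range_mono (by omega)

theorem J_const (c : ℂ) : J k lam (fun _ => c) s x = ‖c‖ := by
  unfold J
  rw [sum_range_succ', sum_eq_zero]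
  · simp
  · intro i _
    rw [iteratedDerivWithin_const]
    simp

theorem J_pow (hl : 0 ≤ lam) (hs : UniqueDiffOn ℝ s) (hx : x ∈ s) (hf : ContDiffOn ℝ ∞ f s)
    (m : ℕ) : J k lam (fun y => f y ^ m) s x ≤ J k lam f s x ^ m := by
  induction m with
  | zero => simp only [pow_zero]; rw [J_const]; simp
  | succ m ih =>
    have h1 : J k lam (fun y => f y ^ (m + 1)) s x ≤ J k lam (fun y => f y ^ m) s x *
        J k lam f s x := by
      have := J_mul (k := k) hl hs hx (hf.pow m) hf
      simpa only [pow_succ] using this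
    calc _ ≤ _ := h1
      _ ≤ J k lam f s x ^ m * J k lam f s x := mul_le_mul_of_nonneg_right ih (J_nonneg hl)
      _ = _ := by rw [pow_succ]

theorem contDiffOn_conj (hf : ContDiffOn ℝ ∞ f s) :
    ContDiffOn ℝ ∞ (fun y => (starRingEnd ℂ) (f y)) s :=
  Complex.conjCLE.contDiff.comp_contDiffOn hf

theorem norm_iteratedDerivWithin_conj (i : ℕ) (hs : UniqueDiffOn ℝ s) (hx : x ∈ s) :
    ‖iteratedDerivWithin i (fun y => (starRingEnd ℂ) (f y)) s x‖ =
      ‖iteratedDerivWithin i f s x‖ := by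
  rw [← norm_iteratedFDerivWithin_eq_norm_iteratedDerivWithin,
    ← norm_iteratedFDerivWithin_eq_norm_iteratedDerivWithin]
  exact Complex.conjLIE.norm_iteratedFDerivWithin_comp_left f hs hx i

theorem J_conj (hs : UniqueDiffOn ℝ s) (hx : x ∈ s) :
    J k lam (fun y => (starRingEnd ℂ) (f y)) s x = J k lam f s x := by
  refine sum_congr rfl fun i _ => ?_
  rw [norm_iteratedDerivWithin_conj i hs hx]

/-- a jet with first entry at most `M` and the others at most `D` -/
theorem J_le (hl : 0 ≤ lam) (hl1 : lam ≤ 1) {M D : ℝ} (hM : ‖f x‖ ≤ M)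
    (hD : ∀ i, 1 ≤ i → i ≤ k → ‖iteratedDerivWithin i f s x‖ ≤ D) :
    J k lam f s x ≤ M + k * (lam * D) := by
  unfold J
  rw [sum_range_succ']
  have h1 : ∑ i ∈ range k, lam ^ (i + 1) / ((i + 1).factorial : ℝ) *
      ‖iteratedDerivWithin (i + 1) f s x‖ ≤ ∑ i ∈ range k, lam * D := by
    refine sum_le_sum fun i hi => ?_
    have h2 := hD (i + 1) (by omega) (by have := mem_range.1 hi; omega)
    have h3 : lam ^ (i + 1) / ((i + 1).factorial : ℝ) ≤ lam := by
      have hf1 : (1 : ℝ) ≤ ((i + 1).factorial : ℝ) := by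
        exact_mod_cast Nat.succ_le_of_lt (Nat.factorial_pos _)
      calc lam ^ (i + 1) / ((i + 1).factorial : ℝ) ≤ lam ^ (i + 1) :=
            div_le_self (by positivity) hf1
        _ = lam ^ i * lam := pow_succ _ _
        _ ≤ 1 * lam := mul_le_mul_of_nonneg_right (pow_le_one₀ hl hl1) hl
        _ = lam := one_mul _
    exact mul_le_mul h3 h2 (norm_nonneg _) hl
  rw [sum_const, card_range, nsmul_eq_mul] at h1
  simp only [pow_zero, Nat.factorial_zero, Nat.cast_one, div_one, one_mul,
    iteratedDerivWithin_zero] 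
  linarith

/-- all derivatives at most `D` -/
theorem J_le' (hl : 0 ≤ lam) (hl1 : lam ≤ 1) {D : ℝ}
    (hD : ∀ i ≤ k, ‖iteratedDerivWithin i f s x‖ ≤ D) : J k lam f s x ≤ (k + 1) * D := by
  have hD0 : 0 ≤ D := (norm_nonneg _).trans (hD 0 (Nat.zero_le _))
  have h1 := J_le (k := k) (lam := lam) (f := f) (s := s) (x := x) hl hl1 (M := D) (D := D)
    (by simpa using hD 0 (Nat.zero_le _)) (fun i _ hi => hD i hi)
  have h2 : (k : ℝ) * (lam * D) ≤ k * (1 * D) := by gcongr
  linarith

/-- a function smooth near a compact interval has bounded derivatives on it -/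
theorem bounded_jet {a b : ℝ} {U : Set ℝ} (hU : IsOpen U) (hab : Set.Icc a b ⊆ U) (hs : IsOpen s)
    (hsub : s ⊆ Set.Icc a b) (hg : ContDiffOn ℝ ∞ g U) (k : ℕ) :
    ∃ K : ℝ, 0 ≤ K ∧ ∀ i ≤ k, ∀ x ∈ s, ‖iteratedDerivWithin i g s x‖ ≤ K := by
  have h1 : ∀ i : ℕ, ∃ K : ℝ, ∀ x ∈ Set.Icc a b, ‖iteratedDerivWithin i g U x‖ ≤ K := fun i =>
    isCompact_Icc.exists_bound_of_continuousOn
      ((hg.continuousOn_iteratedDerivWithin (by exact_mod_cast le_top) hU.uniqueDiffOn).mono hab)
  choose K hK using h1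
  refine ⟨∑ i ∈ range (k + 1), |K i|, sum_nonneg fun i _ => abs_nonneg _, fun i hi x hx => ?_⟩
  have e : iteratedDerivWithin i g s x = iteratedDerivWithin i g U x := by
    rw [iteratedDerivWithin_of_isOpen hs hx, iteratedDerivWithin_of_isOpen hU (hab (hsub hx))]
  rw [e]
  calc _ ≤ K i := hK i x (hsub hx)
    _ ≤ |K i| := le_abs_self _
    _ ≤ _ := single_le_sum (f := fun i => |K i|) (fun i _ => abs_nonneg _)
        (mem_range.2 (Nat.lt_succ_of_le hi))

end Crest.Agent.R086.BJ
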