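import Crest.Agent.R086.BMono

/-!
Row 86, part B: (I3), the obstacle limit of the interior problem, uniformly in the parameters.
-/

set_option autoImplicit false

open Complex Set
open scoped ComplexConjugate

namespace Crest.Agent.R086.B

theorem pow_bound (m : ℕ) {x : ℝ} (h0 : 0 ≤ x) (h1 : x ≤ 1) : x ^ m * (1 - x) ≤ 1 / (m + 1) := by
  have h2 : (∑ i ∈ Finset.range (m + 1), x ^ i) * (1 - x) = 1 - x ^ (m + 1) := geom_sum_mul_neg x (m + 1)
  have h3 : ((m : ℝ) + 1) * x ^ m ≤ ∑ i ∈ Finset.range (m + 1), x ^ i := by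
    have : ∑ _i ∈ Finset.range (m + 1), x ^ m ≤ ∑ i ∈ Finset.range (m + 1), x ^ i := by
      refine Finset.sum_le_sum fun i hi => ?_
      exact pow_le_pow_of_le_one h0 h1 (by have := Finset.mem_range.1 hi; omega)
    rw [Finset.sum_const, Finset.card_range, nsmul_eq_mul] at this
    push_cast at this
    exact this
  have h4 : ((m : ℝ) + 1) * x ^ m * (1 - x) ≤ 1 := by
    have h5 : ((m : ℝ) + 1) * x ^ m * (1 - x) ≤ (∑ i ∈ Finset.range (m + 1), x ^ i) * (1 - x) :=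
      mul_le_mul_of_nonneg_right h3 (by linarith)
    rw [h2] at h5
    have : 0 ≤ x ^ (m + 1) := by positivity
    linarith
  rw [le_div_iff₀ (by positivity)]
  linarith

theorem norm_sq_re_im (v : ℂ) : v.re ^ 2 + v.im ^ 2 = ‖v‖ ^ 2 := by
  rw [← Complex.normSq_eq_norm_sq, Complex.normSq_apply]; ring

theorem norm6 (a b c d e f : ℂ) :
    ‖a - b - c + ((d - e) - f)‖ ≤ ‖a‖ + ‖b‖ + ‖c‖ + ‖d‖ + ‖e‖ + ‖f‖ := by
  have h1 := norm_add_le (a - b - c) ((d - e) - f)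
  have h2 := norm_sub_le (a - b) c
  have h3 := norm_sub_le a b
  have h4 := norm_sub_le (d - e) f
  have h5 := norm_sub_le d e
  linarith

/-- outside the core -/
theorem off_core (n : ℕ) {v V : ℂ} (hV : ‖V‖ ≤ 1) :
    -(1 / ((n : ℝ) + 2)) ≤ (v - V).re * (((‖v‖ ^ n : ℝ) : ℂ) * v).re +
      (v - V).im * (((‖v‖ ^ n : ℝ) : ℂ) * v).im := by
  set x := ‖v‖ with hx
  have hx0 : 0 ≤ x := norm_nonneg _
  have hcs : V.re * v.re + V.im * v.im ≤ x := by
    have h1 : V.re * v.re + V.im * v.im = (conj V * v).re := by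
      rw [Complex.mul_re, Complex.conj_re, Complex.conj_im]; ring
    rw [h1]
    refine (Complex.re_le_norm _).trans ?_
    rw [norm_mul, Complex.norm_conj]
    calc ‖V‖ * x ≤ 1 * x := by gcongr
      _ = x := one_mul x
  have e1 : (((x ^ n : ℝ) : ℂ) * v).re = x ^ n * v.re := Complex.re_ofReal_mul _ _
  have e2 : (((x ^ n : ℝ) : ℂ) * v).im = x ^ n * v.im := Complex.im_ofReal_mul _ _
  rw [e1, e2, Complex.sub_re, Complex.sub_im]
  have e3 : (v.re - V.re) * (x ^ n * v.re) + (v.im - V.im) * (x ^ n * v.im) =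
      x ^ n * ((v.re ^ 2 + v.im ^ 2) - (V.re * v.re + V.im * v.im)) := by ring
  rw [e3, norm_sq_re_im, ← hx]
  have h2 : x ^ n * (x ^ 2 - x) ≤ x ^ n * (x ^ 2 - (V.re * v.re + V.im * v.im)) := by gcongr
  refine le_trans ?_ h2
  have e4 : x ^ n * (x ^ 2 - x) = -(x ^ (n + 1) * (1 - x)) := by ring
  rw [e4]
  rcases le_total x 1 with h | h
  · have := pow_bound (n + 1) hx0 h
    push_cast at this
    have e5 : (n : ℝ) + 1 + 1 = n + 2 := by ring
    rw [e5] at this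
    linarith
  · have h3 : 0 ≤ x ^ (n + 1) * (x - 1) := mul_nonneg (by positivity) (by linarith)
    have h4 : (0 : ℝ) ≤ 1 / ((n : ℝ) + 2) := by positivity
    nlinarith

/-- inside the core -/
theorem on_core (n : ℕ) {v : ℂ} {om : ℝ} (h0 : 0 ≤ om) (h1 : om ≤ 1) :
    -(1 / ((n : ℝ) + 2)) ≤ (v - 1).re * (((‖v‖ ^ n : ℝ) : ℂ) * v - (om : ℂ)).re +
      (v - 1).im * (((‖v‖ ^ n : ℝ) : ℂ) * v - (om : ℂ)).im := by
  set x := ‖v‖ with hx
  have hx0 : 0 ≤ x := norm_nonneg _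
  have e1 : (((x ^ n : ℝ) : ℂ) * v - (om : ℂ)).re = x ^ n * v.re - om := by
    rw [Complex.sub_re, Complex.re_ofReal_mul, Complex.ofReal_re]
  have e2 : (((x ^ n : ℝ) : ℂ) * v - (om : ℂ)).im = x ^ n * v.im := by
    rw [Complex.sub_im, Complex.im_ofReal_mul, Complex.ofReal_im, sub_zero]
  rw [e1, e2, Complex.sub_re, Complex.sub_im, Complex.one_re, Complex.one_im]
  have e3 : (v.re - 1) * (x ^ n * v.re - om) + (v.im - 0) * (x ^ n * v.im) =
      x ^ n * (v.re ^ 2 + v.im ^ 2) + om - (x ^ n + om) * v.re := by ring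
  rw [e3, norm_sq_re_im, ← hx]
  have hre : v.re ≤ x := Complex.re_le_norm v
  have h2 : (x ^ n + om) * v.re ≤ (x ^ n + om) * x := by gcongr
  have h3 : (x ^ (n + 1) - om) * (x - 1) ≤ x ^ n * x ^ 2 + om - (x ^ n + om) * v.re := by
    have : (x ^ (n + 1) - om) * (x - 1) = x ^ n * x ^ 2 + om - (x ^ n + om) * x := by ring
    linarith
  refine le_trans ?_ h3
  have h4 : (0 : ℝ) ≤ 1 / ((n : ℝ) + 2) := by positivity
  rcases le_total x 1 with h | h
  · have := pow_bound (n + 1) hx0 h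
    push_cast at this
    have e5 : (n : ℝ) + 1 + 1 = n + 2 := by ring
    rw [e5] at this
    have h6 : 0 ≤ om * (1 - x) := mul_nonneg h0 (by linarith)
    nlinarith
  · have h7 : 1 ≤ x ^ (n + 1) := one_le_pow₀ h
    have : 0 ≤ (x ^ (n + 1) - om) * (x - 1) := mul_nonneg (by linarith) (by linarith)
    linarith

/-- **(I3)** the obstacle limit: uniform convergence in `C¹[0, ρ]` -/
theorem limit {ρ M η : ℝ} (hρ2 : ρ ≤ 18 / 5) (hM : 0 ≤ M) (hη : 0 < η) :
    ∃ n0 : ℕ, ∃ δ : ℝ, 0 < δ ∧ ∀ n : ℕ, n0 ≤ n → ∀ om ∈ Icc (0 : ℝ) (1 / 2), ∀ R1 ∈ Icc (3 : ℝ) ρ,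
      ∀ V V1 v v1 : ℝ → ℂ, ContinuousOn V (Icc 0 ρ) → ContinuousOn V1 (Icc 0 ρ) →
      (∀ r ∈ Icc 0 R1, V r = 1 ∧ V1 r = 0) → IsLin om V V1 (Ioo R1 ρ) →
      (∀ r ∈ Icc 0 ρ, ‖V r‖ ≤ 1) → (∀ r ∈ Icc 0 ρ, ‖V1 r‖ ≤ M) →
      ContinuousOn v (Icc 0 ρ) → ContinuousOn v1 (Icc 0 ρ) → IsSol n om (1 / n) v v1 (Ioo 0 ρ) →
      (∀ r ∈ Icc 0 ρ, ‖v r‖ ^ n ≤ 3 / 2) → (∀ r ∈ Icc 0 ρ, ‖v1 r‖ ≤ 8 * r) →
      ‖v ρ - V ρ‖ ≤ δ → ∀ r ∈ Icc 0 ρ, ‖v r - V r‖ ≤ η ∧ ‖v1 r - V1 r‖ ≤ η := by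
  -- constants
  obtain ⟨L, hL⟩ : ∃ L : ℝ, L = 150 + 6 * M := ⟨_, rfl⟩
  have hL0 : 0 < L := by rw [hL]; linarith
  obtain ⟨h, hh⟩ : ∃ h : ℝ, h = min 1 (η / (2 * L)) := ⟨_, rfl⟩
  have hh0 : 0 < h := by rw [hh]; positivity
  have hh1 : h ≤ 1 := by rw [hh]; exact min_le_left _ _
  have hhL : L * h ≤ η / 2 := by
    have : h ≤ η / (2 * L) := by rw [hh]; exact min_le_right _ _
    calc L * h ≤ L * (η / (2 * L)) := by gcongr
      _ = η / 2 := by field_simp
  obtain ⟨d, hd⟩ : ∃ d : ℝ, d = min η (η * h / 4) := ⟨_, rfl⟩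
  have hd0 : 0 < d := by rw [hd]; positivity
  have hdη : d ≤ η := by rw [hd]; exact min_le_left _ _
  have hdh : 2 * d / h ≤ η / 2 := by
    have : d ≤ η * h / 4 := by rw [hd]; exact min_le_right _ _
    rw [div_le_iff₀ hh0]; linarith
  obtain ⟨B, hB⟩ : ∃ B : ℝ, B = 29 + M := ⟨_, rfl⟩
  have hB0 : 0 < B := by rw [hB]; linarith
  obtain ⟨s, hs⟩ : ∃ s : ℝ, s = min 1 (d / (2 * B)) := ⟨_, rfl⟩
  have hs0 : 0 < s := by rw [hs]; positivity
  have hs1 : s ≤ 1 := by rw [hs]; exact min_le_left _ _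
  have hsB : B * s ≤ d / 2 := by
    have : s ≤ d / (2 * B) := by rw [hs]; exact min_le_right _ _
    calc B * s ≤ B * (d / (2 * B)) := by gcongr
      _ = d / 2 := by field_simp
  -- smallness
  obtain ⟨n0, hn0⟩ := exists_nat_gt (200000 * 8 / (s ^ 10 * d ^ 2))
  obtain ⟨δ, hδ⟩ : ∃ δ : ℝ, δ = s ^ 5 * d / (3 * (18 / 5) ^ 5) := ⟨_, rfl⟩
  have hδ0 : 0 < δ := by rw [hδ]; positivity
  refine ⟨max n0 1, δ, hδ0, ?_⟩
  intro n hn om hom R1 hR1 V V1 v v1 hV hV1 hVc hVl hVb hV1b hv hv1 hsol hP hv1b hbd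
  have hρ3 : 3 ≤ ρ := hR1.1.trans hR1.2
  have hρ : 0 < ρ := by linarith
  have hn1 : 1 ≤ n := (le_max_right _ _).trans hn
  have hnn0 : n0 ≤ n := (le_max_left _ _).trans hn
  have hnpos : (0 : ℝ) < n := by exact_mod_cast hn1
  have hvb : ∀ r ∈ Icc 0 ρ, ‖v r‖ ≤ 3 / 2 := by
    intro r hr
    by_contra hc
    rw [not_le] at hc
    have h1 := hP r hr
    have h2 : ‖v r‖ ≤ ‖v r‖ ^ n := le_self_pow₀ (by linarith) (by omega)
    linarith
  have hv32 : ∀ r ∈ Icc 0 ρ, ‖((‖v r‖ ^ n : ℝ) : ℂ) * v r‖ ≤ 9 / 4 := by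
    intro r hr
    rw [norm_mul, Complex.norm_real, Real.norm_eq_abs, abs_of_nonneg (by positivity)]
    calc ‖v r‖ ^ n * ‖v r‖ ≤ (3 / 2) * (3 / 2) := by
          gcongr
          · exact hP r hr
          · exact hvb r hr
      _ = 9 / 4 := by norm_num
  -- derivative facts for V
  have hV1d : ∀ r ∈ Ioo 0 ρ, r ≠ R1 → HasDerivAt V (V1 r) r ∧
      HasDerivAt V1 (-(11 / (r : ℂ) + I * r / 2) * V1 r - (om : ℂ) * V r +
        (if r < R1 then (om : ℂ) else 0)) r := by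
    intro r hr hrR
    rcases lt_or_gt_of_ne hrR with h1 | h1
    · have h2 : V =ᶠ[nhds r] fun _ => 1 := by
        filter_upwards [isOpen_Ioo.mem_nhds ⟨hr.1, h1⟩] with x hx
        exact (hVc x ⟨hx.1.le, hx.2.le⟩).1
      have h3 : V1 =ᶠ[nhds r] fun _ => 0 := by
        filter_upwards [isOpen_Ioo.mem_nhds ⟨hr.1, h1⟩] with x hx
        exact (hVc x ⟨hx.1.le, hx.2.le⟩).2
      have h4 := hVc r ⟨hr.1.le, h1.le⟩
      refine ⟨?_, ?_⟩
      · rw [h4.2]
        exact (hasDerivAt_const r (1 : ℂ)).congr_of_eventuallyEq h2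
      · have e : (-(11 / (r : ℂ) + I * r / 2) * V1 r - (om : ℂ) * V r +
          (if r < R1 then (om : ℂ) else 0)) = 0 := by
          rw [if_pos h1, h4.1, h4.2]; ring
        rw [e]
        exact (hasDerivAt_const r (0 : ℂ)).congr_of_eventuallyEq h3
    · have h2 := hVl r ⟨h1, hr.2⟩
      refine ⟨h2.1, ?_⟩
      rw [if_neg (not_lt.2 h1.le), add_zero]
      exact h2.2
  -- comparison
  have hN : ∀ r ∈ Ioo 0 ρ, r ≠ R1 → HasDerivAt (fun t => v t - V t) (v1 r - V1 r) r ∧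
      HasDerivAt (fun t => v1 t - V1 t) (-(11 / (r : ℂ) + I * r / 2) * (v1 r - V1 r) -
        (om : ℂ) * (v r - V r) + ((((‖v r‖ ^ n : ℝ) : ℂ) * v r - (if r < R1 then (om : ℂ) else 0)) -
          I * ((1 / n : ℝ) : ℂ) * v r)) r := by
    intro r hr hrR
    obtain ⟨a1, a2⟩ := hV1d r hr hrR
    obtain ⟨b1, b2⟩ := hsol r hr
    refine ⟨b1.sub a1, (b2.sub a2).congr_deriv ?_⟩
    ring
  have hcmp := core_cmp (e := fun r => v r - V r) (e1 := fun r => v1 r - V1 r)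
    (N := fun r => (((‖v r‖ ^ n : ℝ) : ℂ) * v r - (if r < R1 then (om : ℂ) else 0)) -
          I * ((1 / n : ℝ) : ℂ) * v r) (om := om) (η := 3 / n) (c := R1) hρ hρ2 hom.2
    (by positivity) (hv.sub hV) (hv1.sub hV1) hN ?_
  swap
  · intro r hr hrR
    have hr' := Ioo_subset_Icc_self hr
    have hvr := hvb r hr'
    have hVr := hVb r hr'
    -- the eps part
    have h1 : -(3 / 2 * (1 / (n : ℝ))) ≤ (v r - V r).re * (-(I * ((1 / n : ℝ) : ℂ) * v r)).re +
        (v r - V r).im * (-(I * ((1 / n : ℝ) : ℂ) * v r)).im := by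
      have e1 : (v r - V r).re * (-(I * ((1 / n : ℝ) : ℂ) * v r)).re +
        (v r - V r).im * (-(I * ((1 / n : ℝ) : ℂ) * v r)).im =
          -((1 / (n : ℝ)) * (conj (V r) * v r).im) := by
        simp only [Complex.neg_re, Complex.neg_im, Complex.mul_re, Complex.mul_im, Complex.I_re,
          Complex.I_im, Complex.ofReal_re, Complex.ofReal_im, Complex.sub_re, Complex.sub_im,
          Complex.conj_re, Complex.conj_im]
        ring
      rw [e1, neg_le_neg_iff, mul_comm (3 / 2 : ℝ)]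
      have h2 : (conj (V r) * v r).im ≤ 3 / 2 := by
        refine (Complex.im_le_norm _).trans ?_
        rw [norm_mul, Complex.norm_conj]
        calc ‖V r‖ * ‖v r‖ ≤ 1 * (3 / 2) := by gcongr
          _ = 3 / 2 := one_mul _
      exact mul_le_mul_of_nonneg_left h2 (by positivity)
    have h2 : -(1 / ((n : ℝ) + 2)) ≤ (v r - V r).re * (((‖v r‖ ^ n : ℝ) : ℂ) * v r -
          (if r < R1 then (om : ℂ) else 0)).re +
        (v r - V r).im * (((‖v r‖ ^ n : ℝ) : ℂ) * v r - (if r < R1 then (om : ℂ) else 0)).im := by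
      split_ifs with hlt
      · have := on_core n (v := v r) hom.1 (hom.2.trans (by norm_num))
        rw [(hVc r ⟨hr.1.le, hlt.le⟩).1]
        exact this
      · have := off_core n (v := v r) hVr
        rw [sub_zero]
        exact this
    have h3 : 1 / ((n : ℝ) + 2) ≤ 1 / n := one_div_le_one_div_of_le hnpos (by linarith)
    have h4 : 3 / (n : ℝ) = 3 * (1 / n) := by ring
    have h5 : (0 : ℝ) ≤ 1 / n := by positivity
    show -(3 / (n : ℝ)) ≤ (v r - V r).re * ((((‖v r‖ ^ n : ℝ) : ℂ) * v r -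
          (if r < R1 then (om : ℂ) else 0)) - I * ((1 / n : ℝ) : ℂ) * v r).re +
        (v r - V r).im * ((((‖v r‖ ^ n : ℝ) : ℂ) * v r - (if r < R1 then (om : ℂ) else 0)) -
          I * ((1 / n : ℝ) : ℂ) * v r).im
    rw [sub_eq_add_neg (((‖v r‖ ^ n : ℝ) : ℂ) * v r - (if r < R1 then (om : ℂ) else 0)),
      Complex.add_re, Complex.add_im, mul_add, mul_add]
    linarith
  -- pointwise bound away from 0
  have hbig : ∀ r ∈ Icc s ρ, ‖v r - V r‖ ≤ d / 2 := by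
    intro r hr
    have hr0 : 0 < r := hs0.trans_le hr.1
    have h1 := hcmp r ⟨hr0.le, hr.2⟩
    have h2 : s ^ 10 * ‖v r - V r‖ ^ 2 ≤ r ^ 10 * ‖v r - V r‖ ^ 2 := by
      have := hr.1
      gcongr
    have h3 : ρ ^ 10 * ‖v ρ - V ρ‖ ^ 2 ≤ s ^ 10 * d ^ 2 / 9 := by
      have h4 : ρ ^ 10 * ‖v ρ - V ρ‖ ^ 2 ≤ (18 / 5) ^ 10 * δ ^ 2 := by gcongr
      refine h4.trans (le_of_eq ?_)
      rw [hδ]
      field_simp
      ring
    have h5 : 3 / (n : ℝ) * ρ ^ 12 / 72 ≤ s ^ 10 * d ^ 2 / 8 := by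
      have h6 : ρ ^ 12 ≤ (18 / 5) ^ 12 := by gcongr
      have h7 : (200000 * 8 / (s ^ 10 * d ^ 2) : ℝ) < n := hn0.trans_le (by exact_mod_cast hnn0)
      have h8 : 200000 * 8 < n * (s ^ 10 * d ^ 2) := by
        rwa [div_lt_iff₀ (by positivity)] at h7
      have h9 : 3 / (n : ℝ) * ρ ^ 12 / 72 ≤ 200000 / n := by
        have : 3 / (n : ℝ) * ρ ^ 12 / 72 = (3 * ρ ^ 12 / 72) / n := by ring
        rw [this]
        have h10 : 3 * ρ ^ 12 / 72 ≤ 200000 := by
          have h11 : (3 : ℝ) * (18 / 5) ^ 12 / 72 ≤ 200000 := by norm_num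
          linarith
        gcongr
      refine h9.trans ?_
      rw [div_le_iff₀ hnpos]
      nlinarith
    have h12 : s ^ 10 * ‖v r - V r‖ ^ 2 ≤ s ^ 10 * (d / 2) ^ 2 := by
      have : s ^ 10 * (d / 2) ^ 2 = s ^ 10 * d ^ 2 / 4 := by ring
      rw [this]
      have h13 : 0 ≤ s ^ 10 * d ^ 2 := by positivity
      linarith
    have h14 : ‖v r - V r‖ ^ 2 ≤ (d / 2) ^ 2 := le_of_mul_le_mul_left h12 (by positivity)
    exact (abs_le_of_sq_le_sq' h14 (by positivity)).2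
  -- bound near 0
  have he1 : ∀ r ∈ Icc 0 ρ, ‖v1 r - V1 r‖ ≤ B := by
    intro r hr
    refine (norm_sub_le _ _).trans ?_
    have h1 := hv1b r hr
    have h2 := hV1b r hr
    have h3 : r ≤ 18 / 5 := hr.2.trans hρ2
    rw [hB]; linarith
  have hall : ∀ r ∈ Icc 0 ρ, ‖v r - V r‖ ≤ d := by
    intro r hr
    rcases le_total s r with h1 | h1
    · exact (hbig r ⟨h1, hr.2⟩).trans (by linarith)
    · have hsρ : s ≤ ρ := by linarith
      have h2 := mvt_norm (g := fun t => v t - V t) (g' := fun t => v1 t - V1 t) (c := R1) (C := B) h1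
        ((hv.sub hV).mono (Icc_subset_Icc hr.1 hsρ))
        (fun x hx hxc => (hN x ⟨hr.1.trans_lt hx.1, hx.2.trans_le hsρ⟩ hxc).1)
        (fun x hx _ => he1 x ⟨hr.1.trans hx.1.le, hx.2.le.trans hsρ⟩)
      have h3 := hbig s ⟨le_rfl, hsρ⟩
      have h4 : ‖v r - V r‖ ≤ ‖v s - V s‖ + ‖(v s - V s) - (v r - V r)‖ := by
        have := norm_sub_norm_le (v r - V r) (v s - V s)
        rw [norm_sub_rev (v r - V r)] at this
        linarith
      have h5 : B * (s - r) ≤ B * s := by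
        have := hr.1
        gcongr
        linarith
      linarith
  -- Lipschitz bound of e1
  have hLip : ∀ x ∈ Icc 0 ρ, ∀ y ∈ Icc 0 ρ,
      ‖(v1 x - V1 x) - (v1 y - V1 y)‖ ≤ L * |x - y| := by
    have key : ∀ x ∈ Icc 0 ρ, ∀ y ∈ Icc 0 ρ, x ≤ y →
        ‖(v1 y - V1 y) - (v1 x - V1 x)‖ ≤ L * (y - x) := by
      intro x hx y hy hxy
      refine mvt_norm (g := fun t => v1 t - V1 t)
        (g' := fun r => -(11 / (r : ℂ) + I * r / 2) * (v1 r - V1 r) -
        (om : ℂ) * (v r - V r) + ((((‖v r‖ ^ n : ℝ) : ℂ) * v r - (if r < R1 then (om : ℂ) else 0)) -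
          I * ((1 / n : ℝ) : ℂ) * v r)) (c := R1) hxy
        ((hv1.sub hV1).mono (Icc_subset_Icc hx.1 hy.2))
        (fun t ht htc => (hN t ⟨hx.1.trans_lt ht.1, ht.2.trans_le hy.2⟩ htc).2) ?_
      intro t ht htc
      have ht' : t ∈ Ioo 0 ρ := ⟨hx.1.trans_lt ht.1, ht.2.trans_le hy.2⟩
      have ht'' := Ioo_subset_Icc_self ht'
      have ht0 : 0 < t := ht'.1
      have ht2 : t ≤ 18 / 5 := ht'.2.le.trans hρ2
      -- |11/t + i t/2|·|v1| part
      have hA : ‖(11 / (t : ℂ) + I * t / 2)‖ ≤ 11 / t + t / 2 := by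
        refine (norm_add_le _ _).trans (le_of_eq ?_)
        rw [norm_div, norm_div, norm_mul, Complex.norm_I, Complex.norm_real, Real.norm_eq_abs,
          abs_of_pos ht0]
        norm_num
      have hB1 : ‖(11 / (t : ℂ) + I * t / 2) * v1 t‖ ≤ 141 := by
        rw [norm_mul]
        calc ‖(11 / (t : ℂ) + I * t / 2)‖ * ‖v1 t‖ ≤ (11 / t + t / 2) * (8 * t) := by
              gcongr
              exact hv1b t ht''
          _ = 88 + 4 * t ^ 2 := by field_simp; ring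
          _ ≤ 88 + 4 * (18 / 5) ^ 2 := by gcongr
          _ ≤ 141 := by norm_num
      have hB2 : ‖(11 / (t : ℂ) + I * t / 2) * V1 t‖ ≤ 6 * M := by
        rcases le_total t R1 with h1 | h1
        · rw [(hVc t ⟨ht0.le, h1⟩).2, mul_zero, norm_zero]
          positivity
        · have ht3 : 3 ≤ t := hR1.1.trans h1
          rw [norm_mul]
          have h2 : 11 / t + t / 2 ≤ 6 := by
            have h3 : 11 / t ≤ 11 / 3 := by gcongr
            linarith
          exact mul_le_mul (hA.trans h2) (hV1b t ht'') (norm_nonneg _) (by norm_num)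
      have hB3 : ‖(om : ℂ) * (v t - V t)‖ ≤ 5 / 4 := by
        rw [norm_mul, Complex.norm_real, Real.norm_eq_abs, abs_of_nonneg hom.1]
        have h1 : ‖v t - V t‖ ≤ 5 / 2 := (norm_sub_le _ _).trans (by linarith [hvb t ht'', hVb t ht''])
        calc om * ‖v t - V t‖ ≤ (1 / 2) * (5 / 2) := by
              gcongr
              exact hom.2
          _ = 5 / 4 := by norm_num
      have hB4 : ‖(if t < R1 then (om : ℂ) else 0)‖ ≤ 1 / 2 := by
        split_ifs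
        · rw [Complex.norm_real, Real.norm_eq_abs, abs_of_nonneg hom.1]; exact hom.2
        · simp
      have hB5 : ‖I * ((1 / n : ℝ) : ℂ) * v t‖ ≤ 3 / 2 := by
        rw [norm_mul, norm_mul, Complex.norm_I, one_mul, Complex.norm_real, Real.norm_eq_abs,
          abs_of_nonneg (by positivity)]
        have h1 : 1 / (n : ℝ) ≤ 1 := by
          rw [div_le_one hnpos]; exact_mod_cast hn1
        calc 1 / (n : ℝ) * ‖v t‖ ≤ 1 * (3 / 2) := by
              gcongr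
              exact hvb t ht''
          _ = 3 / 2 := by norm_num
      have e1 : -(11 / (t : ℂ) + I * t / 2) * (v1 t - V1 t) - (om : ℂ) * (v t - V t) +
          ((((‖v t‖ ^ n : ℝ) : ℂ) * v t - (if t < R1 then (om : ℂ) else 0)) -
            I * ((1 / n : ℝ) : ℂ) * v t) =
          (11 / (t : ℂ) + I * t / 2) * V1 t - (11 / (t : ℂ) + I * t / 2) * v1 t -
            (om : ℂ) * (v t - V t) + ((((‖v t‖ ^ n : ℝ) : ℂ) * v t -
              (if t < R1 then (om : ℂ) else 0)) - I * ((1 / n : ℝ) : ℂ) * v t) := by ring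
      rw [e1]
      have n1 := norm6 ((11 / (t : ℂ) + I * t / 2) * V1 t) ((11 / (t : ℂ) + I * t / 2) * v1 t)
        ((om : ℂ) * (v t - V t)) (((‖v t‖ ^ n : ℝ) : ℂ) * v t) (if t < R1 then (om : ℂ) else 0)
        (I * ((1 / n : ℝ) : ℂ) * v t)
      have n6 := hv32 t ht''
      rw [hL]
      linarith
    intro x hx y hy
    rcases le_total x y with h1 | h1
    · have := key x hx y hy h1
      rw [norm_sub_rev, abs_sub_comm, abs_of_nonneg (by linarith)]
      exact this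
    · have := key y hy x hx h1
      rw [abs_of_nonneg (by linarith)]
      exact this
  intro r hr
  refine ⟨(hall r hr).trans hdη, ?_⟩
  have h1 := interp (f := fun t => v t - V t) (f1 := fun t => v1 t - V1 t) (a := 0) (b := ρ)
    (c := R1) (L := L) (d := d) (h := h) (hv.sub hV) (fun x hx hxc => (hN x hx hxc).1) hLip hall hh0
    (by linarith) r hr
  linarith

end Crest.Agent.R086.B
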