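import Crest.Agent.R086.ABIface
import Crest.Agent.R086.Phi
import Crest.Agent.R086.BCIface

/-!
Row 86, node BLIM (helper758): growth of `W (-i om) 6`, complex ODE form, and the limit profile
`LimitProfile` from Part A's `AData`.
-/

set_option autoImplicit false

open MeasureTheory Complex Set Filter Topology
open scoped ContDiff

namespace Crest.Agent.R086.BLim

open Crest.Agent.R086.JCx

/-! ### (1) growth and ODE of `W (-i om) 6` in `Re z ≥ 1` -/

theorem W_growth (om : ℝ) : ∃ K : ℝ, 0 ≤ K ∧ ∀ z : ℂ, 1 ≤ z.re →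
    ‖W (-(I * om)) 6 z‖ ≤ K * (1 + ‖z‖) ^ 2 ∧ ‖W1 (-(I * om)) 6 z‖ ≤ K * (1 + ‖z‖) ^ 2 := by
  set a : ℂ := -(I * om) with ha
  have har : a.re = 0 := by simp [ha]
  have hai : a.im = -om := by simp [ha]
  set K1 := Real.exp (Real.pi * |om|) * KM 1 2 5 1 with hK1
  have hKM : 0 ≤ KM 1 2 5 1 := KM_nonneg 1 2 5 one_pos
  have hK10 : 0 ≤ K1 := by positivity
  have hJ : ∀ (a' c z : ℂ), 1 ≤ a'.re → a'.re ≤ 2 → c.re ≤ 5 → |c.im| ≤ |om| → 1 ≤ z.re →
      ‖J a' c z‖ ≤ K1 := by
    intro a' c z h1 h2 hc hi hz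
    have h := J_bound_re (a := a') (c := c) (z := z) (x0 := 1) (x1 := 2) (r0 := 1) (y := |om|) 5
      one_pos h1 h2 one_pos hz (by exact_mod_cast hc) hi
    refine h.trans ?_
    have h3 : z.re ^ (-a'.re) ≤ 1 := by
      rw [Real.rpow_neg (by linarith)]
      exact inv_le_one_of_one_le₀ (Real.one_le_rpow hz (by linarith))
    calc _ ≤ K1 * 1 := mul_le_mul_of_nonneg_left h3 hK10
      _ = K1 := mul_one _
  refine ⟨K1 * (‖a‖ + 7), by positivity, fun z hz => ⟨?_, ?_⟩⟩
  · have e1 : ‖J (a + 1) (6 - a - 2) z‖ ≤ K1 := hJ _ _ _ (by simp [har]) (by simp [har])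
      (by simp [har]; norm_num) (by simp [hai]) hz
    have e2 : ‖J (a + 2) (6 - a - 2) z‖ ≤ K1 := hJ _ _ _ (by simp [har]) (by simp [har])
      (by simp [har]; norm_num) (by simp [hai]) hz
    have e3 : ‖a + 1 - 6 - I * z‖ ≤ ‖a‖ + 5 + ‖z‖ := by
      calc ‖a + 1 - 6 - I * z‖ = ‖a - 5 - I * z‖ := by congr 1; ring
        _ ≤ ‖a - 5‖ + ‖I * z‖ := norm_sub_le _ _
        _ ≤ (‖a‖ + ‖(5:ℂ)‖) + ‖I * z‖ := add_le_add (norm_sub_le _ _) le_rfl
        _ = ‖a‖ + 5 + ‖z‖ := by simp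
    unfold W
    have hzn := norm_nonneg z
    have han := norm_nonneg a
    calc ‖(a + 1 - 6 - I * z) * J (a + 1) (6 - a - 2) z + z * J (a + 2) (6 - a - 2) z‖
        ≤ ‖a + 1 - 6 - I * z‖ * ‖J (a + 1) (6 - a - 2) z‖ + ‖z‖ * ‖J (a + 2) (6 - a - 2) z‖ := by
          refine (norm_add_le _ _).trans ?_
          rw [norm_mul, norm_mul]
      _ ≤ (‖a‖ + 5 + ‖z‖) * K1 + ‖z‖ * K1 :=
          add_le_add (mul_le_mul e3 e1 (norm_nonneg _) (by positivity))
            (mul_le_mul_of_nonneg_left e2 hzn)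
      _ ≤ K1 * (‖a‖ + 7) * (1 + ‖z‖) ^ 2 := by
          have : (‖a‖ + 5 + ‖z‖) + ‖z‖ ≤ (‖a‖ + 7) * (1 + ‖z‖) ^ 2 := by nlinarith [mul_nonneg han hzn]
          calc (‖a‖ + 5 + ‖z‖) * K1 + ‖z‖ * K1 = K1 * ((‖a‖ + 5 + ‖z‖) + ‖z‖) := by ring
            _ ≤ K1 * ((‖a‖ + 7) * (1 + ‖z‖) ^ 2) := mul_le_mul_of_nonneg_left this hK10
            _ = _ := by ring
  · have e1 : ‖J (a + 1) (6 - a - 1) z‖ ≤ K1 := hJ _ _ _ (by simp [har]) (by simp [har])
      (by simp [har]; norm_num) (by simp [hai]) hz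
    unfold W1
    have hzn := norm_nonneg z
    have han := norm_nonneg a
    calc ‖I * a * J (a + 1) (6 - a - 1) z‖ = ‖a‖ * ‖J (a + 1) (6 - a - 1) z‖ := by
          rw [norm_mul, norm_mul, Complex.norm_I, one_mul]
      _ ≤ ‖a‖ * K1 := mul_le_mul_of_nonneg_left e1 han
      _ ≤ K1 * (‖a‖ + 7) * (1 + ‖z‖) ^ 2 := by
          have : ‖a‖ ≤ (‖a‖ + 7) * (1 + ‖z‖) ^ 2 := by nlinarith [mul_nonneg han hzn]
          calc ‖a‖ * K1 = K1 * ‖a‖ := by ring
            _ ≤ K1 * ((‖a‖ + 7) * (1 + ‖z‖) ^ 2) := mul_le_mul_of_nonneg_left this hK10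
            _ = _ := by ring

theorem W1_hasDerivAt_ode (om : ℝ) {z : ℂ} (hz : 0 < z.re) :
    HasDerivAt (W1 (-(I * om)) 6)
      ((-(6 + I * z) * W1 (-(I * om)) 6 z - om * W (-(I * om)) 6 z) / z) z := by
  have har : (-(I * (om:ℂ))).re = 0 := by simp
  have h1 := W1_hasDerivAt (a := -(I * om)) (b := 6) (z := z) (by rw [har]; norm_num) hz
  have h2 := W_ode (a := -(I * om)) (b := 6) (z := z) (by rw [har]; norm_num) hz
  have hz0 : z ≠ 0 := by
    intro h; rw [h] at hz; simp at hz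
  refine h1.congr_deriv ?_
  rw [eq_div_iff hz0]
  have hI : I * I = -1 := Complex.I_mul_I
  linear_combination h2 + (om * W (-(I * om)) 6 z) * hI

/-! ### (2) the limit profile -/

open Crest.Agent.R086.A

variable (D : AData)

noncomputable def f (r : ℝ) : ℂ := fo 0 (-(I * D.om)) r
noncomputable def f1 (r : ℝ) : ℂ := fo1 0 (-(I * D.om)) r

theorem f_eq (r : ℝ) : f D r = Phi 0 (-(I * D.om)) r := rfl

theorem f1_eq (r : ℝ) : f1 D r = Phi1 0 (-(I * D.om)) r := by
  unfold f1 fo1 Phi1 fo zr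
  ring

theorem mu_cond : -1 - ((0:ℕ) : ℝ) / 2 < (-(I * (D.om:ℂ))).re := by simp

theorem f_hasDerivAt {r : ℝ} (hr : 0 < r) : HasDerivAt (f D) (f1 D r) r := by
  rw [f1_eq]
  exact Phi_hasDerivAt (mu_cond D) hr

theorem f1_hasDerivAt {r : ℝ} (hr : 0 < r) :
    HasDerivAt (f1 D) (-(11 / (r : ℂ) + I * r / 2) * f1 D r - D.om * f D r) r := by
  have h := Phi1_hasDerivAt (mu_cond D) hr
  have e : f1 D = Phi1 0 (-(I * D.om)) := funext fun r => f1_eq D r
  rw [e]
  refine h.congr_deriv ?_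
  rw [f_eq]
  have hI : I * I = -1 := Complex.I_mul_I
  simp only [Nat.cast_zero, zero_mul, zero_div, sub_zero]
  linear_combination (D.om * Phi 0 (-(I * D.om)) r) * hI

/-- the limit profile -/
noncomputable def U (r : ℝ) : ℂ := if r ≤ D.R then 1 else f D r / f D D.R
noncomputable def U1 (r : ℝ) : ℂ := if r ≤ D.R then 0 else f1 D r / f D D.R

theorem U_core {r : ℝ} (hr : r ≤ D.R) : U D r = 1 := if_pos hr
theorem U_out {r : ℝ} (hr : D.R ≤ r) : U D r = f D r / f D D.R := by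
  unfold U
  split_ifs with h
  · have : r = D.R := le_antisymm h hr
    rw [this]
    exact (div_self (show f D D.R ≠ 0 from D.fo_ne)).symm
  · rfl

theorem U_hasDerivAt (r : ℝ) : HasDerivAt (U D) (U1 D r) r := by
  rcases lt_trichotomy r D.R with h | h | h
  · have e : U1 D r = 0 := if_pos h.le
    rw [e]
    refine (hasDerivAt_const r (1:ℂ)).congr_of_eventuallyEq ?_
    filter_upwards [Iio_mem_nhds h] with x hx
    exact U_core D (le_of_lt hx)
  · subst h
    have e : U1 D D.R = 0 := if_pos le_rfl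
    rw [e, ← hasDerivWithinAt_univ, ← Iic_union_Ici (a := D.R)]
    refine HasDerivWithinAt.union ?_ ?_
    · exact (hasDerivWithinAt_const _ _ (1:ℂ)).congr (fun x hx => U_core D hx) (U_core D le_rfl)
    · have h1 := ((f_hasDerivAt D D.R_pos).div_const (f D D.R)).hasDerivWithinAt (s := Ici D.R)
      have h2 : f1 D D.R / f D D.R = 0 := by
        have : f1 D D.R = 0 := D.fo1_zero
        rw [this, zero_div]
      rw [h2] at h1
      exact h1.congr (fun x hx => U_out D hx) (U_out D le_rfl)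
  · have e : U1 D r = f1 D r / f D D.R := if_neg (not_le.2 h)
    rw [e]
    have hr : 0 < r := D.R_pos.trans h
    refine ((f_hasDerivAt D hr).div_const (f D D.R)).congr_of_eventuallyEq ?_
    filter_upwards [Ioi_mem_nhds h] with x hx
    exact U_out D (le_of_lt hx)

theorem deriv_U : deriv (U D) = U1 D := funext fun r => (U_hasDerivAt D r).deriv

theorem U1_continuous : Continuous (U1 D) := by
  have h1 : Continuous (fun r : ℝ => f1 D (max r D.R) / f D D.R) := by
    rw [continuous_iff_continuousAt]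
    intro r
    have hpos : 0 < max r D.R := D.R_pos.trans_le (le_max_right _ _)
    have h2 : ContinuousAt (f1 D) (max r D.R) := (f1_hasDerivAt D hpos).continuousAt
    have h3 : ContinuousAt (fun r : ℝ => max r D.R) r := by fun_prop
    exact (ContinuousAt.comp (g := f1 D) (f := fun r : ℝ => max r D.R) h2 h3).div_const _
  have h2 : U1 D = fun r => if r ≤ D.R then (0:ℂ) else f1 D (max r D.R) / f D D.R := by
    funext r
    unfold U1
    split_ifs with h
    · rfl
    · rw [max_eq_left (not_le.1 h).le]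
  rw [h2]
  refine Continuous.if_le continuous_const h1 continuous_id continuous_const ?_
  intro r hr
  have hr' : r = D.R := hr
  rw [hr', max_self]
  have : f1 D D.R = 0 := D.fo1_zero
  rw [this, zero_div]

theorem U_contDiff : ContDiff ℝ 1 (U D) := by
  rw [contDiff_one_iff_deriv]
  refine ⟨fun r => (U_hasDerivAt D r).differentiableAt, ?_⟩
  rw [deriv_U]
  exact U1_continuous D

theorem U_ode {r : ℝ} (hr : D.R < r) : HasDerivAt (deriv (U D))
    (-(11 / (r : ℂ) + I * r / 2) * deriv (U D) r - D.om * U D r) r := by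
  rw [deriv_U, U_out D hr.le]
  have e : U1 D r = f1 D r / f D D.R := if_neg (not_le.2 hr)
  rw [e]
  have hr0 : 0 < r := D.R_pos.trans hr
  have h1 := (f1_hasDerivAt D hr0).div_const (f D D.R)
  have h2 : HasDerivAt (U1 D) ((-(11 / (r : ℂ) + I * r / 2) * f1 D r - D.om * f D r) / f D D.R) r := by
    refine h1.congr_of_eventuallyEq ?_
    filter_upwards [Ioi_mem_nhds hr] with x hx
    exact if_neg (not_le.2 hx)
  refine h2.congr_deriv ?_
  ring

theorem fR_pos : 0 < ‖f D D.R‖ := norm_pos_iff.2 D.fo_ne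

theorem norm_U_out {r : ℝ} (hr : D.R ≤ r) : ‖U D r‖ = ‖f D r‖ / ‖f D D.R‖ := by
  rw [U_out D hr, norm_div]

theorem U_lt_one {r : ℝ} (hr : D.R < r) : ‖U D r‖ < 1 := by
  rw [norm_U_out D hr.le, div_lt_one (fR_pos D)]
  exact D.anti self_mem_Ici hr.le hr

theorem U_anti : StrictAntiOn (fun r => ‖U D r‖) (Ici D.R) := by
  intro x hx y hy hxy
  show ‖U D y‖ < ‖U D x‖
  rw [norm_U_out D hx, norm_U_out D hy]
  exact div_lt_div_of_pos_right (D.anti hx hy hxy) (fR_pos D)

theorem U_lower (r : ℝ) : 3 / 5 ≤ ‖U D r‖ := by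
  rcases le_total r D.R with h | h
  · rw [U_core D h]; norm_num
  · rw [norm_U_out D h, le_div_iff₀ (fR_pos D)]
    exact D.lower r h

theorem om_lo : 33 / 100 < D.om := by have := D.om_mem.1; norm_num at this ⊢; linarith
theorem om_hi : D.om < 34 / 100 := by have := D.om_mem.2; norm_num at this ⊢; linarith

theorem R_lo : 328 / 100 < D.R := by
  have h1 := D.rho_mem.1
  have h2 := D.R_pos
  norm_num at h1 ⊢
  nlinarith

theorem R_hi : D.R < 330 / 100 := by
  have h1 := D.rho_mem.2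
  have h2 := D.R_pos
  norm_num at h1 ⊢
  nlinarith

/-- THE LIMIT PROFILE. -/
theorem limitProfile : LimitProfile D.om D.R (U D) where
  om_lo := om_lo D
  om_hi := om_hi D
  R_lo := R_lo D
  R_hi := R_hi D
  core := fun _ hr => U_core D hr
  c1 := U_contDiff D
  ode := fun _ hr => U_ode D hr
  lt_one := fun _ hr => U_lt_one D hr
  anti := U_anti D
  lower := fun r => le_trans (by norm_num) (U_lower D r)

end Crest.Agent.R086.BLim
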