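import Mathlib
import Crest.Agent.R202.LinODE

/-! # Row 86, Part B, matching: the linear solution `Y` outside the obstacle core (helper651) -/

set_option autoImplicit false

open Set Filter Topology Complex

namespace Crest.Agent.R086.BMatch

/-- The free radial equation `y'' + (11/r + i r/2) y' + om y = 0` on `s`. -/
def LinSol (om : ℝ) (y y1 : ℝ → ℂ) (s : Set ℝ) : Prop :=
  ∀ r ∈ s, HasDerivAt y (y1 r) r ∧
    HasDerivAt y1 (-((11 : ℂ) / r + I * r / 2) * y1 r - om * y r) r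

/-- parameter box -/
abbrev PBox : Type := Set.Icc (1/5 : ℝ) (1/2) × Set.Icc (3 : ℝ) (18/5)

/-- Coefficient matrix of the first order system (time `t = r - R1`). -/
noncomputable def cmat (p : PBox) (t : ℝ) : (ℂ × ℂ) →L[ℝ] (ℂ × ℂ) :=
  (ContinuousLinearMap.inl ℝ ℂ ℂ).comp (ContinuousLinearMap.snd ℝ ℂ ℂ)
  + (-((11 : ℂ) / ((max ((p.2 : ℝ) + t) 1 : ℝ) : ℂ) + I * (((p.2 : ℝ) + t : ℝ) : ℂ) / 2)) •
      ((ContinuousLinearMap.inr ℝ ℂ ℂ).comp (ContinuousLinearMap.snd ℝ ℂ ℂ))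
  + (-(((p.1 : ℝ) : ℝ) : ℂ)) •
      ((ContinuousLinearMap.inr ℝ ℂ ℂ).comp (ContinuousLinearMap.fst ℝ ℂ ℂ))

theorem cmat_apply (p : PBox) (t : ℝ) (x : ℂ × ℂ) :
    cmat p t x = (x.2, -((11 : ℂ) / ((max ((p.2 : ℝ) + t) 1 : ℝ) : ℂ)
      + I * (((p.2 : ℝ) + t : ℝ) : ℂ) / 2) * x.2 - ((p.1 : ℝ) : ℂ) * x.1) := by
  ext <;> simp [cmat]
  ring

theorem continuous_cmat : Continuous (Function.uncurry cmat) := by
  have h1 : Continuous fun q : PBox × ℝ => (((max ((q.1.2 : ℝ) + q.2) 1 : ℝ)) : ℂ) := by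
    fun_prop
  have h2 : Continuous fun q : PBox × ℝ => (11 : ℂ) / (((max ((q.1.2 : ℝ) + q.2) 1 : ℝ)) : ℂ) := by
    refine continuous_const.div h1 fun q => ?_
    have : (0 : ℝ) < max ((q.1.2 : ℝ) + q.2) 1 := lt_of_lt_of_le one_pos (le_max_right _ _)
    exact_mod_cast this.ne'
  have h3 : Continuous fun q : PBox × ℝ =>
      (-((11 : ℂ) / ((max ((q.1.2 : ℝ) + q.2) 1 : ℝ) : ℂ) + I * (((q.1.2 : ℝ) + q.2 : ℝ) : ℂ) / 2)) := by
    refine (h2.add ?_).neg
    fun_prop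
  have h4 : Continuous fun q : PBox × ℝ => (-(((q.1.1 : ℝ) : ℝ) : ℂ)) := by
    fun_prop
  exact (continuous_const.add (h3.smul continuous_const)).add (h4.smul continuous_const)

/-- Existence of `Y`, `Y1 = dY/dr`, jointly continuous in `(om, R1, r)`. -/
theorem exists_Y : ∃ Y Y1 : ℝ → ℝ → ℝ → ℂ,
    (Continuous fun q : ℝ × ℝ × ℝ => Y q.1 q.2.1 q.2.2) ∧
    (Continuous fun q : ℝ × ℝ × ℝ => Y1 q.1 q.2.1 q.2.2) ∧
    ∀ om ∈ Icc (1/5 : ℝ) (1/2), ∀ R1 ∈ Icc (3 : ℝ) (18/5),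
      Y om R1 R1 = 1 ∧ Y1 om R1 R1 = 0 ∧ LinSol om (Y om R1) (Y1 om R1) (Ici 1) := by
  obtain ⟨S, hS, hS0, hSd⟩ := Crest.Agent.R202.LinODE.exists_flow (A := cmat) continuous_cmat 0
    (x0 := fun _ => ((1 : ℂ), (0 : ℂ))) continuous_const
  set pr : ℝ → ℝ → PBox := fun om R1 =>
    (projIcc (1/5 : ℝ) (1/2) (by norm_num) om, projIcc (3 : ℝ) (18/5) (by norm_num) R1) with hpr
  have hprc : Continuous fun q : ℝ × ℝ × ℝ => pr q.1 q.2.1 := by
    refine Continuous.prodMk ?_ ?_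
    · exact continuous_projIcc.comp continuous_fst
    · exact continuous_projIcc.comp (continuous_fst.comp continuous_snd)
  have hc : Continuous fun q : ℝ × ℝ × ℝ => S (pr q.1 q.2.1) (q.2.2 - ((pr q.1 q.2.1).2 : ℝ)) := by
    have : Continuous fun q : ℝ × ℝ × ℝ => (pr q.1 q.2.1, q.2.2 - ((pr q.1 q.2.1).2 : ℝ)) := by
      refine hprc.prodMk ?_
      refine (continuous_snd.comp continuous_snd).sub ?_
      exact continuous_subtype_val.comp (continuous_snd.comp hprc)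
    exact hS.comp this
  refine ⟨fun om R1 r => (S (pr om R1) (r - ((pr om R1).2 : ℝ))).1,
    fun om R1 r => (S (pr om R1) (r - ((pr om R1).2 : ℝ))).2,
    continuous_fst.comp hc, continuous_snd.comp hc, ?_⟩
  intro om hom R1 hR1
  have e1 : ((pr om R1).1 : ℝ) = om := by
    simp only [hpr]
    rw [projIcc_of_mem _ hom]
  have e2 : ((pr om R1).2 : ℝ) = R1 := by
    simp only [hpr]
    rw [projIcc_of_mem _ hR1]
  refine ⟨?_, ?_, ?_⟩
  · simp only [e2, sub_self, hS0]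
  · simp only [e2, sub_self, hS0]
  · intro r hr
    have hr' : (1 : ℝ) ≤ r := hr
    have hd := hSd (pr om R1) (r - R1)
    have hsub : HasDerivAt (fun r : ℝ => r - R1) 1 r := by
      simpa using (hasDerivAt_id r).sub_const R1
    have hd' : HasDerivAt (fun r => S (pr om R1) (r - R1))
        (cmat (pr om R1) (r - R1) (S (pr om R1) (r - R1))) r := by
      have := HasDerivAt.scomp (h := fun r : ℝ => r - R1) (h' := (1 : ℝ)) r hd hsub
      rw [one_smul] at this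
      exact this
    rw [cmat_apply] at hd'
    have hmax : (max ((((pr om R1).2 : ℝ)) + (r - R1)) 1 : ℝ) = r := by
      rw [e2]
      rw [show R1 + (r - R1) = r by ring]
      exact max_eq_left hr'
    rw [hmax, e1, e2] at hd'
    rw [show R1 + (r - R1) = r by ring] at hd'
    have h1 := hd'.fst
    have h2 := hd'.snd
    simp only [e2]
    exact ⟨h1, h2⟩

end Crest.Agent.R086.BMatch
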