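import Mathlib
import Crest.Agent.R086.BMatchY

/-! # Row 86, Part B, matching: uniqueness for the linear equation (helper651) -/

set_option autoImplicit false

open Set Filter Topology Complex

namespace Crest.Agent.R086.BMatch

/-- uniqueness of the Cauchy problem for the linear radial equation, to the right -/
theorem lin_unique {om a b : ℝ} {y y1 f f1 : ℝ → ℂ} (ha : 0 < a)
    (hy : LinSol om y y1 (Icc a b)) (hf : LinSol om f f1 (Icc a b))
    (h0 : y a = f a) (h1 : y1 a = f1 a) :
    ∀ r ∈ Icc a b, y r = f r ∧ y1 r = f1 r := by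
  set F : ℝ → ℂ × ℂ → ℂ × ℂ := fun r x => (x.2, -((11 : ℂ) / r + I * r / 2) * x.2 - om * x.1) with hF
  have hK0 : (0:ℝ) ≤ 1 + 11 / a + |b| / 2 + |om| := by positivity
  set K : NNReal := ⟨1 + 11 / a + |b| / 2 + |om|, hK0⟩ with hK
  have hlip : ∀ t ∈ Ico a b, LipschitzOnWith K (F t) univ := by
    intro t ht
    have ht0 : 0 < t := ha.trans_le ht.1
    refine LipschitzOnWith.of_dist_le_mul fun x _ z _ => ?_
    rw [Prod.dist_eq]
    have e1 : dist x.2 z.2 ≤ dist x z := by rw [Prod.dist_eq]; exact le_max_right _ _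
    have e2 : dist x.1 z.1 ≤ dist x z := by rw [Prod.dist_eq]; exact le_max_left _ _
    have hd : 0 ≤ dist x z := dist_nonneg
    have hKv : (K : ℝ) = 1 + 11 / a + |b| / 2 + |om| := rfl
    refine max_le ?_ ?_
    · refine e1.trans ?_
      rw [hKv]
      have : 0 ≤ 11 / a + |b| / 2 + |om| := by positivity
      nlinarith
    · rw [dist_eq_norm]
      simp only [hF]
      have e3 : -((11 : ℂ) / t + I * t / 2) * x.2 - om * x.1 - (-((11 : ℂ) / t + I * t / 2) * z.2 - om * z.1)
          = -((11 : ℂ) / t + I * t / 2) * (x.2 - z.2) - om * (x.1 - z.1) := by ring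
      rw [e3]
      have e4 : ‖(11 : ℂ) / t + I * t / 2‖ ≤ 11 / a + |b| / 2 := by
        refine (norm_add_le _ _).trans ?_
        have e5 : ‖(11 : ℂ) / t‖ = 11 / t := by
          rw [norm_div, Complex.norm_real, Real.norm_of_nonneg ht0.le]
          norm_num
        have e6 : ‖I * (t : ℂ) / 2‖ = t / 2 := by
          rw [norm_div, norm_mul, Complex.norm_I, Complex.norm_real, Real.norm_of_nonneg ht0.le]
          norm_num
        rw [e5, e6]
        have e7 : 11 / t ≤ 11 / a := by
          apply div_le_div_of_nonneg_left (by norm_num) ha ht.1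
        have e8 : t ≤ |b| := ht.2.le.trans (le_abs_self b)
        linarith
      refine (norm_sub_le _ _).trans ?_
      rw [norm_mul, norm_mul, norm_neg, ← dist_eq_norm, ← dist_eq_norm, Complex.norm_real,
        Real.norm_eq_abs, hKv]
      have e9 : ‖(11 : ℂ) / t + I * t / 2‖ * dist x.2 z.2 ≤ (11 / a + |b| / 2) * dist x z := by
        gcongr
      have e10 : |om| * dist x.1 z.1 ≤ |om| * dist x z := by gcongr
      nlinarith
  have hyc : ContinuousOn (fun r => (y r, y1 r)) (Icc a b) := fun r hr =>
    ((hy r hr).1.continuousAt.prodMk (hy r hr).2.continuousAt).continuousWithinAt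
  have hfc : ContinuousOn (fun r => (f r, f1 r)) (Icc a b) := fun r hr =>
    ((hf r hr).1.continuousAt.prodMk (hf r hr).2.continuousAt).continuousWithinAt
  have hu := ODE_solution_unique_of_mem_Icc_right (v := F) (s := fun _ => univ) (K := K)
    (f := fun r => (y r, y1 r)) (g := fun r => (f r, f1 r)) (a := a) (b := b) hlip hyc
    (fun t ht => ((hy t (Ico_subset_Icc_self ht)).1.prodMk
      (hy t (Ico_subset_Icc_self ht)).2).hasDerivWithinAt) (fun _ _ => mem_univ _) hfc
    (fun t ht => ((hf t (Ico_subset_Icc_self ht)).1.prodMk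
      (hf t (Ico_subset_Icc_self ht)).2).hasDerivWithinAt) (fun _ _ => mem_univ _)
    (by simp only [h0, h1])
  intro r hr
  have := hu hr
  simp only [Prod.mk.injEq] at this
  exact this

end Crest.Agent.R086.BMatch
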