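import Mathlib
import Crest.Agent.R086.BMatchY

/-! # Row 86, Part B, matching: `|Y|` decreases right of `R1`; Wronskian (helper651) -/

set_option autoImplicit false

open Set Filter Topology Complex

namespace Crest.Agent.R086.BMatch

theorem hasDerivAt_re' {f : ℝ → ℂ} {f' : ℂ} {r : ℝ} (h : HasDerivAt f f' r) :
    HasDerivAt (fun x => (f x).re) f'.re r := by
  exact (Complex.reCLM.hasFDerivAt (x := f r)).comp_hasDerivAt r h

theorem hasDerivAt_im' {f : ℝ → ℂ} {f' : ℂ} {r : ℝ} (h : HasDerivAt f f' r) :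
    HasDerivAt (fun x => (f x).im) f'.im r := by
  exact (Complex.imCLM.hasFDerivAt (x := f r)).comp_hasDerivAt r h

theorem lin_re_im {om : ℝ} {r : ℝ} (y y1 : ℂ) :
    (-((11 : ℂ) / r + I * r / 2) * y1 - om * y).re = -(11 / r) * y1.re + (r / 2) * y1.im - om * y.re ∧
    (-((11 : ℂ) / r + I * r / 2) * y1 - om * y).im = -(11 / r) * y1.im - (r / 2) * y1.re - om * y.im := by
  have e1 : ((11 : ℂ) / r + I * r / 2).re = 11 / r := by
    have : ((11 : ℂ) / r) = ((11 / r : ℝ) : ℂ) := by push_cast; rfl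
    rw [this]
    simp
  have e2 : ((11 : ℂ) / r + I * r / 2).im = r / 2 := by
    have : ((11 : ℂ) / r) = ((11 / r : ℝ) : ℂ) := by push_cast; rfl
    rw [this]
    simp
  constructor
  · rw [Complex.sub_re, Complex.mul_re, Complex.neg_re, Complex.neg_im, e1, e2]
    simp
  · rw [Complex.sub_im, Complex.mul_im, Complex.neg_re, Complex.neg_im, e1, e2]
    simp
    ring

/-- `|Y|` is strictly below `1` right of `R1`, uniformly in the parameter box. -/
theorem exists_decr {Y Y1 : ℝ → ℝ → ℝ → ℂ}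
    (hc : Continuous fun q : ℝ × ℝ × ℝ => Y q.1 q.2.1 q.2.2)
    (hc1 : Continuous fun q : ℝ × ℝ × ℝ => Y1 q.1 q.2.1 q.2.2)
    (h : ∀ om ∈ Icc (1/5 : ℝ) (1/2), ∀ R1 ∈ Icc (3 : ℝ) (18/5),
      Y om R1 R1 = 1 ∧ Y1 om R1 R1 = 0 ∧ LinSol om (Y om R1) (Y1 om R1) (Ici 1)) :
    ∃ d0 : ℝ, 0 < d0 ∧ ∀ om ∈ Icc (1/5 : ℝ) (1/2), ∀ R1 ∈ Icc (3 : ℝ) (18/5),
      ∀ r ∈ Icc R1 (R1 + d0), ‖Y om R1 r‖ ^ 2 ≤ 1 - (r - R1) ^ 2 / 10 := by
  set G : ℝ × ℝ × ℝ → ℝ := fun q =>
    (Y1 q.1 q.2.1 q.2.2).re ^ 2 + (Y1 q.1 q.2.1 q.2.2).im ^ 2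
    - q.1 * ((Y q.1 q.2.1 q.2.2).re ^ 2 + (Y q.1 q.2.1 q.2.2).im ^ 2)
    - (11 / max q.2.2 1) * ((Y q.1 q.2.1 q.2.2).re * (Y1 q.1 q.2.1 q.2.2).re
        + (Y q.1 q.2.1 q.2.2).im * (Y1 q.1 q.2.1 q.2.2).im)
    + (q.2.2 / 2) * ((Y q.1 q.2.1 q.2.2).re * (Y1 q.1 q.2.1 q.2.2).im
        - (Y q.1 q.2.1 q.2.2).im * (Y1 q.1 q.2.1 q.2.2).re) with hG
  have hGc : Continuous G := by
    have a1 : Continuous fun q : ℝ × ℝ × ℝ => (Y q.1 q.2.1 q.2.2).re := Complex.continuous_re.comp hc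
    have a2 : Continuous fun q : ℝ × ℝ × ℝ => (Y q.1 q.2.1 q.2.2).im := Complex.continuous_im.comp hc
    have a3 : Continuous fun q : ℝ × ℝ × ℝ => (Y1 q.1 q.2.1 q.2.2).re :=
      Complex.continuous_re.comp hc1
    have a4 : Continuous fun q : ℝ × ℝ × ℝ => (Y1 q.1 q.2.1 q.2.2).im :=
      Complex.continuous_im.comp hc1
    have a5 : Continuous fun q : ℝ × ℝ × ℝ => (11 : ℝ) / max q.2.2 1 := by
      refine continuous_const.div (by fun_prop) fun q => ?_
      have : (0 : ℝ) < max q.2.2 1 := lt_of_lt_of_le one_pos (le_max_right _ _)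
      exact this.ne'
    have a6 : Continuous fun q : ℝ × ℝ × ℝ => q.1 := continuous_fst
    have a7 : Continuous fun q : ℝ × ℝ × ℝ => q.2.2 / 2 := by fun_prop
    exact ((((a3.pow 2).add (a4.pow 2)).sub (a6.mul ((a1.pow 2).add (a2.pow 2)))).sub
      (a5.mul ((a1.mul a3).add (a2.mul a4)))).add (a7.mul ((a1.mul a4).sub (a2.mul a3)))
  set K : Set (ℝ × ℝ × ℝ) := Icc (1/5 : ℝ) (1/2) ×ˢ (Icc (3 : ℝ) (18/5) ×ˢ Icc (0 : ℝ) 1) with hK
  have hKc : IsCompact K := isCompact_Icc.prod (isCompact_Icc.prod isCompact_Icc)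
  have hmap : Continuous fun q : ℝ × ℝ × ℝ => G (q.1, q.2.1, q.2.1 + q.2.2) :=
    hGc.comp (by fun_prop)
  have hu := hKc.uniformContinuousOn_of_continuous hmap.continuousOn
  rw [Metric.uniformContinuousOn_iff] at hu
  obtain ⟨δ, hδ, hδ'⟩ := hu (1/10) (by norm_num)
  refine ⟨min (δ / 2) 1, lt_min (by linarith) one_pos, ?_⟩
  intro om hom R1 hR1 r hr
  obtain ⟨y0, y10, hlin⟩ := h om hom R1 hR1
  have hR1' : (3 : ℝ) ≤ R1 := hR1.1
  have hdm : min (δ / 2) 1 ≤ 1 := min_le_right _ _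
  have hdm' : min (δ / 2) 1 ≤ δ / 2 := min_le_left _ _
  have hG0 : G (om, R1, R1) = -om := by
    simp [hG, y0, y10]
  have hGle : ∀ s ∈ Icc R1 (R1 + min (δ / 2) 1), G (om, R1, s) ≤ -(1/10) := by
    intro s hs
    have hmem1 : (om, R1, s - R1) ∈ K := by
      refine ⟨hom, hR1, ?_, ?_⟩
      · simp only; linarith [hs.1]
      · simp only; linarith [hs.2]
    have hmem0 : (om, R1, (0 : ℝ)) ∈ K := ⟨hom, hR1, by simp, by simp⟩
    have hdist : dist (om, R1, s - R1) (om, R1, (0 : ℝ)) < δ := by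
      rw [Prod.dist_eq, Prod.dist_eq]
      simp only [dist_self, Real.dist_eq, sub_zero]
      rw [abs_of_nonneg (by linarith [hs.1])]
      refine max_lt hδ (max_lt hδ ?_)
      linarith [hs.2]
    have h1 := hδ' _ hmem1 _ hmem0 hdist
    simp only [add_zero, add_sub_cancel] at h1
    rw [hG0, Real.dist_eq] at h1
    have h2 := (abs_lt.1 h1).2
    linarith [hom.1]
  -- components
  set Yp := Y om R1 with hYp
  set Y1p := Y1 om R1 with hY1p
  have hge1 : ∀ s, R1 ≤ s → (1 : ℝ) ≤ s := fun s hs => by linarith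
  have hgd : ∀ s, R1 ≤ s → HasDerivAt
      (fun s => (Yp s).re * (Y1p s).re + (Yp s).im * (Y1p s).im) (G (om, R1, s)) s := by
    intro s hs
    obtain ⟨d0, d1⟩ := hlin s (hge1 s hs)
    have b1 := hasDerivAt_re' d0
    have b2 := hasDerivAt_im' d0
    have b3 := hasDerivAt_re' d1
    have b4 := hasDerivAt_im' d1
    rw [(lin_re_im _ _).1] at b3
    rw [(lin_re_im _ _).2] at b4
    have b := (b1.mul b3).add (b2.mul b4)
    refine b.congr_deriv ?_
    simp only [hG, max_eq_left (hge1 s hs)]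
    ring
  have hnd : ∀ s, R1 ≤ s → HasDerivAt
      (fun s => (Yp s).re ^ 2 + (Yp s).im ^ 2) (2 * ((Yp s).re * (Y1p s).re + (Yp s).im * (Y1p s).im)) s := by
    intro s hs
    obtain ⟨d0, -⟩ := hlin s (hge1 s hs)
    have b1 := hasDerivAt_re' d0
    have b2 := hasDerivAt_im' d0
    have b := (b1.pow 2).add (b2.pow 2)
    refine b.congr_deriv ?_
    push_cast
    ring
  have hconv : Convex ℝ (Icc R1 (R1 + min (δ / 2) 1)) := convex_Icc _ _
  have hmon1 : AntitoneOn (fun s => (Yp s).re * (Y1p s).re + (Yp s).im * (Y1p s).im + (s - R1) / 10)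
      (Icc R1 (R1 + min (δ / 2) 1)) := by
    have hD : ∀ s, R1 ≤ s → HasDerivAt
        (fun s => (Yp s).re * (Y1p s).re + (Yp s).im * (Y1p s).im + (s - R1) / 10)
        (G (om, R1, s) + 1 / 10) s := by
      intro s hs
      exact (hgd s hs).add (((hasDerivAt_id s).sub_const R1).div_const 10)
    refine antitoneOn_of_deriv_nonpos hconv ?_ ?_ ?_
    · intro s hs
      exact (hD s hs.1).continuousAt.continuousWithinAt
    · intro s hs
      rw [interior_Icc] at hs
      exact (hD s hs.1.le).differentiableAt.differentiableWithinAt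
    · intro s hs
      rw [interior_Icc] at hs
      rw [(hD s hs.1.le).deriv]
      linarith [hGle s ⟨hs.1.le, hs.2.le⟩]
  have hle1 : ∀ s ∈ Icc R1 (R1 + min (δ / 2) 1),
      (Yp s).re * (Y1p s).re + (Yp s).im * (Y1p s).im ≤ -((s - R1) / 10) := by
    intro s hs
    have hR : R1 ∈ Icc R1 (R1 + min (δ / 2) 1) := ⟨le_refl _, by linarith [hs.1, hs.2]⟩
    have := hmon1 hR hs hs.1
    simp only [sub_self, zero_div, add_zero] at this
    have e1 : Yp R1 = 1 := y0
    have e2 : Y1p R1 = 0 := y10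
    rw [e1, e2] at this
    simp at this
    linarith
  have hmon2 : AntitoneOn (fun s => (Yp s).re ^ 2 + (Yp s).im ^ 2 + (s - R1) ^ 2 / 10)
      (Icc R1 (R1 + min (δ / 2) 1)) := by
    have hD : ∀ s, R1 ≤ s → HasDerivAt
        (fun s => (Yp s).re ^ 2 + (Yp s).im ^ 2 + (s - R1) ^ 2 / 10)
        (2 * ((Yp s).re * (Y1p s).re + (Yp s).im * (Y1p s).im) + (s - R1) / 5) s := by
      intro s hs
      have hq : HasDerivAt (fun s : ℝ => (s - R1) ^ 2 / 10) ((s - R1) / 5) s := by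
        have := (((hasDerivAt_id s).sub_const R1).pow 2).div_const 10
        refine this.congr_deriv ?_
        simp
        ring
      exact (hnd s hs).add hq
    refine antitoneOn_of_deriv_nonpos hconv ?_ ?_ ?_
    · intro s hs
      exact (hD s hs.1).continuousAt.continuousWithinAt
    · intro s hs
      rw [interior_Icc] at hs
      exact (hD s hs.1.le).differentiableAt.differentiableWithinAt
    · intro s hs
      rw [interior_Icc] at hs
      rw [(hD s hs.1.le).deriv]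
      have := hle1 s ⟨hs.1.le, hs.2.le⟩
      linarith
  have hR : R1 ∈ Icc R1 (R1 + min (δ / 2) 1) := ⟨le_refl _, by linarith [hr.1, hr.2]⟩
  have hfin := hmon2 hR hr hr.1
  have e1 : Yp R1 = 1 := y0
  simp only [sub_self, e1] at hfin
  simp at hfin
  have : ‖Yp r‖ ^ 2 = (Yp r).re ^ 2 + (Yp r).im ^ 2 := by
    rw [← Complex.normSq_eq_norm_sq, Complex.normSq_apply]
    ring
  rw [this]
  linarith

/-- Wronskian identity against any solution `f` of the free equation. -/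
theorem wronskian {om : ℝ} {y y1 f f1 : ℝ → ℂ} {a b : ℝ} (ha : 0 < a) (hab : a ≤ b)
    (hy : LinSol om y y1 (Icc a b)) (hf : LinSol om f f1 (Icc a b)) :
    (b : ℂ) ^ 11 * cexp (I * b ^ 2 / 4) * (y1 b * f b - y b * f1 b)
      = (a : ℂ) ^ 11 * cexp (I * a ^ 2 / 4) * (y1 a * f a - y a * f1 a) := by
  set W : ℝ → ℂ := fun r => (r : ℂ) ^ 11 * cexp (I * r ^ 2 / 4) * (y1 r * f r - y r * f1 r) with hW
  have hd : ∀ r ∈ Icc a b, HasDerivAt W 0 r := by
    intro r hr
    have hr0 : (r : ℂ) ≠ 0 := by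
      have : 0 < r := lt_of_lt_of_le ha hr.1
      exact_mod_cast this.ne'
    obtain ⟨p0, p1⟩ := hy r hr
    obtain ⟨q0, q1⟩ := hf r hr
    have hid : HasDerivAt (fun r : ℝ => (r : ℂ)) 1 r := by
      simpa using (hasDerivAt_id r).ofReal_comp
    have h1 : HasDerivAt (fun r : ℝ => (r : ℂ) ^ 11) (11 * (r : ℂ) ^ 10) r := by
      have := hid.pow 11
      refine this.congr_deriv ?_
      norm_num
    have h2 : HasDerivAt (fun r : ℝ => cexp (I * (r : ℂ) ^ 2 / 4))
        (cexp (I * (r : ℂ) ^ 2 / 4) * (I * r / 2)) r := by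
      have e : HasDerivAt (fun r : ℝ => I * (r : ℂ) ^ 2 / 4) (I * r / 2) r := by
        have := ((hid.pow 2).const_mul I).div_const 4
        refine this.congr_deriv ?_
        push_cast
        ring
      exact e.cexp
    have h3 := (h1.mul h2).mul ((p1.mul q0).sub (p0.mul q1))
    refine h3.congr_deriv ?_
    simp only [Pi.mul_apply, Pi.sub_apply]
    field_simp
    ring
  have hdiff : DifferentiableOn ℝ W (Icc a b) := fun r hr =>
    (hd r hr).differentiableAt.differentiableWithinAt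
  have hconst := (convex_Icc a b).is_const_of_fderivWithin_eq_zero (𝕜 := ℝ) (f := W) hdiff ?_
    (right_mem_Icc.2 hab) (left_mem_Icc.2 hab)
  · exact hconst
  · intro r hr
    rcases hab.eq_or_lt with h | h
    · subst h
      have : r = a := le_antisymm hr.2 hr.1
      subst this
      refine fderivWithin_zero_of_not_accPt ?_
      rw [Icc_self]
      intro hacc
      rw [accPt_iff_nhds] at hacc
      obtain ⟨z, hz, hzne⟩ := hacc univ univ_mem
      exact hzne hz.2
    · have hu : UniqueDiffWithinAt ℝ (Icc a b) r := uniqueDiffOn_Icc h r hr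
      have := (hd r hr).hasFDerivAt.hasFDerivWithinAt (s := Icc a b)
      rw [this.fderivWithin hu]
      ext
      simp

end Crest.Agent.R086.BMatch
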