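import Mathlib
import Crest.Agent.R086.BExtDefs
import Crest.Agent.R086.BMatchU
import Crest.Agent.R086.BMatchY2

/-! # Row 86, Part B, matching: definitions (helper651) -/

set_option autoImplicit false

open Set Filter Topology Complex

namespace Crest.Agent.R086.BMatch

open Crest.Agent.R086.B

/-- a regular solution of the interior problem on `[0, rho]`, boundary value in the unit disc -/
def IntSol (n : ℕ) (om rho : ℝ) (v v1 : ℝ → ℂ) : Prop :=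
  ContinuousOn v (Icc 0 rho) ∧ ContinuousOn v1 (Icc 0 rho) ∧ v1 0 = 0 ∧
    IsSol n om (1 / n) v v1 (Ioo 0 rho) ∧ ‖v rho‖ ≤ 1

/-- the obstacle limit (I3) -/
def LimStmt (rho : ℝ) : Prop := ∀ η : ℝ, 0 < η → ∀ M : ℝ, ∃ (n0 : ℕ) (η1 : ℝ), 0 < η1 ∧
  ∀ n : ℕ, n0 ≤ n → Even n → ∀ om ∈ Icc (1/5 : ℝ) (1/2), ∀ R1 ∈ Icc (3 : ℝ) rho, ∀ V V1 : ℝ → ℂ,
    ContinuousOn V (Icc 0 rho) → ContinuousOn V1 (Icc 0 rho) →
    (∀ r ∈ Icc 0 R1, V r = 1 ∧ V1 r = 0) → IsLin om V V1 (Ioo R1 rho) →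
    (∀ r ∈ Icc 0 rho, ‖V r‖ ≤ 1) → (∀ r ∈ Icc 0 rho, ‖V1 r‖ ≤ M) →
    ∀ v v1 : ℝ → ℂ, IntSol n om rho v v1 → ‖v rho - V rho‖ ≤ η1 →
    ∀ r ∈ Icc 0 rho, ‖v r - V r‖ ≤ η ∧ ‖v1 r - V1 r‖ ≤ η

/-- continuity of the interior Dirichlet-to-Neumann map (I2) -/
def ContStmt (rho : ℝ) : Prop := ∀ n : ℕ, 2 ≤ n → Even n → ∀ om ∈ Icc (1/5 : ℝ) (1/2),
  ∀ v v1 : ℝ → ℂ, IntSol n om rho v v1 → ∀ η : ℝ, 0 < η → ∃ del : ℝ, 0 < del ∧
    ∀ om2 ∈ Icc (1/5 : ℝ) (1/2), |om2 - om| ≤ del → ∀ w w1 : ℝ → ℂ, IntSol n om2 rho w w1 →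
      ‖w rho - v rho‖ ≤ del → ‖w1 rho - v1 rho‖ ≤ η

/-- the limit solution with core radius `R1` -/
def VV (Y : ℝ → ℝ → ℝ → ℂ) (om R1 r : ℝ) : ℂ := Y om R1 (max r R1)

theorem continuous_VV {Y : ℝ → ℝ → ℝ → ℂ}
    (hYc : Continuous fun q : ℝ × ℝ × ℝ => Y q.1 q.2.1 q.2.2) :
    Continuous fun q : (ℝ × ℝ) × ℝ => VV Y q.1.1 q.1.2 q.2 := by
  have : Continuous fun q : (ℝ × ℝ) × ℝ => ((q.1.1, q.1.2, max q.2 q.1.2) : ℝ × ℝ × ℝ) := by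
    fun_prop
  exact hYc.comp this

theorem VV_le {Y : ℝ → ℝ → ℝ → ℂ} {om R1 r : ℝ} (h : r ≤ R1) : VV Y om R1 r = Y om R1 R1 := by
  unfold VV
  rw [max_eq_right h]

theorem VV_ge {Y : ℝ → ℝ → ℝ → ℂ} {om R1 r : ℝ} (h : R1 ≤ r) : VV Y om R1 r = Y om R1 r := by
  unfold VV
  rw [max_eq_left h]

theorem isLin_VV {Y Y1 : ℝ → ℝ → ℝ → ℂ} {om R1 : ℝ} (hR1 : 3 ≤ R1)
    (h : LinSol om (Y om R1) (Y1 om R1) (Ici 1)) (rho : ℝ) :
    IsLin om (VV Y om R1) (VV Y1 om R1) (Ioo R1 rho) := by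
  intro r hr
  have e0 : VV Y om R1 =ᶠ[𝓝 r] Y om R1 := by
    filter_upwards [Ioi_mem_nhds hr.1] with x hx using VV_ge (le_of_lt hx)
  have e1 : VV Y1 om R1 =ᶠ[𝓝 r] Y1 om R1 := by
    filter_upwards [Ioi_mem_nhds hr.1] with x hx using VV_ge (le_of_lt hx)
  have := h r (show (1:ℝ) ≤ r by linarith [hr.1])
  rw [e0.eq_of_nhds, e1.eq_of_nhds]
  exact ⟨this.1.congr_of_eventuallyEq e0, this.2.congr_of_eventuallyEq e1⟩

/-- a diagonal argument -/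
theorem exists_diag {α : Type*} (P : ℕ → ℕ → α → Prop)
    (hmono : ∀ k n a, P (k + 1) n a → P k n a) (h0 : ∀ n, ∃ a, P 0 n a)
    (h : ∀ k, ∃ N, ∀ n, N ≤ n → ∃ a, P k n a) :
    ∃ s : ℕ → α, ∀ k, ∃ N, ∀ n, N ≤ n → P k n (s n) := by
  classical
  have hmono' : ∀ n a k m, k ≤ m → P m n a → P k n a := by
    intro n a k m hkm
    induction m, hkm using Nat.le_induction with
    | base => exact id
    | succ m _ ih => exact fun hp => ih (hmono m n a hp)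
  have hex : ∀ n, ∃ a, P (Nat.findGreatest (fun k => ∃ a, P k n a) n) n a := fun n =>
    Nat.findGreatest_spec (P := fun k => ∃ a, P k n a) (Nat.zero_le n) (h0 n)
  choose s hs using hex
  refine ⟨s, fun k => ?_⟩
  obtain ⟨N, hN⟩ := h k
  refine ⟨max N k, fun n hn => ?_⟩
  have hk : k ≤ Nat.findGreatest (fun k => ∃ a, P k n a) n :=
    Nat.le_findGreatest ((le_max_right _ _).trans hn) (hN n ((le_max_left _ _).trans hn))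
  exact hmono' n (s n) k _ hk (hs n)

end Crest.Agent.R086.BMatch
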