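import Mathlib
import Crest.Agent.R086.BDefs
import Crest.Agent.R086.BMatchY2

/-! # Row 86, Part B, matching: gluing of an interior and an exterior solution, uniqueness for the
linear equation (helper651) -/

set_option autoImplicit false

open Set Filter Topology Complex

namespace Crest.Agent.R086.BMatch

open Crest.Agent.R086.B

/-- two-sided derivative of a glued function at the interface -/
theorem hasDerivAt_glue {f f1 : ℝ → ℂ} {a b x : ℝ} (hx : x ∈ Ioo a b)
    (hd : ∀ y ∈ Ioo a b, y ≠ x → HasDerivAt f (f1 y) y) (hf : ContinuousAt f x)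
    (hf1 : ContinuousAt f1 x) : HasDerivAt f (f1 x) x := by
  have A : HasDerivWithinAt f (f1 x) (Ici x) x := by
    have diff : DifferentiableOn ℝ f (Ioo x b) := fun y hy =>
      (hd y ⟨hx.1.trans hy.1, hy.2⟩ (ne_of_gt hy.1)).differentiableAt.differentiableWithinAt
    apply hasDerivWithinAt_Ici_of_tendsto_deriv diff hf.continuousWithinAt
      (Ioo_mem_nhdsGT hx.2)
    have : Tendsto f1 (𝓝[>] x) (𝓝 (f1 x)) := tendsto_inf_left hf1
    apply this.congr' _
    filter_upwards [Ioo_mem_nhdsGT hx.2] with y hy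
    exact (hd y ⟨hx.1.trans hy.1, hy.2⟩ (ne_of_gt hy.1)).deriv.symm
  have B : HasDerivWithinAt f (f1 x) (Iic x) x := by
    have diff : DifferentiableOn ℝ f (Ioo a x) := fun y hy =>
      (hd y ⟨hy.1, hy.2.trans hx.2⟩ (ne_of_lt hy.2)).differentiableAt.differentiableWithinAt
    apply hasDerivWithinAt_Iic_of_tendsto_deriv diff hf.continuousWithinAt
      (Ioo_mem_nhdsLT hx.1)
    have : Tendsto f1 (𝓝[<] x) (𝓝 (f1 x)) := tendsto_inf_left hf1
    apply this.congr' _
    filter_upwards [Ioo_mem_nhdsLT hx.1] with y hy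
    exact (hd y ⟨hy.1, hy.2.trans hx.2⟩ (ne_of_lt hy.2)).deriv.symm
  simpa using B.union A

/-- glued function -/
noncomputable def glue (rho : ℝ) (f g : ℝ → ℂ) (r : ℝ) : ℂ := if r ≤ rho then f r else g r

theorem glue_le {rho : ℝ} {f g : ℝ → ℂ} {r : ℝ} (h : r ≤ rho) : glue rho f g r = f r := if_pos h

theorem glue_ge {rho : ℝ} {f g : ℝ → ℂ} (hfg : f rho = g rho) {r : ℝ} (h : rho ≤ r) :
    glue rho f g r = g r := by
  unfold glue
  split_ifs with h1
  · have : r = rho := le_antisymm h1 h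
    rw [this, hfg]
  · rfl

theorem continuousOn_glue {rho : ℝ} {f g : ℝ → ℂ} (hrho : 0 ≤ rho)
    (hf : ContinuousOn f (Icc 0 rho)) (hg : ContinuousOn g (Ici rho)) (hfg : f rho = g rho) :
    ContinuousOn (glue rho f g) (Ici 0) := by
  have h1 : ContinuousOn (glue rho f g) (Icc 0 rho) := hf.congr fun r hr => glue_le hr.2
  have h2 : ContinuousOn (glue rho f g) (Ici rho) := hg.congr fun r hr => glue_ge hfg hr
  have h3 : Ici (0:ℝ) = Icc 0 rho ∪ Ici rho := (Icc_union_Ici_eq_Ici hrho).symm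
  rw [h3]
  exact ContinuousOn.union_of_isClosed h1 h2 isClosed_Icc isClosed_Ici

/-- gluing of solutions -/
theorem isSol_glue {n : ℕ} {om eps rho : ℝ} {v v1 w w1 : ℝ → ℂ} (hrho : 0 < rho)
    (hv : ContinuousOn v (Icc 0 rho)) (hv1 : ContinuousOn v1 (Icc 0 rho))
    (hw : ContinuousOn w (Ici rho)) (hw1 : ContinuousOn w1 (Ici rho))
    (hs : IsSol n om eps v v1 (Ioo 0 rho)) (ht : IsSol n om eps w w1 (Ioi rho))
    (h0 : v rho = w rho) (h1 : v1 rho = w1 rho) :
    IsSol n om eps (glue rho v w) (glue rho v1 w1) (Ioi 0) := by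
  have hc := continuousOn_glue hrho.le hv hw h0
  have hc1 := continuousOn_glue hrho.le hv1 hw1 h1
  -- away from the interface
  have key : ∀ r ∈ Ioi (0:ℝ), r ≠ rho → HasDerivAt (glue rho v w) (glue rho v1 w1 r) r ∧
      HasDerivAt (glue rho v1 w1) (-(11 / (r : ℂ) + I * r / 2) * glue rho v1 w1 r
        - ((om : ℂ) + I * eps) * glue rho v w r +
        ((‖glue rho v w r‖ ^ n : ℝ) : ℂ) * glue rho v w r) r := by
    intro r hr hne
    rcases lt_or_gt_of_ne hne with hlt | hgt
    · have e0 : glue rho v w =ᶠ[𝓝 r] v := by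
        filter_upwards [Iio_mem_nhds hlt] with x hx using glue_le hx.le
      have e1 : glue rho v1 w1 =ᶠ[𝓝 r] v1 := by
        filter_upwards [Iio_mem_nhds hlt] with x hx using glue_le hx.le
      have := hs r ⟨hr, hlt⟩
      rw [e0.eq_of_nhds, e1.eq_of_nhds]
      exact ⟨this.1.congr_of_eventuallyEq e0, this.2.congr_of_eventuallyEq e1⟩
    · have e0 : glue rho v w =ᶠ[𝓝 r] w := by
        filter_upwards [Ioi_mem_nhds hgt] with x hx using glue_ge h0 (le_of_lt hx)
      have e1 : glue rho v1 w1 =ᶠ[𝓝 r] w1 := by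
        filter_upwards [Ioi_mem_nhds hgt] with x hx using glue_ge h1 (le_of_lt hx)
      have := ht r hgt
      rw [e0.eq_of_nhds, e1.eq_of_nhds]
      exact ⟨this.1.congr_of_eventuallyEq e0, this.2.congr_of_eventuallyEq e1⟩
  have hcA : ∀ r ∈ Ioi (0:ℝ), ContinuousAt (glue rho v w) r := fun r hr =>
    hc.continuousAt (Ici_mem_nhds hr)
  have hcA1 : ∀ r ∈ Ioi (0:ℝ), ContinuousAt (glue rho v1 w1) r := fun r hr =>
    hc1.continuousAt (Ici_mem_nhds hr)
  intro r hr
  by_cases hne : r = rho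
  · have hmem : r ∈ Ioo 0 (r + 1) := ⟨hr, by linarith⟩
    refine ⟨?_, ?_⟩
    · refine hasDerivAt_glue hmem (fun y hy hy2 => (key y hy.1 (fun h => hy2 (h.trans hne.symm))).1)
        (hcA r hr) (hcA1 r hr)
    · have hcont : ContinuousAt (fun r : ℝ => -(11 / (r : ℂ) + I * r / 2) * glue rho v1 w1 r
        - ((om : ℂ) + I * eps) * glue rho v w r +
        ((‖glue rho v w r‖ ^ n : ℝ) : ℂ) * glue rho v w r) r := by
        have hr0 : (r : ℂ) ≠ 0 := by
          have : r ≠ 0 := ne_of_gt hr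
          exact_mod_cast this
        have a1 : ContinuousAt (fun r : ℝ => -(11 / (r : ℂ) + I * r / 2)) r := by
          refine (ContinuousAt.add ?_ ?_).neg
          · exact continuousAt_const.div Complex.continuous_ofReal.continuousAt hr0
          · fun_prop
        have a2 : ContinuousAt (fun r : ℝ => ((‖glue rho v w r‖ ^ n : ℝ) : ℂ)) r :=
          Complex.continuous_ofReal.continuousAt.comp ((hcA r hr).norm.pow n)
        exact ((a1.mul (hcA1 r hr)).sub (continuousAt_const.mul (hcA r hr))).add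
          (a2.mul (hcA r hr))
      exact hasDerivAt_glue hmem
        (fun y hy hy2 => (key y hy.1 (fun h => hy2 (h.trans hne.symm))).2) (hcA1 r hr) hcont
  · exact key r hr hne

end Crest.Agent.R086.BMatch
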