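import Mathlib
import Crest.Agent.R202.Miranda

/-!
Row 86 (S0114), Part B matching (helper702): a nondegenerate zero of a map of `ι → ℝ` persists for
all continuous maps uniformly close to it on a small box.
-/

set_option autoImplicit false

open Set Metric

namespace Crest.Agent.R086.Match

/-- Persistence of a nondegenerate zero under small continuous perturbations. -/
theorem exists_zero_of_close {ι : Type*} [Fintype ι]
    (F : (ι → ℝ) → (ι → ℝ)) (x0 : ι → ℝ) (L : (ι → ℝ) ≃L[ℝ] (ι → ℝ))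
    (hF : HasFDerivAt F (L : (ι → ℝ) →L[ℝ] (ι → ℝ)) x0) (h0 : F x0 = 0)
    (δ₀ : ℝ) (hδ₀ : 0 < δ₀) :
    ∃ δ : ℝ, 0 < δ ∧ δ ≤ δ₀ ∧ ∃ η : ℝ, 0 < η ∧
      ∀ G : (ι → ℝ) → (ι → ℝ), ContinuousOn G (closedBall x0 δ) →
        (∀ x ∈ closedBall x0 δ, ‖G x - F x‖ ≤ η) → ∃ x ∈ closedBall x0 δ, G x = 0 := by
  classical
  set K : ℝ := ‖(L.symm : (ι → ℝ) →L[ℝ] (ι → ℝ))‖ + 1 with hK
  have hKpos : 0 < K := by positivity
  have hKle : ∀ v, ‖L.symm v‖ ≤ K * ‖v‖ := by
    intro v
    have h1 := (L.symm : (ι → ℝ) →L[ℝ] (ι → ℝ)).le_opNorm v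
    have h2 : ‖(L.symm : (ι → ℝ) →L[ℝ] (ι → ℝ))‖ * ‖v‖ ≤ K * ‖v‖ := by
      apply mul_le_mul_of_nonneg_right _ (norm_nonneg _)
      rw [hK]; linarith
    exact le_trans h1 h2
  -- little-o bound
  have hlo : ∀ᶠ x in nhds x0, ‖F x - F x0 - L (x - x0)‖ ≤ (1 / (2 * K)) * ‖x - x0‖ := by
    have := hF.isLittleO.bound (show (0 : ℝ) < 1 / (2 * K) by positivity)
    simpa using this
  obtain ⟨r, hr, hball⟩ := Metric.eventually_nhds_iff_ball.mp hlo
  set δ : ℝ := min δ₀ (r / 2) with hδ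
  have hδpos : 0 < δ := by rw [hδ]; positivity
  have hδr : δ < r := lt_of_le_of_lt (min_le_right _ _) (by linarith)
  refine ⟨δ, hδpos, min_le_left _ _, δ / (2 * K), by positivity, ?_⟩
  intro G hG hclose
  -- the rescaled map
  set H : (ι → ℝ) → ι → ℝ := fun t => L.symm (G (x0 + δ • t)) with hH
  have hmem : ∀ t ∈ Set.pi (Set.univ : Set ι) (fun _ => Set.Icc (-1 : ℝ) 1),
      x0 + δ • t ∈ closedBall x0 δ := by
    intro t ht
    rw [mem_closedBall, dist_eq_norm, add_sub_cancel_left, norm_smul, Real.norm_of_nonneg hδpos.le]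
    have : ‖t‖ ≤ 1 := by
      rw [pi_norm_le_iff_of_nonneg zero_le_one]
      intro i
      rw [Real.norm_eq_abs, abs_le]
      exact ht i (mem_univ i)
    nlinarith
  have hest : ∀ t ∈ Set.pi (Set.univ : Set ι) (fun _ => Set.Icc (-1 : ℝ) 1), ∀ i,
      |H t i - δ * t i| ≤ δ := by
    intro t ht i
    have hx := hmem t ht
    have hnorm : ‖(x0 + δ • t) - x0‖ ≤ δ := by
      rw [← dist_eq_norm]; exact mem_closedBall.mp hx
    have h1 : ‖F (x0 + δ • t) - F x0 - L ((x0 + δ • t) - x0)‖ ≤ (1 / (2 * K)) * δ := by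
      refine le_trans (hball _ ?_) ?_
      · rw [mem_ball]; exact lt_of_le_of_lt (mem_closedBall.mp hx) hδr
      · exact mul_le_mul_of_nonneg_left hnorm (by positivity)
    have h2 := hclose _ hx
    have h3 : H t - δ • t = L.symm (G (x0 + δ • t) - L (δ • t)) := by
      simp only [hH, map_sub]
      rw [L.symm_apply_apply]
    have h4 : ‖G (x0 + δ • t) - L (δ • t)‖ ≤ δ / (2 * K) + (1 / (2 * K)) * δ := by
      have : G (x0 + δ • t) - L (δ • t) = (G (x0 + δ • t) - F (x0 + δ • t)) +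
          (F (x0 + δ • t) - F x0 - L ((x0 + δ • t) - x0)) := by
        rw [h0, add_sub_cancel_left]; abel
      rw [this]
      exact le_trans (norm_add_le _ _) (add_le_add h2 h1)
    have h5 : ‖H t - δ • t‖ ≤ δ := by
      rw [h3]
      refine le_trans (hKle _) ?_
      refine le_trans (mul_le_mul_of_nonneg_left h4 hKpos.le) ?_
      have : K * (δ / (2 * K) + 1 / (2 * K) * δ) = δ := by field_simp; ring
      exact this.le
    have h6 : |(H t - δ • t) i| ≤ ‖H t - δ • t‖ := by
      rw [← Real.norm_eq_abs]; exact norm_le_pi_norm _ i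
    have h7 : (H t - δ • t) i = H t i - δ * t i := by simp
    rw [h7] at h6
    exact le_trans h6 h5
  have hHc : ContinuousOn H (Set.pi Set.univ fun _ => Set.Icc (-1 : ℝ) 1) := by
    refine L.symm.continuous.comp_continuousOn ?_
    refine hG.comp (by fun_prop) ?_
    intro t ht
    exact hmem t ht
  obtain ⟨t, ht, hz⟩ := Crest.Agent.R202.poincare_miranda H hHc
    (by
      intro x hx i hi
      have := abs_le.mp (hest x hx i)
      rw [hi] at this
      linarith [this.1])
    (by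
      intro x hx i hi
      have := abs_le.mp (hest x hx i)
      rw [hi] at this
      linarith [this.2])
  refine ⟨x0 + δ • t, hmem t ht, ?_⟩
  have hz' : L.symm (G (x0 + δ • t)) = 0 := by
    funext i; exact hz i
  have := congrArg L hz'
  rwa [L.apply_symm_apply, map_zero] at this

end Crest.Agent.R086.Match
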