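import Mathlib
import Crest.Agent.R086.BDefs
import Crest.Agent.R086.BMatchY2
import Crest.Agent.R086.Match2

/-! # Row 86, Part B, matching: the limit matching function and the zero (helper651) -/

set_option autoImplicit false

open Set Filter Topology Complex

namespace Crest.Agent.R086.BMatch

/-- `ℂ`-valued functions of two real variables: persistence of a nondegenerate zero. -/
theorem zero_of_close_complex (F : ℝ × ℝ → ℂ) (x0 : ℝ × ℝ) (L : (ℝ × ℝ) ≃L[ℝ] ℂ)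
    (hF : HasFDerivAt F (L : (ℝ × ℝ) →L[ℝ] ℂ) x0) (h0 : F x0 = 0)
    (δ₀ : ℝ) (hδ₀ : 0 < δ₀) :
    ∃ δ : ℝ, 0 < δ ∧ δ ≤ δ₀ ∧ ∃ η : ℝ, 0 < η ∧
      ∀ G : ℝ × ℝ → ℂ, ContinuousOn G (Metric.closedBall x0 δ) →
        (∀ x ∈ Metric.closedBall x0 δ, ‖G x - F x‖ ≤ η) → ∃ x ∈ Metric.closedBall x0 δ, G x = 0 := by
  -- identify `ℝ × ℝ` with `Fin 2 → ℝ` and `ℂ` with `Fin 2 → ℝ`
  set e : (Fin 2 → ℝ) ≃L[ℝ] (ℝ × ℝ) := (ContinuousLinearEquiv.finTwoArrow ℝ ℝ) with he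
  set c : ℂ ≃L[ℝ] (Fin 2 → ℝ) := Complex.equivRealProdCLM.trans e.symm with hc
  have hisom : ∀ x y : Fin 2 → ℝ, dist (e x) (e y) = dist x y := by
    intro x y
    rw [dist_pi_def, Prod.dist_eq]
    simp [he, Fin.univ_succ]
  set F' : (Fin 2 → ℝ) → (Fin 2 → ℝ) := fun x => c (F (e x)) with hF'
  set L' : (Fin 2 → ℝ) ≃L[ℝ] (Fin 2 → ℝ) := (e.trans L).trans c with hL'
  have hx0 : e (e.symm x0) = x0 := e.apply_symm_apply x0
  have hd : HasFDerivAt F' (L' : (Fin 2 → ℝ) →L[ℝ] (Fin 2 → ℝ)) (e.symm x0) := by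
    have h1 : HasFDerivAt (fun x => F (e x))
        ((L : (ℝ × ℝ) →L[ℝ] ℂ).comp (e : (Fin 2 → ℝ) →L[ℝ] (ℝ × ℝ))) (e.symm x0) := by
      have hF'' : HasFDerivAt F (L : (ℝ × ℝ) →L[ℝ] ℂ) (e (e.symm x0)) := by rw [hx0]; exact hF
      exact hF''.comp (e.symm x0) e.hasFDerivAt
    have h2 := (c : ℂ →L[ℝ] (Fin 2 → ℝ)).hasFDerivAt.comp (e.symm x0) h1
    exact h2
  have hz : F' (e.symm x0) = 0 := by
    simp only [hF', hx0, h0, map_zero]
  obtain ⟨δ, hδ, hδ', η, hη, hmain⟩ :=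
    Crest.Agent.R086.Match.exists_zero_of_close F' (e.symm x0) L' hd hz δ₀ hδ₀
  set M : ℝ := ‖(c : ℂ →L[ℝ] (Fin 2 → ℝ))‖ + 1 with hM
  have hMpos : 0 < M := by positivity
  refine ⟨δ, hδ, hδ', η / M, by positivity, ?_⟩
  intro G hG hclose
  have hball : ∀ x ∈ Metric.closedBall (e.symm x0) δ, e x ∈ Metric.closedBall x0 δ := by
    intro x hx
    rw [Metric.mem_closedBall] at hx ⊢
    rw [← hx0, hisom]
    exact hx
  have hA : ContinuousOn (fun x => c (G (e x))) (Metric.closedBall (e.symm x0) δ) :=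
    c.continuous.comp_continuousOn (hG.comp e.continuous.continuousOn hball)
  have hB : ∀ x ∈ Metric.closedBall (e.symm x0) δ, ‖c (G (e x)) - F' x‖ ≤ η := by
    intro x hx
    have h1 := hclose _ (hball x hx)
    simp only [hF', ← map_sub]
    refine ((c : ℂ →L[ℝ] (Fin 2 → ℝ)).le_opNorm _).trans ?_
    calc ‖(c : ℂ →L[ℝ] (Fin 2 → ℝ))‖ * ‖G (e x) - F (e x)‖
        ≤ M * (η / M) := by
          refine mul_le_mul ?_ h1 (norm_nonneg _) hMpos.le
          rw [hM]; linarith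
      _ = η := by field_simp
  obtain ⟨x, hx, hx0'⟩ := hmain (fun x => c (G (e x))) hA hB
  exact ⟨e x, hball x hx, (map_eq_zero_iff c c.injective).1 hx0'⟩

/-- product with a continuous nonvanishing factor at a zero -/
theorem hasFDerivAt_mul_of_zero {u g : ℝ × ℝ → ℂ} {x0 : ℝ × ℝ} {L : (ℝ × ℝ) →L[ℝ] ℂ}
    (hu : ContinuousAt u x0) (hg : HasFDerivAt g L x0) (h0 : g x0 = 0) :
    HasFDerivAt (fun x => u x * g x) (u x0 • L) x0 := by
  rw [hasFDerivAt_iff_isLittleO] at hg ⊢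
  have h1 : (fun x => u x * g x - u x0 * g x0 - (u x0 • L) (x - x0))
      = fun x => u x * (g x - g x0 - L (x - x0)) + (u x - u x0) * L (x - x0) := by
    funext x
    simp [h0]
    ring
  rw [h1]
  have hb : u =O[𝓝 x0] (fun _ => (1 : ℝ)) := hu.norm.isBoundedUnder_le.isBigO_one ℝ
  have h2 : (fun x => u x * (g x - g x0 - L (x - x0))) =o[𝓝 x0] fun x => x - x0 := by
    have := hb.mul_isLittleO hg.norm_right
    refine Asymptotics.IsLittleO.of_norm_right ?_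
    simpa using this
  have h3 : (fun x => (u x - u x0) * L (x - x0)) =o[𝓝 x0] fun x => x - x0 := by
    have hs : (fun x => u x - u x0) =o[𝓝 x0] (fun _ => (1 : ℝ)) := by
      rw [Asymptotics.isLittleO_one_iff]
      have := hu.sub_const (u x0)
      simpa [ContinuousAt] using this
    have hL : (fun x => L (x - x0)) =O[𝓝 x0] fun x => ‖x - x0‖ := by
      refine Asymptotics.IsBigO.norm_right ?_
      exact (L.isBigO_comp (fun x => x - x0) (𝓝 x0))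
    have := hs.mul_isBigO hL
    refine Asymptotics.IsLittleO.of_norm_right ?_
    simpa using this
  exact h2.add h3

/-- scaling a continuous linear equivalence to `ℂ` by a nonzero complex number -/
noncomputable def smulEquiv (L : (ℝ × ℝ) ≃L[ℝ] ℂ) (z : ℂ) (hz : z ≠ 0) : (ℝ × ℝ) ≃L[ℝ] ℂ :=
  L.trans (ContinuousLinearEquiv.smulLeft (Units.mk0 z hz))

theorem smulEquiv_coe (L : (ℝ × ℝ) ≃L[ℝ] ℂ) (z : ℂ) (hz : z ≠ 0) :
    ((smulEquiv L z hz : (ℝ × ℝ) ≃L[ℝ] ℂ) : (ℝ × ℝ) →L[ℝ] ℂ) = z • (L : (ℝ × ℝ) →L[ℝ] ℂ) := by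
  ext <;> simp [smulEquiv]

end Crest.Agent.R086.BMatch
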