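import Mathlib
import Crest.Agent.R086.BMatchF

/-! # Row 86, Part B, matching: existence of the matching parameters (helper651) -/

set_option autoImplicit false

open Set Filter Topology Complex

namespace Crest.Agent.R086.BMatch

/-- Matching: if `DI` (interior derivative at `rho`) and `DE` (exterior derivative at `rho`) are
continuous and close to their limits, they agree for some parameters near `(om0, R0)`. -/
theorem matching_zero
    {Y Y1 : ℝ → ℝ → ℝ → ℂ}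
    (hYc : Continuous fun q : ℝ × ℝ × ℝ => Y q.1 q.2.1 q.2.2)
    (hY1c : Continuous fun q : ℝ × ℝ × ℝ => Y1 q.1 q.2.1 q.2.2)
    (hY : ∀ om ∈ Icc (1/5 : ℝ) (1/2), ∀ R1 ∈ Icc (3 : ℝ) (18/5),
      Y om R1 R1 = 1 ∧ Y1 om R1 R1 = 0 ∧ LinSol om (Y om R1) (Y1 om R1) (Ici 1))
    {f f1 : ℝ → ℝ → ℂ} {om0 R0 rho δf : ℝ}
    (hom0 : om0 ∈ Ioo (1/5 : ℝ) (1/2)) (hR0 : R0 ∈ Ioo (3 : ℝ) (18/5)) (hrho : R0 < rho)
    (hδf : 0 < δf)
    (hf : ∀ om ∈ Icc (om0 - δf) (om0 + δf), LinSol om (f om) (f1 om) (Icc 3 rho))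
    (hfc : ContinuousAt (fun om => f om rho) om0)
    (hfrho : f om0 rho ≠ 0) (hz : f1 om0 R0 = 0)
    (L : (ℝ × ℝ) ≃L[ℝ] ℂ)
    (hL : HasFDerivAt (fun p : ℝ × ℝ => f1 p.1 p.2) (L : (ℝ × ℝ) →L[ℝ] ℂ) (om0, R0))
    (δ₀ : ℝ) (hδ₀ : 0 < δ₀) :
    ∃ δ : ℝ, 0 < δ ∧ δ ≤ δ₀ ∧ ∃ η : ℝ, 0 < η ∧
      ∀ DI DE : ℝ × ℝ → ℂ, ContinuousOn DI (Metric.closedBall (om0, R0) δ) →
        ContinuousOn DE (Metric.closedBall (om0, R0) δ) →
        (∀ p ∈ Metric.closedBall (om0, R0) δ, ‖DI p - Y1 p.1 p.2 rho‖ ≤ η ∧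
          ‖DE p - f1 p.1 rho / f p.1 rho * Y p.1 p.2 rho‖ ≤ η) →
        ∃ p ∈ Metric.closedBall (om0, R0) δ, DI p = DE p := by
  set E : ℝ → ℂ := fun r => (r : ℂ) ^ 11 * cexp (I * r ^ 2 / 4) with hE
  have hE0 : ∀ r : ℝ, r ≠ 0 → E r ≠ 0 := by
    intro r hr
    exact mul_ne_zero (pow_ne_zero _ (by exact_mod_cast hr)) (exp_ne_zero _)
  have hEc : Continuous E := by fun_prop
  have hrho0 : rho ≠ 0 := by
    have := hR0.1
    linarith
  set u : ℝ × ℝ → ℂ := fun p => -(E p.2) / (E rho * f p.1 rho) with hu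
  set F : ℝ × ℝ → ℂ := fun p => Y1 p.1 p.2 rho - f1 p.1 rho / f p.1 rho * Y p.1 p.2 rho with hF
  have huc : ContinuousAt u (om0, R0) := by
    refine ContinuousAt.div ?_ ?_ ?_
    · exact (hEc.comp continuous_snd).continuousAt.neg
    · refine continuousAt_const.mul ?_
      exact ContinuousAt.comp (f := fun p : ℝ × ℝ => p.1) (g := fun om => f om rho) hfc continuousAt_fst
    · exact mul_ne_zero (hE0 _ hrho0) hfrho
  have hu0 : u (om0, R0) ≠ 0 := by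
    have hR0' : R0 ≠ 0 := by have := hR0.1; linarith
    exact div_ne_zero (neg_ne_zero.2 (hE0 _ hR0')) (mul_ne_zero (hE0 _ hrho0) hfrho)
  -- the identity near the base point
  have hev : F =ᶠ[𝓝 (om0, R0)] fun p => u p * f1 p.1 p.2 := by
    have e1 : ∀ᶠ p : ℝ × ℝ in 𝓝 (om0, R0), f p.1 rho ≠ 0 := by
      have : ContinuousAt (fun p : ℝ × ℝ => f p.1 rho) (om0, R0) :=
        ContinuousAt.comp (f := fun p : ℝ × ℝ => p.1) (g := fun om => f om rho) hfc continuousAt_fst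
      exact this.eventually_ne hfrho
    have e2 : ∀ᶠ p : ℝ × ℝ in 𝓝 (om0, R0), p.1 ∈ Ioo (max (1/5) (om0 - δf)) (min (1/2) (om0 + δf)) := by
      refine continuousAt_fst.eventually (Ioo_mem_nhds ?_ ?_)
      · exact max_lt hom0.1 (by simp only; linarith)
      · exact lt_min hom0.2 (by simp only; linarith)
    have e3 : ∀ᶠ p : ℝ × ℝ in 𝓝 (om0, R0), p.2 ∈ Ioo (3 : ℝ) (min (18/5) rho) := by
      refine continuousAt_snd.eventually (Ioo_mem_nhds ?_ ?_)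
      · exact hR0.1
      · exact lt_min hR0.2 hrho
    filter_upwards [e1, e2, e3] with p h1 h2 h3
    obtain ⟨om, R1⟩ := p
    simp only at h1 h2 h3
    have hom : om ∈ Icc (1/5 : ℝ) (1/2) :=
      ⟨((le_max_left _ _).trans_lt h2.1).le, (h2.2.trans_le (min_le_left _ _)).le⟩
    have hom' : om ∈ Icc (om0 - δf) (om0 + δf) :=
      ⟨((le_max_right _ _).trans_lt h2.1).le, (h2.2.trans_le (min_le_right _ _)).le⟩
    have hR1 : R1 ∈ Icc (3 : ℝ) (18/5) := ⟨h3.1.le, (h3.2.trans_le (min_le_left _ _)).le⟩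
    have hR1r : R1 ≤ rho := (h3.2.trans_le (min_le_right _ _)).le
    obtain ⟨y0, y1, hlin⟩ := hY om hom R1 hR1
    have hR1p : 0 < R1 := by linarith [h3.1]
    have hw := wronskian (y := Y om R1) (y1 := Y1 om R1) (f := f om) (f1 := f1 om) hR1p hR1r
      (fun r hr => hlin r (by have := hr.1; have := h3.1; exact (by linarith : (1:ℝ) ≤ r)))
      (fun r hr => hf om hom' r ⟨h3.1.le.trans hr.1, hr.2⟩)
    rw [y0, y1] at hw
    simp only [hF, hu, hE]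
    have hrc : (rho : ℂ) ≠ 0 := by exact_mod_cast hrho0
    have hex : cexp (I * (rho : ℂ) ^ 2 / 4) ≠ 0 := exp_ne_zero _
    generalize cexp (I * (rho : ℂ) ^ 2 / 4) = er at hw hex ⊢
    generalize cexp (I * (R1 : ℂ) ^ 2 / 4) = eR at hw ⊢
    field_simp
    linear_combination hw
  have hFd : HasFDerivAt F ((smulEquiv L (u (om0, R0)) hu0 : (ℝ × ℝ) ≃L[ℝ] ℂ) : (ℝ × ℝ) →L[ℝ] ℂ)
      (om0, R0) := by
    rw [smulEquiv_coe]
    exact (hasFDerivAt_mul_of_zero huc hL hz).congr_of_eventuallyEq hev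
  have hF0 : F (om0, R0) = 0 := by
    rw [hev.eq_of_nhds]
    simp [hz]
  obtain ⟨δ, hδ, hδ', η, hη, hmain⟩ := zero_of_close_complex F (om0, R0) _ hFd hF0 δ₀ hδ₀
  refine ⟨δ, hδ, hδ', η / 2, by positivity, ?_⟩
  intro DI DE hDI hDE hcl
  obtain ⟨p, hp, hp0⟩ := hmain (fun p => DI p - DE p) (hDI.sub hDE) (by
    intro p hp
    obtain ⟨a1, a2⟩ := hcl p hp
    have : DI p - DE p - F p
        = (DI p - Y1 p.1 p.2 rho) - (DE p - f1 p.1 rho / f p.1 rho * Y p.1 p.2 rho) := by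
      simp only [hF]; ring
    rw [this]
    refine (norm_sub_le _ _).trans ?_
    linarith)
  exact ⟨p, hp, sub_eq_zero.1 hp0⟩

end Crest.Agent.R086.BMatch
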