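import Mathlib
import Crest.Agent.R086.BMatchD
import Crest.Agent.R086.BMatchZ
import Crest.Agent.R086.BMatchG
import Crest.Agent.R086.CoreEx

/-! # Row 86, Part B, matching: the main theorem (helper651) -/

set_option autoImplicit false

open Set Filter Topology Complex

namespace Crest.Agent.R086.BMatch

open Crest.Agent.R086.B

/-- geometry of the matching: the parameter box around `(om0, R)` -/
theorem exists_geom {Y Y1 : ℝ → ℝ → ℝ → ℂ}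
    (hYc : Continuous fun q : ℝ × ℝ × ℝ => Y q.1 q.2.1 q.2.2)
    (hY : ∀ om ∈ Icc (1/5 : ℝ) (1/2), ∀ R1 ∈ Icc (3 : ℝ) (18/5),
      Y om R1 R1 = 1 ∧ Y1 om R1 R1 = 0 ∧ LinSol om (Y om R1) (Y1 om R1) (Ici 1))
    {Uo Uo1 : ℝ → ℝ → ℂ} (hO : OutFam Uo Uo1) {om0 R : ℝ} {c0 : ℂ}
    (hom0 : om0 ∈ Ioo (1/5 : ℝ) (1/2)) (hR : R ∈ Ioo (3 : ℝ) (18/5))
    (hc0 : c0 * Uo om0 R = 1) (hz : Uo1 om0 R = 0) {d0 : ℝ} (hd0 : 0 < d0)
    {rho : ℝ} (hrho : R < rho) (hrho2 : rho ≤ R + d0 / 2) (hrho3 : rho < 18/5)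
    (hU : Uo om0 rho ≠ 0) :
    (∀ r ∈ Icc R rho, Y om0 R r = c0 * Uo om0 r ∧ Y1 om0 R r = c0 * Uo1 om0 r) ∧
    ContinuousAt (fun om => Uo om rho) om0 ∧
    ContinuousAt (fun p : ℝ × ℝ => Y p.1 p.2 rho / Uo p.1 rho) (om0, R) ∧
    Y om0 R rho / Uo om0 rho = c0 ∧
    ∀ del : ℝ, 0 < del → ∃ δ₁ : ℝ, 0 < δ₁ ∧ ∀ p ∈ Metric.closedBall ((om0, R) : ℝ × ℝ) δ₁,
      p.1 ∈ Icc (1/5 : ℝ) (1/2) ∧ |p.1 - om0| ≤ del ∧ p.2 ∈ Icc (3 : ℝ) rho ∧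
      (rho - R) / 2 ≤ rho - p.2 ∧ rho - p.2 ≤ d0 ∧ Uo p.1 rho ≠ 0 ∧
      ‖Y p.1 p.2 rho / Uo p.1 rho - c0‖ ≤ del := by
  have hrho0 : 0 < rho := by linarith [hR.1]
  have hid : ∀ r ∈ Icc R rho, Y om0 R r = c0 * Uo om0 r ∧ Y1 om0 R r = c0 * Uo1 om0 r := by
    have h := hY om0 (Ioo_subset_Icc_self hom0) R (Ioo_subset_Icc_self hR)
    refine lin_unique (om := om0) (by linarith [hR.1]) (fun r hr => h.2.2 r
      (show (1:ℝ) ≤ r by linarith [hR.1, hr.1])) ?_ ?_ ?_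
    · intro r hr
      have h2 := hO.lin om0 (Ioo_subset_Icc_self hom0) r (show (0:ℝ) < r by linarith [hR.1, hr.1])
      refine ⟨h2.1.const_mul c0, (h2.2.const_mul c0).congr_deriv ?_⟩
      ring
    · rw [h.1, hc0]
    · rw [h.2.1, hz, mul_zero]
  have hUc : ContinuousAt (fun om => Uo om rho) om0 := by
    have h1 : ContinuousOn (fun om => Uo om rho) (Icc (1/5 : ℝ) (1/2)) :=
      hO.cont.comp (f := fun om : ℝ => ((om, rho) : ℝ × ℝ)) (by fun_prop)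
        (fun om hom => ⟨hom, hrho0⟩)
    exact h1.continuousAt (Icc_mem_nhds hom0.1 hom0.2)
  have hUc' : ContinuousAt (fun p : ℝ × ℝ => Uo p.1 rho) (om0, R) :=
    ContinuousAt.comp (f := fun p : ℝ × ℝ => p.1) (g := fun om => Uo om rho) hUc continuousAt_fst
  have hYc' : Continuous (fun p : ℝ × ℝ => Y p.1 p.2 rho) := by
    have : Continuous (fun p : ℝ × ℝ => ((p.1, p.2, rho) : ℝ × ℝ × ℝ)) := by fun_prop
    exact hYc.comp this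
  have hcc : ContinuousAt (fun p : ℝ × ℝ => Y p.1 p.2 rho / Uo p.1 rho) (om0, R) :=
    hYc'.continuousAt.div hUc' hU
  have hcv : Y om0 R rho / Uo om0 rho = c0 := by
    rw [(hid rho ⟨hrho.le, le_rfl⟩).1]
    field_simp
  refine ⟨hid, hUc, hcc, hcv, ?_⟩
  intro del hdel
  have e1 : ∀ᶠ p : ℝ × ℝ in 𝓝 (om0, R), p.1 ∈ Ioo (1/5 : ℝ) (1/2) :=
    (continuous_fst.tendsto ((om0, R) : ℝ × ℝ)) (Ioo_mem_nhds hom0.1 hom0.2)
  have e2 : ∀ᶠ p : ℝ × ℝ in 𝓝 (om0, R), p.1 ∈ Ioo (om0 - del) (om0 + del) :=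
    (continuous_fst.tendsto ((om0, R) : ℝ × ℝ)) (Ioo_mem_nhds (by simp [hdel]) (by simp [hdel]))
  have e3 : ∀ᶠ p : ℝ × ℝ in 𝓝 (om0, R), p.2 ∈ Ioo 3 rho :=
    (continuous_snd.tendsto ((om0, R) : ℝ × ℝ)) (Ioo_mem_nhds hR.1 hrho)
  have e4 : ∀ᶠ p : ℝ × ℝ in 𝓝 (om0, R), p.2 ∈ Ioo (rho - d0) (rho - (rho - R) / 2) :=
    (continuous_snd.tendsto ((om0, R) : ℝ × ℝ))
      (Ioo_mem_nhds (by simp only; linarith) (by simp only; linarith))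
  have e5 : ∀ᶠ p : ℝ × ℝ in 𝓝 (om0, R), Uo p.1 rho ≠ 0 := hUc'.eventually_ne hU
  have e6 : ∀ᶠ p : ℝ × ℝ in 𝓝 (om0, R), dist (Y p.1 p.2 rho / Uo p.1 rho) c0 < del := by
    have h1 := hcc
    unfold ContinuousAt at h1
    simp only [hcv] at h1
    exact h1 (Metric.ball_mem_nhds _ hdel)
  obtain ⟨δ₁, hδ₁, hsub⟩ := Metric.nhds_basis_closedBall.eventually_iff.1
    (e1.and (e2.and (e3.and (e4.and (e5.and e6)))))
  refine ⟨δ₁, hδ₁, fun p hp => ?_⟩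
  obtain ⟨h1, h2, h3, h4, h5, h6⟩ := hsub hp
  refine ⟨Ioo_subset_Icc_self h1, ?_, Ioo_subset_Icc_self h3, ?_, ?_, h5, ?_⟩
  · rw [abs_le]
    constructor <;> linarith [h2.1, h2.2]
  · linarith [h4.2]
  · linarith [h4.1]
  · rw [← dist_eq_norm]
    exact h6.le

end Crest.Agent.R086.BMatch
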