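import Mathlib
import Crest.Agent.R086.BMatchM

/-! # Row 86, Part B, matching: the main theorem (helper651) -/

set_option autoImplicit false

open Set Filter Topology Complex

namespace Crest.Agent.R086.BMatch

open Crest.Agent.R086.B

set_option maxHeartbeats 1000000 in
/-- matching at a fixed radius `rho` -/
theorem match_rho {Y Y1 : ℝ → ℝ → ℝ → ℂ}
    (hYc : Continuous fun q : ℝ × ℝ × ℝ => Y q.1 q.2.1 q.2.2)
    (hY1c : Continuous fun q : ℝ × ℝ × ℝ => Y1 q.1 q.2.1 q.2.2)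
    (hY : ∀ om ∈ Icc (1/5 : ℝ) (1/2), ∀ R1 ∈ Icc (3 : ℝ) (18/5),
      Y om R1 R1 = 1 ∧ Y1 om R1 R1 = 0 ∧ LinSol om (Y om R1) (Y1 om R1) (Ici 1))
    {d0 : ℝ} (hd0 : 0 < d0)
    (hdecr : ∀ om ∈ Icc (1/5 : ℝ) (1/2), ∀ R1 ∈ Icc (3 : ℝ) (18/5),
      ∀ r ∈ Icc R1 (R1 + d0), ‖Y om R1 r‖ ^ 2 ≤ 1 - (r - R1) ^ 2 / 10)
    {Uo Uo1 : ℝ → ℝ → ℂ} (hO : OutFam Uo Uo1) {om0 R : ℝ} {c0 : ℂ}
    (hom0 : om0 ∈ Ioo (1/5 : ℝ) (1/2)) (hR : R ∈ Ioo (3 : ℝ) (18/5))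
    (hc0 : c0 * Uo om0 R = 1) (hz : Uo1 om0 R = 0)
    (L : (ℝ × ℝ) ≃L[ℝ] ℂ)
    (hL : HasFDerivAt (fun p : ℝ × ℝ => Uo1 p.1 p.2) (L : (ℝ × ℝ) →L[ℝ] ℂ) (om0, R))
    {rho : ℝ} (hrho : R < rho) (hrho2 : rho ≤ R + d0 / 2) (hrho3 : rho < 18/5)
    (hU : Uo om0 rho ≠ 0) (hLim : LimStmt rho) (hCont : ContStmt rho)
    {del : ℝ} {n1 : ℕ} {v v1 : ℕ → ℝ → ℂ → ℝ → ℂ} (hdel : 0 < del)
    (H1 : ∀ n : ℕ, n1 ≤ n → Even n → ∀ om : ℝ, |om - om0| ≤ del → ∀ c : ℂ, ‖c - c0‖ ≤ del →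
      ContinuousOn (v n om c) (Ici rho) ∧ ContinuousOn (v1 n om c) (Ici rho) ∧
      IsSol n om (1 / n) (v n om c) (v1 n om c) (Ioi rho))
    (H2 : ∀ n : ℕ, n1 ≤ n → Even n →
      ContinuousOn (fun p : ℝ × ℂ => v n p.1 p.2 rho)
        {p : ℝ × ℂ | |p.1 - om0| ≤ del ∧ ‖p.2 - c0‖ ≤ del} ∧
      ContinuousOn (fun p : ℝ × ℂ => v1 n p.1 p.2 rho)
        {p : ℝ × ℂ | |p.1 - om0| ≤ del ∧ ‖p.2 - c0‖ ≤ del})
    (H3 : ∀ η : ℝ, 0 < η → ∃ N : ℕ, ∀ n, N ≤ n → Even n → ∀ om : ℝ, |om - om0| ≤ del →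
      ∀ c : ℂ, ‖c - c0‖ ≤ del →
        ‖v n om c rho - c * Uo om rho‖ ≤ η ∧ ‖v1 n om c rho - c * Uo1 om rho‖ ≤ η) :
    ∃ (N : ℕ) (om R1 : ℕ → ℝ) (c : ℕ → ℂ) (u u1 : ℕ → ℝ → ℂ),
      Tendsto om atTop (𝓝 om0) ∧ Tendsto R1 atTop (𝓝 R) ∧ Tendsto c atTop (𝓝 c0) ∧
      (∀ n : ℕ, N ≤ n → Even n → om n ∈ Icc (1/5 : ℝ) (1/2) ∧ |om n - om0| ≤ del ∧
        ‖c n - c0‖ ≤ del ∧ ContinuousOn (u n) (Ici 0) ∧ ContinuousOn (u1 n) (Ici 0) ∧
        u1 n 0 = 0 ∧ IsSol n (om n) (1 / n) (u n) (u1 n) (Ioi 0) ∧ ‖u n rho‖ ≤ 1 ∧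
        (∀ r, rho ≤ r → u n r = v n (om n) (c n) r ∧ u1 n r = v1 n (om n) (c n) r)) ∧
      (∀ η : ℝ, 0 < η → ∃ N' : ℕ, ∀ n, N' ≤ n → Even n → ∀ r ∈ Icc 0 rho,
        ‖u n r - (if r ≤ R then 1 else c0 * Uo om0 r)‖ ≤ η ∧
        ‖u1 n r - (if r ≤ R then 0 else c0 * Uo1 om0 r)‖ ≤ η) := by
  obtain ⟨hid, hUc, hcc, hcv, hgeo⟩ := exists_geom hYc hY hO hom0 hR hc0 hz hd0 hrho hrho2 hrho3 hU
  obtain ⟨δ₁, hδ₁, hbox⟩ := hgeo del hdel
  have hrho0 : 0 < rho := by linarith [hR.1]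
  set c' : ℝ × ℝ → ℂ := fun p => Y p.1 p.2 rho / Uo p.1 rho with hc'
  set K : Set (ℝ × ℝ) := Metric.closedBall ((om0, R) : ℝ × ℝ) δ₁ with hK
  have hKc : IsCompact K := isCompact_closedBall _ _
  -- continuity of the amplitude
  have hcK : ContinuousOn c' K := by
    have h1 : Continuous (fun p : ℝ × ℝ => Y p.1 p.2 rho) := by
      have : Continuous (fun p : ℝ × ℝ => ((p.1, p.2, rho) : ℝ × ℝ × ℝ)) := by fun_prop
      exact hYc.comp this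
    have h2 : ContinuousOn (fun p : ℝ × ℝ => Uo p.1 rho) K :=
      hO.cont.comp (f := fun p : ℝ × ℝ => ((p.1, rho) : ℝ × ℝ)) (by fun_prop)
        (fun p hp => ⟨(hbox p hp).1, hrho0⟩)
    exact h1.continuousOn.div h2 (fun p hp => (hbox p hp).2.2.2.2.2.1)
  -- interior solutions
  have hex : ∀ (n : ℕ) (om : ℝ) (b : ℂ), ∃ u u1 : ℝ → ℂ, 2 ≤ n → om ∈ Icc (1/5 : ℝ) (1/2) →
      ‖b‖ ≤ 1 → IntSol n om rho u u1 ∧ u rho = b := by
    intro n om b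
    by_cases h : 2 ≤ n ∧ om ∈ Icc (1/5 : ℝ) (1/2) ∧ ‖b‖ ≤ 1
    · obtain ⟨h1, h2, h3⟩ := h
      have heps : (1 / (n : ℝ)) ∈ Icc (0:ℝ) 1 := by
        have hn : (1:ℝ) ≤ n := by exact_mod_cast (le_trans (by norm_num) h1)
        exact ⟨by positivity, by rw [div_le_one (by linarith)]; exact hn⟩
      obtain ⟨u, u1, a1, a2, a3, a4, a5, -, -⟩ :=
        Core.exists_bvp n h1 rho om (1 / n) hrho0 hrho3.le h2 heps b h3
      exact ⟨u, u1, fun _ _ _ => ⟨⟨a1, a2, a3, a4, by rw [a5]; exact h3⟩, a5⟩⟩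
    · exact ⟨fun _ => 0, fun _ => 0, fun h1 h2 h3 => absurd ⟨h1, h2, h3⟩ h⟩
  choose uI uI1 huI using hex
  set b : ℕ → ℝ × ℝ → ℂ := fun n p => v n p.1 (c' p) rho with hb
  -- closeness of the boundary values
  have hbY : ∀ η : ℝ, 0 < η → ∃ N : ℕ, ∀ n, N ≤ n → Even n → ∀ p ∈ K,
      ‖b n p - Y p.1 p.2 rho‖ ≤ η ∧ ‖v1 n p.1 (c' p) rho - c' p * Uo1 p.1 rho‖ ≤ η := by
    intro η hη
    obtain ⟨N, hN⟩ := H3 η hη
    refine ⟨N, fun n hn he p hp => ?_⟩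
    obtain ⟨-, q2, -, -, -, q6, q7⟩ := hbox p hp
    have h1 := hN n hn he p.1 q2 (c' p) q7
    refine ⟨?_, h1.2⟩
    have h2 : c' p * Uo p.1 rho = Y p.1 p.2 rho := by
      simp only [hc']
      field_simp
    rw [← h2]
    exact h1.1
  set κ : ℝ := ((rho - R) / 2) ^ 2 / 20 with hκ
  have hκ0 : 0 < κ := by
    have : 0 < rho - R := by linarith
    positivity
  have hYle : ∀ p ∈ K, ‖Y p.1 p.2 rho‖ ≤ 1 - κ := by
    intro p hp
    obtain ⟨q1, q2, q3, q4, q5, q6, q7⟩ := hbox p hp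
    have h1 := hdecr p.1 q1 p.2 ⟨q3.1, by linarith [q3.2]⟩ rho ⟨q3.2, by linarith⟩
    have h2 : ((rho - R) / 2) ^ 2 ≤ (rho - p.2) ^ 2 := by
      apply pow_le_pow_left₀ (by linarith) q4
    have h3 : ‖Y p.1 p.2 rho‖ ^ 2 ≤ 1 - 2 * κ := by
      rw [hκ]; linarith
    by_contra h4
    rw [not_le] at h4
    have h5 : 0 ≤ 1 - 2 * κ := (sq_nonneg _).trans h3
    have h6 : (1 - κ) ^ 2 < ‖Y p.1 p.2 rho‖ ^ 2 := by
      apply pow_lt_pow_left₀ h4 (by linarith) (by norm_num)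
    nlinarith
  obtain ⟨NB, hNB⟩ := hbY κ hκ0
  have hb1 : ∀ n, NB ≤ n → Even n → ∀ p ∈ K, ‖b n p‖ ≤ 1 := by
    intro n hn he p hp
    have h1 := (hNB n hn he p hp).1
    have h2 := hYle p hp
    calc ‖b n p‖ = ‖(b n p - Y p.1 p.2 rho) + Y p.1 p.2 rho‖ := by ring_nf
      _ ≤ ‖b n p - Y p.1 p.2 rho‖ + ‖Y p.1 p.2 rho‖ := norm_add_le _ _
      _ ≤ 1 := by linarith
  -- continuity of the boundary value
  have hbc : ∀ n, n1 ≤ n → Even n → ContinuousOn (b n) K := by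
    intro n hn he
    refine (H2 n hn he).1.comp (f := fun p : ℝ × ℝ => ((p.1, c' p) : ℝ × ℂ)) ?_ ?_
    · exact continuous_fst.continuousOn.prodMk hcK
    · intro p hp
      exact ⟨(hbox p hp).2.1, (hbox p hp).2.2.2.2.2.2⟩
  have hDEc : ∀ n, n1 ≤ n → Even n → ContinuousOn (fun p : ℝ × ℝ => v1 n p.1 (c' p) rho) K := by
    intro n hn he
    refine (H2 n hn he).2.comp (f := fun p : ℝ × ℝ => ((p.1, c' p) : ℝ × ℂ)) ?_ ?_
    · exact continuous_fst.continuousOn.prodMk hcK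
    · intro p hp
      exact ⟨(hbox p hp).2.1, (hbox p hp).2.2.2.2.2.2⟩
  have hDIc : ∀ n, n1 ≤ n → 2 ≤ n → NB ≤ n → Even n →
      ContinuousOn (fun p : ℝ × ℝ => uI1 n p.1 (b n p) rho) K := by
    intro n hn hn2 hnB he
    rw [Metric.continuousOn_iff]
    intro p hp ε hε
    obtain ⟨hs, hsb⟩ := huI n p.1 (b n p) hn2 (hbox p hp).1 (hb1 n hnB he p hp)
    obtain ⟨dl, hdl, hcl⟩ := hCont n hn2 he p.1 (hbox p hp).1 _ _ hs (ε / 2) (by positivity)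
    have hbc' := Metric.continuousOn_iff.1 (hbc n hn he) p hp dl hdl
    obtain ⟨d2, hd2, hbc2⟩ := hbc'
    refine ⟨min d2 dl, lt_min hd2 hdl, fun q hq hqp => ?_⟩
    obtain ⟨hsq, hsqb⟩ := huI n q.1 (b n q) hn2 (hbox q hq).1 (hb1 n hnB he q hq)
    have h1 := hcl q.1 (hbox q hq).1 ?_ _ _ hsq ?_
    · rw [dist_eq_norm]
      linarith
    · have h2 : dist q.1 p.1 ≤ dist q p := by rw [Prod.dist_eq]; exact le_max_left _ _
      rw [Real.dist_eq] at h2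
      exact h2.trans (hqp.le.trans (min_le_right _ _))
    · rw [hsb, hsqb, ← dist_eq_norm]
      exact (hbc2 q hq (hqp.trans_le (min_le_left _ _))).le
  -- bound for `VV Y1`
  obtain ⟨M, hM⟩ : ∃ M : ℝ, ∀ q ∈ K ×ˢ Icc 0 rho, ‖VV Y1 q.1.1 q.1.2 q.2‖ ≤ M :=
    (hKc.prod isCompact_Icc).exists_bound_of_continuousOn (continuous_VV hY1c).continuousOn
  have hVle : ∀ p ∈ K, ∀ r ∈ Icc 0 rho, ‖VV Y p.1 p.2 r‖ ≤ 1 := by
    intro p hp r hr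
    obtain ⟨q1, q2, q3, q4, q5, q6, q7⟩ := hbox p hp
    have hR1 : p.2 ∈ Icc (3:ℝ) (18/5) := ⟨q3.1, by linarith [q3.2]⟩
    rcases le_total r p.2 with h | h
    · rw [VV_le h, (hY p.1 q1 p.2 hR1).1]
      simp
    · rw [VV_ge h]
      have h1 := hdecr p.1 q1 p.2 hR1 r ⟨h, by linarith [hr.2]⟩
      have h2 : ‖Y p.1 p.2 r‖ ^ 2 ≤ 1 := h1.trans (by nlinarith [sq_nonneg (r - p.2)])
      exact (sq_le_one_iff₀ (norm_nonneg _)).1 h2
  -- the interior limit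
  have hD : ∀ η : ℝ, 0 < η → ∃ N : ℕ, ∀ n, N ≤ n → Even n → ∀ p ∈ K, ∀ r ∈ Icc 0 rho,
      ‖uI n p.1 (b n p) r - VV Y p.1 p.2 r‖ ≤ η ∧ ‖uI1 n p.1 (b n p) r - VV Y1 p.1 p.2 r‖ ≤ η := by
    intro η hη
    obtain ⟨n0, η1, hη1, hlim⟩ := hLim η hη M
    obtain ⟨N2, hN2⟩ := hbY η1 hη1
    refine ⟨max n0 (max N2 (max NB 2)), fun n hn he p hp => ?_⟩
    have hn0 : n0 ≤ n := (le_max_left _ _).trans hn
    have hnN2 : N2 ≤ n := ((le_max_left _ _).trans (le_max_right _ _)).trans hn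
    have hnNB : NB ≤ n :=
      ((le_max_left _ _).trans ((le_max_right _ _).trans (le_max_right _ _))).trans hn
    have hn2 : 2 ≤ n :=
      ((le_max_right _ _).trans ((le_max_right _ _).trans (le_max_right _ _))).trans hn
    obtain ⟨q1, q2, q3, q4, q5, q6, q7⟩ := hbox p hp
    have hR1 : p.2 ∈ Icc (3:ℝ) (18/5) := ⟨q3.1, by linarith [q3.2]⟩
    obtain ⟨hy1, hy2, hy3⟩ := hY p.1 q1 p.2 hR1
    obtain ⟨hs, hsb⟩ := huI n p.1 (b n p) hn2 q1 (hb1 n hnNB he p hp)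
    have hcv1 : Continuous (VV Y p.1 p.2) := by
      have : Continuous (fun r : ℝ => (((p.1, p.2), r) : (ℝ × ℝ) × ℝ)) := by fun_prop
      exact (continuous_VV hYc).comp this
    have hcv2 : Continuous (VV Y1 p.1 p.2) := by
      have : Continuous (fun r : ℝ => (((p.1, p.2), r) : (ℝ × ℝ) × ℝ)) := by fun_prop
      exact (continuous_VV hY1c).comp this
    refine hlim n hn0 he p.1 q1 p.2 q3 (VV Y p.1 p.2) (VV Y1 p.1 p.2) hcv1.continuousOn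
      hcv2.continuousOn ?_ (isLin_VV q3.1 hy3 rho) (hVle p hp) ?_ _ _ hs ?_
    · intro r hr
      exact ⟨by rw [VV_le hr.2, hy1], by rw [VV_le hr.2, hy2]⟩
    · intro r hr
      exact hM (p, r) ⟨hp, hr⟩
    · rw [hsb, VV_ge q3.2]
      exact (hN2 n hnN2 he p hp).1
  -- matching in small balls
  obtain ⟨δf, hδf, hδf2⟩ : ∃ δf : ℝ, 0 < δf ∧ Icc (om0 - δf) (om0 + δf) ⊆ Icc (1/5 : ℝ) (1/2) := by
    refine ⟨min (om0 - 1/5) (1/2 - om0), lt_min (by linarith [hom0.1]) (by linarith [hom0.2]), ?_⟩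
    intro x hx
    have a1 := min_le_left (om0 - 1/5) (1/2 - om0)
    have a2 := min_le_right (om0 - 1/5) (1/2 - om0)
    exact ⟨by linarith [hx.1], by linarith [hx.2]⟩
  have hmatch : ∀ δ₀ : ℝ, 0 < δ₀ → δ₀ ≤ δ₁ → ∃ N : ℕ, ∀ n, N ≤ n → Even n →
      ∃ p ∈ Metric.closedBall ((om0, R) : ℝ × ℝ) δ₀,
        uI1 n p.1 (b n p) rho = v1 n p.1 (c' p) rho := by
    intro δ₀ hδ₀ hδ₀1
    obtain ⟨δ, hδ, hδδ, η, hη, hzero⟩ := matching_zero hYc hY1c hY (f := Uo) (f1 := Uo1)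
      (om0 := om0) (R0 := R) (rho := rho) (δf := δf) hom0 hR hrho hδf
      (fun om hom r hr => hO.lin om (hδf2 hom) r (show (0:ℝ) < r by linarith [hr.1])) hUc hU hz L hL
      δ₀ hδ₀
    have hsub : Metric.closedBall ((om0, R) : ℝ × ℝ) δ ⊆ K :=
      Metric.closedBall_subset_closedBall (hδδ.trans hδ₀1)
    obtain ⟨N1, hN1⟩ := hD η hη
    obtain ⟨N2, hN2⟩ := hbY η hη
    refine ⟨max N1 (max N2 (max NB (max n1 2))), fun n hn he => ?_⟩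
    simp only [max_le_iff] at hn
    obtain ⟨hnN1, hnN2, hnNB, hnn1, hn2⟩ := hn
    obtain ⟨p, hp, hpe⟩ := hzero (fun p => uI1 n p.1 (b n p) rho) (fun p => v1 n p.1 (c' p) rho)
      ((hDIc n hnn1 hn2 hnNB he).mono hsub) ((hDEc n hnn1 he).mono hsub) (by
        intro p hp
        refine ⟨?_, ?_⟩
        · have h1 := (hN1 n hnN1 he p (hsub hp) rho ⟨hrho0.le, le_rfl⟩).2
          rw [VV_ge (hbox p (hsub hp)).2.2.1.2] at h1
          exact h1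
        · have h1 := (hN2 n hnN2 he p (hsub hp)).2
          have h2 : c' p * Uo1 p.1 rho = Uo1 p.1 rho / Uo p.1 rho * Y p.1 p.2 rho := by
            simp only [hc']
            ring
          rw [← h2]
          exact h1)
    exact ⟨p, Metric.closedBall_subset_closedBall hδδ hp, hpe⟩
  -- diagonal sequence
  have hcen : ∀ k : ℕ, ((om0, R) : ℝ × ℝ) ∈ Metric.closedBall ((om0, R) : ℝ × ℝ) (δ₁ / (k + 1)) :=
    fun k => Metric.mem_closedBall_self (by positivity)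
  obtain ⟨s, hs⟩ := exists_diag
    (fun k n (p : ℝ × ℝ) => p ∈ Metric.closedBall ((om0, R) : ℝ × ℝ) (δ₁ / (k + 1)) ∧
      (0 < k → Even n → uI1 n p.1 (b n p) rho = v1 n p.1 (c' p) rho))
    (by
      intro k n p hp
      refine ⟨Metric.closedBall_subset_closedBall ?_ hp.1, fun _ => hp.2 (Nat.succ_pos k)⟩
      apply div_le_div_of_nonneg_left hδ₁.le (by positivity)
      push_cast
      linarith)
    (fun n => ⟨(om0, R), hcen 0, fun h => absurd h (lt_irrefl 0)⟩)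
    (by
      intro k
      obtain ⟨N, hN⟩ := hmatch (δ₁ / (k + 1)) (by positivity) (by
        rw [div_le_iff₀ (by positivity)]
        have : (0:ℝ) ≤ k := Nat.cast_nonneg k
        nlinarith)
      refine ⟨N, fun n hn => ?_⟩
      by_cases he : Even n
      · obtain ⟨p, hp, hpe⟩ := hN n hn he
        exact ⟨p, hp, fun _ _ => hpe⟩
      · exact ⟨(om0, R), hcen k, fun _ h => absurd h he⟩)
  obtain ⟨N1, hN1⟩ := hs 1
  have hslim : Tendsto s atTop (𝓝 ((om0, R) : ℝ × ℝ)) := by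
    rw [Metric.tendsto_atTop]
    intro ε hε
    obtain ⟨k, hk⟩ := exists_nat_gt (δ₁ / ε)
    obtain ⟨N, hN⟩ := hs k
    refine ⟨N, fun n hn => ?_⟩
    have h1 := (hN n hn).1
    rw [Metric.mem_closedBall] at h1
    refine h1.trans_lt ?_
    rw [div_lt_iff₀ (by positivity)]
    rw [div_lt_iff₀ hε] at hk
    nlinarith
  have hsK : ∀ n, N1 ≤ n → s n ∈ K := fun n hn => by
    refine Metric.closedBall_subset_closedBall ?_ (hN1 n hn).1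
    rw [div_le_iff₀ (by positivity)]
    push_cast
    nlinarith
  set N0 : ℕ := max N1 (max NB (max n1 2)) with hN0
  refine ⟨N0, fun n => (s n).1, fun n => (s n).2, fun n => c' (s n),
    fun n => glue rho (uI n (s n).1 (b n (s n))) (v n (s n).1 (c' (s n))),
    fun n => glue rho (uI1 n (s n).1 (b n (s n))) (v1 n (s n).1 (c' (s n))),
    ?_, ?_, ?_, ?_, ?_⟩
  · exact (continuous_fst.tendsto _).comp hslim
  · exact (continuous_snd.tendsto _).comp hslim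
  · have h1 := hcc.tendsto.comp hslim
    have h2 : c' ((om0, R) : ℝ × ℝ) = c0 := hcv
    rw [h2] at h1
    exact h1
  · intro n hn he
    rw [hN0] at hn
    simp only [max_le_iff] at hn
    obtain ⟨hnN1, hnNB, hnn1, hn2⟩ := hn
    have hp := hsK n hnN1
    obtain ⟨q1, q2, q3, q4, q5, q6, q7⟩ := hbox _ hp
    obtain ⟨⟨a1, a2, a3, a4, a5⟩, hsb⟩ := huI n (s n).1 (b n (s n)) hn2 q1 (hb1 n hnNB he _ hp)
    obtain ⟨w1, w2, w3⟩ := H1 n hnn1 he (s n).1 q2 (c' (s n)) q7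
    have hm0 : uI n (s n).1 (b n (s n)) rho = v n (s n).1 (c' (s n)) rho := hsb
    have hm1 : uI1 n (s n).1 (b n (s n)) rho = v1 n (s n).1 (c' (s n)) rho :=
      (hN1 n hnN1).2 one_pos he
    refine ⟨q1, q2, q7, continuousOn_glue hrho0.le a1 w1 hm0, continuousOn_glue hrho0.le a2 w2 hm1,
      ?_, isSol_glue hrho0 a1 a2 w1 w2 a4 w3 hm0 hm1, ?_, fun r hr => ⟨glue_ge hm0 hr, glue_ge hm1 hr⟩⟩
    · show glue rho _ _ 0 = 0
      rw [glue_le hrho0.le, a3]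
    · show ‖glue rho _ _ rho‖ ≤ 1
      rw [glue_le le_rfl]
      exact a5
  · intro η hη
    obtain ⟨N2, hN2⟩ := hD (η / 2) (by positivity)
    -- uniform continuity in the parameter
    have hunif : ∀ (Z : ℝ → ℝ → ℝ → ℂ), (Continuous fun q : ℝ × ℝ × ℝ => Z q.1 q.2.1 q.2.2) →
        ∃ N, ∀ n, N ≤ n → ∀ r ∈ Icc 0 rho, ‖VV Z (s n).1 (s n).2 r - VV Z om0 R r‖ ≤ η / 2 := by
      intro Z hZ
      have h1 : Continuous (↿(fun (p : ℝ × ℝ) (r : Icc (0:ℝ) rho) => VV Z p.1 p.2 (r : ℝ))) := by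
        have : Continuous (fun q : (ℝ × ℝ) × (Icc (0:ℝ) rho) =>
            (((q.1.1, q.1.2), (q.2 : ℝ)) : (ℝ × ℝ) × ℝ)) := by fun_prop
        exact (continuous_VV hZ).comp this
      have h2 := Continuous.tendstoUniformly _ h1 ((om0, R) : ℝ × ℝ)
      rw [Metric.tendstoUniformly_iff] at h2
      have h3 := hslim.eventually (h2 (η / 2) (by positivity))
      obtain ⟨N, hN⟩ := eventually_atTop.1 h3
      refine ⟨N, fun n hn r hr => ?_⟩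
      have h4 := hN n hn ⟨r, hr⟩
      rw [dist_comm, dist_eq_norm] at h4
      exact h4.le
    obtain ⟨N3, hN3⟩ := hunif Y hYc
    obtain ⟨N4, hN4⟩ := hunif Y1 hY1c
    refine ⟨max N1 (max N2 (max N3 N4)), fun n hn he r hr => ?_⟩
    simp only [max_le_iff] at hn
    obtain ⟨hnN1, hnN2, hnN3, hnN4⟩ := hn
    obtain ⟨hy1, hy2, hy3⟩ := hY om0 (Ioo_subset_Icc_self hom0) R (Ioo_subset_Icc_self hR)
    have e0 : VV Y om0 R r = if r ≤ R then 1 else c0 * Uo om0 r := by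
      split_ifs with h
      · rw [VV_le h, hy1]
      · rw [VV_ge (not_le.1 h).le]
        exact (hid r ⟨(not_le.1 h).le, hr.2⟩).1
    have e1 : VV Y1 om0 R r = if r ≤ R then 0 else c0 * Uo1 om0 r := by
      split_ifs with h
      · rw [VV_le h, hy2]
      · rw [VV_ge (not_le.1 h).le]
        exact (hid r ⟨(not_le.1 h).le, hr.2⟩).2
    have g0 := hN3 n hnN3 r hr
    have g1 := hN4 n hnN4 r hr
    obtain ⟨g2, g3⟩ := hN2 n hnN2 he (s n) (hsK n hnN1) r hr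
    rw [← e0, ← e1]
    show ‖glue rho _ _ r - _‖ ≤ η ∧ ‖glue rho _ _ r - _‖ ≤ η
    rw [glue_le hr.2, glue_le hr.2]
    refine ⟨?_, ?_⟩
    · calc ‖uI n (s n).1 (b n (s n)) r - VV Y om0 R r‖
          = ‖(uI n (s n).1 (b n (s n)) r - VV Y (s n).1 (s n).2 r)
            + (VV Y (s n).1 (s n).2 r - VV Y om0 R r)‖ := by ring_nf
        _ ≤ η / 2 + η / 2 := (norm_add_le _ _).trans (add_le_add g2 g0)
        _ = η := by ring
    · calc ‖uI1 n (s n).1 (b n (s n)) r - VV Y1 om0 R r‖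
          = ‖(uI1 n (s n).1 (b n (s n)) r - VV Y1 (s n).1 (s n).2 r)
            + (VV Y1 (s n).1 (s n).2 r - VV Y1 om0 R r)‖ := by ring_nf
        _ ≤ η / 2 + η / 2 := (norm_add_le _ _).trans (add_le_add g3 g1)
        _ = η := by ring

/-- **matching**: for `rho` slightly larger than `R` -/
theorem match_main {Uo Uo1 : ℝ → ℝ → ℂ} (hO : OutFam Uo Uo1) {om0 R : ℝ} {c0 : ℂ}
    (hom0 : om0 ∈ Ioo (1/5 : ℝ) (1/2)) (hR : R ∈ Ioo (3 : ℝ) (18/5))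
    (hc0 : c0 * Uo om0 R = 1) (hz : Uo1 om0 R = 0)
    (L : (ℝ × ℝ) ≃L[ℝ] ℂ)
    (hL : HasFDerivAt (fun p : ℝ × ℝ => Uo1 p.1 p.2) (L : (ℝ × ℝ) →L[ℝ] ℂ) (om0, R)) :
    ∃ d1 : ℝ, 0 < d1 ∧ ∀ rho : ℝ, R < rho → rho ≤ R + d1 →
      rho < 18/5 ∧ (∀ r ∈ Icc R rho, Uo om0 r ≠ 0) ∧ (LimStmt rho → ContStmt rho →
      ∀ {del : ℝ} {n1 : ℕ} {v v1 : ℕ → ℝ → ℂ → ℝ → ℂ} (_ : 0 < del)
        (_ : ∀ n : ℕ, n1 ≤ n → Even n → ∀ om : ℝ, |om - om0| ≤ del → ∀ c : ℂ, ‖c - c0‖ ≤ del →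
          ContinuousOn (v n om c) (Ici rho) ∧ ContinuousOn (v1 n om c) (Ici rho) ∧
          IsSol n om (1 / n) (v n om c) (v1 n om c) (Ioi rho))
        (_ : ∀ n : ℕ, n1 ≤ n → Even n →
          ContinuousOn (fun p : ℝ × ℂ => v n p.1 p.2 rho)
            {p : ℝ × ℂ | |p.1 - om0| ≤ del ∧ ‖p.2 - c0‖ ≤ del} ∧
          ContinuousOn (fun p : ℝ × ℂ => v1 n p.1 p.2 rho)
            {p : ℝ × ℂ | |p.1 - om0| ≤ del ∧ ‖p.2 - c0‖ ≤ del})
        (_ : ∀ η : ℝ, 0 < η → ∃ N : ℕ, ∀ n, N ≤ n → Even n → ∀ om : ℝ, |om - om0| ≤ del →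
          ∀ c : ℂ, ‖c - c0‖ ≤ del →
            ‖v n om c rho - c * Uo om rho‖ ≤ η ∧ ‖v1 n om c rho - c * Uo1 om rho‖ ≤ η),
        ∃ (N : ℕ) (om R1 : ℕ → ℝ) (c : ℕ → ℂ) (u u1 : ℕ → ℝ → ℂ),
          Tendsto om atTop (𝓝 om0) ∧ Tendsto R1 atTop (𝓝 R) ∧ Tendsto c atTop (𝓝 c0) ∧
          (∀ n : ℕ, N ≤ n → Even n → om n ∈ Icc (1/5 : ℝ) (1/2) ∧ |om n - om0| ≤ del ∧
            ‖c n - c0‖ ≤ del ∧ ContinuousOn (u n) (Ici 0) ∧ ContinuousOn (u1 n) (Ici 0) ∧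
            u1 n 0 = 0 ∧ IsSol n (om n) (1 / n) (u n) (u1 n) (Ioi 0) ∧ ‖u n rho‖ ≤ 1 ∧
            (∀ r, rho ≤ r → u n r = v n (om n) (c n) r ∧ u1 n r = v1 n (om n) (c n) r)) ∧
          (∀ η : ℝ, 0 < η → ∃ N' : ℕ, ∀ n, N' ≤ n → Even n → ∀ r ∈ Icc 0 rho,
            ‖u n r - (if r ≤ R then 1 else c0 * Uo om0 r)‖ ≤ η ∧
            ‖u1 n r - (if r ≤ R then 0 else c0 * Uo1 om0 r)‖ ≤ η)) := by
  obtain ⟨Y, Y1, hYc, hY1c, hY⟩ := exists_Y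
  obtain ⟨d0, hd0, hdecr⟩ := exists_decr hYc hY1c hY
  -- `Uo om0 ≠ 0` near `R`
  have hUR : Uo om0 R ≠ 0 := by
    intro h
    rw [h, mul_zero] at hc0
    exact zero_ne_one hc0
  have hcU : ContinuousAt (Uo om0) R :=
    (hO.lin om0 (Ioo_subset_Icc_self hom0) R (show (0:ℝ) < R by linarith [hR.1])).1.continuousAt
  obtain ⟨d2, hd2, hd2'⟩ := Metric.nhds_basis_closedBall.eventually_iff.1 (hcU.eventually_ne hUR)
  refine ⟨min (d0 / 2) (min d2 ((18/5 - R) / 2)), by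
    refine lt_min (by positivity) (lt_min hd2 (by linarith [hR.2])), ?_⟩
  intro rho hrho hrho1
  have e1 : rho ≤ R + d0 / 2 := hrho1.trans (by gcongr; exact min_le_left _ _)
  have e2 : rho ≤ R + d2 := hrho1.trans (by
    gcongr; exact (min_le_right _ _).trans (min_le_left _ _))
  have e3 : rho ≤ R + (18/5 - R) / 2 := hrho1.trans (by
    gcongr; exact (min_le_right _ _).trans (min_le_right _ _))
  have e4 : rho < 18/5 := by linarith [hR.2]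
  have e5 : ∀ r ∈ Icc R rho, Uo om0 r ≠ 0 := by
    intro r hr
    apply hd2'
    rw [Metric.mem_closedBall, Real.dist_eq, abs_le]
    constructor <;> linarith [hr.1, hr.2]
  refine ⟨e4, e5, fun hLim hCont => ?_⟩
  intro del n1 v v1 hdel H1 H2 H3
  exact match_rho hYc hY1c hY hd0 hdecr hO hom0 hR hc0 hz L hL hrho e1 e4
    (e5 rho ⟨hrho.le, le_rfl⟩) hLim hCont hdel H1 H2 H3

end Crest.Agent.R086.BMatch
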