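import Mathlib
import Crest.Agent.R086.BMatchN
import Crest.Agent.R086.BLim
import Crest.Agent.R086.BCont

/-! # Row 86, Part B, matching: the output `BSeq` (helper651) -/

set_option autoImplicit false

open Set Filter Topology Complex
open scoped ContDiff

namespace Crest.Agent.R086.BMatch

open Crest.Agent.R086.B

theorem heps {n : ℕ} (h : 2 ≤ n) : (1 / (n : ℝ)) ∈ Icc (0:ℝ) 1 := by
  have hn : (1:ℝ) ≤ n := by exact_mod_cast (le_trans (by norm_num) h)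
  exact ⟨by positivity, by rw [div_le_one (by linarith)]; exact hn⟩

theorem limStmt {rho : ℝ} (hrho0 : 0 < rho) (hrho : rho ≤ 18 / 5) : LimStmt rho := by
  intro η hη M
  obtain ⟨n0, δ, hδ, h⟩ := B.limit (M := max M 0) hrho (le_max_right _ _) hη
  refine ⟨max n0 2, δ, hδ, ?_⟩
  intro n hn _ om hom R1 hR1 V V1 hV hV1 hcore hlin hVle hV1le v v1 hs hb
  obtain ⟨a1, a2, a3, a4, a5⟩ := hs
  have hn2 : 2 ≤ n := (le_max_right _ _).trans hn
  obtain ⟨b1, b2, b3⟩ := Core.apriori_v1 n hn2 hrho0 hrho hom (heps hn2) a1 a2 a3 a4 a5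
  exact h n ((le_max_left _ _).trans hn) om ⟨by linarith [hom.1], hom.2⟩ R1 hR1 V V1 v v1 hV hV1
    hcore hlin hVle (fun r hr => (hV1le r hr).trans (le_max_left _ _)) a1 a2 a4 b1
    (fun r hr => (b3 r hr).trans (by linarith [hr.1])) hb

theorem contStmt {rho : ℝ} (hrho0 : 0 < rho) (hrho : rho ≤ 18 / 5) : ContStmt rho := by
  intro n hn2 _ om hom v v1 hs η hη
  obtain ⟨a1, a2, a3, a4, a5⟩ := hs
  obtain ⟨del, hdel, h⟩ := BC.cont_v1_at (n := n) hn2 hrho0 hrho (heps hn2) hom a5 hη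
  refine ⟨del, hdel, ?_⟩
  intro om2 hom2 hd w w1 hw hwv
  obtain ⟨b1, b2, b3, b4, b5⟩ := hw
  exact h om2 hom2 (w rho) b5 hd hwv v v1 w w1 a1 a2 a3 a4 rfl b1 b2 b3 b4 rfl

theorem symX_congr {C : ℕ → ℝ} {del X : ℝ} {w w' : ℝ → ℂ} (h : SymX C del X w)
    (hw : EqOn w' w (Ioi X)) : SymX C del X w' := by
  refine ⟨h.1.congr hw, fun j x hx => ?_⟩
  have he : w' =ᶠ[𝓝 x] w := by
    filter_upwards [Ioi_mem_nhds hx] with y hy using hw hy
  rw [he.iteratedDeriv_eq]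
  exact h.2 j x hx

theorem farGood_congr {n : ℕ} {q c X : ℝ} {C : ℕ → ℝ} {V V' : ℝ → ℂ} (h : FarGood n q c X C V)
    (hV : EqOn V' V (Ioi X)) : FarGood n q c X C V' := by
  refine ⟨symX_congr h.sym hV, ?_, ?_, ?_, ?_, ?_⟩
  · intro x hx
    rw [hV hx]
    exact h.lower x hx
  · intro x hx
    rw [hV hx]
    exact h.upper x hx
  · exact symX_congr h.symA (fun x hx => by unfold wA; rw [hV hx])
  · exact symX_congr h.symB (fun x hx => by unfold wB; rw [hV hx])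
  · exact symX_congr h.symC (fun x hx => by unfold wC; rw [hV hx])

/-- the limit profile -/
noncomputable def Ulim (Uo : ℝ → ℝ → ℂ) (om0 R : ℝ) (c0 : ℂ) (r : ℝ) : ℂ :=
  if r ≤ R then 1 else c0 * Uo om0 r

/-- its derivative -/
noncomputable def Ulim1 (Uo1 : ℝ → ℝ → ℂ) (om0 R : ℝ) (c0 : ℂ) (r : ℝ) : ℂ :=
  if r ≤ R then 0 else c0 * Uo1 om0 r

/-- uniform convergence of `c * Z om r` on compact `r`-intervals -/
theorem unif_amp {Z : ℝ → ℝ → ℂ} {om0 : ℝ} {c0 : ℂ} (hom0 : om0 ∈ Ioo (1/5 : ℝ) (1/2))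
    (hZ : ContinuousOn (fun p : ℝ × ℝ => Z p.1 p.2) (Icc (1/5 : ℝ) (1/2) ×ˢ Ioi 0))
    {om : ℕ → ℝ} {c : ℕ → ℂ} (hom : Tendsto om atTop (𝓝 om0)) (hc : Tendsto c atTop (𝓝 c0))
    {a b : ℝ} (ha : 0 < a) {e : ℝ} (he : 0 < e) :
    ∃ N : ℕ, ∀ n, N ≤ n → ∀ r ∈ Icc a b, ‖c n * Z (om n) r - c0 * Z om0 r‖ ≤ e := by
  have h1 : ContinuousOn (↿(fun (p : ℝ × ℂ) (r : Icc a b) => p.2 * Z p.1 (r : ℝ)))
      ((Icc (1/5 : ℝ) (1/2) ×ˢ univ) ×ˢ univ) := by
    have h2 : ContinuousOn (fun q : (ℝ × ℂ) × (Icc a b) => Z q.1.1 (q.2 : ℝ))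
        ((Icc (1/5 : ℝ) (1/2) ×ˢ univ) ×ˢ univ) :=
      hZ.comp (f := fun q : (ℝ × ℂ) × (Icc a b) => ((q.1.1, (q.2 : ℝ)) : ℝ × ℝ)) (by fun_prop)
        (fun q hq => ⟨hq.1.1, ha.trans_le q.2.2.1⟩)
    have h3 : ContinuousOn (fun q : (ℝ × ℂ) × (Icc a b) => q.1.2)
        ((Icc (1/5 : ℝ) (1/2) ×ˢ univ) ×ˢ univ) := by fun_prop
    exact h3.mul h2
  have h4 : TendstoUniformly (fun (p : ℝ × ℂ) (r : Icc a b) => p.2 * Z p.1 (r : ℝ))
      (fun r : Icc a b => c0 * Z om0 (r : ℝ)) (𝓝 ((om0, c0) : ℝ × ℂ)) :=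
    ContinuousOn.tendstoUniformly (x := ((om0, c0) : ℝ × ℂ))
      (U := Icc (1/5 : ℝ) (1/2) ×ˢ univ) (prod_mem_nhds (Icc_mem_nhds hom0.1 hom0.2) univ_mem) h1
  rw [Metric.tendstoUniformly_iff] at h4
  have h5 := (hom.prodMk_nhds hc).eventually (h4 e he)
  obtain ⟨N, hN⟩ := eventually_atTop.1 h5
  refine ⟨N, fun n hn r hr => ?_⟩
  have h6 := hN n hn ⟨r, hr⟩
  rw [dist_comm, dist_eq_norm] at h6
  exact h6.le

/-- **output of the matching** -/
theorem exists_bseq {Uo Uo1 : ℝ → ℝ → ℂ} (hO : OutFam Uo Uo1) {om0 R : ℝ} {c0 : ℂ}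
    (hom0 : om0 ∈ Ioo (1/5 : ℝ) (1/2)) (hR : R ∈ Ioo (3 : ℝ) (18/5))
    (hc0 : c0 * Uo om0 R = 1) (hz : Uo1 om0 R = 0)
    (L : (ℝ × ℝ) ≃L[ℝ] ℂ)
    (hL : HasFDerivAt (fun p : ℝ × ℝ => Uo1 p.1 p.2) (L : (ℝ × ℝ) →L[ℝ] ℂ) (om0, R))
    (hExt : ∀ rho : ℝ, R < rho → rho < 18/5 → ExtStmt om0 rho 9 c0 Uo Uo1) :
    Nonempty (BSeq om0 R (Ulim Uo om0 R c0) (Ulim1 Uo1 om0 R c0)) := by
  obtain ⟨d1, hd1, hmain⟩ := match_main hO hom0 hR hc0 hz L hL
  set rho : ℝ := R + d1 with hrho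
  obtain ⟨hr1, hr2, hmain⟩ := hmain rho (by linarith) le_rfl
  have hrR : R < rho := by linarith
  have hrho0 : 0 < rho := by linarith [hR.1]
  obtain ⟨del, q, cl, X, C, n1, v, v1, hdel, hq0, hq1, hcl, hX1, hrX, E1, E2, E3⟩ :=
    hExt rho hrR hr1
  have hX20 : (20.25 : ℝ) ≤ X := by
    refine le_trans ?_ hrX
    norm_num
  have hsX : 9 ≤ 2 * Real.sqrt X := by
    have : (4.5 : ℝ) ≤ Real.sqrt X := Real.le_sqrt_of_sq_le (by norm_num; linarith)
    linarith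
  have hrhoX : rho ≤ 2 * Real.sqrt X + 1 := by linarith
  obtain ⟨N, om, R1, c, u, u1, hom, -, hc, hsol, hconv⟩ := hmain (limStmt hrho0 hr1.le)
    (contStmt hrho0 hr1.le) hdel
    (fun n hn he om hom c hc => by
      obtain ⟨a1, a2, a3, -, -⟩ := E1 n hn he om hom c hc
      exact ⟨a1, a2, a3⟩) E2
    (fun η hη => by
      obtain ⟨N, hN⟩ := E3 η hη
      exact ⟨N, fun n hn he om hom c hc => hN n hn he om hom c hc rho ⟨le_rfl, hrhoX⟩⟩)
  refine ⟨{ om := om, v := u, v1 := u1, n1 := max N (max n1 2), X := X, q := q, cl := cl, C := C,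
            X_ge := by linarith, q_pos := hq0, q_lt := hq1, cl_pos := hcl,
            two_le := (le_max_right _ _).trans (le_max_right _ _), om_lim := hom,
            sol := ?_, om_mem := ?_, v1_le := ?_, pow_le := ?_, conv := ?_, far := ?_ }⟩
  · intro n hn he
    obtain ⟨-, -, -, a1, a2, a3, a4, -, -⟩ := hsol n ((le_max_left _ _).trans hn) he
    exact ⟨a1, a2, a3, a4⟩
  · intro n hn he
    exact (hsol n ((le_max_left _ _).trans hn) he).1
  · intro n hn he r hr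
    have hn2 : 2 ≤ n := ((le_max_right _ _).trans (le_max_right _ _)).trans hn
    obtain ⟨a0, -, -, a1, a2, a3, a4, a5, -⟩ := hsol n ((le_max_left _ _).trans hn) he
    have h1 := (Core.apriori_v1 n hn2 hrho0 hr1.le a0 (heps hn2) (a1.mono Icc_subset_Ici_self)
      (a2.mono Icc_subset_Ici_self) a3 (fun r hr => a4 r hr.1) a5).2.2 r
      ⟨hr.1, by linarith [hr.2, hR.1]⟩
    exact h1.trans (by linarith [hr.1])
  · intro n hn he r hr
    have hn2 : 2 ≤ n := ((le_max_right _ _).trans (le_max_right _ _)).trans hn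
    have hnn1 : n1 ≤ n := ((le_max_left _ _).trans (le_max_right _ _)).trans hn
    obtain ⟨a0, b1, b2, a1, a2, a3, a4, a5, a6⟩ := hsol n ((le_max_left _ _).trans hn) he
    rcases le_total r rho with h | h
    · exact (Core.apriori_v1 n hn2 hrho0 hr1.le a0 (heps hn2) (a1.mono Icc_subset_Ici_self)
        (a2.mono Icc_subset_Ici_self) a3 (fun r hr => a4 r hr.1) a5).1 r ⟨hr, h⟩
    · rw [(a6 r h).1]
      have h1 := (E1 n hnn1 he (om n) b1 (c n) b2).2.2.2.1 r h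
      exact (pow_le_one₀ (norm_nonneg _) (h1.trans hq1.le)).trans (by norm_num)
  · intro e he
    obtain ⟨N1, hN1⟩ := hconv e he
    obtain ⟨N2, hN2⟩ := E3 (e / 2) (by positivity)
    obtain ⟨N3, hN3⟩ := unif_amp (a := rho) (b := 2 * Real.sqrt X + 1) hom0 hO.cont hom hc hrho0
      (half_pos he)
    obtain ⟨N4, hN4⟩ := unif_amp (a := rho) (b := 2 * Real.sqrt X + 1) hom0 hO.cont1 hom hc hrho0
      (half_pos he)
    refine ⟨max (max N (max N1 N2)) (max N3 N4), fun n hn hev r hr => ?_⟩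
    simp only [max_le_iff] at hn
    obtain ⟨⟨hnN, hnN1, hnN2⟩, hnN3, hnN4⟩ := hn
    rcases le_total r rho with h | h
    · exact hN1 n hnN1 hev r ⟨hr.1, h⟩
    · obtain ⟨a0, b1, b2, -, -, -, -, -, a6⟩ := hsol n hnN hev
      have g1 := hN2 n hnN2 hev (om n) b1 (c n) b2 r ⟨h, hr.2⟩
      have g2 := hN3 n hnN3 r ⟨h, hr.2⟩
      have g3 := hN4 n hnN4 r ⟨h, hr.2⟩
      have hnR : ¬ r ≤ R := by
        rw [not_le]; linarith
      have e0 : Ulim Uo om0 R c0 r = c0 * Uo om0 r := if_neg hnR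
      have e1 : Ulim1 Uo1 om0 R c0 r = c0 * Uo1 om0 r := if_neg hnR
      rw [e0, e1, (a6 r h).1, (a6 r h).2]
      refine ⟨?_, ?_⟩
      · calc ‖v n (om n) (c n) r - c0 * Uo om0 r‖
            = ‖(v n (om n) (c n) r - c n * Uo (om n) r) + (c n * Uo (om n) r - c0 * Uo om0 r)‖ := by
              ring_nf
          _ ≤ e / 2 + e / 2 := (norm_add_le _ _).trans (add_le_add g1.1 g2)
          _ = e := by ring
      · calc ‖v1 n (om n) (c n) r - c0 * Uo1 om0 r‖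
            = ‖(v1 n (om n) (c n) r - c n * Uo1 (om n) r) +
                (c n * Uo1 (om n) r - c0 * Uo1 om0 r)‖ := by
              ring_nf
          _ ≤ e / 2 + e / 2 := (norm_add_le _ _).trans (add_le_add g1.2 g3)
          _ = e := by ring
  · intro n hn he
    have hnn1 : n1 ≤ n := ((le_max_left _ _).trans (le_max_right _ _)).trans hn
    obtain ⟨a0, b1, b2, -, -, -, -, -, a6⟩ := hsol n ((le_max_left _ _).trans hn) he
    refine farGood_congr (E1 n hnn1 he (om n) b1 (c n) b2).2.2.2.2 ?_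
    intro x hx
    unfold toX
    refine (a6 _ ?_).1
    have h1 : Real.sqrt X ≤ Real.sqrt x := Real.sqrt_le_sqrt (le_of_lt hx)
    linarith

end Crest.Agent.R086.BMatch
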