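import Mathlib
import Crest.Agent.R086.BMatchS
import Crest.Agent.R086.BLimit
import Crest.Agent.R086.OutFam

/-! # Row 86, Part B, matching: `BSeq` from the data of Part A and the exterior statement (helper651) -/

set_option autoImplicit false

open Set Filter Topology Complex

namespace Crest.Agent.R086.BMatch

open Crest.Agent.R086.B

theorem bseq_of_A (D : A.AData)
    (hExt : ∀ rho : ℝ, D.R < rho → rho < 18/5 →
      ExtStmt D.om rho 9 (1 / JCx.Uo D.om D.R) JCx.Uo JCx.Uo1) :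
    Nonempty (BSeq D.om D.R (BLim.U D) (BLim.U1 D)) := by
  obtain ⟨L, hL⟩ := D.nondeg
  have hom : D.om ∈ Ioo (1/5 : ℝ) (1/2) := by
    have h1 := BLim.om_lo D
    have h2 := BLim.om_hi D
    constructor <;> linarith
  have hR : D.R ∈ Ioo (3 : ℝ) (18/5) := by
    have h1 := BLim.R_lo D
    have h2 := BLim.R_hi D
    constructor <;> linarith
  have e0 : ∀ om r : ℝ, JCx.Uo om r = A.fo 0 (-(I * om)) r := fun om r => rfl
  have e1 : ∀ om r : ℝ, JCx.Uo1 om r = A.fo1 0 (-(I * om)) r := by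
    intro om r
    unfold JCx.Uo1 JCx.Phi1 A.fo1 A.fo JCx.zr
    ring
  have hne : JCx.Uo D.om D.R ≠ 0 := D.fo_ne
  have hc0 : 1 / JCx.Uo D.om D.R * JCx.Uo D.om D.R = 1 := by field_simp
  have hz : JCx.Uo1 D.om D.R = 0 := by rw [e1]; exact D.fo1_zero
  have hL' : HasFDerivAt (fun p : ℝ × ℝ => JCx.Uo1 p.1 p.2) (L : (ℝ × ℝ) →L[ℝ] ℂ) (D.om, D.R) := by
    have : (fun p : ℝ × ℝ => JCx.Uo1 p.1 p.2) = fun p : ℝ × ℝ => A.fo1 0 (-(I * p.1)) p.2 :=
      funext fun p => e1 p.1 p.2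
    rw [this]
    exact hL.hasFDerivAt
  have h := exists_bseq JCx.outFam hom hR hc0 hz L hL' hExt
  have g0 : Ulim JCx.Uo D.om D.R (1 / JCx.Uo D.om D.R) = BLim.U D := by
    funext r
    unfold Ulim BLim.U
    split_ifs with hr
    · rfl
    · rw [one_div, ← div_eq_inv_mul]
      rfl
  have g1 : Ulim1 JCx.Uo1 D.om D.R (1 / JCx.Uo D.om D.R) = BLim.U1 D := by
    funext r
    unfold Ulim1 BLim.U1
    split_ifs with hr
    · rfl
    · rw [one_div, ← div_eq_inv_mul, e1]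
      rfl
  rw [g0, g1] at h
  exact h

end Crest.Agent.R086.BMatch
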