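import Crest.Agent.R086.BJ
import Crest.Agent.R086.BExtDefs

/-!
Row 86, part B, node T1 (helper292): exponential smallness of the three potentials on compact sets of
the variable `x`, where `|V| ≤ M < 1`, with all derivatives.
-/

set_option autoImplicit false

open Complex Set
open scoped ContDiff

namespace Crest.Agent.R086.B

open Crest.Agent.R086.BJ

/-! ### the potentials as polynomials in `V`, `conj V` -/

theorem norm_pow_even (z : ℂ) (m : ℕ) :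
    ((‖z‖ ^ (2 * m) : ℝ) : ℂ) = (z * (starRingEnd ℂ) z) ^ m := by
  rw [Complex.mul_conj, Complex.normSq_eq_norm_sq, pow_mul]
  push_cast
  rfl

theorem wA_eq (m : ℕ) (V : ℝ → ℂ) :
    wA (2 * m) V = fun x => (V x * (starRingEnd ℂ) (V x)) ^ m := by
  funext x; exact norm_pow_even _ _

theorem wB_eq (m : ℕ) (V : ℝ → ℂ) :
    wB (2 * (m + 1)) V = fun x => (V x * (starRingEnd ℂ) (V x)) ^ m * (V x) ^ 2 := by
  funext x
  unfold wB
  rw [show 2 * (m + 1) - 2 = 2 * m by omega, norm_pow_even]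

theorem wC_eq (m : ℕ) (V : ℝ → ℂ) :
    wC (2 * (m + 1)) V = fun x => (V x * (starRingEnd ℂ) (V x)) ^ m *
      ((starRingEnd ℂ) (V x)) ^ 2 := by
  funext x
  unfold wC
  rw [show 2 * (m + 1) - 2 = 2 * m by omega, norm_pow_even]

section smooth

variable {V : ℝ → ℂ} {s : Set ℝ} {N : ℕ∞}

theorem contDiffOn_wA {n : ℕ} (hn : Even n) (hV : ContDiffOn ℝ N V s) :
    ContDiffOn ℝ N (wA n V) s := by
  obtain ⟨m, rfl⟩ := even_iff_exists_two_mul.1 hn
  rw [wA_eq]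
  exact (hV.mul (Complex.conjCLE.contDiff.comp_contDiffOn hV)).pow m

theorem contDiffOn_wB {n : ℕ} (h2 : 2 ≤ n) (hn : Even n) (hV : ContDiffOn ℝ N V s) :
    ContDiffOn ℝ N (wB n V) s := by
  obtain ⟨m, rfl⟩ := even_iff_exists_two_mul.1 hn
  obtain ⟨m, rfl⟩ : ∃ m', m = m' + 1 := ⟨m - 1, by omega⟩
  rw [wB_eq]
  exact ((hV.mul (Complex.conjCLE.contDiff.comp_contDiffOn hV)).pow m).mul (hV.pow 2)

theorem contDiffOn_wC {n : ℕ} (h2 : 2 ≤ n) (hn : Even n) (hV : ContDiffOn ℝ N V s) :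
    ContDiffOn ℝ N (wC n V) s := by
  obtain ⟨m, rfl⟩ := even_iff_exists_two_mul.1 hn
  obtain ⟨m, rfl⟩ : ∃ m', m = m' + 1 := ⟨m - 1, by omega⟩
  rw [wC_eq]
  exact ((hV.mul (Complex.conjCLE.contDiff.comp_contDiffOn hV)).pow m).mul
    ((Complex.conjCLE.contDiff.comp_contDiffOn hV).pow 2)

end smooth

/-! ### jets of the potentials -/

section jets

variable {V : ℝ → ℂ} {s : Set ℝ} {x lam q : ℝ} {k n : ℕ}

theorem J_VcV (hl : 0 ≤ lam) (hs : UniqueDiffOn ℝ s) (hx : x ∈ s) (hV : ContDiffOn ℝ ∞ V s)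
    (hq : J k lam V s x ≤ q) :
    J k lam (fun y => V y * (starRingEnd ℂ) (V y)) s x ≤ q ^ 2 := by
  have h1 := J_mul (k := k) hl hs hx hV (contDiffOn_conj hV)
  rw [J_conj hs hx] at h1
  have h0 : 0 ≤ J k lam V s x := J_nonneg hl
  calc _ ≤ _ := h1
    _ ≤ q * q := mul_le_mul hq hq h0 (h0.trans hq)
    _ = q ^ 2 := (sq q).symm

theorem J_wA (hn : Even n) (hl : 0 ≤ lam) (hs : UniqueDiffOn ℝ s) (hx : x ∈ s)
    (hV : ContDiffOn ℝ ∞ V s) (hq : J k lam V s x ≤ q) :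
    J k lam (wA n V) s x ≤ q ^ n := by
  obtain ⟨m, rfl⟩ := even_iff_exists_two_mul.1 hn
  rw [wA_eq]
  calc _ ≤ _ := J_pow hl hs hx (hV.mul (contDiffOn_conj hV)) m
    _ ≤ (q ^ 2) ^ m := pow_le_pow_left₀ (J_nonneg hl) (J_VcV hl hs hx hV hq) m
    _ = _ := by rw [← pow_mul]

theorem J_wB (h2 : 2 ≤ n) (hn : Even n) (hl : 0 ≤ lam) (hs : UniqueDiffOn ℝ s) (hx : x ∈ s)
    (hV : ContDiffOn ℝ ∞ V s) (hq : J k lam V s x ≤ q) :
    J k lam (wB n V) s x ≤ q ^ n := by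
  have h0 : 0 ≤ q := (J_nonneg hl).trans hq
  obtain ⟨m, rfl⟩ := even_iff_exists_two_mul.1 hn
  obtain ⟨m, rfl⟩ : ∃ m', m = m' + 1 := ⟨m - 1, by omega⟩
  rw [wB_eq]
  calc _ ≤ _ := J_mul hl hs hx ((hV.mul (contDiffOn_conj hV)).pow m) (hV.pow 2)
    _ ≤ (q ^ 2) ^ m * q ^ 2 := by
        refine mul_le_mul ?_ ?_ (J_nonneg hl) (by positivity)
        · exact (J_pow hl hs hx (hV.mul (contDiffOn_conj hV)) m).trans
            (pow_le_pow_left₀ (J_nonneg hl) (J_VcV hl hs hx hV hq) m)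
        · exact (J_pow hl hs hx hV 2).trans (pow_le_pow_left₀ (J_nonneg hl) hq 2)
    _ = q ^ (2 * (m + 1)) := by rw [← pow_mul, ← pow_add]; congr 1

theorem J_wC (h2 : 2 ≤ n) (hn : Even n) (hl : 0 ≤ lam) (hs : UniqueDiffOn ℝ s) (hx : x ∈ s)
    (hV : ContDiffOn ℝ ∞ V s) (hq : J k lam V s x ≤ q) :
    J k lam (wC n V) s x ≤ q ^ n := by
  have h0 : 0 ≤ q := (J_nonneg hl).trans hq
  obtain ⟨m, rfl⟩ := even_iff_exists_two_mul.1 hn
  obtain ⟨m, rfl⟩ : ∃ m', m = m' + 1 := ⟨m - 1, by omega⟩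
  rw [wC_eq]
  calc _ ≤ _ := J_mul hl hs hx ((hV.mul (contDiffOn_conj hV)).pow m) ((contDiffOn_conj hV).pow 2)
    _ ≤ (q ^ 2) ^ m * q ^ 2 := by
        refine mul_le_mul ?_ ?_ (J_nonneg hl) (by positivity)
        · exact (J_pow hl hs hx (hV.mul (contDiffOn_conj hV)) m).trans
            (pow_le_pow_left₀ (J_nonneg hl) (J_VcV hl hs hx hV hq) m)
        · refine (J_pow hl hs hx (contDiffOn_conj hV) 2).trans
            (pow_le_pow_left₀ (J_nonneg hl) ?_ 2)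
          rw [J_conj hs hx]; exact hq
    _ = q ^ (2 * (m + 1)) := by rw [← pow_mul, ← pow_add]; congr 1

end jets

/-! ### smoothness of the solution -/

/-- the second derivative, from the equation -/
noncomputable def rhsX (n : ℕ) (om eps : ℝ) (V V1 : ℝ → ℂ) (x : ℝ) : ℂ :=
  (-(6 + I * (x : ℂ)) * V1 x - ((om : ℂ) + I * eps) * V x + ((‖V x‖ ^ n : ℝ) : ℂ) * V x) / x

theorem contDiffOn_rhsX {n : ℕ} (hn : Even n) {om eps : ℝ} {V V1 : ℝ → ℂ} {s : Set ℝ}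
    (h0 : ∀ x ∈ s, x ≠ 0) {N : ℕ∞} (hV : ContDiffOn ℝ N V s) (hV1 : ContDiffOn ℝ N V1 s) :
    ContDiffOn ℝ N (rhsX n om eps V V1) s := by
  have hx : ContDiffOn ℝ N (fun x : ℝ => (x : ℂ)) s := Complex.ofRealCLM.contDiff.contDiffOn
  have hinv : ContDiffOn ℝ N (fun x : ℝ => ((x : ℂ))⁻¹) s :=
    hx.inv (fun x hx => by exact_mod_cast h0 x hx)
  have e : rhsX n om eps V V1 = fun x : ℝ => (-(6 + I * (x : ℂ)) * V1 x -
      ((om : ℂ) + I * eps) * V x + ((‖V x‖ ^ n : ℝ) : ℂ) * V x) * ((x : ℂ))⁻¹ := by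
    funext x; rw [rhsX, div_eq_mul_inv]
  rw [e]
  refine ContDiffOn.mul ?_ hinv
  refine ((((contDiffOn_const.add (contDiffOn_const.mul hx)).neg).mul hV1).sub
    (contDiffOn_const.mul hV)).add ?_
  exact (contDiffOn_wA hn hV).mul hV

theorem smooth_of_solX {n : ℕ} (hn : Even n) {om eps : ℝ} {V V1 : ℝ → ℂ} {s : Set ℝ}
    (hs : IsOpen s) (h0 : ∀ x ∈ s, x ≠ 0) (h : IsSolX n om eps V V1 s) :
    ContDiffOn ℝ ∞ V s ∧ ContDiffOn ℝ ∞ V1 s := by
  have key : ∀ k : ℕ, ContDiffOn ℝ (k : ℕ∞) V s ∧ ContDiffOn ℝ (k : ℕ∞) V1 s := by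
    intro k
    induction k with
    | zero =>
      constructor
      · have : ContinuousOn V s := fun x hx => (h x hx).1.continuousAt.continuousWithinAt
        simpa using this
      · have : ContinuousOn V1 s := fun x hx => (h x hx).2.continuousAt.continuousWithinAt
        simpa using this
    | succ k ih =>
      have e1 : EqOn (deriv V) V1 s := fun x hx => (h x hx).1.deriv
      have e2 : EqOn (deriv V1) (rhsX n om eps V V1) s := fun x hx => (h x hx).2.deriv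
      constructor
      · have : ContDiffOn ℝ ((k : ℕ∞) + 1 : WithTop ℕ∞) V s := by
          rw [contDiffOn_succ_iff_deriv_of_isOpen hs]
          exact ⟨fun x hx => (h x hx).1.differentiableAt.differentiableWithinAt, by simp,
            ih.2.congr e1⟩
        exact_mod_cast this
      · have : ContDiffOn ℝ ((k : ℕ∞) + 1 : WithTop ℕ∞) V1 s := by
          rw [contDiffOn_succ_iff_deriv_of_isOpen hs]
          exact ⟨fun x hx => (h x hx).2.differentiableAt.differentiableWithinAt, by simp,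
            (contDiffOn_rhsX hn h0 ih.1 ih.2).congr e2⟩
        exact_mod_cast this
  exact ⟨contDiffOn_infty.2 fun k => by exact_mod_cast (key k).1,
    contDiffOn_infty.2 fun k => by exact_mod_cast (key k).2⟩

/-! ### uniform bounds for the derivatives -/

/-- the choice of the weight -/
theorem weight {M q D : ℝ} (k : ℕ) (hM0 : 0 ≤ M) (hMq : M < q) (hq : q ≤ 1) (hD : 0 ≤ D) :
    ∃ lam : ℝ, 0 < lam ∧ lam ≤ 1 ∧ M + k * (lam * D) ≤ q := by
  have hkD : (0 : ℝ) ≤ k * D := by positivity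
  refine ⟨(q - M) / (1 + k * D), div_pos (by linarith) (by linarith), ?_, ?_⟩
  · rw [div_le_one (by linarith)]; linarith
  · have e : (k : ℝ) * ((q - M) / (1 + k * D) * D) = (q - M) * (k * D / (1 + k * D)) := by ring
    rw [e]
    have h1 : (k : ℝ) * D / (1 + k * D) ≤ 1 := by
      rw [div_le_one (by linarith)]; linarith
    have h2 : (q - M) * (k * D / (1 + k * D)) ≤ (q - M) * 1 :=
      mul_le_mul_of_nonneg_left h1 (by linarith)
    linarith

theorem deriv_bounds (a b M B : ℝ) (ha : 0 < a) (hM0 : 0 ≤ M) (hM1 : M < 1) (k : ℕ) :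
    ∃ D : ℝ, 0 ≤ D ∧ ∀ n, 2 ≤ n → Even n → ∀ om ∈ Icc (0 : ℝ) 1, ∀ eps ∈ Icc (0 : ℝ) 1,
      ∀ V V1 : ℝ → ℂ, IsSolX n om eps V V1 (Ioo a b) →
      (∀ x ∈ Ioo a b, ‖V x‖ ≤ M ∧ ‖V1 x‖ ≤ B) →
      ∀ i ≤ k, ∀ x ∈ Ioo a b, ‖iteratedDerivWithin i V (Ioo a b) x‖ ≤ D ∧
        ‖iteratedDerivWithin i V1 (Ioo a b) x‖ ≤ D := by
  have hopen : IsOpen (Ioo a b) := isOpen_Ioo
  have hud : UniqueDiffOn ℝ (Ioo a b) := hopen.uniqueDiffOn
  have hne : ∀ x ∈ Ioo a b, x ≠ 0 := fun x hx => (ha.trans hx.1).ne'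
  have hneU : ∀ x ∈ Ioi (0 : ℝ), x ≠ 0 := fun x hx => (mem_Ioi.1 hx).ne'
  have hsub : Icc a b ⊆ Ioi (0 : ℝ) := fun x hx => mem_Ioi.2 (ha.trans_le hx.1)
  -- the coefficients
  have hxs : ContDiffOn ℝ ∞ (fun x : ℝ => (x : ℂ)) (Ioi (0 : ℝ)) :=
    Complex.ofRealCLM.contDiff.contDiffOn
  have hg0 : ContDiffOn ℝ ∞ (fun x : ℝ => ((x : ℂ))⁻¹) (Ioi (0 : ℝ)) :=
    hxs.inv (fun x hx => by exact_mod_cast hneU x hx)
  have hg1 : ContDiffOn ℝ ∞ (fun x : ℝ => -(6 + I * (x : ℂ)) * ((x : ℂ))⁻¹) (Ioi (0 : ℝ)) :=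
    ((contDiffOn_const.add (contDiffOn_const.mul hxs)).neg).mul hg0
  induction k with
  | zero =>
    refine ⟨max M (max B 0), le_max_of_le_right (le_max_right _ _),
      fun n h2 hn om hom eps heps V V1 h hb i hi x hx => ?_⟩
    obtain rfl : i = 0 := by omega
    simp only [iteratedDerivWithin_zero]
    exact ⟨(hb x hx).1.trans (le_max_left _ _),
      (hb x hx).2.trans ((le_max_left _ _).trans (le_max_right _ _))⟩
  | succ k ih =>
    obtain ⟨D, hD0, hD⟩ := ih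
    obtain ⟨lam, hl0, hl1, hlam⟩ := weight (M := M) (q := 1) (D := D) k hM0 hM1 le_rfl hD0
    obtain ⟨K0, hK00, hK0⟩ := bounded_jet (U := Ioi (0 : ℝ)) isOpen_Ioi hsub hopen
      Ioo_subset_Icc_self hg0 k
    obtain ⟨K1, hK10, hK1⟩ := bounded_jet (U := Ioi (0 : ℝ)) isOpen_Ioi hsub hopen
      Ioo_subset_Icc_self hg1 k
    set E : ℝ := ((k : ℝ) + 1) * K1 * (((k : ℝ) + 1) * D) + ((k : ℝ) + 1) * K0 *
      (2 * (((k : ℝ) + 1) * D)) + ((k : ℝ) + 1) * K0 * (1 * (((k : ℝ) + 1) * D)) with hE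
    have hE0 : 0 ≤ E := by positivity
    refine ⟨max D ((k.factorial : ℝ) / lam ^ k * E), le_max_of_le_left hD0,
      fun n h2 hn om hom eps heps V V1 h hb i hi x hx => ?_⟩
    obtain ⟨hV, hV1⟩ := smooth_of_solX hn hopen hne h
    have hDk := hD n h2 hn om hom eps heps V V1 h hb
    -- jets
    have jV : J k lam V (Ioo a b) x ≤ ((k : ℝ) + 1) * D :=
      J_le' hl0.le hl1 fun i hi => (hDk i hi x hx).1
    have jV1 : J k lam V1 (Ioo a b) x ≤ ((k : ℝ) + 1) * D :=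
      J_le' hl0.le hl1 fun i hi => (hDk i hi x hx).2
    have jq : J k lam V (Ioo a b) x ≤ 1 :=
      (J_le hl0.le hl1 (hb x hx).1 (fun i _ hi => (hDk i hi x hx).1)).trans hlam
    have jA : J k lam (wA n V) (Ioo a b) x ≤ 1 := by
      have := J_wA hn hl0.le hud hx hV jq
      simpa using this
    have jg0 : J k lam (fun x : ℝ => ((x : ℂ))⁻¹) (Ioo a b) x ≤ ((k : ℝ) + 1) * K0 :=
      J_le' hl0.le hl1 fun i hi => hK0 i hi x hx
    have jg1 : J k lam (fun x : ℝ => -(6 + I * (x : ℂ)) * ((x : ℂ))⁻¹) (Ioo a b) x ≤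
        ((k : ℝ) + 1) * K1 :=
      J_le' hl0.le hl1 fun i hi => hK1 i hi x hx
    have sub' : Ioo a b ⊆ Ioi (0 : ℝ) := Ioo_subset_Icc_self.trans hsub
    have sg0 := hg0.mono sub'
    have sg1 := hg1.mono sub'
    have sA : ContDiffOn ℝ ∞ (wA n V) (Ioo a b) := contDiffOn_wA hn hV
    -- the right side
    have ecc : ‖-((om : ℂ) + I * eps)‖ ≤ 2 := by
      rw [norm_neg]
      refine (norm_add_le _ _).trans ?_
      rw [norm_mul, Complex.norm_I, one_mul, Complex.norm_real, Complex.norm_real,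
        Real.norm_eq_abs, Real.norm_eq_abs, abs_of_nonneg hom.1, abs_of_nonneg heps.1]
      linarith [hom.2, heps.2]
    have jc : J k lam (fun x => (-((om : ℂ) + I * eps)) * V x) (Ioo a b) x ≤
        2 * (((k : ℝ) + 1) * D) := by
      have h1 := J_mul (k := k) (f := fun _ => -((om : ℂ) + I * eps)) hl0.le hud hx
        contDiffOn_const hV
      rw [J_const] at h1
      exact h1.trans (mul_le_mul ecc jV (J_nonneg hl0.le) (by norm_num))
    have jr : J k lam (rhsX n om eps V V1) (Ioo a b) x ≤ E := by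
      have e : rhsX n om eps V V1 = fun x : ℝ => ((-(6 + I * (x : ℂ)) * ((x : ℂ))⁻¹) * V1 x +
          ((x : ℂ))⁻¹ * ((-((om : ℂ) + I * eps)) * V x)) + ((x : ℂ))⁻¹ * (wA n V x * V x) := by
        funext x; rw [rhsX, wA, div_eq_mul_inv]; ring
      rw [e]
      have c1 := sg1.mul hV1
      have c2 := sg0.mul ((contDiffOn_const (c := -((om : ℂ) + I * eps)) (s := Ioo a b)
        (𝕜 := ℝ) (n := ∞)).mul hV)
      have c3 := sg0.mul (sA.mul hV)
      refine (J_add hl0.le hud hx (c1.add c2) c3).trans ?_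
      refine add_le_add ((J_add hl0.le hud hx c1 c2).trans (add_le_add ?_ ?_)) ?_
      · exact (J_mul hl0.le hud hx sg1 hV1).trans (mul_le_mul jg1 jV1 (J_nonneg hl0.le)
          (by positivity))
      · exact (J_mul hl0.le hud hx sg0 (contDiffOn_const.mul hV)).trans
          (mul_le_mul jg0 jc (J_nonneg hl0.le) (by positivity))
      · refine (J_mul hl0.le hud hx sg0 (sA.mul hV)).trans
          (mul_le_mul jg0 ?_ (J_nonneg hl0.le) (by positivity))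
        exact (J_mul hl0.le hud hx sA hV).trans
          (mul_le_mul jA jV (J_nonneg hl0.le) (by norm_num))
    -- conclusion
    rcases Nat.lt_or_ge k i with hik | hik
    · obtain rfl : i = k + 1 := by omega
      have e1 : EqOn (derivWithin V (Ioo a b)) V1 (Ioo a b) := fun y hy => by
        rw [derivWithin_of_isOpen hopen hy]; exact (h y hy).1.deriv
      have e2 : EqOn (derivWithin V1 (Ioo a b)) (rhsX n om eps V V1) (Ioo a b) := fun y hy => by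
        rw [derivWithin_of_isOpen hopen hy]; exact (h y hy).2.deriv
      constructor
      · rw [iteratedDerivWithin_succ', iteratedDerivWithin_congr e1 hx]
        exact ((hDk k le_rfl x hx).2).trans (le_max_left _ _)
      · rw [iteratedDerivWithin_succ', iteratedDerivWithin_congr e2 hx]
        refine (le_J (k := k) hl0 le_rfl).trans (le_max_of_le_right ?_)
        exact mul_le_mul_of_nonneg_left jr (by positivity)
    · exact ⟨((hDk i hik x hx).1).trans (le_max_left _ _),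
        ((hDk i hik x hx).2).trans (le_max_left _ _)⟩

/-- the potentials have exponentially small derivatives, rate `q > M` -/
theorem pot_bounds (a b M B q : ℝ) (ha : 0 < a) (hM0 : 0 ≤ M) (hM1 : M < 1) (hMq : M < q)
    (hq : q ≤ 1) (k : ℕ) :
    ∃ C : ℝ, 0 ≤ C ∧ ∀ n, 2 ≤ n → Even n → ∀ om ∈ Icc (0 : ℝ) 1, ∀ eps ∈ Icc (0 : ℝ) 1,
      ∀ V V1 : ℝ → ℂ, IsSolX n om eps V V1 (Ioo a b) →
      (∀ x ∈ Ioo a b, ‖V x‖ ≤ M ∧ ‖V1 x‖ ≤ B) → ∀ x ∈ Ioo a b,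
        ‖iteratedDeriv k (wA n V) x‖ ≤ C * q ^ n ∧ ‖iteratedDeriv k (wB n V) x‖ ≤ C * q ^ n ∧
        ‖iteratedDeriv k (wC n V) x‖ ≤ C * q ^ n := by
  have hopen : IsOpen (Ioo a b) := isOpen_Ioo
  have hud : UniqueDiffOn ℝ (Ioo a b) := hopen.uniqueDiffOn
  have hne : ∀ x ∈ Ioo a b, x ≠ 0 := fun x hx => (ha.trans hx.1).ne'
  obtain ⟨D, hD0, hD⟩ := deriv_bounds a b M B ha hM0 hM1 k
  obtain ⟨lam, hl0, hl1, hlam⟩ := weight k hM0 hMq hq hD0
  refine ⟨(k.factorial : ℝ) / lam ^ k, by positivity, fun n h2 hn om hom eps heps V V1 h hb x hx => ?_⟩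
  obtain ⟨hV, hV1⟩ := smooth_of_solX hn hopen hne h
  have hDk := hD n h2 hn om hom eps heps V V1 h hb
  have jq : J k lam V (Ioo a b) x ≤ q :=
    (J_le hl0.le hl1 (hb x hx).1 (fun i _ hi => (hDk i hi x hx).1)).trans hlam
  have hc : (0 : ℝ) ≤ (k.factorial : ℝ) / lam ^ k := by positivity
  refine ⟨?_, ?_, ?_⟩
  · rw [← iteratedDerivWithin_of_isOpen hopen hx]
    exact (le_J (k := k) hl0 le_rfl).trans
      (mul_le_mul_of_nonneg_left (J_wA hn hl0.le hud hx hV jq) hc)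
  · rw [← iteratedDerivWithin_of_isOpen hopen hx]
    exact (le_J (k := k) hl0 le_rfl).trans
      (mul_le_mul_of_nonneg_left (J_wB h2 hn hl0.le hud hx hV jq) hc)
  · rw [← iteratedDerivWithin_of_isOpen hopen hx]
    exact (le_J (k := k) hl0 le_rfl).trans
      (mul_le_mul_of_nonneg_left (J_wC h2 hn hl0.le hud hx hV jq) hc)

/-- absorbing the factor `n` -/
theorem nat_mul_pow_le {p q : ℝ} (hp : 0 < p) (hpq : p < q) :
    ∃ K : ℝ, 0 ≤ K ∧ ∀ n : ℕ, (n : ℝ) * p ^ n ≤ K * q ^ n := by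
  have hd : 0 < q / p - 1 := by
    have : 1 < q / p := (one_lt_div hp).2 hpq
    linarith
  refine ⟨(q / p - 1)⁻¹, by positivity, fun n => ?_⟩
  have h1 : 1 + (n : ℝ) * (q / p - 1) ≤ (q / p) ^ n := by
    have := one_add_mul_le_pow (a := q / p - 1) (by linarith) n
    simpa using this
  have h2 : (n : ℝ) * (q / p - 1) ≤ (q / p) ^ n := by linarith
  have hpn : 0 < p ^ n := by positivity
  have h3 : (n : ℝ) * (q / p - 1) * p ^ n ≤ (q / p) ^ n * p ^ n :=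
    mul_le_mul_of_nonneg_right h2 hpn.le
  have h4 : (q / p) ^ n * p ^ n = q ^ n := by
    rw [div_pow, div_mul_cancel₀ _ hpn.ne']
  rw [h4] at h3
  calc (n : ℝ) * p ^ n = ((q / p - 1)⁻¹ * (q / p - 1)) * ((n : ℝ) * p ^ n) := by
        rw [inv_mul_cancel₀ hd.ne', one_mul]
    _ = (q / p - 1)⁻¹ * ((n : ℝ) * (q / p - 1) * p ^ n) := by ring
    _ ≤ (q / p - 1)⁻¹ * q ^ n := mul_le_mul_of_nonneg_left h3 (by positivity)

/-- **T1**, in the form used by the tail estimate (helper35) -/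
def T1Stmt : Prop := ∀ a b M B : ℝ, 0 < a → a < b → 0 ≤ M → M < 1 →
  ∃ C : ℕ → ℝ, ∀ n : ℕ, 2 ≤ n → Even n → ∀ om ∈ Icc (0 : ℝ) 1, ∀ eps ∈ Icc (0 : ℝ) 1,
    ∀ V V1 : ℝ → ℂ, IsSolX n om eps V V1 (Ioo a b) →
    (∀ x ∈ Ioo a b, ‖V x‖ ≤ M ∧ ‖V1 x‖ ≤ B) →
    ∀ j : ℕ, ∀ x ∈ Ioo a b, ‖iteratedDeriv j (wA n V) x‖ ≤ C j * ((1 + M) / 2) ^ n ∧
      ‖iteratedDeriv j (wB n V) x‖ ≤ C j * ((1 + M) / 2) ^ n ∧
      ‖iteratedDeriv j (wC n V) x‖ ≤ C j * ((1 + M) / 2) ^ n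

/-- **T1**, full form: with nonnegative constants, smoothness, the derivatives of `V`, `V1` and the
versions with the factor `n` -/
theorem t1_full (a b M B : ℝ) (ha : 0 < a) (hM0 : 0 ≤ M) (hM1 : M < 1) :
    ∃ C : ℕ → ℝ, (∀ j, 0 ≤ C j) ∧ ∀ n : ℕ, 2 ≤ n → Even n → ∀ om ∈ Icc (0 : ℝ) 1,
      ∀ eps ∈ Icc (0 : ℝ) 1, ∀ V V1 : ℝ → ℂ, IsSolX n om eps V V1 (Ioo a b) →
      (∀ x ∈ Ioo a b, ‖V x‖ ≤ M ∧ ‖V1 x‖ ≤ B) →
      (ContDiffOn ℝ ∞ V (Ioo a b) ∧ ContDiffOn ℝ ∞ V1 (Ioo a b) ∧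
        ContDiffOn ℝ ∞ (wA n V) (Ioo a b) ∧ ContDiffOn ℝ ∞ (wB n V) (Ioo a b) ∧
        ContDiffOn ℝ ∞ (wC n V) (Ioo a b)) ∧
      ∀ j : ℕ, ∀ x ∈ Ioo a b,
        (‖iteratedDeriv j V x‖ ≤ C j ∧ ‖iteratedDeriv j V1 x‖ ≤ C j) ∧
        (‖iteratedDeriv j (wA n V) x‖ ≤ C j * ((1 + M) / 2) ^ n ∧
          ‖iteratedDeriv j (wB n V) x‖ ≤ C j * ((1 + M) / 2) ^ n ∧
          ‖iteratedDeriv j (wC n V) x‖ ≤ C j * ((1 + M) / 2) ^ n) ∧
        ((n : ℝ) * ‖iteratedDeriv j (wA n V) x‖ ≤ C j * ((1 + M) / 2) ^ n ∧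
          (n : ℝ) * ‖iteratedDeriv j (wB n V) x‖ ≤ C j * ((1 + M) / 2) ^ n ∧
          (n : ℝ) * ‖iteratedDeriv j (wC n V) x‖ ≤ C j * ((1 + M) / 2) ^ n) := by
  have hopen : IsOpen (Ioo a b) := isOpen_Ioo
  have hne : ∀ x ∈ Ioo a b, x ≠ 0 := fun x hx => (ha.trans hx.1).ne'
  have hp0 : 0 < (M + (1 + M) / 2) / 2 := by linarith
  have hpq : (M + (1 + M) / 2) / 2 < (1 + M) / 2 := by linarith
  obtain ⟨K, hK0, hK⟩ := nat_mul_pow_le hp0 hpq
  choose D hD0 hD using fun j : ℕ => deriv_bounds a b M B ha hM0 hM1 j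
  choose E hE0 hE using fun j : ℕ => pot_bounds a b M B ((M + (1 + M) / 2) / 2) ha hM0 hM1
    (by linarith) (by linarith) j
  refine ⟨fun j => D j + E j + E j * K, fun j => by
    have := hD0 j; have := hE0 j; positivity,
    fun n h2 hn om hom eps heps V V1 h hb => ?_⟩
  obtain ⟨hV, hV1⟩ := smooth_of_solX hn hopen hne h
  refine ⟨⟨hV, hV1, contDiffOn_wA hn hV, contDiffOn_wB h2 hn hV, contDiffOn_wC h2 hn hV⟩,
    fun j x hx => ?_⟩
  have hDj := hD j n h2 hn om hom eps heps V V1 h hb j le_rfl x hx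
  rw [iteratedDerivWithin_of_isOpen hopen hx, iteratedDerivWithin_of_isOpen hopen hx] at hDj
  obtain ⟨eA, eB, eC⟩ := hE j n h2 hn om hom eps heps V V1 h hb x hx
  have hq0 : (0 : ℝ) < (1 + M) / 2 := by linarith
  have hqn : 0 < ((1 + M) / 2) ^ n := by positivity
  have hEj := hE0 j
  have hDj0 := hD0 j
  have hEK : 0 ≤ E j * K := mul_nonneg hEj hK0
  have l1 : E j * ((M + (1 + M) / 2) / 2) ^ n ≤ (D j + E j + E j * K) * ((1 + M) / 2) ^ n := by
    have h1 : ((M + (1 + M) / 2) / 2) ^ n ≤ ((1 + M) / 2) ^ n := pow_le_pow_left₀ hp0.le hpq.le n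
    calc E j * ((M + (1 + M) / 2) / 2) ^ n ≤ E j * ((1 + M) / 2) ^ n :=
          mul_le_mul_of_nonneg_left h1 hEj
      _ ≤ _ := mul_le_mul_of_nonneg_right (by linarith) hqn.le
  have l2 : (n : ℝ) * (E j * ((M + (1 + M) / 2) / 2) ^ n) ≤
      (D j + E j + E j * K) * ((1 + M) / 2) ^ n := by
    calc (n : ℝ) * (E j * ((M + (1 + M) / 2) / 2) ^ n)
        = E j * ((n : ℝ) * ((M + (1 + M) / 2) / 2) ^ n) := by ring
      _ ≤ E j * (K * ((1 + M) / 2) ^ n) := mul_le_mul_of_nonneg_left (hK n) hEj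
      _ = (E j * K) * ((1 + M) / 2) ^ n := by ring
      _ ≤ _ := mul_le_mul_of_nonneg_right (by linarith) hqn.le
  have hn0 : (0 : ℝ) ≤ n := Nat.cast_nonneg n
  exact ⟨⟨hDj.1.trans (by linarith), hDj.2.trans (by linarith)⟩,
    ⟨eA.trans l1, eB.trans l1, eC.trans l1⟩,
    ⟨(mul_le_mul_of_nonneg_left eA hn0).trans l2, (mul_le_mul_of_nonneg_left eB hn0).trans l2,
      (mul_le_mul_of_nonneg_left eC hn0).trans l2⟩⟩

theorem t1Stmt : T1Stmt := by
  intro a b M B ha _ hM0 hM1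
  obtain ⟨C, _, hC⟩ := t1_full a b M B ha hM0 hM1
  exact ⟨C, fun n h2 hn om hom eps heps V V1 h hb j x hx =>
    ((hC n h2 hn om hom eps heps V V1 h hb).2 j x hx).2.1⟩

end Crest.Agent.R086.B
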