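import Mathlib
import Crest.Agent.R086.BFin2
import Crest.Agent.R086.BPolyFin
import Crest.Agent.R086.BTailFin
import Crest.Agent.R086.BTail1
import Crest.Agent.R086.PFacts2
import Crest.Agent.R086.BMatchA

/-! # Row 86, Part B: final assembly `BData` (helper651) -/

set_option autoImplicit false

open MeasureTheory Complex Set Filter Topology
open scoped ContDiff

namespace Crest.Agent.R086.B

variable {om0 R : ℝ} {U U1 : ℝ → ℂ}

/-- the profiles `P` for large even `n` -/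
theorem exists_prof (S : BSeq om0 R U U1) (L : LimitProfile om0 R U) :
    ∃ N : ℕ, S.n1 ≤ N ∧ ∀ n, N ≤ n → Even n → ∃ P : Profile n, BFin.IsProf S P := by
  obtain ⟨N, hN1, hN⟩ := BFin.exists_lower S L
  refine ⟨N, hN1, fun n hn he => ?_⟩
  obtain ⟨h1, h2, h3, h4⟩ := S.sol n (hN1.trans hn) he
  refine BSm0.profile_of_sol n he (S.two_le.trans (hN1.trans hn)) (S.om n) (S.v n) (S.v1 n) h1 h2 h4
    (fun j => ?_) ?_
  · refine ⟨S.C j, ?_⟩
    filter_upwards [eventually_gt_atTop S.X] with x hx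
    exact ((S.far n (hN1.trans hn) he).sym.2 j x hx)
  · have h5 := hN n hn he 0 ⟨le_rfl, by have := BFin.nine_le_len S; linarith⟩
    intro h6
    rw [h6, norm_zero] at h5
    norm_num at h5

theorem t1 : BTailFin.T1Stmt := fun a b M B1 ha hab h0 h1 _ => t1Stmt a b M B1 ha hab h0 h1

/-- **assembly of `BData`** -/
theorem bdata_of_bseq (L : LimitProfile om0 R U) (S : BSeq om0 R U (deriv U))
    (T3 : T3Out S) : Nonempty (BData om0 R U) := by
  obtain ⟨Na, hNa1, hNa⟩ := exists_prof S L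
  obtain ⟨Nb, hNb1, hNb⟩ := BFin.q_ne S L
  set N : ℕ := max Na Nb with hN
  set nn : ℕ → ℕ := fun j => 2 * (N + j) with hnn
  have hnn1 : ∀ j, N ≤ nn j := fun j => by simp only [hnn]; omega
  have hnn2 : ∀ j, Even (nn j) := fun j => even_two_mul _
  have hnnt : Tendsto nn atTop atTop := by
    refine tendsto_atTop_mono (f := fun j => j) (fun j => ?_) tendsto_id
    simp only [hnn]; omega
  have hex : ∀ j, ∃ P : Profile (nn j), BFin.IsProf S P := fun j =>
    hNa (nn j) ((le_max_left _ _).trans (hnn1 j)) (hnn2 j)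
  choose P hP using hex
  have hev : ∀ {Q : ℕ → Prop}, (∃ M : ℕ, ∀ n, M ≤ n → Even n → Q n) → ∀ᶠ j in atTop, Q (nn j) := by
    intro Q hQ
    obtain ⟨M, hM⟩ := hQ
    filter_upwards [hnnt.eventually_ge_atTop M] with j hj
    exact hM (nn j) hj (hnn2 j)
  have hS1 : ∀ j, S.n1 ≤ nn j := fun j => hNa1.trans ((le_max_left _ _).trans (hnn1 j))
  refine ⟨{ nn := nn, P := P, nn_tendsto := hnnt, om_tendsto := ?_, radial := ?_, q_ne := ?_,
            q_der := ?_, decay2 := ?_, conv := ?_, q_lower := ?_, pow_le := ?_, pow_ge := ?_,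
            logder := ?_, pow_tail := ?_, tail := ?_, poly := ?_ }⟩
  · have : (fun j => (P j).om) = fun j => S.om (nn j) := funext fun j => (hP j).1
    rw [this]
    exact S.om_lim.comp hnnt
  · exact fun j y => BFin.radial (hP j) y
  · exact fun j r => hNb (nn j) ((le_max_right _ _).trans (hnn1 j)) (hnn2 j) (P j) (hP j) r
  · obtain ⟨C, M, hM1, hM⟩ := BFin.q_der S L
    refine ⟨C, ?_⟩
    filter_upwards [hnnt.eventually_ge_atTop M] with j hj r hr
    exact hM (nn j) hj (hnn2 j) (P j) (hP j) r hr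
  · obtain ⟨A, hA, M, hM1, hM⟩ := BFin.decay2 S L
    refine ⟨A, hA, ?_⟩
    filter_upwards [hnnt.eventually_ge_atTop M] with j hj r hr
    exact hM (nn j) hj (hnn2 j) (P j) (hP j) r hr
  · intro e he
    obtain ⟨M, hM1, hM⟩ := BFin.conv S L e he
    filter_upwards [hnnt.eventually_ge_atTop M] with j hj r hr
    exact hM (nn j) hj (hnn2 j) (P j) (hP j) r hr
  · obtain ⟨M, hM1, hM⟩ := BFin.q_lower S L
    filter_upwards [hnnt.eventually_ge_atTop M] with j hj r hr
    exact hM (nn j) hj (hnn2 j) (P j) (hP j) r hr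
  · refine ⟨3 / 2, Eventually.of_forall fun j r hr => ?_⟩
    exact BFin.pow_le S (nn j) (hS1 j) (hnn2 j) (P j) (hP j) r hr
  · intro del hdel
    obtain ⟨c, hc, M, hM⟩ := PF.pow_ge_of_BSeq L S del hdel
    refine ⟨c, hc, ?_⟩
    filter_upwards [hnnt.eventually_ge_atTop M] with j hj r hr
    rw [BFin.q_eq_of_nonneg (hP j) hr.1]
    exact hM (nn j) hj (hnn2 j) r hr
  · obtain ⟨del0, hdel0, h⟩ := PF.logder_of_BSeq L S
    refine ⟨del0, hdel0, fun e he => ?_⟩
    obtain ⟨M, hM⟩ := h e he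
    filter_upwards [hnnt.eventually_ge_atTop M] with j hj r hr
    rw [BFin.q_eq_of_nonneg (hP j) hr.1, BFin.deriv_q_nonneg (hP j) (hS1 j) (hnn2 j) hr.1]
    exact hM (nn j) hj (hnn2 j) r hr
  · intro r1 hr1
    obtain ⟨c, hc, M, hM1, hM⟩ := BFin.pow_tail S L r1 hr1
    refine ⟨c, hc, ?_⟩
    filter_upwards [hnnt.eventually_ge_atTop M] with j hj r hr
    exact hM (nn j) hj (hnn2 j) (P j) (hP j) r hr
  · intro r1 r2 h1 h2 χ hχ
    obtain ⟨c, hc, h⟩ := BTailFin.tail_profile S L t1 r1 r2 h1 h2 χ hχ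
    refine ⟨c, hc, ?_⟩
    filter_upwards [hnnt.eventually h] with j hj
    exact hj (hnn2 j) (P j) (hP j).2
  · obtain ⟨K, M, hM1, hM⟩ := BFin.poly S T3
    refine ⟨K, ?_⟩
    filter_upwards [hnnt.eventually_ge_atTop M] with j hj
    exact hM (nn j) hj (hnn2 j) (P j) (hP j)

/-- **Part B**, modulo the exterior statement and T3. -/
theorem partB_of (D : A.AData)
    (hExt : ∀ rho : ℝ, D.R < rho → ∀ rX : ℝ,
      ExtStmt D.om rho rX (1 / A.fo 0 (-(I * D.om)) D.R) JCx.Uo JCx.Uo1)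
    (T3 : ∀ S : BSeq D.om D.R (BLim.U D) (deriv (BLim.U D)), T3Out S) :
    Nonempty (BData D.om D.R (BLim.U D)) := by
  obtain ⟨S⟩ := BMatch.bseq_of_A D (fun rho h1 _ => hExt rho h1 9)
  rw [← BLim.deriv_U D] at S
  exact bdata_of_bseq (BLim.limitProfile D) S (T3 S)

end Crest.Agent.R086.B
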