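import Crest.Agent.R086.BDefs

/-!
Row 86, part B: monotonicity (pointwise comparison lemma), uniqueness, C¹ interpolation and the obstacle
limit of the interior problem.
-/

set_option autoImplicit false

open Complex Set
open scoped ComplexConjugate

namespace Crest.Agent.R086.B

/-! ### one dimensional tools -/

/-- monotonicity from the derivative with one exceptional point -/
theorem mono_of_deriv {f f' : ℝ → ℝ} {a b c : ℝ} (hc : ContinuousOn f (Icc a b))
    (hd : ∀ x ∈ Ioo a b, x ≠ c → HasDerivAt f (f' x) x)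
    (h0 : ∀ x ∈ Ioo a b, x ≠ c → 0 ≤ f' x) : MonotoneOn f (Icc a b) := by
  have key : ∀ a' b', a ≤ a' → b' ≤ b → (∀ x ∈ Ioo a' b', x ≠ c) → MonotoneOn f (Icc a' b') := by
    intro a' b' ha hb hne
    refine monotoneOn_of_deriv_nonneg (convex_Icc _ _) (hc.mono (Icc_subset_Icc ha hb)) ?_ ?_
    · intro x hx
      rw [interior_Icc] at hx
      exact (hd x ⟨ha.trans_lt hx.1, hx.2.trans_le hb⟩ (hne x hx)).differentiableAt.differentiableWithinAt
    · intro x hx
      rw [interior_Icc] at hx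
      rw [(hd x ⟨ha.trans_lt hx.1, hx.2.trans_le hb⟩ (hne x hx)).deriv]
      exact h0 x ⟨ha.trans_lt hx.1, hx.2.trans_le hb⟩ (hne x hx)
  by_cases h : c ∈ Ioo a b
  · have h1 := key a c le_rfl h.2.le (fun x hx => hx.2.ne)
    have h2 := key c b h.1.le le_rfl (fun x hx => hx.1.ne')
    have := h1.union_right h2 (isGreatest_Icc h.1.le) (isLeast_Icc h.2.le)
    rwa [Icc_union_Icc_eq_Icc h.1.le h.2.le] at this
  · exact key a b le_rfl le_rfl (fun x hx hxc => h (hxc ▸ hx))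

/-- mean value inequality, complex values, one exceptional point -/
theorem mvt_norm {g g' : ℝ → ℂ} {a b c C : ℝ} (hab : a ≤ b) (hg : ContinuousOn g (Icc a b))
    (hd : ∀ x ∈ Ioo a b, x ≠ c → HasDerivAt g (g' x) x)
    (hC : ∀ x ∈ Ioo a b, x ≠ c → ‖g' x‖ ≤ C) : ‖g b - g a‖ ≤ C * (b - a) := by
  -- multiply by a unit number
  obtain ⟨u, hu, hu2⟩ : ∃ u : ℂ, ‖u‖ = 1 ∧ (u * (g b - g a)).re = ‖g b - g a‖ := by
    by_cases h : g b - g a = 0
    · exact ⟨1, by simp, by simp [h]⟩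
    · refine ⟨conj (g b - g a) / ‖g b - g a‖, ?_, ?_⟩
      · rw [norm_div, Complex.norm_conj, Complex.norm_real, norm_norm, div_self (norm_ne_zero_iff.2 h)]
      · have h1 : ((‖g b - g a‖ : ℝ) : ℂ) ≠ 0 := by exact_mod_cast norm_ne_zero_iff.2 h
        have h2 : conj (g b - g a) / (‖g b - g a‖ : ℂ) * (g b - g a) = (‖g b - g a‖ : ℂ) := by
          rw [div_mul_eq_mul_div, mul_comm (conj _), Complex.mul_conj, Complex.normSq_eq_norm_sq]
          push_cast
          field_simp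
        rw [h2, Complex.ofReal_re]
  have hm : MonotoneOn (fun x => C * x - (u * g x).re) (Icc a b) := by
    refine mono_of_deriv (f' := fun x => C - (u * g' x).re) (c := c) ?_ ?_ ?_
    · exact (continuousOn_const.mul continuousOn_id).sub
        (Complex.continuous_re.comp_continuousOn (continuousOn_const.mul hg))
    · intro x hx hxc
      have h1 := (hd x hx hxc).const_mul u
      have h2 : HasDerivAt (fun x => (u * g x).re) (u * g' x).re x :=
        (Complex.reCLM.hasFDerivAt.comp_hasDerivAt x h1)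
      have h3 : HasDerivAt (fun x : ℝ => C * x - (u * g x).re) (C * 1 - (u * g' x).re) x :=
        ((hasDerivAt_id x).const_mul C).sub h2
      rwa [mul_one] at h3
    · intro x hx hxc
      have h1 : (u * g' x).re ≤ ‖u * g' x‖ := Complex.re_le_norm _
      rw [norm_mul, hu, one_mul] at h1
      linarith [hC x hx hxc]
  have := hm (left_mem_Icc.2 hab) (right_mem_Icc.2 hab) hab
  simp only at this
  have h5 : (u * (g b - g a)).re = (u * g b).re - (u * g a).re := by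
    rw [mul_sub, Complex.sub_re]
  rw [← hu2, h5]
  linarith

/-- bound for the derivative by interpolation -/
theorem interp {f f1 : ℝ → ℂ} {a b c L d h : ℝ} (hf : ContinuousOn f (Icc a b))
    (hd : ∀ x ∈ Ioo a b, x ≠ c → HasDerivAt f (f1 x) x)
    (hL : ∀ x ∈ Icc a b, ∀ y ∈ Icc a b, ‖f1 x - f1 y‖ ≤ L * |x - y|)
    (hfd : ∀ x ∈ Icc a b, ‖f x‖ ≤ d) (hh : 0 < h) (hab : h ≤ (b - a) / 2) :
    ∀ r ∈ Icc a b, ‖f1 r‖ ≤ 2 * d / h + L * h := by
  intro r hr
  -- a general step on a subinterval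
  have key : ∀ p q : ℝ, a ≤ p → q ≤ b → q = p + h → (r = p ∨ r = q) →
      ‖f1 r‖ ≤ 2 * d / h + L * h := by
    intro p q hp hq hpq hrpq
    have hpq' : p ≤ q := by linarith
    have hrp : r ∈ Icc p q := by
      rcases hrpq with rfl | rfl
      · exact left_mem_Icc.2 hpq'
      · exact right_mem_Icc.2 hpq'
    have h1 := mvt_norm (g := fun t => f t - f1 r * t) (g' := fun t => f1 t - f1 r) (c := c)
      (C := L * h) hpq' ?_ ?_ ?_
    · have hfp := hfd p ⟨hp, hpq'.trans hq⟩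
      have hfq := hfd q ⟨hp.trans hpq', hq⟩
      have e1 : f1 r * ((h : ℝ) : ℂ) = (f q - f p) - ((f q - f1 r * (q : ℂ)) - (f p - f1 r * (p : ℂ))) := by
        rw [hpq]; push_cast; ring
      have e2 : ‖f1 r‖ * h = ‖f1 r * ((h : ℝ) : ℂ)‖ := by
        rw [norm_mul, Complex.norm_real, Real.norm_eq_abs, abs_of_pos hh]
      have e3 : ‖f1 r‖ * h ≤ 2 * d + L * h * h := by
        rw [e2, e1]
        refine (norm_sub_le _ _).trans ?_
        have e4 : ‖f q - f p‖ ≤ 2 * d := (norm_sub_le _ _).trans (by linarith)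
        have e5 : q - p = h := by linarith
        rw [e5] at h1
        linarith
      rw [← sub_nonneg]
      have e6 : 2 * d / h + L * h - ‖f1 r‖ = (2 * d + L * h * h - ‖f1 r‖ * h) / h := by
        field_simp
      rw [e6]
      exact div_nonneg (by linarith) hh.le
    · exact (hf.mono (Icc_subset_Icc hp hq)).sub
        (continuousOn_const.mul Complex.continuous_ofReal.continuousOn)
    · intro x hx hxc
      have h2 := hd x ⟨hp.trans_lt hx.1, hx.2.trans_le hq⟩ hxc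
      have h3 : HasDerivAt (fun t : ℝ => f1 r * (t : ℂ)) (f1 r) x := by
        have := (Complex.ofRealCLM.hasDerivAt (x := x)).const_mul (f1 r)
        simpa using this
      exact h2.sub h3
    · intro x hx _
      have hL0 := hL x ⟨hp.trans hx.1.le, hx.2.le.trans hq⟩ r hr
      have hx2 : |x - r| ≤ h := by
        rw [abs_le]
        constructor <;> linarith [hx.1, hx.2, hrp.1, hrp.2]
      have hLn : 0 ≤ L := by
        by_contra hneg
        rw [not_le] at hneg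
        have := hL p ⟨hp, hpq'.trans hq⟩ q ⟨hp.trans hpq', hq⟩
        have h8 : |p - q| = h := by
          rw [abs_sub_comm, abs_of_nonneg (by linarith)]; linarith
        rw [h8] at this
        nlinarith [norm_nonneg (f1 p - f1 q)]
      exact hL0.trans (mul_le_mul_of_nonneg_left hx2 hLn)
  rcases le_total (r + h) b with h1 | h1
  · exact key r (r + h) hr.1 h1 rfl (Or.inl rfl)
  · exact key (r - h) r (by linarith) hr.2 (by ring) (Or.inr rfl)

/-! ### the monotone quantities -/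

theorem hasDerivAt_re {f : ℝ → ℂ} {f' : ℂ} {x : ℝ} (h : HasDerivAt f f' x) :
    HasDerivAt (fun t => (f t).re) f'.re x := Complex.reCLM.hasFDerivAt.comp_hasDerivAt x h

theorem hasDerivAt_im {f : ℝ → ℂ} {f' : ℂ} {x : ℝ} (h : HasDerivAt f f' x) :
    HasDerivAt (fun t => (f t).im) f'.im x := Complex.imCLM.hasFDerivAt.comp_hasDerivAt x h

/-- `H = r¹¹ Re (ē e₁) + 5 r¹⁰ |e|²` -/
noncomputable def Hf (e e1 : ℝ → ℂ) (r : ℝ) : ℝ :=
  r ^ 11 * ((e r).re * (e1 r).re + (e r).im * (e1 r).im) + 5 * r ^ 10 * ((e r).re ^ 2 + (e r).im ^ 2)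

theorem hasDerivAt_Hf {e e1 : ℝ → ℂ} {N : ℂ} {om r : ℝ} (hr : 0 < r) (h1 : HasDerivAt e (e1 r) r)
    (h2 : HasDerivAt e1 (-(11 / (r : ℂ) + I * r / 2) * e1 r - (om : ℂ) * e r + N) r) :
    HasDerivAt (Hf e e1)
      (r ^ 11 * (((e1 r).re - r / 4 * (e r).im + 5 / r * (e r).re) ^ 2 +
          ((e1 r).im + r / 4 * (e r).re + 5 / r * (e r).im) ^ 2) +
        r ^ 9 * ((e r).re ^ 2 + (e r).im ^ 2) * (25 - r ^ 4 / 16 - om * r ^ 2) +
        r ^ 11 * ((e r).re * N.re + (e r).im * N.im)) r := by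
  have a := hasDerivAt_re h1
  have b := hasDerivAt_im h1
  have c := hasDerivAt_re h2
  have d := hasDerivAt_im h2
  have hre : (-(11 / (r : ℂ) + I * r / 2) * e1 r - (om : ℂ) * e r + N).re =
      -(11 / r) * (e1 r).re + r / 2 * (e1 r).im - om * (e r).re + N.re := by
    have : (11 / (r : ℂ) + I * r / 2) = ((11 / r : ℝ) : ℂ) + ((r / 2 : ℝ) : ℂ) * I := by
      push_cast; ring
    rw [this]
    simp only [Complex.add_re, Complex.sub_re, Complex.mul_re, Complex.neg_re, Complex.neg_im,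
      Complex.add_im, Complex.mul_im, Complex.ofReal_re, Complex.ofReal_im, Complex.I_re,
      Complex.I_im]
    ring
  have him : (-(11 / (r : ℂ) + I * r / 2) * e1 r - (om : ℂ) * e r + N).im =
      -(11 / r) * (e1 r).im - r / 2 * (e1 r).re - om * (e r).im + N.im := by
    have : (11 / (r : ℂ) + I * r / 2) = ((11 / r : ℝ) : ℂ) + ((r / 2 : ℝ) : ℂ) * I := by
      push_cast; ring
    rw [this]
    simp only [Complex.add_re, Complex.sub_im, Complex.mul_re, Complex.neg_re, Complex.neg_im,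
      Complex.add_im, Complex.mul_im, Complex.ofReal_re, Complex.ofReal_im, Complex.I_re,
      Complex.I_im]
    ring
  rw [hre] at c
  rw [him] at d
  have h11 : HasDerivAt (fun t : ℝ => t ^ 11) (11 * r ^ 10) r := by
    simpa using hasDerivAt_pow 11 r
  have h10 : HasDerivAt (fun t : ℝ => 5 * t ^ 10) (5 * (10 * r ^ 9)) r := by
    simpa using (hasDerivAt_pow 10 r).const_mul 5
  have hA := (h11.mul ((a.mul c).add (b.mul d))).add (h10.mul ((a.pow 2).add (b.pow 2)))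
  refine hA.congr_deriv ?_
  simp only [Pi.add_apply, Pi.mul_apply, Pi.pow_apply]
  have hr' : r ≠ 0 := hr.ne'
  field_simp
  ring

/-- `G = r¹⁰ |e|²` -/
noncomputable def Gf (e : ℝ → ℂ) (r : ℝ) : ℝ := r ^ 10 * ((e r).re ^ 2 + (e r).im ^ 2)

theorem hasDerivAt_Gf {e e1 : ℝ → ℂ} {r : ℝ} (hr : 0 < r) (h1 : HasDerivAt e (e1 r) r) :
    HasDerivAt (Gf e) (2 / r * Hf e e1 r) r := by
  have a := hasDerivAt_re h1
  have b := hasDerivAt_im h1
  have h10 : HasDerivAt (fun t : ℝ => t ^ 10) (10 * r ^ 9) r := by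
    simpa using hasDerivAt_pow 10 r
  have hA := h10.mul ((a.pow 2).add (b.pow 2))
  refine hA.congr_deriv ?_
  simp only [Pi.add_apply, Pi.pow_apply, Hf]
  have hr' : r ≠ 0 := hr.ne'
  field_simp
  ring

theorem Gf_eq (e : ℝ → ℂ) (r : ℝ) : Gf e r = r ^ 10 * ‖e r‖ ^ 2 := by
  unfold Gf
  rw [← Complex.normSq_eq_norm_sq, Complex.normSq_apply]
  ring

theorem cont_re {e : ℝ → ℂ} {s : Set ℝ} (h : ContinuousOn e s) :
    ContinuousOn (fun t => (e t).re) s := Complex.continuous_re.comp_continuousOn h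

theorem cont_im {e : ℝ → ℂ} {s : Set ℝ} (h : ContinuousOn e s) :
    ContinuousOn (fun t => (e t).im) s := Complex.continuous_im.comp_continuousOn h

/-- **comparison lemma** -/
theorem core_cmp {e e1 N : ℝ → ℂ} {om ρ η c : ℝ} (hρ : 0 < ρ) (hρ2 : ρ ≤ 18 / 5) (hom : om ≤ 1 / 2)
    (hη : 0 ≤ η) (hc : ContinuousOn e (Icc 0 ρ)) (hc1 : ContinuousOn e1 (Icc 0 ρ))
    (hd : ∀ r ∈ Ioo 0 ρ, r ≠ c → HasDerivAt e (e1 r) r ∧
      HasDerivAt e1 (-(11 / (r : ℂ) + I * r / 2) * e1 r - (om : ℂ) * e r + N r) r)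
    (hN : ∀ r ∈ Ioo 0 ρ, r ≠ c → -η ≤ (e r).re * (N r).re + (e r).im * (N r).im) :
    ∀ r ∈ Icc 0 ρ, r ^ 10 * ‖e r‖ ^ 2 ≤ ρ ^ 10 * ‖e ρ‖ ^ 2 + η * ρ ^ 12 / 72 := by
  have hHc : ContinuousOn (Hf e e1) (Icc 0 ρ) := by
    unfold Hf
    refine (((continuous_pow 11).continuousOn).mul
      (((cont_re hc).mul (cont_re hc1)).add ((cont_im hc).mul (cont_im hc1)))).add ?_
    exact ((continuous_const.mul (continuous_pow 10)).continuousOn).mul
      (((cont_re hc).pow 2).add ((cont_im hc).pow 2))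
  have hGc : ContinuousOn (Gf e) (Icc 0 ρ) := by
    unfold Gf
    exact ((continuous_pow 10).continuousOn).mul (((cont_re hc).pow 2).add ((cont_im hc).pow 2))
  have hH : ∀ r ∈ Icc 0 ρ, -(η * r ^ 12 / 12) ≤ Hf e e1 r := by
    have hm := mono_of_deriv (f := fun r => Hf e e1 r + η * r ^ 12 / 12)
      (f' := fun r => (r ^ 11 * (((e1 r).re - r / 4 * (e r).im + 5 / r * (e r).re) ^ 2 +
          ((e1 r).im + r / 4 * (e r).re + 5 / r * (e r).im) ^ 2) +
        r ^ 9 * ((e r).re ^ 2 + (e r).im ^ 2) * (25 - r ^ 4 / 16 - om * r ^ 2) +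
        r ^ 11 * ((e r).re * (N r).re + (e r).im * (N r).im)) + η * r ^ 11) (a := 0) (b := ρ) (c := c)
      (hHc.add (by fun_prop)) ?_ ?_
    · intro r hr
      have := hm (left_mem_Icc.2 hρ.le) hr hr.1
      simp only [Hf] at this ⊢
      norm_num at this
      linarith
    · intro x hx hxc
      have h1 := hasDerivAt_Hf hx.1 (hd x hx hxc).1 (hd x hx hxc).2
      have h2 : HasDerivAt (fun r : ℝ => η * r ^ 12 / 12) (η * x ^ 11) x := by
        have := ((hasDerivAt_pow 12 x).const_mul η).div_const 12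
        refine this.congr_deriv ?_
        norm_num
        ring
      exact h1.add h2
    · intro x hx hxc
      have h1 := hN x hx hxc
      have hx0 : 0 < x := hx.1
      have hx2 : x ≤ 18 / 5 := hx.2.le.trans hρ2
      have h2 : 0 ≤ 25 - x ^ 4 / 16 - om * x ^ 2 := by
        have h3 : x ^ 2 ≤ (18 / 5) ^ 2 := by gcongr
        have h4 : x ^ 4 ≤ (18 / 5) ^ 4 := by gcongr
        have h5 : om * x ^ 2 ≤ 1 / 2 * x ^ 2 := by gcongr
        norm_num at h3 h4
        linarith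
      have h3 : 0 ≤ x ^ 11 * (((e1 x).re - x / 4 * (e x).im + 5 / x * (e x).re) ^ 2 +
          ((e1 x).im + x / 4 * (e x).re + 5 / x * (e x).im) ^ 2) := by positivity
      have h4 : 0 ≤ x ^ 9 * ((e x).re ^ 2 + (e x).im ^ 2) * (25 - x ^ 4 / 16 - om * x ^ 2) :=
        mul_nonneg (by positivity) h2
      have h5 : x ^ 11 * (-η) ≤ x ^ 11 * ((e x).re * (N x).re + (e x).im * (N x).im) :=
        mul_le_mul_of_nonneg_left h1 (by positivity)
      linarith
  have hm := mono_of_deriv (f := fun r => Gf e r + η * r ^ 12 / 72)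
      (f' := fun r => 2 / r * Hf e e1 r + η * r ^ 11 / 6) (a := 0) (b := ρ) (c := c)
      (hGc.add (by fun_prop)) ?_ ?_
  · intro r hr
    have h1 := hm hr (right_mem_Icc.2 hρ.le) hr.2
    simp only [Gf_eq] at h1
    have h2 : 0 ≤ η * r ^ 12 / 72 := by
      have := hr.1
      positivity
    linarith
  · intro x hx hxc
    have h1 := hasDerivAt_Gf hx.1 (hd x hx hxc).1
    have h2 : HasDerivAt (fun r : ℝ => η * r ^ 12 / 72) (η * x ^ 11 / 6) x := by
      have := ((hasDerivAt_pow 12 x).const_mul η).div_const 72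
      refine this.congr_deriv ?_
      norm_num
      ring
    exact h1.add h2
  · intro x hx hxc
    have hx0 : 0 < x := hx.1
    have h1 := hH x ⟨hx.1.le, hx.2.le⟩
    have h2 : 2 / x * (-(η * x ^ 12 / 12)) ≤ 2 / x * Hf e e1 x :=
      mul_le_mul_of_nonneg_left h1 (by positivity)
    have h3 : 2 / x * (-(η * x ^ 12 / 12)) = -(η * x ^ 11 / 6) := by
      field_simp
      ring
    linarith

/-! ### monotonicity of the nonlinearity -/

/-- `Re (conj (v - V) (|v|ⁿ v - |V|ⁿ V)) ≥ 0` -/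
theorem mono_pow (n : ℕ) (v V : ℂ) :
    0 ≤ (v - V).re * (((‖v‖ ^ n : ℝ) : ℂ) * v - ((‖V‖ ^ n : ℝ) : ℂ) * V).re +
      (v - V).im * (((‖v‖ ^ n : ℝ) : ℂ) * v - ((‖V‖ ^ n : ℝ) : ℂ) * V).im := by
  set P := ‖v‖ ^ n with hP
  set S := ‖V‖ ^ n with hS
  have hP0 : 0 ≤ P := by positivity
  have hS0 : 0 ≤ S := by positivity
  have hv : v.re ^ 2 + v.im ^ 2 = ‖v‖ ^ 2 := by
    rw [← Complex.normSq_eq_norm_sq, Complex.normSq_apply]; ring
  have hV : V.re ^ 2 + V.im ^ 2 = ‖V‖ ^ 2 := by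
    rw [← Complex.normSq_eq_norm_sq, Complex.normSq_apply]; ring
  have hcs : v.re * V.re + v.im * V.im ≤ ‖v‖ * ‖V‖ := by
    refine abs_le_of_sq_le_sq' ?_ (by positivity) |>.2
    rw [mul_pow, ← hv, ← hV]
    nlinarith [sq_nonneg (v.re * V.im - v.im * V.re)]
  have hmono : 0 ≤ (P * ‖v‖ - S * ‖V‖) * (‖v‖ - ‖V‖) := by
    rcases le_total ‖v‖ ‖V‖ with h | h
    · have h1 : P ≤ S := by rw [hP, hS]; gcongr
      have h2 : P * ‖v‖ ≤ S * ‖V‖ := by gcongr
      exact mul_nonneg_of_nonpos_of_nonpos (by linarith) (by linarith)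
    · have h1 : S ≤ P := by rw [hP, hS]; gcongr
      have h2 : S * ‖V‖ ≤ P * ‖v‖ := by gcongr
      exact mul_nonneg (by linarith) (by linarith)
  have e1 : (((P : ℝ) : ℂ) * v - ((S : ℝ) : ℂ) * V).re = P * v.re - S * V.re := by
    simp [Complex.sub_re, Complex.mul_re]
  have e2 : (((P : ℝ) : ℂ) * v - ((S : ℝ) : ℂ) * V).im = P * v.im - S * V.im := by
    simp [Complex.sub_im, Complex.mul_im]
  rw [e1, e2, Complex.sub_re, Complex.sub_im]
  have e3 : (v.re - V.re) * (P * v.re - S * V.re) + (v.im - V.im) * (P * v.im - S * V.im) =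
      P * (v.re ^ 2 + v.im ^ 2) + S * (V.re ^ 2 + V.im ^ 2) -
        (P + S) * (v.re * V.re + v.im * V.im) := by ring
  rw [e3, hv, hV]
  have h4 : (P + S) * (v.re * V.re + v.im * V.im) ≤ (P + S) * (‖v‖ * ‖V‖) := by gcongr
  nlinarith

/-- **comparison of two solutions** (continuity in the parameter and in the boundary value) -/
theorem cmp {n : ℕ} {om om' eps ρ K : ℝ} {v v1 V V1 : ℝ → ℂ} (hρ : 0 < ρ) (hρ2 : ρ ≤ 18 / 5)
    (hom : om ≤ 1 / 2) (hv : ContinuousOn v (Icc 0 ρ)) (hv1 : ContinuousOn v1 (Icc 0 ρ))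
    (hV : ContinuousOn V (Icc 0 ρ)) (hV1 : ContinuousOn V1 (Icc 0 ρ))
    (hs : IsSol n om eps v v1 (Ioo 0 ρ)) (hS : IsSol n om' eps V V1 (Ioo 0 ρ))
    (hvK : ∀ r ∈ Icc 0 ρ, ‖v r‖ ≤ K) (hVK : ∀ r ∈ Icc 0 ρ, ‖V r‖ ≤ K) :
    ∀ r ∈ Icc 0 ρ, r ^ 10 * ‖v r - V r‖ ^ 2 ≤
      ρ ^ 10 * ‖v ρ - V ρ‖ ^ 2 + 2 * K ^ 2 * |om - om'| * ρ ^ 12 / 72 := by
  have hK0 : 0 ≤ K := (norm_nonneg _).trans (hvK 0 (left_mem_Icc.2 hρ.le))
  refine core_cmp (e := fun r => v r - V r) (e1 := fun r => v1 r - V1 r)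
    (N := fun r => (((‖v r‖ ^ n : ℝ) : ℂ) * v r - ((‖V r‖ ^ n : ℝ) : ℂ) * V r) -
      I * eps * (v r - V r) - ((om - om' : ℝ) : ℂ) * V r) (c := 0) hρ hρ2 hom (by positivity)
    (hv.sub hV) (hv1.sub hV1) ?_ ?_
  · intro r hr _
    refine ⟨(hs r hr).1.sub (hS r hr).1, ((hs r hr).2.sub (hS r hr).2).congr_deriv ?_⟩
    push_cast
    ring
  · intro r hr _
    have hm := mono_pow n (v r) (V r)
    have hr' : r ∈ Icc 0 ρ := Ioo_subset_Icc_self hr
    have h1 := hvK r hr'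
    have h2 := hVK r hr'
    have e1 : (v r - V r).re * ((((‖v r‖ ^ n : ℝ) : ℂ) * v r - ((‖V r‖ ^ n : ℝ) : ℂ) * V r) -
        I * eps * (v r - V r) - ((om - om' : ℝ) : ℂ) * V r).re +
        (v r - V r).im * ((((‖v r‖ ^ n : ℝ) : ℂ) * v r - ((‖V r‖ ^ n : ℝ) : ℂ) * V r) -
        I * eps * (v r - V r) - ((om - om' : ℝ) : ℂ) * V r).im =
        ((v r - V r).re * (((‖v r‖ ^ n : ℝ) : ℂ) * v r - ((‖V r‖ ^ n : ℝ) : ℂ) * V r).re +
        (v r - V r).im * (((‖v r‖ ^ n : ℝ) : ℂ) * v r - ((‖V r‖ ^ n : ℝ) : ℂ) * V r).im) -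
        (om - om') * ((v r - V r).re * (V r).re + (v r - V r).im * (V r).im) := by
      simp only [Complex.sub_re, Complex.sub_im, Complex.mul_re, Complex.mul_im, Complex.I_re,
        Complex.I_im, Complex.ofReal_re, Complex.ofReal_im]
      ring
    have hcs : |(v r - V r).re * (V r).re + (v r - V r).im * (V r).im| ≤ 2 * K ^ 2 := by
      have h3 : ‖v r - V r‖ ≤ 2 * K := (norm_sub_le _ _).trans (by linarith)
      have h4 : (v r - V r).re * (V r).re + (v r - V r).im * (V r).im =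
          ((v r - V r) * conj (V r)).re := by
        rw [Complex.mul_re, Complex.conj_re, Complex.conj_im]; ring
      rw [h4]
      refine (Complex.abs_re_le_norm _).trans ?_
      rw [norm_mul, Complex.norm_conj]
      calc ‖v r - V r‖ * ‖V r‖ ≤ (2 * K) * K := by gcongr
        _ = 2 * K ^ 2 := by ring
    have h5 : (om - om') * ((v r - V r).re * (V r).re + (v r - V r).im * (V r).im) ≤
        2 * K ^ 2 * |om - om'| := by
      refine (le_abs_self _).trans ?_
      rw [abs_mul, mul_comm]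
      gcongr
    show -(2 * K ^ 2 * |om - om'|) ≤ _
    rw [e1]
    linarith

/-- **uniqueness** of the interior problem -/
theorem unique {n : ℕ} {om eps ρ : ℝ} {v v1 V V1 : ℝ → ℂ} (hρ : 0 < ρ) (hρ2 : ρ ≤ 18 / 5)
    (hom : om ≤ 1 / 2) (hv : ContinuousOn v (Icc 0 ρ)) (hv1 : ContinuousOn v1 (Icc 0 ρ))
    (hV : ContinuousOn V (Icc 0 ρ)) (hV1 : ContinuousOn V1 (Icc 0 ρ))
    (hs : IsSol n om eps v v1 (Ioo 0 ρ)) (hS : IsSol n om eps V V1 (Ioo 0 ρ))
    (hb : v ρ = V ρ) : ∀ r ∈ Icc 0 ρ, v r = V r ∧ v1 r = V1 r := by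
  obtain ⟨K1, hK1⟩ := isCompact_Icc.exists_bound_of_continuousOn hv
  obtain ⟨K2, hK2⟩ := isCompact_Icc.exists_bound_of_continuousOn hV
  have hc := cmp (K := max K1 K2) hρ hρ2 hom hv hv1 hV hV1 hs hS
    (fun r hr => (hK1 r hr).trans (le_max_left _ _)) (fun r hr => (hK2 r hr).trans (le_max_right _ _))
  rw [hb] at hc
  simp only [sub_self, norm_zero, abs_zero] at hc
  have h1 : ∀ r ∈ Ioc 0 ρ, v r = V r := by
    intro r hr
    have h2 := hc r ⟨hr.1.le, hr.2⟩
    have h3 : r ^ 10 * ‖v r - V r‖ ^ 2 ≤ 0 := by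
      refine h2.trans (le_of_eq ?_); ring
    have h4 : 0 < r ^ 10 := pow_pos hr.1 10
    have h5 : ‖v r - V r‖ ^ 2 ≤ 0 := by
      by_contra h6
      rw [not_le] at h6
      have := mul_pos h4 h6
      linarith
    have h7 : ‖v r - V r‖ = 0 := by
      have := sq_nonneg ‖v r - V r‖
      exact pow_eq_zero_iff (two_ne_zero) |>.1 (le_antisymm h5 this)
    exact sub_eq_zero.1 (norm_eq_zero.1 h7)
  have hcl : closure (Ioo (0:ℝ) ρ) = Icc 0 ρ := closure_Ioo hρ.ne
  have h2 : EqOn v V (Icc 0 ρ) := by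
    have : EqOn v V (Ioo 0 ρ) := fun r hr => h1 r ⟨hr.1, hr.2.le⟩
    have h3 := this.of_subset_closure hv hV Ioo_subset_Icc_self (by rw [hcl])
    exact h3
  have h3 : EqOn v1 V1 (Ioo 0 ρ) := by
    intro r hr
    have h4 : v =ᶠ[nhds r] V := by
      filter_upwards [isOpen_Ioo.mem_nhds hr] with x hx
      exact h1 x ⟨hx.1, hx.2.le⟩
    exact (hs r hr).1.unique (((hS r hr).1).congr_of_eventuallyEq h4)
  have h4 : EqOn v1 V1 (Icc 0 ρ) := h3.of_subset_closure hv1 hV1 Ioo_subset_Icc_self (by rw [hcl])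
  exact fun r hr => ⟨h2 hr, h4 hr⟩

end Crest.Agent.R086.B
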