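import Crest.Agent.R086.BExtDefs

set_option autoImplicit false

open Complex Set Filter Topology
open scoped NNReal

namespace Crest.Agent.R086.BNear
open Crest.Agent.R086.B

/-! ### truncated nonlinearity -/

/-- truncated nonlinearity -/
noncomputable def tn (n : ℕ) (M : ℝ) (v : ℂ) : ℂ := ((min ‖v‖ M ^ n : ℝ) : ℂ) * v

theorem tn_eq {n : ℕ} {M : ℝ} {v : ℂ} (h : ‖v‖ ≤ M) : tn n M v = ((‖v‖ ^ n : ℝ) : ℂ) * v := by
  unfold tn
  rw [min_eq_left h]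

theorem min_nonneg' {M : ℝ} (hM : 0 ≤ M) (v : ℂ) : 0 ≤ min ‖v‖ M := le_min (norm_nonneg _) hM

theorem tn_norm {n : ℕ} {M : ℝ} (hM : 0 ≤ M) (v : ℂ) : ‖tn n M v‖ ≤ M ^ n * ‖v‖ := by
  unfold tn
  rw [norm_mul, Complex.norm_real, Real.norm_of_nonneg (pow_nonneg (min_nonneg' hM v) _)]
  exact mul_le_mul_of_nonneg_right (pow_le_pow_left₀ (min_nonneg' hM v) (min_le_right _ _) _)
    (norm_nonneg _)

theorem pow_sub_pow_le {x y M : ℝ} (hy : 0 ≤ y) (hyx : y ≤ x) (hx : x ≤ M) (n : ℕ) :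
    x ^ (n + 1) - y ^ (n + 1) ≤ (n + 1) * M ^ n * (x - y) := by
  induction n with
  | zero => simp
  | succ n ih =>
    have hx0 : 0 ≤ x := hy.trans hyx
    have h1 : x ^ (n + 2) - y ^ (n + 2) = x ^ (n + 1) * (x - y) + y * (x ^ (n + 1) - y ^ (n + 1)) := by
      ring
    have h2 : x ^ (n + 1) ≤ M ^ (n + 1) := pow_le_pow_left₀ hx0 hx _
    have h3 : y * (x ^ (n + 1) - y ^ (n + 1)) ≤ M * ((n + 1) * M ^ n * (x - y)) := by
      refine mul_le_mul (hyx.trans hx) ih ?_ (hx0.trans hx)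
      exact sub_nonneg.2 (pow_le_pow_left₀ hy hyx _)
    have h4 : x ^ (n + 1) * (x - y) ≤ M ^ (n + 1) * (x - y) :=
      mul_le_mul_of_nonneg_right h2 (sub_nonneg.2 hyx)
    calc x ^ (n + 1 + 1) - y ^ (n + 1 + 1) = x ^ (n + 1) * (x - y) + y * (x ^ (n + 1) - y ^ (n + 1)) := h1
      _ ≤ M ^ (n + 1) * (x - y) + M * ((n + 1) * M ^ n * (x - y)) := add_le_add h4 h3
      _ = ((n + 1 : ℕ) + 1 : ℝ) * M ^ (n + 1) * (x - y) := by push_cast; ring

theorem tn_lip_aux {n : ℕ} {M : ℝ} (hM : 0 ≤ M) {v w : ℂ} (h : ‖w‖ ≤ ‖v‖) :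
    ‖tn n M v - tn n M w‖ ≤ (n + 1) * M ^ n * ‖v - w‖ := by
  have e : tn n M v - tn n M w = ((min ‖v‖ M ^ n : ℝ) : ℂ) * (v - w) +
      ((min ‖v‖ M ^ n - min ‖w‖ M ^ n : ℝ) : ℂ) * w := by
    unfold tn; push_cast; ring
  rw [e]
  have h1 : ‖((min ‖v‖ M ^ n : ℝ) : ℂ) * (v - w)‖ ≤ M ^ n * ‖v - w‖ := by
    rw [norm_mul, Complex.norm_real, Real.norm_of_nonneg (pow_nonneg (min_nonneg' hM v) _)]
    exact mul_le_mul_of_nonneg_right (pow_le_pow_left₀ (min_nonneg' hM v) (min_le_right _ _) _)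
      (norm_nonneg _)
  have hmono : min ‖w‖ M ≤ min ‖v‖ M := min_le_min_right _ h
  have hd : 0 ≤ min ‖v‖ M ^ n - min ‖w‖ M ^ n :=
    sub_nonneg.2 (pow_le_pow_left₀ (min_nonneg' hM w) hmono _)
  have h2 : ‖((min ‖v‖ M ^ n - min ‖w‖ M ^ n : ℝ) : ℂ) * w‖ ≤ n * M ^ n * ‖v - w‖ := by
    rw [norm_mul, Complex.norm_real, Real.norm_of_nonneg hd]
    rcases le_or_gt M ‖w‖ with hw | hw
    · rw [min_eq_right hw, min_eq_right (hw.trans h), sub_self, zero_mul]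
      positivity
    · rcases n with _ | n
      · simp
      · have h3 := pow_sub_pow_le (min_nonneg' hM w) hmono (min_le_right _ _) n
        have h4 : min ‖v‖ M - min ‖w‖ M ≤ ‖v - w‖ := by
          rw [min_eq_left hw.le]
          have := norm_sub_norm_le v w
          linarith [min_le_left ‖v‖ M]
        have h5 : (min ‖v‖ M ^ (n + 1) - min ‖w‖ M ^ (n + 1)) ≤ (n + 1) * M ^ n * ‖v - w‖ :=
          h3.trans (mul_le_mul_of_nonneg_left h4 (by positivity))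
        calc (min ‖v‖ M ^ (n + 1) - min ‖w‖ M ^ (n + 1)) * ‖w‖
            ≤ ((n + 1) * M ^ n * ‖v - w‖) * M := mul_le_mul h5 hw.le (norm_nonneg _) (by positivity)
          _ = ((n + 1 : ℕ) : ℝ) * M ^ (n + 1) * ‖v - w‖ := by push_cast; ring
  calc _ ≤ M ^ n * ‖v - w‖ + n * M ^ n * ‖v - w‖ := (norm_add_le _ _).trans (add_le_add h1 h2)
    _ = _ := by ring

theorem tn_lip (n : ℕ) {M : ℝ} (hM : 0 ≤ M) (v w : ℂ) :
    ‖tn n M v - tn n M w‖ ≤ (n + 1) * M ^ n * ‖v - w‖ := by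
  rcases le_total ‖w‖ ‖v‖ with h | h
  · exact tn_lip_aux hM h
  · rw [norm_sub_rev, norm_sub_rev v w]
    exact tn_lip_aux hM h

theorem tn_continuous (n : ℕ) (M : ℝ) : Continuous (tn n M) := by
  unfold tn
  fun_prop

/-! ### the truncated vector field -/

/-- clamp to `[a, b]` -/
noncomputable def cl (a b r : ℝ) : ℝ := max a (min r b)

theorem cl_eq {a b r : ℝ} (h : r ∈ Icc a b) : cl a b r = r := by
  unfold cl
  rw [min_eq_left h.2, max_eq_right h.1]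

theorem cl_ge (a b r : ℝ) : a ≤ cl a b r := le_max_left _ _

theorem cl_le {a b : ℝ} (h : a ≤ b) (r : ℝ) : cl a b r ≤ b := max_le h (min_le_right _ _)

/-- truncated vector field -/
noncomputable def fld (n : ℕ) (M a b om eps r : ℝ) (z : ℂ × ℂ) : ℂ × ℂ :=
  (z.2, -(11 / ((cl a b r : ℝ) : ℂ) + I * ((cl a b r : ℝ) : ℂ) / 2) * z.2
    - ((om : ℂ) + I * eps) * z.1 + tn n M z.1)

theorem coef_norm {a b : ℝ} (ha : 0 < a) (hab : a ≤ b) (r : ℝ) :
    ‖-(11 / ((cl a b r : ℝ) : ℂ) + I * ((cl a b r : ℝ) : ℂ) / 2)‖ ≤ 11 / a + b / 2 := by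
  have h1 := cl_ge a b r
  have h2 := cl_le hab r
  have h0 : 0 < cl a b r := lt_of_lt_of_le ha h1
  rw [norm_neg]
  refine (norm_add_le _ _).trans (add_le_add ?_ ?_)
  · rw [norm_div, Complex.norm_real, Real.norm_of_nonneg h0.le]
    have : ‖(11 : ℂ)‖ = 11 := by simp
    rw [this]
    gcongr
  · rw [norm_div, norm_mul, Complex.norm_I, one_mul, Complex.norm_real, Real.norm_of_nonneg h0.le]
    have : ‖(2 : ℂ)‖ = 2 := by simp
    rw [this]
    gcongr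

theorem mu_norm {om eps : ℝ} (h1 : |om| ≤ 1) (h2 : |eps| ≤ 1) : ‖(om : ℂ) + I * eps‖ ≤ 2 := by
  refine (norm_add_le _ _).trans ?_
  rw [norm_mul, Complex.norm_I, one_mul, Complex.norm_real, Complex.norm_real, Real.norm_eq_abs,
    Real.norm_eq_abs]
  linarith

theorem fld_lip {n : ℕ} {M a b om eps : ℝ} (hM : 0 ≤ M) (ha : 0 < a) (hab : a ≤ b)
    (h1 : |om| ≤ 1) (h2 : |eps| ≤ 1) (r : ℝ) (z w : ℂ × ℂ) :
    ‖fld n M a b om eps r z - fld n M a b om eps r w‖ ≤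
      (1 + (11 / a + b / 2) + 2 + (n + 1) * M ^ n) * ‖z - w‖ := by
  have hb : 0 < b := lt_of_lt_of_le ha hab
  have hz1 : ‖z.1 - w.1‖ ≤ ‖z - w‖ := norm_fst_le (z - w)
  have hz2 : ‖z.2 - w.2‖ ≤ ‖z - w‖ := norm_snd_le (z - w)
  have hc := coef_norm ha hab r
  have hm := mu_norm h1 h2
  have ht := tn_lip n hM z.1 w.1
  have hN : 0 ≤ (n + 1 : ℝ) * M ^ n := by positivity
  have hA : 0 ≤ 11 / a + b / 2 := by positivity
  have hq : 0 ≤ ‖z - w‖ := norm_nonneg _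
  rw [Prod.norm_def]
  refine max_le ?_ ?_
  · show ‖z.2 - w.2‖ ≤ _
    nlinarith
  · show ‖(-(11 / ((cl a b r : ℝ) : ℂ) + I * ((cl a b r : ℝ) : ℂ) / 2) * z.2
      - ((om : ℂ) + I * eps) * z.1 + tn n M z.1) -
      (-(11 / ((cl a b r : ℝ) : ℂ) + I * ((cl a b r : ℝ) : ℂ) / 2) * w.2
      - ((om : ℂ) + I * eps) * w.1 + tn n M w.1)‖ ≤ _
    have e : (-(11 / ((cl a b r : ℝ) : ℂ) + I * ((cl a b r : ℝ) : ℂ) / 2) * z.2
      - ((om : ℂ) + I * eps) * z.1 + tn n M z.1) -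
      (-(11 / ((cl a b r : ℝ) : ℂ) + I * ((cl a b r : ℝ) : ℂ) / 2) * w.2
      - ((om : ℂ) + I * eps) * w.1 + tn n M w.1) =
      (-(11 / ((cl a b r : ℝ) : ℂ) + I * ((cl a b r : ℝ) : ℂ) / 2)) * (z.2 - w.2)
      - ((om : ℂ) + I * eps) * (z.1 - w.1) + (tn n M z.1 - tn n M w.1) := by ring
    rw [e]
    calc _ ≤ ‖(-(11 / ((cl a b r : ℝ) : ℂ) + I * ((cl a b r : ℝ) : ℂ) / 2)) * (z.2 - w.2)‖
          + ‖((om : ℂ) + I * eps) * (z.1 - w.1)‖ + ‖tn n M z.1 - tn n M w.1‖ :=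
          (norm_add_le _ _).trans (add_le_add (norm_sub_le _ _) le_rfl)
      _ ≤ (11 / a + b / 2) * ‖z - w‖ + 2 * ‖z - w‖ + (n + 1) * M ^ n * ‖z - w‖ := by
          rw [norm_mul, norm_mul]
          gcongr
          exact ht.trans (by gcongr)
      _ ≤ _ := by nlinarith

theorem fld_continuous (n : ℕ) (M : ℝ) {a b : ℝ} (ha : 0 < a) (eps : ℝ) :
    Continuous fun p : ℝ × ℝ × (ℂ × ℂ) => fld n M a b p.1 eps p.2.1 p.2.2 := by
  unfold fld
  have hcl : Continuous fun p : ℝ × ℝ × (ℂ × ℂ) => ((cl a b p.2.1 : ℝ) : ℂ) := by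
    unfold cl
    fun_prop
  have hne : ∀ p : ℝ × ℝ × (ℂ × ℂ), ((cl a b p.2.1 : ℝ) : ℂ) ≠ 0 := fun p => by
    have := lt_of_lt_of_le ha (cl_ge a b p.2.1)
    exact_mod_cast this.ne'
  have h1 : Continuous fun p : ℝ × ℝ × (ℂ × ℂ) => (11 : ℂ) / ((cl a b p.2.1 : ℝ) : ℂ) :=
    continuous_const.div hcl hne
  have h2 := tn_continuous n M
  refine Continuous.prodMk (by fun_prop) ?_
  refine Continuous.add (Continuous.sub (Continuous.mul (Continuous.neg (h1.add ?_)) ?_) ?_) ?_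
  · fun_prop
  · fun_prop
  · fun_prop
  · exact h2.comp (by fun_prop)

/-! ### backward Gronwall -/

theorem gronwall_back {E : Type*} [NormedAddCommGroup E] [NormedSpace ℝ E] {e e' : ℝ → E}
    {a b L d : ℝ} (hL : 0 < L) (hd0 : 0 ≤ d) (hd : ∀ r ∈ Icc a b, HasDerivAt e (e' r) r)
    (hb : ∀ r ∈ Icc a b, ‖e' r‖ ≤ L * ‖e r‖ + d) (r : ℝ) (hr : r ∈ Icc a b) :
    ‖e r‖ ≤ (‖e b‖ + d / L) * Real.exp (L * (b - a)) := by
  have hab : a ≤ b := hr.1.trans hr.2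
  have hderiv : ∀ t ∈ Icc 0 (b - a), HasDerivAt (fun t => e (b - t)) (-(e' (b - t))) t := by
    intro t ht
    have h1 := hd (b - t) ⟨by linarith [ht.2], by linarith [ht.1]⟩
    have h2 : HasDerivAt (fun t : ℝ => b - t) (-1) t := by
      simpa using (hasDerivAt_id t).const_sub b
    have := h1.scomp t h2
    simpa [Function.comp_def] using this
  have hcont : ContinuousOn (fun t => e (b - t)) (Icc 0 (b - a)) := fun t ht =>
    (hderiv t ht).continuousAt.continuousWithinAt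
  have h := norm_le_gronwallBound_of_norm_deriv_right_le (f := fun t => e (b - t))
    (f' := fun t => -(e' (b - t))) (δ := ‖e b‖) (K := L) (ε := d) (a := 0) (b := b - a) hcont
    (fun t ht => (hderiv t ⟨ht.1, ht.2.le⟩).hasDerivWithinAt) (by simp)
    (fun t ht => by
      rw [norm_neg]
      exact hb (b - t) ⟨by linarith [ht.2], by linarith [ht.1]⟩)
    (b - r) ⟨by linarith [hr.2], by linarith [hr.1]⟩
  rw [gronwallBound_of_K_ne_0 hL.ne'] at h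
  simp only [sub_zero, sub_sub_cancel] at h
  have h1 : Real.exp (L * (b - r)) ≤ Real.exp (L * (b - a)) := by
    apply Real.exp_le_exp.2
    nlinarith [hr.1]
  have h2 : 0 ≤ d / L := by positivity
  have h3 : 0 ≤ ‖e b‖ := norm_nonneg _
  nlinarith [mul_le_mul_of_nonneg_left h1 (add_nonneg h3 h2)]

end Crest.Agent.R086.BNear
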