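import Crest.Agent.R086.BExtDefs
import Mathlib

/-!
Row 86, part B (helper392, second of helper514): perturbation lemma on a compact interval (backward from `b`),
Lipschitz dependence, truncated nonlinearity, conversion `r ↔ x = r²/4`, gluing.
-/

set_option autoImplicit false

open Complex Set Filter Topology

namespace Crest.Agent.R086.B.Pert

/-! ### backward Gronwall for a second order system -/

theorem gron_back {E : Type*} [NormedAddCommGroup E] [NormedSpace ℝ E] {f f' : ℝ → E}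
    {a b δ K ε : ℝ} (hf : ∀ x ∈ Icc a b, HasDerivWithinAt f (f' x) (Icc a b) x)
    (hb : ‖f b‖ ≤ δ) (bound : ∀ x ∈ Icc a b, ‖f' x‖ ≤ K * ‖f x‖ + ε) :
    ∀ x ∈ Icc a b, ‖f x‖ ≤ gronwallBound δ K ε (b - x) := by
  have hneg : ∀ x ∈ Icc (-b) (-a), -x ∈ Icc a b := fun x hx => ⟨by linarith [hx.2], by linarith [hx.1]⟩
  have hmaps : MapsTo (fun x : ℝ => -x) (Icc (-b) (-a)) (Icc a b) := fun x hx => hneg x hx
  have hg : ∀ x ∈ Icc (-b) (-a),
      HasDerivWithinAt (fun t => f (-t)) (-(f' (-x))) (Icc (-b) (-a)) x := by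
    intro x hx
    have h1 : HasDerivWithinAt (fun t : ℝ => -t) (-1) (Icc (-b) (-a)) x :=
      (hasDerivAt_neg x).hasDerivWithinAt
    have h2 := HasDerivWithinAt.scomp (h := fun t : ℝ => -t) x (hf (-x) (hneg x hx)) h1 hmaps
    rw [neg_smul, one_smul] at h2
    exact h2
  have key := norm_le_gronwallBound_of_norm_deriv_right_le (f := fun t => f (-t))
    (f' := fun t => -(f' (-t))) (δ := δ) (K := K) (ε := ε) (a := -b) (b := -a)
    (fun x hx => (hg x hx).continuousWithinAt)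
    (fun x hx => by
      have h := hg x ⟨hx.1, hx.2.le⟩
      refine h.mono_of_mem_nhdsWithin ?_
      exact mem_nhdsGE_iff_exists_Icc_subset.2 ⟨-a, hx.2, Icc_subset_Icc_left hx.1⟩)
    (by simpa using hb)
    (fun x hx => by
      have h := bound (-x) (hneg x ⟨hx.1, hx.2.le⟩)
      simpa using h)
  intro x hx
  have h := key (-x) ⟨by linarith [hx.2], by linarith [hx.1]⟩
  simp only [neg_neg] at h
  have e : -x - -b = b - x := by ring
  rwa [e] at h

/-- the constant of the perturbation lemma -/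
noncomputable def KK (a b : ℝ) : ℝ := Real.exp ((4 + 11 / a + b / 2) * (b - a))

theorem gronwall_le {δ K ε x L : ℝ} (hδ : 0 ≤ δ) (hK : 1 ≤ K) (hε : 0 ≤ ε) (hx : 0 ≤ x) (hxL : x ≤ L) :
    gronwallBound δ K ε x ≤ Real.exp (K * L) * (δ + ε) := by
  have hK0 : K ≠ 0 := by linarith
  rw [gronwallBound_of_K_ne_0 hK0]
  have h1 : Real.exp (K * x) ≤ Real.exp (K * L) :=
    Real.exp_le_exp.2 (mul_le_mul_of_nonneg_left hxL (by linarith))
  have h2 : ε / K ≤ ε := by
    rw [div_le_iff₀ (by linarith)]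
    nlinarith
  have h3 : 0 ≤ ε / K := by positivity
  have h4 : 1 ≤ Real.exp (K * x) := Real.one_le_exp (by positivity)
  have h5 : ε / K * (Real.exp (K * x) - 1) ≤ ε * Real.exp (K * L) := by
    refine mul_le_mul h2 (by linarith) (by linarith) hε
  have h6 : δ * Real.exp (K * x) ≤ δ * Real.exp (K * L) := mul_le_mul_of_nonneg_left h1 hδ
  linarith

/-- **perturbation lemma (general forcing), backward from `b`.** `e'' + (11/r + i r/2) e' + om e = g`,
`‖g r‖ ≤ τ ‖e r‖ + ε`. -/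
theorem second_order {a b om τ ε d : ℝ} {e e1 g : ℝ → ℂ} (ha : 0 < a) (hab : a ≤ b)
    (hom : |om| ≤ 1) (hτ : τ ≤ 1) (hε : 0 ≤ ε)
    (he : ∀ r ∈ Icc a b, HasDerivWithinAt e (e1 r) (Icc a b) r)
    (he1 : ∀ r ∈ Icc a b, HasDerivWithinAt e1
      (-(11 / (r : ℂ) + I * r / 2) * e1 r - (om : ℂ) * e r + g r) (Icc a b) r)
    (hg : ∀ r ∈ Icc a b, ‖g r‖ ≤ τ * ‖e r‖ + ε) (hd : ‖e b‖ ≤ d) (hd1 : ‖e1 b‖ ≤ d) :
    ∀ r ∈ Icc a b, ‖e r‖ ≤ KK a b * (d + ε) ∧ ‖e1 r‖ ≤ KK a b * (d + ε) := by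
  have hd0 : 0 ≤ d := (norm_nonneg _).trans hd
  set K : ℝ := 4 + 11 / a + b / 2 with hKdef
  have hb : 0 < b := ha.trans_le hab
  have hK1 : 1 ≤ K := by
    have : 0 ≤ 11 / a := by positivity
    rw [hKdef]; linarith
  have key := gron_back (E := ℂ × ℂ) (f := fun r => (e r, e1 r))
    (f' := fun r => (e1 r, -(11 / (r : ℂ) + I * r / 2) * e1 r - (om : ℂ) * e r + g r))
    (a := a) (b := b) (δ := d) (K := K) (ε := ε)
    (fun x hx => (he x hx).prodMk (he1 x hx))
    (by rw [Prod.norm_mk]; exact max_le hd hd1)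
    (by
      intro r hr
      have hr0 : 0 < r := ha.trans_le hr.1
      have hn : ‖e r‖ ≤ ‖((e r, e1 r) : ℂ × ℂ)‖ := norm_fst_le (e r, e1 r)
      have hn1 : ‖e1 r‖ ≤ ‖((e r, e1 r) : ℂ × ℂ)‖ := norm_snd_le (e r, e1 r)
      set m := ‖((e r, e1 r) : ℂ × ℂ)‖ with hm
      have hm0 : 0 ≤ m := norm_nonneg _
      rw [Prod.norm_mk]
      refine max_le ?_ ?_
      · have : (1 : ℝ) * m ≤ K * m := mul_le_mul_of_nonneg_right hK1 hm0
        linarith
      · have hc : ‖(11 / (r : ℂ) + I * r / 2)‖ ≤ 11 / a + b / 2 := by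
          refine (norm_add_le _ _).trans ?_
          have h1 : ‖(11 / (r : ℂ))‖ = 11 / r := by
            rw [norm_div, Complex.norm_real, Real.norm_of_nonneg hr0.le]
            norm_num
          have h2 : ‖(I * (r : ℂ) / 2)‖ = r / 2 := by
            rw [norm_div, norm_mul, Complex.norm_I, Complex.norm_real, Real.norm_of_nonneg hr0.le]
            norm_num
          rw [h1, h2]
          have h3 : 11 / r ≤ 11 / a := div_le_div_of_nonneg_left (by norm_num) ha hr.1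
          linarith [hr.2]
        have h3 : ‖-(11 / (r : ℂ) + I * r / 2) * e1 r‖ ≤ (11 / a + b / 2) * m := by
          rw [norm_mul, norm_neg]
          exact mul_le_mul hc hn1 (norm_nonneg _) (by positivity)
        have h4 : ‖(om : ℂ) * e r‖ ≤ 1 * m := by
          rw [norm_mul, Complex.norm_real, Real.norm_eq_abs]
          exact mul_le_mul hom hn (norm_nonneg _) (by norm_num)
        have h5 : ‖g r‖ ≤ 1 * m + ε := by
          refine (hg r hr).trans ?_
          have : τ * ‖e r‖ ≤ 1 * m := by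
            rcases le_or_gt 0 τ with h | h
            · exact mul_le_mul hτ hn (norm_nonneg _) (by norm_num)
            · have : τ * ‖e r‖ ≤ 0 := mul_nonpos_of_nonpos_of_nonneg h.le (norm_nonneg _)
              linarith
          linarith
        have h6 := norm_add_le (-(11 / (r : ℂ) + I * r / 2) * e1 r - (om : ℂ) * e r) (g r)
        have h7 := norm_sub_le (-(11 / (r : ℂ) + I * r / 2) * e1 r) ((om : ℂ) * e r)
        have h8 : K * m = 4 * m + (11 / a + b / 2) * m := by rw [hKdef]; ring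
        rw [h8]
        linarith)
  intro r hr
  have h := key r hr
  have h2 := gronwall_le (δ := d) (K := K) (ε := ε) (x := b - r) (L := b - a) hd0 hK1 hε
    (by linarith [hr.2]) (by linarith [hr.1])
  rw [Prod.norm_mk] at h
  have h3 := h.trans h2
  have e4 : Real.exp (K * (b - a)) = KK a b := by rw [KK, hKdef]
  rw [e4] at h3
  exact ⟨(le_max_left _ _).trans h3, (le_max_right _ _).trans h3⟩

theorem KK_pos (a b : ℝ) : 0 < KK a b := Real.exp_pos _

/-- comparison of a solution of the equation with small nonlinearity `N` (`‖N r‖ ≤ τ ‖v r‖`) and parameter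
`om'` with a solution `u` of the linear equation with parameter `om` -/
theorem pert {a b om om' eps τ d M : ℝ} {v v1 u u1 N : ℝ → ℂ} (ha : 0 < a) (hab : a ≤ b)
    (hom : |om| ≤ 1) (heps : 0 ≤ eps) (hτ : 0 ≤ τ) (hs : |om' - om| + eps + τ ≤ 1)
    (hv : ∀ r ∈ Icc a b, HasDerivWithinAt v (v1 r) (Icc a b) r)
    (hv1 : ∀ r ∈ Icc a b, HasDerivWithinAt v1
      (-(11 / (r : ℂ) + I * r / 2) * v1 r - ((om' : ℂ) + I * eps) * v r + N r) (Icc a b) r)
    (hu : ∀ r ∈ Icc a b, HasDerivWithinAt u (u1 r) (Icc a b) r)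
    (hu1 : ∀ r ∈ Icc a b, HasDerivWithinAt u1
      (-(11 / (r : ℂ) + I * r / 2) * u1 r - (om : ℂ) * u r) (Icc a b) r)
    (hN : ∀ r ∈ Icc a b, ‖N r‖ ≤ τ * ‖v r‖) (hM : ∀ r ∈ Icc a b, ‖u r‖ ≤ M)
    (hd : ‖v b - u b‖ ≤ d) (hd1 : ‖v1 b - u1 b‖ ≤ d) :
    ∀ r ∈ Icc a b, ‖v r - u r‖ ≤ KK a b * (d + (|om' - om| + eps + τ) * M) ∧
      ‖v1 r - u1 r‖ ≤ KK a b * (d + (|om' - om| + eps + τ) * M) := by
  have hM0 : 0 ≤ M := (norm_nonneg _).trans (hM b ⟨hab, le_refl _⟩)
  have h0 : 0 ≤ |om' - om| + eps + τ := by positivity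
  refine second_order (om := om) (τ := |om' - om| + eps + τ) (e := fun r => v r - u r)
    (e1 := fun r => v1 r - u1 r) (g := fun r => -(((om' - om : ℝ) : ℂ) + I * eps) * v r + N r) ha hab hom
    hs (by positivity) (fun r hr => (hv r hr).sub (hu r hr)) (fun r hr => ?_) (fun r hr => ?_) hd hd1
  · refine ((hv1 r hr).sub (hu1 r hr)).congr_deriv ?_
    push_cast
    ring
  · have h1 : ‖-(((om' - om : ℝ) : ℂ) + I * eps) * v r‖ ≤ (|om' - om| + eps) * ‖v r‖ := by
      rw [norm_mul, norm_neg]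
      refine mul_le_mul_of_nonneg_right ?_ (norm_nonneg _)
      refine (norm_add_le _ _).trans ?_
      rw [Complex.norm_real, norm_mul, Complex.norm_I, Complex.norm_real, Real.norm_eq_abs,
        Real.norm_of_nonneg heps, one_mul]
    have h2 : ‖v r‖ ≤ ‖v r - u r‖ + M := by
      have := norm_add_le (v r - u r) (u r)
      rw [sub_add_cancel] at this
      linarith [hM r hr]
    calc ‖-(((om' - om : ℝ) : ℂ) + I * eps) * v r + N r‖
        ≤ (|om' - om| + eps) * ‖v r‖ + τ * ‖v r‖ := (norm_add_le _ _).trans (add_le_add h1 (hN r hr))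
      _ = (|om' - om| + eps + τ) * ‖v r‖ := by ring
      _ ≤ (|om' - om| + eps + τ) * (‖v r - u r‖ + M) := mul_le_mul_of_nonneg_left h2 h0
      _ = (|om' - om| + eps + τ) * ‖v r - u r‖ + (|om' - om| + eps + τ) * M := by ring

/-! ### truncated nonlinearity -/

/-- `min(|z|,q)^n z` -/
noncomputable def phi (n : ℕ) (q : ℝ) (z : ℂ) : ℂ := (((min ‖z‖ q) ^ n : ℝ) : ℂ) * z

theorem phi_eq {n : ℕ} {q : ℝ} {z : ℂ} (h : ‖z‖ ≤ q) : phi n q z = ((‖z‖ ^ n : ℝ) : ℂ) * z := by
  rw [phi, min_eq_left h]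

theorem phi_norm_le {n : ℕ} {q : ℝ} (hq : 0 ≤ q) (z : ℂ) : ‖phi n q z‖ ≤ q ^ n * ‖z‖ := by
  rw [phi, norm_mul, Complex.norm_real, Real.norm_of_nonneg (by positivity)]
  exact mul_le_mul_of_nonneg_right (pow_le_pow_left₀ (by positivity) (min_le_right _ _) _) (norm_nonneg _)

theorem pow_sub_pow_le {n : ℕ} {q x y : ℝ} (hx : 0 ≤ x) (hy : 0 ≤ y) (hxq : x ≤ q) (hyq : y ≤ q) :
    |x ^ n - y ^ n| ≤ n * q ^ (n - 1) * |x - y| := by
  have hq : 0 ≤ q := hx.trans hxq
  rw [← geom_sum₂_mul, abs_mul]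
  refine mul_le_mul_of_nonneg_right ?_ (abs_nonneg _)
  have h1 : ∀ i ∈ Finset.range n, x ^ i * y ^ (n - 1 - i) ≤ q ^ (n - 1) := by
    intro i hi
    have hi' : i ≤ n - 1 := by have := Finset.mem_range.1 hi; omega
    calc x ^ i * y ^ (n - 1 - i) ≤ q ^ i * q ^ (n - 1 - i) :=
          mul_le_mul (pow_le_pow_left₀ hx hxq _) (pow_le_pow_left₀ hy hyq _) (by positivity) (by positivity)
      _ = q ^ (n - 1) := by rw [← pow_add]; congr 1; omega
  rw [abs_of_nonneg (Finset.sum_nonneg fun i _ => by positivity)]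
  calc ∑ i ∈ Finset.range n, x ^ i * y ^ (n - 1 - i) ≤ ∑ i ∈ Finset.range n, q ^ (n - 1) :=
        Finset.sum_le_sum h1
    _ = n * q ^ (n - 1) := by simp

theorem phi_lip_aux {n : ℕ} {q : ℝ} (hq : 0 ≤ q) {z w : ℂ} (h : ‖w‖ ≤ ‖z‖) :
    ‖phi n q z - phi n q w‖ ≤ (n + 1) * q ^ n * ‖z - w‖ := by
  have e1 : phi n q z - phi n q w = (((min ‖z‖ q) ^ n : ℝ) : ℂ) * (z - w) +
      ((((min ‖z‖ q) ^ n - (min ‖w‖ q) ^ n : ℝ)) : ℂ) * w := by
    simp only [phi]; push_cast; ring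
  rw [e1]
  refine (norm_add_le _ _).trans ?_
  rw [norm_mul, norm_mul, Complex.norm_real, Complex.norm_real, Real.norm_of_nonneg (by positivity),
    Real.norm_eq_abs]
  have h1 : (min ‖z‖ q) ^ n * ‖z - w‖ ≤ q ^ n * ‖z - w‖ :=
    mul_le_mul_of_nonneg_right (pow_le_pow_left₀ (by positivity) (min_le_right _ _) _) (norm_nonneg _)
  have h2 : |(min ‖z‖ q) ^ n - (min ‖w‖ q) ^ n| * ‖w‖ ≤ n * q ^ n * ‖z - w‖ := by
    rcases le_or_gt q ‖w‖ with hw | hw
    · rw [min_eq_right hw, min_eq_right (hw.trans h), sub_self, abs_zero, zero_mul]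
      positivity
    · rw [min_eq_left hw.le]
      rcases Nat.eq_zero_or_pos n with hn | hn
      · subst hn; simp
      have h3 := pow_sub_pow_le (n := n) (q := q) (x := min ‖z‖ q) (y := ‖w‖) (by positivity)
        (norm_nonneg _) (min_le_right _ _) hw.le
      have h4 : |min ‖z‖ q - ‖w‖| ≤ ‖z - w‖ := by
        rw [abs_of_nonneg (by have := le_min h hw.le; linarith)]
        have := norm_sub_norm_le z w
        have := min_le_left ‖z‖ q
        linarith
      calc |(min ‖z‖ q) ^ n - ‖w‖ ^ n| * ‖w‖ ≤ (n * q ^ (n - 1) * ‖z - w‖) * q := by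
            refine mul_le_mul (h3.trans ?_) hw.le (norm_nonneg _) (by positivity)
            exact mul_le_mul_of_nonneg_left h4 (by positivity)
        _ = n * (q ^ (n - 1) * q) * ‖z - w‖ := by ring
        _ = n * q ^ n * ‖z - w‖ := by rw [pow_sub_one_mul (by omega)]
  nlinarith [h1, h2]

theorem phi_lip {n : ℕ} {q : ℝ} (hq : 0 ≤ q) (z w : ℂ) :
    ‖phi n q z - phi n q w‖ ≤ (n + 1) * q ^ n * ‖z - w‖ := by
  rcases le_total ‖w‖ ‖z‖ with h | h
  · exact phi_lip_aux hq h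
  · rw [norm_sub_rev, norm_sub_rev z w]
    exact phi_lip_aux hq h

theorem phi_continuous (n : ℕ) (q : ℝ) : Continuous (phi n q) := by
  unfold phi
  fun_prop

end Crest.Agent.R086.B.Pert
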