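import Crest.Agent.R086.BSm1
import Crest.Agent.R086.BCIface

/-!
Row 86 (S0114), Part B, node T3 (helper2): polynomial bounds in `n` of all derivatives of the profile
and of the potentials on `[0, X+1]`, in the variable `x = r²/4`.
-/

set_option autoImplicit false

open Complex Set Filter Topology
open scoped ContDiff ComplexConjugate

namespace Crest.Agent.R086.BPoly

/-- polynomially bounded families, derivatives of order `≤ k` on `[0,b]`, even `n` -/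
def PB (b : ℝ) (k : ℕ) (F : ℕ → ℝ → ℂ) : Prop :=
  ∃ K : ℕ, ∀ᶠ n : ℕ in atTop, Even n → ContDiffOn ℝ ∞ (F n) (Ici 0) ∧
    ∀ i ≤ k, ∀ x ∈ Icc (0:ℝ) b, ‖iteratedDerivWithin i (F n) (Ici 0) x‖ ≤ (n:ℝ) ^ K

theorem uq : UniqueDiffOn ℝ (Ici (0:ℝ)) := uniqueDiffOn_Ici 0

theorem ud {x : ℝ} (hx : x ∈ Ici (0:ℝ)) : UniqueDiffWithinAt ℝ (Ici (0:ℝ)) x := uq x hx

theorem smooth_deriv {f : ℝ → ℂ} (hf : ContDiffOn ℝ ∞ f (Ici 0)) :
    ContDiffOn ℝ ∞ (derivWithin f (Ici 0)) (Ici 0) :=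
  hf.derivWithin uq (by simp)

theorem hasD {f : ℝ → ℂ} (hf : ContDiffOn ℝ ∞ f (Ici 0)) {x : ℝ} (hx : x ∈ Ici (0:ℝ)) :
    HasDerivWithinAt f (derivWithin f (Ici 0) x) (Ici 0) x :=
  ((hf.differentiableOn (by simp)) x hx).hasDerivWithinAt

theorem hasDk {f : ℝ → ℂ} (hf : ContDiffOn ℝ ∞ f (Ici 0)) (k : ℕ) {x : ℝ} (hx : x ∈ Ici (0:ℝ)) :
    HasDerivWithinAt (iteratedDerivWithin k f (Ici 0)) (iteratedDerivWithin (k+1) f (Ici 0) x)
      (Ici 0) x := by
  have h := hf.differentiableOn_iteratedDerivWithin (m := k)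
    (WithTop.coe_lt_coe.2 (ENat.natCast_lt_top k)) uq
  rw [iteratedDerivWithin_succ]
  exact (h x hx).hasDerivWithinAt

theorem pow_mono {n : ℕ} (hn : 1 ≤ n) {K L : ℕ} (h : K ≤ L) : (n:ℝ) ^ K ≤ (n:ℝ) ^ L :=
  pow_le_pow_right₀ (by exact_mod_cast hn) h

variable {b : ℝ} {k l : ℕ} {F G : ℕ → ℝ → ℂ}

theorem PB.mono (h : PB b k F) (hl : l ≤ k) : PB b l F := by
  obtain ⟨K, hK⟩ := h
  refine ⟨K, hK.mono fun n hn he => ⟨(hn he).1, fun i hi => (hn he).2 i (hi.trans hl)⟩⟩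

theorem PB.congr (h : PB b k F)
    (he : ∀ᶠ n : ℕ in atTop, Even n → EqOn (G n) (F n) (Ici 0)) : PB b k G := by
  obtain ⟨K, hK⟩ := h
  refine ⟨K, ?_⟩
  filter_upwards [hK, he] with n h1 h2 hn
  refine ⟨(h1 hn).1.congr (h2 hn), fun i hi x hx => ?_⟩
  rw [iteratedDerivWithin_congr (h2 hn) (hx.1 : x ∈ Ici (0:ℝ))]
  exact (h1 hn).2 i hi x hx

theorem PB.deriv (h : PB b (k+1) F) : PB b k (fun n => derivWithin (F n) (Ici 0)) := by
  obtain ⟨K, hK⟩ := h
  refine ⟨K, hK.mono fun n hn he => ⟨smooth_deriv (hn he).1, fun i hi x hx => ?_⟩⟩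
  rw [← iteratedDerivWithin_succ']
  exact (hn he).2 (i+1) (by omega) x hx

theorem PB.of_succ (h0 : PB b 0 F) (h1 : PB b k (fun n => derivWithin (F n) (Ici 0))) :
    PB b (k+1) F := by
  obtain ⟨K, hK⟩ := h0
  obtain ⟨L, hL⟩ := h1
  refine ⟨max K L, ?_⟩
  filter_upwards [hK, hL, eventually_ge_atTop 1] with n h1 h2 hn1 hn
  refine ⟨(h1 hn).1, fun i hi x hx => ?_⟩
  rcases i with _ | i
  · exact ((h1 hn).2 0 le_rfl x hx).trans (pow_mono hn1 (le_max_left _ _))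
  · rw [iteratedDerivWithin_succ']
    exact ((h2 hn).2 i (by omega) x hx).trans (pow_mono hn1 (le_max_right _ _))

/-- the same with an explicit derivative -/
theorem PB.of_hasDeriv (h0 : PB b 0 F) (h1 : PB b k G)
    (hd : ∀ᶠ n : ℕ in atTop, Even n → ∀ x ∈ Ici (0:ℝ), HasDerivWithinAt (F n) (G n x) (Ici 0) x) :
    PB b (k+1) F := by
  refine h0.of_succ (h1.congr (hd.mono fun n hn he x hx => ?_))
  exact (hn he x hx).derivWithin (ud hx)

theorem PB.smooth (h : PB b k F) : ∀ᶠ n : ℕ in atTop, Even n → ContDiffOn ℝ ∞ (F n) (Ici 0) := by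
  obtain ⟨K, hK⟩ := h
  exact hK.mono fun n hn he => (hn he).1

theorem PB.bound (h : PB b k F) : ∃ K : ℕ, ∀ᶠ n : ℕ in atTop, Even n → ∀ x ∈ Icc (0:ℝ) b,
    ‖F n x‖ ≤ (n:ℝ) ^ K := by
  obtain ⟨K, hK⟩ := h
  refine ⟨K, hK.mono fun n hn he x hx => ?_⟩
  simpa using (hn he).2 0 (Nat.zero_le _) x hx

theorem PB.zero_of {K : ℕ} (h : ∀ᶠ n : ℕ in atTop, Even n → ContDiffOn ℝ ∞ (F n) (Ici 0))
    (hb : ∀ᶠ n : ℕ in atTop, Even n → ∀ x ∈ Icc (0:ℝ) b, ‖F n x‖ ≤ (n:ℝ) ^ K) : PB b 0 F := by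
  refine ⟨K, ?_⟩
  filter_upwards [h, hb] with n h1 h2 hn
  refine ⟨h1 hn, fun i hi x hx => ?_⟩
  obtain rfl : i = 0 := by omega
  simpa using h2 hn x hx

theorem PB.add (hF : PB b k F) (hG : PB b k G) : PB b k (fun n x => F n x + G n x) := by
  obtain ⟨K, hK⟩ := hF
  obtain ⟨L, hL⟩ := hG
  refine ⟨max K L + 1, ?_⟩
  filter_upwards [hK, hL, eventually_ge_atTop 2] with n h1 h2 hn2 hn
  refine ⟨(h1 hn).1.add (h2 hn).1, fun i hi x hx => ?_⟩
  have hx0 : x ∈ Ici (0:ℝ) := hx.1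
  have hi' : ((i : ℕ) : WithTop ℕ∞) ≤ ∞ := WithTop.coe_le_coe.2 le_top
  rw [iteratedDerivWithin_fun_add hx0 uq (((h1 hn).1 x hx0).of_le hi')
    (((h2 hn).1 x hx0).of_le hi')]
  have hn1 : 1 ≤ n := by omega
  have h3 := ((h1 hn).2 i hi x hx).trans (pow_mono hn1 (le_max_left K L))
  have h4 := ((h2 hn).2 i hi x hx).trans (pow_mono hn1 (le_max_right K L))
  refine (norm_add_le _ _).trans ((add_le_add h3 h4).trans ?_)
  rw [pow_succ]
  have : (2:ℝ) ≤ n := by exact_mod_cast hn2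
  have h5 : (0:ℝ) ≤ (n:ℝ) ^ (max K L) := by positivity
  nlinarith

theorem PB.mul_zero (hF : PB b 0 F) (hG : PB b 0 G) : PB b 0 (fun n x => F n x * G n x) := by
  obtain ⟨K, hK⟩ := hF.bound
  obtain ⟨L, hL⟩ := hG.bound
  refine PB.zero_of (K := K + L) ?_ ?_
  · filter_upwards [hF.smooth, hG.smooth] with n h1 h2 hn
    exact (h1 hn).mul (h2 hn)
  · filter_upwards [hK, hL] with n h1 h2 hn x hx
    rw [norm_mul, pow_add]
    exact mul_le_mul (h1 hn x hx) (h2 hn x hx) (norm_nonneg _) (by positivity)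

theorem PB.mul (hF : PB b k F) (hG : PB b k G) : PB b k (fun n x => F n x * G n x) := by
  induction k generalizing F G with
  | zero => exact hF.mul_zero hG
  | succ k ih =>
    refine ((hF.mono (Nat.zero_le _)).mul_zero (hG.mono (Nat.zero_le _))).of_hasDeriv
      ((ih hF.deriv (hG.mono (Nat.le_succ k))).add (ih (hF.mono (Nat.le_succ k)) hG.deriv)) ?_
    filter_upwards [hF.smooth, hG.smooth] with n h1 h2 hn x hx
    exact (hasD (h1 hn) hx).fun_mul (hasD (h2 hn) hx)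

theorem hasD_conj {f : ℝ → ℂ} {f' : ℂ} {x : ℝ} {s : Set ℝ} (h : HasDerivWithinAt f f' s x) :
    HasDerivWithinAt (fun x => conj (f x)) (conj f') s x :=
  h.star

theorem smooth_conj {f : ℝ → ℂ} {s : Set ℝ} (h : ContDiffOn ℝ ∞ f s) :
    ContDiffOn ℝ ∞ (fun x => conj (f x)) s :=
  Complex.conjCLE.contDiff.comp_contDiffOn h

theorem PB.conj (hF : PB b k F) : PB b k (fun n x => conj (F n x)) := by
  induction k generalizing F with
  | zero =>
    obtain ⟨K, hK⟩ := hF.bound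
    refine PB.zero_of (K := K) ?_ ?_
    · filter_upwards [hF.smooth] with n h1 hn
      exact smooth_conj (h1 hn)
    · filter_upwards [hK] with n h1 hn x hx
      rw [RCLike.norm_conj]
      exact h1 hn x hx
  | succ k ih =>
    have h0 : PB b 0 (fun n x => conj (F n x)) := by
      obtain ⟨K, hK⟩ := hF.bound
      refine PB.zero_of (K := K) ?_ ?_
      · filter_upwards [hF.smooth] with n h1 hn
        exact smooth_conj (h1 hn)
      · filter_upwards [hK] with n h1 hn x hx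
        rw [RCLike.norm_conj]
        exact h1 hn x hx
    refine h0.of_hasDeriv (ih hF.deriv) ?_
    filter_upwards [hF.smooth] with n h1 hn x hx
    exact hasD_conj (hasD (h1 hn) hx)

theorem PB.const {c : ℕ → ℂ} {K : ℕ} (hc : ∀ᶠ n : ℕ in atTop, Even n → ‖c n‖ ≤ (n:ℝ) ^ K) :
    PB b k (fun n _ => c n) := by
  refine ⟨K, ?_⟩
  filter_upwards [hc] with n h1 hn
  refine ⟨contDiffOn_const, fun i hi x hx => ?_⟩
  rcases i with _ | i
  · simpa using h1 hn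
  · have : iteratedDerivWithin (i+1) (fun _ : ℝ => c n) (Ici 0) x = 0 := by
      rw [iteratedDerivWithin_const]; simp
    rw [this, norm_zero]
    positivity

/-! ### the ODE -/

theorem ode_iter {W H : ℝ → ℂ} (hW : ContDiffOn ℝ ∞ W (Ici 0)) (hH : ContDiffOn ℝ ∞ H (Ici 0))
    (h : ∀ x ∈ Ici (0:ℝ), (x:ℂ) * iteratedDerivWithin 2 W (Ici 0) x +
      (6 + I * (x:ℂ)) * iteratedDerivWithin 1 W (Ici 0) x = H x) (k : ℕ) :
    ∀ x ∈ Ici (0:ℝ), (x:ℂ) * iteratedDerivWithin (k+2) W (Ici 0) x +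
      (6 + (k:ℂ) + I * (x:ℂ)) * iteratedDerivWithin (k+1) W (Ici 0) x +
      I * (k:ℂ) * iteratedDerivWithin k W (Ici 0) x = iteratedDerivWithin k H (Ici 0) x := by
  induction k with
  | zero =>
    intro x hx
    have := h x hx
    simpa using this
  | succ k ih =>
    intro x hx
    have e1 : HasDerivWithinAt (fun x : ℝ => (x:ℂ)) 1 (Ici 0) x :=
      (Complex.ofRealCLM.hasDerivAt (x := x)).hasDerivWithinAt
    have e2 : HasDerivWithinAt (fun x : ℝ => (6 + (k:ℂ) + I * (x:ℂ))) I (Ici 0) x := by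
      have := (e1.const_mul I).const_add (6 + (k:ℂ))
      simpa using this
    have e3 := ((e1.fun_mul (hasDk hW (k+2) hx)).fun_add (e2.fun_mul (hasDk hW (k+1) hx))).fun_add
      ((hasDk hW k hx).const_mul (I * (k:ℂ)))
    have e4 := e3.congr (f₁ := iteratedDerivWithin k H (Ici 0))
      (fun y hy => (ih y hy).symm) ((ih x hx).symm)
    have e5 := (ud hx).eq_deriv _ (hasDk hH k hx) e4
    rw [e5]
    push_cast
    ring

theorem norm_le_of_ode {m : ℕ} (hm : 1 ≤ m) {W W' G : ℝ → ℂ} {b M : ℝ}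
    (hd : ∀ x ∈ Icc (0:ℝ) b, HasDerivWithinAt W (W' x) (Ici 0) x)
    (heq : ∀ x ∈ Icc (0:ℝ) b, (x:ℂ) * W' x + ((m:ℂ) + I * (x:ℂ)) * W x = G x)
    (hG : ∀ x ∈ Icc (0:ℝ) b, ‖G x‖ ≤ M) : ∀ x ∈ Icc (0:ℝ) b, ‖W x‖ ≤ M := by
  intro x hx
  have hm' : (1:ℝ) ≤ m := by exact_mod_cast hm
  rcases eq_or_lt_of_le hx.1 with h0 | h0
  · subst h0
    have h1 := heq 0 hx
    have h2 := hG 0 hx
    rw [← h1] at h2
    simp only [ofReal_zero, zero_mul, mul_zero, add_zero, zero_add, norm_mul] at h2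
    rw [show ‖(m:ℂ)‖ = (m:ℝ) by simp] at h2
    nlinarith [norm_nonneg (W 0)]
  · set Φ : ℝ → ℂ := fun y => (y:ℂ) ^ m * cexp (I * (y:ℂ)) * W y with hΦ
    have hM : 0 ≤ M := (norm_nonneg _).trans (hG x hx)
    have hder : ∀ y ∈ Icc (0:ℝ) b, HasDerivWithinAt Φ
        ((y:ℂ) ^ (m-1) * cexp (I * (y:ℂ)) * G y) (Ici 0) y := by
      intro y hy
      have e1 : HasDerivWithinAt (fun x : ℝ => (x:ℂ)) 1 (Ici 0) y :=
        (Complex.ofRealCLM.hasDerivAt (x := y)).hasDerivWithinAt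
      have e2 := e1.fun_pow m
      have e3 := (e1.const_mul I).cexp
      have e4 := (e2.fun_mul e3).fun_mul (hd y hy)
      refine e4.congr_deriv ?_
      rw [← heq y hy]
      obtain ⟨m', rfl⟩ : ∃ m', m = m' + 1 := ⟨m - 1, by omega⟩
      simp only [Nat.add_sub_cancel]
      push_cast
      ring
    have key := image_norm_le_of_norm_deriv_right_le_deriv_boundary' (f := Φ) (a := 0) (b := x)
      (f' := fun y => (y:ℂ) ^ (m-1) * cexp (I * (y:ℂ)) * G y)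
      (B := fun y => M * (y ^ m / m)) (B' := fun y => M * y ^ (m-1))
      (fun y hy => ((hder y ⟨hy.1, hy.2.trans hx.2⟩).continuousWithinAt).mono Icc_subset_Ici_self)
      (fun y hy => (hder y ⟨hy.1, hy.2.le.trans hx.2⟩).mono (Ici_subset_Ici.2 hy.1))
      (by simp [hΦ, show m ≠ 0 by omega])
      (by fun_prop)
      (fun y hy => by
        have := (((hasDerivAt_pow m y).div_const (m:ℝ)).const_mul M).hasDerivWithinAt (s := Ici y)
        refine this.congr_deriv ?_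
        field_simp)
      (fun y hy => by
        rw [norm_mul, norm_mul, norm_pow, Complex.norm_real, Real.norm_eq_abs, abs_of_nonneg hy.1]
        have hexp : ‖cexp (I * (y:ℂ))‖ = 1 := by
          rw [mul_comm, Complex.norm_exp_ofReal_mul_I]
        rw [hexp, mul_one, mul_comm]
        exact mul_le_mul_of_nonneg_right (hG y ⟨hy.1, hy.2.le.trans hx.2⟩)
          (pow_nonneg hy.1 _))
    have h1 := key (right_mem_Icc.2 h0.le)
    simp only [hΦ, norm_mul, norm_pow, Complex.norm_real, Real.norm_eq_abs] at h1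
    have hexp : ‖cexp (I * (x:ℂ))‖ = 1 := by
      rw [mul_comm, Complex.norm_exp_ofReal_mul_I]
    rw [hexp, mul_one, abs_of_pos h0] at h1
    have hxm : 0 < x ^ m := pow_pos h0 m
    have h2 : M * (x ^ m / m) ≤ M * x ^ m := by
      apply mul_le_mul_of_nonneg_left _ hM
      exact div_le_self hxm.le hm'
    have h3 : x ^ m * ‖W x‖ ≤ x ^ m * M := by linarith [mul_comm (x^m) M]
    exact le_of_mul_le_mul_left h3 hxm

/-- gain of one derivative from the equation -/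
theorem PB.gain {V H : ℕ → ℝ → ℂ} (hV : PB b k V) (hH : PB b k H)
    (h : ∀ᶠ n : ℕ in atTop, Even n → ∀ x ∈ Ici (0:ℝ),
      (x:ℂ) * iteratedDerivWithin 2 (V n) (Ici 0) x +
      (6 + I * (x:ℂ)) * iteratedDerivWithin 1 (V n) (Ici 0) x = H n x) : PB b (k+1) V := by
  obtain ⟨K, hK⟩ := hV
  obtain ⟨L, hL⟩ := hH
  refine ⟨K + L + 1, ?_⟩
  filter_upwards [hK, hL, h, eventually_ge_atTop (k + 1)] with n h1 h2 h3 hn2 hn
  refine ⟨(h1 hn).1, fun i hi x hx => ?_⟩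
  have hn1 : 1 ≤ n := by omega
  rcases Nat.lt_or_ge i (k+1) with hik | hik
  · exact ((h1 hn).2 i (by omega) x hx).trans (pow_mono hn1 (by omega))
  · obtain rfl : i = k + 1 := by omega
    have hode := ode_iter (h1 hn).1 (h2 hn).1 (h3 hn) k
    refine norm_le_of_ode (m := 6 + k) (by omega)
      (G := fun x => iteratedDerivWithin k (H n) (Ici 0) x -
        I * (k:ℂ) * iteratedDerivWithin k (V n) (Ici 0) x)
      (fun y hy => hasDk (h1 hn).1 (k+1) hy.1) (fun y hy => ?_) (fun y hy => ?_) x hx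
    · have := hode y hy.1
      rw [← this]
      push_cast
      ring
    · have e1 := (h2 hn).2 k le_rfl y hy
      have e2 := (h1 hn).2 k le_rfl y hy
      have e3 : ‖I * (k:ℂ) * iteratedDerivWithin k (V n) (Ici 0) y‖ ≤ k * (n:ℝ)^K := by
        rw [norm_mul, norm_mul, norm_I, one_mul]
        simp only [Complex.norm_natCast]
        exact mul_le_mul_of_nonneg_left e2 (Nat.cast_nonneg _)
      refine (norm_sub_le _ _).trans ?_
      have e4 : (n:ℝ)^L ≤ (n:ℝ)^(K+L) := pow_mono hn1 (by omega)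
      have e5 : (n:ℝ)^K ≤ (n:ℝ)^(K+L) := pow_mono hn1 (by omega)
      have e6 : ((k:ℝ) + 1) ≤ n := by exact_mod_cast hn2
      have e7 : (0:ℝ) ≤ (n:ℝ)^(K+L) := by positivity
      have e8 : (k:ℝ) * (n:ℝ)^K ≤ k * (n:ℝ)^(K+L) := mul_le_mul_of_nonneg_left e5 (Nat.cast_nonneg _)
      rw [pow_succ]
      nlinarith

/-! ### the closure under `V ↦ |V|^n`, `V ↦ 1/|V|²` -/

/-- `1/|V|²` -/
noncomputable def gg (V : ℝ → ℂ) (x : ℝ) : ℂ := (V x * conj (V x))⁻¹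

/-- hypotheses on the family, at level 0 -/
structure Good (b : ℝ) (V : ℕ → ℝ → ℂ) : Prop where
  smooth : ∀ᶠ n : ℕ in atTop, Even n → ContDiffOn ℝ ∞ (V n) (Ici 0)
  ne : ∀ᶠ n : ℕ in atTop, Even n → ∀ x ∈ Ici (0:ℝ), V n x ≠ 0
  lower : ∀ᶠ n : ℕ in atTop, Even n → ∀ x ∈ Icc (0:ℝ) b, 1 / 2 ≤ ‖V n x‖
  upper : ∀ᶠ n : ℕ in atTop, Even n → ∀ x ∈ Icc (0:ℝ) b, ‖V n x‖ ≤ 2
  powle : ∀ᶠ n : ℕ in atTop, Even n → ∀ x ∈ Icc (0:ℝ) b, ‖V n x‖ ^ n ≤ 3 / 2

theorem Q_ne {z : ℂ} (hz : z ≠ 0) : z * conj z ≠ 0 :=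
  mul_ne_zero hz ((map_ne_zero _).2 hz)

theorem norm_Q (z : ℂ) : ‖z * conj z‖ = ‖z‖ ^ 2 := by
  rw [norm_mul, RCLike.norm_conj, sq]

theorem Q_eq (z : ℂ) : z * conj z = ((‖z‖ ^ 2 : ℝ) : ℂ) := by
  rw [Complex.mul_conj, Complex.normSq_eq_norm_sq]

theorem wA_eq {n m : ℕ} (hn : n = 2 * m) (V : ℝ → ℂ) (x : ℝ) :
    B.wA n V x = (V x * conj (V x)) ^ m := by
  rw [B.wA, Q_eq, hn, pow_mul]
  push_cast
  ring

theorem hasD_Q {V : ℝ → ℂ} (hV : ContDiffOn ℝ ∞ V (Ici 0)) {x : ℝ} (hx : x ∈ Ici (0:ℝ)) :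
    HasDerivWithinAt (fun x => V x * conj (V x)) (derivWithin V (Ici 0) x * conj (V x) +
      V x * conj (derivWithin V (Ici 0) x)) (Ici 0) x :=
  (hasD hV hx).fun_mul (hasD_conj (hasD hV hx))

theorem smooth_Q {V : ℝ → ℂ} (hV : ContDiffOn ℝ ∞ V (Ici 0)) :
    ContDiffOn ℝ ∞ (fun x => V x * conj (V x)) (Ici 0) := hV.mul (smooth_conj hV)

theorem smooth_gg {V : ℝ → ℂ} (hV : ContDiffOn ℝ ∞ V (Ici 0)) (h0 : ∀ x ∈ Ici (0:ℝ), V x ≠ 0) :
    ContDiffOn ℝ ∞ (gg V) (Ici 0) := (smooth_Q hV).inv fun x hx => Q_ne (h0 x hx)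

theorem smooth_wA {n : ℕ} (hn : Even n) {V : ℝ → ℂ} (hV : ContDiffOn ℝ ∞ V (Ici 0)) :
    ContDiffOn ℝ ∞ (B.wA n V) (Ici 0) := by
  obtain ⟨m, hm⟩ := hn
  exact ((smooth_Q hV).pow m).congr fun x _ => wA_eq (by omega) V x

theorem hasD_gg {V : ℝ → ℂ} (hV : ContDiffOn ℝ ∞ V (Ici 0)) (h0 : ∀ x ∈ Ici (0:ℝ), V x ≠ 0)
    {x : ℝ} (hx : x ∈ Ici (0:ℝ)) :
    HasDerivWithinAt (gg V) ((-1) * ((gg V x * gg V x) * (derivWithin V (Ici 0) x * conj (V x) +
      V x * conj (derivWithin V (Ici 0) x)))) (Ici 0) x := by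
  refine ((hasD_Q hV hx).fun_inv (Q_ne (h0 x hx))).congr_deriv ?_
  rw [gg]
  have := Q_ne (h0 x hx)
  field_simp

theorem hasD_wA {n : ℕ} (hn : Even n) (hn2 : 2 ≤ n) {V : ℝ → ℂ} (hV : ContDiffOn ℝ ∞ V (Ici 0))
    (h0 : ∀ x ∈ Ici (0:ℝ), V x ≠ 0) {x : ℝ} (hx : x ∈ Ici (0:ℝ)) :
    HasDerivWithinAt (B.wA n V) (((n:ℂ) / 2) * ((B.wA n V x * gg V x) *
      (derivWithin V (Ici 0) x * conj (V x) +
      V x * conj (derivWithin V (Ici 0) x)))) (Ici 0) x := by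
  obtain ⟨m, hm⟩ := hn
  have h1 : n = 2 * m := by omega
  obtain ⟨p, rfl⟩ : ∃ p, m = p + 1 := ⟨m - 1, by omega⟩
  have h2 := (hasD_Q hV hx).fun_pow (p+1)
  have h3 := h2.congr (f₁ := B.wA n V) (fun y _ => wA_eq h1 V y) (wA_eq h1 V x)
  refine h3.congr_deriv ?_
  rw [wA_eq h1, gg, h1]
  have := Q_ne (h0 x hx)
  simp only [Nat.add_sub_cancel]
  generalize V x * conj (V x) = Q at this ⊢
  generalize derivWithin V (Ici 0) x * conj (V x) + V x * conj (derivWithin V (Ici 0) x) = Z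
  push_cast
  field_simp
  try ring

theorem Good.gg_zero {V : ℕ → ℝ → ℂ} (hG : Good b V) : PB b 0 (fun n => gg (V n)) := by
  refine PB.zero_of (K := 2) ?_ ?_
  · filter_upwards [hG.smooth, hG.ne] with n h1 h2 hn
    exact smooth_gg (h1 hn) (h2 hn)
  · filter_upwards [hG.lower, eventually_ge_atTop 2] with n h1 hn2 hn x hx
    have h3 := h1 hn x hx
    rw [gg, norm_inv, norm_Q]
    have h4 : (1/4 : ℝ) ≤ ‖V n x‖ ^ 2 := by nlinarith
    have h5 : (‖V n x‖ ^ 2)⁻¹ ≤ (1/4 : ℝ)⁻¹ := inv_anti₀ (by norm_num) h4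
    have h6 : (2:ℝ) ≤ n := by exact_mod_cast hn2
    nlinarith

theorem Good.wA_zero {V : ℕ → ℝ → ℂ} (hG : Good b V) : PB b 0 (fun n => B.wA n (V n)) := by
  refine PB.zero_of (K := 1) ?_ ?_
  · filter_upwards [hG.smooth] with n h1 hn
    exact smooth_wA hn (h1 hn)
  · filter_upwards [hG.powle, eventually_ge_atTop 2] with n h1 hn2 hn x hx
    have h3 := h1 hn x hx
    have h6 : (2:ℝ) ≤ n := by exact_mod_cast hn2
    rw [B.wA, Complex.norm_real, Real.norm_eq_abs, abs_of_nonneg (by positivity), pow_one]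
    linarith

theorem Good.V_zero {V : ℕ → ℝ → ℂ} (hG : Good b V) : PB b 0 V := by
  refine PB.zero_of (K := 1) hG.smooth ?_
  filter_upwards [hG.upper, eventually_ge_atTop 2] with n h1 hn2 hn x hx
  have h6 : (2:ℝ) ≤ n := by exact_mod_cast hn2
  rw [pow_one]
  exact (h1 hn x hx).trans h6

theorem Good.step {V : ℕ → ℝ → ℂ} (hG : Good b V) (hV : PB b k V) :
    PB b k (fun n => gg (V n)) ∧ PB b k (fun n => B.wA n (V n)) := by
  induction k with
  | zero => exact ⟨hG.gg_zero, hG.wA_zero⟩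
  | succ k ih =>
    have hk := hV.mono (Nat.le_succ k)
    obtain ⟨h1, h2⟩ := ih hk
    have hQ : PB b k (fun n x => derivWithin (V n) (Ici 0) x * conj (V n x) +
      V n x * conj (derivWithin (V n) (Ici 0) x)) :=
      (hV.deriv.mul hk.conj).add (hk.mul hV.deriv.conj)
    refine ⟨hG.gg_zero.of_hasDeriv ((PB.const (c := fun _ => -1) (K := 0) ?_).mul
      ((h1.mul h1).mul hQ)) ?_, hG.wA_zero.of_hasDeriv ((PB.const (c := fun n => (n:ℂ) / 2)
      (K := 1) ?_).mul ((h2.mul h1).mul hQ)) ?_⟩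
    · exact Eventually.of_forall fun n _ => by simp
    · filter_upwards [hG.smooth, hG.ne] with n h3 h4 hn x hx
      exact hasD_gg (h3 hn) (h4 hn) hx
    · refine Eventually.of_forall fun n _ => ?_
      rw [norm_div]
      simp only [Complex.norm_natCast, pow_one, Complex.norm_ofNat]
      have : (0:ℝ) ≤ n := Nat.cast_nonneg n
      linarith
    · filter_upwards [hG.smooth, hG.ne, eventually_ge_atTop 2] with n h3 h4 h5 hn x hx
      exact hasD_wA hn h5 (h3 hn) (h4 hn) hx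

theorem wB_eq {n : ℕ} (hn2 : 2 ≤ n) {V : ℝ → ℂ} {x : ℝ} (h0 : V x ≠ 0) :
    B.wB n V x = (B.wA n V x * gg V x) * (V x * V x) := by
  obtain ⟨p, rfl⟩ : ∃ p, n = p + 2 := ⟨n - 2, by omega⟩
  rw [B.wB, B.wA, gg, Q_eq]
  have : (‖V x‖ : ℂ) ≠ 0 := by exact_mod_cast (norm_pos_iff.2 h0).ne'
  simp only [Nat.add_sub_cancel]
  push_cast
  field_simp
  try ring

theorem wC_eq {n : ℕ} (hn2 : 2 ≤ n) {V : ℝ → ℂ} {x : ℝ} (h0 : V x ≠ 0) :
    B.wC n V x = (B.wA n V x * gg V x) * (conj (V x) * conj (V x)) := by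
  obtain ⟨p, rfl⟩ : ∃ p, n = p + 2 := ⟨n - 2, by omega⟩
  rw [B.wC, B.wA, gg, Q_eq]
  have : (‖V x‖ : ℂ) ≠ 0 := by exact_mod_cast (norm_pos_iff.2 h0).ne'
  simp only [Nat.add_sub_cancel]
  push_cast
  field_simp
  try ring

theorem Good.all {V : ℕ → ℝ → ℂ} {c : ℕ → ℂ} (hG : Good b V)
    (hc : ∀ᶠ n : ℕ in atTop, Even n → ‖c n‖ ≤ (n:ℝ))
    (h : ∀ᶠ n : ℕ in atTop, Even n → ∀ x ∈ Ici (0:ℝ),
      (x:ℂ) * iteratedDerivWithin 2 (V n) (Ici 0) x +
      (6 + I * (x:ℂ)) * iteratedDerivWithin 1 (V n) (Ici 0) x =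
        B.wA n (V n) x * V n x + c n * V n x) (k : ℕ) : PB b k V := by
  induction k with
  | zero => exact hG.V_zero
  | succ k ih =>
    refine PB.gain ih (((hG.step ih).2.mul ih).add ((PB.const (c := c) (K := 1) ?_).mul ih)) h
    simpa using hc

theorem Good.wB {V : ℕ → ℝ → ℂ} (hG : Good b V) (hV : PB b k V) :
    PB b k (fun n => B.wB n (V n)) := by
  obtain ⟨h1, h2⟩ := hG.step hV
  refine ((h2.mul h1).mul (hV.mul hV)).congr ?_
  filter_upwards [hG.ne, eventually_ge_atTop 2] with n h3 h4 hn x hx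
  exact wB_eq h4 (h3 hn x hx)

theorem Good.wC {V : ℕ → ℝ → ℂ} (hG : Good b V) (hV : PB b k V) :
    PB b k (fun n => B.wC n (V n)) := by
  obtain ⟨h1, h2⟩ := hG.step hV
  refine ((h2.mul h1).mul (hV.conj.mul hV.conj)).congr ?_
  filter_upwards [hG.ne, eventually_ge_atTop 2] with n h3 h4 hn x hx
  exact wC_eq h4 (h3 hn x hx)

/-! ### the sequence of profiles -/

variable {om0 R : ℝ} {U U1 : ℝ → ℂ}

theorem two_sqrt_le (S : B.BSeq om0 R U U1) {x : ℝ} (hx : x ∈ Icc (0:ℝ) (S.X + 1)) :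
    2 * Real.sqrt x ∈ Icc (0:ℝ) (2 * Real.sqrt S.X + 1) := by
  refine ⟨by positivity, ?_⟩
  have h1 : Real.sqrt x ≤ Real.sqrt (S.X + 1) := Real.sqrt_le_sqrt hx.2
  have h2 : Real.sqrt (S.X + 1) ≤ Real.sqrt S.X + 1 / 2 := by
    apply Real.sqrt_le_iff.2
    have h3 : 4 ≤ Real.sqrt S.X := by
      apply Real.le_sqrt_of_sq_le
      have := S.X_ge
      linarith
    refine ⟨by positivity, ?_⟩
    have h4 : Real.sqrt S.X ^ 2 = S.X := Real.sq_sqrt (by have := S.X_ge; linarith)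
    nlinarith
  linarith

theorem smooth_toX (S : B.BSeq om0 R U U1) {n : ℕ} (hn : S.n1 ≤ n) (he : Even n) :
    ContDiffOn ℝ ∞ (B.toX (S.v n)) (Ici 0) := by
  obtain ⟨hc, hc1, h0, hs⟩ := S.sol n hn he
  intro x hx
  have hx0 : (0:ℝ) ≤ x := hx
  have hsx := BSm1.isSolX_of_isSol hs
  have hV : ContinuousOn (BSm0.Vx (S.v n)) (Ico 0 (x+1)) := by
    refine hc.comp (f := fun y : ℝ => 2 * Real.sqrt y) (by fun_prop) ?_
    intro y hy
    exact mem_Ici.2 (by positivity)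
  have hb : ∃ C x0 : ℝ, 0 < x0 ∧ ∀ x, 0 < x → x ≤ x0 → ‖BSm0.Vx1 (S.v1 n) x‖ ≤ C := by
    refine ⟨16, 2, by norm_num, fun y hy hy2 => ?_⟩
    have h1 : 0 < Real.sqrt y := Real.sqrt_pos.2 hy
    have h2 : Real.sqrt y ≤ 3 / 2 := by
      apply Real.sqrt_le_iff.2
      constructor <;> norm_num
      linarith
    have h3 := S.v1_le n hn he (2 * Real.sqrt y) ⟨by positivity, by linarith⟩
    rw [BSm0.Vx1, norm_mul, norm_inv, Complex.norm_real, Real.norm_eq_abs, abs_of_pos h1]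
    calc (Real.sqrt y)⁻¹ * ‖S.v1 n (2 * Real.sqrt y)‖
        ≤ (Real.sqrt y)⁻¹ * (8 * (2 * Real.sqrt y)) := by gcongr
      _ = 16 := by field_simp; norm_num
  have h := BSm1.V_contDiffOn (b := x + 1) (by linarith) he hV hb
    (fun y hy => hsx y (mem_Ioi.2 hy.1))
  refine (h x ⟨hx0, by linarith⟩).mono_of_mem_nhdsWithin ?_
  rw [← Ici_inter_Iio]
  exact inter_mem_nhdsWithin _ (Iio_mem_nhds (by linarith))

theorem ode_toX (S : B.BSeq om0 R U U1) {n : ℕ} (hn : S.n1 ≤ n) (he : Even n) :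
    ∀ x ∈ Ici (0:ℝ),
      (x:ℂ) * iteratedDerivWithin 2 (B.toX (S.v n)) (Ici 0) x +
      (6 + I * (x:ℂ)) * iteratedDerivWithin 1 (B.toX (S.v n)) (Ici 0) x =
        B.wA n (B.toX (S.v n)) x * B.toX (S.v n) x +
          (-((S.om n : ℂ) + I * ((1 / n : ℝ) : ℂ))) * B.toX (S.v n) x := by
  obtain ⟨hc, hc1, h0, hs⟩ := S.sol n hn he
  have hsx := BSm1.isSolX_of_isSol hs
  have hsm := smooth_toX S hn he
  set V := B.toX (S.v n) with hVdef
  have hVe : V = BSm0.Vx (S.v n) := rfl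
  -- the identity for x > 0
  have h1 : ∀ x ∈ Ioi (0:ℝ), derivWithin V (Ici 0) x = BSm0.Vx1 (S.v1 n) x := by
    intro x hx
    have := (hsx x hx).1
    rw [← hVe] at this
    exact (this.hasDerivWithinAt (s := Ici 0)).derivWithin (ud (le_of_lt (mem_Ioi.1 hx)))
  have hpos : ∀ x ∈ Ioi (0:ℝ), (x:ℂ) * iteratedDerivWithin 2 V (Ici 0) x +
      (6 + I * (x:ℂ)) * iteratedDerivWithin 1 V (Ici 0) x =
        B.wA n V x * V x + (-((S.om n : ℂ) + I * ((1 / n : ℝ) : ℂ))) * V x := by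
    intro x hx
    have hx0 : (x:ℂ) ≠ 0 := by exact_mod_cast (mem_Ioi.1 hx).ne'
    have hxm : x ∈ Ici (0:ℝ) := le_of_lt (mem_Ioi.1 hx)
    have h3 := (hsx x hx).2
    have h2 : iteratedDerivWithin 2 V (Ici 0) x = (-(6 + I * (x:ℂ)) * BSm0.Vx1 (S.v1 n) x -
        ((S.om n : ℂ) + I * ((1 / n : ℝ) : ℂ)) * BSm0.Vx (S.v n) x +
        ((‖BSm0.Vx (S.v n) x‖ ^ n : ℝ) : ℂ) * BSm0.Vx (S.v n) x) / x := by
      have h4 : derivWithin V (Ici 0) =ᶠ[𝓝 x] BSm0.Vx1 (S.v1 n) :=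
        Filter.mem_of_superset (Ioi_mem_nhds hx) h1
      have h5 := h3.congr_of_eventuallyEq h4
      rw [show (2:ℕ) = 1 + 1 from rfl, iteratedDerivWithin_succ, iteratedDerivWithin_one]
      exact h5.hasDerivWithinAt.derivWithin (ud hxm)
    rw [h2, iteratedDerivWithin_one, h1 x hx, ← hVe, B.wA]
    field_simp
    ring
  intro x hx
  rcases eq_or_lt_of_le (mem_Ici.1 hx) with h2 | h2
  · -- x = 0 by continuity
    subst h2
    have c0 : ContinuousOn V (Ici 0) := hsm.continuousOn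
    have c1 : ContinuousOn (iteratedDerivWithin 1 V (Ici 0)) (Ici 0) :=
      hsm.continuousOn_iteratedDerivWithin (WithTop.coe_le_coe.2 le_top) uq
    have c2 : ContinuousOn (iteratedDerivWithin 2 V (Ici 0)) (Ici 0) :=
      hsm.continuousOn_iteratedDerivWithin (WithTop.coe_le_coe.2 le_top) uq
    have cA : ContinuousOn (B.wA n V) (Ici 0) := (smooth_wA he hsm).continuousOn
    have cx : ContinuousOn (fun x : ℝ => (x:ℂ)) (Ici 0) := Complex.continuous_ofReal.continuousOn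
    have cL : ContinuousOn (fun x : ℝ => (x:ℂ) * iteratedDerivWithin 2 V (Ici 0) x +
      (6 + I * (x:ℂ)) * iteratedDerivWithin 1 V (Ici 0) x) (Ici 0) :=
      (cx.mul c2).add ((continuousOn_const.add (continuousOn_const.mul cx)).mul c1)
    have cR : ContinuousOn (fun x : ℝ => B.wA n V x * V x +
      (-((S.om n : ℂ) + I * ((1 / n : ℝ) : ℂ))) * V x) (Ici 0) :=
      (cA.mul c0).add (continuousOn_const.mul c0)
    have tL := ((cL 0 hx).mono_left (nhdsWithin_mono _ Ioi_subset_Ici_self) : Tendsto _ (𝓝[>] (0:ℝ)) _)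
    have tR := ((cR 0 hx).mono_left (nhdsWithin_mono _ Ioi_subset_Ici_self) : Tendsto _ (𝓝[>] (0:ℝ)) _)
    refine tendsto_nhds_unique tL (tR.congr' ?_)
    filter_upwards [self_mem_nhdsWithin] with y hy
    exact (hpos y hy).symm
  · exact hpos x h2

theorem good_toX (S : B.BSeq om0 R U U1) (L : LimitProfile om0 R U) :
    Good (S.X + 1) (fun n => B.toX (S.v n)) := by
  have hlow : ∀ᶠ n : ℕ in atTop, Even n → ∀ x ∈ Icc (0:ℝ) (S.X + 1),
      1 / 2 ≤ ‖B.toX (S.v n) x‖ := by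
    obtain ⟨N, hN⟩ := S.conv (1/10) (by norm_num)
    filter_upwards [eventually_ge_atTop N] with n hn he x hx
    have h1 := (hN n hn he _ (two_sqrt_le S hx)).1
    have h2 := L.lower (2 * Real.sqrt x)
    have h3 : ‖U (2 * Real.sqrt x)‖ ≤ ‖S.v n (2 * Real.sqrt x)‖ +
        ‖S.v n (2 * Real.sqrt x) - U (2 * Real.sqrt x)‖ := by
      calc ‖U (2 * Real.sqrt x)‖ = ‖S.v n (2 * Real.sqrt x) -
            (S.v n (2 * Real.sqrt x) - U (2 * Real.sqrt x))‖ := by congr 1; ring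
        _ ≤ _ := norm_sub_le _ _
    rw [B.toX]
    linarith
  refine ⟨?_, ?_, hlow, ?_, ?_⟩
  · filter_upwards [eventually_ge_atTop S.n1] with n hn he
    exact smooth_toX S hn he
  · filter_upwards [hlow, eventually_ge_atTop S.n1] with n h1 hn he x hx
    rcases le_or_gt x (S.X + 1) with h2 | h2
    · have := h1 he x ⟨hx, h2⟩
      intro h3
      rw [h3, norm_zero] at this
      norm_num at this
    · have h3 := (S.far n hn he).lower x (by linarith)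
      intro h4
      rw [h4, norm_zero, zero_mul] at h3
      linarith [S.cl_pos]
  · filter_upwards [eventually_ge_atTop S.n1] with n hn he x hx
    rw [B.toX]
    by_contra h
    push Not at h
    have h1 := S.pow_le n hn he (2 * Real.sqrt x) (by positivity)
    have h2n : 2 ≤ n := S.two_le.trans hn
    have h2 : (2:ℝ) ^ 2 ≤ 2 ^ n := pow_le_pow_right₀ one_le_two h2n
    have h3 : (2:ℝ) ^ n ≤ ‖S.v n (2 * Real.sqrt x)‖ ^ n :=
      pow_le_pow_left₀ (by norm_num) h.le n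
    linarith
  · filter_upwards [eventually_ge_atTop S.n1] with n hn he x hx
    exact S.pow_le n hn he (2 * Real.sqrt x) (by positivity)

/-- **T3**: polynomial bounds on `[0, X + 1]` in the variable `x = r²/4` -/
theorem poly_of (S : B.BSeq om0 R U U1) (L : LimitProfile om0 R U) (j : ℕ) :
    ∃ K N : ℕ, S.n1 ≤ N ∧ 2 ≤ N ∧ ∀ n, N ≤ n → Even n → ∀ w : ℝ → ℂ,
      (w = B.toX (S.v n) ∨ w = B.wA n (B.toX (S.v n)) ∨ w = B.wB n (B.toX (S.v n)) ∨
        w = B.wC n (B.toX (S.v n))) →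
      ContDiffOn ℝ ∞ w (Ici 0) ∧ ∀ i ≤ j, ∀ x ∈ Icc (0:ℝ) (S.X + 1),
        ‖iteratedDerivWithin i w (Ici 0) x‖ ≤ (n:ℝ) ^ K := by
  have hG := good_toX S L
  have hV : PB (S.X + 1) j (fun n => B.toX (S.v n)) := by
    refine hG.all (c := fun n => -((S.om n : ℂ) + I * ((1 / n : ℝ) : ℂ))) ?_ ?_ j
    · filter_upwards [eventually_ge_atTop S.n1, eventually_ge_atTop 2] with n hn hn2 he
      have h1 := S.om_mem n hn he
      have h6 : (2:ℝ) ≤ n := by exact_mod_cast hn2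
      rw [norm_neg]
      refine (norm_add_le _ _).trans ?_
      rw [norm_mul, norm_I, one_mul, Complex.norm_real, Complex.norm_real, Real.norm_eq_abs,
        Real.norm_eq_abs, abs_of_nonneg (by linarith [h1.1]), abs_of_nonneg (by positivity)]
      have h2 : (1:ℝ) / n ≤ 1 := by
        rw [div_le_one (by linarith)]
        linarith
      linarith [h1.2]
    · filter_upwards [eventually_ge_atTop S.n1] with n hn he
      exact ode_toX S hn he
  obtain ⟨K1, h1⟩ := (hG.step hV).2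
  obtain ⟨K2, h2⟩ := hG.wB hV
  obtain ⟨K3, h3⟩ := hG.wC hV
  obtain ⟨K0, h0⟩ := hV
  obtain ⟨N, hN⟩ := eventually_atTop.1 (h0.and (h1.and (h2.and h3)))
  refine ⟨K0 + K1 + K2 + K3, max N (max S.n1 2), by simp, by simp, fun n hn he w hw => ?_⟩
  obtain ⟨g0, g1, g2, g3⟩ := hN n (by omega)
  have hn1 : 1 ≤ n := by omega
  rcases hw with rfl | rfl | rfl | rfl
  · exact ⟨(g0 he).1, fun i hi x hx => ((g0 he).2 i hi x hx).trans (pow_mono hn1 (by omega))⟩
  · exact ⟨(g1 he).1, fun i hi x hx => ((g1 he).2 i hi x hx).trans (pow_mono hn1 (by omega))⟩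
  · exact ⟨(g2 he).1, fun i hi x hx => ((g2 he).2 i hi x hx).trans (pow_mono hn1 (by omega))⟩
  · exact ⟨(g3 he).1, fun i hi x hx => ((g3 he).2 i hi x hx).trans (pow_mono hn1 (by omega))⟩

end Crest.Agent.R086.BPoly
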