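import Crest.Agent.R086.BSm0
import Crest.Agent.R086.BExtDefs

/-!
Row 86 (S0114), Part B (helper367): the averaging formula in the variable `x = r²/4`, local version
`[0,b)`, and smoothness on `[0,b)`.
-/

set_option autoImplicit false

open Complex Set Filter Topology MeasureTheory
open scoped ContDiff

namespace Crest.Agent.R086.BSm1

variable {n : ℕ} {om eps b : ℝ} {V V1 : ℝ → ℂ}

theorem toX_eq (v : ℝ → ℂ) : B.toX v = BSm0.Vx v := rfl

/-- from the variable `r` to the variable `x` -/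
theorem isSolX_of_isSol {v v1 : ℝ → ℂ} (hs : B.IsSol n om eps v v1 (Ioi 0)) :
    B.IsSolX n om eps (BSm0.Vx v) (BSm0.Vx1 v1) (Ioi 0) := by
  intro x hx
  refine ⟨BSm0.Vx_hasDerivAt hs hx, ?_⟩
  refine (BSm0.Vx1_hasDerivAt hs hx).congr_deriv ?_
  rw [BSm0.Vx2]
  have : (x : ℂ) ≠ 0 := by exact_mod_cast (mem_Ioi.1 hx).ne'
  field_simp
  ring

theorem continuousOn_Hf {c : ℂ} {S : Set ℝ} (hV : ContinuousOn V S) :
    ContinuousOn (RLift.Hf n c V) S := by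
  unfold RLift.Hf
  have h1 : ContinuousOn (fun x => ((‖V x‖ ^ n : ℝ) : ℂ)) S :=
    continuous_ofReal.comp_continuousOn (hV.norm.pow n)
  exact (h1.mul hV).sub (continuousOn_const.mul hV)

/-- `x^6 e^{ix} V'(x) = ∫₀ˣ y^5 e^{iy} H(y) dy` -/
theorem V1_formula₀ (hV : ContinuousOn V (Ico 0 b))
    (hb : ∃ C x0 : ℝ, 0 < x0 ∧ ∀ x, 0 < x → x ≤ x0 → ‖V1 x‖ ≤ C)
    (hs : B.IsSolX n om eps V V1 (Ioo 0 b)) {x : ℝ} (hx : x ∈ Ioo 0 b) :
    (x : ℂ) ^ 6 * cexp (I * (x : ℂ)) * V1 x =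
      ∫ y in (0 : ℝ)..x, (y : ℂ) ^ 5 * cexp (I * (y : ℂ)) * RLift.Hf n ((om : ℂ) + I * eps) V y := by
  set c : ℂ := (om : ℂ) + I * eps with hc
  set W : ℝ → ℂ := fun y => (y : ℂ) ^ 6 * cexp (I * (y : ℂ)) * V1 y with hW
  have hsub : Icc 0 x ⊆ Ico 0 b := fun y hy => ⟨hy.1, lt_of_le_of_lt hy.2 hx.2⟩
  have hint : IntervalIntegrable
      (fun y : ℝ => (y : ℂ) ^ 5 * cexp (I * (y : ℂ)) * RLift.Hf n c V y) volume 0 x := by
    apply ContinuousOn.intervalIntegrable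
    rw [uIcc_of_le hx.1.le]
    have h1 : ContinuousOn (RLift.Hf n c V) (Icc 0 x) := continuousOn_Hf (hV.mono hsub)
    have h2 : Continuous (fun y : ℝ => (y : ℂ) ^ 5 * cexp (I * (y : ℂ))) := by fun_prop
    exact h2.continuousOn.mul h1
  have hderiv : ∀ y ∈ Ioo (0 : ℝ) x, HasDerivAt W
      ((y : ℂ) ^ 5 * cexp (I * (y : ℂ)) * RLift.Hf n c V y) y := by
    intro y hy
    have hy0 : (y : ℂ) ≠ 0 := by exact_mod_cast hy.1.ne'
    have e1 : HasDerivAt (fun y : ℝ => (y : ℂ)) 1 y := Complex.ofRealCLM.hasDerivAt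
    have e2 : HasDerivAt (fun y : ℝ => (y : ℂ) ^ 6) (6 * (y : ℂ) ^ 5) y := by
      simpa using e1.fun_pow 6
    have e3 : HasDerivAt (fun y : ℝ => I * (y : ℂ)) I y := by
      simpa using e1.const_mul I
    have e4 := (e2.fun_mul e3.cexp).fun_mul (hs y ⟨hy.1, hy.2.trans hx.2⟩).2
    refine e4.congr_deriv ?_
    simp only [RLift.Hf, hc]
    field_simp
    ring
  have hcont : ContinuousOn W (Icc 0 x) := by
    intro y hy
    rcases eq_or_lt_of_le hy.1 with h0 | h0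
    · obtain ⟨C, x0, hx0, hC⟩ := hb
      subst h0
      have hW0 : W 0 = 0 := by simp [hW]
      rw [ContinuousWithinAt, hW0]
      have hlim : Tendsto (fun y : ℝ => |y| ^ 6 * C) (𝓝[Icc 0 x] 0) (𝓝 0) := by
        have : Continuous (fun y : ℝ => |y| ^ 6 * C) := by fun_prop
        have h := this.tendsto 0
        simp at h
        exact h.mono_left nhdsWithin_le_nhds
      refine squeeze_zero_norm' ?_ hlim
      have hev : ∀ᶠ y : ℝ in 𝓝[Icc 0 x] 0, y ≤ x0 :=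
        nhdsWithin_le_nhds (eventually_le_nhds hx0)
      filter_upwards [hev, self_mem_nhdsWithin] with y hy1 hy2
      rcases eq_or_lt_of_le hy2.1 with h3 | h3
      · subst h3; simp [hW]
      · simp only [hW, norm_mul, norm_pow, Complex.norm_real]
        have hexp : ‖cexp (I * (y : ℂ))‖ = 1 := by
          rw [mul_comm, Complex.norm_exp_ofReal_mul_I]
        rw [hexp, mul_one, Real.norm_eq_abs]
        exact mul_le_mul_of_nonneg_left (hC y h3 hy1) (by positivity)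
    · exact ((by fun_prop : Continuous (fun y : ℝ => (y : ℂ) ^ 6 * cexp (I * (y : ℂ))))
        |>.continuousAt.mul (hs y ⟨h0, lt_of_le_of_lt hy.2 hx.2⟩).2.continuousAt).continuousWithinAt
  have := intervalIntegral.integral_eq_sub_of_hasDerivAt_of_le hx.1.le hcont hderiv hint
  rw [this]
  simp [hW]

/-- **averaging formula**: `V'(x) = ∫₀¹ t^5 e^{-ix(1-t)} H(xt) dt`, `H = |V|^n V - (om + i eps) V`. -/
theorem V1_formula (hV : ContinuousOn V (Ico 0 b))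
    (hb : ∃ C x0 : ℝ, 0 < x0 ∧ ∀ x, 0 < x → x ≤ x0 → ‖V1 x‖ ≤ C)
    (hs : B.IsSolX n om eps V V1 (Ioo 0 b)) {x : ℝ} (hx : x ∈ Ioo 0 b) :
    V1 x = ∫ t in (0 : ℝ)..1, (t : ℂ) ^ 5 * cexp (-(I * (x : ℂ) * (1 - (t : ℂ)))) *
      RLift.Hf n ((om : ℂ) + I * eps) V (x * t) := by
  have h1 := V1_formula₀ hV hb hs hx
  set c : ℂ := (om : ℂ) + I * eps with hc
  have hr' : (x : ℂ) ≠ 0 := by exact_mod_cast hx.1.ne'
  have h2 : (∫ y in (0 : ℝ)..x, (y : ℂ) ^ 5 * cexp (I * (y : ℂ)) * RLift.Hf n c V y)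
      = x • ∫ t in (0 : ℝ)..1, ((x * t : ℝ) : ℂ) ^ 5 * cexp (I * ((x * t : ℝ) : ℂ))
          * RLift.Hf n c V (x * t) := by
    rw [intervalIntegral.smul_integral_comp_mul_left
      (fun y : ℝ => (y : ℂ) ^ 5 * cexp (I * (y : ℂ)) * RLift.Hf n c V y) x]
    simp
  rw [h2] at h1
  have h3 : (∫ t in (0 : ℝ)..1, ((x * t : ℝ) : ℂ) ^ 5 * cexp (I * ((x * t : ℝ) : ℂ))
          * RLift.Hf n c V (x * t)) = ((x : ℂ) ^ 5 * cexp (I * (x : ℂ))) *
        ∫ t in (0 : ℝ)..1,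
      (t : ℂ) ^ 5 * cexp (-(I * (x : ℂ) * (1 - (t : ℂ)))) * RLift.Hf n c V (x * t) := by
    rw [← intervalIntegral.integral_const_mul]
    apply intervalIntegral.integral_congr
    intro t _
    simp only
    have : cexp (I * ((x * t : ℝ) : ℂ)) = cexp (I * (x : ℂ)) *
        cexp (-(I * (x : ℂ) * (1 - (t : ℂ)))) := by
      rw [← Complex.exp_add]; congr 1; push_cast; ring
    rw [this]; push_cast; ring
  rw [h3, Complex.real_smul] at h1
  have hne : (x : ℂ) ^ 6 * cexp (I * (x : ℂ)) ≠ 0 :=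
    mul_ne_zero (pow_ne_zero _ hr') (Complex.exp_ne_zero _)
  apply mul_left_cancel₀ hne
  rw [h1]; ring

/-- the right-hand side of the averaging formula -/
noncomputable def avg (n : ℕ) (c : ℂ) (V : ℝ → ℂ) (x : ℝ) : ℂ :=
  ∫ t in (0 : ℝ)..1, (t : ℂ) ^ 5 * cexp (-(I * (x : ℂ) * (1 - (t : ℂ)))) * RLift.Hf n c V (x * t)

theorem avg_contDiffOn (hn : Even n) {c : ℂ} {k : ℕ} {S : Set ℝ} (hSc : Convex ℝ S)
    (hSu : UniqueDiffOn ℝ S) (hS0 : ∀ x ∈ S, ∀ t ∈ Icc (0 : ℝ) 1, x * t ∈ S)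
    (hG : ContDiffOn ℝ k V S) : ContDiffOn ℝ k (avg n c V) S := by
  have hof : ContDiff ℝ k (fun x : ℝ => (x : ℂ)) := Complex.ofRealCLM.contDiff
  have h1 : ContDiff ℝ k (fun p : ℝ × ℝ => (p.1 : ℂ)) := hof.comp contDiff_fst
  have h2 : ContDiff ℝ k (fun p : ℝ × ℝ => (p.2 : ℂ)) := hof.comp contDiff_snd
  have h3 : ContDiff ℝ k (fun p : ℝ × ℝ =>
      (p.2 : ℂ) ^ 5 * cexp (-(I * (p.1 : ℂ) * (1 - (p.2 : ℂ))))) := by
    refine (h2.pow 5).mul (ContDiff.cexp ?_)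
    exact ((contDiff_const.mul h1).mul (contDiff_const.sub h2)).neg
  have h4 : ContDiffOn ℝ k (RLift.Hf n c V) S := by
    have := RLift.contDiffOn_Hf (k := (k : ℕ∞)) (c := c) hn (by exact_mod_cast hG)
    exact_mod_cast this
  have h5 : ContDiffOn ℝ k (fun p : ℝ × ℝ => RLift.Hf n c V (p.1 * p.2)) (S ×ˢ Icc 0 1) := by
    refine h4.comp (t := S) (f := fun p : ℝ × ℝ => p.1 * p.2) ?_ ?_
    · exact (contDiff_fst.mul contDiff_snd).contDiffOn
    · intro p hp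
      exact hS0 _ hp.1 _ hp.2
  exact R213.ParamInt.contDiffOn_param_nat hSc hSu (zero_lt_one : (0 : ℝ) < 1) k
    (h3.contDiffOn.mul h5)

theorem V_hasDerivWithinAt (hbp : 0 < b) (hn : Even n) (hV : ContinuousOn V (Ico 0 b))
    (hb : ∃ C x0 : ℝ, 0 < x0 ∧ ∀ x, 0 < x → x ≤ x0 → ‖V1 x‖ ≤ C)
    (hs : B.IsSolX n om eps V V1 (Ioo 0 b)) {x : ℝ} (hx : x ∈ Ico 0 b) :
    HasDerivWithinAt V (avg n ((om : ℂ) + I * eps) V x) (Ico 0 b) x := by
  rcases eq_or_lt_of_le hx.1 with h0 | h0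
  · subst h0
    have hK : ContinuousOn (avg n ((om : ℂ) + I * eps) V) (Ico 0 b) := by
      have := avg_contDiffOn (c := (om : ℂ) + I * eps) (k := 0) hn (V := V) (convex_Ico 0 b)
        (uniqueDiffOn_Ico 0 b)
        (fun x hx t ht => ⟨mul_nonneg hx.1 ht.1, lt_of_le_of_lt
          (mul_le_of_le_one_right hx.1 ht.2) hx.2⟩) (by
        rw [Nat.cast_zero]; exact contDiffOn_zero.2 hV)
      rw [Nat.cast_zero] at this
      exact contDiffOn_zero.1 this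
    have hev : Ico (0 : ℝ) b ∈ 𝓝[≥] (0 : ℝ) := Ico_mem_nhdsGE hbp
    have hmain : HasDerivWithinAt V (avg n ((om : ℂ) + I * eps) V 0) (Ici 0) 0 := by
      apply hasDerivWithinAt_Ici_of_tendsto_deriv (s := Ioo 0 b)
      · intro x hx
        exact (hs x hx).1.differentiableAt.differentiableWithinAt
      · exact (hV 0 hx).mono Ioo_subset_Ico_self
      · exact Ioo_mem_nhdsGT hbp
      · have h1 : Tendsto (avg n ((om : ℂ) + I * eps) V) (𝓝[>] 0)
            (𝓝 (avg n ((om : ℂ) + I * eps) V 0)) := by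
          have := (hK 0 hx).mono_of_mem_nhdsWithin (s := Ioi 0)
            (mem_of_superset (Ioo_mem_nhdsGT hbp) Ioo_subset_Ico_self)
          exact this
        refine h1.congr' ?_
        filter_upwards [Ioo_mem_nhdsGT hbp] with x hx
        rw [(hs x hx).1.deriv, V1_formula hV hb hs hx, avg]
    exact hmain.mono (fun y hy => hy.1)
  · have h1 := (hs x ⟨h0, hx.2⟩).1
    rw [V1_formula hV hb hs ⟨h0, hx.2⟩] at h1
    exact h1.hasDerivWithinAt

/-- smoothness on `[0,b)` -/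
theorem V_contDiffOn (hbp : 0 < b) (hn : Even n) (hV : ContinuousOn V (Ico 0 b))
    (hb : ∃ C x0 : ℝ, 0 < x0 ∧ ∀ x, 0 < x → x ≤ x0 → ‖V1 x‖ ≤ C)
    (hs : B.IsSolX n om eps V V1 (Ioo 0 b)) : ContDiffOn ℝ ∞ V (Ico 0 b) := by
  rw [contDiffOn_infty]
  intro k
  induction k with
  | zero => rw [Nat.cast_zero]; exact contDiffOn_zero.2 hV
  | succ k ih =>
    rw [Nat.cast_add, Nat.cast_one, contDiffOn_succ_iff_derivWithin (uniqueDiffOn_Ico 0 b)]
    refine ⟨fun s hs' => (V_hasDerivWithinAt hbp hn hV hb hs hs').differentiableWithinAt,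
      by simp, ?_⟩
    refine (avg_contDiffOn (c := (om : ℂ) + I * eps) hn (convex_Ico 0 b) (uniqueDiffOn_Ico 0 b)
        (fun x hx t ht => ⟨mul_nonneg hx.1 ht.1, lt_of_le_of_lt
          (mul_le_of_le_one_right hx.1 ht.2) hx.2⟩) ih).congr ?_
    intro s hs'
    exact (V_hasDerivWithinAt hbp hn hV hb hs hs').derivWithin (uniqueDiffOn_Ico 0 b s hs')

end Crest.Agent.R086.BSm1
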