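import Crest.Agent.R086.BPoly
import Crest.Agent.R086.BPolyFin

/-!
Row 86 (S0114), Part B (helper97): `T3Out` from helper2's `poly_of`.
-/

set_option autoImplicit false

open Set

namespace Crest.Agent.R086.B

variable {om0 R : ℝ} {U U1 : ℝ → ℂ}

theorem t3out (S : BSeq om0 R U U1) (L : LimitProfile om0 R U) : T3Out S := by
  refine ⟨S.X + 1, by linarith, fun j => ?_⟩
  obtain ⟨K, N, -, -, h⟩ := BPoly.poly_of S L j
  refine ⟨K, N, fun n hn he x hx => ?_⟩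
  have hx' : x ∈ Icc (0:ℝ) (S.X + 1) := ⟨hx.1, hx.2.le⟩
  exact ⟨(h n hn he _ (Or.inr (Or.inl rfl))).2 j le_rfl x hx',
    (h n hn he _ (Or.inr (Or.inr (Or.inl rfl)))).2 j le_rfl x hx',
    (h n hn he _ (Or.inr (Or.inr (Or.inr rfl)))).2 j le_rfl x hx'⟩

end Crest.Agent.R086.B
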