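import Crest.Agent.R086.Defs

/-!
Row 86, Part D-LINEAR interface (captain helper575).  Frozen.
All nodes are theorems about an arbitrary `LinData`.
-/

set_option autoImplicit false

open MeasureTheory Complex Set
open scoped ContDiff

namespace Crest.Agent.R086

/-- weight `(1+|ξ|)^N` -/
noncomputable def wt (N : ℕ) (ξ : R12) : ℝ := (1 + ‖ξ‖) ^ N

/-- weighted measure -/
noncomputable def muN (N : ℕ) : Measure R12 :=
  volume.withDensity (fun ξ => ENNReal.ofReal (wt N ξ))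

/-- densities: the space `X_N` -/
abbrev XN (N : ℕ) : Type := Lp ℂ 1 (muN N)

/-- pairs (sup norm of the product) -/
abbrev XX (N : ℕ) : Type := XN N × XN N

/-- synthesis `y ↦ ∫ e^{i ξ·y} a(ξ) dξ` (same normal form as in `Rep`) -/
noncomputable def ft (a : R12 → ℂ) (y : R12) : ℂ :=
  ∫ ξ : R12, exp (I * ((inner ℝ ξ y : ℝ) : ℂ)) * a ξ

/-- convolution of densities -/
noncomputable def cv (v a : R12 → ℂ) (η : R12) : ℂ := ∫ ξ : R12, v (η - ξ) * a ξ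

/-- index of the 14 modes -/
abbrev MI : Type := Option (Option (Fin 12))

/-- growth exponents of the modes: phase 0, time 1, translations 1/2 -/
noncomputable def mlam : MI → ℝ
  | none => 0
  | some none => 1
  | some (some _) => 1 / 2

/-- densities of the potentials and of the modes, ONE density for all `N` -/
structure Pot {n : ℕ} (P : Profile n) where
  v1 : R12 → ℂ
  v2 : R12 → ℂ
  v2c : R12 → ℂ
  m1 : MI → R12 → ℂ
  m2 : MI → R12 → ℂ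
  rep_v1 : ∀ N, Rep N v1 P.V1
  rep_v2 : ∀ N, Rep N v2 P.V2
  rep_v2c : ∀ N, Rep N v2c P.V2c
  rep_m1 : ∀ (i : MI) (N : ℕ), Rep N (m1 i) (P.mode1 i)
  rep_m2 : ∀ (i : MI) (N : ℕ), Rep N (m2 i) (P.mode2 i)

/-- the linear flow on `XX N` -/
structure LinData {n : ℕ} (P : Profile n) (T : Pot P) (N : ℕ) where
  /-- free rescaled Schroedinger semigroup -/
  S0 : ℝ → XX N →L[ℂ] XX N
  /-- potential operator -/
  VV : XX N →L[ℂ] XX N
  /-- full semigroup -/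
  S : ℝ → XX N →L[ℂ] XX N
  /-- the modes as elements of `XX N` -/
  mode : MI → XX N
  S0_fst : ∀ s, 0 ≤ s → ∀ x : XX N, ((S0 s x).1 : R12 → ℂ) =ᵐ[volume] fun z =>
    exp ((I * P.om - 1 / n) * s) * exp (6 * (s : ℂ)) *
      exp (-I * (((Real.exp s - 1) * ‖z‖ ^ 2 : ℝ) : ℂ)) * (x.1 : R12 → ℂ) (Real.exp (s / 2) • z)
  S0_snd : ∀ s, 0 ≤ s → ∀ x : XX N, ((S0 s x).2 : R12 → ℂ) =ᵐ[volume] fun z =>
    exp ((-I * P.om - 1 / n) * s) * exp (6 * (s : ℂ)) *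
      exp (I * (((Real.exp s - 1) * ‖z‖ ^ 2 : ℝ) : ℂ)) * (x.2 : R12 → ℂ) (Real.exp (s / 2) • z)
  VV_fst : ∀ x : XX N, ((VV x).1 : R12 → ℂ) =ᵐ[volume] fun z =>
    -I * (cv T.v1 x.1 z + cv T.v2 x.2 z)
  VV_snd : ∀ x : XX N, ((VV x).2 : R12 → ℂ) =ᵐ[volume] fun z =>
    I * (cv T.v1 x.2 z + cv T.v2c x.1 z)
  mode_fst : ∀ i, ((mode i).1 : R12 → ℂ) =ᵐ[volume] T.m1 i
  mode_snd : ∀ i, ((mode i).2 : R12 → ℂ) =ᵐ[volume] T.m2 i
  S0_zero : S0 0 = 1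
  S0_add : ∀ s t, 0 ≤ s → 0 ≤ t → S0 (s + t) = S0 s * S0 t
  S0_cont : ∀ x, ContinuousOn (fun s => S0 s x) (Ici 0)
  S0_norm : ∀ s, 0 ≤ s → ‖S0 s‖ ≤ Real.exp (-s / n)
  S_zero : S 0 = 1
  S_add : ∀ s t, 0 ≤ s → 0 ≤ t → S (s + t) = S s * S t
  S_cont : ∀ x, ContinuousOn (fun s => S s x) (Ici 0)
  /-- Duhamel, both forms -/
  duh : ∀ s, 0 ≤ s → ∀ x, S s x = S0 s x + ∫ r in (0 : ℝ)..s, S0 (s - r) (VV (S r x))
  duh' : ∀ s, 0 ≤ s → ∀ x, S s x = S0 s x + ∫ r in (0 : ℝ)..s, S (s - r) (VV (S0 r x))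

/-- `x` is real: second component is the conjugate of the first -/
def IsReal {N : ℕ} (x : XX N) : Prop :=
  ∀ᵐ z ∂(volume : Measure R12), (x.2 : R12 → ℂ) z = (starRingEnd ℂ) ((x.1 : R12 → ℂ) (-z))

/-- NODE Pot (148/732) -/
def PotStmt : Prop := ∀ (n : ℕ) (P : Profile n), Nonempty (Pot P)

/-- NODE DC (758/384): existence of the linear flow -/
def LinStmt : Prop := ∀ (n : ℕ) (P : Profile n) (T : Pot P) (N : ℕ), Nonempty (LinData P T N)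

/-- NODE DE (733): for large `N`, `S t0 = A + K`. -/
def DEStmt : Prop := ∀ (n : ℕ) (P : Profile n) (T : Pot P), ∃ N1 : ℕ, ∀ N, N1 ≤ N →
  ∀ D : LinData P T N, ∃ t0 : ℝ, 0 < t0 ∧ ∃ A K : XX N →L[ℂ] XX N,
    D.S t0 = A + K ∧ ‖A‖ < 1 ∧ IsCompactOperator K

/-- NODE MODE (839): modes are eigenvectors; the flow preserves reality -/
def ModeStmt : Prop := ∀ (n : ℕ) (P : Profile n) (T : Pot P) (N : ℕ) (D : LinData P T N),
  (∀ s, 0 ≤ s → ∀ i, D.S s (D.mode i) = ((Real.exp (mlam i * s) : ℝ) : ℂ) • D.mode i) ∧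
  (∀ i, IsReal (D.mode i)) ∧
  (∀ s, 0 ≤ s → ∀ x, IsReal x → IsReal (D.S s x)) ∧
  (∀ c : MI → ℂ, ∑ i, c i • D.mode i = 0 → c = 0)

/-- NODE GEN (718): the generator is the pointwise operator -/
def GenStmt : Prop := ∀ (n : ℕ) (P : Profile n) (T : Pot P) (N : ℕ), 2 ≤ N →
  ∀ (D : LinData P T N) (x y : XX N),
    HasDerivWithinAt (fun t => D.S t x) y (Ici 0) 0 →
    (∀ p, ft y.1 p = P.gen1 (ft x.1) (ft x.2) p) ∧ (∀ p, ft y.2 p = P.gen2 (ft x.1) (ft x.2) p)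

/-- OUTPUT of Part D-LINEAR. -/
def LINStmt : Prop := ∀ (n : ℕ) (P : Profile n) (T : Pot P), P.SpecGood N0 →
  ∃ N1 : ℕ, ∀ N, N1 ≤ N → ∀ D : LinData P T N, ∀ κ : ℝ, 0 < κ →
    ∃ s0 : ℝ, 0 < s0 ∧ ∀ s, s0 ≤ s → ∃ C : ℝ, ∀ x : XX N, IsReal x →
      ∃ b : MI → ℝ, (∀ i, |b i| ≤ C * ‖x‖) ∧
        ‖D.S s x - ∑ i, (b i : ℂ) • D.mode i‖ ≤ κ * ‖x‖

/-- Forced mild solutions are given by the full semigroup (575). -/
def ForcedStmt : Prop := ∀ (n : ℕ) (P : Profile n) (T : Pot P) (N : ℕ) (D : LinData P T N)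
  (a : ℝ) (_ : 0 ≤ a) (x h : ℝ → XX N), ContinuousOn x (Icc 0 a) → ContinuousOn h (Icc 0 a) →
  (∀ s ∈ Icc 0 a, x s = D.S0 s (x 0) + ∫ r in (0 : ℝ)..s, D.S0 (s - r) (D.VV (x r) + h r)) →
  ∀ s ∈ Icc 0 a, x s = D.S s (x 0) + ∫ r in (0 : ℝ)..s, D.S (s - r) (h r)

end Crest.Agent.R086
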