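import Crest.Agent.R086.Wie
import Crest.Agent.R086.DLIface

/-!
# Row 86: convolution with a fixed weighted density as a bounded operator on `XN N` (helper384)
-/

set_option autoImplicit false

open MeasureTheory Complex Set

noncomputable section

namespace Crest.Agent.R086

/-- the identification `XN N = X R12 N` (definitional) -/
def toX {N : ℕ} (a : XN N) : Wie.X R12 N := a

theorem den_toX {N : ℕ} (a : XN N) : Wie.XG.den (toX a) = (a : R12 → ℂ) := rfl

theorem cv_eq_wie (v a : R12 → ℂ) : cv v a = Wie.cv volume v a := by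
  rw [Wie.cv_comm]
  funext η
  unfold cv Wie.cv
  refine integral_congr_ae (Filter.Eventually.of_forall fun ξ => ?_)
  simp only; ring

theorem gint_of_integrable {N : ℕ} {v : R12 → ℂ}
    (hv : Integrable (fun ξ : R12 => (((1 + ‖ξ‖) ^ N : ℝ) : ℂ) * v ξ)) :
    Wie.GInt volume (Wie.wtV R12 N) v := by
  refine hv.congr (Filter.Eventually.of_forall fun ξ => ?_)
  simp only [Wie.wtV_apply, Wie.wt, Complex.real_smul]

/-- convolution with a fixed density -/
theorem exists_cv (N : ℕ) (v : R12 → ℂ)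
    (hv : Integrable (fun ξ : R12 => (((1 + ‖ξ‖) ^ N : ℝ) : ℂ) * v ξ)) :
    ∃ C : XN N →L[ℂ] XN N, ∀ a : XN N, ((C a : XN N) : R12 → ℂ) =ᵐ[volume] cv v a := by
  have hv' := gint_of_integrable hv
  refine ⟨ContinuousLinearMap.mul ℂ (Wie.X R12 N) (Wie.XG.mk v hv'), fun a => ?_⟩
  have h1 : Wie.XG.den (Wie.XG.mk v hv' * toX a) =ᵐ[volume]
      Wie.cv volume (Wie.XG.den (Wie.XG.mk v hv')) (Wie.XG.den (toX a)) := Wie.XG.den_mul _ _
  rw [Wie.XG.cv_congr (Wie.XG.den_mk hv') (Filter.EventuallyEq.refl _ _), den_toX,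
    ← cv_eq_wie] at h1
  exact h1

end Crest.Agent.R086
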