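import Crest.Agent.R086.DLIface

set_option autoImplicit false

open MeasureTheory Complex Set Function
open scoped ContDiff

namespace Crest.Agent.R086.DL

section tri
variable {E : Type*} [NormedAddCommGroup E] [NormedSpace ℝ E]

lemma ind_intervalIntegrable {f : ℝ → E} (hf : Continuous f) (q : ℝ) (c d : ℝ) :
    IntervalIntegrable (indicator {r : ℝ | q ≤ r} f) volume c d := by
  rw [intervalIntegrable_iff]
  exact (hf.integrableOn_uIoc).indicator (measurableSet_le measurable_const measurable_id)

lemma tri_swap {F : ℝ → ℝ → E} (hF : Continuous (uncurry F)) {a : ℝ} (ha : 0 ≤ a) :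
    ∫ r in (0 : ℝ)..a, ∫ q in (0 : ℝ)..r, F q r = ∫ q in (0 : ℝ)..a, ∫ r in q..a, F q r := by
  have h1 : ∫ r in (0 : ℝ)..a, ∫ q in (0 : ℝ)..r, F q r
      = ∫ r in (0 : ℝ)..a, ∫ q in (0 : ℝ)..a, indicator {x | x ≤ r} (fun q => F q r) q := by
    apply intervalIntegral.integral_congr
    intro r hr
    rw [uIcc_of_le ha] at hr
    exact (intervalIntegral.integral_indicator hr).symm
  have h2 : ∫ q in (0 : ℝ)..a, ∫ r in q..a, F q r
      = ∫ q in (0 : ℝ)..a, ∫ r in (0 : ℝ)..a, indicator {x | q ≤ x} (fun r => F q r) r := by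
    apply intervalIntegral.integral_congr
    intro q hq
    rw [uIcc_of_le ha] at hq
    have hc : Continuous (fun r => F q r) := hF.comp (by fun_prop : Continuous fun r : ℝ => (q, r))
    have hadd := intervalIntegral.integral_add_adjacent_intervals
      (ind_intervalIntegrable hc q 0 q) (ind_intervalIntegrable hc q q a)
    show ∫ r in q..a, F q r = ∫ r in (0 : ℝ)..a, indicator {x | q ≤ x} (fun r => F q r) r
    rw [← hadd]
    have e1 : ∫ r in (0 : ℝ)..q, indicator {x | q ≤ x} (fun r => F q r) r = 0 := by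
      rw [intervalIntegral.integral_of_le hq.1, ← MeasureTheory.integral_Ico_eq_integral_Ioc]
      · apply setIntegral_eq_zero_of_forall_eq_zero
        intro x hx
        rw [indicator_of_notMem]
        simpa using hx.2
    have e2 : ∫ r in q..a, indicator {x | q ≤ x} (fun r => F q r) r = ∫ r in q..a, F q r := by
      apply intervalIntegral.integral_congr
      intro x hx
      rw [uIcc_of_le hq.2] at hx
      exact indicator_of_mem (s := {x | q ≤ x}) hx.1 _
    rw [e1, e2, zero_add]
  rw [h1, h2]
  have hsw := intervalIntegral_intervalIntegral_swap (a := 0) (b := a) (c := 0) (d := a)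
    (F := fun r q => indicator {x | x ≤ r} (fun q => F q r) q) ?_
  · rw [hsw]
    apply intervalIntegral.integral_congr
    intro q _
    apply intervalIntegral.integral_congr
    intro r _
    simp only [indicator, mem_ofPred_eq]
  · have : (uncurry fun r q => indicator {x | x ≤ r} (fun q => F q r) q)
        = indicator {p : ℝ × ℝ | p.2 ≤ p.1} (fun p => F p.2 p.1) := by
      ext p
      simp only [uncurry, indicator, mem_ofPred_eq]
    rw [this]
    apply IntegrableOn.indicator
    · have hc : Continuous (fun p : ℝ × ℝ => F p.2 p.1) := hF.comp (by fun_prop : Continuous fun p : ℝ × ℝ => (p.2, p.1))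
      apply (hc.continuousOn.integrableOn_compact (isCompact_uIcc.prod isCompact_uIcc)).mono_set
      exact prod_mono uIoc_subset_uIcc uIoc_subset_uIcc
    · exact measurableSet_le measurable_snd measurable_fst

end tri

section abs
variable {X : Type*} [NormedAddCommGroup X] [NormedSpace ℂ X] [CompleteSpace X]

/-- locally bounded strongly continuous family on `[0,∞)`, extended by `max t 0`, is jointly continuous -/
lemma joint_cont {S : ℝ → X →L[ℂ] X} (hc : ∀ x, ContinuousOn (fun s => S s x) (Ici 0)) :
    Continuous (fun p : ℝ × X => S (max p.1 0) p.2) := by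
  -- strong continuity of the extension
  have hc' : ∀ x, Continuous (fun s => S (max s 0) x) := fun x =>
    (hc x).comp_continuous (by fun_prop) (fun s => mem_Ici.2 (le_max_right _ _))
  rw [continuous_iff_continuousAt]
  rintro ⟨t, x⟩
  -- local bound by Banach–Steinhaus
  obtain ⟨C, hC⟩ : ∃ C, ∀ s : Icc (t-1) (t+1), ‖S (max (s:ℝ) 0)‖ ≤ C := by
    apply banach_steinhaus
    intro y
    have : IsCompact ((fun s => S (max s 0) y) '' Icc (t-1) (t+1)) :=
      isCompact_Icc.image (hc' y)
    obtain ⟨C, hC⟩ := this.isBounded.exists_norm_le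
    exact ⟨C, fun s => hC _ ⟨s, s.2, rfl⟩⟩
  rw [ContinuousAt, Metric.tendsto_nhds]
  intro ε hε
  have hC0 : 0 ≤ C := le_trans (norm_nonneg _) (hC ⟨t, by constructor <;> linarith⟩)
  have h1 : ∀ᶠ s in nhds t, dist (S (max s 0) x) (S (max t 0) x) < ε / 2 :=
    Metric.tendsto_nhds.mp ((hc' x).tendsto t) _ (by positivity)
  have h2 : ∀ᶠ s in nhds t, s ∈ Icc (t-1) (t+1) := Icc_mem_nhds (by linarith) (by linarith)
  have h3 : ∀ᶠ y in nhds x, dist y x < ε / (2 * (C + 1)) := Metric.ball_mem_nhds _ (by positivity)
  have h4 := (h1.and h2).prod_nhds h3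
  filter_upwards [h4] with p hp
  obtain ⟨⟨hp1, hp2⟩, hp3⟩ := hp
  have : dist (S (max p.1 0) p.2) (S (max p.1 0) x) < ε / 2 := by
    rw [dist_eq_norm, ← map_sub]
    calc ‖S (max p.1 0) (p.2 - x)‖ ≤ ‖S (max p.1 0)‖ * ‖p.2 - x‖ := ContinuousLinearMap.le_opNorm _ _
      _ ≤ C * ‖p.2 - x‖ := by gcongr; exact hC ⟨p.1, hp2⟩
      _ ≤ (C+1) * ‖p.2 - x‖ := by gcongr; linarith
      _ < (C+1) * (ε / (2 * (C + 1))) := by
          gcongr
          rw [← dist_eq_norm]; exact hp3
      _ = ε / 2 := by field_simp
  calc dist (S (max p.1 0) p.2) (S (max t 0) x) ≤ dist (S (max p.1 0) p.2) (S (max p.1 0) x) + dist (S (max p.1 0) x) (S (max t 0) x) := dist_triangle _ _ _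
    _ < ε / 2 + ε / 2 := by gcongr
    _ = ε := by ring

lemma forced_abs {S0 S : ℝ → X →L[ℂ] X} {V : X →L[ℂ] X}
    (h0 : ∀ x, ContinuousOn (fun s => S0 s x) (Ici 0))
    (h1 : ∀ x, ContinuousOn (fun s => S s x) (Ici 0))
    (duh' : ∀ s, 0 ≤ s → ∀ x, S s x = S0 s x + ∫ r in (0 : ℝ)..s, S (s - r) (V (S0 r x)))
    {a : ℝ} {x h : ℝ → X} (hx : ContinuousOn x (Icc 0 a)) (hh : ContinuousOn h (Icc 0 a))
    (hm : ∀ s ∈ Icc 0 a, x s = S0 s (x 0) + ∫ r in (0 : ℝ)..s, S0 (s - r) (V (x r) + h r)) :
    ∀ s ∈ Icc 0 a, x s = S s (x 0) + ∫ r in (0 : ℝ)..s, S (s - r) (h r) := by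
  intro s hs
  have ha : 0 ≤ a := hs.1.trans hs.2
  have J0 := joint_cont h0
  have J1 := joint_cont h1
  -- global continuous extensions
  set xe : ℝ → X := fun t => x (projIcc 0 a ha t) with hxe
  set he : ℝ → X := fun t => h (projIcc 0 a ha t) with hhe
  have cxe : Continuous xe := hx.comp_continuous (by fun_prop) (fun t => (projIcc 0 a ha t).2)
  have che : Continuous he := hh.comp_continuous (by fun_prop) (fun t => (projIcc 0 a ha t).2)
  have exe : ∀ t ∈ Icc 0 a, xe t = x t := fun t ht => by simp only [hxe]; rw [projIcc_of_mem ha ht]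
  have ehe : ∀ t ∈ Icc 0 a, he t = h t := fun t ht => by simp only [hhe]; rw [projIcc_of_mem ha ht]
  set g : ℝ → X := fun t => V (xe t) + he t with hg
  have cg : Continuous g := by fun_prop
  have sub : ∀ {r}, r ∈ uIcc 0 s → r ∈ Icc 0 a := by
    intro r hr; rw [uIcc_of_le hs.1] at hr; exact ⟨hr.1, hr.2.trans hs.2⟩
  -- mild equation with extensions
  have hm' : ∀ t ∈ Icc 0 a, x t = S0 t (x 0) + ∫ r in (0 : ℝ)..t, S0 (max (t - r) 0) (g r) := by
    intro t ht
    rw [hm t ht]
    congr 1
    apply intervalIntegral.integral_congr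
    intro r hr
    rw [uIcc_of_le ht.1] at hr
    have hr' : r ∈ Icc 0 a := ⟨hr.1, hr.2.trans ht.2⟩
    simp only [hg]
    rw [exe r hr', ehe r hr', max_eq_left (by linarith [hr.2])]
  -- integral of S against g
  have key : ∫ q in (0 : ℝ)..s, S (s - q) (g q)
      = (∫ q in (0 : ℝ)..s, S0 (s - q) (g q)) + ∫ q in (0 : ℝ)..s, ∫ r in q..s,
        S (max (s - r) 0) (V (S0 (max (r - q) 0) (g q))) := by
    rw [← intervalIntegral.integral_add]
    · apply intervalIntegral.integral_congr
      intro q hq
      rw [uIcc_of_le hs.1] at hq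
      simp only []
      rw [duh' (s - q) (by linarith [hq.2]) (g q)]
      congr 1
      have := intervalIntegral.integral_comp_sub_right (a := q) (b := s)
        (fun r => S (max (s - q - r) 0) (V (S0 (max r 0) (g q)))) q
      simp only [sub_self] at this
      have e1 : ∫ r in (0:ℝ)..(s - q), S (s - q - r) (V (S0 r (g q)))
          = ∫ r in (0:ℝ)..(s - q), S (max (s - q - r) 0) (V (S0 (max r 0) (g q))) := by
        apply intervalIntegral.integral_congr
        intro r hr
        rw [uIcc_of_le (by linarith [hq.2])] at hr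
        simp only []
        rw [max_eq_left (by linarith [hr.2]), max_eq_left hr.1]
      rw [e1, ← this]
      apply intervalIntegral.integral_congr
      intro r _
      simp only []
      congr 2
      ring_nf
    · have : Continuous (fun q => S0 (max (s - q) 0) (g q)) :=
        J0.comp (by fun_prop : Continuous fun q : ℝ => (s - q, g q))
      apply (this.intervalIntegrable 0 s).congr
      intro q hq
      rw [uIoc_of_le hs.1] at hq
      simp only []
      rw [max_eq_left (by linarith [hq.2])]
    · have hF : Continuous (uncurry fun (q r : ℝ) => S (max (s - r) 0) (V (S0 (max (r - q) 0) (g q)))) := by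
        have c1 : Continuous fun p : ℝ × ℝ => S0 (max (p.2 - p.1) 0) (g p.1) :=
          J0.comp (by fun_prop : Continuous fun p : ℝ × ℝ => (p.2 - p.1, g p.1))
        exact J1.comp ((by fun_prop : Continuous fun p : ℝ × ℝ => s - p.2).prodMk (V.continuous.comp c1))
      have hcont : Continuous fun q : ℝ => ∫ r in q..s, S (max (s - r) 0) (V (S0 (max (r - q) 0) (g q))) := by
        have := intervalIntegral.continuous_parametric_intervalIntegral_of_continuous (μ := volume)
          (a₀ := s) hF (s := fun q => q) continuous_id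
        have e : (fun q : ℝ => ∫ r in q..s, S (max (s - r) 0) (V (S0 (max (r - q) 0) (g q))))
          = fun q : ℝ => - ∫ r in s..q, S (max (s - r) 0) (V (S0 (max (r - q) 0) (g q))) := by
            ext q; exact intervalIntegral.integral_symm _ _
        rw [e]
        exact this.neg
      exact hcont.intervalIntegrable 0 s
  have hF : Continuous (uncurry fun (q r : ℝ) => S (max (s - r) 0) (V (S0 (max (r - q) 0) (g q)))) := by
    have c1 : Continuous fun p : ℝ × ℝ => S0 (max (p.2 - p.1) 0) (g p.1) :=
      J0.comp (by fun_prop : Continuous fun p : ℝ × ℝ => (p.2 - p.1, g p.1))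
    exact J1.comp ((by fun_prop : Continuous fun p : ℝ × ℝ => s - p.2).prodMk (V.continuous.comp c1))
  rw [← tri_swap hF hs.1] at key
  have inner : ∫ r in (0 : ℝ)..s, ∫ q in (0 : ℝ)..r, S (max (s - r) 0) (V (S0 (max (r - q) 0) (g q)))
      = ∫ r in (0 : ℝ)..s, S (s - r) (V (x r) - V (S0 r (x 0))) := by
    apply intervalIntegral.integral_congr
    intro r hr
    have hr' := sub hr
    rw [uIcc_of_le hs.1] at hr
    simp only []
    have c1 : Continuous fun q : ℝ => S0 (max (r - q) 0) (g q) :=
      J0.comp (by fun_prop : Continuous fun q : ℝ => (r - q, g q))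
    have := hm' r hr'
    have e2 : V (x r) - V (S0 r (x 0)) = ∫ q in (0 : ℝ)..r, V (S0 (max (r - q) 0) (g q)) := by
      rw [this, map_add, add_sub_cancel_left]
      exact (V.intervalIntegral_comp_comm (c1.intervalIntegrable 0 r)).symm
    rw [e2, max_eq_left (by linarith [hr.2])]
    exact (S (s - r)).intervalIntegral_comp_comm ((V.continuous.comp c1).intervalIntegrable 0 r)
  rw [inner] at key
  -- expand everything
  have i1 : IntervalIntegrable (fun r => S (s - r) (V (x r))) volume 0 s := by
    have : Continuous (fun q => S (max (s - q) 0) (V (xe q))) :=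
      J1.comp (by fun_prop : Continuous fun q : ℝ => (s - q, V (xe q)))
    apply (this.intervalIntegrable 0 s).congr
    intro q hq
    have hq' := sub (uIoc_subset_uIcc hq)
    rw [uIoc_of_le hs.1] at hq
    simp only []
    rw [max_eq_left (by linarith [hq.2]), exe q hq']
  have i2 : IntervalIntegrable (fun r => S (s - r) (V (S0 r (x 0)))) volume 0 s := by
    have c1 : Continuous fun q : ℝ => S0 (max q 0) (x 0) :=
      J0.comp (by fun_prop : Continuous fun q : ℝ => (q, x 0))
    have : Continuous (fun q => S (max (s - q) 0) (V (S0 (max q 0) (x 0)))) :=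
      J1.comp ((by fun_prop : Continuous fun q : ℝ => s - q).prodMk (V.continuous.comp c1))
    apply (this.intervalIntegrable 0 s).congr
    intro q hq
    rw [uIoc_of_le hs.1] at hq
    simp only []
    rw [max_eq_left (by linarith [hq.2]), max_eq_left (by linarith [hq.1])]
  have i3 : IntervalIntegrable (fun r => S (s - r) (h r)) volume 0 s := by
    have : Continuous (fun q => S (max (s - q) 0) (he q)) :=
      J1.comp (by fun_prop : Continuous fun q : ℝ => (s - q, he q))
    apply (this.intervalIntegrable 0 s).congr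
    intro q hq
    have hq' := sub (uIoc_subset_uIcc hq)
    rw [uIoc_of_le hs.1] at hq
    simp only []
    rw [max_eq_left (by linarith [hq.2]), ehe q hq']
  have k1 : ∫ q in (0 : ℝ)..s, S (s - q) (g q)
      = (∫ q in (0 : ℝ)..s, S (s - q) (V (x q))) + ∫ q in (0 : ℝ)..s, S (s - q) (h q) := by
    rw [← intervalIntegral.integral_add i1 i3]
    apply intervalIntegral.integral_congr
    intro q hq
    simp only [hg]
    rw [exe q (sub hq), ehe q (sub hq), map_add]
  have k2 : ∫ r in (0 : ℝ)..s, S (s - r) (V (x r) - V (S0 r (x 0)))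
      = (∫ q in (0 : ℝ)..s, S (s - q) (V (x q))) - ∫ q in (0 : ℝ)..s, S (s - q) (V (S0 q (x 0))) := by
    rw [← intervalIntegral.integral_sub i1 i2]
    apply intervalIntegral.integral_congr
    intro q _
    simp only [map_sub]
  have k3 : ∫ q in (0 : ℝ)..s, S0 (s - q) (g q) = x s - S0 s (x 0) := by
    have := hm' s hs
    have e : ∫ q in (0 : ℝ)..s, S0 (s - q) (g q) = ∫ r in (0 : ℝ)..s, S0 (max (s - r) 0) (g r) := by
      apply intervalIntegral.integral_congr
      intro q hq
      rw [uIcc_of_le hs.1] at hq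
      simp only []
      rw [max_eq_left (by linarith [hq.2])]
    rw [e, this, add_sub_cancel_left]
  have k4 := duh' s hs.1 (x 0)
  rw [k1, k2, k3] at key
  rw [k4]
  have : ∫ q in (0 : ℝ)..s, S (s - q) (h q) = x s - S0 s (x 0) - ∫ q in (0 : ℝ)..s, S (s - q) (V (S0 q (x 0))) := by
    have := key
    -- A + B = (x - S0) + (A - C)
    rw [← sub_eq_zero] at this ⊢
    rw [← this]
    abel
  rw [this]
  abel

end abs

theorem forced : ForcedStmt := by
  intro n P T N D a ha x h hx hh hm
  exact forced_abs D.S0_cont D.S_cont D.duh' hx hh hm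

end Crest.Agent.R086.DL
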