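import Crest.Agent.R086.DCtop
import Crest.Agent.R086.DCcv
import Crest.Agent.R086.DLForced

/-!
Row 86, helper758 (second of 501, NearStep near part): Bochner integrals in `XN N` have the
pointwise integral as density; continuity of curves of densities in `XN N`; transfer of the
pointwise mild equation to `XX N` (hypotheses of `ForcedStmt`).
-/

set_option autoImplicit false

open MeasureTheory Complex Set Filter Topology Function

namespace Crest.Agent.R086.BochX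

open Crest.Agent.R086.Wie (XG GInt wtV)
open Crest.Agent.R086.DC (YN ae_comp_smul)

/-- testing functional `a ↦ ∫ φ a` -/
noncomputable def testL (N : ℕ) (φ : R12 → ℂ) (hφ : Measurable φ) (h1 : ∀ x, ‖φ x‖ ≤ 1) :
    YN N →L[ℂ] ℂ :=
  LinearMap.mkContinuous
    { toFun := fun a => ∫ ξ : R12, φ ξ * XG.den a ξ
      map_add' := by
        intro a b
        have ha := (XG.integrable_den a).bdd_mul hφ.aestronglyMeasurable (Eventually.of_forall h1)
        have hb := (XG.integrable_den b).bdd_mul hφ.aestronglyMeasurable (Eventually.of_forall h1)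
        rw [← integral_add ha hb]
        refine integral_congr_ae ((XG.den_add a b).mono fun ξ h => ?_)
        simp only [h, mul_add]
      map_smul' := by
        intro c a
        rw [RingHom.id_apply, smul_eq_mul, ← integral_const_mul]
        refine integral_congr_ae ((XG.den_smul c a).mono fun ξ h => ?_)
        simp only [h]; ring } 1
    (by
      intro a
      rw [one_mul]
      show ‖∫ ξ : R12, φ ξ * XG.den a ξ‖ ≤ ‖a‖
      refine (norm_integral_le_integral_norm _).trans ((integral_mono ?_ (XG.integrable_den a).norm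
        fun ξ => ?_).trans (XG.integral_norm_le a))
      · exact ((XG.integrable_den a).bdd_mul hφ.aestronglyMeasurable (Eventually.of_forall h1)).norm
      · rw [norm_mul]
        calc ‖φ ξ‖ * ‖XG.den a ξ‖ ≤ 1 * ‖XG.den a ξ‖ :=
              mul_le_mul_of_nonneg_right (h1 ξ) (norm_nonneg _)
          _ = _ := one_mul _)

theorem testL_apply (N : ℕ) (φ : R12 → ℂ) (hφ : Measurable φ) (h1 : ∀ x, ‖φ x‖ ≤ 1) (a : YN N) :
    testL N φ hφ h1 a = ∫ ξ : R12, φ ξ * XG.den a ξ := rfl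

theorem bochner_den_Y {N : ℕ} (ν : Measure ℝ) [SFinite ν] (G : ℝ → YN N) (hG : Integrable G ν)
    (g : ℝ → R12 → ℂ) (hm : AEStronglyMeasurable (uncurry g) (ν.prod volume))
    (hg : ∀ᵐ r ∂ν, XG.den (G r) =ᵐ[volume] g r) :
    XG.den (∫ r, G r ∂ν) =ᵐ[volume] fun ξ => ∫ r, g r ξ ∂ν := by
  have hgi : ∀ᵐ r ∂ν, Integrable (g r) volume := by
    filter_upwards [hg] with r hr
    exact (XG.integrable_den (G r)).congr hr
  have hgn : Integrable (fun r => ∫ ξ, ‖uncurry g (r, ξ)‖) ν := by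
    refine hG.norm.mono' hm.norm.integral_prod_right' ?_
    filter_upwards [hg] with r hr
    rw [Real.norm_of_nonneg (integral_nonneg fun _ => norm_nonneg _)]
    refine le_trans (le_of_eq ?_) (XG.integral_norm_le (G r))
    refine integral_congr_ae (hr.mono fun ξ h => ?_)
    simp only [uncurry, h]
  have hprod : Integrable (uncurry g) (ν.prod volume) :=
    (integrable_prod_iff hm).2 ⟨hgi, hgn⟩
  refine Wie.ae_eq_of_test (XG.integrable_den _) hprod.integral_prod_right fun φ hφ h1 => ?_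
  have e1 : ∫ ξ : R12, φ ξ * XG.den (∫ r, G r ∂ν) ξ = ∫ r, ∫ ξ, φ ξ * g r ξ ∂volume ∂ν := by
    rw [← testL_apply N φ hφ h1, ← ContinuousLinearMap.integral_comp_comm _ hG]
    refine integral_congr_ae (hg.mono fun r hr => ?_)
    simp only [testL_apply]
    refine integral_congr_ae (hr.mono fun ξ h => ?_)
    simp only [h]
  rw [e1]
  have hφg : Integrable (fun p : ℝ × R12 => φ p.2 * g p.1 p.2) (ν.prod volume) :=
    hprod.bdd_mul (hφ.comp measurable_snd).aestronglyMeasurable (Eventually.of_forall fun p => h1 p.2)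
  rw [integral_integral_swap hφg]
  refine integral_congr_ae (Eventually.of_forall fun ξ => ?_)
  simp only
  rw [integral_const_mul]

/-- (B1) -/
theorem bochner_den {N : ℕ} {a b : ℝ} (hab : a ≤ b) (G : ℝ → XN N)
    (hG : IntervalIntegrable G volume a b) (g : ℝ → R12 → ℂ)
    (hm : AEStronglyMeasurable (uncurry g) ((volume.restrict (Ioc a b)).prod volume))
    (hg : ∀ r ∈ Ioc a b, (G r : R12 → ℂ) =ᵐ[volume] g r) :
    ((∫ r in a..b, G r : XN N) : R12 → ℂ) =ᵐ[volume] fun ξ => ∫ r in a..b, g r ξ := by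
  have h1 := bochner_den_Y (N := N) (volume.restrict (Ioc a b)) G hG.1 g hm
    ((ae_restrict_iff' measurableSet_Ioc).2 (Eventually.of_forall hg))
  simp only [intervalIntegral.integral_of_le hab]
  exact h1

/-! ### continuity of curves of densities -/

theorem contOn_curve_Y {N : ℕ} {K : Set ℝ} (G : ℝ → YN N) (g : ℝ → R12 → ℂ)
    (hG : ∀ s ∈ K, XG.den (G s) =ᵐ[volume] g s)
    (hc : ∀ᵐ ξ : R12, ContinuousOn (fun s => g s ξ) K) (β : R12 → ℝ)
    (hβ : Integrable (fun ξ : R12 => wtV R12 N ξ * β ξ))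
    (hb : ∀ s ∈ K, ∀ᵐ ξ : R12, ‖g s ξ‖ ≤ β ξ) : ContinuousOn G K := by
  intro s0 hs0
  rw [ContinuousWithinAt, tendsto_iff_norm_sub_tendsto_zero]
  have hform : ∀ s ∈ K, ‖G s - G s0‖ = ∫ ξ : R12, wtV R12 N ξ * ‖g s ξ - g s0 ξ‖ := by
    intro s hs
    rw [XG.norm_eq]
    refine integral_congr_ae ?_
    filter_upwards [XG.den_sub (G s) (G s0), hG s hs, hG s0 hs0] with ξ h1 h2 h3
    rw [h1, h2, h3]
  have hlim : Tendsto (fun s => ∫ ξ : R12, wtV R12 N ξ * ‖g s ξ - g s0 ξ‖) (𝓝[K] s0)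
      (𝓝 (∫ ξ : R12, (0:ℝ))) := by
    refine tendsto_integral_filter_of_dominated_convergence
      (fun ξ => 2 * (wtV R12 N ξ * β ξ)) ?_ ?_ (hβ.const_mul 2) ?_
    · filter_upwards [self_mem_nhdsWithin] with s hs
      have h1 : AEStronglyMeasurable (g s) volume :=
        ((XG.integrable_den (G s)).aestronglyMeasurable).congr (hG s hs)
      have h2 : AEStronglyMeasurable (g s0) volume :=
        ((XG.integrable_den (G s0)).aestronglyMeasurable).congr (hG s0 hs0)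
      exact (wtV R12 N).meas.aestronglyMeasurable.mul (h1.sub h2).norm
    · filter_upwards [self_mem_nhdsWithin] with s hs
      filter_upwards [hb s hs, hb s0 hs0] with ξ h1 h2
      rw [Real.norm_of_nonneg (mul_nonneg ((wtV R12 N).nonneg ξ) (norm_nonneg _))]
      calc wtV R12 N ξ * ‖g s ξ - g s0 ξ‖ ≤ wtV R12 N ξ * (β ξ + β ξ) :=
            mul_le_mul_of_nonneg_left ((norm_sub_le _ _).trans (add_le_add h1 h2))
              ((wtV R12 N).nonneg ξ)
        _ = _ := by ring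
    · filter_upwards [hc] with ξ hξ
      have h1 : Tendsto (fun s => g s ξ) (𝓝[K] s0) (𝓝 (g s0 ξ)) := hξ s0 hs0
      have h2 : Tendsto (fun s => wtV R12 N ξ * ‖g s ξ - g s0 ξ‖) (𝓝[K] s0)
          (𝓝 (wtV R12 N ξ * ‖g s0 ξ - g s0 ξ‖)) :=
        tendsto_const_nhds.mul (h1.sub tendsto_const_nhds).norm
      simpa using h2
  rw [integral_zero] at hlim
  refine hlim.congr' ?_
  filter_upwards [self_mem_nhdsWithin] with s hs
  exact (hform s hs).symm

/-- (B2) a dominated pointwise continuous family of densities is a continuous curve in `XN N`. -/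
theorem contOn_curve {N : ℕ} {K : Set ℝ} (G : ℝ → XN N) (g : ℝ → R12 → ℂ)
    (hG : ∀ s ∈ K, (G s : R12 → ℂ) =ᵐ[volume] g s)
    (hc : ∀ᵐ ξ : R12, ContinuousOn (fun s => g s ξ) K) (β : R12 → ℝ)
    (hβ : Integrable (fun ξ : R12 => (1 + ‖ξ‖) ^ N * β ξ))
    (hb : ∀ s ∈ K, ∀ᵐ ξ : R12, ‖g s ξ‖ ≤ β ξ) : ContinuousOn G K :=
  contOn_curve_Y (N := N) G g hG hc β hβ hb

open Classical in
/-- element with a given density (junk `0` if not integrable) -/
noncomputable def mkY (N : ℕ) (a : R12 → ℂ) : YN N :=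
  if h : GInt volume (wtV R12 N) a then XG.mk a h else 0

/-- element of `XN N` with a given density (junk `0` if not integrable) -/
noncomputable def mkX (N : ℕ) (a : R12 → ℂ) : XN N := mkY N a

theorem gint_of_int {N : ℕ} {a : R12 → ℂ} (ha : AEStronglyMeasurable a volume)
    (h : Integrable (fun ξ : R12 => (1 + ‖ξ‖) ^ N * ‖a ξ‖)) : GInt volume (wtV R12 N) a :=
  (Wie.gint_iff ha).2 h

theorem mkY_eq {N : ℕ} {a : R12 → ℂ} (h : GInt volume (wtV R12 N) a) : mkY N a = XG.mk a h := by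
  unfold mkY
  rw [dif_pos h]

theorem mkX_den {N : ℕ} {a : R12 → ℂ} (h : GInt volume (wtV R12 N) a) :
    ((mkX N a : XN N) : R12 → ℂ) =ᵐ[volume] a := by
  have h1 : XG.den (mkY N a) =ᵐ[volume] a := by
    rw [mkY_eq h]
    exact XG.den_mk h
  exact h1

theorem mkX_norm {N : ℕ} {a : R12 → ℂ} (h : GInt volume (wtV R12 N) a) :
    ‖mkX N a‖ = ∫ ξ : R12, (1 + ‖ξ‖) ^ N * ‖a ξ‖ := by
  have h1 : ‖mkY N a‖ = ∫ ξ : R12, (1 + ‖ξ‖) ^ N * ‖a ξ‖ := by
    rw [mkY_eq h]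
    exact XG.norm_mk h
  exact h1

theorem XN_norm {N : ℕ} (a : XN N) : ‖a‖ = ∫ ξ : R12, (1 + ‖ξ‖) ^ N * ‖(a : R12 → ℂ) ξ‖ :=
  XG.norm_eq (μ := volume) (W := wtV R12 N) a

theorem XN_ext {N : ℕ} {a b : XN N} (h : (a : R12 → ℂ) =ᵐ[volume] b) : a = b :=
  XG.ext (μ := volume) (W := wtV R12 N) h

theorem XN_add {N : ℕ} (a b : XN N) :
    ((a + b : XN N) : R12 → ℂ) =ᵐ[volume] fun ξ => (a : R12 → ℂ) ξ + (b : R12 → ℂ) ξ :=
  XG.den_add (μ := volume) (W := wtV R12 N) a b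

/-! ### transfer of the pointwise mild equation -/

/-- first component symbol of `S0` -/
noncomputable def sy1 (om : ℝ) (n : ℕ) (s : ℝ) (z : R12) : ℂ :=
  exp ((I * om - 1 / n) * s) * exp (6 * (s : ℂ)) *
      exp (-I * (((Real.exp s - 1) * ‖z‖ ^ 2 : ℝ) : ℂ))

/-- second component symbol of `S0` -/
noncomputable def sy2 (om : ℝ) (n : ℕ) (s : ℝ) (z : R12) : ℂ :=
  exp ((-I * om - 1 / n) * s) * exp (6 * (s : ℂ)) *
      exp (I * (((Real.exp s - 1) * ‖z‖ ^ 2 : ℝ) : ℂ))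

theorem cont_sy1 (om : ℝ) (n : ℕ) : Continuous (fun p : ℝ × R12 => sy1 om n p.1 p.2) := by
  unfold sy1; fun_prop

theorem cont_sy2 (om : ℝ) (n : ℕ) : Continuous (fun p : ℝ × R12 => sy2 om n p.1 p.2) := by
  unfold sy2; fun_prop

theorem conj_sy1 (om : ℝ) (n : ℕ) (s : ℝ) (z : R12) :
    (starRingEnd ℂ) (sy1 om n s z) = sy2 om n s z := by
  unfold sy1 sy2
  simp only [map_mul, ← Complex.exp_conj, map_sub, map_neg, map_div₀, map_one, map_natCast,
    Complex.conj_I, Complex.conj_ofReal]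
  have h6 : (starRingEnd ℂ) 6 = 6 := map_ofNat (starRingEnd ℂ) 6
  rw [h6]
  congr 2
  · congr 1
    ring

theorem aesm_aux {s a : ℝ} (hsa : s ≤ a) {g : ℝ → R12 → ℂ}
    (hg : ContinuousOn (uncurry g) (Icc 0 a ×ˢ univ)) {P : ℝ → R12 → ℂ}
    (hP : Continuous (fun p : ℝ × R12 => P p.1 p.2)) :
    AEStronglyMeasurable (uncurry fun r ξ => P (s - r) ξ * g r (Real.exp ((s - r) / 2) • ξ))
      ((volume.restrict (Ioc 0 s)).prod (volume : Measure R12)) := by
  have h1 : (volume.restrict (Ioc 0 s)).prod (volume : Measure R12) =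
      ((volume : Measure ℝ).prod (volume : Measure R12)).restrict (Ioc 0 s ×ˢ univ) := by
    rw [← Measure.prod_restrict, Measure.restrict_univ]
  rw [h1]
  refine ContinuousOn.aestronglyMeasurable ?_ (measurableSet_Ioc.prod MeasurableSet.univ)
  have h2 : ContinuousOn (fun p : ℝ × R12 => P (s - p.1) p.2) (Ioc 0 s ×ˢ univ) :=
    (hP.comp (by fun_prop : Continuous (fun p : ℝ × R12 => (s - p.1, p.2)))).continuousOn
  have h3 : ContinuousOn (fun p : ℝ × R12 => (uncurry g) (p.1, Real.exp ((s - p.1) / 2) • p.2))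
      (Ioc 0 s ×ˢ univ) := by
    refine hg.comp (Continuous.continuousOn (by fun_prop)) ?_
    rintro ⟨r, ξ⟩ hp
    exact ⟨⟨hp.1.1.le, hp.1.2.trans hsa⟩, mem_univ _⟩
  exact h2.mul h3

/-- (B3) pointwise mild equation with jointly continuous densities ⟹ mild equation in `XX N`. -/
theorem mild_transfer {n : ℕ} {P : Profile n} {T : Pot P} {N : ℕ} (D : LinData P T N) {a : ℝ}
    (x G : ℝ → XX N) (hG : ContinuousOn G (Icc 0 a))
    (u1 u2 g1 g2 : ℝ → R12 → ℂ)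
    (hu1 : ∀ s ∈ Icc 0 a, ((x s).1 : R12 → ℂ) =ᵐ[volume] u1 s)
    (hu2 : ∀ s ∈ Icc 0 a, ((x s).2 : R12 → ℂ) =ᵐ[volume] u2 s)
    (hg1 : ∀ s ∈ Icc 0 a, ((G s).1 : R12 → ℂ) =ᵐ[volume] g1 s)
    (hg2 : ∀ s ∈ Icc 0 a, ((G s).2 : R12 → ℂ) =ᵐ[volume] g2 s)
    (hc1 : ContinuousOn (uncurry g1) (Icc 0 a ×ˢ univ))
    (hc2 : ContinuousOn (uncurry g2) (Icc 0 a ×ˢ univ))
    (hm1 : ∀ s ∈ Icc 0 a, ∀ᵐ ξ : R12, u1 s ξ = sy1 P.om n s ξ * u1 0 (Real.exp (s / 2) • ξ) +
      ∫ r in (0:ℝ)..s, sy1 P.om n (s - r) ξ * g1 r (Real.exp ((s - r) / 2) • ξ))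
    (hm2 : ∀ s ∈ Icc 0 a, ∀ᵐ ξ : R12, u2 s ξ = sy2 P.om n s ξ * u2 0 (Real.exp (s / 2) • ξ) +
      ∫ r in (0:ℝ)..s, sy2 P.om n (s - r) ξ * g2 r (Real.exp ((s - r) / 2) • ξ)) :
    ∀ s ∈ Icc 0 a, x s = D.S0 s (x 0) + ∫ r in (0:ℝ)..s, D.S0 (s - r) (G r) := by
  intro s hs
  have ha0 : (0:ℝ) ∈ Icc 0 a := ⟨le_rfl, hs.1.trans hs.2⟩
  have hsub : ∀ r ∈ Icc 0 s, r ∈ Icc 0 a := fun r hr => ⟨hr.1, hr.2.trans hs.2⟩
  have hint : IntervalIntegrable (fun r => D.S0 (s - r) (G r)) volume 0 s := by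
    apply ContinuousOn.intervalIntegrable
    rw [uIcc_of_le hs.1]
    have h2 : ContinuousOn (fun r => ((s - r, G r) : ℝ × XX N)) (Icc 0 s) :=
      ContinuousOn.prodMk (by fun_prop) (hG.mono hsub)
    have h1 : ContinuousOn (fun r => D.S0 (max (s - r) 0) (G r)) (Icc 0 s) :=
      (DL.joint_cont D.S0_cont).comp_continuousOn h2
    refine h1.congr fun r hr => ?_
    simp only
    rw [max_eq_left (by linarith [hr.2])]
  set Iv := ∫ r in (0:ℝ)..s, D.S0 (s - r) (G r) with hIv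
  have hI1 : Iv.1 = ∫ r in (0:ℝ)..s, (D.S0 (s - r) (G r)).1 :=
    ((ContinuousLinearMap.fst ℂ (XN N) (XN N)).intervalIntegral_comp_comm hint).symm
  have hI2 : Iv.2 = ∫ r in (0:ℝ)..s, (D.S0 (s - r) (G r)).2 :=
    ((ContinuousLinearMap.snd ℂ (XN N) (XN N)).intervalIntegral_comp_comm hint).symm
  have hd1 : (Iv.1 : R12 → ℂ) =ᵐ[volume] fun ξ =>
      ∫ r in (0:ℝ)..s, sy1 P.om n (s - r) ξ * g1 r (Real.exp ((s - r) / 2) • ξ) := by
    rw [hI1]
    refine bochner_den hs.1 _ ?_ _ (aesm_aux hs.2 hc1 (cont_sy1 P.om n)) ?_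
    · exact ⟨(ContinuousLinearMap.fst ℂ (XN N) (XN N)).integrable_comp hint.1,
        (ContinuousLinearMap.fst ℂ (XN N) (XN N)).integrable_comp hint.2⟩
    · intro r hr
      have hr' : r ∈ Icc 0 a := hsub r ⟨hr.1.le, hr.2⟩
      filter_upwards [D.S0_fst (s - r) (by linarith [hr.2]) (G r),
        ae_comp_smul (Real.exp_pos ((s - r) / 2)).ne' (hg1 r hr')] with ξ h1 h2
      rw [h1, h2]
      simp only [sy1]
  have hd2 : (Iv.2 : R12 → ℂ) =ᵐ[volume] fun ξ =>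
      ∫ r in (0:ℝ)..s, sy2 P.om n (s - r) ξ * g2 r (Real.exp ((s - r) / 2) • ξ) := by
    rw [hI2]
    refine bochner_den hs.1 _ ?_ _ (aesm_aux hs.2 hc2 (cont_sy2 P.om n)) ?_
    · exact ⟨(ContinuousLinearMap.snd ℂ (XN N) (XN N)).integrable_comp hint.1,
        (ContinuousLinearMap.snd ℂ (XN N) (XN N)).integrable_comp hint.2⟩
    · intro r hr
      have hr' : r ∈ Icc 0 a := hsub r ⟨hr.1.le, hr.2⟩
      filter_upwards [D.S0_snd (s - r) (by linarith [hr.2]) (G r),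
        ae_comp_smul (Real.exp_pos ((s - r) / 2)).ne' (hg2 r hr')] with ξ h1 h2
      rw [h1, h2]
      simp only [sy2]
  refine Prod.ext ?_ ?_
  · refine XN_ext ?_
    have h0 : (D.S0 s (x 0) + Iv).1 = (D.S0 s (x 0)).1 + Iv.1 := rfl
    rw [h0]
    filter_upwards [hu1 s hs, hm1 s hs, XN_add (D.S0 s (x 0)).1 Iv.1, D.S0_fst s hs.1 (x 0), hd1,
      ae_comp_smul (Real.exp_pos (s / 2)).ne' (hu1 0 ha0)] with ξ h1 h2 h3 h4 h5 h6
    rw [h1, h2, h3, h4, h5, h6]
    simp only [sy1]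
  · refine XN_ext ?_
    have h0 : (D.S0 s (x 0) + Iv).2 = (D.S0 s (x 0)).2 + Iv.2 := rfl
    rw [h0]
    filter_upwards [hu2 s hs, hm2 s hs, XN_add (D.S0 s (x 0)).2 Iv.2, D.S0_snd s hs.1 (x 0), hd2,
      ae_comp_smul (Real.exp_pos (s / 2)).ne' (hu2 0 ha0)] with ξ h1 h2 h3 h4 h5 h6
    rw [h1, h2, h3, h4, h5, h6]
    simp only [sy2]

/-! ### real pairs -/

/-- `(a, conj a(-·))` as an element of `XX N` -/
noncomputable def prX (N : ℕ) (a : R12 → ℂ) : XX N :=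
  (mkX N a, mkX N (fun ξ => (starRingEnd ℂ) (a (-ξ))))

theorem prX_fst {N : ℕ} {a : R12 → ℂ} (h : GInt volume (wtV R12 N) a) :
    ((prX N a).1 : R12 → ℂ) =ᵐ[volume] a := mkX_den h

theorem gint_cj {N : ℕ} {a : R12 → ℂ} (h : GInt volume (wtV R12 N) a) :
    GInt volume (wtV R12 N) (fun ξ => (starRingEnd ℂ) (a (-ξ))) := h.star

theorem prX_snd {N : ℕ} {a : R12 → ℂ} (h : GInt volume (wtV R12 N) a) :
    ((prX N a).2 : R12 → ℂ) =ᵐ[volume] fun ξ => (starRingEnd ℂ) (a (-ξ)) := mkX_den (gint_cj h)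

theorem prX_norm {N : ℕ} {a : R12 → ℂ} (h : GInt volume (wtV R12 N) a) :
    ‖prX N a‖ = ∫ ξ : R12, (1 + ‖ξ‖) ^ N * ‖a ξ‖ := by
  have h1 : ‖mkX N a‖ = ∫ ξ : R12, (1 + ‖ξ‖) ^ N * ‖a ξ‖ := mkX_norm h
  have h2 : ‖mkX N (fun ξ => (starRingEnd ℂ) (a (-ξ)))‖ = ∫ ξ : R12, (1 + ‖ξ‖) ^ N * ‖a ξ‖ := by
    rw [mkX_norm (gint_cj h), ← integral_neg_eq_self (fun ξ : R12 => (1 + ‖ξ‖) ^ N * ‖a ξ‖) volume]
    refine integral_congr_ae (Eventually.of_forall fun ξ => ?_)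
    simp only [norm_neg, RCLike.norm_conj]
  rw [prX, Prod.norm_def, h1, h2, max_self]

theorem ae_neg' {p : R12 → Prop} (h : ∀ᵐ z : R12, p z) : ∀ᵐ z : R12, p (-z) :=
  (Measure.measurePreserving_neg (volume : Measure R12)).quasiMeasurePreserving.ae h

theorem isReal_prX {N : ℕ} {a : R12 → ℂ} (h : GInt volume (wtV R12 N) a) : IsReal (prX N a) := by
  filter_upwards [prX_snd h, ae_neg' (prX_fst h)] with z h1 h2
  rw [h1, h2]

theorem contOn_prX {N : ℕ} {K : Set ℝ} (u : ℝ → R12 → ℂ)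
    (hu : ∀ s ∈ K, GInt volume (wtV R12 N) (u s))
    (hc : ∀ ξ : R12, ContinuousOn (fun s => u s ξ) K) (β : R12 → ℝ)
    (hβ : Integrable (fun ξ : R12 => (1 + ‖ξ‖) ^ N * β ξ))
    (hb : ∀ s ∈ K, ∀ ξ : R12, ‖u s ξ‖ ≤ β ξ) : ContinuousOn (fun s => prX N (u s)) K := by
  refine ContinuousOn.prodMk ?_ ?_
  · exact contOn_curve _ u (fun s hs => mkX_den (hu s hs)) (Eventually.of_forall hc) β hβ
      (fun s hs => Eventually.of_forall (hb s hs))
  · refine contOn_curve _ (fun s ξ => (starRingEnd ℂ) (u s (-ξ)))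
      (fun s hs => mkX_den (gint_cj (hu s hs)))
      (Eventually.of_forall fun ξ => Complex.continuous_conj.comp_continuousOn (hc (-ξ)))
      (fun ξ => β (-ξ)) ?_ (fun s hs => Eventually.of_forall fun ξ => ?_)
    · have h1 := hβ.comp_neg
      simpa only [norm_neg] using h1
    · rw [RCLike.norm_conj]
      exact hb s hs (-ξ)

/-- (B3', the form for 501) scalar pointwise mild equation ⟹ mild equation for the real pair. -/
theorem mild_real {n : ℕ} {P : Profile n} {T : Pot P} {N : ℕ} (D : LinData P T N) {a : ℝ}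
    (u g : ℝ → R12 → ℂ)
    (hu : ∀ s ∈ Icc 0 a, GInt volume (wtV R12 N) (u s))
    (hg : ∀ s ∈ Icc 0 a, GInt volume (wtV R12 N) (g s))
    (hcg : ContinuousOn (uncurry g) (Icc 0 a ×ˢ univ)) (βg : R12 → ℝ)
    (hβg : Integrable (fun ξ : R12 => (1 + ‖ξ‖) ^ N * βg ξ))
    (hbg : ∀ s ∈ Icc 0 a, ∀ ξ : R12, ‖g s ξ‖ ≤ βg ξ)
    (hm : ∀ s ∈ Icc 0 a, ∀ ξ : R12, u s ξ = sy1 P.om n s ξ * u 0 (Real.exp (s / 2) • ξ) +
      ∫ r in (0:ℝ)..s, sy1 P.om n (s - r) ξ * g r (Real.exp ((s - r) / 2) • ξ)) :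
    ∀ s ∈ Icc 0 a, prX N (u s) = D.S0 s (prX N (u 0)) +
      ∫ r in (0:ℝ)..s, D.S0 (s - r) (prX N (g r)) := by
  have hneg : ∀ (s : ℝ) (z : R12), sy1 P.om n s (-z) = sy1 P.om n s z := by
    intro s z
    simp only [sy1, norm_neg]
  refine mild_transfer D (fun s => prX N (u s)) (fun s => prX N (g s))
    (contOn_prX g hg (fun ξ => ?_) βg hβg hbg) u (fun s ξ => (starRingEnd ℂ) (u s (-ξ))) g
    (fun s ξ => (starRingEnd ℂ) (g s (-ξ))) (fun s hs => prX_fst (hu s hs))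
    (fun s hs => prX_snd (hu s hs)) (fun s hs => prX_fst (hg s hs))
    (fun s hs => prX_snd (hg s hs)) hcg ?_ (fun s hs => Eventually.of_forall (hm s hs)) ?_
  · exact hcg.comp (f := fun s : ℝ => (s, ξ)) (by fun_prop) (fun s hs => ⟨hs, mem_univ _⟩)
  · have h1 : ContinuousOn (fun p : ℝ × R12 => (uncurry g) (p.1, -p.2)) (Icc 0 a ×ˢ univ) :=
      hcg.comp (f := fun p : ℝ × R12 => (p.1, -p.2)) (Continuous.continuousOn (by fun_prop))
        (fun p hp => ⟨hp.1, mem_univ _⟩)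
    exact Complex.continuous_conj.comp_continuousOn h1
  · intro s hs
    refine Eventually.of_forall fun ξ => ?_
    have h1 := congrArg (starRingEnd ℂ) (hm s hs (-ξ))
    rw [map_add, map_mul, hneg, conj_sy1, smul_neg] at h1
    rw [h1]
    congr 1
    rw [intervalIntegral.integral_of_le hs.1, intervalIntegral.integral_of_le hs.1, ← integral_conj]
    refine integral_congr_ae (Eventually.of_forall fun r => ?_)
    simp only [map_mul, hneg, conj_sy1, smul_neg]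

end Crest.Agent.R086.BochX
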