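import Crest.Agent.R086.TKDefs

/-!
Row 86, NearLin: shared definitions and frozen statements of the pieces (helper501).
-/

set_option autoImplicit false

open MeasureTheory Complex Set
open scoped ContDiff Topology
open Crest.AnalysisR.PDE.NLS (IsSmoothPeriodic periodCell)

namespace Crest.Agent.R086

open Profile

namespace TK

noncomputable section

/-- jointly continuous, uniformly rapidly decaying families of densities -/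
structure Fam (S : ℝ) (F : ℝ → R12 → ℂ) : Prop where
  cont : ContinuousOn (Function.uncurry F) (Icc 0 S ×ˢ univ)
  dec : ∀ m : ℕ, ∃ C : ℝ, 0 ≤ C ∧ ∀ r ∈ Icc 0 S, ∀ ξ, (1 + ‖ξ‖) ^ m * ‖F r ξ‖ ≤ C

/-- continuous, uniformly rapidly decaying coefficient families -/
structure RD (S : ℝ) (c : ℝ → Z12 → ℂ) : Prop where
  cont : ∀ k, ContinuousOn (fun s => c s k) (Icc 0 S)
  dec : ∀ M : ℕ, ∃ C : ℝ, 0 ≤ C ∧ ∀ s ∈ Icc 0 S, ∀ k, (1 + nk k) ^ M * ‖c s k‖ ≤ C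

/-- density as an element of `X_N` -/
def mkX (N : ℕ) (f : R12 → ℂ) : XN N :=
  open Classical in if h : MemLp f 1 (muN N) then h.toLp f else 0

/-- conjugate reflection -/
def cr (f : R12 → ℂ) (ξ : R12) : ℂ := (starRingEnd ℂ) (f (-ξ))

/-- real pair with first density `f` -/
def X2 (N : ℕ) (f : R12 → ℂ) : XX N := (mkX N f, mkX N (cr f))

/-- free flow on densities (literally the formula of `LinData.S0_fst`) -/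
def fr {n : ℕ} (P : Profile n) (s : ℝ) (f : R12 → ℂ) (z : R12) : ℂ :=
  exp ((I * P.om - 1 / n) * s) * exp (6 * (s : ℂ)) *
      exp (-I * (((Real.exp s - 1) * ‖z‖ ^ 2 : ℝ) : ℂ)) * f (Real.exp (s / 2) • z)

/-- lattice density -/
def Jd (φ : R12 → ℂ) (h : ℝ) (c : Z12 → ℂ) (ξ : R12) : ℂ :=
  (((h ^ 12)⁻¹ : ℝ) : ℂ) * ∑' k, c k * φ (h⁻¹ • ξ - zv k)

/-- commutator density -/
def Kd (φ : R12 → ℂ) (h : ℝ) (c : Z12 → ℂ) (ξ : R12) : ℂ :=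
  (((h ^ 12)⁻¹ : ℝ) : ℂ) *
    ∑' k, c k * (I * ((h ^ 2 * (‖h⁻¹ • ξ‖ ^ 2 - nk k ^ 2) : ℝ) : ℂ)) * φ (h⁻¹ • ξ - zv k)

/-- hypotheses on the window (satisfied by `cw chi2`) -/
structure Win (φ : R12 → ℂ) : Prop where
  cont : Continuous φ
  dec : ∀ m : ℕ, ∃ C : ℝ, 0 ≤ C ∧ ∀ ξ, (1 + ‖ξ‖) ^ m * ‖φ ξ‖ ≤ C

/-! ### (B) Bochner part (helper758), file BochX.lean -/

/-- (B-a) -/
def BContStmt : Prop := ∀ (N : ℕ) (S : ℝ) (F : ℝ → R12 → ℂ), Fam S F →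
  ContinuousOn (fun r => X2 N (F r)) (Icc 0 S)

/-- (B-b) pointwise mild equation ⇒ mild equation in `XX N` -/
def BMildStmt : Prop := ∀ (n : ℕ) (P : Profile n) (T : Pot P) (N : ℕ) (D : LinData P T N) (S : ℝ)
  (a g : ℝ → R12 → ℂ), Fam S a → Fam S g →
  (∀ s ∈ Icc 0 S, ∀ ξ, a s ξ = fr P s (a 0) ξ + ∫ r in (0 : ℝ)..s, fr P (s - r) (g r) ξ) →
  ∀ s ∈ Icc 0 S, X2 N (a s) = D.S0 s (X2 N (a 0)) + ∫ r in (0 : ℝ)..s, D.S0 (s - r) (X2 N (g r))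

/-- (B-c,d,e) norm, potential operator, reality, for one nice density -/
def BOneStmt : Prop := ∀ (n : ℕ) (P : Profile n) (T : Pot P) (N : ℕ) (D : LinData P T N)
  (f : R12 → ℂ), Win f →
  ‖X2 N f‖ = ∫ ξ : R12, (1 + ‖ξ‖) ^ N * ‖f ξ‖ ∧
  IsReal (X2 N f) ∧
  ((X2 N f).1 : R12 → ℂ) =ᵐ[volume] f ∧
  ((X2 N f).2 : R12 → ℂ) =ᵐ[volume] cr f ∧
  ((D.VV (X2 N f)).1 : R12 → ℂ) =ᵐ[volume] (fun z => -I * (cv T.v1 f z + cv T.v2 (cr f) z)) ∧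
  ((D.VV (X2 N f)).2 : R12 → ℂ) =ᵐ[volume] (fun z => I * (cv T.v1 (cr f) z + cv T.v2c f z))

/-! ### (C) lattice densities -/

/-- (C1) regularity of the lattice densities (helper893) -/
def CFamStmt : Prop := ∀ (φ : R12 → ℂ), Win φ → ∀ (S : ℝ) (h : ℝ → ℝ) (c : ℝ → Z12 → ℂ),
  ContinuousOn h (Icc 0 S) → (∀ r ∈ Icc 0 S, 0 < h r ∧ h r ≤ 1) → RD S c →
    Fam S (fun r => Jd φ (h r) (c r)) ∧ Fam S (fun r => Kd φ (h r) (c r))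

/-- (C2) bounds (helper732) -/
def CBdStmt : Prop := ∀ (φ : R12 → ℂ), Win φ → ∀ N : ℕ, ∃ A : ℝ, 0 ≤ A ∧ ∀ (h : ℝ), 0 < h → h ≤ 1 →
  ∀ c : Z12 → ℂ, (∀ M : ℕ, Summable fun k => (1 + nk k) ^ M * ‖c k‖) →
    ∫ ξ : R12, (1 + ‖ξ‖) ^ N * ‖Jd φ h c ξ‖ ≤ A * ∑' k, (1 + h * nk k) ^ N * ‖c k‖ ∧
    ∫ ξ : R12, (1 + ‖ξ‖) ^ N * ‖Kd φ h c ξ‖ ≤ A * h * ∑' k, (1 + h * nk k) ^ (N + 1) * ‖c k‖

/-! ### (D) coefficients of the perturbation (helper264) -/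

/-- forcing coefficients of the perturbation `W = U - qt` -/
def Gf {n : ℕ} (P : Profile n) (gt : ℝ → R12 → ℂ) (τ₀ : ℝ) (U : ℝ → R12 → ℂ) (s : ℝ) (k : Z12) : ℂ :=
  -I * (cf (fun x => nl n (U s x)) k - cf (fun x => nl n (P.qt (τ₀ * Real.exp (-s)) x)) k)
    + cf (gt (τ₀ * Real.exp (-s))) k

/-- the three properties of the error `gt` in `TP2c` -/
structure GT {n : ℕ} (P : Profile n) (gt : ℝ → R12 → ℂ) : Prop where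
  smooth : ∀ τ : ℝ, 0 < τ → IsSmoothPeriodic (gt τ)
  bdd : ∀ N : ℕ, ∃ C : ℝ, 0 ≤ C ∧ ∀ τ : ℝ, 0 < τ → τ ≤ 1 → wn N 1 (gt τ) ≤ C * τ
  cont : ∀ k : Z12, ContinuousOn (fun τ => cf (gt τ) k) (Set.Ioi 0)
  eqn : ∀ (τ₀ : ℝ), 0 < τ₀ → ∀ (s : ℝ) (k : Z12), HasDerivAt (fun s => cf (P.qt (τ₀ * Real.exp (-s))) k)
    ((-(I * ((τ₀ * Real.exp (-s) * nk k ^ 2 : ℝ) : ℂ)) + (I * (P.om : ℂ) - 1 / (n : ℂ)))
        * cf (P.qt (τ₀ * Real.exp (-s))) k - I * cf (fun x => nl n (P.qt (τ₀ * Real.exp (-s)) x)) k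
      - cf (gt (τ₀ * Real.exp (-s))) k) s

/-- (D2) -/
def DCoefStmt : Prop := ∀ (n : ℕ) (P : Profile n), TP1 P → ∀ gt : ℝ → R12 → ℂ, GT P gt →
  ∀ (τ₀ S : ℝ), 0 < τ₀ → τ₀ ≤ 1 → 0 ≤ S → ∀ U, P.ResSol τ₀ S U →
    RD S (fun s k => cf (P.pert τ₀ U s) k) ∧ RD S (fun s k => Gf P gt τ₀ U s k) ∧
    ∀ s ∈ Icc 0 S, ∀ k, HasDerivWithinAt (fun s => cf (P.pert τ₀ U s) k)
      ((-(I * ((τ₀ * Real.exp (-s) * nk k ^ 2 : ℝ) : ℂ)) + (I * (P.om : ℂ) - 1 / (n : ℂ)))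
        * cf (P.pert τ₀ U s) k + Gf P gt τ₀ U s k) (Icc 0 S) s

end

end TK

end Crest.Agent.R086
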