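import Crest.Agent.R086.BochX
import Crest.Agent.R086.TKDefs2

/-!
Row 86, helper758: `BContStmt`, `BMildStmt`, `BOneStmt` of `TKDefs2` (helper501).
-/

set_option autoImplicit false

open MeasureTheory Complex Set Filter Topology Function

namespace Crest.Agent.R086.BochX

open Crest.Agent.R086.Wie (XG GInt wtV)
open Crest.Agent.R086.DC (YN ae_comp_smul)

theorem memLp_of_gint {N : ℕ} {f : R12 → ℂ} (h : GInt volume (wtV R12 N) f) : MemLp f 1 (muN N) := by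
  have h1 : Integrable f (Wie.mW (volume : Measure R12) (wtV R12 N)) := Wie.integrable_mW_iff.2 h
  exact memLp_one_iff_integrable.2 h1

theorem tk_mkX {N : ℕ} {f : R12 → ℂ} (h : GInt volume (wtV R12 N) f) : TK.mkX N f = mkX N f := by
  refine XN_ext ?_
  have h1 : ((TK.mkX N f : XN N) : R12 → ℂ) =ᵐ[volume] f := by
    unfold TK.mkX
    rw [dif_pos (memLp_of_gint h)]
    exact (DC.ac_muN N).ae_le (memLp_of_gint h).coeFn_toLp
  exact h1.trans (mkX_den h).symm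

theorem tk_X2 {N : ℕ} {f : R12 → ℂ} (h : GInt volume (wtV R12 N) f) : TK.X2 N f = prX N f := by
  unfold TK.X2 prX
  rw [tk_mkX h]
  have h2 : TK.mkX N (TK.cr f) = mkX N (fun ξ => (starRingEnd ℂ) (f (-ξ))) := tk_mkX (gint_cj h)
  rw [h2]

/-- the dominating function -/
noncomputable def bet (N : ℕ) (C : ℝ) (ξ : R12) : ℝ := C * ((1 + ‖ξ‖) ^ (N + 13))⁻¹

theorem bet_integrable (N : ℕ) (C : ℝ) :
    Integrable (fun ξ : R12 => (1 + ‖ξ‖) ^ N * bet N C ξ) := by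
  have h1 : Integrable (fun ξ : R12 => (1 + ‖ξ‖) ^ (-(13:ℝ))) :=
    integrable_one_add_norm (by rw [DC.finrank_R12]; norm_num)
  refine (h1.const_mul C).congr (Eventually.of_forall fun ξ => ?_)
  have hp : (0:ℝ) < 1 + ‖ξ‖ := by positivity
  simp only [bet]
  rw [Real.rpow_neg hp.le, pow_add, mul_inv]
  have h13 : (1 + ‖ξ‖) ^ (13:ℝ) = (1 + ‖ξ‖) ^ 13 := by
    rw [← Real.rpow_natCast]; norm_num
  rw [h13]
  field_simp

theorem le_bet {N : ℕ} {C : ℝ} {a : ℂ} {ξ : R12} (h : (1 + ‖ξ‖) ^ (N + 13) * ‖a‖ ≤ C) :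
    ‖a‖ ≤ bet N C ξ := by
  have hp : (0:ℝ) < (1 + ‖ξ‖) ^ (N + 13) := by positivity
  unfold bet
  rw [← div_eq_mul_inv, le_div_iff₀ hp, mul_comm]
  exact h

theorem gint_of_dec {N : ℕ} {f : R12 → ℂ} (hf : AEStronglyMeasurable f volume) {C : ℝ}
    (h : ∀ ξ, (1 + ‖ξ‖) ^ (N + 13) * ‖f ξ‖ ≤ C) : GInt volume (wtV R12 N) f := by
  refine gint_of_int hf ?_
  refine (bet_integrable N C).mono
    (((wtV R12 N).meas.aestronglyMeasurable).mul hf.norm) (Eventually.of_forall fun ξ => ?_)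
  have h0 : (0:ℝ) ≤ (1 + ‖ξ‖) ^ N := by positivity
  rw [Real.norm_of_nonneg (mul_nonneg h0 (norm_nonneg _)), Real.norm_of_nonneg
    (mul_nonneg h0 ((norm_nonneg _).trans (le_bet (h ξ))))]
  exact mul_le_mul_of_nonneg_left (le_bet (h ξ)) h0

theorem fam_cont {S : ℝ} {F : ℝ → R12 → ℂ} (hF : TK.Fam S F) {s : ℝ} (hs : s ∈ Icc 0 S) :
    Continuous (F s) := by
  have h1 : ContinuousOn (fun ξ : R12 => (uncurry F) (s, ξ)) univ :=
    hF.cont.comp (by fun_prop) (fun ξ _ => ⟨hs, mem_univ _⟩)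
  exact continuousOn_univ.1 h1

theorem fam_gint {S : ℝ} {F : ℝ → R12 → ℂ} (hF : TK.Fam S F) (N : ℕ) {s : ℝ} (hs : s ∈ Icc 0 S) :
    GInt volume (wtV R12 N) (F s) := by
  obtain ⟨C, _, hC⟩ := hF.dec (N + 13)
  exact gint_of_dec (fam_cont hF hs).aestronglyMeasurable (hC s hs)

theorem fam_time {S : ℝ} {F : ℝ → R12 → ℂ} (hF : TK.Fam S F) (ξ : R12) :
    ContinuousOn (fun s => F s ξ) (Icc 0 S) :=
  hF.cont.comp (f := fun s : ℝ => (s, ξ)) (by fun_prop) (fun s hs => ⟨hs, mem_univ _⟩)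

theorem bCont : TK.BContStmt := by
  intro N S F hF
  obtain ⟨C, _, hC⟩ := hF.dec (N + 13)
  have h1 := contOn_prX (N := N) (K := Icc 0 S) F (fun s hs => fam_gint hF N hs) (fam_time hF)
    (bet N C) (bet_integrable N C) (fun s hs ξ => le_bet (hC s hs ξ))
  exact h1.congr fun s hs => tk_X2 (fam_gint hF N hs)

theorem bMild : TK.BMildStmt := by
  intro n P T N D S a g ha hg hm s hs
  have h0 : (0:ℝ) ∈ Icc 0 S := ⟨le_rfl, hs.1.trans hs.2⟩
  obtain ⟨C, _, hC⟩ := hg.dec (N + 13)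
  have key := mild_real D a g (fun s hs => fam_gint ha N hs) (fun s hs => fam_gint hg N hs)
    hg.cont (bet N C) (bet_integrable N C) (fun s hs ξ => le_bet (hC s hs ξ)) (fun s hs ξ => hm s hs ξ)
    s hs
  rw [tk_X2 (fam_gint ha N hs), tk_X2 (fam_gint ha N h0), key]
  congr 1
  apply intervalIntegral.integral_congr
  intro r hr
  rw [uIcc_of_le hs.1] at hr
  simp only
  rw [tk_X2 (fam_gint hg N ⟨hr.1, hr.2.trans hs.2⟩)]

theorem bOne : TK.BOneStmt := by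
  intro n P T N D f hf
  obtain ⟨C, _, hC⟩ := hf.dec (N + 13)
  have hg : GInt volume (wtV R12 N) f := gint_of_dec hf.cont.aestronglyMeasurable hC
  rw [tk_X2 hg]
  have h1 := prX_fst hg
  have h2 : ((prX N f).2 : R12 → ℂ) =ᵐ[volume] TK.cr f := prX_snd hg
  have hcv : ∀ (v a b : R12 → ℂ), a =ᵐ[volume] b → cv v a = cv v b := by
    intro v a b hab
    funext η
    unfold cv
    refine integral_congr_ae (hab.mono fun ξ h => ?_)
    simp only [h]
  refine ⟨prX_norm hg, isReal_prX hg, h1, h2, ?_, ?_⟩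
  · refine (D.VV_fst (prX N f)).trans (Eventually.of_forall fun z => ?_)
    simp only
    rw [hcv T.v1 _ _ h1, hcv T.v2 _ _ h2]
  · refine (D.VV_snd (prX N f)).trans (Eventually.of_forall fun z => ?_)
    simp only
    rw [hcv T.v1 _ _ h2, hcv T.v2c _ _ h1]

end Crest.Agent.R086.BochX
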