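import Mathlib

/-!
Row 86 (S0114), Part C, node C2/R3: boundary algebra (owner helper153).

`u = S + D`, `v = S - D`, `u1 = H u + e` with `H = h - a0 - I b/2`.
-/

set_option autoImplicit false

open Complex ComplexConjugate

namespace Crest.Agent.R086.C2

theorem nsq (z : ℂ) : ‖z‖ ^ 2 = z.re ^ 2 + z.im ^ 2 := by
  rw [← Complex.normSq_eq_norm_sq, Complex.normSq_apply]
  ring

/-- `|h - a0 - I b/2|² = |h|² - 2 a0 Re h - b Im h + a0² + b²/4` -/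
theorem H_sq (h : ℂ) (a0 b : ℝ) :
    ‖h - a0 - I * (b / 2 : ℝ)‖ ^ 2
      = ‖h‖ ^ 2 - 2 * a0 * h.re - b * h.im + a0 ^ 2 + b ^ 2 / 4 := by
  rw [nsq, nsq]
  simp
  ring

theorem H_norm_le (h : ℂ) (a0 b : ℝ) :
    ‖h - a0 - I * (b / 2 : ℝ)‖ ≤ ‖h‖ + |a0| + |b| := by
  have h1 : ‖h - a0 - I * (b / 2 : ℝ)‖ ≤ ‖h‖ + ‖(a0 : ℂ)‖ + ‖I * ((b / 2 : ℝ) : ℂ)‖ :=
    (norm_sub_le _ _).trans (add_le_add (norm_sub_le _ _) le_rfl)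
  have h2 : ‖(a0 : ℂ)‖ = |a0| := by rw [Complex.norm_real, Real.norm_eq_abs]
  have h3 : ‖I * ((b / 2 : ℝ) : ℂ)‖ = |b| / 2 := by
    rw [norm_mul, Complex.norm_I, one_mul, Complex.norm_real, Real.norm_eq_abs, abs_div,
      abs_of_pos (by norm_num : (0 : ℝ) < 2)]
  rw [h2, h3] at h1
  have := abs_nonneg b
  linarith

/-- one channel of the virial boundary term -/
theorem chan_le {u u1 e h : ℂ} {a0 b m Lr : ℝ} (hm : 0 ≤ m)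
    (hu : u1 = (h - a0 - I * (b / 2 : ℝ)) * u + e) :
    3 * (conj u * u1).re + m / 4 * ‖u1‖ ^ 2 - m / 4 * Lr * ‖u‖ ^ 2
      ≤ ((3 - m * a0 / 2) * h.re + m / 4 * (‖h‖ ^ 2 - Lr) - m * b / 4 * h.im
          + (m / 4 * (a0 ^ 2 + b ^ 2 / 4) - 3 * a0)) * ‖u‖ ^ 2
        + (3 + m / 2 * ‖h - a0 - I * (b / 2 : ℝ)‖) * (‖u‖ * ‖e‖) + m / 4 * ‖e‖ ^ 2 := by
  set H := h - a0 - I * (b / 2 : ℝ) with hH
  have e1 : (conj u * u1).re = (h.re - a0) * ‖u‖ ^ 2 + (conj u * e).re := by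
    rw [hu, nsq]
    simp [hH]
    ring
  have e2 : ‖u1‖ ^ 2 ≤ ‖H‖ ^ 2 * ‖u‖ ^ 2 + 2 * ‖H‖ * (‖u‖ * ‖e‖) + ‖e‖ ^ 2 := by
    rw [hu]
    have h1 : ‖H * u + e‖ ≤ ‖H‖ * ‖u‖ + ‖e‖ := (norm_add_le _ _).trans_eq (by rw [norm_mul])
    have h2 : ‖H * u + e‖ ^ 2 ≤ (‖H‖ * ‖u‖ + ‖e‖) ^ 2 := pow_le_pow_left₀ (norm_nonneg _) h1 2
    refine h2.trans (le_of_eq ?_)
    ring
  have e3 : (conj u * e).re ≤ ‖u‖ * ‖e‖ := by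
    refine (Complex.re_le_norm _).trans (le_of_eq ?_)
    rw [norm_mul, RCLike.norm_conj]
  have e4 : ‖H‖ ^ 2 = ‖h‖ ^ 2 - 2 * a0 * h.re - b * h.im + a0 ^ 2 + b ^ 2 / 4 := H_sq h a0 b
  have e5 : m / 4 * ‖u1‖ ^ 2 ≤ m / 4 * (‖H‖ ^ 2 * ‖u‖ ^ 2 + 2 * ‖H‖ * (‖u‖ * ‖e‖) + ‖e‖ ^ 2) :=
    mul_le_mul_of_nonneg_left e2 (by positivity)
  rw [e1]
  have e6 : m / 4 * (‖H‖ ^ 2 * ‖u‖ ^ 2) = m / 4 * (‖h‖ ^ 2 - 2 * a0 * h.re - b * h.im + a0 ^ 2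
      + b ^ 2 / 4) * ‖u‖ ^ 2 := by rw [e4]; ring
  have e7 : m / 4 * (‖H‖ ^ 2 * ‖u‖ ^ 2 + 2 * ‖H‖ * (‖u‖ * ‖e‖) + ‖e‖ ^ 2)
      = m / 4 * (‖h‖ ^ 2 - 2 * a0 * h.re - b * h.im + a0 ^ 2 + b ^ 2 / 4) * ‖u‖ ^ 2
        + m / 2 * ‖H‖ * (‖u‖ * ‖e‖) + m / 4 * ‖e‖ ^ 2 := by
    rw [mul_add, mul_add, e6]
    ring
  rw [e7] at e5
  have e8 : ((3 - m * a0 / 2) * h.re + m / 4 * (‖h‖ ^ 2 - Lr) - m * b / 4 * h.im
          + (m / 4 * (a0 ^ 2 + b ^ 2 / 4) - 3 * a0)) * ‖u‖ ^ 2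
        + (3 + m / 2 * ‖H‖) * (‖u‖ * ‖e‖) + m / 4 * ‖e‖ ^ 2
      = 3 * ((h.re - a0) * ‖u‖ ^ 2) + 3 * (‖u‖ * ‖e‖)
        + (m / 4 * (‖h‖ ^ 2 - 2 * a0 * h.re - b * h.im + a0 ^ 2 + b ^ 2 / 4) * ‖u‖ ^ 2
        + m / 2 * ‖H‖ * (‖u‖ * ‖e‖) + m / 4 * ‖e‖ ^ 2) - m / 4 * Lr * ‖u‖ ^ 2 := by ring
  rw [e8]
  linarith

/-- the algebra of the boundary terms: `u = s + d`, `v = s - d` etc. -/
theorem bd_re (s d s1 d1 : ℂ) :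
    (conj s * s1 + conj d * d1).re
      = ((conj (s + d) * (s1 + d1)).re + (conj (s - d) * (s1 - d1)).re) / 2 := by
  simp
  ring

theorem bd_im (s d s1 d1 : ℂ) :
    (conj s * s1 + conj d * d1).im
      = ((conj (s + d) * (s1 + d1)).im + (conj (s - d) * (s1 - d1)).im) / 2 := by
  simp
  ring

theorem bd_sq (s d : ℂ) : ‖s‖ ^ 2 + ‖d‖ ^ 2 = (‖s + d‖ ^ 2 + ‖s - d‖ ^ 2) / 2 := by
  rw [nsq, nsq, nsq, nsq]
  simp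
  ring

theorem bd_cross (s d : ℂ) : (conj s * d).re = (‖s + d‖ ^ 2 - ‖s - d‖ ^ 2) / 4 := by
  rw [nsq, nsq]
  simp
  ring

theorem bd_cross_im (s d : ℂ) : |(conj s * d).im| ≤ (‖s + d‖ ^ 2 + ‖s - d‖ ^ 2) / 4 := by
  have h1 := Complex.abs_im_le_norm (conj s * d)
  rw [norm_mul, RCLike.norm_conj] at h1
  have h2 := bd_sq s d
  nlinarith [sq_nonneg (‖s‖ - ‖d‖)]

/-- the flux: channel `u` (outgoing `h`), channel `v` (`conj v` outgoing `h2`). -/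
theorem flux_u {u u1 e h : ℂ} {a0 b : ℝ} (hu : u1 = (h - a0 - I * (b / 2 : ℝ)) * u + e) :
    (conj u * u1).im = (h.im - b / 2) * ‖u‖ ^ 2 + (conj u * e).im := by
  rw [hu, nsq]
  simp
  ring

theorem flux_v {v v1 e h2 : ℂ} {a0 b : ℝ}
    (hv : v1 = (conj h2 - a0 + I * (b / 2 : ℝ)) * v + e) :
    (conj v * v1).im = -(h2.im - b / 2) * ‖v‖ ^ 2 + (conj v * e).im := by
  rw [hv, nsq]
  simp
  ring

/-- conjugating the `v` relation -/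
theorem conj_rel {v v1 e h2 : ℂ} {a0 b : ℝ}
    (hv : v1 = (conj h2 - a0 + I * (b / 2 : ℝ)) * v + e) :
    conj v1 = (h2 - a0 - I * (b / 2 : ℝ)) * conj v + conj e := by
  rw [hv]
  simp only [map_add, map_mul, map_sub, Complex.conj_conj, Complex.conj_ofReal, Complex.conj_I]
  ring

/-- the `v` channel of the virial boundary term -/
theorem chan_le_v {v v1 e h2 : ℂ} {a0 b m Lr : ℝ} (hm : 0 ≤ m)
    (hv : v1 = (conj h2 - a0 + I * (b / 2 : ℝ)) * v + e) :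
    3 * (conj v * v1).re + m / 4 * ‖v1‖ ^ 2 - m / 4 * Lr * ‖v‖ ^ 2
      ≤ ((3 - m * a0 / 2) * h2.re + m / 4 * (‖h2‖ ^ 2 - Lr) - m * b / 4 * h2.im
          + (m / 4 * (a0 ^ 2 + b ^ 2 / 4) - 3 * a0)) * ‖v‖ ^ 2
        + (3 + m / 2 * ‖h2 - a0 - I * (b / 2 : ℝ)‖) * (‖v‖ * ‖e‖) + m / 4 * ‖e‖ ^ 2 := by
  have h := chan_le (u := conj v) (u1 := conj v1) (e := conj e) (h := h2) (a0 := a0) (b := b)
    (Lr := Lr) hm (conj_rel hv)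
  simp only [RCLike.norm_conj, Complex.conj_conj] at h
  have e1 : (v * conj v1).re = (conj v * v1).re := by
    simp
  rw [e1] at h
  exact h

/-- products bounded through the channels -/
theorem re_mul_le (z1 z2 : ℂ) : |(conj z1 * z2).re| ≤ ‖z1‖ * ‖z2‖ := by
  refine (Complex.abs_re_le_norm _).trans (le_of_eq ?_)
  rw [norm_mul, RCLike.norm_conj]

theorem im_mul_le (z1 z2 : ℂ) : |(conj z1 * z2).im| ≤ ‖z1‖ * ‖z2‖ := by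
  refine (Complex.abs_im_le_norm _).trans (le_of_eq ?_)
  rw [norm_mul, RCLike.norm_conj]

end Crest.Agent.R086.C2
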