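import Crest.Agent.R086.CCore

/-!
Row 86 (S0114), Part C, C-core (K3): the exact identities, pointwise form.
-/

set_option autoImplicit false

open Complex ComplexConjugate

namespace Crest.Agent.R086.CCore

namespace Sys

variable {w b P rho : ℝ → ℝ} {kap n eps : ℝ} {lam : ℂ} {S S1 D D1 : ℝ → ℂ} {sS sD : ℂ} {r : ℝ}

theorem hS1conj (h : Sys w b P rho kap n eps lam S S1 D D1 sS sD r) :
    HasDerivAt (fun r => (w r : ℂ) * conj (S1 r))
      ((w r : ℂ) * ((kap / r ^ 2 + n * P r) * conj (S r)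
        + I * (b r * conj (D1 r) + conj lam * conj (D r) + conj sD))) r := by
  have h1 := hasDerivAt_conj h.hS1
  have e : (fun r => conj ((w r : ℂ) * S1 r)) = fun r => (w r : ℂ) * conj (S1 r) := by
    funext r; simp
  rw [e] at h1
  refine h1.congr_deriv ?_
  simp only [map_add, map_sub, map_mul, map_div₀, Complex.conj_I, Complex.conj_ofReal, map_pow]
  ring

theorem hD1conj (h : Sys w b P rho kap n eps lam S S1 D D1 sS sD r) :
    HasDerivAt (fun r => (w r : ℂ) * conj (D1 r))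
      ((w r : ℂ) * (kap / r ^ 2 * conj (D r)
        + I * (b r * conj (S1 r) + conj lam * conj (S r) + conj sS))) r := by
  have h1 := hasDerivAt_conj h.hD1
  have e : (fun r => conj ((w r : ℂ) * D1 r)) = fun r => (w r : ℂ) * conj (D1 r) := by
    funext r; simp
  rw [e] at h1
  refine h1.congr_deriv ?_
  simp only [map_add, map_sub, map_mul, map_div₀, Complex.conj_I, Complex.conj_ofReal, map_pow]
  ring

/-- (K3a) -/
theorem flux_SS (h : Sys w b P rho kap n eps lam S S1 D D1 sS sD r) {chi : ℝ → ℝ} {chi' : ℝ}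
    (hc : HasDerivAt chi chi' r) :
    HasDerivAt (fun r => (chi r : ℂ) * (((w r : ℂ) * S1 r) * conj (S r)))
      ((chi' : ℂ) * (w r * S1 r * conj (S r))
        + chi r * w r * (S1 r * conj (S1 r) + (kap / r ^ 2 + n * P r) * (S r * conj (S r)))
        - I * chi r * w r * ((b r * D1 r + lam * D r + sD) * conj (S r))) r := by
  refine (hc.ofReal_comp.mul (h.hS1.mul (hasDerivAt_conj h.hS))).congr_deriv ?_
  simp only [Pi.mul_apply]
  ring

/-- (K3b) -/
theorem flux_DD (h : Sys w b P rho kap n eps lam S S1 D D1 sS sD r) {chi : ℝ → ℝ} {chi' : ℝ}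
    (hc : HasDerivAt chi chi' r) :
    HasDerivAt (fun r => (chi r : ℂ) * (((w r : ℂ) * D1 r) * conj (D r)))
      ((chi' : ℂ) * (w r * D1 r * conj (D r))
        + chi r * w r * (D1 r * conj (D1 r) + kap / r ^ 2 * (D r * conj (D r)))
        - I * chi r * w r * ((b r * S1 r + lam * S r + sS) * conj (D r))) r := by
  refine (hc.ofReal_comp.mul (h.hD1.mul (hasDerivAt_conj h.hD))).congr_deriv ?_
  simp only [Pi.mul_apply]
  ring

/-- (K3c) transport term -/
theorem flux_b (h : Sys w b P rho kap n eps lam S S1 D D1 sS sD r) {chi : ℝ → ℝ} {chi' : ℝ}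
    (hc : HasDerivAt chi chi' r) :
    HasDerivAt (fun r => (chi r : ℂ) * (((w r * b r : ℝ) : ℂ) * (D r * conj (S r))))
      ((chi' : ℂ) * (w r * b r * (D r * conj (S r)))
        + chi r * w r * ((6 - 2 * eps) * (D r * conj (S r))
          + b r * (D1 r * conj (S r) + D r * conj (S1 r)))) r := by
  refine (hc.ofReal_comp.mul (h.hwb.ofReal_comp.mul
    (h.hD.mul (hasDerivAt_conj h.hS)))).congr_deriv ?_
  simp only [Pi.mul_apply, Pi.sub_apply]
  push_cast
  ring

/-- (K3c') transport term, diagonal, for `S` -/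
theorem flux_bS (h : Sys w b P rho kap n eps lam S S1 D D1 sS sD r) {chi : ℝ → ℝ} {chi' : ℝ}
    (hc : HasDerivAt chi chi' r) :
    HasDerivAt (fun r => (chi r : ℂ) * (((w r * b r : ℝ) : ℂ) * (S r * conj (S r))))
      ((chi' : ℂ) * (w r * b r * (S r * conj (S r)))
        + chi r * w r * ((6 - 2 * eps) * (S r * conj (S r))
          + b r * (S1 r * conj (S r) + S r * conj (S1 r)))) r := by
  refine (hc.ofReal_comp.mul (h.hwb.ofReal_comp.mul
    (h.hS.mul (hasDerivAt_conj h.hS)))).congr_deriv ?_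
  simp only [Pi.mul_apply, Pi.sub_apply]
  push_cast
  ring

/-- (K3c'') transport term, diagonal, for `D` -/
theorem flux_bD (h : Sys w b P rho kap n eps lam S S1 D D1 sS sD r) {chi : ℝ → ℝ} {chi' : ℝ}
    (hc : HasDerivAt chi chi' r) :
    HasDerivAt (fun r => (chi r : ℂ) * (((w r * b r : ℝ) : ℂ) * (D r * conj (D r))))
      ((chi' : ℂ) * (w r * b r * (D r * conj (D r)))
        + chi r * w r * ((6 - 2 * eps) * (D r * conj (D r))
          + b r * (D1 r * conj (D r) + D r * conj (D1 r)))) r := by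
  refine (hc.ofReal_comp.mul (h.hwb.ofReal_comp.mul
    (h.hD.mul (hasDerivAt_conj h.hD)))).congr_deriv ?_
  simp only [Pi.mul_apply, Pi.sub_apply]
  push_cast
  ring

/-- (K3d) charge flux -/
theorem flux_SD (h : Sys w b P rho kap n eps lam S S1 D D1 sS sD r) {chi : ℝ → ℝ} {chi' : ℝ}
    (hc : HasDerivAt chi chi' r) :
    HasDerivAt (fun r => (chi r : ℂ) * (((w r : ℂ) * S1 r) * conj (D r)
        - S r * ((w r : ℂ) * conj (D1 r))))
      ((chi' : ℂ) * w r * (S1 r * conj (D r) - S r * conj (D1 r))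
        + chi r * w r * (n * P r * (S r * conj (D r))
          - I * (b r * (D1 r * conj (D r) + S r * conj (S1 r))
            + lam * (D r * conj (D r)) + conj lam * (S r * conj (S r))
            + sD * conj (D r) + conj sS * S r))) r := by
  refine (hc.ofReal_comp.mul ((h.hS1.mul (hasDerivAt_conj h.hD)).sub
    (h.hS.mul h.hD1conj))).congr_deriv ?_
  simp only [Pi.mul_apply, Pi.sub_apply]
  ring

/-- (K3e) **virial identity**, `lam = mu + i nu`. The transport terms cancel exactly. -/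
theorem virial (h : Sys w b P rho kap n eps lam S S1 D D1 sS sD r) {m : ℝ → ℝ} {m' P' : ℝ}
    (hm : HasDerivAt m m' r) (hP : HasDerivAt P P' r) :
    HasDerivAt (fun r => m r * w r * (‖S1 r‖ ^ 2 + ‖D1 r‖ ^ 2)
        - kap * (m r * w r / r ^ 2) * (‖S r‖ ^ 2 + ‖D r‖ ^ 2)
        - n * (m r * w r * P r) * ‖S r‖ ^ 2
        - 2 * lam.im * (m r * w r) * (D r * conj (S r)).re)
      (w r * (m' - m r * (11 / r + 2 * rho r)) * (‖S1 r‖ ^ 2 + ‖D1 r‖ ^ 2)
        - kap * (w r * (m' / r ^ 2 + m r * (11 / r + 2 * rho r) / r ^ 2 - 2 * m r / r ^ 3))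
          * (‖S r‖ ^ 2 + ‖D r‖ ^ 2)
        - n * (w r * (m' * P r + m r * (11 / r + 2 * rho r) * P r + m r * P')) * ‖S r‖ ^ 2
        - 2 * lam.im * (w r * (m' + m r * (11 / r + 2 * rho r))) * (D r * conj (S r)).re
        + 2 * lam.re * (m r * w r) * (D r * conj (S1 r) + S r * conj (D1 r)).im
        + 2 * (m r * w r) * (sD * conj (S1 r) + sS * conj (D1 r)).im) r := by
  have hw0 := h.wne
  have hr := h.hr
  -- real and imaginary parts
  have re_d : ∀ {f : ℝ → ℂ} {f' : ℂ}, HasDerivAt f f' r →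
      HasDerivAt (fun r => (f r).re) f'.re r := fun hf =>
    Complex.reCLM.hasFDerivAt.comp_hasDerivAt r hf
  have im_d : ∀ {f : ℝ → ℂ} {f' : ℂ}, HasDerivAt f f' r →
      HasDerivAt (fun r => (f r).im) f'.im r := fun hf =>
    Complex.imCLM.hasFDerivAt.comp_hasDerivAt r hf
  have hSr := re_d h.hS
  have hSi := im_d h.hS
  have hDr := re_d h.hD
  have hDi := im_d h.hD
  have hS1r := re_d h.hS1
  have hS1i := im_d h.hS1
  have hD1r := re_d h.hD1
  have hD1i := im_d h.hD1
  have hwi : HasDerivAt (fun r => (w r)⁻¹) (-(w r * (11 / r + 2 * rho r)) / w r ^ 2) r :=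
    h.hw.inv hw0
  have hmr2 : HasDerivAt (fun r : ℝ => (r ^ 2)⁻¹) (-(2 * r) / (r ^ 2) ^ 2) r := by
    have := (hasDerivAt_pow 2 r).inv (pow_ne_zero 2 hr)
    refine this.congr_deriv ?_
    norm_num
  have hK := ((hm.mul hwi).mul (((hS1r.pow 2).add (hS1i.pow 2)).add
    ((hD1r.pow 2).add (hD1i.pow 2))))
  have hA := (((hm.mul h.hw).mul hmr2).const_mul kap).mul
    (((hSr.pow 2).add (hSi.pow 2)).add ((hDr.pow 2).add (hDi.pow 2)))
  have hB := (((hm.mul h.hw).mul hP).const_mul n).mul ((hSr.pow 2).add (hSi.pow 2))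
  have hC := ((hm.mul h.hw).const_mul (2 * lam.im)).mul ((hDr.mul hSr).add (hDi.mul hSi))
  have hT := ((hK.sub hA).sub hB).sub hC
  let Φ : ℝ → ℝ := fun x => m x * (w x)⁻¹ *
        ((((w x : ℂ) * S1 x).re ^ 2 + ((w x : ℂ) * S1 x).im ^ 2)
        + (((w x : ℂ) * D1 x).re ^ 2 + ((w x : ℂ) * D1 x).im ^ 2))
        - (kap * (m x * w x * (x ^ 2)⁻¹)) * (((S x).re ^ 2 + (S x).im ^ 2)
          + ((D x).re ^ 2 + (D x).im ^ 2))
        - (n * (m x * w x * P x)) * ((S x).re ^ 2 + (S x).im ^ 2)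
        - ((2 * lam.im) * (m x * w x)) * ((D x).re * (S x).re + (D x).im * (S x).im)
  have hT' : HasDerivAt Φ _ r := hT
  have hev : (fun r => m r * w r * (‖S1 r‖ ^ 2 + ‖D1 r‖ ^ 2)
        - kap * (m r * w r / r ^ 2) * (‖S r‖ ^ 2 + ‖D r‖ ^ 2)
        - n * (m r * w r * P r) * ‖S r‖ ^ 2
        - 2 * lam.im * (m r * w r) * (D r * conj (S r)).re) =ᶠ[nhds r] Φ := by
    have hne : ∀ᶠ x in nhds r, w x ≠ 0 := h.hw.continuousAt.eventually_ne hw0
    filter_upwards [hne] with x hx
    have e : ∀ z : ℂ, ‖z‖ ^ 2 = z.re ^ 2 + z.im ^ 2 := by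
      intro z
      rw [← Complex.normSq_eq_norm_sq, Complex.normSq_apply]
      ring
    simp only [e, Φ, Complex.mul_re, Complex.mul_im, Complex.conj_re, Complex.conj_im,
        Complex.ofReal_re, Complex.ofReal_im]
    field_simp
    ring
  refine (hT'.congr_of_eventuallyEq hev).congr_deriv ?_
  have e : ∀ z : ℂ, ‖z‖ ^ 2 = z.re ^ 2 + z.im ^ 2 := by
    intro z
    rw [← Complex.normSq_eq_norm_sq, Complex.normSq_apply]
    ring
  have hk1 : ((kap : ℂ) / (r : ℂ) ^ 2) = ((kap / r ^ 2 : ℝ) : ℂ) := by push_cast; rfl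
  rw [hk1]
  simp only [e, Complex.mul_re, Complex.mul_im, Complex.add_re, Complex.add_im, Complex.sub_re,
    Complex.sub_im, Complex.conj_re, Complex.conj_im, Complex.ofReal_re, Complex.ofReal_im,
    Complex.I_re, Complex.I_im, Pi.mul_apply, Pi.sub_apply, Pi.add_apply, Pi.pow_apply]
  field_simp
  ring

end Sys

end Crest.Agent.R086.CCore
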