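import Mathlib
import Crest.Agent.R086.CCore2

/-!
Row 86 (S0114), Part C, node C2 (exclusion of large `|lam| + l`): definitions (owner helper153).

Everything at one radius `R` (called `rho` in the notes).  `w r = q2 r * r ^ 11`, multiplier
`m r = r * psi r` with `(m w)' = 12 w`.
-/

set_option autoImplicit false

open Complex ComplexConjugate MeasureTheory Set

namespace Crest.Agent.R086.C2

open CCore

/-- The exact system on `(0, R)` with continuity up to the end points. -/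
structure Rad (R n eps kap : ℝ) (lam : ℂ) (q2 b P P1 rq psi : ℝ → ℝ) (S S1 D D1 : ℝ → ℂ) :
    Prop where
  hR : 0 < R
  sys : ∀ r ∈ Ioo (0 : ℝ) R,
    Sys (fun r => q2 r * r ^ 11) b P rq kap n eps lam S S1 D D1 0 0 r
  q2pos : ∀ r ∈ Icc (0 : ℝ) R, 0 < q2 r
  cq2 : ContinuousOn q2 (Icc 0 R)
  cb : ContinuousOn b (Icc 0 R)
  cP : ContinuousOn P (Icc 0 R)
  cP1 : ContinuousOn P1 (Icc 0 R)
  crq : ContinuousOn rq (Icc 0 R)
  cpsi : ContinuousOn psi (Icc 0 R)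
  cS : ContinuousOn S (Icc 0 R)
  cS1 : ContinuousOn S1 (Icc 0 R)
  cD : ContinuousOn D (Icc 0 R)
  cD1 : ContinuousOn D1 (Icc 0 R)
  hP : ∀ r ∈ Ioo (0 : ℝ) R, HasDerivAt P (P1 r) r
  hpsi : ∀ r ∈ Ioo (0 : ℝ) R,
    HasDerivAt (fun r => r * psi r * (q2 r * r ^ 11)) (12 * (q2 r * r ^ 11)) r

/-- `m' = 12 - psi (11 + 2 r rq)` -/
noncomputable def m1 (rq psi : ℝ → ℝ) (r : ℝ) : ℝ := 12 - psi r * (11 + 2 * r * rq r)

/-- `∫ w |f|^2` -/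
noncomputable def nrm (R : ℝ) (q2 : ℝ → ℝ) (f : ℝ → ℂ) : ℝ :=
  ∫ r in (0 : ℝ)..R, q2 r * r ^ 11 * ‖f r‖ ^ 2
/-- `∫ (w / r^2) |f|^2` -/
noncomputable def ang (R : ℝ) (q2 : ℝ → ℝ) (f : ℝ → ℂ) : ℝ :=
  ∫ r in (0 : ℝ)..R, q2 r * r ^ 9 * ‖f r‖ ^ 2
/-- `∫ g w |f|^2` -/
noncomputable def wnrm (R : ℝ) (q2 g : ℝ → ℝ) (f : ℝ → ℂ) : ℝ :=
  ∫ r in (0 : ℝ)..R, q2 r * r ^ 11 * g r * ‖f r‖ ^ 2
/-- `∫ (w / r^2) g |f|^2` -/
noncomputable def wang (R : ℝ) (q2 g : ℝ → ℝ) (f : ℝ → ℂ) : ℝ :=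
  ∫ r in (0 : ℝ)..R, q2 r * r ^ 9 * g r * ‖f r‖ ^ 2
/-- `∫ w g conj(S) T` -/
noncomputable def ip (R : ℝ) (q2 g : ℝ → ℝ) (S T : ℝ → ℂ) : ℂ :=
  ∫ r in (0 : ℝ)..R, ((q2 r * r ^ 11 * g r : ℝ) : ℂ) * (conj (S r) * T r)

section Statements

variable (R n eps kap : ℝ) (lam : ℂ) (q2 b P P1 rq psi : ℝ → ℝ) (S S1 D D1 : ℝ → ℂ)

/-- weight at `R` -/
noncomputable def wR : ℝ := q2 R * R ^ 11

/-- boundary part of (*) -/
noncomputable def BV : ℝ :=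
  6 * wR R q2 * (conj (S R) * S1 R + conj (D R) * D1 R).re
  + R * psi R * wR R q2 / 2 * (‖S1 R‖ ^ 2 + ‖D1 R‖ ^ 2)
  - kap * (R * psi R * wR R q2) / (2 * R ^ 2) * (‖S R‖ ^ 2 + ‖D R‖ ^ 2)
  - n / 2 * P R * (R * psi R * wR R q2) * ‖S R‖ ^ 2
  - lam.im * (R * psi R * wR R q2) * (conj (S R) * D R).re
  + 6 * wR R q2 * b R * (conj (S R) * D R).im
  - lam.re * (R * psi R * wR R q2) * (conj (S R) * D R).im

/-- interior remainder of (*) -/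
noncomputable def R0 : ℝ :=
  -12 * (ip R q2 b S D1).im - 6 * (6 - 2 * eps) * (ip R q2 1 S D).im
  + 12 * lam.re * (ip R q2 1 S D).im + 2 * lam.re * (ip R q2 (fun r => r * psi r) S D1).im

/-- (*) virial minus 6 (E1+E2) -/
def IdV : Prop :=
  wnrm R q2 (m1 rq psi) S1 + wnrm R q2 (m1 rq psi) D1
    + kap * (wang R q2 psi S + wang R q2 psi D)
    - n / 2 * wnrm R q2 (fun r => r * psi r * P1 r) S
  = BV R n kap lam q2 b P psi S S1 D D1 + R0 R eps lam q2 b psi S D D1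

/-- equipartition -/
def IdE : Prop :=
  n * wnrm R q2 P S + (nrm R q2 S1 + kap * ang R q2 S) - (nrm R q2 D1 + kap * ang R q2 D)
  = wR R q2 * (conj (S R) * S1 R - conj (D R) * D1 R).re
    - wR R q2 * b R * (conj (S R) * D R).im
    + (6 - 2 * eps - 2 * lam.re) * (ip R q2 1 S D).im

/-- charge -/
def IdC : Prop :=
  wR R q2 * (conj (S R) * S1 R + conj (D R) * D1 R).im
    + wR R q2 * b R * (conj (S R) * D R).re
  = (6 - 2 * eps - 2 * lam.re) * (ip R q2 1 S D).re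

/-- (E2) -/
def IdD : Prop :=
  lam.im * (ip R q2 1 S D).re
  = -(nrm R q2 D1 + kap * ang R q2 D) + wR R q2 * (conj (D R) * D1 R).re
    - (ip R q2 b S D1).im + wR R q2 * b R * (conj (S R) * D R).im
    - (6 - 2 * eps - lam.re) * (ip R q2 1 S D).im

/-- Poincare, for `T = S` or `T = D` -/
def IdP (T T1 : ℝ → ℂ) : Prop :=
  12 * nrm R q2 T = R * psi R * wR R q2 * ‖T R‖ ^ 2
    - 2 * (ip R q2 (fun r => r * psi r) T T1).re

end Statements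

/-- WHAT helper310 DELIVERS (file C2Int.lean). -/
def Identities : Prop :=
  ∀ (R n eps kap : ℝ) (lam : ℂ) (q2 b P P1 rq psi : ℝ → ℝ) (S S1 D D1 : ℝ → ℂ),
    Rad R n eps kap lam q2 b P P1 rq psi S S1 D D1 →
    IdV R n eps kap lam q2 b P P1 rq psi S S1 D D1 ∧
    IdE R n eps kap lam q2 b P S S1 D D1 ∧
    IdC R eps lam q2 b S S1 D D1 ∧
    IdD R eps kap lam q2 b S D D1 ∧
    IdP R q2 psi S S1 ∧ IdP R q2 psi D D1

end Crest.Agent.R086.C2
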