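import Mathlib
import Crest.Agent.R086.C2Defs

/-!
Row 86 (S0114), Part C, node C2: integral estimates (owner helper153).
-/

set_option autoImplicit false

open Complex ComplexConjugate MeasureTheory Set

namespace Crest.Agent.R086.C2

section basic

variable {R : ℝ} {q2 g : ℝ → ℝ} {S T : ℝ → ℂ}

theorem cont_w (cq2 : ContinuousOn q2 (Icc 0 R)) :
    ContinuousOn (fun r => q2 r * r ^ 11) (Icc 0 R) :=
  cq2.mul (continuous_pow 11).continuousOn

theorem cont_w9 (cq2 : ContinuousOn q2 (Icc 0 R)) :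
    ContinuousOn (fun r => q2 r * r ^ 9) (Icc 0 R) :=
  cq2.mul (continuous_pow 9).continuousOn

theorem cont_nrm (cq2 : ContinuousOn q2 (Icc 0 R)) (cS : ContinuousOn S (Icc 0 R)) :
    ContinuousOn (fun r => q2 r * r ^ 11 * ‖S r‖ ^ 2) (Icc 0 R) :=
  (cont_w cq2).mul (cS.norm.pow 2)

theorem ii_of_cont (hR : 0 ≤ R) {f : ℝ → ℝ} (h : ContinuousOn f (Icc 0 R)) :
    IntervalIntegrable f volume 0 R :=
  ContinuousOn.intervalIntegrable_of_Icc hR h

theorem nrm_nonneg (hR : 0 ≤ R) (hq : ∀ r ∈ Icc (0 : ℝ) R, 0 ≤ q2 r) : 0 ≤ nrm R q2 S := by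
  refine intervalIntegral.integral_nonneg hR fun r hr => ?_
  have := hq r hr
  have h0 := hr.1
  positivity

theorem ang_nonneg (hR : 0 ≤ R) (hq : ∀ r ∈ Icc (0 : ℝ) R, 0 ≤ q2 r) : 0 ≤ ang R q2 S := by
  refine intervalIntegral.integral_nonneg hR fun r hr => ?_
  have := hq r hr
  have h0 := hr.1
  positivity

/-- Young's form of Cauchy–Schwarz. -/
theorem ip_young (hR : 0 ≤ R) (hq : ∀ r ∈ Icc (0 : ℝ) R, 0 ≤ q2 r)
    (cq2 : ContinuousOn q2 (Icc 0 R)) (cg : ContinuousOn g (Icc 0 R))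
    (cS : ContinuousOn S (Icc 0 R)) (cT : ContinuousOn T (Icc 0 R))
    {G t : ℝ} (hG : ∀ r ∈ Icc (0 : ℝ) R, |g r| ≤ G) (ht : 0 < t) :
    ‖ip R q2 g S T‖ ≤ G / 2 * (t * nrm R q2 S + t⁻¹ * nrm R q2 T) := by
  unfold ip nrm
  have h1 : ‖∫ r in (0 : ℝ)..R, ((q2 r * r ^ 11 * g r : ℝ) : ℂ) * (conj (S r) * T r)‖
      ≤ ∫ r in (0 : ℝ)..R, ‖((q2 r * r ^ 11 * g r : ℝ) : ℂ) * (conj (S r) * T r)‖ :=
    intervalIntegral.norm_integral_le_integral_norm hR
  refine h1.trans ?_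
  rw [← intervalIntegral.integral_const_mul, ← intervalIntegral.integral_const_mul,
    ← intervalIntegral.integral_add, ← intervalIntegral.integral_const_mul]
  · refine intervalIntegral.integral_mono_on hR ?_ ?_ fun r hr => ?_
    · refine (ContinuousOn.intervalIntegrable_of_Icc hR ?_)
      refine ContinuousOn.norm ?_
      refine ContinuousOn.mul ?_ ?_
      · exact Complex.continuous_ofReal.comp_continuousOn ((cont_w cq2).mul cg)
      · exact (Complex.continuous_conj.comp_continuousOn cS).mul cT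
    · refine ii_of_cont hR ?_
      exact continuousOn_const.mul ((continuousOn_const.mul (cont_nrm cq2 cS)).add
        (continuousOn_const.mul (cont_nrm cq2 cT)))
    · have hq0 := hq r hr
      have hg0 := hG r hr
      have hr0 := hr.1
      have hG0 : 0 ≤ G := (abs_nonneg _).trans hg0
      rw [norm_mul, norm_mul, RCLike.norm_conj, Complex.norm_real, Real.norm_eq_abs, abs_mul,
        abs_mul, abs_of_nonneg hq0, abs_of_nonneg (by positivity : (0 : ℝ) ≤ r ^ 11)]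
      have hab : ‖S r‖ * ‖T r‖ ≤ (t * ‖S r‖ ^ 2 + t⁻¹ * ‖T r‖ ^ 2) / 2 := by
        have h2 : 0 ≤ (t * ‖S r‖ - ‖T r‖) ^ 2 := sq_nonneg _
        have h3 : t⁻¹ * ((t * ‖S r‖ - ‖T r‖) ^ 2)
            = t * ‖S r‖ ^ 2 + t⁻¹ * ‖T r‖ ^ 2 - 2 * (‖S r‖ * ‖T r‖) := by
          field_simp
          ring
        have h4 : 0 ≤ t⁻¹ * ((t * ‖S r‖ - ‖T r‖) ^ 2) := by positivity
        linarith
      calc q2 r * r ^ 11 * |g r| * (‖S r‖ * ‖T r‖)
          ≤ q2 r * r ^ 11 * G * ((t * ‖S r‖ ^ 2 + t⁻¹ * ‖T r‖ ^ 2) / 2) := by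
            gcongr
        _ = G / 2 * (t * (q2 r * r ^ 11 * ‖S r‖ ^ 2) + t⁻¹ * (q2 r * r ^ 11 * ‖T r‖ ^ 2)) := by
            ring
  · exact ii_of_cont hR (continuousOn_const.mul (cont_nrm cq2 cS))
  · exact ii_of_cont hR (continuousOn_const.mul (cont_nrm cq2 cT))

/-- Poincaré from the identity `IdP`. -/
theorem poincare {psi : ℝ → ℝ} {T1 : ℝ → ℂ} (hR : 0 ≤ R)
    (hq : ∀ r ∈ Icc (0 : ℝ) R, 0 ≤ q2 r)
    (cq2 : ContinuousOn q2 (Icc 0 R)) (cpsi : ContinuousOn psi (Icc 0 R))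
    (cT : ContinuousOn T (Icc 0 R)) (cT1 : ContinuousOn T1 (Icc 0 R))
    {M : ℝ} (hM : 0 < M) (hm : ∀ r ∈ Icc (0 : ℝ) R, |r * psi r| ≤ M)
    (h : IdP R q2 psi T T1) :
    6 * nrm R q2 T ≤ M * (wR R q2 * ‖T R‖ ^ 2) + M ^ 2 / 6 * nrm R q2 T1 := by
  unfold IdP at h
  have h1 := ip_young (g := fun r => r * psi r) hR hq cq2 (continuousOn_id.mul cpsi) cT cT1
    (t := 6 / M) hm (by positivity)
  have h2 : -(2 * (ip R q2 (fun r => r * psi r) T T1).re)
      ≤ 2 * ‖ip R q2 (fun r => r * psi r) T T1‖ := by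
    have := Complex.abs_re_le_norm (ip R q2 (fun r => r * psi r) T T1)
    have h3 := neg_abs_le (ip R q2 (fun r => r * psi r) T T1).re
    linarith
  have hw : 0 ≤ wR R q2 * ‖T R‖ ^ 2 := by
    have := hq R ⟨hR, le_refl R⟩
    unfold wR
    positivity
  have h4 : R * psi R * wR R q2 * ‖T R‖ ^ 2 ≤ M * (wR R q2 * ‖T R‖ ^ 2) := by
    have := (le_abs_self _).trans (hm R ⟨hR, le_refl R⟩)
    calc R * psi R * wR R q2 * ‖T R‖ ^ 2 = (R * psi R) * (wR R q2 * ‖T R‖ ^ 2) := by ring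
      _ ≤ _ := mul_le_mul_of_nonneg_right this hw
  have h5 : 2 * (M / 2 * (6 / M * nrm R q2 T + (6 / M)⁻¹ * nrm R q2 T1))
      = 6 * nrm R q2 T + M ^ 2 / 6 * nrm R q2 T1 := by
    field_simp
  linarith

end basic

end Crest.Agent.R086.C2
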