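import Mathlib

/-!
Row 86 (S0114), Part C, node C2: closing lemmas on real numbers (owner helper153).
-/

set_option autoImplicit false

namespace Crest.Agent.R086.C2

/-- Both channels evanescent. -/
theorem close_ee {A c : ℝ} (hA : 1 ≤ A) (hc : 0 < c) (hc1 : c ≤ 1) :
    ∃ del : ℝ, 0 < del ∧ ∃ s0 : ℝ, 1 ≤ s0 ∧ ∀ K z s be se : ℝ, 0 ≤ K → 0 ≤ z → s0 ≤ s →
      0 ≤ be → be ≤ del → 0 ≤ se → se ≤ del →
      K / 4 ≤ (-(c / 16) * s + A) * z + A * z + A * se * (K + z)
        + be * (A * (s / c) * z + A * z + A * se * (K + z)) →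
      K = 0 ∧ z = 0 := by
  refine ⟨c ^ 2 / (64 * A), by positivity, 512 * A / c, ?_, ?_⟩
  · rw [le_div_iff₀ hc]
    nlinarith
  intro K z s be se hK hz hs hbe hbe2 hse hse2 h
  have hA0 : 0 < A := by linarith
  have hs0 : 0 < s := lt_of_lt_of_le (by positivity) hs
  have hcc : c ^ 2 ≤ 1 := by nlinarith
  have e1 : A * se ≤ 1 / 64 := by
    rw [le_div_iff₀ (by positivity)] at hse2
    nlinarith
  have e2 : be * A ≤ c ^ 2 / 64 := by
    rw [le_div_iff₀ (by positivity)] at hbe2
    nlinarith
  have e3 : be * A * (s / c) ≤ c / 64 * s := by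
    have : be * A * (s / c) ≤ c ^ 2 / 64 * (s / c) :=
      mul_le_mul_of_nonneg_right e2 (by positivity)
    refine this.trans (le_of_eq ?_)
    field_simp
  have e4 : be ≤ 1 := by
    have : be * 1 ≤ be * A := mul_le_mul_of_nonneg_left hA hbe
    nlinarith
  have hsc : 512 * A ≤ s * c := by rwa [div_le_iff₀ hc] at hs
  -- products
  have p1 : A * se * (K + z) ≤ 1 / 64 * (K + z) :=
    mul_le_mul_of_nonneg_right e1 (by positivity)
  have p2 : be * (A * (s / c) * z) ≤ c / 64 * s * z := by
    calc be * (A * (s / c) * z) = be * A * (s / c) * z := by ring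
      _ ≤ c / 64 * s * z := mul_le_mul_of_nonneg_right e3 hz
  have p3 : be * (A * z) ≤ A * z := by
    have : 0 ≤ A * z := by positivity
    nlinarith
  have p4 : be * (A * se * (K + z)) ≤ 1 / 64 * (K + z) := by
    have h0 : 0 ≤ A * se * (K + z) := by positivity
    have : be * (A * se * (K + z)) ≤ 1 * (A * se * (K + z)) :=
      mul_le_mul_of_nonneg_right e4 h0
    linarith
  have hzs : 512 * A * z ≤ s * c * z := mul_le_mul_of_nonneg_right hsc hz
  have hAz : z ≤ A * z := le_mul_of_one_le_left hz hA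
  have hmain : K / 4 + c / 16 * s * z ≤ 3 * (A * z) + 1 / 32 * (K + z) + c / 64 * s * z := by
    have e : (-(c / 16) * s + A) * z + A * z + A * se * (K + z)
        + be * (A * (s / c) * z + A * z + A * se * (K + z))
        = -(c / 16 * s * z) + 2 * (A * z) + A * se * (K + z) + be * (A * (s / c) * z)
          + be * (A * z) + be * (A * se * (K + z)) := by ring
    rw [e] at h
    linarith
  have hz0 : z ≤ 0 := by
    have e : c / 16 * s * z = (s * c * z) / 16 := by ring
    have e' : c / 64 * s * z = (s * c * z) / 64 := by ring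
    rw [e, e'] at hmain
    by_contra hcon
    push Not at hcon
    have : 0 < A * z := by positivity
    linarith
  have hz1 : z = 0 := le_antisymm hz0 hz
  subst hz1
  refine ⟨?_, rfl⟩
  simp only [mul_zero, add_zero] at hmain
  linarith

/-- One channel (`x`) propagating, the other (`y`) evanescent. -/
theorem close_pe {A c : ℝ} (hA : 1 ≤ A) (hc : 0 < c) (hc1 : c ≤ 1) :
    ∃ del : ℝ, 0 < del ∧ ∃ s0 : ℝ, 1 ≤ s0 ∧ ∀ K x y s k be se e G N : ℝ, 0 ≤ K → 0 ≤ x → 0 ≤ y →
      0 ≤ N → s0 ≤ s → k ≤ s → s ≤ 2 * k / c →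
      0 ≤ be → be ≤ del → 0 ≤ se → se ≤ del → 0 ≤ e → e ≤ del →
      K / 4 ≤ A * (k ^ 2 / c ^ 2) * x + (-(c / 16) * s + A) * y + A * (x + y)
        + A * se * (K + (x + y))
        + be * (A * (s / c) * (x + y) + A * (x + y) + A * se * (K + (x + y))) →
      c * k * x ≤ G →
      G ≤ e * y + A * N + A * se * (K + (x + y)) / (1 + s) →
      k ^ 2 * N ≤ 3 * K + A * (s / c) * (x + y) + A * (x + y) + A * se * (K + (x + y)) →
      K = 0 ∧ x + y = 0 := by
  set CT : ℝ := 225 * A / c ^ 4 with hCT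
  have hA0 : 0 < A := by linarith
  have hCTp : 0 < CT := by positivity
  have hc2 : c ^ 2 ≤ 1 := by nlinarith
  have hc2p : 0 < c ^ 2 := by positivity
  refine ⟨min (c ^ 3 / (128 * A)) (1 / (8 * A * CT)), by positivity,
    2 / c * max (1 + 256 * A / c) (7 * A ^ 2 / c ^ 2 * (4 * CT)), ?_, ?_⟩
  · have h1 : (1 : ℝ) ≤ max (1 + 256 * A / c) (7 * A ^ 2 / c ^ 2 * (4 * CT)) := by
      refine le_trans ?_ (le_max_left _ _)
      have : 0 ≤ 256 * A / c := by positivity
      linarith
    have h2 : (1 : ℝ) ≤ 2 / c := by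
      rw [le_div_iff₀ hc]
      linarith
    nlinarith
  intro K x y s k be se e G N hK hx hy hN hs hks hsk hbe hbe2 hse hse2 he he2 ha hb hcc hd
  -- k is large
  have hk0 : max (1 + 256 * A / c) (7 * A ^ 2 / c ^ 2 * (4 * CT)) ≤ k := by
    have h1 : 2 / c * max (1 + 256 * A / c) (7 * A ^ 2 / c ^ 2 * (4 * CT)) ≤ 2 * k / c :=
      hs.trans hsk
    have h2 : 2 / c * max (1 + 256 * A / c) (7 * A ^ 2 / c ^ 2 * (4 * CT)) ≤ 2 / c * k := by
      calc _ ≤ 2 * k / c := h1
        _ = 2 / c * k := by ring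
    exact le_of_mul_le_mul_left h2 (by positivity)
  have hk1 : 1 + 256 * A / c ≤ k := (le_max_left _ _).trans hk0
  have hk2 : 7 * A ^ 2 / c ^ 2 * (4 * CT) ≤ k := (le_max_right _ _).trans hk0
  have hkpos : 1 ≤ k := by
    have : 0 ≤ 256 * A / c := by positivity
    linarith
  have hkp : 0 < k := by linarith
  have hsp : 0 < s := by linarith
  have hkA : 256 * A ≤ c * k := by
    have : 256 * A / c ≤ k := by linarith
    rw [div_le_iff₀ hc] at this
    linarith
  have hse3 : A * se ≤ 1 / 128 := by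
    have h1 : se ≤ c ^ 3 / (128 * A) := hse2.trans (min_le_left _ _)
    rw [le_div_iff₀ (by positivity)] at h1
    have : c ^ 3 ≤ 1 := pow_le_one₀ hc.le hc1
    nlinarith
  have hbe3 : be * A ≤ c ^ 3 / 128 := by
    have h1 : be ≤ c ^ 3 / (128 * A) := hbe2.trans (min_le_left _ _)
    rw [le_div_iff₀ (by positivity)] at h1
    nlinarith
  have hbe4 : be ≤ 1 := by
    have h1 : be * 1 ≤ be * A := mul_le_mul_of_nonneg_left hA hbe
    have : c ^ 3 ≤ 1 := pow_le_one₀ hc.le hc1
    nlinarith
  set z := x + y with hz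
  have hz0 : 0 ≤ z := by positivity
  have hG0 : 0 ≤ G := le_trans (by positivity) hb
  have hxG : c * (k * x) ≤ G := by
    calc c * (k * x) = c * k * x := by ring
      _ ≤ G := hb
  -- (a)
  have q1 : A * se * (K + z) ≤ 1 / 128 * (K + z) :=
    mul_le_mul_of_nonneg_right hse3 (by positivity)
  have q2 : be * (A * (s / c) * z) ≤ c / 64 * k * z := by
    have h1 : s / c ≤ 2 * k / c ^ 2 := by
      rw [div_le_div_iff₀ hc hc2p]
      have := mul_le_mul_of_nonneg_right hsk hc2p.le
      calc s * c ^ 2 ≤ 2 * k / c * c ^ 2 := this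
        _ = 2 * k * c := by field_simp
    calc be * (A * (s / c) * z) = be * A * (s / c) * z := by ring
      _ ≤ c ^ 3 / 128 * (2 * k / c ^ 2) * z := by gcongr
      _ = c / 64 * k * z := by field_simp; ring
  have q3 : be * (A * z) ≤ A * z := by
    have : 0 ≤ A * z := by positivity
    nlinarith
  have q4 : be * (A * se * (K + z)) ≤ 1 / 128 * (K + z) := by
    have h0 : 0 ≤ A * se * (K + z) := by positivity
    have : be * (A * se * (K + z)) ≤ 1 * (A * se * (K + z)) :=
      mul_le_mul_of_nonneg_right hbe4 h0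
    linarith
  have q5 : A * (k ^ 2 / c ^ 2) * x ≤ A / c ^ 3 * (k * G) := by
    calc A * (k ^ 2 / c ^ 2) * x = A / c ^ 3 * (k * (c * (k * x))) := by field_simp
      _ ≤ A / c ^ 3 * (k * G) := by gcongr
  have q6 : k * y ≤ s * y := mul_le_mul_of_nonneg_right hks hy
  have hxx : 256 * (A * x) ≤ G := by
    have h1 : 256 * A * x ≤ c * k * x := mul_le_mul_of_nonneg_right hkA hx
    linarith
  have hyy : 256 * (A * y) ≤ c * (s * y) := by
    have h1 : 256 * A * y ≤ c * k * y := mul_le_mul_of_nonneg_right hkA hy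
    have h2 : c * (k * y) ≤ c * (s * y) := mul_le_mul_of_nonneg_left q6 hc.le
    linarith
  have hxA : x ≤ A * x := le_mul_of_one_le_left hx hA
  have hyA : y ≤ A * y := le_mul_of_one_le_left hy hA
  have hkG : G ≤ k * G := le_mul_of_one_le_left hG0 hkpos
  have hAc3 : 1 ≤ A / c ^ 3 := by
    rw [le_div_iff₀ (by positivity)]
    have : c ^ 3 ≤ 1 := pow_le_one₀ hc.le hc1
    linarith
  have hkG2 : k * G ≤ A / c ^ 3 * (k * G) := le_mul_of_one_le_left (by positivity) hAc3
  have hkz : c / 64 * k * z = c * (k * x) / 64 + c * (k * y) / 64 := by rw [hz]; ring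
  have hq6 : c * (k * y) ≤ c * (s * y) := mul_le_mul_of_nonneg_left q6 hc.le
  have hmain : 7 / 32 * K + c / 32 * (s * y) ≤ 2 * (A / c ^ 3 * (k * G)) := by
    have e1 : A * (k ^ 2 / c ^ 2) * x + (-(c / 16) * s + A) * y + A * z
        + A * se * (K + z) + be * (A * (s / c) * z + A * z + A * se * (K + z))
        = A * (k ^ 2 / c ^ 2) * x - c / 16 * (s * y) + A * y + A * z
        + A * se * (K + z) + be * (A * (s / c) * z) + be * (A * z)
        + be * (A * se * (K + z)) := by ring
    rw [e1] at ha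
    have e2 : A * z = A * x + A * y := by rw [hz]; ring
    rw [hkz] at q2
    rw [e2] at ha q3
    have e3 : K + z = K + x + y := by rw [hz]; ring
    rw [e3] at ha q1 q4
    linarith
  have hcs : 0 ≤ c / 32 * (s * y) := by positivity
  have hKle : K ≤ 10 * (A / c ^ 3 * (k * G)) := by linarith
  have hyle : k * y ≤ 64 * (A / c ^ 4 * (k * G)) := by
    have h1 : c / 32 * (s * y) ≤ 2 * (A / c ^ 3 * (k * G)) := by linarith
    have h2 : c / 32 * (k * y) ≤ 2 * (A / c ^ 3 * (k * G)) := by
      have : c / 32 * (k * y) ≤ c / 32 * (s * y) := by gcongr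
      linarith
    have h3 : k * y = 32 / c * (c / 32 * (k * y)) := by field_simp
    rw [h3]
    calc 32 / c * (c / 32 * (k * y)) ≤ 32 / c * (2 * (A / c ^ 3 * (k * G))) := by gcongr
      _ = 64 * (A / c ^ 4 * (k * G)) := by field_simp; ring
  have hxle : k * x ≤ 1 / c * (k * G) := by
    have h3 : k * x = 1 / c * (c * (k * x)) := by field_simp
    rw [h3]
    exact mul_le_mul_of_nonneg_left (hxG.trans hkG) (by positivity)
  set T := K + k * x + k * y with hT
  have hT0 : 0 ≤ T := by positivity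
  have hTle : T ≤ CT * (k * G) := by
    have h1 : A / c ^ 3 ≤ A / c ^ 4 := by
      apply div_le_div_of_nonneg_left hA0.le (by positivity)
      exact pow_le_pow_of_le_one hc.le hc1 (by norm_num)
    have h2 : 1 / c ≤ A / c ^ 4 := by
      rw [div_le_div_iff₀ hc (by positivity)]
      have : c ^ 4 ≤ c := by
        calc c ^ 4 ≤ c ^ 1 := pow_le_pow_of_le_one hc.le hc1 (by norm_num)
          _ = c := pow_one c
      nlinarith
    have h0 : 0 ≤ k * G := by positivity
    have h3 : 10 * (A / c ^ 3 * (k * G)) ≤ 10 * (A / c ^ 4 * (k * G)) := by gcongr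
    have h4 : 1 / c * (k * G) ≤ A / c ^ 4 * (k * G) := by gcongr
    have h5 : CT * (k * G) = 225 * (A / c ^ 4 * (k * G)) := by rw [hCT]; ring
    have h6 : 0 ≤ A / c ^ 4 * (k * G) := by positivity
    rw [h5]
    linarith
  have hxk : x ≤ k * x := le_mul_of_one_le_left hx hkpos
  have hyk : y ≤ k * y := le_mul_of_one_le_left hy hkpos
  have hzT : K + z ≤ T := by rw [hz, hT]; linarith
  have hzT' : k * z ≤ T := by
    have : k * z = k * x + k * y := by rw [hz]; ring
    linarith
  have hzT'' : z ≤ T := by linarith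
  -- bound of k N
  have hkN : k * N ≤ 7 * A / c ^ 2 / k * T := by
    have h1 : s / c ≤ 2 * k / c ^ 2 := by
      rw [div_le_div_iff₀ hc hc2p]
      have := mul_le_mul_of_nonneg_right hsk hc2p.le
      calc s * c ^ 2 ≤ 2 * k / c * c ^ 2 := this
        _ = 2 * k * c := by field_simp
    have h2 : A * (s / c) * z ≤ 2 * A / c ^ 2 * T := by
      calc A * (s / c) * z ≤ A * (2 * k / c ^ 2) * z := by gcongr
        _ = 2 * A / c ^ 2 * (k * z) := by ring
        _ ≤ 2 * A / c ^ 2 * T := by gcongr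
    have h3 : A * z ≤ A / c ^ 2 * T := by
      have : A ≤ A / c ^ 2 := by
        rw [le_div_iff₀ hc2p]
        nlinarith
      exact mul_le_mul this hzT'' hz0 (by positivity)
    have h4 : A * se * (K + z) ≤ A / c ^ 2 * T := by
      have h5 : (1 : ℝ) / 128 ≤ A / c ^ 2 := by
        rw [le_div_iff₀ hc2p]
        nlinarith
      exact q1.trans (mul_le_mul h5 hzT (by positivity) (by positivity))
    have h6 : 3 * K ≤ 3 * (A / c ^ 2 * T) := by
      have : (1 : ℝ) ≤ A / c ^ 2 := by
        rw [le_div_iff₀ hc2p]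
        linarith
      have h7 : K ≤ T := by linarith
      have h8 : T ≤ A / c ^ 2 * T := le_mul_of_one_le_left hT0 this
      linarith
    have h9 : k ^ 2 * N ≤ 7 * (A / c ^ 2 * T) := by
      have e5 : 2 * A / c ^ 2 * T = 2 * (A / c ^ 2 * T) := by ring
      linarith
    have h10 : k * N = (k ^ 2 * N) / k := by field_simp
    rw [h10, div_le_iff₀ hkp]
    calc k ^ 2 * N ≤ 7 * (A / c ^ 2 * T) := h9
      _ = 7 * A / c ^ 2 / k * T * k := by field_simp
  -- conclusion
  have hfin : k * G ≤ (e + 7 * A ^ 2 / c ^ 2 / k + A * se) * T := by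
    have h1 : k * G ≤ k * (e * y + A * N + A * se * (K + z) / (1 + s)) :=
      mul_le_mul_of_nonneg_left hcc hkp.le
    have h2 : k * (A * se * (K + z) / (1 + s)) ≤ A * se * T := by
      have h3 : k / (1 + s) ≤ 1 := by
        rw [div_le_one (by positivity)]
        linarith
      calc k * (A * se * (K + z) / (1 + s)) = (A * se * (K + z)) * (k / (1 + s)) := by ring
        _ ≤ (A * se * (K + z)) * 1 := by gcongr
        _ ≤ A * se * T := by
            rw [mul_one]
            exact mul_le_mul_of_nonneg_left hzT (by positivity)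
    have h4 : k * (e * y) ≤ e * T := by
      calc k * (e * y) = e * (k * y) := by ring
        _ ≤ e * T := by
            refine mul_le_mul_of_nonneg_left ?_ he
            rw [hT]
            have : 0 ≤ k * x := by positivity
            linarith
    have h5 : k * (A * N) ≤ 7 * A ^ 2 / c ^ 2 / k * T := by
      calc k * (A * N) = A * (k * N) := by ring
        _ ≤ A * (7 * A / c ^ 2 / k * T) := by gcongr
        _ = 7 * A ^ 2 / c ^ 2 / k * T := by ring
    have e6 : k * (e * y + A * N + A * se * (K + z) / (1 + s))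
        = k * (e * y) + k * (A * N) + k * (A * se * (K + z) / (1 + s)) := by ring
    rw [e6] at h1
    have e7 : (e + 7 * A ^ 2 / c ^ 2 / k + A * se) * T
        = e * T + 7 * A ^ 2 / c ^ 2 / k * T + A * se * T := by ring
    rw [e7]
    linarith
  have hsmall : (e + 7 * A ^ 2 / c ^ 2 / k + A * se) * CT ≤ 1 / 2 := by
    have h1 : e * CT ≤ 1 / 8 := by
      have h2 : e ≤ 1 / (8 * A * CT) := he2.trans (min_le_right _ _)
      rw [le_div_iff₀ (by positivity)] at h2
      have h3 : e * CT ≤ e * (A * CT) := by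
        have : CT ≤ A * CT := le_mul_of_one_le_left hCTp.le hA
        exact mul_le_mul_of_nonneg_left this he
      linarith
    have h4 : A * se * CT ≤ 1 / 8 := by
      have h2 : se ≤ 1 / (8 * A * CT) := hse2.trans (min_le_right _ _)
      rw [le_div_iff₀ (by positivity)] at h2
      linarith
    have h5 : 7 * A ^ 2 / c ^ 2 / k * CT ≤ 1 / 4 := by
      rw [div_mul_eq_mul_div, div_le_iff₀ hkp]
      linarith
    have e8 : (e + 7 * A ^ 2 / c ^ 2 / k + A * se) * CT
        = e * CT + 7 * A ^ 2 / c ^ 2 / k * CT + A * se * CT := by ring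
    rw [e8]
    linarith
  have hGle : k * G ≤ 1 / 2 * (k * G) := by
    have h1 : (e + 7 * A ^ 2 / c ^ 2 / k + A * se) * T
        ≤ (e + 7 * A ^ 2 / c ^ 2 / k + A * se) * (CT * (k * G)) :=
      mul_le_mul_of_nonneg_left hTle (by positivity)
    have h2 : (e + 7 * A ^ 2 / c ^ 2 / k + A * se) * (CT * (k * G))
        = ((e + 7 * A ^ 2 / c ^ 2 / k + A * se) * CT) * (k * G) := by ring
    have h3 : ((e + 7 * A ^ 2 / c ^ 2 / k + A * se) * CT) * (k * G) ≤ 1 / 2 * (k * G) :=
      mul_le_mul_of_nonneg_right hsmall (by positivity)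
    linarith
  have hkG0 : k * G ≤ 0 := by linarith
  have hTz : T ≤ 0 := by
    have : CT * (k * G) ≤ 0 := mul_nonpos_of_nonneg_of_nonpos hCTp.le hkG0
    linarith
  constructor
  · linarith
  · linarith

end Crest.Agent.R086.C2
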