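import Crest.Agent.R086.C2Defs

/-!
Row 86 (S0114), Part C, node C2: the integrated identities (helper310).
-/

set_option autoImplicit false

open Complex ComplexConjugate MeasureTheory Set

namespace Crest.Agent.R086.C2

open CCore

/-- FTC, continuous up to the end points -/
theorem ftcR {f f' : ℝ → ℝ} {R : ℝ} (hR : 0 < R) (hc : ContinuousOn f (Icc 0 R))
    (hd : ∀ r ∈ Ioo (0 : ℝ) R, HasDerivAt f (f' r) r) (hc' : ContinuousOn f' (Icc 0 R)) :
    ∫ r in (0 : ℝ)..R, f' r = f R - f 0 :=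
  intervalIntegral.integral_eq_sub_of_hasDerivAt_of_le hR.le hc hd
    (hc'.intervalIntegrable_of_Icc hR.le)

/-- linearity in list form -/
theorem lin {R : ℝ} (hR : 0 < R) (L : List (ℝ × (ℝ → ℝ)))
    (hL : ∀ p ∈ L, ContinuousOn p.2 (Icc 0 R)) :
    (∫ r in (0 : ℝ)..R, (L.map (fun p => p.1 * p.2 r)).sum) =
      (L.map (fun p => p.1 * ∫ r in (0 : ℝ)..R, p.2 r)).sum := by
  have key : ∀ L : List (ℝ × (ℝ → ℝ)), (∀ p ∈ L, ContinuousOn p.2 (Icc 0 R)) →
      ContinuousOn (fun r => (L.map (fun p => p.1 * p.2 r)).sum) (Icc 0 R) := by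
    intro L
    induction L with
    | nil => intro _; simpa using continuousOn_const
    | cons a L ih =>
      intro h
      simp only [List.map_cons, List.sum_cons]
      exact (continuousOn_const.mul (h a (by simp))).add (ih (fun p hp => h p (by simp [hp])))
  induction L with
  | nil => simp
  | cons a L ih =>
    simp only [List.map_cons, List.sum_cons]
    have i1 : IntervalIntegrable (fun r => a.1 * a.2 r) volume 0 R :=
      ContinuousOn.intervalIntegrable_of_Icc hR.le (continuousOn_const.mul (hL a (by simp)))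
    have i2 : IntervalIntegrable (fun r => (L.map (fun p => p.1 * p.2 r)).sum) volume 0 R :=
      ContinuousOn.intervalIntegrable_of_Icc hR.le (key L (fun p hp => hL p (by simp [hp])))
    rw [intervalIntegral.integral_add i1 i2,
      intervalIntegral.integral_const_mul, ih (fun p hp => hL p (by simp [hp]))]

theorem re_intervalIntegral {f : ℝ → ℂ} {R : ℝ} (hR : 0 < R) (hf : ContinuousOn f (Icc 0 R)) :
    (∫ r in (0 : ℝ)..R, f r).re = ∫ r in (0 : ℝ)..R, (f r).re := by
  have hi := hf.intervalIntegrable_of_Icc (μ := volume) hR.le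
  have := Complex.reCLM.intervalIntegral_comp_comm hi
  simpa using this.symm

theorem im_intervalIntegral {f : ℝ → ℂ} {R : ℝ} (hR : 0 < R) (hf : ContinuousOn f (Icc 0 R)) :
    (∫ r in (0 : ℝ)..R, f r).im = ∫ r in (0 : ℝ)..R, (f r).im := by
  have hi := hf.intervalIntegrable_of_Icc (μ := volume) hR.le
  have := Complex.imCLM.intervalIntegral_comp_comm hi
  simpa using this.symm

section

variable {R n eps kap : ℝ} {lam : ℂ} {q2 b P P1 rq psi : ℝ → ℝ} {S S1 D D1 : ℝ → ℂ}

theorem cip (h2 : ContinuousOn q2 (Icc 0 R)) {g : ℝ → ℝ} (hg : ContinuousOn g (Icc 0 R))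
    {S T : ℝ → ℂ} (hS : ContinuousOn S (Icc 0 R)) (hT : ContinuousOn T (Icc 0 R)) :
    ContinuousOn (fun r => ((q2 r * r ^ 11 * g r : ℝ) : ℂ) * (conj (S r) * T r)) (Icc 0 R) := by
  refine ContinuousOn.mul ?_ (ContinuousOn.mul ?_ hT)
  · exact Complex.continuous_ofReal.comp_continuousOn (by fun_prop)
  · exact Complex.continuous_conj.comp_continuousOn hS

theorem ip_re (hR : 0 < R) (h2 : ContinuousOn q2 (Icc 0 R)) {g : ℝ → ℝ}
    (hg : ContinuousOn g (Icc 0 R)) {S T : ℝ → ℂ} (hS : ContinuousOn S (Icc 0 R))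
    (hT : ContinuousOn T (Icc 0 R)) :
    (ip R q2 g S T).re = ∫ r in (0 : ℝ)..R, q2 r * r ^ 11 * g r * (conj (S r) * T r).re := by
  unfold ip
  rw [re_intervalIntegral hR (cip h2 hg hS hT)]
  congr 1
  funext r
  rw [Complex.re_ofReal_mul]

theorem ip_im (hR : 0 < R) (h2 : ContinuousOn q2 (Icc 0 R)) {g : ℝ → ℝ}
    (hg : ContinuousOn g (Icc 0 R)) {S T : ℝ → ℂ} (hS : ContinuousOn S (Icc 0 R))
    (hT : ContinuousOn T (Icc 0 R)) :
    (ip R q2 g S T).im = ∫ r in (0 : ℝ)..R, q2 r * r ^ 11 * g r * (conj (S r) * T r).im := by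
  unfold ip
  rw [im_intervalIntegral hR (cip h2 hg hS hT)]
  congr 1
  funext r
  rw [Complex.im_ofReal_mul]

theorem re_d {f : ℝ → ℂ} {f' : ℂ} {r : ℝ} (hf : HasDerivAt f f' r) :
    HasDerivAt (fun r => (f r).re) f'.re r := Complex.reCLM.hasFDerivAt.comp_hasDerivAt r hf
theorem im_d {f : ℝ → ℂ} {f' : ℂ} {r : ℝ} (hf : HasDerivAt f f' r) :
    HasDerivAt (fun r => (f r).im) f'.im r := Complex.imCLM.hasFDerivAt.comp_hasDerivAt r hf

theorem ns (z : ℂ) : ‖z‖ ^ 2 = z.re ^ 2 + z.im ^ 2 := by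
  rw [← Complex.normSq_eq_norm_sq, Complex.normSq_apply]
  ring

theorem ccre {f : ℝ → ℂ} {s : Set ℝ} (hf : ContinuousOn f s) : ContinuousOn (fun r => (f r).re) s :=
  Complex.continuous_re.comp_continuousOn hf
theorem ccim {f : ℝ → ℂ} {s : Set ℝ} (hf : ContinuousOn f s) : ContinuousOn (fun r => (f r).im) s :=
  Complex.continuous_im.comp_continuousOn hf
theorem cccj {f : ℝ → ℂ} {s : Set ℝ} (hf : ContinuousOn f s) :
    ContinuousOn (fun r => conj (f r)) s :=
  Complex.continuous_conj.comp_continuousOn hf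

namespace Rad

/-- continuity of `Re (conj S T)` -/
theorem cre {S T : ℝ → ℂ} (hS : ContinuousOn S (Icc 0 R)) (hT : ContinuousOn T (Icc 0 R)) :
    ContinuousOn (fun r => (conj (S r) * T r).re) (Icc 0 R) := ccre ((cccj hS).mul hT)
theorem cim {S T : ℝ → ℂ} (hS : ContinuousOn S (Icc 0 R)) (hT : ContinuousOn T (Icc 0 R)) :
    ContinuousOn (fun r => (conj (S r) * T r).im) (Icc 0 R) := ccim ((cccj hS).mul hT)

/-- Poincare -/
theorem idP (h : Rad R n eps kap lam q2 b P P1 rq psi S S1 D D1) {T T1 : ℝ → ℂ}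
    (cT : ContinuousOn T (Icc 0 R)) (cT1 : ContinuousOn T1 (Icc 0 R))
    (hT : ∀ r ∈ Ioo (0 : ℝ) R, HasDerivAt T (T1 r) r) : IdP R q2 psi T T1 := by
  have hR := h.hR
  have c2 := h.cq2
  have cpsi := h.cpsi
  have cn := cT.norm
  have cr := cre cT cT1
  have key := ftcR (f := fun r => r * psi r * (q2 r * r ^ 11) * ‖T r‖ ^ 2)
    (f' := fun r => 12 * (q2 r * r ^ 11 * ‖T r‖ ^ 2) +
      2 * (q2 r * r ^ 11 * (r * psi r) * (conj (T r) * T1 r).re)) hR (by fun_prop)
    (fun r hr => by
      have h1 := h.hpsi r hr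
      have h2 := re_d (hT r hr)
      have h3 := im_d (hT r hr)
      have h4 := h1.mul ((h2.pow 2).add (h3.pow 2))
      have e : (fun r => r * psi r * (q2 r * r ^ 11) * ‖T r‖ ^ 2) =
          (fun r => r * psi r * (q2 r * r ^ 11)) *
            ((fun r => (T r).re) ^ 2 + (fun r => (T r).im) ^ 2) := by
        funext x
        simp [ns]
      rw [e]
      refine h4.congr_deriv ?_
      simp only [ns, Pi.add_apply, Pi.pow_apply, Complex.mul_re, Complex.conj_re, Complex.conj_im]
      push_cast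
      ring) (by fun_prop)
  have hl := lin hR [(12, fun r => q2 r * r ^ 11 * ‖T r‖ ^ 2),
    (2, fun r => q2 r * r ^ 11 * (r * psi r) * (conj (T r) * T1 r).re)] (by
      intro p hp
      simp only [List.mem_cons, List.not_mem_nil, or_false] at hp
      rcases hp with rfl | rfl <;> fun_prop)
  simp only [List.map_cons, List.map_nil, List.sum_cons, List.sum_nil, add_zero] at hl
  rw [key] at hl
  unfold IdP nrm wR
  rw [ip_re hR c2 (g := fun r => r * psi r) (by fun_prop) cT cT1]
  simp only [zero_mul, sub_zero] at hl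
  linarith


/-- equipartition -/
theorem idE (h : Rad R n eps kap lam q2 b P P1 rq psi S S1 D D1) :
    IdE R n eps kap lam q2 b P S S1 D D1 := by
  have hR := h.hR
  have c2 := h.cq2
  have cb := h.cb
  have cP := h.cP
  have nS := h.cS.norm
  have nS1 := h.cS1.norm
  have nD := h.cD.norm
  have nD1 := h.cD1.norm
  have a1 := cre h.cS h.cS1
  have a2 := cre h.cD h.cD1
  have a3 := cim h.cS h.cD
  have key := ftcR (f := fun r => q2 r * r ^ 11 * (conj (S r) * S1 r).re
      - q2 r * r ^ 11 * (conj (D r) * D1 r).re - q2 r * r ^ 11 * b r * (conj (S r) * D r).im)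
    (f' := fun r => n * (q2 r * r ^ 11 * P r * ‖S r‖ ^ 2) +
      (1 * (q2 r * r ^ 11 * ‖S1 r‖ ^ 2) + (kap * (q2 r * r ^ 9 * ‖S r‖ ^ 2) +
      ((-1) * (q2 r * r ^ 11 * ‖D1 r‖ ^ 2) + ((-kap) * (q2 r * r ^ 9 * ‖D r‖ ^ 2) +
      (-(6 - 2 * eps - 2 * lam.re)) * (q2 r * r ^ 11 * 1 * (conj (S r) * D r).im)))))) hR
    (by fun_prop)
    (fun r hr => by
      have h1 := h.sys r hr
      have hr0 : r ≠ 0 := h1.hr
      have e1 := re_d (h1.hS1.mul (hasDerivAt_conj h1.hS))
      have e2 := re_d (h1.hD1.mul (hasDerivAt_conj h1.hD))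
      have e3 := im_d (h1.hwb.ofReal_comp.mul ((hasDerivAt_conj h1.hS).mul h1.hD))
      have e4 := (e1.sub e2).sub e3
      have hk1 : ((kap : ℂ) / (r : ℂ) ^ 2) = ((kap / r ^ 2 : ℝ) : ℂ) := by push_cast; rfl
      rw [hk1] at e4
      refine (e4.congr_of_eventuallyEq (Filter.Eventually.of_forall fun x => ?_)).congr_deriv ?_
      · simp only [Pi.mul_apply, Pi.sub_apply, Complex.mul_re, Complex.mul_im, Complex.conj_re,
          Complex.conj_im, Complex.ofReal_re, Complex.ofReal_im]
        ring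
      · simp only [ns, Complex.mul_re, Complex.mul_im, Complex.add_re,
          Complex.add_im, Complex.sub_re, Complex.sub_im, Complex.conj_re, Complex.conj_im,
          Complex.ofReal_re, Complex.ofReal_im, Complex.I_re, Complex.I_im, Complex.zero_re,
          Complex.zero_im, Pi.mul_apply]
        field_simp
        ring) (by fun_prop)
  have hl := lin hR [(n, fun r => q2 r * r ^ 11 * P r * ‖S r‖ ^ 2),
    (1, fun r => q2 r * r ^ 11 * ‖S1 r‖ ^ 2), (kap, fun r => q2 r * r ^ 9 * ‖S r‖ ^ 2),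
    (-1, fun r => q2 r * r ^ 11 * ‖D1 r‖ ^ 2), (-kap, fun r => q2 r * r ^ 9 * ‖D r‖ ^ 2),
    (-(6 - 2 * eps - 2 * lam.re), fun r => q2 r * r ^ 11 * 1 * (conj (S r) * D r).im)] (by
      intro p hp
      simp only [List.mem_cons, List.not_mem_nil, or_false] at hp
      rcases hp with rfl | rfl | rfl | rfl | rfl | rfl <;> fun_prop)
  simp only [List.map_cons, List.map_nil, List.sum_cons, List.sum_nil, add_zero] at hl
  rw [key] at hl
  unfold IdE wnrm nrm ang wR
  rw [ip_im hR c2 (g := 1) (by fun_prop) h.cS h.cD]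
  simp only [Complex.sub_re, Pi.one_apply]
  simp only [ne_eq, OfNat.ofNat_ne_zero, not_false_eq_true, zero_pow, mul_zero, zero_mul,
    sub_zero] at hl
  linarith

/-- charge -/
theorem idC (h : Rad R n eps kap lam q2 b P P1 rq psi S S1 D D1) :
    IdC R eps lam q2 b S S1 D D1 := by
  have hR := h.hR
  have c2 := h.cq2
  have cb := h.cb
  have a1 := cim h.cS h.cS1
  have a2 := cim h.cD h.cD1
  have a3 := cre h.cS h.cD
  have key := ftcR (f := fun r => q2 r * r ^ 11 * (conj (S r) * S1 r).im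
      + q2 r * r ^ 11 * (conj (D r) * D1 r).im + q2 r * r ^ 11 * b r * (conj (S r) * D r).re)
    (f' := fun r => (6 - 2 * eps - 2 * lam.re) * (q2 r * r ^ 11 * 1 * (conj (S r) * D r).re)) hR
    (by fun_prop)
    (fun r hr => by
      have h1 := h.sys r hr
      have hr0 : r ≠ 0 := h1.hr
      have e1 := im_d (h1.hS1.mul (hasDerivAt_conj h1.hS))
      have e2 := im_d (h1.hD1.mul (hasDerivAt_conj h1.hD))
      have e3 := re_d (h1.hwb.ofReal_comp.mul ((hasDerivAt_conj h1.hS).mul h1.hD))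
      have e4 := (e1.add e2).add e3
      have hk1 : ((kap : ℂ) / (r : ℂ) ^ 2) = ((kap / r ^ 2 : ℝ) : ℂ) := by push_cast; rfl
      rw [hk1] at e4
      refine (e4.congr_of_eventuallyEq (Filter.Eventually.of_forall fun x => ?_)).congr_deriv ?_
      · simp only [Pi.mul_apply, Pi.add_apply, Complex.mul_re, Complex.mul_im, Complex.conj_re,
          Complex.conj_im, Complex.ofReal_re, Complex.ofReal_im]
        ring
      · simp only [Complex.mul_re, Complex.mul_im, Complex.add_re,
          Complex.add_im, Complex.sub_re, Complex.sub_im, Complex.conj_re, Complex.conj_im,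
          Complex.ofReal_re, Complex.ofReal_im, Complex.I_re, Complex.I_im, Complex.zero_re,
          Complex.zero_im, Pi.mul_apply]
        field_simp
        ring) (by fun_prop)
  rw [intervalIntegral.integral_const_mul] at key
  unfold IdC wR
  rw [ip_re hR c2 (g := 1) (by fun_prop) h.cS h.cD]
  simp only [Complex.add_im, Pi.one_apply]
  simp only [ne_eq, OfNat.ofNat_ne_zero, not_false_eq_true, zero_pow, mul_zero, zero_mul,
    sub_zero, add_zero] at key
  linarith

/-- (E2) -/
theorem idD (h : Rad R n eps kap lam q2 b P P1 rq psi S S1 D D1) :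
    IdD R eps kap lam q2 b S D D1 := by
  have hR := h.hR
  have c2 := h.cq2
  have cb := h.cb
  have nD := h.cD.norm
  have nD1 := h.cD1.norm
  have a2 := cre h.cD h.cD1
  have a3 := cim h.cS h.cD
  have a4 := cim h.cS h.cD1
  have a5 := cre h.cS h.cD
  have key := ftcR (f := fun r => q2 r * r ^ 11 * (conj (D r) * D1 r).re
      + q2 r * r ^ 11 * b r * (conj (S r) * D r).im)
    (f' := fun r => 1 * (q2 r * r ^ 11 * ‖D1 r‖ ^ 2) + (kap * (q2 r * r ^ 9 * ‖D r‖ ^ 2) +
      ((6 - 2 * eps - lam.re) * (q2 r * r ^ 11 * 1 * (conj (S r) * D r).im) +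
      (lam.im * (q2 r * r ^ 11 * 1 * (conj (S r) * D r).re) +
        1 * (q2 r * r ^ 11 * b r * (conj (S r) * D1 r).im))))) hR
    (by fun_prop)
    (fun r hr => by
      have h1 := h.sys r hr
      have hr0 : r ≠ 0 := h1.hr
      have e2 := re_d (h1.hD1.mul (hasDerivAt_conj h1.hD))
      have e3 := im_d (h1.hwb.ofReal_comp.mul ((hasDerivAt_conj h1.hS).mul h1.hD))
      have e4 := e2.add e3
      have hk1 : ((kap : ℂ) / (r : ℂ) ^ 2) = ((kap / r ^ 2 : ℝ) : ℂ) := by push_cast; rfl
      rw [hk1] at e4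
      refine (e4.congr_of_eventuallyEq (Filter.Eventually.of_forall fun x => ?_)).congr_deriv ?_
      · simp only [Pi.mul_apply, Pi.add_apply, Complex.mul_re, Complex.mul_im, Complex.conj_re,
          Complex.conj_im, Complex.ofReal_re, Complex.ofReal_im]
        ring
      · simp only [ns, Complex.mul_re, Complex.mul_im, Complex.add_re,
          Complex.add_im, Complex.sub_re, Complex.sub_im, Complex.conj_re, Complex.conj_im,
          Complex.ofReal_re, Complex.ofReal_im, Complex.I_re, Complex.I_im, Complex.zero_re,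
          Complex.zero_im, Pi.mul_apply]
        field_simp
        ring) (by fun_prop)
  have hl := lin hR [(1, fun r => q2 r * r ^ 11 * ‖D1 r‖ ^ 2),
    (kap, fun r => q2 r * r ^ 9 * ‖D r‖ ^ 2),
    (6 - 2 * eps - lam.re, fun r => q2 r * r ^ 11 * 1 * (conj (S r) * D r).im),
    (lam.im, fun r => q2 r * r ^ 11 * 1 * (conj (S r) * D r).re),
    (1, fun r => q2 r * r ^ 11 * b r * (conj (S r) * D1 r).im)] (by
      intro p hp
      simp only [List.mem_cons, List.not_mem_nil, or_false] at hp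
      rcases hp with rfl | rfl | rfl | rfl | rfl <;> fun_prop)
  simp only [List.map_cons, List.map_nil, List.sum_cons, List.sum_nil, add_zero] at hl
  rw [key] at hl
  unfold IdD nrm ang wR
  rw [ip_im hR c2 (g := 1) (by fun_prop) h.cS h.cD, ip_re hR c2 (g := 1) (by fun_prop) h.cS h.cD,
    ip_im hR c2 cb h.cS h.cD1]
  simp only [Pi.one_apply]
  simp only [ne_eq, OfNat.ofNat_ne_zero, not_false_eq_true, zero_pow, mul_zero, zero_mul,
    sub_zero, add_zero] at hl
  linarith

/-- derivative of the multiplier -/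
theorem hm (h : Rad R n eps kap lam q2 b P P1 rq psi S S1 D D1) {r : ℝ} (hr : r ∈ Ioo (0 : ℝ) R) :
    HasDerivAt (fun r => r * psi r) (m1 rq psi r) r := by
  have h1 := h.sys r hr
  have hr0 : r ≠ 0 := h1.hr
  have hw0 := h1.wne
  have h2 := (h.hpsi r hr).div h1.hw hw0
  have hev : (fun r => r * psi r) =ᶠ[nhds r]
      (fun r => r * psi r * (q2 r * r ^ 11)) / (fun r => q2 r * r ^ 11) := by
    have hne : ∀ᶠ x in nhds r, q2 x * x ^ 11 ≠ 0 := h1.hw.continuousAt.eventually_ne hw0
    filter_upwards [hne] with x hx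
    simp only [Pi.div_apply]
    rw [mul_div_assoc, div_self hx, mul_one]
  refine (h2.congr_of_eventuallyEq hev).congr_deriv ?_
  unfold m1
  have hq : q2 r ≠ 0 := by
    intro h0
    exact hw0 (by simp [h0])
  field_simp

/-- (*) -/
theorem idV (h : Rad R n eps kap lam q2 b P P1 rq psi S S1 D D1) :
    IdV R n eps kap lam q2 b P P1 rq psi S S1 D D1 := by
  have hR := h.hR
  have c2 := h.cq2
  have cb := h.cb
  have cP := h.cP
  have cP1 := h.cP1
  have crq := h.crq
  have cpsi := h.cpsi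
  have nS := h.cS.norm
  have nS1 := h.cS1.norm
  have nD := h.cD.norm
  have nD1 := h.cD1.norm
  have a1 := cre h.cS h.cS1
  have a2 := cre h.cD h.cD1
  have a3 := cim h.cS h.cD
  have a4 := cim h.cS h.cD1
  have a5 := cre h.cS h.cD
  have cm1 : ContinuousOn (m1 rq psi) (Icc 0 R) := by
    unfold m1
    fun_prop
  have key := ftcR (f := fun r => 1 / 2 * (r * psi r * (q2 r * r ^ 11) * (‖S1 r‖ ^ 2 + ‖D1 r‖ ^ 2)
        - kap * (psi r * (q2 r * r ^ 10)) * (‖S r‖ ^ 2 + ‖D r‖ ^ 2)
        - n * (r * psi r * (q2 r * r ^ 11) * P r) * ‖S r‖ ^ 2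
        - 2 * lam.im * (r * psi r * (q2 r * r ^ 11)) * (conj (S r) * D r).re)
      + 6 * (q2 r * r ^ 11 * ((conj (S r) * S1 r).re + (conj (D r) * D1 r).re))
      + 6 * (q2 r * r ^ 11 * b r * (conj (S r) * D r).im)
      - lam.re * (r * psi r * (q2 r * r ^ 11)) * (conj (S r) * D r).im)
    (f' := fun r => 1 * (q2 r * r ^ 11 * m1 rq psi r * ‖S1 r‖ ^ 2) +
      (1 * (q2 r * r ^ 11 * m1 rq psi r * ‖D1 r‖ ^ 2) +
      (kap * (q2 r * r ^ 9 * psi r * ‖S r‖ ^ 2) +
      (kap * (q2 r * r ^ 9 * psi r * ‖D r‖ ^ 2) +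
      ((-(n / 2)) * (q2 r * r ^ 11 * (r * psi r * P1 r) * ‖S r‖ ^ 2) +
      (12 * (q2 r * r ^ 11 * b r * (conj (S r) * D1 r).im) +
      ((6 * (6 - 2 * eps) - 12 * lam.re) * (q2 r * r ^ 11 * 1 * (conj (S r) * D r).im) +
      (-2 * lam.re) * (q2 r * r ^ 11 * (r * psi r) * (conj (S r) * D1 r).im)))))))) hR
    (by fun_prop)
    (fun r hr => by
      have h1 := h.sys r hr
      have hr0 : r ≠ 0 := h1.hr
      have e0 := (h1.virial (h.hm hr) (h.hP r hr)).const_mul (1 / 2)
      have e1 := (re_d (h1.hS1.mul (hasDerivAt_conj h1.hS))).const_mul 6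
      have e2 := (re_d (h1.hD1.mul (hasDerivAt_conj h1.hD))).const_mul 6
      have e3 := (im_d (h1.hwb.ofReal_comp.mul ((hasDerivAt_conj h1.hS).mul h1.hD))).const_mul 6
      have e5 := (im_d ((h.hpsi r hr).ofReal_comp.mul
        ((hasDerivAt_conj h1.hS).mul h1.hD))).const_mul lam.re
      have e4 := (((e0.add e1).add e2).add e3).sub e5
      have hk1 : ((kap : ℂ) / (r : ℂ) ^ 2) = ((kap / r ^ 2 : ℝ) : ℂ) := by push_cast; rfl
      rw [hk1] at e4
      refine (e4.congr_of_eventuallyEq (Filter.Eventually.of_forall fun x => ?_)).congr_deriv ?_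
      · simp only [Pi.mul_apply, Pi.add_apply, Pi.sub_apply, Complex.mul_re, Complex.mul_im,
          Complex.conj_re, Complex.conj_im, Complex.ofReal_re, Complex.ofReal_im]
        rcases eq_or_ne x 0 with rfl | hx
        · simp
        · field_simp
          ring
      · simp only [ns, m1, Complex.mul_re, Complex.mul_im,
          Complex.add_re,
          Complex.add_im, Complex.sub_re, Complex.sub_im, Complex.conj_re, Complex.conj_im,
          Complex.ofReal_re, Complex.ofReal_im, Complex.I_re, Complex.I_im, Complex.zero_re,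
          Complex.zero_im, Pi.mul_apply]
        field_simp
        ring) (by fun_prop)
  have hl := lin hR [(1, fun r => q2 r * r ^ 11 * m1 rq psi r * ‖S1 r‖ ^ 2),
    (1, fun r => q2 r * r ^ 11 * m1 rq psi r * ‖D1 r‖ ^ 2),
    (kap, fun r => q2 r * r ^ 9 * psi r * ‖S r‖ ^ 2),
    (kap, fun r => q2 r * r ^ 9 * psi r * ‖D r‖ ^ 2),
    (-(n / 2), fun r => q2 r * r ^ 11 * (r * psi r * P1 r) * ‖S r‖ ^ 2),
    (12, fun r => q2 r * r ^ 11 * b r * (conj (S r) * D1 r).im),
    (6 * (6 - 2 * eps) - 12 * lam.re, fun r => q2 r * r ^ 11 * 1 * (conj (S r) * D r).im),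
    (-2 * lam.re, fun r => q2 r * r ^ 11 * (r * psi r) * (conj (S r) * D1 r).im)] (by
      intro p hp
      simp only [List.mem_cons, List.not_mem_nil, or_false] at hp
      rcases hp with rfl | rfl | rfl | rfl | rfl | rfl | rfl | rfl <;> fun_prop)
  simp only [List.map_cons, List.map_nil, List.sum_cons, List.sum_nil, add_zero] at hl
  rw [key] at hl
  unfold IdV BV R0 wnrm wang wR
  rw [ip_im hR c2 (g := 1) (by fun_prop) h.cS h.cD,
    ip_im hR c2 cb h.cS h.cD1, ip_im hR c2 (g := fun r => r * psi r) (by fun_prop) h.cS h.cD1]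
  simp only [Pi.one_apply, Complex.add_re]
  simp only [ne_eq, OfNat.ofNat_ne_zero, not_false_eq_true, zero_pow, mul_zero, zero_mul,
    sub_zero, add_zero] at hl
  have e9 : kap * (R * psi R * (q2 R * R ^ 11)) / (2 * R ^ 2) =
      kap * (psi R * (q2 R * R ^ 10)) / 2 := by
    field_simp
  rw [e9]
  linarith

end Rad
end

/-- all five integrated identities -/
theorem identities : Identities := by
  intro R n eps kap lam q2 b P P1 rq psi S S1 D D1 h
  exact ⟨h.idV, h.idE, h.idC, h.idD, h.idP h.cS h.cS1 (fun r hr => (h.sys r hr).hS),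
    h.idP h.cD h.cD1 (fun r hr => (h.sys r hr).hD)⟩

end Crest.Agent.R086.C2
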