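import Mathlib
import Crest.Agent.R086.C2Est

/-!
Row 86 (S0114), Part C, node C2: the thin layer estimate (owner helper153).
-/

set_option autoImplicit false

open Complex ComplexConjugate MeasureTheory Set

namespace Crest.Agent.R086.C2

theorem sq_integral_le {a b : ℝ} (hab : a ≤ b) {f : ℝ → ℝ} (hf : ContinuousOn f (Icc a b)) :
    (∫ r in a..b, f r) ^ 2 ≤ (b - a) * ∫ r in a..b, f r ^ 2 := by
  rcases hab.eq_or_lt with rfl | hlt
  · simp
  set J := ∫ r in a..b, f r with hJ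
  have hi : IntervalIntegrable f volume a b := ContinuousOn.intervalIntegrable_of_Icc hab hf
  have hi2 : IntervalIntegrable (fun r => f r ^ 2) volume a b :=
    ContinuousOn.intervalIntegrable_of_Icc hab (hf.pow 2)
  have h0 : 0 ≤ ∫ r in a..b, ((b - a) * f r - J) ^ 2 :=
    intervalIntegral.integral_nonneg hab fun r _ => sq_nonneg _
  have e : ∫ r in a..b, ((b - a) * f r - J) ^ 2
      = (b - a) ^ 2 * (∫ r in a..b, f r ^ 2) - 2 * (b - a) * J * J + J ^ 2 * (b - a) := by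
    have e1 : ∀ r, ((b - a) * f r - J) ^ 2
        = (b - a) ^ 2 * f r ^ 2 - 2 * (b - a) * J * f r + J ^ 2 := fun r => by ring
    simp_rw [e1]
    rw [intervalIntegral.integral_add, intervalIntegral.integral_sub,
      intervalIntegral.integral_const_mul, intervalIntegral.integral_const_mul,
      intervalIntegral.integral_const, ← hJ, smul_eq_mul]
    · ring
    · exact hi2.const_mul _
    · exact hi.const_mul _
    · exact (hi2.const_mul _).sub (hi.const_mul _)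
    · exact intervalIntegrable_const
  rw [e] at h0
  have hpos : 0 < b - a := by linarith
  have h1 : 0 ≤ (b - a) * ((b - a) * (∫ r in a..b, f r ^ 2) - J ^ 2) := by
    nlinarith [h0]
  have h2 := nonneg_of_mul_nonneg_right h1 hpos
  linarith

/-- `|S(r)|² ≤ 2 |S(R)|² + 2 (R-r) ∫_r^R |S'|²` -/
theorem point_le {R : ℝ} {S S1 : ℝ → ℂ} {r : ℝ} (hr0 : 0 ≤ r) (hr : r ≤ R)
    (cS : ContinuousOn S (Icc 0 R)) (cS1 : ContinuousOn S1 (Icc 0 R))
    (hS : ∀ x ∈ Ioo (0 : ℝ) R, HasDerivAt S (S1 x) x) :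
    ‖S r‖ ^ 2 ≤ 2 * ‖S R‖ ^ 2 + 2 * ((R - r) * ∫ x in r..R, ‖S1 x‖ ^ 2) := by
  have hsub : Icc r R ⊆ Icc 0 R := Icc_subset_Icc_left hr0
  have hftc : ∫ x in r..R, S1 x = S R - S r := by
    refine intervalIntegral.integral_eq_sub_of_hasDerivAt_of_le hr (cS.mono hsub) ?_ ?_
    · intro x hx
      exact hS x ⟨lt_of_le_of_lt hr0 hx.1, hx.2⟩
    · exact ContinuousOn.intervalIntegrable_of_Icc hr (cS1.mono hsub)
  have h1 : ‖S R - S r‖ ≤ ∫ x in r..R, ‖S1 x‖ := by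
    rw [← hftc]
    exact intervalIntegral.norm_integral_le_integral_norm hr
  have h2 : (∫ x in r..R, ‖S1 x‖) ^ 2 ≤ (R - r) * ∫ x in r..R, ‖S1 x‖ ^ 2 :=
    sq_integral_le hr (cS1.mono hsub).norm
  have h3 : ‖S R - S r‖ ^ 2 ≤ (R - r) * ∫ x in r..R, ‖S1 x‖ ^ 2 := by
    refine le_trans ?_ h2
    exact pow_le_pow_left₀ (norm_nonneg _) h1 2
  have h4 : ‖S r‖ ≤ ‖S R‖ + ‖S R - S r‖ := by
    calc ‖S r‖ = ‖S R - (S R - S r)‖ := by congr 1; ring
      _ ≤ ‖S R‖ + ‖S R - S r‖ := norm_sub_le _ _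
  have h5 : ‖S r‖ ^ 2 ≤ (‖S R‖ + ‖S R - S r‖) ^ 2 := pow_le_pow_left₀ (norm_nonneg _) h4 2
  nlinarith [sq_nonneg (‖S R‖ - ‖S R - S r‖)]

theorem layer {R tau C0 c : ℝ} {q2 P : ℝ → ℝ} {S S1 : ℝ → ℂ}
    (hC0 : 1 ≤ C0) (hR1 : 1 ≤ R) (hRC : R ≤ C0) (ht : 0 < tau) (ht2 : tau ≤ 1 / 2) (hc : 0 < c)
    (hq1 : ∀ r ∈ Icc (0 : ℝ) R, 1 / C0 ≤ q2 r) (hq2 : ∀ r ∈ Icc (0 : ℝ) R, q2 r ≤ C0)
    (cq2 : ContinuousOn q2 (Icc 0 R)) (cP : ContinuousOn P (Icc 0 R))
    (cS : ContinuousOn S (Icc 0 R)) (cS1 : ContinuousOn S1 (Icc 0 R))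
    (hS : ∀ x ∈ Ioo (0 : ℝ) R, HasDerivAt S (S1 x) x)
    (hP0 : ∀ r ∈ Icc (0 : ℝ) R, 0 ≤ P r) (hPc : ∀ r ∈ Icc (0 : ℝ) (R - tau), c ≤ P r) :
    nrm R q2 S ≤ c⁻¹ * wnrm R q2 P S
      + 2 ^ 12 * C0 ^ 13 * tau * (wR R q2 * ‖S R‖ ^ 2 + tau * nrm R q2 S1) := by
  have hR : 0 ≤ R := by linarith
  have hC : 0 < C0 := by linarith
  have hRt : 0 ≤ R - tau := by linarith
  have hRt' : R - tau ≤ R := by linarith
  have hq0 : ∀ r ∈ Icc (0 : ℝ) R, 0 < q2 r := fun r hr =>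
    lt_of_lt_of_le (by positivity) (hq1 r hr)
  have hsubL : Icc 0 (R - tau) ⊆ Icc 0 R := Icc_subset_Icc_right hRt'
  have hsubR : Icc (R - tau) R ⊆ Icc 0 R := Icc_subset_Icc_left hRt
  -- split
  have cn := cont_nrm (S := S) cq2 cS
  have cn1 := cont_nrm (S := S1) cq2 cS1
  have iL : IntervalIntegrable (fun r => q2 r * r ^ 11 * ‖S r‖ ^ 2) volume 0 (R - tau) :=
    ContinuousOn.intervalIntegrable_of_Icc hRt (cn.mono hsubL)
  have iR : IntervalIntegrable (fun r => q2 r * r ^ 11 * ‖S r‖ ^ 2) volume (R - tau) R :=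
    ContinuousOn.intervalIntegrable_of_Icc hRt' (cn.mono hsubR)
  have hsplit : nrm R q2 S = (∫ r in (0 : ℝ)..(R - tau), q2 r * r ^ 11 * ‖S r‖ ^ 2)
      + ∫ r in (R - tau)..R, q2 r * r ^ 11 * ‖S r‖ ^ 2 := by
    unfold nrm
    rw [intervalIntegral.integral_add_adjacent_intervals iL iR]
  -- left part
  have cw : ContinuousOn (fun r => q2 r * r ^ 11 * P r * ‖S r‖ ^ 2) (Icc 0 R) :=
    ((cont_w cq2).mul cP).mul (cS.norm.pow 2)
  have hL : (∫ r in (0 : ℝ)..(R - tau), q2 r * r ^ 11 * ‖S r‖ ^ 2) ≤ c⁻¹ * wnrm R q2 P S := by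
    have h1 : (∫ r in (0 : ℝ)..(R - tau), q2 r * r ^ 11 * ‖S r‖ ^ 2)
        ≤ ∫ r in (0 : ℝ)..(R - tau), c⁻¹ * (q2 r * r ^ 11 * P r * ‖S r‖ ^ 2) := by
      refine intervalIntegral.integral_mono_on hRt iL ?_ fun r hr => ?_
      · exact ContinuousOn.intervalIntegrable_of_Icc hRt
          (continuousOn_const.mul (cw.mono hsubL))
      · have hq := (hq0 r (hsubL hr)).le
        have hPr := hPc r hr
        have hr0 := hr.1
        have : 1 ≤ c⁻¹ * P r := by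
          rw [inv_mul_eq_div, le_div_iff₀ hc]
          linarith
        calc q2 r * r ^ 11 * ‖S r‖ ^ 2 = (q2 r * r ^ 11 * ‖S r‖ ^ 2) * 1 := by ring
          _ ≤ (q2 r * r ^ 11 * ‖S r‖ ^ 2) * (c⁻¹ * P r) := by
              exact mul_le_mul_of_nonneg_left this (by positivity)
          _ = _ := by ring
    refine h1.trans ?_
    rw [intervalIntegral.integral_const_mul]
    refine mul_le_mul_of_nonneg_left ?_ (by positivity)
    unfold wnrm
    have iA : IntervalIntegrable (fun r => q2 r * r ^ 11 * P r * ‖S r‖ ^ 2) volume 0 (R - tau) :=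
      ContinuousOn.intervalIntegrable_of_Icc hRt (cw.mono hsubL)
    have iB : IntervalIntegrable (fun r => q2 r * r ^ 11 * P r * ‖S r‖ ^ 2) volume (R - tau) R :=
      ContinuousOn.intervalIntegrable_of_Icc hRt' (cw.mono hsubR)
    rw [← intervalIntegral.integral_add_adjacent_intervals iA iB]
    have : 0 ≤ ∫ r in (R - tau)..R, q2 r * r ^ 11 * P r * ‖S r‖ ^ 2 := by
      refine intervalIntegral.integral_nonneg hRt' fun r hr => ?_
      have h1 := (hq0 r (hsubR hr)).le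
      have h2 := hP0 r (hsubR hr)
      have h3 : 0 ≤ r := hRt.trans hr.1
      positivity
    linarith
  -- right part
  set J := ∫ x in (R - tau)..R, ‖S1 x‖ ^ 2 with hJ
  have iS1 : IntervalIntegrable (fun x => ‖S1 x‖ ^ 2) volume (R - tau) R :=
    ContinuousOn.intervalIntegrable_of_Icc hRt' ((cS1.norm.pow 2).mono hsubR)
  have hJ0 : 0 ≤ J := intervalIntegral.integral_nonneg hRt' fun r _ => by positivity
  have hpt : ∀ r ∈ Icc (R - tau) R, ‖S r‖ ^ 2 ≤ 2 * ‖S R‖ ^ 2 + 2 * (tau * J) := by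
    intro r hr
    have h1 := point_le (hRt.trans hr.1) hr.2 cS cS1 hS
    have h2 : (∫ x in r..R, ‖S1 x‖ ^ 2) ≤ J := by
      rw [hJ]
      refine intervalIntegral.integral_mono_interval hr.1 hr.2 le_rfl ?_ iS1
      exact Filter.Eventually.of_forall fun x => by positivity
    have h3 : 0 ≤ ∫ x in r..R, ‖S1 x‖ ^ 2 :=
      intervalIntegral.integral_nonneg hr.2 fun r _ => by positivity
    have h4 : (R - r) * (∫ x in r..R, ‖S1 x‖ ^ 2) ≤ tau * J := by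
      refine mul_le_mul ?_ h2 h3 ht.le
      linarith [hr.1]
    linarith
  have hRr : (∫ r in (R - tau)..R, q2 r * r ^ 11 * ‖S r‖ ^ 2)
      ≤ tau * (C0 ^ 12 * (2 * ‖S R‖ ^ 2 + 2 * (tau * J))) := by
    have h1 : (∫ r in (R - tau)..R, q2 r * r ^ 11 * ‖S r‖ ^ 2)
        ≤ ∫ _r in (R - tau)..R, C0 ^ 12 * (2 * ‖S R‖ ^ 2 + 2 * (tau * J)) := by
      refine intervalIntegral.integral_mono_on hRt' iR intervalIntegrable_const fun r hr => ?_
      have h2 := hq2 r (hsubR hr)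
      have h3 : 0 ≤ r := hRt.trans hr.1
      have h4 : r ^ 11 ≤ C0 ^ 11 := pow_le_pow_left₀ h3 (hr.2.trans hRC) 11
      have h5 := hpt r hr
      have h6 : q2 r * r ^ 11 ≤ C0 ^ 12 := by
        calc q2 r * r ^ 11 ≤ C0 * C0 ^ 11 := by
              refine mul_le_mul h2 h4 (by positivity) hC.le
          _ = C0 ^ 12 := by ring
      exact mul_le_mul h6 h5 (by positivity) (by positivity)
    rw [intervalIntegral.integral_const, smul_eq_mul] at h1
    have e : R - (R - tau) = tau := by ring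
    rwa [e] at h1
  -- J in terms of nrm S1
  have hwmin : ∀ r ∈ Icc (R - tau) R, 1 ≤ (C0 * 2 ^ 11) * (q2 r * r ^ 11) := by
    intro r hr
    have h1 := hq1 r (hsubR hr)
    have h2 : (1 / 2 : ℝ) ≤ r := by linarith [hr.1]
    have h3 : (1 / 2 : ℝ) ^ 11 ≤ r ^ 11 := pow_le_pow_left₀ (by norm_num) h2 11
    have h4 : 1 ≤ C0 * q2 r := by
      rw [div_le_iff₀ hC] at h1
      linarith
    calc (1 : ℝ) = 1 * (2 ^ 11 * (1 / 2) ^ 11) := by norm_num
      _ ≤ (C0 * q2 r) * (2 ^ 11 * r ^ 11) := by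
          refine mul_le_mul h4 ?_ (by positivity) (by linarith)
          exact mul_le_mul_of_nonneg_left h3 (by norm_num)
      _ = _ := by ring
  have hJle : J ≤ (C0 * 2 ^ 11) * nrm R q2 S1 := by
    have iN : IntervalIntegrable (fun r => q2 r * r ^ 11 * ‖S1 r‖ ^ 2) volume (R - tau) R :=
      ContinuousOn.intervalIntegrable_of_Icc hRt' (cn1.mono hsubR)
    have h1 : J ≤ ∫ r in (R - tau)..R, (C0 * 2 ^ 11) * (q2 r * r ^ 11 * ‖S1 r‖ ^ 2) := by
      rw [hJ]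
      refine intervalIntegral.integral_mono_on hRt' iS1 (iN.const_mul _) fun r hr => ?_
      calc ‖S1 r‖ ^ 2 = 1 * ‖S1 r‖ ^ 2 := by ring
        _ ≤ ((C0 * 2 ^ 11) * (q2 r * r ^ 11)) * ‖S1 r‖ ^ 2 :=
            mul_le_mul_of_nonneg_right (hwmin r hr) (by positivity)
        _ = _ := by ring
    refine h1.trans ?_
    rw [intervalIntegral.integral_const_mul]
    refine mul_le_mul_of_nonneg_left ?_ (by positivity)
    unfold nrm
    refine intervalIntegral.integral_mono_interval hRt hRt' le_rfl ?_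
      (ContinuousOn.intervalIntegrable_of_Icc hR cn1)
    rw [Filter.EventuallyLE, ae_restrict_iff' measurableSet_Ioc]
    refine Filter.Eventually.of_forall fun r hr => ?_
    have h2 := (hq0 r ⟨hr.1.le, hr.2⟩).le
    have h3 : 0 ≤ r := hr.1.le
    simp only [Pi.zero_apply]
    positivity
  have hSR : ‖S R‖ ^ 2 ≤ (C0 * 2 ^ 11) * (wR R q2 * ‖S R‖ ^ 2) := by
    have h1 := hwmin R ⟨hRt', le_refl R⟩
    unfold wR
    calc ‖S R‖ ^ 2 = 1 * ‖S R‖ ^ 2 := by ring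
      _ ≤ ((C0 * 2 ^ 11) * (q2 R * R ^ 11)) * ‖S R‖ ^ 2 :=
          mul_le_mul_of_nonneg_right h1 (by positivity)
      _ = _ := by ring
  have hfin : tau * (C0 ^ 12 * (2 * ‖S R‖ ^ 2 + 2 * (tau * J)))
      ≤ 2 ^ 12 * C0 ^ 13 * tau * (wR R q2 * ‖S R‖ ^ 2 + tau * nrm R q2 S1) := by
    have h1 : 2 * ‖S R‖ ^ 2 + 2 * (tau * J)
        ≤ 2 * ((C0 * 2 ^ 11) * (wR R q2 * ‖S R‖ ^ 2))
          + 2 * (tau * ((C0 * 2 ^ 11) * nrm R q2 S1)) := by
      have := mul_le_mul_of_nonneg_left hJle ht.le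
      linarith
    calc tau * (C0 ^ 12 * (2 * ‖S R‖ ^ 2 + 2 * (tau * J)))
        ≤ tau * (C0 ^ 12 * (2 * ((C0 * 2 ^ 11) * (wR R q2 * ‖S R‖ ^ 2))
          + 2 * (tau * ((C0 * 2 ^ 11) * nrm R q2 S1)))) := by gcongr
      _ = _ := by ring
  rw [hsplit]
  linarith

end Crest.Agent.R086.C2
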