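import Mathlib
import Crest.Agent.R086.C2Lay

/-!
Row 86 (S0114), Part C, node C2: interior estimate (owner helper153).
-/

set_option autoImplicit false

open Complex ComplexConjugate MeasureTheory Set

namespace Crest.Agent.R086.C2

/-- Uniform bounds on the background data at radius `R`. -/
structure Bnd (C0 tau c sig : ℝ) (R n eps kap : ℝ) (lam : ℂ) (q2 b P P1 rq psi : ℝ → ℝ) :
    Prop where
  R1 : 1 ≤ R
  RC : R ≤ C0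
  n0 : 0 < n
  eps0 : 0 ≤ eps
  eps1 : eps ≤ 1
  kap0 : 0 ≤ kap
  re0 : 0 ≤ lam.re
  reC : lam.re ≤ C0
  q1 : ∀ r ∈ Icc (0 : ℝ) R, 1 / C0 ≤ q2 r
  q2' : ∀ r ∈ Icc (0 : ℝ) R, q2 r ≤ C0
  bC : ∀ r ∈ Icc (0 : ℝ) R, |b r| ≤ C0
  psi1 : ∀ r ∈ Icc (0 : ℝ) R, 1 / 2 ≤ psi r
  psiC : ∀ r ∈ Icc (0 : ℝ) R, psi r ≤ C0
  m1h : ∀ r ∈ Icc (0 : ℝ) R, 1 / 2 ≤ m1 rq psi r
  rqC : ∀ r ∈ Icc (0 : ℝ) R, |rq r| ≤ C0
  P0 : ∀ r ∈ Icc (0 : ℝ) R, 0 ≤ P r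
  PC : ∀ r ∈ Icc (0 : ℝ) R, P r ≤ C0
  Pc : ∀ r ∈ Icc (0 : ℝ) (R - tau), c ≤ P r
  P1s : ∀ r ∈ Icc (0 : ℝ) R, r * psi r * P1 r ≤ sig * P r

section defs
variable (R n kap : ℝ) (q2 P : ℝ → ℝ) (S S1 D D1 : ℝ → ℂ)

/-- gradient energy -/
noncomputable def KK : ℝ := (nrm R q2 S1 + kap * ang R q2 S) + (nrm R q2 D1 + kap * ang R q2 D)
/-- potential energy -/
noncomputable def Pot : ℝ := n * wnrm R q2 P S
/-- boundary square -/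
noncomputable def Bq : ℝ := wR R q2 * (‖S R‖ ^ 2 + ‖D R‖ ^ 2)
/-- boundary term of the equipartition -/
noncomputable def BE : ℝ := wR R q2 * (conj (S R) * S1 R - conj (D R) * D1 R).re
/-- boundary term of (E2) -/
noncomputable def BD : ℝ := wR R q2 * (conj (D R) * D1 R).re
end defs

theorem wnrm_nonneg {R : ℝ} {q2 P : ℝ → ℝ} {S : ℝ → ℂ} (hR : 0 ≤ R)
    (hq : ∀ r ∈ Icc (0 : ℝ) R, 0 ≤ q2 r) (hP : ∀ r ∈ Icc (0 : ℝ) R, 0 ≤ P r) :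
    0 ≤ wnrm R q2 P S := by
  refine intervalIntegral.integral_nonneg hR fun r hr => ?_
  have := hq r hr
  have h1 := hP r hr
  have h0 := hr.1
  positivity

theorem abs_re_mul_le (z1 z2 : ℂ) : |(conj z1 * z2).re| ≤ (‖z1‖ ^ 2 + ‖z2‖ ^ 2) / 2 := by
  have h1 := Complex.abs_re_le_norm (conj z1 * z2)
  rw [norm_mul, RCLike.norm_conj] at h1
  nlinarith [sq_nonneg (‖z1‖ - ‖z2‖)]

theorem abs_im_mul_le (z1 z2 : ℂ) : |(conj z1 * z2).im| ≤ (‖z1‖ ^ 2 + ‖z2‖ ^ 2) / 2 := by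
  have h1 := Complex.abs_im_le_norm (conj z1 * z2)
  rw [norm_mul, RCLike.norm_conj] at h1
  nlinarith [sq_nonneg (‖z1‖ - ‖z2‖)]

/-- the cross terms -/
noncomputable def XX (R : ℝ) (q2 b psi : ℝ → ℝ) (S D D1 : ℝ → ℂ) : ℝ :=
  ‖ip R q2 b S D1‖ + ‖ip R q2 1 S D‖ + ‖ip R q2 (fun r => r * psi r) S D1‖

section main

variable {C0 tau c sig : ℝ} {R n eps kap : ℝ} {lam : ℂ} {q2 b P P1 rq psi : ℝ → ℝ}
  {S S1 D D1 : ℝ → ℂ}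

theorem XX_le (hC0 : 1 ≤ C0) (h : Rad R n eps kap lam q2 b P P1 rq psi S S1 D D1)
    (hb : Bnd C0 tau c sig R n eps kap lam q2 b P P1 rq psi)
    (hId : IdP R q2 psi D D1) (ht : 0 < tau) (ht2 : tau ≤ 1 / 2) (hc : 0 < c)
    {t : ℝ} (htt : 0 < t) :
    XX R q2 b psi S D D1 ≤ 3 / 2 * C0 ^ 2 * (t * (n * c)⁻¹) * Pot R n q2 P S
      + 3 / 2 * C0 ^ 2 * (t * (2 ^ 12 * C0 ^ 13 * tau ^ 2) + t⁻¹ * (2 * C0 ^ 4))
        * KK R kap q2 S S1 D D1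
      + 3 / 2 * C0 ^ 2 * (t * (2 ^ 12 * C0 ^ 13) + t⁻¹ * C0 ^ 2) * Bq R q2 S D := by
  have hR : 0 ≤ R := h.hR.le
  have hC : 0 < C0 := by linarith
  have hq0 : ∀ r ∈ Icc (0 : ℝ) R, 0 ≤ q2 r := fun r hr => (h.q2pos r hr).le
  have hm : ∀ r ∈ Icc (0 : ℝ) R, |r * psi r| ≤ C0 ^ 2 := by
    intro r hr
    have h1 := hb.psi1 r hr
    have h2 := hb.psiC r hr
    rw [abs_of_nonneg (mul_nonneg hr.1 (by linarith))]
    calc r * psi r ≤ C0 * C0 := mul_le_mul (hr.2.trans hb.RC) h2 (by linarith) hC.le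
      _ = C0 ^ 2 := by ring
  have hC2 : C0 ≤ C0 ^ 2 := by nlinarith
  have hC21 : (1 : ℝ) ≤ C0 ^ 2 := by nlinarith
  have hbb : ∀ r ∈ Icc (0 : ℝ) R, |b r| ≤ C0 ^ 2 := fun r hr => (hb.bC r hr).trans hC2
  have h1b : ∀ r ∈ Icc (0 : ℝ) R, |(1 : ℝ → ℝ) r| ≤ C0 ^ 2 := by
    intro r _
    simpa using hC21
  have y1 := ip_young hR hq0 h.cq2 h.cb h.cS h.cD1 hbb htt
  have y2 := ip_young (g := 1) hR hq0 h.cq2 continuousOn_const h.cS h.cD h1b htt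
  have y3 := ip_young (g := fun r => r * psi r) hR hq0 h.cq2 (continuousOn_id.mul h.cpsi)
    h.cS h.cD1 hm htt
  have hpc := poincare hR hq0 h.cq2 h.cpsi h.cD h.cD1 (M := C0 ^ 2) (by positivity) hm hId
  have hl := layer hC0 hb.R1 hb.RC ht ht2 hc hb.q1 hb.q2' h.cq2 h.cP h.cS h.cS1
    (fun x hx => (h.sys x hx).hS) hb.P0 hb.Pc
  have nS1 : 0 ≤ nrm R q2 S1 := nrm_nonneg hR hq0
  have nD1 : 0 ≤ nrm R q2 D1 := nrm_nonneg hR hq0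
  have nD : 0 ≤ nrm R q2 D := nrm_nonneg hR hq0
  have nS : 0 ≤ nrm R q2 S := nrm_nonneg hR hq0
  have aS : 0 ≤ ang R q2 S := ang_nonneg hR hq0
  have aD : 0 ≤ ang R q2 D := ang_nonneg hR hq0
  have hkS := mul_nonneg hb.kap0 aS
  have hkD := mul_nonneg hb.kap0 aD
  have hwR : 0 ≤ wR R q2 := by
    have := hq0 R ⟨hR, le_refl R⟩
    unfold wR
    positivity
  have bS : 0 ≤ wR R q2 * ‖S R‖ ^ 2 := by positivity
  have bD : 0 ≤ wR R q2 * ‖D R‖ ^ 2 := by positivity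
  have hwP : wnrm R q2 P S = n⁻¹ * Pot R n q2 P S := by
    unfold Pot
    field_simp [hb.n0.ne']
  have hKS1 : nrm R q2 S1 ≤ KK R kap q2 S S1 D D1 := by unfold KK; linarith
  have hKD1 : nrm R q2 D1 ≤ KK R kap q2 S S1 D D1 := by unfold KK; linarith
  have hK0 : 0 ≤ KK R kap q2 S S1 D D1 := by unfold KK; linarith
  have hBS : wR R q2 * ‖S R‖ ^ 2 ≤ Bq R q2 S D := by
    unfold Bq
    nlinarith
  have hBD : wR R q2 * ‖D R‖ ^ 2 ≤ Bq R q2 S D := by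
    unfold Bq
    nlinarith
  have hB0 : 0 ≤ Bq R q2 S D := bS.trans hBS
  -- nrm D
  have eD : nrm R q2 D ≤ C0 ^ 2 * Bq R q2 S D + C0 ^ 4 * KK R kap q2 S S1 D D1 - nrm R q2 D1 * 0 := by
    have e1 : C0 ^ 2 * (wR R q2 * ‖D R‖ ^ 2) ≤ C0 ^ 2 * Bq R q2 S D :=
      mul_le_mul_of_nonneg_left hBD (by positivity)
    have e2 : (C0 ^ 2) ^ 2 / 6 * nrm R q2 D1 ≤ C0 ^ 4 * KK R kap q2 S S1 D D1 := by
      have : (C0 ^ 2) ^ 2 / 6 * nrm R q2 D1 ≤ (C0 ^ 2) ^ 2 * nrm R q2 D1 := by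
        have : 0 ≤ (C0 ^ 2) ^ 2 * nrm R q2 D1 := by positivity
        linarith
      refine this.trans ?_
      calc (C0 ^ 2) ^ 2 * nrm R q2 D1 = C0 ^ 4 * nrm R q2 D1 := by ring
        _ ≤ _ := mul_le_mul_of_nonneg_left hKD1 (by positivity)
    have e3 : 0 ≤ C0 ^ 2 * (wR R q2 * ‖D R‖ ^ 2) := by positivity
    have e4 : 0 ≤ C0 ^ 2 * Bq R q2 S D := by positivity
    have e5 : 0 ≤ C0 ^ 4 * KK R kap q2 S S1 D D1 := by positivity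
    linarith
  have hC4 : (1 : ℝ) ≤ C0 ^ 4 := one_le_pow₀ hC0
  have eDD : nrm R q2 D1 + nrm R q2 D
      ≤ C0 ^ 2 * Bq R q2 S D + 2 * C0 ^ 4 * KK R kap q2 S S1 D D1 := by
    have : KK R kap q2 S S1 D D1 ≤ C0 ^ 4 * KK R kap q2 S S1 D D1 :=
      le_mul_of_one_le_left hK0 hC4
    linarith
  -- nrm S
  have eS : nrm R q2 S ≤ (n * c)⁻¹ * Pot R n q2 P S
      + 2 ^ 12 * C0 ^ 13 * Bq R q2 S D
      + 2 ^ 12 * C0 ^ 13 * tau ^ 2 * KK R kap q2 S S1 D D1 := by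
    have e1 : c⁻¹ * wnrm R q2 P S = (n * c)⁻¹ * Pot R n q2 P S := by
      rw [hwP, mul_inv]
      ring
    have e2 : 2 ^ 12 * C0 ^ 13 * tau * (wR R q2 * ‖S R‖ ^ 2)
        ≤ 2 ^ 12 * C0 ^ 13 * Bq R q2 S D := by
      have : 2 ^ 12 * C0 ^ 13 * tau ≤ 2 ^ 12 * C0 ^ 13 := by
        have h13 : (0 : ℝ) ≤ 2 ^ 12 * C0 ^ 13 := by positivity
        nlinarith
      exact mul_le_mul this hBS bS (by positivity)
    have e3 : 2 ^ 12 * C0 ^ 13 * tau * (tau * nrm R q2 S1)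
        ≤ 2 ^ 12 * C0 ^ 13 * tau ^ 2 * KK R kap q2 S S1 D D1 := by
      calc 2 ^ 12 * C0 ^ 13 * tau * (tau * nrm R q2 S1)
          = 2 ^ 12 * C0 ^ 13 * tau ^ 2 * nrm R q2 S1 := by ring
        _ ≤ _ := mul_le_mul_of_nonneg_left hKS1 (by positivity)
    rw [e1] at hl
    linarith
  unfold XX
  have s1 : t * nrm R q2 S ≤ t * ((n * c)⁻¹ * Pot R n q2 P S
      + 2 ^ 12 * C0 ^ 13 * Bq R q2 S D
      + 2 ^ 12 * C0 ^ 13 * tau ^ 2 * KK R kap q2 S S1 D D1) :=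
    mul_le_mul_of_nonneg_left eS htt.le
  have s2 : t⁻¹ * (nrm R q2 D1 + nrm R q2 D)
      ≤ t⁻¹ * (C0 ^ 2 * Bq R q2 S D + 2 * C0 ^ 4 * KK R kap q2 S S1 D D1) :=
    mul_le_mul_of_nonneg_left eDD (by positivity)
  have s3 : ‖ip R q2 b S D1‖ + ‖ip R q2 1 S D‖ + ‖ip R q2 (fun r => r * psi r) S D1‖
      ≤ 3 / 2 * C0 ^ 2 * (t * nrm R q2 S + t⁻¹ * (nrm R q2 D1 + nrm R q2 D)) := by
    have n1 : 0 ≤ C0 ^ 2 / 2 * (t⁻¹ * nrm R q2 D) := by positivity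
    have n2 : 0 ≤ C0 ^ 2 / 2 * (t⁻¹ * nrm R q2 D1) := by positivity
    have e : 3 / 2 * C0 ^ 2 * (t * nrm R q2 S + t⁻¹ * (nrm R q2 D1 + nrm R q2 D))
        = 3 * (C0 ^ 2 / 2 * (t * nrm R q2 S)) + 3 * (C0 ^ 2 / 2 * (t⁻¹ * nrm R q2 D1))
          + 3 * (C0 ^ 2 / 2 * (t⁻¹ * nrm R q2 D)) := by ring
    rw [e]
    have y1' : ‖ip R q2 b S D1‖ ≤ C0 ^ 2 / 2 * (t * nrm R q2 S)
        + C0 ^ 2 / 2 * (t⁻¹ * nrm R q2 D1) := by rw [← mul_add]; exact y1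
    have y2' : ‖ip R q2 1 S D‖ ≤ C0 ^ 2 / 2 * (t * nrm R q2 S)
        + C0 ^ 2 / 2 * (t⁻¹ * nrm R q2 D) := by rw [← mul_add]; exact y2
    have y3' : ‖ip R q2 (fun r => r * psi r) S D1‖ ≤ C0 ^ 2 / 2 * (t * nrm R q2 S)
        + C0 ^ 2 / 2 * (t⁻¹ * nrm R q2 D1) := by rw [← mul_add]; exact y3
    linarith
  refine s3.trans ?_
  have s4 : t * nrm R q2 S + t⁻¹ * (nrm R q2 D1 + nrm R q2 D)
      ≤ t * ((n * c)⁻¹ * Pot R n q2 P S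
      + 2 ^ 12 * C0 ^ 13 * Bq R q2 S D
      + 2 ^ 12 * C0 ^ 13 * tau ^ 2 * KK R kap q2 S S1 D D1)
      + t⁻¹ * (C0 ^ 2 * Bq R q2 S D + 2 * C0 ^ 4 * KK R kap q2 S S1 D D1) := add_le_add s1 s2
  refine (mul_le_mul_of_nonneg_left s4 (by positivity)).trans (le_of_eq ?_)
  ring

end main

end Crest.Agent.R086.C2
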