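import Mathlib
import Crest.Agent.R086.C2Int0

/-!
Row 86 (S0114), Part C, node C2: interior estimate, second part (owner helper153).
-/

set_option autoImplicit false

open Complex ComplexConjugate MeasureTheory Set

namespace Crest.Agent.R086.C2

section nonneg
variable {C0 tau c sig : ℝ} {R n eps kap : ℝ} {lam : ℂ} {q2 b P P1 rq psi : ℝ → ℝ}
  {S S1 D D1 : ℝ → ℂ}

theorem KK_nonneg (h : Rad R n eps kap lam q2 b P P1 rq psi S S1 D D1) (hk : 0 ≤ kap) :
    0 ≤ KK R kap q2 S S1 D D1 := by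
  have hR : 0 ≤ R := h.hR.le
  have hq0 : ∀ r ∈ Icc (0 : ℝ) R, 0 ≤ q2 r := fun r hr => (h.q2pos r hr).le
  have nS1 : 0 ≤ nrm R q2 S1 := nrm_nonneg hR hq0
  have nD1 : 0 ≤ nrm R q2 D1 := nrm_nonneg hR hq0
  have aS : 0 ≤ ang R q2 S := ang_nonneg hR hq0
  have aD : 0 ≤ ang R q2 D := ang_nonneg hR hq0
  have hkS := mul_nonneg hk aS
  have hkD := mul_nonneg hk aD
  unfold KK
  linarith

theorem wR_nonneg (h : Rad R n eps kap lam q2 b P P1 rq psi S S1 D D1) : 0 < wR R q2 := by
  have := h.q2pos R ⟨h.hR.le, le_refl R⟩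
  have h0 := h.hR
  unfold wR
  positivity

theorem Bq_nonneg (h : Rad R n eps kap lam q2 b P P1 rq psi S S1 D D1) : 0 ≤ Bq R q2 S D := by
  have := wR_nonneg h
  unfold Bq
  positivity

theorem Pot_nonneg (h : Rad R n eps kap lam q2 b P P1 rq psi S S1 D D1)
    (hb : Bnd C0 tau c sig R n eps kap lam q2 b P P1 rq psi) : 0 ≤ Pot R n q2 P S := by
  unfold Pot
  exact mul_nonneg hb.n0.le (wnrm_nonneg h.hR.le (fun r hr => (h.q2pos r hr).le) hb.P0)

end nonneg

theorem XX_small {C0 : ℝ} (hC0 : 1 ≤ C0) {th : ℝ} (hth : 0 < th) :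
    ∃ tau0 : ℝ, 0 < tau0 ∧ tau0 ≤ 1 / 2 ∧ ∃ CX : ℝ, 0 < CX ∧ ∀ c : ℝ, 0 < c → ∀ al : ℝ, 0 < al →
    ∃ n0 : ℝ, 0 < n0 ∧ ∀ {tau sig R n eps kap : ℝ} {lam : ℂ} {q2 b P P1 rq psi : ℝ → ℝ}
      {S S1 D D1 : ℝ → ℂ}, 0 < tau → tau ≤ tau0 → n0 ≤ n →
      Rad R n eps kap lam q2 b P P1 rq psi S S1 D D1 →
      Bnd C0 tau c sig R n eps kap lam q2 b P P1 rq psi →
      IdP R q2 psi D D1 →
      XX R q2 b psi S D D1 ≤ al * Pot R n q2 P S + th * KK R kap q2 S S1 D D1
        + CX * Bq R q2 S D := by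
  have hC : 0 < C0 := by linarith
  set t0 : ℝ := 6 * C0 ^ 6 / th with ht0
  have ht0p : 0 < t0 := by positivity
  refine ⟨min (1 / 2) (th / (3 * 2 ^ 12 * C0 ^ 15 * t0)), by positivity, min_le_left _ _,
    3 / 2 * C0 ^ 2 * (t0 * (2 ^ 12 * C0 ^ 13) + t0⁻¹ * C0 ^ 2), by positivity, ?_⟩
  intro c hc al hal
  refine ⟨3 / 2 * C0 ^ 2 * t0 / (c * al), by positivity, ?_⟩
  intro tau sig R n eps kap lam q2 b P P1 rq psi S S1 D D1 ht htt hn h hb hId
  have ht2 : tau ≤ 1 / 2 := htt.trans (min_le_left _ _)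
  have ht3 : tau ≤ th / (3 * 2 ^ 12 * C0 ^ 15 * t0) := htt.trans (min_le_right _ _)
  have hmain := XX_le hC0 h hb hId ht ht2 hc ht0p
  refine hmain.trans ?_
  have hP0 := Pot_nonneg h hb
  have hK0 := KK_nonneg h hb.kap0
  have hn0 := hb.n0
  have e1 : 3 / 2 * C0 ^ 2 * (t0 * (n * c)⁻¹) ≤ al := by
    rw [div_le_iff₀ (by positivity)] at hn
    rw [show 3 / 2 * C0 ^ 2 * (t0 * (n * c)⁻¹) = (3 / 2 * C0 ^ 2 * t0) / (n * c) by
      field_simp]
    rw [div_le_iff₀ (by positivity)]
    linarith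
  have e2 : 3 / 2 * C0 ^ 2 * (t0 * (2 ^ 12 * C0 ^ 13 * tau ^ 2) + t0⁻¹ * (2 * C0 ^ 4)) ≤ th := by
    have a1 : tau ^ 2 ≤ tau := by nlinarith
    have a2 : t0⁻¹ * (3 * C0 ^ 6) = th / 2 := by
      rw [ht0]
      field_simp
      ring
    have a3 : 3 / 2 * C0 ^ 2 * (t0⁻¹ * (2 * C0 ^ 4)) = th / 2 := by
      rw [← a2]
      ring
    have a4 : 3 / 2 * C0 ^ 2 * (t0 * (2 ^ 12 * C0 ^ 13 * tau ^ 2)) ≤ th / 2 := by
      rw [le_div_iff₀ (by positivity)] at ht3
      have : 3 / 2 * C0 ^ 2 * (t0 * (2 ^ 12 * C0 ^ 13 * tau ^ 2))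
          = (3 * 2 ^ 12 * C0 ^ 15 * t0) * tau ^ 2 / 2 := by ring
      rw [this]
      have a5 : (3 * 2 ^ 12 * C0 ^ 15 * t0) * tau ^ 2 ≤ (3 * 2 ^ 12 * C0 ^ 15 * t0) * tau :=
        mul_le_mul_of_nonneg_left a1 (by positivity)
      linarith
    rw [mul_add]
    linarith
  have f1 := mul_le_mul_of_nonneg_right e1 hP0
  have f2 := mul_le_mul_of_nonneg_right e2 hK0
  linarith

/-- The five identities at one datum. -/
structure Ids (R n eps kap : ℝ) (lam : ℂ) (q2 b P P1 rq psi : ℝ → ℝ) (S S1 D D1 : ℝ → ℂ) :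
    Prop where
  V : IdV R n eps kap lam q2 b P P1 rq psi S S1 D D1
  E : IdE R n eps kap lam q2 b P S S1 D D1
  C : IdC R eps lam q2 b S S1 D D1
  D' : IdD R eps kap lam q2 b S D D1
  PS : IdP R q2 psi S S1
  PD : IdP R q2 psi D D1

/-- **Interior estimate.** -/
theorem interior {C0 : ℝ} (hC0 : 1 ≤ C0) :
    ∃ tau0 : ℝ, 0 < tau0 ∧ tau0 ≤ 1 / 2 ∧ ∃ C1 : ℝ, 1 ≤ C1 ∧ ∀ c : ℝ, 0 < c →
    ∀ be : ℝ, 0 < be → be ≤ 1 / 32 →
    ∃ n0 : ℝ, 0 < n0 ∧ ∀ {tau sig R n eps kap : ℝ} {lam : ℂ} {q2 b P P1 rq psi : ℝ → ℝ}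
      {S S1 D D1 : ℝ → ℂ}, 0 < tau → tau ≤ tau0 → n0 ≤ n → sig ≤ be →
      Rad R n eps kap lam q2 b P P1 rq psi S S1 D D1 →
      Bnd C0 tau c sig R n eps kap lam q2 b P P1 rq psi →
      Ids R n eps kap lam q2 b P P1 rq psi S S1 D D1 →
      KK R kap q2 S S1 D D1 / 4 ≤ BV R n kap lam q2 b P psi S S1 D D1 + C1 * Bq R q2 S D
        + 4 * be * |BE R q2 S S1 D D1| ∧
      |lam.im| * |(ip R q2 1 S D).re| ≤ 3 * KK R kap q2 S S1 D D1 + |BD R q2 D D1|
        + |BE R q2 S S1 D D1| + C1 * Bq R q2 S D := by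
  have hC : 0 < C0 := by linarith
  obtain ⟨tau0, ht0, ht02, CX, hCX, hX⟩ := XX_small hC0 (th := 1 / (1000 * C0)) (by positivity)
  refine ⟨tau0, ht0, ht02, 200 * C0 * CX + 10 * C0, by
    have : 0 < 200 * C0 * CX := by positivity
    linarith, ?_⟩
  intro c hc be hbe hbe2
  obtain ⟨n0, hn0, hX⟩ := hX c hc (be / (100 * C0)) (by positivity)
  refine ⟨n0, hn0, ?_⟩
  intro tau sig R n eps kap lam q2 b P P1 rq psi S S1 D D1 ht htt hn hsig h hb hi
  have hXX := hX ht htt hn h hb hi.PD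
  have hP0 := Pot_nonneg h hb
  have hK0 := KK_nonneg h hb.kap0
  have hB0 := Bq_nonneg h
  have hwR := wR_nonneg h
  set K := KK R kap q2 S S1 D D1 with hK
  set Po := Pot R n q2 P S with hPo
  set B := Bq R q2 S D with hB
  set X := XX R q2 b psi S D D1 with hXdef
  have hR : 0 ≤ R := h.hR.le
  have hq0 : ∀ r ∈ Icc (0 : ℝ) R, 0 ≤ q2 r := fun r hr => (h.q2pos r hr).le
  have nS1 : 0 ≤ nrm R q2 S1 := nrm_nonneg hR hq0
  have nD1 : 0 ≤ nrm R q2 D1 := nrm_nonneg hR hq0
  have aS : 0 ≤ ang R q2 S := ang_nonneg hR hq0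
  have aD : 0 ≤ ang R q2 D := ang_nonneg hR hq0
  have hkS := mul_nonneg hb.kap0 aS
  have hkD := mul_nonneg hb.kap0 aD
  have hX0 : 0 ≤ X := by rw [hXdef]; unfold XX; positivity
  -- the cross terms
  have xA : |(ip R q2 b S D1).im| ≤ X := by
    refine (Complex.abs_im_le_norm _).trans ?_
    rw [hXdef]; unfold XX
    have := norm_nonneg (ip R q2 1 S D)
    have := norm_nonneg (ip R q2 (fun r => r * psi r) S D1)
    linarith
  have xN : |(ip R q2 1 S D).im| ≤ X := by
    refine (Complex.abs_im_le_norm _).trans ?_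
    rw [hXdef]; unfold XX
    have := norm_nonneg (ip R q2 b S D1)
    have := norm_nonneg (ip R q2 (fun r => r * psi r) S D1)
    linarith
  have xM : |(ip R q2 (fun r => r * psi r) S D1).im| ≤ X := by
    refine (Complex.abs_im_le_norm _).trans ?_
    rw [hXdef]; unfold XX
    have := norm_nonneg (ip R q2 b S D1)
    have := norm_nonneg (ip R q2 1 S D)
    linarith
  -- 100 C0 X
  have hX100 : 100 * C0 * X ≤ be * Po + K / 10 + 100 * C0 * CX * B := by
    have := mul_le_mul_of_nonneg_left hXX (by positivity : 0 ≤ 100 * C0)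
    have e : 100 * C0 * (be / (100 * C0) * Po + 1 / (1000 * C0) * K + CX * B)
        = be * Po + K / 10 + 100 * C0 * CX * B := by
      field_simp
      ring
    linarith
  -- boundary b term
  have hbR := hb.bC R ⟨hR, le_refl R⟩
  have him : |wR R q2 * b R * (conj (S R) * D R).im| ≤ C0 * B := by
    rw [abs_mul, abs_mul, abs_of_pos hwR]
    have h1 := abs_im_mul_le (S R) (D R)
    have h2 : |(conj (S R) * D R).im| ≤ ‖S R‖ ^ 2 + ‖D R‖ ^ 2 := by
      have : 0 ≤ ‖S R‖ ^ 2 + ‖D R‖ ^ 2 := by positivity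
      linarith
    calc wR R q2 * |b R| * |(conj (S R) * D R).im|
        ≤ wR R q2 * C0 * (‖S R‖ ^ 2 + ‖D R‖ ^ 2) := by gcongr
      _ = C0 * B := by rw [hB]; unfold Bq; ring
  -- equipartition: bound of Po
  have hE := hi.E
  unfold IdE at hE
  have cf1 : |6 - 2 * eps - 2 * lam.re| ≤ 8 * C0 := by
    rw [abs_le]
    have := hb.eps0; have := hb.eps1; have := hb.re0; have := hb.reC
    constructor <;> linarith
  have cf2 : |6 - 2 * eps - lam.re| ≤ 8 * C0 := by
    rw [abs_le]
    have := hb.eps0; have := hb.eps1; have := hb.re0; have := hb.reC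
    constructor <;> linarith
  have hN1 : |(6 - 2 * eps - 2 * lam.re) * (ip R q2 1 S D).im| ≤ 8 * C0 * X := by
    rw [abs_mul]
    exact mul_le_mul cf1 xN (abs_nonneg _) (by positivity)
  have hN2 : |(6 - 2 * eps - lam.re) * (ip R q2 1 S D).im| ≤ 8 * C0 * X := by
    rw [abs_mul]
    exact mul_le_mul cf2 xN (abs_nonneg _) (by positivity)
  have hPoE : Po ≤ K + |BE R q2 S S1 D D1| + C0 * B + 8 * C0 * X := by
    have e1 : Po = (nrm R q2 D1 + kap * ang R q2 D) - (nrm R q2 S1 + kap * ang R q2 S)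
        + BE R q2 S S1 D D1 - wR R q2 * b R * (conj (S R) * D R).im
        + (6 - 2 * eps - 2 * lam.re) * (ip R q2 1 S D).im := by
      rw [hPo]; unfold Pot BE
      linarith
    have e2 : K = (nrm R q2 S1 + kap * ang R q2 S) + (nrm R q2 D1 + kap * ang R q2 D) := by
      rw [hK]; rfl
    have := le_abs_self (BE R q2 S S1 D D1)
    have := neg_abs_le (wR R q2 * b R * (conj (S R) * D R).im)
    have := le_abs_self ((6 - 2 * eps - 2 * lam.re) * (ip R q2 1 S D).im)
    linarith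
  have hCX100 : 0 ≤ 100 * C0 * CX * B := by positivity
  have hC0X : 0 ≤ C0 * X := by positivity
  have hC0B : 0 ≤ C0 * B := by positivity
  have hBE0 := abs_nonneg (BE R q2 S S1 D D1)
  have hbP : be * Po ≤ Po / 32 := by
    have := mul_le_mul_of_nonneg_right hbe2 hP0
    linarith
  have hC1B : (200 * C0 * CX + 10 * C0) * B = 2 * (100 * C0 * CX * B) + 10 * (C0 * B) := by ring
  have hPo2 : Po ≤ 2 * K + 2 * |BE R q2 S S1 D D1| + 2 * (C0 * B) + 2 * (100 * C0 * CX * B) := by
    have : 8 * C0 * X ≤ 100 * C0 * X := by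
      have e : 100 * C0 * X = 100 * (C0 * X) := by ring
      have e' : 8 * C0 * X = 8 * (C0 * X) := by ring
      rw [e, e']; linarith
    linarith
  rw [hC1B]
  constructor
  · -- virial
    have hV := hi.V
    unfold IdV at hV
    have l1 : nrm R q2 S1 / 2 ≤ wnrm R q2 (m1 rq psi) S1 := by
      unfold nrm wnrm
      rw [← intervalIntegral.integral_div]
      refine intervalIntegral.integral_mono_on hR ?_ ?_ fun r hr => ?_
      · exact ii_of_cont hR ((cont_nrm h.cq2 h.cS1).div_const 2)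
      · refine ii_of_cont hR (((cont_w h.cq2).mul ?_).mul (h.cS1.norm.pow 2))
        unfold m1
        exact continuousOn_const.sub (h.cpsi.mul (continuousOn_const.add
          ((continuousOn_const.mul continuousOn_id).mul h.crq)))
      · have h1 := hb.m1h r hr
        have h2 := hq0 r hr
        have h3 := hr.1
        have h4 : 0 ≤ q2 r * r ^ 11 * ‖S1 r‖ ^ 2 := by positivity
        have h5 := mul_le_mul_of_nonneg_left h1 h4
        have e1 : q2 r * r ^ 11 * m1 rq psi r * ‖S1 r‖ ^ 2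
            = q2 r * r ^ 11 * ‖S1 r‖ ^ 2 * m1 rq psi r := by ring
        rw [e1]
        linarith
    have l2 : nrm R q2 D1 / 2 ≤ wnrm R q2 (m1 rq psi) D1 := by
      unfold nrm wnrm
      rw [← intervalIntegral.integral_div]
      refine intervalIntegral.integral_mono_on hR ?_ ?_ fun r hr => ?_
      · exact ii_of_cont hR ((cont_nrm h.cq2 h.cD1).div_const 2)
      · refine ii_of_cont hR (((cont_w h.cq2).mul ?_).mul (h.cD1.norm.pow 2))
        unfold m1
        exact continuousOn_const.sub (h.cpsi.mul (continuousOn_const.add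
          ((continuousOn_const.mul continuousOn_id).mul h.crq)))
      · have h1 := hb.m1h r hr
        have h2 := hq0 r hr
        have h3 := hr.1
        have h4 : 0 ≤ q2 r * r ^ 11 * ‖D1 r‖ ^ 2 := by positivity
        have h5 := mul_le_mul_of_nonneg_left h1 h4
        have e1 : q2 r * r ^ 11 * m1 rq psi r * ‖D1 r‖ ^ 2
            = q2 r * r ^ 11 * ‖D1 r‖ ^ 2 * m1 rq psi r := by ring
        rw [e1]
        linarith
    have l3 : ang R q2 S / 2 ≤ wang R q2 psi S := by
      unfold ang wang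
      rw [← intervalIntegral.integral_div]
      refine intervalIntegral.integral_mono_on hR ?_ ?_ fun r hr => ?_
      · exact ii_of_cont hR (((cont_w9 h.cq2).mul (h.cS.norm.pow 2)).div_const 2)
      · exact ii_of_cont hR (((cont_w9 h.cq2).mul h.cpsi).mul (h.cS.norm.pow 2))
      · have h1 := hb.psi1 r hr
        have h2 := hq0 r hr
        have h3 := hr.1
        have h4 : 0 ≤ q2 r * r ^ 9 * ‖S r‖ ^ 2 := by positivity
        have h5 := mul_le_mul_of_nonneg_left h1 h4
        have e1 : q2 r * r ^ 9 * psi r * ‖S r‖ ^ 2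
            = q2 r * r ^ 9 * ‖S r‖ ^ 2 * psi r := by ring
        rw [e1]
        linarith
    have l4 : ang R q2 D / 2 ≤ wang R q2 psi D := by
      unfold ang wang
      rw [← intervalIntegral.integral_div]
      refine intervalIntegral.integral_mono_on hR ?_ ?_ fun r hr => ?_
      · exact ii_of_cont hR (((cont_w9 h.cq2).mul (h.cD.norm.pow 2)).div_const 2)
      · exact ii_of_cont hR (((cont_w9 h.cq2).mul h.cpsi).mul (h.cD.norm.pow 2))
      · have h1 := hb.psi1 r hr
        have h2 := hq0 r hr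
        have h3 := hr.1
        have h4 : 0 ≤ q2 r * r ^ 9 * ‖D r‖ ^ 2 := by positivity
        have h5 := mul_le_mul_of_nonneg_left h1 h4
        have e1 : q2 r * r ^ 9 * psi r * ‖D r‖ ^ 2
            = q2 r * r ^ 9 * ‖D r‖ ^ 2 * psi r := by ring
        rw [e1]
        linarith
    have l5 : wnrm R q2 (fun r => r * psi r * P1 r) S ≤ be * wnrm R q2 P S := by
      unfold wnrm
      rw [← intervalIntegral.integral_const_mul]
      refine intervalIntegral.integral_mono_on hR ?_ ?_ fun r hr => ?_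
      · exact ii_of_cont hR (((cont_w h.cq2).mul ((continuousOn_id.mul h.cpsi).mul h.cP1)).mul
          (h.cS.norm.pow 2))
      · exact ii_of_cont hR (continuousOn_const.mul (((cont_w h.cq2).mul h.cP).mul
          (h.cS.norm.pow 2)))
      · have h1 := hb.P1s r hr
        have h2 := hq0 r hr
        have h3 := hr.1
        have h4 := hb.P0 r hr
        have h5 : r * psi r * P1 r ≤ be * P r := h1.trans (mul_le_mul_of_nonneg_right hsig h4)
        have h6 : 0 ≤ q2 r * r ^ 11 := by positivity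
        have h7 : q2 r * r ^ 11 * (r * psi r * P1 r) ≤ q2 r * r ^ 11 * (be * P r) :=
          mul_le_mul_of_nonneg_left h5 h6
        have h8 := mul_le_mul_of_nonneg_right h7 (by positivity : 0 ≤ ‖S r‖ ^ 2)
        linarith
    have l3' := mul_le_mul_of_nonneg_left l3 hb.kap0
    have l4' := mul_le_mul_of_nonneg_left l4 hb.kap0
    have l5' := mul_le_mul_of_nonneg_left l5 (by have := hb.n0; positivity : 0 ≤ n / 2)
    have e6 : n / 2 * (be * wnrm R q2 P S) = be / 2 * Po := by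
      rw [hPo]; unfold Pot; ring
    have e7 : K / 2 = nrm R q2 S1 / 2 + nrm R q2 D1 / 2 + kap * (ang R q2 S / 2)
        + kap * (ang R q2 D / 2) := by
      rw [hK]; unfold KK; ring
    have hR0 : |R0 R eps lam q2 b psi S D D1| ≤ 100 * C0 * X := by
      unfold R0
      have c1 : |(-12 : ℝ) * (ip R q2 b S D1).im| ≤ 12 * X := by
        rw [abs_mul]
        have : |(-12 : ℝ)| = 12 := by norm_num
        rw [this]
        linarith
      have c2 : |6 * (6 - 2 * eps) * (ip R q2 1 S D).im| ≤ 36 * X := by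
        rw [abs_mul]
        have : |6 * (6 - 2 * eps)| ≤ 36 := by
          rw [abs_le]
          have := hb.eps0; have := hb.eps1
          constructor <;> linarith
        exact mul_le_mul this xN (abs_nonneg _) (by norm_num)
      have c3 : |12 * lam.re * (ip R q2 1 S D).im| ≤ 12 * C0 * X := by
        rw [abs_mul]
        have : |12 * lam.re| ≤ 12 * C0 := by
          rw [abs_of_nonneg (by have := hb.re0; positivity)]
          linarith [hb.reC]
        exact mul_le_mul this xN (abs_nonneg _) (by positivity)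
      have c4 : |2 * lam.re * (ip R q2 (fun r => r * psi r) S D1).im| ≤ 2 * C0 * X := by
        rw [abs_mul]
        have : |2 * lam.re| ≤ 2 * C0 := by
          rw [abs_of_nonneg (by have := hb.re0; positivity)]
          linarith [hb.reC]
        exact mul_le_mul this xM (abs_nonneg _) (by positivity)
      have t1 : |(-12 : ℝ) * (ip R q2 b S D1).im - 6 * (6 - 2 * eps) * (ip R q2 1 S D).im
          + 12 * lam.re * (ip R q2 1 S D).im
          + 2 * lam.re * (ip R q2 (fun r => r * psi r) S D1).im|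
          ≤ 12 * X + 36 * X + 12 * C0 * X + 2 * C0 * X := by
        refine (abs_add_le _ _).trans (add_le_add ((abs_add_le _ _).trans
          (add_le_add ((abs_sub _ _).trans (add_le_add c1 c2)) c3)) c4)
      refine t1.trans ?_
      have e1 : 12 * C0 * X = 12 * (C0 * X) := by ring
      have e2 : 2 * C0 * X = 2 * (C0 * X) := by ring
      have e3 : 100 * C0 * X = 100 * (C0 * X) := by ring
      have e4 : X ≤ C0 * X := le_mul_of_one_le_left hX0 hC0
      rw [e1, e2, e3]
      linarith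
    have hR0' := le_abs_self (R0 R eps lam q2 b psi S D D1)
    have hbe3 : be * Po ≤ 2 * (be * K) + 2 * (be * |BE R q2 S S1 D D1|)
        + 2 * (be * (C0 * B)) + 2 * (be * (100 * C0 * CX * B)) := by
      have h1 := mul_le_mul_of_nonneg_left hPo2 hbe.le
      have e : be * (2 * K + 2 * |BE R q2 S S1 D D1| + 2 * (C0 * B)
          + 2 * (100 * C0 * CX * B)) = 2 * (be * K) + 2 * (be * |BE R q2 S S1 D D1|)
        + 2 * (be * (C0 * B)) + 2 * (be * (100 * C0 * CX * B)) := by ring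
      rw [← e]; exact h1
    have hbK : be * K ≤ 1 / 32 * K := mul_le_mul_of_nonneg_right hbe2 hK0
    have hbB : be * (C0 * B) ≤ 1 / 32 * (C0 * B) := mul_le_mul_of_nonneg_right hbe2 hC0B
    have hbB2 : be * (100 * C0 * CX * B) ≤ 1 / 32 * (100 * C0 * CX * B) :=
      mul_le_mul_of_nonneg_right hbe2 hCX100
    have hbBE : 0 ≤ be * |BE R q2 S S1 D D1| := by positivity
    have e9 : 4 * be * |BE R q2 S S1 D D1| = 4 * (be * |BE R q2 S S1 D D1|) := by ring
    rw [e9]
    have f1 : K / 2 - be / 2 * Po ≤ BV R n kap lam q2 b P psi S S1 D D1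
        + R0 R eps lam q2 b psi S D D1 := by
      rw [← hV, e7, ← e6]
      linarith
    have f2 : be / 2 * Po = (be * Po) / 2 := by ring
    rw [f2] at f1
    linarith
  · have hD := hi.D'
    unfold IdD at hD
    have e1 : |lam.im| * |(ip R q2 1 S D).re| = |lam.im * (ip R q2 1 S D).re| :=
      (abs_mul _ _).symm
    rw [e1, hD]
    have hKD : 0 ≤ nrm R q2 D1 + kap * ang R q2 D := by positivity
    have hKle : nrm R q2 D1 + kap * ang R q2 D ≤ K := by
      rw [hK]; unfold KK; linarith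
    have hBDe : wR R q2 * (conj (D R) * D1 R).re = BD R q2 D D1 := rfl
    rw [hBDe]
    have t1 : |-(nrm R q2 D1 + kap * ang R q2 D) + BD R q2 D D1 - (ip R q2 b S D1).im
        + wR R q2 * b R * (conj (S R) * D R).im - (6 - 2 * eps - lam.re) * (ip R q2 1 S D).im|
        ≤ K + |BD R q2 D D1| + X + C0 * B + 8 * C0 * X := by
      refine (abs_sub _ _).trans (add_le_add ((abs_add_le _ _).trans
        (add_le_add ((abs_sub _ _).trans (add_le_add ((abs_add_le _ _).trans
          (add_le_add ?_ le_rfl)) xA)) him)) hN2)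
      rw [abs_neg, abs_of_nonneg hKD]
      exact hKle
    refine t1.trans ?_
    have e2 : 8 * C0 * X = 8 * (C0 * X) := by ring
    have e3 : 100 * C0 * X = 100 * (C0 * X) := by ring
    have e4 : X ≤ C0 * X := le_mul_of_one_le_left hX0 hC0
    rw [e3] at hX100
    rw [e2]
    linarith

end Crest.Agent.R086.C2
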