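import Crest.Agent.R086.BCIface

/-!
Row 86, Part C, nodes C3/C4: FROZEN INTERFACE (owner helper426).

`Profile.Pair`  : a mode pair of degree `l` with `(L - lam)(F,G) = al (e, conj e)`.
`Profile.IsSym` : the three radial symmetry modes.
`BData.SymOK`   : symmetry modes are pairs                                     (node SYMF)
`BData.REG`     : `X_1` norm of a pair is polynomially bounded by its norm on a ball   (node REG)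
`BData.EXT0`, `BData.EXTs` : a pair is close to the outgoing solutions on `[r1, 8]`     (node EXT)
`PhiFacts`      : what C4 needs about the outgoing solutions `Phi l mu r`      (node PHIC, from 444's Phi.lean)
`BData.C4Stmt`  : what C4 proves.
-/

set_option autoImplicit false

open MeasureTheory Complex Set Filter Topology
open scoped ContDiff

namespace Crest.Agent.R086

/-- norm of a radial pair on the ball `B_rho` -/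
noncomputable def NB (rho : ℝ) (F G : ℝ → ℂ) : ℝ :=
  Real.sqrt (∫ r in (0 : ℝ)..rho, r ^ 11 * (‖F r‖ ^ 2 + ‖G r‖ ^ 2))

namespace Profile
variable {n : ℕ} (P : Profile n)

/-- A mode pair of degree `l`: `(L - lam)(F,G) = al (e, conj e)` on `r > 0`, in `X_20`. -/
structure Pair (l : ℕ) (H : R12 → ℝ) (lam al : ℂ) (e F G : ℝ → ℂ) : Prop where
  sharm : SHarm l H
  nrm : (∫ w : S11, (H w) ^ 2 ∂sig) = 1
  cF : ContDiff ℝ N0 F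
  cG : ContDiff ℝ N0 G
  pF : ∀ r, F (-r) = (-1) ^ l * F r
  pG : ∀ r, G (-r) = (-1) ^ l * G r
  xF : InX N0 (modeFn H F)
  xG : InX N0 (modeFn H G)
  eqF : ∀ r : ℝ, 0 < r → P.rgen1 l F G r - lam * F r = al * e r
  eqG : ∀ r : ℝ, 0 < r → P.rgen2 l F G r - lam * G r = al * starRingEnd ℂ (e r)

/-- the radial symmetry modes: phase (`ls = 0`), time (`ls = 1`), translations (`ls = 1/2`). -/
def IsSym (l : ℕ) (ls : ℝ) (e : ℝ → ℂ) : Prop :=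
  (l = 0 ∧ ls = 0 ∧ e = fun r => I * P.q r) ∨
  (l = 0 ∧ ls = 1 ∧ e = P.rtime) ∨
  (l = 1 ∧ ls = 1 / 2 ∧ e = deriv P.q)

/-- `mu = lam + 1/n - i om` -/
noncomputable def mu (lam : ℂ) : ℂ := lam + 1 / (n : ℂ) - I * (P.om : ℂ)

end Profile

/-- NODE SYMF: a symmetry mode is an eigenpair (source `0`). -/
def SymStmt : Prop :=
  ∀ (n : ℕ) (P : Profile n) (l : ℕ) (ls : ℝ) (e : ℝ → ℂ) (H : R12 → ℝ), P.IsSym l ls e → SHarm l H →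
    (∫ w : S11, (H w) ^ 2 ∂sig) = 1 →
    P.Pair l H (ls : ℂ) 0 (fun _ => 0) e (fun r => starRingEnd ℂ (e r))

section
variable {om0 R : ℝ} {U : ℝ → ℂ} (B : BData om0 R U)

/-- NODE REG: polynomial bound of the `X_1` norm of a pair by its norm on `B_r1`, any `r1 > R`. -/
def BData.REG : Prop :=
  ∀ r1 : ℝ, R < r1 → ∃ K : ℕ, ∀ᶠ j in atTop, ∀ (l : ℕ) (H : R12 → ℝ) (lam al : ℂ) (e F G : ℝ → ℂ),
    0 ≤ lam.re → (B.P j).Pair l H lam al e F G →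
    ((al = 0 ∧ e = fun _ => 0) ∨ ∃ ls : ℝ, (B.P j).IsSym l ls e) →
    XBd 1 (modeFn H F) (((B.nn j : ℝ) * (1 + ‖lam‖)) ^ K * (NB r1 F G + ‖al‖)) ∧
    XBd 1 (modeFn H G) (((B.nn j : ℝ) * (1 + ‖lam‖)) ^ K * (NB r1 F G + ‖al‖))

/-- NODE EXT, source free, all degrees (used by C2 and C4). `Phi l mu r`, `Phi1 = ∂_r Phi` outgoing
solutions. -/
def BData.EXT0 (Phi Phi1 : ℕ → ℂ → ℝ → ℂ) : Prop :=
  ∀ r1 : ℝ, R < r1 → ∃ K : ℕ, ∃ c : ℝ, 0 < c ∧ ∀ᶠ j in atTop,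
    ∀ (l : ℕ) (H : R12 → ℝ) (lam : ℂ) (F G : ℝ → ℂ),
    0 ≤ lam.re → (B.P j).Pair l H lam 0 (fun _ => 0) F G →
    ∃ c1 c2 : ℂ, ∀ r ∈ Icc r1 8,
      ‖F r - c1 * Phi l ((B.P j).mu lam) r‖
        ≤ Real.exp (-c * B.nn j) * (1 + ‖lam‖) ^ K * NB r1 F G ∧
      ‖deriv F r - c1 * Phi1 l ((B.P j).mu lam) r‖
        ≤ Real.exp (-c * B.nn j) * (1 + ‖lam‖) ^ K * NB r1 F G ∧
      ‖G r - c2 * starRingEnd ℂ (Phi l ((B.P j).mu (starRingEnd ℂ lam)) r)‖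
        ≤ Real.exp (-c * B.nn j) * (1 + ‖lam‖) ^ K * NB r1 F G ∧
      ‖deriv G r - c2 * starRingEnd ℂ (Phi1 l ((B.P j).mu (starRingEnd ℂ lam)) r)‖
        ≤ Real.exp (-c * B.nn j) * (1 + ‖lam‖) ^ K * NB r1 F G

/-- NODE EXT with a symmetry mode as source (used by C4 only; `lam` bounded is enough). -/
def BData.EXTs (Phi Phi1 : ℕ → ℂ → ℝ → ℂ) : Prop :=
  ∀ r1 : ℝ, R < r1 → ∀ La : ℝ, ∃ c : ℝ, 0 < c ∧ ∀ᶠ j in atTop,
    ∀ (l : ℕ) (ls : ℝ) (e : ℝ → ℂ), (B.P j).IsSym l ls e → ∃ ga : ℂ,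
    (∀ r ∈ Icc r1 8,
      ‖e r - ga * Phi l ((B.P j).mu ls) r‖ ≤ Real.exp (-c * B.nn j) ∧
      ‖deriv e r - ga * Phi1 l ((B.P j).mu ls) r‖ ≤ Real.exp (-c * B.nn j)) ∧
    ∀ (H : R12 → ℝ) (lam al : ℂ) (F G : ℝ → ℂ),
    0 ≤ lam.re → ‖lam‖ ≤ La → (B.P j).Pair l H lam al e F G →
    ∃ c1 c2 : ℂ, ∀ r ∈ Icc r1 8,
      ‖F r - (c1 * Phi l ((B.P j).mu lam) r
          + al * ga * dslope (fun m => Phi l m r) ((B.P j).mu ls) ((B.P j).mu lam))‖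
        ≤ Real.exp (-c * B.nn j) * (NB r1 F G + ‖al‖) ∧
      ‖deriv F r - (c1 * Phi1 l ((B.P j).mu lam) r
          + al * ga * dslope (fun m => Phi1 l m r) ((B.P j).mu ls) ((B.P j).mu lam))‖
        ≤ Real.exp (-c * B.nn j) * (NB r1 F G + ‖al‖) ∧
      ‖G r - (c2 * starRingEnd ℂ (Phi l ((B.P j).mu (starRingEnd ℂ lam)) r)
          + al * starRingEnd ℂ (ga * dslope (fun m => Phi l m r) ((B.P j).mu ls)
              ((B.P j).mu (starRingEnd ℂ lam))))‖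
        ≤ Real.exp (-c * B.nn j) * (NB r1 F G + ‖al‖) ∧
      ‖deriv G r - (c2 * starRingEnd ℂ (Phi1 l ((B.P j).mu (starRingEnd ℂ lam)) r)
          + al * starRingEnd ℂ (ga * dslope (fun m => Phi1 l m r) ((B.P j).mu ls)
              ((B.P j).mu (starRingEnd ℂ lam))))‖
        ≤ Real.exp (-c * B.nn j) * (NB r1 F G + ‖al‖)

/-- `EXTs` with the constant `ga` chosen AFTER `H` (384's form; this is what C4 (512) consumes). -/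
def BData.EXTs' (Phi Phi1 : ℕ → ℂ → ℝ → ℂ) : Prop :=
  ∀ r1 : ℝ, R < r1 → ∀ La : ℝ, ∃ c : ℝ, 0 < c ∧ ∀ᶠ j in atTop,
    ∀ (l : ℕ) (ls : ℝ) (e : ℝ → ℂ), (B.P j).IsSym l ls e →
    ∀ (H : R12 → ℝ), SHarm l H → (∫ w : S11, (H w) ^ 2 ∂sig) = 1 → ∃ ga : ℂ,
    (∀ r ∈ Icc r1 8,
      ‖e r - ga * Phi l ((B.P j).mu ls) r‖ ≤ Real.exp (-c * B.nn j) ∧
      ‖deriv e r - ga * Phi1 l ((B.P j).mu ls) r‖ ≤ Real.exp (-c * B.nn j)) ∧
    ∀ (lam al : ℂ) (F G : ℝ → ℂ),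
    0 ≤ lam.re → ‖lam‖ ≤ La → (B.P j).Pair l H lam al e F G →
    ∃ c1 c2 : ℂ, ∀ r ∈ Icc r1 8,
      ‖F r - (c1 * Phi l ((B.P j).mu lam) r
          + al * ga * dslope (fun m => Phi l m r) ((B.P j).mu ls) ((B.P j).mu lam))‖
        ≤ Real.exp (-c * B.nn j) * (NB r1 F G + ‖al‖) ∧
      ‖deriv F r - (c1 * Phi1 l ((B.P j).mu lam) r
          + al * ga * dslope (fun m => Phi1 l m r) ((B.P j).mu ls) ((B.P j).mu lam))‖
        ≤ Real.exp (-c * B.nn j) * (NB r1 F G + ‖al‖) ∧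
      ‖G r - (c2 * starRingEnd ℂ (Phi l ((B.P j).mu (starRingEnd ℂ lam)) r)
          + al * starRingEnd ℂ (ga * dslope (fun m => Phi l m r) ((B.P j).mu ls)
              ((B.P j).mu (starRingEnd ℂ lam))))‖
        ≤ Real.exp (-c * B.nn j) * (NB r1 F G + ‖al‖) ∧
      ‖deriv G r - (c2 * starRingEnd ℂ (Phi1 l ((B.P j).mu (starRingEnd ℂ lam)) r)
          + al * starRingEnd ℂ (ga * dslope (fun m => Phi1 l m r) ((B.P j).mu ls)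
              ((B.P j).mu (starRingEnd ℂ lam))))‖
        ≤ Real.exp (-c * B.nn j) * (NB r1 F G + ‖al‖)

end

/-- NODE PHIC: what C4 needs about the outgoing solutions (from 444's Phi.lean). -/
structure PhiFacts (Phi Phi1 : ℕ → ℂ → ℝ → ℂ) : Prop where
  /-- joint continuity in `(mu, r)` -/
  cont : ∀ l, ContinuousOn (fun p : ℂ × ℝ => Phi l p.1 p.2) ({m : ℂ | -(1 / 4) < m.re} ×ˢ Ioi 0)
  cont1 : ∀ l, ContinuousOn (fun p : ℂ × ℝ => Phi1 l p.1 p.2) ({m : ℂ | -(1 / 4) < m.re} ×ˢ Ioi 0)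
  /-- holomorphy in `mu` -/
  hol : ∀ l, ∀ r : ℝ, 0 < r → DifferentiableOn ℂ (fun m => Phi l m r) {m : ℂ | -(1 / 4) < m.re}
  hol1 : ∀ l, ∀ r : ℝ, 0 < r → DifferentiableOn ℂ (fun m => Phi1 l m r) {m : ℂ | -(1 / 4) < m.re}
  /-- `Phi1` is the `r`-derivative -/
  der : ∀ l, ∀ m : ℂ, -(1 / 4) < m.re → ∀ r : ℝ, 0 < r → HasDerivAt (Phi l m) (Phi1 l m r) r

/-- `Phi' - (l/R) Phi` at `R` (594's note 12770) -/
noncomputable def PsiL (Phi Phi1 : ℕ → ℂ → ℝ → ℂ) (R : ℝ) (l : ℕ) (m : ℂ) : ℂ :=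
  Phi1 l m R - (l : ℂ) / (R : ℂ) * Phi l m R

/-- the limit determinant -/
noncomputable def DetL (Phi Phi1 : ℕ → ℂ → ℝ → ℂ) (om0 R : ℝ) (l : ℕ) (lam : ℂ) : ℂ :=
  Phi l (lam - I * om0) R * starRingEnd ℂ (PsiL Phi Phi1 R l (starRingEnd ℂ lam - I * om0))
    + starRingEnd ℂ (Phi l (starRingEnd ℂ lam - I * om0) R) * PsiL Phi Phi1 R l (lam - I * om0)

/-- OUTPUT OF PART A (371/522). -/
structure LimitSpec (Phi Phi1 : ℕ → ℂ → ℝ → ℂ) (om0 R : ℝ) : Prop where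
  ne_zero : ∀ (l : ℕ) (lam : ℂ), 0 ≤ lam.re → ¬ (l = 0 ∧ (lam = 0 ∨ lam = 1)) →
    ¬ (l = 1 ∧ lam = 1 / 2) → DetL Phi Phi1 om0 R l lam ≠ 0
  simple_zero : DetL Phi Phi1 om0 R 0 0 = 0 ∧ deriv (DetL Phi Phi1 om0 R 0) 0 ≠ 0
  simple_one : DetL Phi Phi1 om0 R 0 1 = 0 ∧ deriv (DetL Phi Phi1 om0 R 0) 1 ≠ 0
  simple_half : DetL Phi Phi1 om0 R 1 (1 / 2) = 0 ∧ deriv (DetL Phi Phi1 om0 R 1) (1 / 2) ≠ 0

/-- the body of `ModeGood N0` at one `(lam, l)`. -/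
def Profile.ModeGoodAt {n : ℕ} (P : Profile n) (l : ℕ) (lam : ℂ) : Prop :=
  ∀ (H : R12 → ℝ), SHarm l H → (∫ w : S11, (H w) ^ 2 ∂sig) = 1 →
    ∀ F G : ℝ → ℂ, ContDiff ℝ N0 F → ContDiff ℝ N0 G →
      (∀ r, F (-r) = (-1) ^ l * F r) → (∀ r, G (-r) = (-1) ^ l * G r) →
      InX N0 (modeFn H F) → InX N0 (modeFn H G) →
      P.InEr l (fun r => P.rgen1 l F G r - lam * F r) (fun r => P.rgen2 l F G r - lam * G r) →
      P.InEr l F G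

/-- OUTPUT OF C4 (helper426). -/
def BData.C4Stmt {om0 R : ℝ} {U : ℝ → ℂ} (B : BData om0 R U) : Prop :=
  ∀ (La : ℝ) (l : ℕ), ∀ᶠ j in atTop, ∀ lam : ℂ, 0 ≤ lam.re → ‖lam‖ ≤ La → (B.P j).ModeGoodAt l lam

end Crest.Agent.R086
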