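import Crest.Agent.R086.C4b

/-!
Row 86 (S0114), Part C, C4: uniform bounds for one eigen-system on `[0, 8]`.
-/

set_option autoImplicit false

open Complex ComplexConjugate Set MeasureTheory

namespace Crest.Agent.R086.C4

open Crest.Agent.R086.CCore Hyp

/-- the uniform bounds used below -/
structure Bds (Q Q1 : ℝ → ℂ) (eps : ℝ) (lam : ℂ) (S D sS sD : ℝ → ℂ) (B L M : ℝ) : Prop where
  hB : ∀ r ∈ Icc (0 : ℝ) 8, |b Q Q1 r| ≤ B
  hL : ‖lam‖ ≤ L
  he : |eps| ≤ 1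
  hM : ∫ r in (0:ℝ)..8, (nd Q S D r + nd Q sS sD r) ≤ M

/-- energy constant -/
noncomputable def Ec (B L M : ℝ) : ℝ := 50 * (1 + B ^ 2 + L) * M

theorem sub_int {f : ℝ → ℝ} {a c a' c' : ℝ} (hf : ContinuousOn f (Icc a' c'))
    (h0 : ∀ r ∈ Icc a' c', 0 ≤ f r) (h1 : a' ≤ a) (h2 : a ≤ c) (h3 : c ≤ c') :
    ∫ r in a..c, f r ≤ ∫ r in a'..c', f r := by
  refine intervalIntegral.integral_mono_interval h1 h2 h3 ?_ ?_
  · rw [Filter.EventuallyLE, ae_restrict_iff' measurableSet_Ioc]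
    exact Filter.Eventually.of_forall (fun x hx => h0 x ⟨hx.1.le, hx.2⟩)
  · exact ContinuousOn.intervalIntegrable (by rw [uIcc_of_le (h1.trans (h2.trans h3))]; exact hf)

theorem nd_nonneg (Q S D : ℝ → ℂ) {r : ℝ} (hr : 0 ≤ r) : 0 ≤ nd Q S D r := by
  have := Hyp.w_nonneg Q hr
  unfold nd
  positivity

namespace Hyp

variable {Q Q1 : ℝ → ℂ} {P : ℝ → ℝ} {kap n eps : ℝ} {lam : ℂ}
  {S S1 D D1 sS sD : ℝ → ℂ} {B L M : ℝ}

theorem B0 (hb : Bds Q Q1 eps lam S D sS sD B L M) : 0 ≤ B :=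
  (abs_nonneg _).trans (hb.hB 0 (by norm_num))

theorem L0 (hb : Bds Q Q1 eps lam S D sS sD B L M) : 0 ≤ L := (norm_nonneg _).trans hb.hL

theorem M0 (_h : Hyp 8 Q Q1 P kap n eps lam S S1 D D1 sS sD)
    (hb : Bds Q Q1 eps lam S D sS sD B L M) : 0 ≤ M := by
  refine le_trans ?_ hb.hM
  refine intervalIntegral.integral_nonneg (by norm_num) (fun r hr => ?_)
  exact add_nonneg (nd_nonneg Q S D hr.1) (nd_nonneg Q sS sD hr.1)

theorem E0 (h : Hyp 8 Q Q1 P kap n eps lam S S1 D D1 sS sD)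
    (hb : Bds Q Q1 eps lam S D sS sD B L M) : 0 ≤ Ec B L M := by
  have h1 := h.M0 hb
  have h2 := L0 hb
  unfold Ec
  positivity

theorem nd_int (h : Hyp 8 Q Q1 P kap n eps lam S S1 D D1 sS sD)
    (hb : Bds Q Q1 eps lam S D sS sD B L M) {a c : ℝ} (ha : 0 ≤ a) (hac : a ≤ c) (hc : c ≤ 8) :
    ∫ r in a..c, nd Q S D r ≤ M := by
  refine le_trans ?_ hb.hM
  have i1 : IntervalIntegrable (nd Q S D) volume 0 8 :=
    ContinuousOn.intervalIntegrable (by rw [uIcc_of_le (by norm_num)]; exact h.c_nd)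
  have i2 : IntervalIntegrable (nd Q sS sD) volume 0 8 :=
    ContinuousOn.intervalIntegrable (by rw [uIcc_of_le (by norm_num)]; exact h.c_nds)
  rw [intervalIntegral.integral_add i1 i2]
  have h1 := sub_int h.c_nd (fun r hr => nd_nonneg Q S D hr.1) ha hac hc
  have h2 : 0 ≤ ∫ r in (0:ℝ)..8, nd Q sS sD r :=
    intervalIntegral.integral_nonneg (by norm_num) (fun r hr => nd_nonneg Q sS sD hr.1)
  linarith

theorem nds_int (h : Hyp 8 Q Q1 P kap n eps lam S S1 D D1 sS sD)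
    (hb : Bds Q Q1 eps lam S D sS sD B L M) {a c : ℝ} (ha : 0 ≤ a) (hac : a ≤ c) (hc : c ≤ 8) :
    ∫ r in a..c, nd Q sS sD r ≤ M := by
  refine le_trans ?_ hb.hM
  have i1 : IntervalIntegrable (nd Q S D) volume 0 8 :=
    ContinuousOn.intervalIntegrable (by rw [uIcc_of_le (by norm_num)]; exact h.c_nd)
  have i2 : IntervalIntegrable (nd Q sS sD) volume 0 8 :=
    ContinuousOn.intervalIntegrable (by rw [uIcc_of_le (by norm_num)]; exact h.c_nds)
  rw [intervalIntegral.integral_add i1 i2]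
  have h1 := sub_int h.c_nds (fun r hr => nd_nonneg Q sS sD hr.1) ha hac hc
  have h2 : 0 ≤ ∫ r in (0:ℝ)..8, nd Q S D r :=
    intervalIntegral.integral_nonneg (by norm_num) (fun r hr => nd_nonneg Q S D hr.1)
  linarith

/-- energy on `[a,c] ⊆ [0,6]` -/
theorem e6 (h : Hyp 8 Q Q1 P kap n eps lam S S1 D D1 sS sD)
    (hb : Bds Q Q1 eps lam S D sS sD B L M) {a c : ℝ} (ha : 0 ≤ a) (hac : a ≤ c) (hc : c ≤ 6) :
    ∫ r in a..c, ed Q P kap n S S1 D D1 r ≤ Ec B L M := by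
  have h1 := h.energy (le_refl 8) hb.hB hb.hL
  have hsub : Icc (0:ℝ) 6 ⊆ Icc 0 8 := Icc_subset_Icc le_rfl (by norm_num)
  have hed0 : ∀ r ∈ Icc (0:ℝ) 6, 0 ≤ ed Q P kap n S S1 D D1 r := fun r hr =>
    h.ed_nonneg (hsub hr)
  have h2 := sub_int (h.c_ed.mono hsub) hed0 ha hac hc
  have c1 : ContinuousOn (fun r : ℝ => (8 - r) ^ 2 * ed Q P kap n S S1 D D1 r) (Icc 0 8) := by
    have := h.c_ed
    fun_prop
  have h3 : ∫ r in (0:ℝ)..6, (8 - r) ^ 2 * ed Q P kap n S S1 D D1 r ≤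
      ∫ r in (0:ℝ)..8, (8 - r) ^ 2 * ed Q P kap n S S1 D D1 r :=
    sub_int c1 (fun r hr => mul_nonneg (sq_nonneg _) (h.ed_nonneg hr)) le_rfl (by norm_num)
      (by norm_num)
  have h4 : 4 * ∫ r in (0:ℝ)..6, ed Q P kap n S S1 D D1 r ≤
      ∫ r in (0:ℝ)..6, (8 - r) ^ 2 * ed Q P kap n S S1 D D1 r := by
    rw [← intervalIntegral.integral_const_mul]
    refine intervalIntegral.integral_mono_on (by norm_num) ?_ ?_ ?_
    · exact ContinuousOn.intervalIntegrable (by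
        rw [uIcc_of_le (by norm_num)]; exact continuousOn_const.mul (h.c_ed.mono hsub))
    · exact ContinuousOn.intervalIntegrable (by
        rw [uIcc_of_le (by norm_num)]; exact c1.mono hsub)
    · intro r hr
      have h5 := hed0 r hr
      have h6 : 4 ≤ (8 - r) ^ 2 := by nlinarith [hr.2]
      exact mul_le_mul_of_nonneg_right h6 h5
  have h7 : (200 * (1 + B ^ 2 + L)) * (∫ r in (0:ℝ)..8, (nd Q S D r + nd Q sS sD r)) ≤
      (200 * (1 + B ^ 2 + L)) * M := by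
    refine mul_le_mul_of_nonneg_left hb.hM ?_
    have := L0 hb
    positivity
  unfold Ec
  linarith

/-- `∫ ‖S1‖² + ‖D1‖² ≤ 4 E` on `[a,c] ⊆ [1,6]` -/
theorem d_int (h : Hyp 8 Q Q1 P kap n eps lam S S1 D D1 sS sD)
    (hb : Bds Q Q1 eps lam S D sS sD B L M) {a c : ℝ} (ha : 1 ≤ a) (hac : a ≤ c) (hc : c ≤ 6) :
    (∫ r in a..c, ‖S1 r‖ ^ 2) ≤ 4 * Ec B L M ∧ (∫ r in a..c, ‖D1 r‖ ^ 2) ≤ 4 * Ec B L M := by
  have h0 := h.e6 hb (by linarith : (0:ℝ) ≤ a) hac hc
  have hsub : Icc a c ⊆ Icc (0:ℝ) 8 := Icc_subset_Icc (by linarith) (by linarith)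
  have cS1 := h.cS1.mono hsub
  have cD1 := h.cD1.mono hsub
  have ie : IntervalIntegrable (fun r => 4 * ed Q P kap n S S1 D D1 r) volume a c :=
    ContinuousOn.intervalIntegrable (by
      rw [uIcc_of_le hac]; exact continuousOn_const.mul (h.c_ed.mono hsub))
  have key : ∫ r in a..c, 4 * ed Q P kap n S S1 D D1 r ≤ 4 * Ec B L M := by
    rw [intervalIntegral.integral_const_mul]
    linarith
  refine ⟨le_trans (intervalIntegral.integral_mono_on hac ?_ ie ?_) key,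
    le_trans (intervalIntegral.integral_mono_on hac ?_ ie ?_) key⟩
  · exact ContinuousOn.intervalIntegrable (by rw [uIcc_of_le hac]; fun_prop)
  · intro r hr
    have := h.s1_le (ha.trans hr.1) (by linarith [hr.2] : r ≤ 8)
    nlinarith [sq_nonneg ‖D1 r‖]
  · exact ContinuousOn.intervalIntegrable (by rw [uIcc_of_le hac]; fun_prop)
  · intro r hr
    have := h.s1_le (ha.trans hr.1) (by linarith [hr.2] : r ≤ 8)
    nlinarith [sq_nonneg ‖S1 r‖]

/-- `∫ ‖S‖² , ∫ ‖D‖² ≤ 4 M` on `[a,c] ⊆ [1,8]` -/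
theorem l_int (h : Hyp 8 Q Q1 P kap n eps lam S S1 D D1 sS sD)
    (hb : Bds Q Q1 eps lam S D sS sD B L M) {a c : ℝ} (ha : 1 ≤ a) (hac : a ≤ c) (hc : c ≤ 8) :
    (∫ r in a..c, ‖S r‖ ^ 2) ≤ 4 * M ∧ (∫ r in a..c, ‖D r‖ ^ 2) ≤ 4 * M := by
  have h0 := h.nd_int hb (by linarith : (0:ℝ) ≤ a) hac hc
  have hsub : Icc a c ⊆ Icc (0:ℝ) 8 := Icc_subset_Icc (by linarith) (by linarith)
  have cS := h.cS.mono hsub
  have cD := h.cD.mono hsub
  have ie : IntervalIntegrable (fun r => 4 * nd Q S D r) volume a c :=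
    ContinuousOn.intervalIntegrable (by
      rw [uIcc_of_le hac]; exact continuousOn_const.mul (h.c_nd.mono hsub))
  have key : ∫ r in a..c, 4 * nd Q S D r ≤ 4 * M := by
    rw [intervalIntegral.integral_const_mul]
    linarith
  refine ⟨le_trans (intervalIntegral.integral_mono_on hac ?_ ie ?_) key,
    le_trans (intervalIntegral.integral_mono_on hac ?_ ie ?_) key⟩
  · exact ContinuousOn.intervalIntegrable (by rw [uIcc_of_le hac]; fun_prop)
  · intro r hr
    have := h.s_le (ha.trans hr.1) (by linarith [hr.2] : r ≤ 8)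
    nlinarith [sq_nonneg ‖D r‖]
  · exact ContinuousOn.intervalIntegrable (by rw [uIcc_of_le hac]; fun_prop)
  · intro r hr
    have := h.s_le (ha.trans hr.1) (by linarith [hr.2] : r ≤ 8)
    nlinarith [sq_nonneg ‖S r‖]

/-- Hölder continuity of `S`, `D` on `[1,6]`. -/
theorem hold (h : Hyp 8 Q Q1 P kap n eps lam S S1 D D1 sS sD)
    (hb : Bds Q Q1 eps lam S D sS sD B L M) {a c : ℝ} (ha : 1 ≤ a) (hac : a ≤ c) (hc : c ≤ 6) :
    ‖S c - S a‖ ^ 2 ≤ (c - a) * (4 * Ec B L M) ∧ ‖D c - D a‖ ^ 2 ≤ (c - a) * (4 * Ec B L M) := by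
  have h0 := h.d_int hb ha hac hc
  have hsub : Icc a c ⊆ Icc (0:ℝ) 8 := Icc_subset_Icc (by linarith) (by linarith)
  have hs : ∀ r ∈ Ioo a c, r ∈ Ioo (0:ℝ) 8 := fun r hr =>
    ⟨by linarith [hr.1], by linarith [hr.2]⟩
  have hca : 0 ≤ c - a := by linarith
  exact ⟨(diff_sq hac (h.cS.mono hsub) (h.cS1.mono hsub) (fun r hr => (h.sys r (hs r hr)).hS)).trans
      (mul_le_mul_of_nonneg_left h0.1 hca),
    (diff_sq hac (h.cD.mono hsub) (h.cD1.mono hsub) (fun r hr => (h.sys r (hs r hr)).hD)).trans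
      (mul_le_mul_of_nonneg_left h0.2 hca)⟩

/-- pointwise bound of `S`, `D` on `[2,6]`. -/
theorem pt (h : Hyp 8 Q Q1 P kap n eps lam S S1 D D1 sS sD)
    (hb : Bds Q Q1 eps lam S D sS sD B L M) {r : ℝ} (hr2 : 2 ≤ r) (hr6 : r ≤ 6) :
    ‖S r‖ ^ 2 ≤ 8 * (Ec B L M + M) ∧ ‖D r‖ ^ 2 ≤ 8 * (Ec B L M + M) := by
  have hsub : Icc (r - 1) r ⊆ Icc (0:ℝ) 8 := Icc_subset_Icc (by linarith) (by linarith)
  have hs : ∀ x ∈ Ioo (r - 1) r, x ∈ Ioo (0:ℝ) 8 := fun x hx =>
    ⟨by linarith [hx.1], by linarith [hx.2]⟩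
  have h1 := h.d_int hb (by linarith : 1 ≤ r - 1) (by linarith) hr6
  have h2 := h.l_int hb (by linarith : 1 ≤ r - 1) (by linarith) (by linarith : r ≤ 8)
  have a1 := at_bound (a := r - 1) (c := r) (R := r) (by linarith) le_rfl
    (h.cS.mono hsub) (h.cS1.mono hsub) (fun x hx => (h.sys x (hs x hx)).hS)
  have a2 := at_bound (a := r - 1) (c := r) (R := r) (by linarith) le_rfl
    (h.cD.mono hsub) (h.cD1.mono hsub) (fun x hx => (h.sys x (hs x hx)).hD)
  have e : r - (r - 1) = 1 := by ring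
  rw [e] at a1 a2
  constructor
  · linarith [h1.1, h2.1]
  · linarith [h1.2, h2.2]

/-- `S(R)` is small when `P ≥ c` inside. -/
theorem S_R (h : Hyp 8 Q Q1 P kap n eps lam S S1 D D1 sS sD)
    (hb : Bds Q Q1 eps lam S D sS sD B L M) {R d c : ℝ} (hR : 2 ≤ R) (hR6 : R ≤ 6) (hd : 0 < d)
    (hd2 : d ≤ 1 / 2) (hc : 0 < c) (hn : 0 < n) (hP : ∀ r ∈ Icc 0 (R - d), c ≤ P r) :
    ‖S R‖ ^ 2 ≤ 16 * d * Ec B L M + 8 / (d * (n * c)) * Ec B L M := by
  have hsub : Icc (R - 2 * d) R ⊆ Icc (0:ℝ) 8 := Icc_subset_Icc (by linarith) (by linarith)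
  have hs : ∀ x ∈ Ioo (R - 2 * d) R, x ∈ Ioo (0:ℝ) 8 := fun x hx =>
    ⟨by linarith [hx.1], by linarith [hx.2]⟩
  have h1 := h.d_int hb (by linarith : 1 ≤ R - 2 * d) (by linarith) hR6
  have a1 := at_bound (a := R - 2 * d) (c := R - d) (R := R) (by linarith) (by linarith)
    (h.cS.mono hsub) (h.cS1.mono hsub) (fun x hx => (h.sys x (hs x hx)).hS)
  have e : R - (R - 2 * d) = 2 * d := by ring
  have e' : R - d - (R - 2 * d) = d := by ring
  rw [e, e'] at a1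
  have h2 : ∫ r in (R - 2 * d)..(R - d), ‖S r‖ ^ 2 ≤ 4 / (n * c) * Ec B L M := by
    have h0 := h.e6 hb (by linarith : (0:ℝ) ≤ R - 2 * d) (by linarith : R - 2 * d ≤ R - d)
      (by linarith)
    have hsub' : Icc (R - 2 * d) (R - d) ⊆ Icc (0:ℝ) 8 :=
      Icc_subset_Icc (by linarith) (by linarith)
    have hle : R - 2 * d ≤ R - d := by linarith
    have cS := h.cS.mono hsub'
    have key : ∫ r in (R - 2 * d)..(R - d), ‖S r‖ ^ 2 ≤
        ∫ r in (R - 2 * d)..(R - d), 4 / (n * c) * ed Q P kap n S S1 D D1 r := by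
      refine intervalIntegral.integral_mono_on hle ?_ ?_ ?_
      · exact ContinuousOn.intervalIntegrable (by rw [uIcc_of_le hle]; fun_prop)
      · exact ContinuousOn.intervalIntegrable (by
          rw [uIcc_of_le hle]; exact continuousOn_const.mul (h.c_ed.mono hsub'))
      · intro r hr
        have hr1 : 1 ≤ r := by linarith [hr.1]
        have hr' : r ∈ Icc (0:ℝ) 8 := hsub' hr
        have h5 : (1 : ℝ) ≤ r ^ 11 := one_le_pow₀ hr1
        have hw1 : 1 / 4 ≤ w Q r := by linarith [h.wl hr']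
        have hPr : c ≤ P r := hP r ⟨by linarith, hr.2⟩
        have h6 : n * P r * w Q r * ‖S r‖ ^ 2 ≤ ed Q P kap n S S1 D D1 r := by
          have h3 := h.kap0
          have h5 := hr'.1
          have h6 := w_nonneg Q h5
          unfold ed
          have : 0 ≤ w Q r * (‖S1 r‖ ^ 2 + ‖D1 r‖ ^ 2)
            + kap * (‖Q r‖ ^ 2 * r ^ 9) * (‖S r‖ ^ 2 + ‖D r‖ ^ 2) := by positivity
          linarith
        have h7 : n * c / 4 * ‖S r‖ ^ 2 ≤ n * P r * w Q r * ‖S r‖ ^ 2 := by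
          refine mul_le_mul_of_nonneg_right ?_ (sq_nonneg _)
          have : n * c ≤ n * P r := mul_le_mul_of_nonneg_left hPr hn.le
          have h8 : 0 ≤ n * P r := le_trans (by positivity) this
          nlinarith
        have h8 : ‖S r‖ ^ 2 = 4 / (n * c) * (n * c / 4 * ‖S r‖ ^ 2) := by
          field_simp
        rw [h8]
        exact mul_le_mul_of_nonneg_left (h7.trans h6) (by positivity)
    refine key.trans ?_
    rw [intervalIntegral.integral_const_mul]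
    exact mul_le_mul_of_nonneg_left h0 (by positivity)
  have h3 : 2 / d * ∫ r in (R - 2 * d)..(R - d), ‖S r‖ ^ 2 ≤ 2 / d * (4 / (n * c) * Ec B L M) :=
    mul_le_mul_of_nonneg_left h2 (by positivity)
  have h4 : 2 / d * (4 / (n * c) * Ec B L M) = 8 / (d * (n * c)) * Ec B L M := by
    field_simp
    ring
  have h5 : 2 * (2 * d) * (∫ r in (R - 2 * d)..R, ‖S1 r‖ ^ 2) ≤ 2 * (2 * d) * (4 * Ec B L M) :=
    mul_le_mul_of_nonneg_left h1.1 (by positivity)
  linarith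

/-- `∫_0^R w ‖S‖²` is small when `P ≥ c` inside. -/
theorem S_L2 (h : Hyp 8 Q Q1 P kap n eps lam S S1 D D1 sS sD)
    (hb : Bds Q Q1 eps lam S D sS sD B L M) {R d c : ℝ} (hR : 3 ≤ R) (hR6 : R ≤ 6) (hd : 0 < d)
    (hd2 : d ≤ 1 / 2) (hc : 0 < c) (hn : 0 < n) (hP : ∀ r ∈ Icc 0 (R - d), c ≤ P r) :
    ∫ r in (0:ℝ)..R, w Q r * ‖S r‖ ^ 2 ≤
      1 / (n * c) * Ec B L M + d * (4 * 8 ^ 11 * (8 * (Ec B L M + M))) := by
  have c0 : ContinuousOn (fun r => w Q r * ‖S r‖ ^ 2) (Icc (0:ℝ) 8) := by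
    have h1 := h.cw
    have h2 := h.cS
    fun_prop
  have i1 : IntervalIntegrable (fun r => w Q r * ‖S r‖ ^ 2) volume 0 (R - d) :=
    ContinuousOn.intervalIntegrable (by
      rw [uIcc_of_le (by linarith)]; exact c0.mono (Icc_subset_Icc le_rfl (by linarith)))
  have i2 : IntervalIntegrable (fun r => w Q r * ‖S r‖ ^ 2) volume (R - d) R :=
    ContinuousOn.intervalIntegrable (by
      rw [uIcc_of_le (by linarith)]; exact c0.mono (Icc_subset_Icc (by linarith) (by linarith)))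
  rw [← intervalIntegral.integral_add_adjacent_intervals i1 i2]
  have h1 : ∫ r in (0:ℝ)..(R - d), w Q r * ‖S r‖ ^ 2 ≤ 1 / (n * c) * Ec B L M := by
    have h0 := h.e6 hb (le_refl (0:ℝ)) (by linarith : 0 ≤ R - d) (by linarith)
    have hsub' : Icc 0 (R - d) ⊆ Icc (0:ℝ) 8 := Icc_subset_Icc le_rfl (by linarith)
    have key : ∫ r in (0:ℝ)..(R - d), w Q r * ‖S r‖ ^ 2 ≤
        ∫ r in (0:ℝ)..(R - d), 1 / (n * c) * ed Q P kap n S S1 D D1 r := by
      refine intervalIntegral.integral_mono_on (by linarith) i1 ?_ ?_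
      · exact ContinuousOn.intervalIntegrable (by
          rw [uIcc_of_le (by linarith)]; exact continuousOn_const.mul (h.c_ed.mono hsub'))
      · intro r hr
        have hr' : r ∈ Icc (0:ℝ) 8 := hsub' hr
        have hPr : c ≤ P r := hP r hr
        have hw0 := w_nonneg Q hr'.1
        have h6 : n * P r * w Q r * ‖S r‖ ^ 2 ≤ ed Q P kap n S S1 D D1 r := by
          have h3 := h.kap0
          have h5 := hr'.1
          unfold ed
          have : 0 ≤ w Q r * (‖S1 r‖ ^ 2 + ‖D1 r‖ ^ 2)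
            + kap * (‖Q r‖ ^ 2 * r ^ 9) * (‖S r‖ ^ 2 + ‖D r‖ ^ 2) := by positivity
          linarith
        have h7 : n * c * (w Q r * ‖S r‖ ^ 2) ≤ n * P r * w Q r * ‖S r‖ ^ 2 := by
          have : n * c ≤ n * P r := mul_le_mul_of_nonneg_left hPr hn.le
          have h8 : 0 ≤ w Q r * ‖S r‖ ^ 2 := by positivity
          nlinarith
        have h8 : w Q r * ‖S r‖ ^ 2 = 1 / (n * c) * (n * c * (w Q r * ‖S r‖ ^ 2)) := by
          field_simp
        rw [h8]
        exact mul_le_mul_of_nonneg_left (h7.trans h6) (by positivity)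
    refine key.trans ?_
    rw [intervalIntegral.integral_const_mul]
    exact mul_le_mul_of_nonneg_left h0 (by positivity)
  have h2 : ∫ r in (R - d)..R, w Q r * ‖S r‖ ^ 2 ≤ d * (4 * 8 ^ 11 * (8 * (Ec B L M + M))) := by
    have ic : IntervalIntegrable (fun _ : ℝ => (4 * 8 ^ 11 * (8 * (Ec B L M + M)) : ℝ)) volume
      (R - d) R := intervalIntegrable_const
    have key := intervalIntegral.integral_mono_on (by linarith : R - d ≤ R) i2 ic (fun r hr => by
      have hr' : r ∈ Icc (0:ℝ) 8 := ⟨by linarith [hr.1], by linarith [hr.2]⟩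
      have hp := (h.pt hb (by linarith [hr.1] : 2 ≤ r) (by linarith [hr.2])).1
      have hw1 : w Q r ≤ 4 * 8 ^ 11 := by
        refine (h.wu hr').trans ?_
        have : r ^ 11 ≤ 8 ^ 11 := pow_le_pow_left₀ hr'.1 hr'.2 11
        linarith
      exact mul_le_mul hw1 hp (sq_nonneg _) (by positivity))
    rw [intervalIntegral.integral_const] at key
    simp only [smul_eq_mul] at key
    have e : R - (R - d) = d := by ring
    rw [e] at key
    exact key
  linarith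

end Hyp

end Crest.Agent.R086.C4
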