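import Crest.Agent.R086.C34Defs
import Crest.Agent.R086.C4c

/-!
Row 86, C4: definitions and intermediate statements (helper426).
-/

set_option autoImplicit false

open MeasureTheory Complex Set Filter Topology
open scoped ContDiff

namespace Crest.Agent.R086

namespace C4

open Crest.Agent.R086.CCore

/-- `S = (F/q + G/conj q)/2` -/
noncomputable def uS (q F G : ℝ → ℂ) (r : ℝ) : ℂ := (F r / q r + G r / starRingEnd ℂ (q r)) / 2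
/-- `D = (F/q - G/conj q)/2` -/
noncomputable def uD (q F G : ℝ → ℂ) (r : ℝ) : ℂ := (F r / q r - G r / starRingEnd ℂ (q r)) / 2
/-- `S'` -/
noncomputable def uS1 (q F G : ℝ → ℂ) (r : ℝ) : ℂ :=
  (quo1 q (deriv q) F (deriv F) r + quo1c q (deriv q) G (deriv G) r) / 2
/-- `D'` -/
noncomputable def uD1 (q F G : ℝ → ℂ) (r : ℝ) : ℂ :=
  (quo1 q (deriv q) F (deriv F) r - quo1c q (deriv q) G (deriv G) r) / 2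
/-- sources -/
noncomputable def oS (q : ℝ → ℂ) (al : ℂ) (e : ℝ → ℂ) (r : ℝ) : ℂ :=
  (al * e r / q r + al * starRingEnd ℂ (e r) / starRingEnd ℂ (q r)) / 2
noncomputable def oD (q : ℝ → ℂ) (al : ℂ) (e : ℝ → ℂ) (r : ℝ) : ℂ :=
  (al * e r / q r - al * starRingEnd ℂ (e r) / starRingEnd ℂ (q r)) / 2

end C4

/-- NODE C4Inst (helper35): from a pair to the eigen-system on `[0, 8]`. -/
def InstStmt : Prop :=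
  ∀ (n : ℕ) (P : Profile n) (l : ℕ) (H : R12 → ℝ) (lam al : ℂ) (e F G : ℝ → ℂ),
    (∀ r, P.q r ≠ 0) → (∀ r ∈ Icc (0 : ℝ) 8, 1 / 2 ≤ ‖P.q r‖) → (∀ r ∈ Icc (0 : ℝ) 8, ‖P.q r‖ ≤ 2) →
    P.Pair l H lam al e F G →
    ((al = 0 ∧ e = fun _ => 0) ∨ ∃ ls : ℝ, P.IsSym l ls e) →
    C4.Hyp 8 P.q (deriv P.q) (fun r => ‖P.q r‖ ^ n) ((l : ℝ) * (l + 10)) n (1 / n) lam
      (C4.uS P.q F G) (C4.uS1 P.q F G) (C4.uD P.q F G) (C4.uD1 P.q F G)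
      (C4.oS P.q al e) (C4.oD P.q al e)

section
variable {om0 R : ℝ} {U : ℝ → ℂ}

/-- NODE C4Fac (helper35): uniform facts about the coefficients. -/
structure C4Facts (B : BData om0 R U) : Prop where
  qu : ∀ᶠ j in atTop, ∀ r ∈ Icc (0 : ℝ) 8, ‖(B.P j).q r‖ ≤ 2
  bb : ∃ C : ℝ, ∀ᶠ j in atTop, ∀ r ∈ Icc (0 : ℝ) 8, |CCore.b (B.P j).q (deriv (B.P j).q) r| ≤ C
  rho0 : ∀ e : ℝ, 0 < e → ∀ᶠ j in atTop, ∀ r ∈ Icc (0 : ℝ) R,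
    |CCore.rho (B.P j).q (deriv (B.P j).q) r| ≤ e
  src : ∃ C : ℝ, ∀ᶠ j in atTop, ∀ (l : ℕ) (ls : ℝ) (e : ℝ → ℂ), (B.P j).IsSym l ls e →
    ∀ r ∈ Icc (0 : ℝ) 8, ‖e r / (B.P j).q r‖ ≤ C
  src0 : ∀ t : ℝ, 0 < t → ∀ᶠ j in atTop, ∀ (l : ℕ) (ls : ℝ) (e : ℝ → ℂ), (B.P j).IsSym l ls e →
    ∀ r ∈ Icc (0 : ℝ) R, |(e r / (B.P j).q r).re| ≤ t
  /-- `U - 1`, `U'` are `O(d)` at `R + d` -/
  U1 : ∃ C : ℝ, ∀ d ∈ Icc (0 : ℝ) 1, ‖U (R + d) - 1‖ ≤ C * d ∧ ‖deriv U (R + d)‖ ≤ C * d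
  /-- `n |q|^n ≤ 1` on `[R+d, 8]` -/
  nP : ∀ d : ℝ, 0 < d → ∀ᶠ j in atTop, ∀ r ∈ Icc (R + d) 8,
    (B.nn j : ℝ) * ‖(B.P j).q r‖ ^ (B.nn j) ≤ 1

/-- OUTPUT 1 of C4 core (helper426): boundary relations with error `C √d` at `R + d`. -/
def BData.C4BC (B : BData om0 R U) : Prop :=
  ∀ (La : ℝ) (l : ℕ), ∃ C d0 : ℝ, 0 < d0 ∧ ∀ d : ℝ, 0 < d → d ≤ d0 → ∀ᶠ j in atTop,
    ∀ (H : R12 → ℝ) (lam al : ℂ) (e F G : ℝ → ℂ), 0 ≤ lam.re → ‖lam‖ ≤ La → ‖al‖ ≤ 1 →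
      (B.P j).Pair l H lam al e F G →
      ((al = 0 ∧ e = fun _ => 0) ∨ ∃ ls : ℝ, (B.P j).IsSym l ls e) → NB 8 F G ≤ 1 →
      ‖F (R + d) + G (R + d)‖ ≤ C * Real.sqrt d ∧
      ‖deriv F (R + d) - deriv G (R + d) - (l : ℂ) / (R : ℂ) * (F (R + d) - G (R + d))‖
        ≤ C * Real.sqrt d ∧
      (∀ r ∈ Icc (R + d) 6, ‖F r‖ ≤ C ∧ ‖G r‖ ≤ C)

/-- OUTPUT 2 of C4 core (helper426): a pair that is small on `[R+d, 8]` is small on `[0, 8]`. -/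
def BData.C4NT (B : BData om0 R U) : Prop :=
  ∀ (La : ℝ) (l : ℕ) (t : ℝ), 0 < t → ∃ d : ℝ, 0 < d ∧ R + d ≤ 6 ∧ ∀ᶠ j in atTop,
    ∀ (H : R12 → ℝ) (lam al : ℂ) (e F G : ℝ → ℂ), 0 ≤ lam.re → ‖lam‖ ≤ La → ‖al‖ ≤ 1 →
      (B.P j).Pair l H lam al e F G →
      ((al = 0 ∧ e = fun _ => 0) ∨ ∃ ls : ℝ, (B.P j).IsSym l ls e) → NB 8 F G ≤ 1 →
      (∀ r ∈ Icc (R + d) 8, ‖F r‖ ≤ d ∧ ‖deriv F r‖ ≤ d ∧ ‖G r‖ ≤ d ∧ ‖deriv G r‖ ≤ d) →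
      NB 8 F G ≤ t

end

end Crest.Agent.R086
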