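import Mathlib

/-!
Row 86 (S0114), node OUT (helper684): a solution of the free radial equation on `(r1,∞)` with bounded
derivatives up to order 13 is a multiple of the outgoing one.
Wronskian `G = F Φ' - F' Φ = C r^(-11) e^{-i r²/4}`, whose 12th derivative is unbounded unless `C = 0`.
-/

set_option autoImplicit false

open Complex Set Filter Topology

namespace Crest.Agent.R086.XOut

/-- `f` has bounded derivatives up to order `k` on `(r1,∞)`. -/
def BD (r1 : ℝ) : ℕ → (ℝ → ℂ) → Prop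
  | 0, f => ∃ C : ℝ, ∀ r, r1 < r → ‖f r‖ ≤ C
  | (k + 1), f => (∃ C : ℝ, ∀ r, r1 < r → ‖f r‖ ≤ C) ∧
      ∃ f' : ℝ → ℂ, (∀ r, r1 < r → HasDerivAt f (f' r) r) ∧ BD r1 k f'

variable {r1 : ℝ}

theorem BD.bdd {k : ℕ} {f : ℝ → ℂ} (h : BD r1 k f) : ∃ C : ℝ, ∀ r, r1 < r → ‖f r‖ ≤ C := by
  cases k with
  | zero => exact h
  | succ k => exact h.1

theorem BD.congr {k : ℕ} : ∀ {f g : ℝ → ℂ}, BD r1 k f → (∀ r, r1 < r → g r = f r) → BD r1 k g := by
  induction k with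
  | zero =>
    rintro f g ⟨C, hC⟩ hfg
    exact ⟨C, fun r hr => by rw [hfg r hr]; exact hC r hr⟩
  | succ k ih =>
    rintro f g ⟨⟨C, hC⟩, f', hf', hb⟩ hfg
    refine ⟨⟨C, fun r hr => by rw [hfg r hr]; exact hC r hr⟩, f', fun r hr => ?_, hb⟩
    refine (hf' r hr).congr_of_eventuallyEq ?_
    filter_upwards [Ioi_mem_nhds hr] with s hs using hfg s hs

theorem BD.pred {k : ℕ} : ∀ {f : ℝ → ℂ}, BD r1 (k + 1) f → BD r1 k f := by
  induction k with
  | zero => intro f h; exact h.1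
  | succ k ih =>
    rintro f ⟨hb, f', hf', hk⟩
    exact ⟨hb, f', hf', ih hk⟩

theorem BD.mono {k m : ℕ} (hkm : k ≤ m) {f : ℝ → ℂ} (h : BD r1 m f) : BD r1 k f := by
  induction hkm with
  | refl => exact h
  | step _ ih => exact ih h.pred

theorem BD.der {k : ℕ} {f g : ℝ → ℂ} (h : BD r1 (k + 1) f) (hg : ∀ r, r1 < r → HasDerivAt f (g r) r) :
    BD r1 k g := by
  obtain ⟨_, f', hf', hk⟩ := h
  exact hk.congr (fun r hr => (hg r hr).unique (hf' r hr))

theorem BD.add {k : ℕ} : ∀ {f g : ℝ → ℂ}, BD r1 k f → BD r1 k g → BD r1 k (fun r => f r + g r) := by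
  induction k with
  | zero =>
    rintro f g ⟨C, hC⟩ ⟨D, hD⟩
    exact ⟨C + D, fun r hr => (norm_add_le _ _).trans (add_le_add (hC r hr) (hD r hr))⟩
  | succ k ih =>
    rintro f g ⟨⟨C, hC⟩, f', hf', hkf⟩ ⟨⟨D, hD⟩, g', hg', hkg⟩
    refine ⟨⟨C + D, fun r hr => (norm_add_le _ _).trans (add_le_add (hC r hr) (hD r hr))⟩,
      fun r => f' r + g' r, fun r hr => (hf' r hr).add (hg' r hr), ih hkf hkg⟩

theorem BD.const_mul {k : ℕ} (c : ℂ) : ∀ {f : ℝ → ℂ}, BD r1 k f → BD r1 k (fun r => c * f r) := by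
  induction k with
  | zero =>
    rintro f ⟨C, hC⟩
    exact ⟨‖c‖ * C, fun r hr => by
      rw [norm_mul]; exact mul_le_mul_of_nonneg_left (hC r hr) (norm_nonneg _)⟩
  | succ k ih =>
    rintro f ⟨⟨C, hC⟩, f', hf', hkf⟩
    refine ⟨⟨‖c‖ * C, fun r hr => by
      rw [norm_mul]; exact mul_le_mul_of_nonneg_left (hC r hr) (norm_nonneg _)⟩,
      fun r => c * f' r, fun r hr => (hf' r hr).const_mul c, ih hkf⟩

theorem BD.sub {k : ℕ} {f g : ℝ → ℂ} (hf : BD r1 k f) (hg : BD r1 k g) :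
    BD r1 k (fun r => f r - g r) := by
  have := hf.add (hg.const_mul (-1))
  exact this.congr (fun r _ => by ring)

theorem BD.mul {k : ℕ} : ∀ {f g : ℝ → ℂ}, BD r1 k f → BD r1 k g → BD r1 k (fun r => f r * g r) := by
  induction k with
  | zero =>
    rintro f g ⟨C, hC⟩ ⟨D, hD⟩
    refine ⟨|C| * |D|, fun r hr => ?_⟩
    rw [norm_mul]
    exact mul_le_mul ((hC r hr).trans (le_abs_self _)) ((hD r hr).trans (le_abs_self _))
      (norm_nonneg _) (abs_nonneg _)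
  | succ k ih =>
    intro f g hf hg
    have hf0 := hf.pred
    have hg0 := hg.pred
    obtain ⟨⟨C, hC⟩, f', hf', hkf⟩ := hf
    obtain ⟨⟨D, hD⟩, g', hg', hkg⟩ := hg
    refine ⟨⟨|C| * |D|, fun r hr => ?_⟩, fun r => f' r * g r + f r * g' r,
      fun r hr => (hf' r hr).mul (hg' r hr), (ih hkf hg0).add (ih hf0 hkg)⟩
    rw [norm_mul]
    exact mul_le_mul ((hC r hr).trans (le_abs_self _)) ((hD r hr).trans (le_abs_self _))
      (norm_nonneg _) (abs_nonneg _)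

/-- from `ContDiff` and bounded iterated derivatives -/
theorem BD_of_iteratedDeriv {k : ℕ} : ∀ {f : ℝ → ℂ}, ContDiff ℝ k f →
    (∀ j ≤ k, ∃ C : ℝ, ∀ r, r1 < r → ‖iteratedDeriv j f r‖ ≤ C) → BD r1 k f := by
  induction k with
  | zero =>
    intro f _ h
    obtain ⟨C, hC⟩ := h 0 le_rfl
    exact ⟨C, fun r hr => by simpa using hC r hr⟩
  | succ k ih =>
    intro f hf h
    obtain ⟨C, hC⟩ := h 0 (Nat.zero_le _)
    refine ⟨⟨C, fun r hr => by simpa using hC r hr⟩, deriv f, fun r _ => ?_, ?_⟩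
    · exact ((hf.differentiable (by simp)) r).hasDerivAt
    · refine ih ?_ (fun j hj => ?_)
      · have : ContDiff ℝ ((k : ℕ∞) + 1) f := by exact_mod_cast hf
        exact (contDiff_succ_iff_deriv.1 this).2.2
      · obtain ⟨C', hC'⟩ := h (j + 1) (by omega)
        refine ⟨C', fun r hr => ?_⟩
        rw [← iteratedDeriv_succ']
        exact hC' r hr

/-! ### the oscillating function -/

/-- `r^m s(r^{-2}) e^{-i r²/4}` -/
noncomputable def osc (m : ℤ) (s : Polynomial ℂ) (r : ℝ) : ℂ :=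
  (r : ℂ) ^ m * s.eval (((r : ℂ) ^ 2)⁻¹) * exp (-(I * (r : ℂ) ^ 2 / 4))

/-- coefficient polynomial of the derivative -/
noncomputable def nxt (m : ℤ) (s : Polynomial ℂ) : Polynomial ℂ :=
  Polynomial.C (-(I / 2)) * s + Polynomial.C (m : ℂ) * (Polynomial.X * s)
    - Polynomial.C 2 * (Polynomial.X ^ 2 * Polynomial.derivative s)

theorem nxt_coeff_zero (m : ℤ) (s : Polynomial ℂ) : (nxt m s).coeff 0 = -(I / 2) * s.coeff 0 := by
  unfold nxt
  simp [Polynomial.mul_coeff_zero]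

theorem hasDerivAt_osc (m : ℤ) (s : Polynomial ℂ) {r : ℝ} (hr : 0 < r) :
    HasDerivAt (osc m s) (osc (m + 1) (nxt m s) r) r := by
  have hr0 : (r : ℂ) ≠ 0 := by exact_mod_cast hr.ne'
  have h0 : HasDerivAt (fun x : ℝ => (x : ℂ)) 1 r := Complex.ofRealCLM.hasDerivAt
  have h1 : HasDerivAt (fun x : ℝ => (x : ℂ) ^ m) ((m : ℂ) * (r : ℂ) ^ (m - 1) * 1) r :=
    (hasDerivAt_zpow m (r : ℂ) (Or.inl hr0)).comp r h0
  have h2 : HasDerivAt (fun x : ℝ => ((x : ℂ) ^ 2)⁻¹) (-(2 * (r : ℂ)) / ((r : ℂ) ^ 2) ^ 2) r := by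
    have := (h0.pow 2).inv (pow_ne_zero 2 hr0)
    refine this.congr_deriv ?_
    simp
  have h3 : HasDerivAt (fun x : ℝ => s.eval (((x : ℂ) ^ 2)⁻¹))
      ((Polynomial.derivative s).eval (((r : ℂ) ^ 2)⁻¹) * (-(2 * (r : ℂ)) / ((r : ℂ) ^ 2) ^ 2)) r :=
    HasDerivAt.comp (h₂ := fun z : ℂ => s.eval z) (h := fun x : ℝ => ((x : ℂ) ^ 2)⁻¹) r
      (s.hasDerivAt (((r : ℂ) ^ 2)⁻¹)) h2
  have h4 : HasDerivAt (fun x : ℝ => exp (-(I * (x : ℂ) ^ 2 / 4)))
      (exp (-(I * (r : ℂ) ^ 2 / 4)) * (-(I * (2 * (r : ℂ)) / 4))) r := by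
    have h5 : HasDerivAt (fun x : ℝ => -(I * (x : ℂ) ^ 2 / 4)) (-(I * (2 * (r : ℂ)) / 4)) r := by
      have := (((h0.pow 2).const_mul I).div_const 4).neg
      refine this.congr_deriv ?_
      simp
    exact h5.cexp
  have h := (h1.mul h3).mul h4
  refine h.congr_deriv ?_
  unfold osc nxt
  simp only [Polynomial.eval_add, Polynomial.eval_sub, Polynomial.eval_mul, Polynomial.eval_C,
    Polynomial.eval_X, Polynomial.eval_pow, Pi.mul_apply]
  have e1 : (r : ℂ) ^ (m - 1) = (r : ℂ) ^ m * (r : ℂ)⁻¹ := by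
    rw [zpow_sub₀ hr0, zpow_one]; rfl
  have e2 : (r : ℂ) ^ (m + 1) = (r : ℂ) ^ m * (r : ℂ) := by
    rw [zpow_add₀ hr0, zpow_one]
  rw [e1, e2]
  field_simp
  ring

theorem coeff_zero_of_BD {r1 : ℝ} (hr1 : 0 ≤ r1) : ∀ (k : ℕ) (m : ℤ) (s : Polynomial ℂ),
    BD r1 k (osc m s) → 0 < m + k → s.coeff 0 = 0 := by
  intro k
  induction k with
  | zero =>
    rintro m s ⟨C, hC⟩ hm
    have hm' : 0 < m := by simpa using hm
    have hm1 : 1 ≤ m := hm'
    have t1 : Tendsto (fun r : ℝ => ((r : ℂ) ^ 2)⁻¹) atTop (𝓝 0) := by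
      have : Tendsto (fun r : ℝ => ((r ^ 2)⁻¹ : ℝ)) atTop (𝓝 0) :=
        tendsto_inv_atTop_zero.comp (tendsto_pow_atTop (by norm_num))
      have h2 := (Complex.continuous_ofReal.tendsto 0).comp this
      simp only [ofReal_zero] at h2
      refine h2.congr (fun r => ?_)
      simp
    have t2 : Tendsto (fun r : ℝ => s.eval (((r : ℂ) ^ 2)⁻¹)) atTop (𝓝 (s.eval 0)) :=
      (s.continuous.tendsto 0).comp t1
    have t3 : Tendsto (fun r : ℝ => s.eval (((r : ℂ) ^ 2)⁻¹)) atTop (𝓝 0) := by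
      have t4 : Tendsto (fun r : ℝ => |C| * r⁻¹) atTop (𝓝 0) := by
        simpa using tendsto_inv_atTop_zero.const_mul |C|
      refine squeeze_zero_norm' ?_ t4
      filter_upwards [eventually_gt_atTop r1, eventually_ge_atTop 1] with r hr hr1'
      have hr0 : 0 < r := by linarith
      have hb := hC r hr
      unfold osc at hb
      have hexp : ‖exp (-(I * (r : ℂ) ^ 2 / 4))‖ = 1 := by
        rw [Complex.norm_exp]
        have : (-(I * (r : ℂ) ^ 2 / 4)).re = 0 := by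
          have : (-(I * (r : ℂ) ^ 2 / 4)) = ((-(r ^ 2 / 4) : ℝ) : ℂ) * I := by push_cast; ring
          rw [this, Complex.re_ofReal_mul, Complex.I_re, mul_zero]
        rw [this, Real.exp_zero]
      rw [norm_mul, norm_mul, hexp, mul_one, norm_zpow, Complex.norm_real, Real.norm_eq_abs,
        abs_of_pos hr0] at hb
      have hp : r ≤ r ^ m := by
        calc r = r ^ (1 : ℤ) := (zpow_one r).symm
          _ ≤ r ^ m := zpow_le_zpow_right₀ hr1' hm1
      have h5 : r * ‖s.eval (((r : ℂ) ^ 2)⁻¹)‖ ≤ |C| :=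
        (mul_le_mul_of_nonneg_right hp (norm_nonneg _)).trans (hb.trans (le_abs_self C))
      rw [← div_eq_mul_inv, le_div_iff₀ hr0]
      linarith [mul_comm r ‖s.eval (((r : ℂ) ^ 2)⁻¹)‖]
    have := tendsto_nhds_unique t2 t3
    rw [Polynomial.coeff_zero_eq_eval_zero]
    exact this
  | succ k ih =>
    intro m s h hm
    have h1 : BD r1 k (osc (m + 1) (nxt m s)) :=
      h.der (fun r hr => hasDerivAt_osc m s (lt_of_le_of_lt hr1 hr))
    have h2 := ih (m + 1) (nxt m s) h1 (by push_cast at hm; omega)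
    rw [nxt_coeff_zero] at h2
    have hI : -(I / 2) ≠ 0 := by simp
    exact (mul_eq_zero.1 h2).resolve_left hI

/-! ### linear ODE uniqueness -/

/-- the free radial equation `F'' = -(11/r + i r/2) F' - (i mu - kap/r²) F` on `(r1,∞)` -/
structure Free (r1 : ℝ) (kap mu : ℂ) (F F1 : ℝ → ℂ) : Prop where
  d0 : ∀ r, r1 < r → HasDerivAt F (F1 r) r
  d1 : ∀ r, r1 < r → HasDerivAt F1
    (-(11 / (r : ℂ) + I * r / 2) * F1 r - (I * mu - kap / (r : ℂ) ^ 2) * F r) r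

theorem Free.unique {r1 : ℝ} (hr1 : 0 ≤ r1) {kap mu : ℂ} {F F1 G G1 : ℝ → ℂ}
    (hF : Free r1 kap mu F F1) (hG : Free r1 kap mu G G1) {r0 : ℝ} (h0 : r1 < r0)
    (e0 : F r0 = G r0) (e1 : F1 r0 = G1 r0) : ∀ r, r1 < r → F r = G r ∧ F1 r = G1 r := by
  intro r hr
  obtain ⟨a, ha1, ha2⟩ := exists_between (lt_min h0 hr)
  have ha0 : a < r0 := ha2.trans_le (min_le_left _ _)
  have har : a < r := ha2.trans_le (min_le_right _ _)
  set b : ℝ := max r0 r + 1 with hb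
  have hb0 : r0 < b := by rw [hb]; linarith [le_max_left r0 r]
  have hbr : r < b := by rw [hb]; linarith [le_max_right r0 r]
  have hapos : 0 < a := lt_of_le_of_lt hr1 ha1
  have hbpos : 0 < b := hapos.trans (ha0.trans hb0)
  let v : ℝ → ℂ × ℂ → ℂ × ℂ := fun t y =>
    (y.2, -(11 / (t : ℂ) + I * t / 2) * y.2 - (I * mu - kap / (t : ℂ) ^ 2) * y.1)
  set K : ℝ := 1 + (11 / a + b / 2) + (‖mu‖ + ‖kap‖ / a ^ 2) with hK
  have hKpos : 0 ≤ K := by rw [hK]; positivity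
  have hLip : ∀ t ∈ Ioo a b, LipschitzOnWith (Real.toNNReal K) (v t) univ := by
    intro t ht
    have ht0 : 0 < t := hapos.trans ht.1
    refine LipschitzOnWith.of_dist_le_mul fun x _ y _ => ?_
    rw [Real.coe_toNNReal K hKpos, dist_eq_norm, dist_eq_norm]
    have hp : ‖(11 / (t : ℂ) + I * t / 2)‖ ≤ 11 / a + b / 2 := by
      refine (norm_add_le _ _).trans (add_le_add ?_ ?_)
      · rw [norm_div, Complex.norm_real, Real.norm_eq_abs, abs_of_pos ht0]
        have : ‖(11 : ℂ)‖ = 11 := by simp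
        rw [this]
        exact div_le_div_of_nonneg_left (by norm_num) hapos ht.1.le
      · rw [norm_div, norm_mul, norm_I, one_mul, Complex.norm_real, Real.norm_eq_abs, abs_of_pos ht0]
        have : ‖(2 : ℂ)‖ = 2 := by simp
        rw [this]
        linarith [ht.2]
    have hq : ‖(I * mu - kap / (t : ℂ) ^ 2)‖ ≤ ‖mu‖ + ‖kap‖ / a ^ 2 := by
      refine (norm_sub_le _ _).trans (add_le_add ?_ ?_)
      · rw [norm_mul, norm_I, one_mul]
      · rw [norm_div, norm_pow, Complex.norm_real, Real.norm_eq_abs, abs_of_pos ht0]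
        exact div_le_div_of_nonneg_left (norm_nonneg _) (by positivity)
          (pow_le_pow_left₀ hapos.le ht.1.le 2)
    have hx1 : ‖x.1 - y.1‖ ≤ ‖x - y‖ := by simpa using norm_fst_le (x - y)
    have hx2 : ‖x.2 - y.2‖ ≤ ‖x - y‖ := by simpa using norm_snd_le (x - y)
    have hn := norm_nonneg (x - y)
    have ha' : 0 ≤ 11 / a + b / 2 := by positivity
    have hb' : 0 ≤ ‖mu‖ + ‖kap‖ / a ^ 2 := by positivity
    refine (norm_prod_le_iff).2 ⟨?_, ?_⟩
    · have : (v t x - v t y).1 = x.2 - y.2 := rfl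
      rw [this]
      refine hx2.trans ?_
      nlinarith
    · have : (v t x - v t y).2 = -(11 / (t : ℂ) + I * t / 2) * (x.2 - y.2)
          - (I * mu - kap / (t : ℂ) ^ 2) * (x.1 - y.1) := by
        simp only [v, Prod.snd_sub]; ring
      rw [this]
      refine (norm_sub_le _ _).trans ?_
      rw [norm_mul, norm_mul, norm_neg]
      have h1 := mul_le_mul hp hx2 (norm_nonneg _) ha'
      have h2 := mul_le_mul hq hx1 (norm_nonneg _) hb'
      rw [hK]
      nlinarith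
  have hf : ∀ t ∈ Ioo a b, HasDerivAt (fun t => (F t, F1 t)) (v t (F t, F1 t)) t ∧
      (F t, F1 t) ∈ (univ : Set (ℂ × ℂ)) := fun t ht =>
    ⟨(hF.d0 t (ha1.trans ht.1)).prodMk (hF.d1 t (ha1.trans ht.1)), mem_univ _⟩
  have hg : ∀ t ∈ Ioo a b, HasDerivAt (fun t => (G t, G1 t)) (v t (G t, G1 t)) t ∧
      (G t, G1 t) ∈ (univ : Set (ℂ × ℂ)) := fun t ht =>
    ⟨(hG.d0 t (ha1.trans ht.1)).prodMk (hG.d1 t (ha1.trans ht.1)), mem_univ _⟩
  have := ODE_solution_unique_of_mem_Ioo (s := fun _ => univ) hLip ⟨ha0, hb0⟩ hf hg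
    (by simp [e0, e1])
  have h2 := this ⟨har, hbr⟩
  simpa using h2

/-- **OUT**: uniqueness of the outgoing solution among solutions with 13 bounded derivatives. -/
theorem out_unique {r1 : ℝ} (hr1 : 0 ≤ r1) {kap mu : ℂ} {F F1 Φ Φ1 : ℝ → ℂ}
    (hF : Free r1 kap mu F F1) (hΦ : Free r1 kap mu Φ Φ1) (bF : BD r1 13 F) (bΦ : BD r1 13 Φ)
    (hne : ∃ r0, r1 < r0 ∧ Φ r0 ≠ 0) :
    ∃ c : ℂ, ∀ r, r1 < r → F r = c * Φ r ∧ F1 r = c * Φ1 r := by
  obtain ⟨r0, hr0, hne⟩ := hne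
  -- Wronskian
  set G : ℝ → ℂ := fun r => F r * Φ1 r - F1 r * Φ r with hG
  have bF1 : BD r1 12 F1 := bF.der hF.d0
  have bΦ1 : BD r1 12 Φ1 := bΦ.der hΦ.d0
  have bG : BD r1 12 G := (bF.pred.mul bΦ1).sub (bF1.mul bΦ.pred)
  have dG : ∀ r, r1 < r → HasDerivAt G (-(11 / (r : ℂ) + I * r / 2) * G r) r := by
    intro r hr
    have h := ((hF.d0 r hr).mul (hΦ.d1 r hr)).sub ((hF.d1 r hr).mul (hΦ.d0 r hr))
    refine h.congr_deriv ?_
    simp only [hG]
    ring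
  -- `G * r^11 * e^{i r²/4}` is constant
  set W : ℝ → ℂ := fun r => G r * ((r : ℂ) ^ 11 * exp (I * (r : ℂ) ^ 2 / 4)) with hW
  have dW : ∀ r, r1 < r → HasDerivAt W 0 r := by
    intro r hr
    have hr' : 0 < r := lt_of_le_of_lt hr1 hr
    have hrc : (r : ℂ) ≠ 0 := by exact_mod_cast hr'.ne'
    have h0 : HasDerivAt (fun x : ℝ => (x : ℂ)) 1 r := Complex.ofRealCLM.hasDerivAt
    have h5 : HasDerivAt (fun x : ℝ => (I * (x : ℂ) ^ 2 / 4)) ((I * (2 * (r : ℂ)) / 4)) r := by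
      have := (((h0.pow 2).const_mul I).div_const 4)
      refine this.congr_deriv ?_
      simp
    have h := (dG r hr).mul ((h0.pow 11).mul h5.cexp)
    refine h.congr_deriv ?_
    simp only [Pi.mul_apply, Pi.pow_apply]
    field_simp
    ring
  have cW : ∀ r, r1 < r → W r = W r0 := by
    intro r hr
    have hconv : Convex ℝ (Ioi r1) := convex_Ioi r1
    have := hconv.norm_image_sub_le_of_norm_hasDerivWithin_le (f := W) (f' := fun _ => 0) (C := 0)
      (fun x hx => (dW x hx).hasDerivWithinAt) (fun x _ => by simp) (mem_Ioi.2 hr0) (mem_Ioi.2 hr)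
    rw [zero_mul] at this
    exact sub_eq_zero.1 (norm_le_zero_iff.1 this)
  have hGosc : ∀ r, r1 < r → osc (-11) (Polynomial.C (W r0)) r = G r := by
    intro r hr
    have hr' : 0 < r := lt_of_le_of_lt hr1 hr
    have hrc : (r : ℂ) ≠ 0 := by exact_mod_cast hr'.ne'
    rw [← cW r hr]
    simp only [osc, hW, Polynomial.eval_C]
    have e1 : (r : ℂ) ^ (-11 : ℤ) = ((r : ℂ) ^ 11)⁻¹ := by
      rw [zpow_neg]; norm_cast
    have e2 : exp (I * (r : ℂ) ^ 2 / 4) * exp (-(I * (r : ℂ) ^ 2 / 4)) = 1 := by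
      rw [← exp_add]; simp
    rw [e1]
    have e3 : (((r : ℂ) ^ 11)⁻¹) * (r : ℂ) ^ 11 = 1 := inv_mul_cancel₀ (pow_ne_zero _ hrc)
    calc ((r : ℂ) ^ 11)⁻¹ * (G r * ((r : ℂ) ^ 11 * exp (I * (r : ℂ) ^ 2 / 4)))
            * exp (-(I * (r : ℂ) ^ 2 / 4))
        = G r * ((((r : ℂ) ^ 11)⁻¹) * (r : ℂ) ^ 11)
            * (exp (I * (r : ℂ) ^ 2 / 4) * exp (-(I * (r : ℂ) ^ 2 / 4))) := by ring
      _ = G r := by rw [e3, e2]; ring
  have hc0 : W r0 = 0 := by
    have := coeff_zero_of_BD hr1 12 (-11) (Polynomial.C (W r0)) (bG.congr hGosc) (by norm_num)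
    simpa using this
  have hG0 : F r0 * Φ1 r0 = F1 r0 * Φ r0 := by
    have h1 := hGosc r0 hr0
    rw [hc0] at h1
    simp only [osc, map_zero, Polynomial.eval_zero, mul_zero, zero_mul] at h1
    exact sub_eq_zero.1 h1.symm
  refine ⟨F r0 / Φ r0, ?_⟩
  have hΦc : Free r1 kap mu (fun r => F r0 / Φ r0 * Φ r) (fun r => F r0 / Φ r0 * Φ1 r) := by
    refine ⟨fun r hr => (hΦ.d0 r hr).const_mul _, fun r hr => ?_⟩
    refine ((hΦ.d1 r hr).const_mul (F r0 / Φ r0)).congr_deriv ?_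
    ring
  refine hF.unique hr1 hΦc hr0 ?_ ?_
  · field_simp
  · field_simp
    linear_combination -hG0

end Crest.Agent.R086.XOut
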