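import Mathlib
import Crest.Agent.R086.ABIface
import Crest.Agent.R086.Phi
import Crest.Agent.R086.XOut

/-!
Row 86, Part C, node C4Fin (helper512): the final limit / linear algebra step for bounded `(lam, l)`.
-/

set_option autoImplicit false

open Complex Set Filter Topology

namespace Crest.Agent.R086.C4FinAux

open Crest.Agent.R086.JCx Crest.Agent.R086.XOut

local notation "conj" => starRingEnd ℂ

/-! ### identification of `A.fo` with `Phi` -/

theorem fo_eq (l : ℕ) (mu : ℂ) (r : ℝ) : A.fo l mu r = Phi l mu r := rfl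

theorem fo1_eq (l : ℕ) (mu : ℂ) (r : ℝ) : A.fo1 l mu r = Phi1 l mu r := by
  unfold A.fo1 A.fo Phi1 zr
  ring

/-! ### linear algebra -/

/-- the simple-zero linear algebra step -/
theorem alg_simple {p q pt qt p' q' pt' qt' g1 g2 c1 c2 a : ℂ}
    (hD : p * qt + pt * q = 0) (hD' : p' * qt + p * qt' + (pt' * q + pt * q') ≠ 0)
    (hg : g1 ≠ 0 ∨ g2 ≠ 0) (hg1 : g1 * p + g2 * pt = 0) (hg2 : g1 * q - g2 * qt = 0)
    (h1 : c1 * p + c2 * pt + a * (g1 * p' + g2 * pt') = 0)
    (h2 : c1 * q - c2 * qt + a * (g1 * q' - g2 * qt') = 0) :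
    a = 0 ∧ ∃ t : ℂ, c1 = t * g1 ∧ c2 = t * g2 := by
  have e1 : a * (p' * qt + p * qt' + (pt' * q + pt * q')) * g1 = 0 := by
    linear_combination qt * h1 + pt * h2 - c1 * hD + a * qt' * hg1 + a * pt' * hg2
  have e2 : a * (p' * qt + p * qt' + (pt' * q + pt * q')) * g2 = 0 := by
    linear_combination q * h1 - p * h2 - c2 * hD + a * q' * hg1 - a * p' * hg2
  have ha : a = 0 := by
    rcases hg with h | h
    · have := (mul_eq_zero.1 e1).resolve_right h
      exact (mul_eq_zero.1 this).resolve_right hD'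
    · have := (mul_eq_zero.1 e2).resolve_right h
      exact (mul_eq_zero.1 this).resolve_right hD'
  refine ⟨ha, ?_⟩
  rw [ha] at h1 h2
  have k : c1 * g2 - c2 * g1 = 0 := by
    by_contra hk
    have k1 : (c1 * g2 - c2 * g1) * p = 0 := by linear_combination g2 * h1 - c2 * hg1
    have k2 : (c1 * g2 - c2 * g1) * pt = 0 := by linear_combination c1 * hg1 - g1 * h1
    have k3 : (c1 * g2 - c2 * g1) * q = 0 := by linear_combination g2 * h2 - c2 * hg2
    have k4 : (c1 * g2 - c2 * g1) * qt = 0 := by linear_combination g1 * h2 - c1 * hg2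
    have z1 := (mul_eq_zero.1 k1).resolve_left hk
    have z2 := (mul_eq_zero.1 k2).resolve_left hk
    have z3 := (mul_eq_zero.1 k3).resolve_left hk
    have z4 := (mul_eq_zero.1 k4).resolve_left hk
    apply hD'
    rw [z1, z2, z3, z4]
    ring
  rcases hg with h | h
  · refine ⟨c1 / g1, by field_simp, ?_⟩
    field_simp
    linear_combination -k
  · refine ⟨c2 / g2, ?_, by field_simp⟩
    field_simp
    linear_combination k

/-! ### derivative in `mu` -/

/-- `∂_mu Phi` -/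
noncomputable def dPhi (l : ℕ) (mu : ℂ) (r : ℝ) : ℂ := deriv (fun z => Phi l z r) mu
/-- `∂_mu Phi1` -/
noncomputable def dPhi1 (l : ℕ) (mu : ℂ) (r : ℝ) : ℂ := deriv (fun z => Phi1 l z r) mu

/-- the open half plane where everything is defined -/
def HP (l : ℕ) : Set ℂ := {mu : ℂ | -1 - (l : ℝ) / 2 < mu.re}

theorem isOpen_HP (l : ℕ) : IsOpen (HP l) := isOpen_lt continuous_const continuous_re

/-- quotients converge to the derivative -/
theorem quot_tendsto {ι : Type*} {𝓤 : Filter ι} {f : ℂ → ℂ} {S : Set ℂ} (hS : IsOpen S)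
    (hf : DifferentiableOn ℂ f S) {z : ℂ} (hz : z ∈ S) {x y : ι → ℂ} (hx : Tendsto x 𝓤 (𝓝 z))
    (hy : Tendsto y 𝓤 (𝓝 z)) (hne : ∀ᶠ j in 𝓤, x j ≠ y j) :
    Tendsto (fun j => (f (y j) - f (x j)) / (y j - x j)) 𝓤 (𝓝 (deriv f z)) := by
  have ha : AnalyticAt ℂ f z := hf.analyticAt (hS.mem_nhds hz)
  have hs : HasStrictDerivAt f (deriv f z) z := ha.hasStrictDerivAt
  have ho := hs.isLittleO
  have hxy : Tendsto (fun j => (y j, x j)) 𝓤 (𝓝 (z, z)) := hy.prodMk_nhds hx
  have h2 := ho.comp_tendsto hxy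
  have h3 := h2.tendsto_div_nhds_zero
  have h4 : Tendsto (fun j => (f (y j) - f (x j)) / (y j - x j) - deriv f z) 𝓤 (𝓝 0) := by
    refine h3.congr' ?_
    filter_upwards [hne] with j hj
    have : y j - x j ≠ 0 := sub_ne_zero.2 (Ne.symm hj)
    simp only [Function.comp_apply, ContinuousLinearMap.toSpanSingleton_apply, smul_eq_mul]
    field_simp
  simpa using h4.add_const (deriv f z)

/-- continuity in `r` of the `mu`-derivative -/
theorem deriv_tendsto {f : ℂ → ℝ → ℂ} {S : Set ℂ} (hS : IsOpen S) {r0 : ℝ} (hr0 : 0 < r0)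
    (hd : ∀ r, 0 < r → DifferentiableOn ℂ (fun z => f z r) S)
    (hc : ∀ p : ℂ × ℝ, p.1 ∈ S → 0 < p.2 → ContinuousAt (fun p : ℂ × ℝ => f p.1 p.2) p)
    {z : ℂ} (hz : z ∈ S) :
    Tendsto (fun r => deriv (fun z => f z r) z) (𝓝 r0) (𝓝 (deriv (fun z => f z r0) z)) := by
  obtain ⟨ρ, hρ, hball⟩ := Metric.isOpen_iff.1 hS z hz
  set s := ρ / 2 with hs
  have hs0 : 0 < s := by positivity
  have hcb : Metric.closedBall z s ⊆ S := (Metric.closedBall_subset_ball (by linarith)).trans hball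
  rw [Metric.tendsto_nhds]
  intro ε hε
  have hK : IsCompact (Metric.sphere z s) := isCompact_sphere z s
  have hε' : 0 < ε / 2 * s := by positivity
  have key : ∀ᶠ r in 𝓝 r0, ∀ w ∈ Metric.sphere z s, ‖f w r - f w r0‖ < ε / 2 * s := by
    refine hK.eventually_forall_of_forall_eventually
      (P := fun r w => ‖f w r - f w r0‖ < ε / 2 * s) ?_
    intro w hw
    have hwS : w ∈ S := hcb (Metric.sphere_subset_closedBall hw)
    have c1 : ContinuousAt (fun p : ℝ × ℂ => f p.2 p.1) (r0, w) :=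
      ContinuousAt.comp (f := fun p : ℝ × ℂ => (p.2, p.1)) (g := fun p : ℂ × ℝ => f p.1 p.2)
        (x := (r0, w)) (hc (w, r0) hwS hr0) (by fun_prop)
    have c2 : ContinuousAt (fun p : ℝ × ℂ => f p.2 r0) (r0, w) := by
      have : ContinuousAt (fun z => f z r0) w :=
        ((hd r0 hr0).differentiableAt (hS.mem_nhds hwS)).continuousAt
      exact ContinuousAt.comp (f := Prod.snd) (g := fun z => f z r0) (x := (r0, w)) this
        continuousAt_snd
    have c3 : ContinuousAt (fun p : ℝ × ℂ => ‖f p.2 p.1 - f p.2 r0‖) (r0, w) := (c1.sub c2).norm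
    have c4 := c3.tendsto
    simp only [sub_self, norm_zero] at c4
    exact c4.eventually (gt_mem_nhds hε')
  filter_upwards [key, (isOpen_Ioi (a := (0:ℝ))).mem_nhds hr0] with r hr hrpos
  have hrpos' : 0 < r := hrpos
  have dd : DiffContOnCl ℂ (fun w => f w r - f w r0) (Metric.ball z s) := by
    refine DifferentiableOn.diffContOnCl ?_
    rw [closure_ball z hs0.ne']
    exact ((hd r hrpos').sub (hd r0 hr0)).mono hcb
  have e := norm_deriv_le_of_forall_mem_sphere_norm_le hs0 dd (fun w hw => (hr w hw).le)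
  have e2 : deriv (fun w => f w r - f w r0) z = deriv (fun z => f z r) z - deriv (fun z => f z r0) z :=
    deriv_fun_sub ((hd r hrpos').differentiableAt (hS.mem_nhds hz))
      ((hd r0 hr0).differentiableAt (hS.mem_nhds hz))
  rw [e2] at e
  rw [dist_eq_norm]
  refine lt_of_le_of_lt e ?_
  have : ε / 2 * s / s = ε / 2 := by field_simp
  rw [this]
  linarith

theorem Phi_diffOn (l : ℕ) {r : ℝ} (hr : 0 < r) : DifferentiableOn ℂ (fun z => Phi l z r) (HP l) :=
  fun _ hz => (Phi_differentiableAt_mu hz hr).differentiableWithinAt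

theorem Phi1_diffOn (l : ℕ) {r : ℝ} (hr : 0 < r) :
    DifferentiableOn ℂ (fun z => Phi1 l z r) (HP l) :=
  fun _ hz => (Phi1_differentiableAt_mu hz hr).differentiableWithinAt

theorem dPhi_tendsto {l : ℕ} {mu : ℂ} (h : mu ∈ HP l) {r0 : ℝ} (hr0 : 0 < r0) :
    Tendsto (dPhi l mu) (𝓝 r0) (𝓝 (dPhi l mu r0)) :=
  deriv_tendsto (f := fun z r => Phi l z r) (isOpen_HP l) hr0 (fun _ hr => Phi_diffOn l hr)
    (fun _ h1 h2 => Phi_continuousAt h1 h2) h

theorem dPhi1_tendsto {l : ℕ} {mu : ℂ} (h : mu ∈ HP l) {r0 : ℝ} (hr0 : 0 < r0) :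
    Tendsto (dPhi1 l mu) (𝓝 r0) (𝓝 (dPhi1 l mu r0)) :=
  deriv_tendsto (f := fun z r => Phi1 l z r) (isOpen_HP l) hr0 (fun _ hr => Phi1_diffOn l hr)
    (fun _ h1 h2 => Phi1_continuousAt h1 h2) h

/-- `(Phi, Phi1)` never vanishes. -/
theorem Phi_ne {l : ℕ} {mu : ℂ} (h : mu ∈ HP l) {r : ℝ} (hr : 0 < r) :
    Phi l mu r ≠ 0 ∨ Phi1 l mu r ≠ 0 := by
  by_contra hcon
  push Not at hcon
  have hF : Free 0 ((l : ℂ) * (l + 10)) mu (Phi l mu) (Phi1 l mu) :=
    ⟨fun r hr => Phi_hasDerivAt h hr, fun r hr => Phi1_hasDerivAt h hr⟩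
  have hZ : Free 0 ((l : ℂ) * (l + 10)) mu (fun _ => 0) (fun _ => 0) :=
    ⟨fun r _ => hasDerivAt_const r 0, fun r _ => by simpa using hasDerivAt_const r (0 : ℂ)⟩
  have hu := hF.unique le_rfl hZ hr hcon.1 hcon.2
  obtain ⟨r1, h1, h2⟩ := ((Phi_eventually_ne_zero h).and (eventually_gt_atTop 0)).exists
  exact h1 (hu r1 h2).1

end Crest.Agent.R086.C4FinAux
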