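import Mathlib
import Crest.Agent.R086.C34Defs

/-!
Row 86, Part C, node ALG of C4 (helper512): the limit linear algebra.
-/

set_option autoImplicit false

open Complex Set Filter Topology

namespace Crest.Agent.R086.C4Fin

local notation "conj" => starRingEnd ℂ

/-- the nondegenerate linear algebra step -/
theorem alg_nondeg {p q pt qt c1 c2 : ℂ} (hD : p * qt + pt * q ≠ 0)
    (h1 : c1 * p + c2 * pt = 0) (h2 : c1 * q - c2 * qt = 0) : c1 = 0 ∧ c2 = 0 := by
  constructor
  · have : c1 * (p * qt + pt * q) = 0 := by linear_combination qt * h1 + pt * h2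
    exact (mul_eq_zero.1 this).resolve_right hD
  · have : c2 * (p * qt + pt * q) = 0 := by linear_combination q * h1 - p * h2
    exact (mul_eq_zero.1 this).resolve_right hD

/-- the simple-zero linear algebra step -/
theorem alg_simple {p q pt qt p' q' pt' qt' g1 g2 c1 c2 a : ℂ}
    (hD : p * qt + pt * q = 0) (hD' : p' * qt + p * qt' + (pt' * q + pt * q') ≠ 0)
    (hg : g1 ≠ 0 ∨ g2 ≠ 0) (hg1 : g1 * p + g2 * pt = 0) (hg2 : g1 * q - g2 * qt = 0)
    (h1 : c1 * p + c2 * pt + a * (g1 * p' + g2 * pt') = 0)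
    (h2 : c1 * q - c2 * qt + a * (g1 * q' - g2 * qt') = 0) :
    a = 0 ∧ ∃ t : ℂ, c1 = t * g1 ∧ c2 = t * g2 := by
  have e1 : a * (p' * qt + p * qt' + (pt' * q + pt * q')) * g1 = 0 := by
    linear_combination qt * h1 + pt * h2 - c1 * hD + a * qt' * hg1 + a * pt' * hg2
  have e2 : a * (p' * qt + p * qt' + (pt' * q + pt * q')) * g2 = 0 := by
    linear_combination q * h1 - p * h2 - c2 * hD + a * q' * hg1 - a * p' * hg2
  have ha : a = 0 := by
    rcases hg with h | h
    · have := (mul_eq_zero.1 e1).resolve_right h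
      exact (mul_eq_zero.1 this).resolve_right hD'
    · have := (mul_eq_zero.1 e2).resolve_right h
      exact (mul_eq_zero.1 this).resolve_right hD'
  refine ⟨ha, ?_⟩
  rw [ha] at h1 h2
  have k : c1 * g2 - c2 * g1 = 0 := by
    by_contra hk
    have k1 : (c1 * g2 - c2 * g1) * p = 0 := by linear_combination g2 * h1 - c2 * hg1
    have k2 : (c1 * g2 - c2 * g1) * pt = 0 := by linear_combination c1 * hg1 - g1 * h1
    have k3 : (c1 * g2 - c2 * g1) * q = 0 := by linear_combination g2 * h2 - c2 * hg2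
    have k4 : (c1 * g2 - c2 * g1) * qt = 0 := by linear_combination g1 * h2 - c1 * hg2
    have z1 := (mul_eq_zero.1 k1).resolve_left hk
    have z2 := (mul_eq_zero.1 k2).resolve_left hk
    have z3 := (mul_eq_zero.1 k3).resolve_left hk
    have z4 := (mul_eq_zero.1 k4).resolve_left hk
    apply hD'
    rw [z1, z2, z3, z4]
    ring
  rcases hg with h | h
  · refine ⟨c1 / g1, by field_simp, ?_⟩
    field_simp
    linear_combination -k
  · refine ⟨c2 / g2, ?_, by field_simp⟩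
    field_simp
    linear_combination k

section
variable {Phi Phi1 : ℕ → ℂ → ℝ → ℂ} {om0 R : ℝ} {l : ℕ}

/-- (ALG1) -/
theorem alg1 {lam c1 c2 : ℂ} (hD : DetL Phi Phi1 om0 R l lam ≠ 0)
    (h1 : c1 * Phi l (lam - I * om0) R + c2 * conj (Phi l (conj lam - I * om0) R) = 0)
    (h2 : c1 * PsiL Phi Phi1 R l (lam - I * om0) - c2 * conj (PsiL Phi Phi1 R l (conj lam - I * om0)) = 0) :
    c1 = 0 ∧ c2 = 0 := by
  unfold DetL at hD
  exact alg_nondeg hD h1 h2

theorem isOpen_quarter : IsOpen {m : ℂ | -(1 / 4) < m.re} := isOpen_lt continuous_const continuous_re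

theorem PsiL_diffOn (hP : PhiFacts Phi Phi1) (hR : 0 < R) :
    DifferentiableOn ℂ (fun m => PsiL Phi Phi1 R l m) {m : ℂ | -(1 / 4) < m.re} := by
  unfold PsiL
  exact (hP.hol1 l R hR).sub ((hP.hol l R hR).const_mul _)

/-- the derivative of `lam ↦ f (lam - I om0)` -/
theorem hasDerivAt_shift {f : ℂ → ℂ} {om0 : ℝ} {ls : ℝ} {f' : ℂ}
    (hf : HasDerivAt f f' ((ls : ℂ) - I * om0)) :
    HasDerivAt (fun lam : ℂ => f (lam - I * om0)) f' (ls : ℂ) := by
  have h1 : HasDerivAt (fun lam : ℂ => lam - I * om0) 1 (ls : ℂ) := (hasDerivAt_id _).sub_const _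
  have := HasDerivAt.comp (ls : ℂ) (h₂ := f) (h := fun lam : ℂ => lam - I * om0) hf h1
  rw [mul_one] at this
  exact this

/-- the derivative of `lam ↦ conj (f (conj lam - I om0))` -/
theorem hasDerivAt_shift_conj {f : ℂ → ℂ} {om0 : ℝ} {ls : ℝ} {f' : ℂ}
    (hf : HasDerivAt f f' ((ls : ℂ) - I * om0)) :
    HasDerivAt (fun lam : ℂ => conj (f (conj lam - I * om0))) (conj f') (ls : ℂ) := by
  have h1 := hasDerivAt_shift hf
  have h2 := h1.conj_conj
  simp only [Complex.conj_ofReal] at h2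
  exact h2

/-- derivative of `DetL` at a real point -/
theorem hasDerivAt_DetL (hP : PhiFacts Phi Phi1) (hR : 0 < R) {ls : ℝ} (hls : 0 ≤ ls) :
    HasDerivAt (DetL Phi Phi1 om0 R l)
      (deriv (fun m => Phi l m R) ((ls : ℂ) - I * om0) *
          conj (PsiL Phi Phi1 R l ((ls : ℂ) - I * om0)) +
        Phi l ((ls : ℂ) - I * om0) R *
          conj (deriv (fun m => PsiL Phi Phi1 R l m) ((ls : ℂ) - I * om0)) +
      (conj (deriv (fun m => Phi l m R) ((ls : ℂ) - I * om0)) *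
          PsiL Phi Phi1 R l ((ls : ℂ) - I * om0) +
        conj (Phi l ((ls : ℂ) - I * om0) R) *
          deriv (fun m => PsiL Phi Phi1 R l m) ((ls : ℂ) - I * om0))) (ls : ℂ) := by
  have hmem : ((ls : ℂ) - I * om0) ∈ {m : ℂ | -(1 / 4) < m.re} := by
    simp only [Set.mem_ofPred_eq, sub_re, ofReal_re, mul_re, I_re, zero_mul, I_im, ofReal_im, mul_zero,
      sub_zero]
    linarith
  have d1 : HasDerivAt (fun m => Phi l m R) (deriv (fun m => Phi l m R) ((ls : ℂ) - I * om0))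
      ((ls : ℂ) - I * om0) :=
    ((hP.hol l R hR).differentiableAt (isOpen_quarter.mem_nhds hmem)).hasDerivAt
  have d2 : HasDerivAt (fun m => PsiL Phi Phi1 R l m)
      (deriv (fun m => PsiL Phi Phi1 R l m) ((ls : ℂ) - I * om0)) ((ls : ℂ) - I * om0) :=
    ((PsiL_diffOn hP hR).differentiableAt (isOpen_quarter.mem_nhds hmem)).hasDerivAt
  have s1 := hasDerivAt_shift d1
  have s2 := hasDerivAt_shift d2
  have t1 := hasDerivAt_shift_conj d1
  have t2 := hasDerivAt_shift_conj d2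
  have := (s1.mul t2).add (t1.mul s2)
  simp only [Complex.conj_ofReal] at this
  exact this

/-- (ALG2) -/
theorem alg2 (hP : PhiFacts Phi Phi1) (hR : 0 < R) {ls : ℝ} (hls : 0 ≤ ls)
    (hD : DetL Phi Phi1 om0 R l (ls : ℂ) = 0) (hD' : deriv (DetL Phi Phi1 om0 R l) (ls : ℂ) ≠ 0)
    {ga c1 c2 al : ℂ} (hga : ga ≠ 0)
    (hg1 : ga * Phi l ((ls : ℂ) - I * om0) R + conj (ga * Phi l ((ls : ℂ) - I * om0) R) = 0)
    (hg2 : ga * PsiL Phi Phi1 R l ((ls : ℂ) - I * om0)
      - conj (ga * PsiL Phi Phi1 R l ((ls : ℂ) - I * om0)) = 0)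
    (h1 : c1 * Phi l ((ls : ℂ) - I * om0) R + c2 * conj (Phi l ((ls : ℂ) - I * om0) R)
      + al * (ga * deriv (fun m => Phi l m R) ((ls : ℂ) - I * om0)
        + conj (ga * deriv (fun m => Phi l m R) ((ls : ℂ) - I * om0))) = 0)
    (h2 : c1 * PsiL Phi Phi1 R l ((ls : ℂ) - I * om0)
      - c2 * conj (PsiL Phi Phi1 R l ((ls : ℂ) - I * om0))
      + al * (ga * deriv (fun m => PsiL Phi Phi1 R l m) ((ls : ℂ) - I * om0)
        - conj (ga * deriv (fun m => PsiL Phi Phi1 R l m) ((ls : ℂ) - I * om0))) = 0) :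
    al = 0 ∧ ∃ c : ℂ, c1 = c * ga ∧ c2 = c * conj ga := by
  have hd := hasDerivAt_DetL (om0 := om0) (l := l) hP hR hls
  rw [hd.deriv] at hD'
  unfold DetL at hD
  rw [Complex.conj_ofReal] at hD
  simp only [map_mul] at hg1 hg2 h1 h2
  exact alg_simple hD hD' (Or.inl hga) hg1 hg2 h1 h2

end

end Crest.Agent.R086.C4Fin
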