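import Mathlib
import Crest.Agent.R086.C34Defs
import Crest.Agent.R086.Phi

/-!
Row 86, Part C, node PHIC + DSL (helper758, for helper426).

* `phiFacts : PhiFacts JCx.Phi JCx.Phi1`
* `deriv_continuousOn_joint`  : `(m, r) ↦ ∂_m f(m, r)` is continuous
* `dslope_tendstoUniformlyOn` : `dslope (f · r) (mus k) (mu k) → ∂_m f(m, r)` uniformly on compact
  sets of `r > 0`
* `PhiFacts.dslope_tendsto`, `PhiFacts.dslope1_tendsto`, `PhiFacts.hasDerivAt_deriv`
-/

set_option autoImplicit false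

open MeasureTheory Complex Set Filter Topology
open scoped ContDiff

namespace Crest.Agent.R086

theorem phiFacts : PhiFacts JCx.Phi JCx.Phi1 := by
  have key : ∀ (l : ℕ) (m : ℂ), -(1 / 4) < m.re → -1 - (l : ℝ) / 2 < m.re := by
    intro l m hm
    have : (0 : ℝ) ≤ (l : ℝ) / 2 := by positivity
    linarith
  refine ⟨?_, ?_, ?_, ?_, ?_⟩
  · intro l p hp
    exact (JCx.Phi_continuousAt (key l p.1 hp.1) hp.2).continuousWithinAt
  · intro l p hp
    exact (JCx.Phi1_continuousAt (key l p.1 hp.1) hp.2).continuousWithinAt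
  · intro l r hr m hm
    exact (JCx.Phi_differentiableAt_mu (key l m hm) hr).differentiableWithinAt
  · intro l r hr m hm
    exact (JCx.Phi1_differentiableAt_mu (key l m hm) hr).differentiableWithinAt
  · intro l m hm r hr
    exact JCx.Phi_hasDerivAt (key l m hm) hr

/-- the half plane of `PhiFacts` -/
def HPl : Set ℂ := {m : ℂ | -(1 / 4) < m.re}

theorem isOpen_HPl : IsOpen HPl := isOpen_lt continuous_const Complex.continuous_re

theorem convex_HPl : Convex ℝ HPl := by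
  have := convex_halfSpace_gt (𝕜 := ℝ) (f := fun z : ℂ => z.re) Complex.reLm.isLinear (-(1 / 4))
  exact this

theorem mem_HPl_of_nonneg {m : ℂ} (hm : 0 ≤ m.re) : m ∈ HPl := by
  show -(1 / 4) < m.re
  linarith

section general

variable {f : ℂ → ℝ → ℂ} {Om : Set ℂ}

theorem tendstoLocallyUniformlyOn_of_joint (hO : IsOpen Om)
    (hc : ContinuousOn (fun p : ℂ × ℝ => f p.1 p.2) (Om ×ˢ Ioi 0)) (m0 : ℂ) {r0 : ℝ} (hr0 : 0 < r0) :
    TendstoLocallyUniformlyOn (fun (p : ℂ × ℝ) m => f m p.2) (fun m => f m r0) (𝓝 (m0, r0)) Om := by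
  rw [Metric.tendstoLocallyUniformlyOn_iff]
  intro ε hε m hm
  have h1 : ContinuousAt (fun p : ℂ × ℝ => f p.1 p.2) (m, r0) :=
    (hc (m, r0) ⟨hm, hr0⟩).continuousAt ((hO.prod isOpen_Ioi).mem_nhds ⟨hm, hr0⟩)
  have h2 : ∀ᶠ p : ℂ × ℝ in 𝓝 (m, r0), dist (f p.1 p.2) (f m r0) < ε / 2 :=
    Metric.tendsto_nhds.1 h1 (ε / 2) (half_pos hε)
  rw [nhds_prod_eq, Filter.eventually_prod_iff] at h2
  obtain ⟨pa, ha, pb, hb, hab⟩ := h2
  refine ⟨{x | pa x} ∩ Om, inter_mem (mem_nhdsWithin_of_mem_nhds ha) self_mem_nhdsWithin, ?_⟩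
  have h3 : ∀ᶠ p : ℂ × ℝ in 𝓝 (m0, r0), pb p.2 := continuousAt_snd.eventually hb
  filter_upwards [h3] with p hp y hy
  have e1 := hab hy.1 hp
  have e2 := hab hy.1 (hb.self_of_nhds)
  calc dist (f y r0) (f y p.2) ≤ dist (f y r0) (f m r0) + dist (f y p.2) (f m r0) :=
        dist_triangle_right _ _ _
    _ < ε / 2 + ε / 2 := add_lt_add e2 e1
    _ = ε := by ring

theorem deriv_continuousOn_joint (hO : IsOpen Om)
    (hc : ContinuousOn (fun p : ℂ × ℝ => f p.1 p.2) (Om ×ˢ Ioi 0))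
    (hh : ∀ r : ℝ, 0 < r → DifferentiableOn ℂ (fun m => f m r) Om) :
    ContinuousOn (fun p : ℂ × ℝ => deriv (fun m => f m p.2) p.1) (Om ×ˢ Ioi 0) := by
  rintro ⟨m0, r0⟩ ⟨hm0, hr0⟩
  simp only at hm0
  have hr0' : 0 < r0 := hr0
  refine ContinuousAt.continuousWithinAt ?_
  have h1 := tendstoLocallyUniformlyOn_of_joint hO hc m0 hr0'
  have h2 : ∀ᶠ p : ℂ × ℝ in 𝓝 (m0, r0), DifferentiableOn ℂ ((fun (p : ℂ × ℝ) m => f m p.2) p) Om := by
    have : ∀ᶠ p : ℂ × ℝ in 𝓝 (m0, r0), 0 < p.2 :=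
      continuousAt_snd.eventually (lt_mem_nhds hr0')
    filter_upwards [this] with p hp using hh p.2 hp
  have h3 := h1.deriv h2 hO
  have h4 : ContinuousWithinAt (deriv (fun m => f m r0)) Om m0 :=
    ((hh r0 hr0').deriv hO).continuousOn m0 hm0
  have h5 : Tendsto (fun p : ℂ × ℝ => p.1) (𝓝 (m0, r0)) (𝓝[Om] m0) := by
    rw [hO.nhdsWithin_eq hm0]
    exact continuousAt_fst
  exact h3.tendsto_comp h4 hm0 h5

theorem dslope_tendstoUniformlyOn {ι : Type*} {φ : Filter ι} (hO : IsOpen Om)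
    (hc : ContinuousOn (fun p : ℂ × ℝ => f p.1 p.2) (Om ×ˢ Ioi 0))
    (hh : ∀ r : ℝ, 0 < r → DifferentiableOn ℂ (fun m => f m r) Om)
    {mu mus : ι → ℂ} {m : ℂ} (hm : m ∈ Om) (hmu : Tendsto mu φ (𝓝 m)) (hmus : Tendsto mus φ (𝓝 m))
    {a b : ℝ} (ha : 0 < a) :
    TendstoUniformlyOn (fun k r => dslope (fun m => f m r) (mus k) (mu k))
      (fun r => deriv (fun m => f m r) m) φ (Icc a b) := by
  have hD := deriv_continuousOn_joint hO hc hh
  rw [Metric.tendstoUniformlyOn_iff]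
  intro ε hε
  have h1 : ∀ᶠ z in 𝓝 m, ∀ r ∈ Icc a b,
      dist (deriv (fun m => f m r) z) (deriv (fun m => f m r) m) < ε / 2 := by
    refine isCompact_Icc.eventually_forall_of_forall_eventually ?_
    intro r hr
    have hr0 : 0 < r := lt_of_lt_of_le ha hr.1
    have hDa : ContinuousAt (fun p : ℂ × ℝ => deriv (fun m => f m p.2) p.1) (m, r) :=
      (hD (m, r) ⟨hm, hr0⟩).continuousAt ((hO.prod isOpen_Ioi).mem_nhds ⟨hm, hr0⟩)
    have hDb : ContinuousAt (fun p : ℂ × ℝ => deriv (fun m => f m p.2) m) (m, r) :=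
      ContinuousAt.comp (g := fun p : ℂ × ℝ => deriv (fun m => f m p.2) p.1)
        (f := fun p : ℂ × ℝ => (m, p.2)) (x := (m, r)) hDa (by fun_prop)
    have e1 := Metric.tendsto_nhds.1 (hDa.dist hDb) (ε / 2) (half_pos hε)
    filter_upwards [e1] with p hp
    simp only [dist_self, Real.dist_eq, sub_zero] at hp
    exact lt_of_le_of_lt (le_abs_self _) hp
  have h2 : ∀ᶠ z in 𝓝 m, z ∈ Om := hO.mem_nhds hm
  obtain ⟨δ, hδ, hball⟩ := Metric.eventually_nhds_iff_ball.1 (h1.and h2)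
  have h3 : ∀ᶠ k in φ, mu k ∈ Metric.ball m δ := hmu.eventually (Metric.ball_mem_nhds m hδ)
  have h4 : ∀ᶠ k in φ, mus k ∈ Metric.ball m δ := hmus.eventually (Metric.ball_mem_nhds m hδ)
  filter_upwards [h3, h4] with k hk1 hk2 r hr
  have hr0 : 0 < r := lt_of_lt_of_le ha hr.1
  rw [dist_comm]
  by_cases he : mu k = mus k
  · rw [he, dslope_same]
    exact ((hball _ hk2).1 r hr).trans (half_lt_self hε)
  · rw [dslope_of_ne _ he]
    have hdiff : ∀ z ∈ Metric.ball m δ, HasDerivWithinAt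
        (fun z => f z r - deriv (fun m => f m r) m * z)
        (deriv (fun m => f m r) z - deriv (fun m => f m r) m * 1) (Metric.ball m δ) z := by
      intro z hz
      have e1 : HasDerivAt (fun m => f m r) (deriv (fun m => f m r) z) z :=
        ((hh r hr0).differentiableAt (hO.mem_nhds (hball z hz).2)).hasDerivAt
      exact (e1.sub ((hasDerivAt_id z).const_mul _)).hasDerivWithinAt
    have hbd : ∀ z ∈ Metric.ball m δ,
        ‖deriv (fun m => f m r) z - deriv (fun m => f m r) m * 1‖ ≤ ε / 2 := by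
      intro z hz
      rw [mul_one, ← dist_eq_norm]
      exact ((hball z hz).1 r hr).le
    have hmv := Convex.norm_image_sub_le_of_norm_hasDerivWithin_le hdiff hbd (convex_ball m δ) hk2 hk1
    have hne : mu k - mus k ≠ 0 := sub_ne_zero.2 he
    have e2 : slope (fun m => f m r) (mus k) (mu k) - deriv (fun m => f m r) m
        = (mu k - mus k)⁻¹ * ((f (mu k) r - deriv (fun m => f m r) m * mu k)
          - (f (mus k) r - deriv (fun m => f m r) m * mus k)) := by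
      rw [slope_def_field]
      field_simp
      ring
    rw [dist_eq_norm, e2, norm_mul, norm_inv]
    have hpos : 0 < ‖mu k - mus k‖ := norm_pos_iff.2 hne
    calc ‖mu k - mus k‖⁻¹ * ‖(f (mu k) r - deriv (fun m => f m r) m * mu k)
          - (f (mus k) r - deriv (fun m => f m r) m * mus k)‖
        ≤ ‖mu k - mus k‖⁻¹ * (ε / 2 * ‖mu k - mus k‖) :=
          mul_le_mul_of_nonneg_left hmv (inv_nonneg.2 hpos.le)
      _ = ε / 2 := by field_simp
      _ < ε := half_lt_self hε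

/-- `∂_r ∂_m f = ∂_m ∂_r f`. -/
theorem hasDerivAt_deriv_joint {g : ℂ → ℝ → ℂ} (hO : IsOpen Om)
    (hcf : ContinuousOn (fun p : ℂ × ℝ => f p.1 p.2) (Om ×ˢ Ioi 0))
    (hhf : ∀ r : ℝ, 0 < r → DifferentiableOn ℂ (fun m => f m r) Om)
    (hcg : ContinuousOn (fun p : ℂ × ℝ => g p.1 p.2) (Om ×ˢ Ioi 0))
    (hhg : ∀ r : ℝ, 0 < r → DifferentiableOn ℂ (fun m => g m r) Om)
    (hder : ∀ m ∈ Om, ∀ r : ℝ, 0 < r → HasDerivAt (f m) (g m r) r)
    {m : ℂ} (hm : m ∈ Om) {r : ℝ} (hr : 0 < r) :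
    HasDerivAt (fun r => deriv (fun m => f m r) m) (deriv (fun m => g m r) m) r := by
  have hne : ∃ u : ℕ → ℂ, (∀ k, u k ≠ m) ∧ (∀ k, u k ∈ Om) ∧ Tendsto u atTop (𝓝 m) := by
    obtain ⟨δ, hδ, hball⟩ := Metric.isOpen_iff.1 hO m hm
    have hlim : Tendsto (fun k : ℕ => m + (((δ / 2) * (1 / ((k : ℝ) + 1)) : ℝ) : ℂ)) atTop (𝓝 m) := by
      have e1 : Tendsto (fun k : ℕ => (δ / 2) * (1 / ((k : ℝ) + 1))) atTop (𝓝 ((δ / 2) * 0)) :=
        tendsto_one_div_add_atTop_nhds_zero_nat.const_mul _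
      have e2 := (Complex.continuous_ofReal.tendsto _).comp e1
      have e3 := e2.const_add m
      simpa using e3
    refine ⟨_, ?_, ?_, hlim⟩
    · intro k h
      have hpos : 0 < (δ / 2) * (1 / ((k : ℝ) + 1)) := by positivity
      have : (((δ / 2) * (1 / ((k : ℝ) + 1)) : ℝ) : ℂ) = 0 := by
        have := sub_eq_zero.2 h
        simpa using this
      exact hpos.ne' (by exact_mod_cast this)
    · intro k
      apply hball
      rw [Metric.mem_ball, dist_eq_norm, add_sub_cancel_left, Complex.norm_real, Real.norm_eq_abs,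
        abs_of_nonneg (by positivity)]
      have h1 : 1 / ((k : ℝ) + 1) ≤ 1 := by
        rw [div_le_one (by positivity)]
        have : (0 : ℝ) ≤ k := Nat.cast_nonneg k
        linarith
      calc δ / 2 * (1 / ((k : ℝ) + 1)) ≤ δ / 2 * 1 := by gcongr
        _ < δ := by linarith
  obtain ⟨u, hu1, hu2, hu3⟩ := hne
  have hL : Tendsto (fun _ : ℕ => m) atTop (𝓝 m) := tendsto_const_nhds
  have hU : ∀ s : ℝ, 0 < s → Icc (s / 2) (s + 1) ∈ 𝓝 s := fun s hs =>
    Icc_mem_nhds (by linarith) (by linarith)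
  have hloc : TendstoLocallyUniformlyOn (fun k s => dslope (fun m => g m s) m (u k))
      (fun s => deriv (fun m => g m s) m) atTop (Ioi (0 : ℝ)) := by
    intro v hv s hs
    refine ⟨Icc (s / 2) (s + 1), mem_nhdsWithin_of_mem_nhds (hU s hs), ?_⟩
    exact dslope_tendstoUniformlyOn (a := s / 2) (b := s + 1) hO hcg hhg hm hu3 hL
      (half_pos hs) v hv
  refine hasDerivAt_of_tendstoLocallyUniformlyOn (s := Ioi (0 : ℝ))
    (f := fun k s => dslope (fun m => f m s) m (u k)) isOpen_Ioi hloc ?_ ?_ hr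
  · refine Eventually.of_forall fun k s hs => ?_
    have e1 : (fun s => dslope (fun m => f m s) m (u k)) = fun s => (f (u k) s - f m s) / (u k - m) := by
      funext s
      rw [dslope_of_ne _ (hu1 k), slope_def_field]
    have e2 : dslope (fun m => g m s) m (u k) = (g (u k) s - g m s) / (u k - m) := by
      rw [dslope_of_ne _ (hu1 k), slope_def_field]
    rw [e1, e2]
    exact ((hder _ (hu2 k) s hs).sub (hder m hm s hs)).div_const _
  · intro s hs
    have := dslope_tendstoUniformlyOn (a := s) (b := s) hO hcf hhf hm hu3 hL hs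
    exact this.tendsto_at (left_mem_Icc.2 le_rfl)

end general

section Phi

variable {Phi Phi1 : ℕ → ℂ → ℝ → ℂ}

theorem PhiFacts.deriv_cont (h : PhiFacts Phi Phi1) (l : ℕ) :
    ContinuousOn (fun p : ℂ × ℝ => deriv (fun m => Phi l m p.2) p.1)
      ({m : ℂ | -(1 / 4) < m.re} ×ˢ Ioi 0) :=
  deriv_continuousOn_joint (f := Phi l) isOpen_HPl (h.cont l) (h.hol l)

theorem PhiFacts.deriv_cont1 (h : PhiFacts Phi Phi1) (l : ℕ) :
    ContinuousOn (fun p : ℂ × ℝ => deriv (fun m => Phi1 l m p.2) p.1)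
      ({m : ℂ | -(1 / 4) < m.re} ×ˢ Ioi 0) :=
  deriv_continuousOn_joint (f := Phi1 l) isOpen_HPl (h.cont1 l) (h.hol1 l)

theorem PhiFacts.dslope_tendsto {ι : Type*} {φ : Filter ι} (h : PhiFacts Phi Phi1) (l : ℕ)
    {mu mus : ι → ℂ} {m : ℂ} (hm : -(1 / 4) < m.re)
    (hmu : Tendsto mu φ (𝓝 m)) (hmus : Tendsto mus φ (𝓝 m)) {a b : ℝ} (ha : 0 < a) :
    TendstoUniformlyOn (fun k r => dslope (fun m => Phi l m r) (mus k) (mu k))
      (fun r => deriv (fun m => Phi l m r) m) φ (Icc a b) :=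
  dslope_tendstoUniformlyOn (f := Phi l) isOpen_HPl (h.cont l) (h.hol l) hm hmu hmus ha

theorem PhiFacts.dslope1_tendsto {ι : Type*} {φ : Filter ι} (h : PhiFacts Phi Phi1) (l : ℕ)
    {mu mus : ι → ℂ} {m : ℂ} (hm : -(1 / 4) < m.re)
    (hmu : Tendsto mu φ (𝓝 m)) (hmus : Tendsto mus φ (𝓝 m)) {a b : ℝ} (ha : 0 < a) :
    TendstoUniformlyOn (fun k r => dslope (fun m => Phi1 l m r) (mus k) (mu k))
      (fun r => deriv (fun m => Phi1 l m r) m) φ (Icc a b) :=
  dslope_tendstoUniformlyOn (f := Phi1 l) isOpen_HPl (h.cont1 l) (h.hol1 l) hm hmu hmus ha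

/-- `∂_r ∂_mu Phi = ∂_mu Phi1` -/
theorem PhiFacts.hasDerivAt_deriv (h : PhiFacts Phi Phi1) (l : ℕ) {m : ℂ} (hm : -(1 / 4) < m.re)
    {r : ℝ} (hr : 0 < r) :
    HasDerivAt (fun r => deriv (fun m => Phi l m r) m) (deriv (fun m => Phi1 l m r) m) r :=
  hasDerivAt_deriv_joint (f := Phi l) (g := Phi1 l) isOpen_HPl (h.cont l) (h.hol l) (h.cont1 l)
    (h.hol1 l) (fun m hm r hr => h.der l m hm r hr) hm hr

/-- `Phi l (mu k) r → Phi l m r` uniformly on compact sets of `r > 0`. -/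
theorem PhiFacts.unif {ι : Type*} {φ : Filter ι} (h : PhiFacts Phi Phi1) (l : ℕ)
    {mu : ι → ℂ} {m : ℂ} (hm : -(1 / 4) < m.re)
    (hmu : Tendsto mu φ (𝓝 m)) {a b : ℝ} (ha : 0 < a) :
    TendstoUniformlyOn (fun k r => Phi l (mu k) r) (fun r => Phi l m r) φ (Icc a b) ∧
    TendstoUniformlyOn (fun k r => Phi1 l (mu k) r) (fun r => Phi1 l m r) φ (Icc a b) := by
  have key : ∀ f : ℂ → ℝ → ℂ, ContinuousOn (fun p : ℂ × ℝ => f p.1 p.2) (HPl ×ˢ Ioi 0) →
      TendstoUniformlyOn (fun k r => f (mu k) r) (fun r => f m r) φ (Icc a b) := by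
    intro f hf
    rw [Metric.tendstoUniformlyOn_iff]
    intro ε hε
    have h1 : ∀ᶠ z in 𝓝 m, ∀ r ∈ Icc a b, dist (f z r) (f m r) < ε := by
      refine isCompact_Icc.eventually_forall_of_forall_eventually ?_
      intro r hr
      have hr0 : 0 < r := lt_of_lt_of_le ha hr.1
      have hDa : ContinuousAt (fun p : ℂ × ℝ => f p.1 p.2) (m, r) :=
        (hf (m, r) ⟨hm, hr0⟩).continuousAt ((isOpen_HPl.prod isOpen_Ioi).mem_nhds ⟨hm, hr0⟩)
      have hDb : ContinuousAt (fun p : ℂ × ℝ => f m p.2) (m, r) :=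
        ContinuousAt.comp (g := fun p : ℂ × ℝ => f p.1 p.2)
          (f := fun p : ℂ × ℝ => (m, p.2)) (x := (m, r)) hDa (by fun_prop)
      have e1 := Metric.tendsto_nhds.1 (hDa.dist hDb) ε hε
      filter_upwards [e1] with p hp
      simp only [dist_self, Real.dist_eq, sub_zero] at hp
      exact lt_of_le_of_lt (le_abs_self _) hp
    filter_upwards [hmu.eventually h1] with k hk r hr
    rw [dist_comm]
    exact hk r hr
  exact ⟨key (Phi l) (h.cont l), key (Phi1 l) (h.cont1 l)⟩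

end Phi

end Crest.Agent.R086
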