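import Mathlib
import Crest.Agent.R086.C34Defs
import Crest.Agent.R086.C4Phi
import Crest.Agent.R086.C4Fin

/-!
Row 86, Part C, C4 assembly (helper512): limits along an ultrafilter.
-/

set_option autoImplicit false

open MeasureTheory Complex Set Filter Topology

namespace Crest.Agent.R086.C4Lim

local notation "conj" => starRingEnd ℂ

/-- bounded complex sequences converge along an ultrafilter -/
lemma ulim {𝓤 : Ultrafilter ℕ} {u : ℕ → ℂ} {C : ℝ} (h : ∀ᶠ j in (𝓤 : Filter ℕ), ‖u j‖ ≤ C) :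
    ∃ v : ℂ, ‖v‖ ≤ C ∧ Tendsto u 𝓤 (𝓝 v) := by
  obtain ⟨v, hv, hle⟩ := (isCompact_closedBall (0 : ℂ) C).ultrafilter_le_nhds (𝓤.map u) (by
    rw [Ultrafilter.coe_map, le_principal_iff, mem_map]
    filter_upwards [h] with j hj
    simpa using hj)
  exact ⟨v, by simpa using hv, by simpa [Tendsto] using hle⟩

/-- bounded real sequences in an interval converge along an ultrafilter -/
lemma rlim {𝓤 : Ultrafilter ℕ} {u : ℕ → ℝ} {a b : ℝ} (h : ∀ j, u j ∈ Icc a b) :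
    ∃ v : ℝ, v ∈ Icc a b ∧ Tendsto u 𝓤 (𝓝 v) := by
  obtain ⟨v, hv, hle⟩ := (isCompact_Icc (a := a) (b := b)).ultrafilter_le_nhds (𝓤.map u) (by
    rw [Ultrafilter.coe_map, le_principal_iff, mem_map]
    exact Eventually.of_forall h)
  exact ⟨v, hv, by simpa [Tendsto] using hle⟩

/-- continuous convergence -/
def Joint (𝓤 : Filter ℕ) (T : ℕ → ℝ → ℂ) (T0 : ℝ → ℂ) : Prop :=
  ∀ (r : ℕ → ℝ) (r0 : ℝ), 0 < r0 → Tendsto r 𝓤 (𝓝 r0) →
    Tendsto (fun j => T j (r j)) 𝓤 (𝓝 (T0 r0))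

lemma Joint.mul {𝓤 : Filter ℕ} {T : ℕ → ℝ → ℂ} {T0 : ℝ → ℂ} (h : Joint 𝓤 T T0) {w : ℕ → ℂ} {w0 : ℂ}
    (hw : Tendsto w 𝓤 (𝓝 w0)) : Joint 𝓤 (fun j r => w j * T j r) (fun r => w0 * T0 r) :=
  fun r r0 h0 hr => hw.mul (h r r0 h0 hr)

lemma Joint.zero (𝓤 : Filter ℕ) : Joint 𝓤 (fun _ _ => 0) (fun _ => 0) :=
  fun _ _ _ _ => tendsto_const_nhds

/-- joint continuity gives continuous convergence -/
lemma joint_of_cont {𝓤 : Filter ℕ} {f : ℂ → ℝ → ℂ}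
    (hc : ContinuousOn (fun p : ℂ × ℝ => f p.1 p.2) ({m : ℂ | -(1 / 4) < m.re} ×ˢ Ioi 0))
    {m : ℕ → ℂ} {m0 : ℂ} (hm0 : -(1 / 4) < m0.re) (hm : Tendsto m 𝓤 (𝓝 m0)) :
    Joint 𝓤 (fun j r => f (m j) r) (f m0) := by
  intro r r0 h0 hr
  have hO : IsOpen ({m : ℂ | -(1 / 4) < m.re} ×ˢ Ioi (0 : ℝ)) :=
    (isOpen_lt continuous_const continuous_re).prod isOpen_Ioi
  have h1 : ContinuousAt (fun p : ℂ × ℝ => f p.1 p.2) (m0, r0) :=
    (hc (m0, r0) ⟨hm0, h0⟩).continuousAt (hO.mem_nhds ⟨hm0, h0⟩)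
  exact h1.tendsto.comp (hm.prodMk_nhds hr)

/-- uniform convergence on compacts and continuity give continuous convergence -/
lemma joint_of_unif {𝓤 : Filter ℕ} {T : ℕ → ℝ → ℂ} {T0 : ℝ → ℂ}
    (hu : ∀ a b : ℝ, 0 < a → TendstoUniformlyOn T T0 𝓤 (Icc a b))
    (hc : ContinuousOn T0 (Ioi 0)) : Joint 𝓤 T T0 := by
  intro r r0 h0 hr
  have h1 := hu (r0 / 2) (2 * r0) (by positivity)
  have hmem : ∀ᶠ j in 𝓤, r j ∈ Icc (r0 / 2) (2 * r0) :=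
    hr.eventually (Icc_mem_nhds (by linarith) (by linarith))
  have h2 : Tendsto (fun j => T0 (r j)) 𝓤 (𝓝 (T0 r0)) :=
    ((hc.continuousAt (isOpen_Ioi.mem_nhds h0)).tendsto).comp hr
  rw [Metric.tendsto_nhds] at h2 ⊢
  rw [Metric.tendstoUniformlyOn_iff] at h1
  intro ε hε
  filter_upwards [h2 (ε / 2) (half_pos hε), h1 (ε / 2) (half_pos hε), hmem] with j a1 a2 a3
  have := a2 (r j) a3
  rw [dist_comm] at this
  calc dist (T j (r j)) (T0 r0) ≤ dist (T j (r j)) (T0 (r j)) + dist (T0 (r j)) (T0 r0) :=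
        dist_triangle _ _ _
    _ < ε := by linarith

/-- dslope for `mu → m`, `mus → ms` -/
lemma joint_dslope {𝓤 : Filter ℕ} {f : ℂ → ℝ → ℂ}
    (hc : ContinuousOn (fun p : ℂ × ℝ => f p.1 p.2) ({m : ℂ | -(1 / 4) < m.re} ×ˢ Ioi 0))
    (hh : ∀ r : ℝ, 0 < r → DifferentiableOn ℂ (fun m => f m r) {m : ℂ | -(1 / 4) < m.re})
    {m ms : ℕ → ℂ} {m0 ms0 : ℂ} (hm0 : -(1 / 4) < m0.re) (hms0 : -(1 / 4) < ms0.re)
    (hm : Tendsto m 𝓤 (𝓝 m0)) (hms : Tendsto ms 𝓤 (𝓝 ms0)) :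
    Joint 𝓤 (fun j r => dslope (fun z => f z r) (ms j) (m j))
      (fun r => dslope (fun z => f z r) ms0 m0) ∧
    ContinuousOn (fun r => dslope (fun z => f z r) ms0 m0) (Ioi 0) := by
  have hO : IsOpen {m : ℂ | -(1 / 4) < m.re} := isOpen_lt continuous_const continuous_re
  have hcr : ∀ z : ℂ, -(1 / 4) < z.re → ContinuousOn (fun r => f z r) (Ioi 0) := by
    intro z hz
    exact hc.comp (f := fun r : ℝ => (z, r)) (by fun_prop) (fun r hr => ⟨hz, hr⟩)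
  by_cases he : ms0 = m0
  · subst he
    have hfun : (fun r => dslope (fun z => f z r) ms0 ms0) = fun r => deriv (fun z => f z r) ms0 := by
      funext r; exact dslope_same _ _
    have hcd : ContinuousOn (fun r => deriv (fun z => f z r) ms0) (Ioi 0) := by
      have := deriv_continuousOn_joint hO hc hh
      exact this.comp (f := fun r : ℝ => (ms0, r)) (by fun_prop) (fun r hr => ⟨hm0, hr⟩)
    rw [hfun]
    refine ⟨?_, hcd⟩
    refine joint_of_unif (fun a b ha => ?_) hcd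
    exact dslope_tendstoUniformlyOn hO hc hh hm0 hm hms ha
  · have hfun : (fun r => dslope (fun z => f z r) ms0 m0) =
        fun r => (m0 - ms0)⁻¹ * (f m0 r - f ms0 r) := by
      funext r
      rw [dslope_of_ne _ (Ne.symm he), slope_def_module, smul_eq_mul]
    rw [hfun]
    refine ⟨?_, ?_⟩
    · intro r r0 h0 hr
      have k1 := joint_of_cont hc hm0 hm r r0 h0 hr
      have k2 := joint_of_cont hc hms0 hms r r0 h0 hr
      have k3 : Tendsto (fun j => (m j - ms j)⁻¹) 𝓤 (𝓝 (m0 - ms0)⁻¹) :=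
        (hm.sub hms).inv₀ (sub_ne_zero.2 (Ne.symm he))
      refine (k3.mul (k1.sub k2)).congr' ?_
      have hne : ∀ᶠ j in 𝓤, m j - ms j ≠ 0 :=
        (hm.sub hms).eventually_ne (sub_ne_zero.2 (Ne.symm he))
      filter_upwards [hne] with j hj
      rw [dslope_of_ne _ (sub_ne_zero.1 hj), slope_def_module, smul_eq_mul]
    · exact continuousOn_const.mul ((hcr m0 hm0).sub (hcr ms0 hms0))

/-- convergence of the coefficient -/
lemma coef_tendsto {𝓤 : Filter ℕ} {c p u T : ℕ → ℂ} {p0 u0 T0 : ℂ} (hp : Tendsto p 𝓤 (𝓝 p0))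
    (hp0 : p0 ≠ 0) (hu : Tendsto u 𝓤 (𝓝 u0)) (hT : Tendsto T 𝓤 (𝓝 T0))
    (h : Tendsto (fun j => u j - (c j * p j + T j)) 𝓤 (𝓝 0)) :
    Tendsto c 𝓤 (𝓝 ((u0 - T0) / p0)) := by
  have h1 : Tendsto (fun j => (u j - T j - (u j - (c j * p j + T j))) / p j) 𝓤
      (𝓝 ((u0 - T0 - 0) / p0)) := ((hu.sub hT).sub h).div hp hp0
  rw [sub_zero] at h1
  refine h1.congr' ?_
  filter_upwards [hp.eventually_ne hp0] with j hj
  field_simp
  ring

/-- the approximation hypothesis on `[R+d, 8]` -/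
def Appr (𝓤 : Filter ℕ) (Ph Ph1 : ℕ → ℝ → ℂ) (f f1 T T1 : ℕ → ℝ → ℂ) (a : ℝ) (c : ℕ → ℂ) : Prop :=
  ∀ r : ℕ → ℝ, (∀ j, r j ∈ Icc a 8) →
    Tendsto (fun j => f j (r j) - (c j * Ph j (r j) + T j (r j))) 𝓤 (𝓝 0) ∧
    Tendsto (fun j => f1 j (r j) - (c j * Ph1 j (r j) + T1 j (r j))) 𝓤 (𝓝 0)

/-- uniform smallness gives `Appr` -/
lemma appr_of_le {𝓤 : Filter ℕ} {Ph Ph1 f f1 T T1 : ℕ → ℝ → ℂ} {a : ℝ} {c : ℕ → ℂ} {err : ℕ → ℝ}
    (he : Tendsto err 𝓤 (𝓝 0))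
    (h : ∀ᶠ j in 𝓤, ∀ r ∈ Icc a 8, ‖f j r - (c j * Ph j r + T j r)‖ ≤ err j ∧
      ‖f1 j r - (c j * Ph1 j r + T1 j r)‖ ≤ err j) : Appr 𝓤 Ph Ph1 f f1 T T1 a c := by
  intro r hr
  constructor
  · refine squeeze_zero_norm' ?_ he
    filter_upwards [h] with j hj using (hj (r j) (hr j)).1
  · refine squeeze_zero_norm' ?_ he
    filter_upwards [h] with j hj using (hj (r j) (hr j)).2

/-- one component: the coefficient converges to a limit independent of `d`, and the function converges. -/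
theorem comp_lim {𝓤 : Ultrafilter ℕ} {Ph Ph1 : ℕ → ℝ → ℂ} {Ph0 Ph10 : ℝ → ℂ}
    (jP : Joint 𝓤 Ph Ph0) (jP1 : Joint 𝓤 Ph1 Ph10) {f f1 T T1 : ℕ → ℝ → ℂ} {T0 T10 : ℝ → ℂ}
    (jT : Joint 𝓤 T T0) (jT1 : Joint 𝓤 T1 T10) {R d0 : ℝ} (hR : 0 < R) (hRd : R + d0 ≤ 5)
    {rp : ℝ} (hrp : rp ∈ Icc (5 : ℝ) 6) (hne : Ph0 rp ≠ 0) {C : ℝ}
    (hb : ∀ᶠ j in (𝓤 : Filter ℕ), ‖f j rp‖ ≤ C) :
    ∃ c0 : ℂ, ∀ d, 0 < d → d ≤ d0 → ∀ c : ℕ → ℂ, Appr 𝓤 Ph Ph1 f f1 T T1 (R + d) c →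
      Tendsto c 𝓤 (𝓝 c0) ∧
      ∀ (r : ℕ → ℝ) (r0 : ℝ), (∀ j, r j ∈ Icc (R + d) 8) → Tendsto r 𝓤 (𝓝 r0) →
        Tendsto (fun j => f j (r j)) 𝓤 (𝓝 (c0 * Ph0 r0 + T0 r0)) ∧
        Tendsto (fun j => f1 j (r j)) 𝓤 (𝓝 (c0 * Ph10 r0 + T10 r0)) := by
  obtain ⟨v, -, hv⟩ := ulim hb
  have hrp0 : 0 < rp := by linarith [hrp.1]
  have hcr : Tendsto (fun _ : ℕ => rp) (𝓤 : Filter ℕ) (𝓝 rp) := tendsto_const_nhds
  refine ⟨(v - T0 rp) / Ph0 rp, fun d hd hdd c hA => ?_⟩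
  have hc : Tendsto c 𝓤 (𝓝 ((v - T0 rp) / Ph0 rp)) := by
    have h1 := (hA (fun _ => rp) (fun _ => ⟨by linarith [hrp.1], by linarith [hrp.2]⟩)).1
    exact coef_tendsto (jP (fun _ => rp) rp hrp0 hcr) hne hv (jT (fun _ => rp) rp hrp0 hcr) h1
  refine ⟨hc, fun r r0 hr hr0 => ?_⟩
  have hr00 : 0 < r0 := by
    have : r0 ∈ Icc (R + d) 8 := isClosed_Icc.mem_of_tendsto hr0 (Eventually.of_forall hr)
    linarith [this.1]
  obtain ⟨a1, a2⟩ := hA r hr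
  constructor
  · have := a1.add ((hc.mul (jP r r0 hr00 hr0)).add (jT r r0 hr00 hr0))
    simpa using this
  · have := a2.add ((hc.mul (jP1 r r0 hr00 hr0)).add (jT1 r r0 hr00 hr0))
    simpa using this

/-- passage `d → 0` in the boundary relation -/
lemma bc_zero {X : ℝ → ℂ} {R C d0 : ℝ} (hd0 : 0 < d0) (hX : ContinuousAt X R)
    (h : ∀ d, 0 < d → d ≤ d0 → ‖X (R + d)‖ ≤ C * Real.sqrt d) : X R = 0 := by
  have h1 : Tendsto (fun d : ℝ => X (R + d)) (𝓝[>] 0) (𝓝 (X R)) := by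
    have : Tendsto (fun d : ℝ => R + d) (𝓝[>] 0) (𝓝 R) := by
      have h2 : Tendsto (fun d : ℝ => R + d) (𝓝 0) (𝓝 (R + 0)) :=
        (continuous_const.add continuous_id).tendsto 0
      rw [add_zero] at h2
      exact h2.mono_left nhdsWithin_le_nhds
    exact hX.tendsto.comp this
  have h2 : Tendsto (fun d : ℝ => C * Real.sqrt d) (𝓝[>] 0) (𝓝 0) := by
    have : Tendsto (fun d : ℝ => C * Real.sqrt d) (𝓝 0) (𝓝 (C * Real.sqrt 0)) := by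
      have := Real.continuous_sqrt.continuousAt (x := (0 : ℝ))
      exact (continuousAt_const.mul this).tendsto
    rw [Real.sqrt_zero, mul_zero] at this
    exact this.mono_left nhdsWithin_le_nhds
  have h3 : Tendsto (fun d : ℝ => X (R + d)) (𝓝[>] 0) (𝓝 0) := by
    refine squeeze_zero_norm' ?_ h2
    filter_upwards [Ioc_mem_nhdsGT hd0] with d hd using h d hd.1 hd.2
  exact tendsto_nhds_unique h1 h3

end Crest.Agent.R086.C4Lim
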