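import Crest.Agent.R086.SHRad

/-!
Row 86: `InX N f` gives `ContDiff ℝ N f` (helper512).
-/

set_option autoImplicit false

open MeasureTheory Complex
open scoped ContDiff FourierTransform

namespace Crest.Agent.R086.SH

lemma Rep.eq_fourier {N : ℕ} {a f : R12 → ℂ} (h : Rep N a f) (y : R12) :
    f y = 𝓕 a ((-(2 * Real.pi)⁻¹ : ℝ) • y) := by
  rw [h.2 y, Real.fourier_eq']
  congr 1
  funext v
  rw [smul_eq_mul, real_inner_smul_right]
  congr 2
  have hpi : (Real.pi : ℝ) ≠ 0 := Real.pi_ne_zero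
  have h1 : (-2 * Real.pi * (-(2 * Real.pi)⁻¹ * inner ℝ v y) : ℝ) = inner ℝ v y := by
    field_simp
  rw [h1]; ring

lemma Rep.aestronglyMeasurable {N : ℕ} {a f : R12 → ℂ} (h : Rep N a f) :
    AEStronglyMeasurable a := by
  have h1 : a = fun ξ : R12 => (((1 + ‖ξ‖) ^ N : ℝ) : ℂ)⁻¹ * ((((1 + ‖ξ‖) ^ N : ℝ) : ℂ) * a ξ) := by
    funext ξ
    have : (((1 + ‖ξ‖) ^ N : ℝ) : ℂ) ≠ 0 := by
      exact_mod_cast (pow_pos (by positivity : (0 : ℝ) < 1 + ‖ξ‖) N).ne'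
    rw [← mul_assoc, inv_mul_cancel₀ this, one_mul]
  rw [h1]
  refine AEStronglyMeasurable.mul ?_ h.1.aestronglyMeasurable
  have hc : Continuous fun ξ : R12 => (((1 + ‖ξ‖) ^ N : ℝ) : ℂ) := by fun_prop
  exact (hc.measurable.inv).aestronglyMeasurable

lemma Rep.integrable_pow {N : ℕ} {a f : R12 → ℂ} (h : Rep N a f) {k : ℕ} (hk : k ≤ N) :
    Integrable (fun ξ : R12 => ‖ξ‖ ^ k * ‖a ξ‖) := by
  refine h.1.norm.mono' ?_ ?_
  · exact ((continuous_norm.pow k).aestronglyMeasurable).mul (Rep.aestronglyMeasurable h).norm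
  · filter_upwards with ξ
    rw [Real.norm_of_nonneg (by positivity), norm_mul, Complex.norm_real,
      Real.norm_of_nonneg (by positivity)]
    refine mul_le_mul_of_nonneg_right ?_ (norm_nonneg _)
    calc ‖ξ‖ ^ k ≤ (1 + ‖ξ‖) ^ k := pow_le_pow_left₀ (norm_nonneg _) (by linarith) k
      _ ≤ (1 + ‖ξ‖) ^ N := pow_le_pow_right₀ (by linarith [norm_nonneg ξ]) hk

theorem InX.contDiff {N : ℕ} {f : R12 → ℂ} (h : InX N f) : ContDiff ℝ N f := by
  obtain ⟨a, ha⟩ := h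
  have h1 : ContDiff ℝ ((N : ℕ∞) : ℕ∞ω) (𝓕 a) := by
    refine Real.contDiff_fourier (fun k hk => ?_)
    exact Rep.integrable_pow ha (by exact_mod_cast hk)
  have h2 : f = fun y => 𝓕 a ((-(2 * Real.pi)⁻¹ : ℝ) • y) := funext (Rep.eq_fourier ha)
  rw [h2]
  have h3 : ContDiff ℝ ((N : ℕ∞) : ℕ∞ω) (fun y : R12 => (-(2 * Real.pi)⁻¹ : ℝ) • y) :=
    contDiff_const_smul _
  exact h1.comp h3

end Crest.Agent.R086.SH
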