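import Mathlib
import Crest.Agent.R086.C34Defs
import Crest.Agent.R086.SHX

/-!
Row 86, Part C, node RED of C4 (helper512): reduction of `ModeGoodAt l lam` to source free pairs (NS) and
normalised pairs with a symmetry source (SY).
-/

set_option autoImplicit false

open MeasureTheory Complex Set Filter Topology
open scoped ContDiff

namespace Crest.Agent.R086.C4Red

local notation "conj" => starRingEnd ℂ

/-! ### closure of `InX` -/

lemma Rep.int {N : ℕ} {a f : R12 → ℂ} (h : Rep N a f) (y : R12) :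
    Integrable (fun ξ : R12 => exp (I * ((inner ℝ ξ y : ℝ) : ℂ)) * a ξ) := by
  have h0 := SH.Rep.integrable_pow h (k := 0) (Nat.zero_le _)
  simp only [pow_zero, one_mul] at h0
  refine h0.mono' ?_ ?_
  · refine AEStronglyMeasurable.mul ?_ (SH.Rep.aestronglyMeasurable h)
    have : Continuous fun ξ : R12 => exp (I * ((inner ℝ ξ y : ℝ) : ℂ)) := by fun_prop
    exact this.aestronglyMeasurable
  · filter_upwards with ξ
    rw [norm_mul, mul_comm I, Complex.norm_exp_ofReal_mul_I, one_mul]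

theorem rep_sub_smul {N : ℕ} {a b f g : R12 → ℂ} (hf : Rep N a f) (hg : Rep N b g) (t : ℂ) :
    Rep N (fun ξ => a ξ - t * b ξ) (fun y => f y - t * g y) := by
  refine ⟨?_, fun y => ?_⟩
  · refine (hf.1.sub (hg.1.const_mul t)).congr (Eventually.of_forall fun ξ => ?_)
    simp only [Pi.sub_apply]
    ring
  · simp only
    rw [hf.2 y, hg.2 y, ← integral_const_mul, ← integral_sub (Rep.int hf y)
      ((Rep.int hg y).const_mul t)]
    refine integral_congr_ae (Eventually.of_forall fun ξ => ?_)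
    simp only
    ring

theorem inX_sub_smul {N : ℕ} {f g : R12 → ℂ} (hf : InX N f) (hg : InX N g) (t : ℂ) :
    InX N (fun y => f y - t * g y) := by
  obtain ⟨a, ha⟩ := hf
  obtain ⟨b, hb⟩ := hg
  exact ⟨_, rep_sub_smul ha hb t⟩

/-! ### linearity of the radial operators -/

lemma deriv_sub_smul {F e : ℝ → ℂ} (hF : ContDiff ℝ 1 F) (he : ContDiff ℝ 1 e) (t : ℂ) :
    deriv (fun r => F r - t * e r) = fun r => deriv F r - t * deriv e r := by
  funext r
  have h1 : HasDerivAt F (deriv F r) r := (hF.differentiable (by norm_num) r).hasDerivAt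
  have h2 : HasDerivAt e (deriv e r) r := (he.differentiable (by norm_num) r).hasDerivAt
  exact (h1.sub (h2.const_mul t)).deriv

lemma contDiff_deriv {F : ℝ → ℂ} (hF : ContDiff ℝ 2 F) : ContDiff ℝ 1 (deriv F) := by
  have : ContDiff ℝ (1 + 1) F := by simpa [one_add_one_eq_two] using hF
  exact (contDiff_succ_iff_deriv.1 this).2.2

lemma rlap_sub_smul (l : ℕ) {F e : ℝ → ℂ} (hF : ContDiff ℝ 2 F) (he : ContDiff ℝ 2 e) (t : ℂ)
    (r : ℝ) : rlap l (fun r => F r - t * e r) r = rlap l F r - t * rlap l e r := by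
  unfold rlap
  rw [deriv_sub_smul (hF.of_le (by norm_num)) (he.of_le (by norm_num)) t,
    deriv_sub_smul (contDiff_deriv hF) (contDiff_deriv he) t]
  ring

section
variable {n : ℕ} (P : Profile n)

lemma rgen1_sub_smul (l : ℕ) {F G e g : ℝ → ℂ} (hF : ContDiff ℝ 2 F) (he : ContDiff ℝ 2 e) (t : ℂ)
    (r : ℝ) : P.rgen1 l (fun r => F r - t * e r) (fun r => G r - t * g r) r
      = P.rgen1 l F G r - t * P.rgen1 l e g r := by
  unfold Profile.rgen1
  rw [rlap_sub_smul l hF he t r, deriv_sub_smul (hF.of_le (by norm_num)) (he.of_le (by norm_num)) t]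
  ring

lemma rgen2_sub_smul (l : ℕ) {F G e g : ℝ → ℂ} (hG : ContDiff ℝ 2 G) (hg : ContDiff ℝ 2 g) (t : ℂ)
    (r : ℝ) : P.rgen2 l (fun r => F r - t * e r) (fun r => G r - t * g r) r
      = P.rgen2 l F G r - t * P.rgen2 l e g r := by
  unfold Profile.rgen2
  rw [rlap_sub_smul l hG hg t r, deriv_sub_smul (hG.of_le (by norm_num)) (hg.of_le (by norm_num)) t]
  ring

lemma modeFn_sub_smul (H : R12 → ℝ) (F e : ℝ → ℂ) (t : ℂ) :
    modeFn H (fun r => F r - t * e r) = fun y => modeFn H F y - t * modeFn H e y := by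
  funext y
  unfold modeFn
  ring

lemma two_le_N0 : ((2 : ℕ) : WithTop ℕ∞) ≤ (N0 : WithTop ℕ∞) := by
  have : (2 : ℕ) ≤ N0 := by norm_num [N0]
  exact_mod_cast this

/-- subtracting a multiple of a symmetry mode: general source version -/
structure PreG (l : ℕ) (H : R12 → ℝ) (lam : ℂ) (s1 s2 F G : ℝ → ℂ) : Prop where
  sharm : SHarm l H
  nrm : (∫ w : S11, (H w) ^ 2 ∂sig) = 1
  cF : ContDiff ℝ N0 F
  cG : ContDiff ℝ N0 G
  pF : ∀ r, F (-r) = (-1) ^ l * F r
  pG : ∀ r, G (-r) = (-1) ^ l * G r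
  xF : InX N0 (modeFn H F)
  xG : InX N0 (modeFn H G)
  eqF : ∀ r : ℝ, 0 < r → P.rgen1 l F G r - lam * F r = s1 r
  eqG : ∀ r : ℝ, 0 < r → P.rgen2 l F G r - lam * G r = s2 r

variable {P}

lemma PreG.sub {l : ℕ} {H : R12 → ℝ} {lam : ℂ} {s1 s2 F G : ℝ → ℂ} (h : PreG P l H lam s1 s2 F G)
    {ls : ℝ} {e : ℝ → ℂ} (he : P.Pair l H (ls : ℂ) 0 (fun _ => 0) e (fun r => conj (e r))) (t : ℂ) :
    PreG P l H lam (fun r => s1 r - t * ((ls : ℂ) - lam) * e r)
      (fun r => s2 r - t * ((ls : ℂ) - lam) * conj (e r))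
      (fun r => F r - t * e r) (fun r => G r - t * conj (e r)) := by
  have k := two_le_N0
  refine ⟨h.sharm, h.nrm, h.cF.sub (contDiff_const.mul he.cF), h.cG.sub (contDiff_const.mul he.cG),
    ?_, ?_, ?_, ?_, ?_, ?_⟩
  · intro r
    rw [h.pF r, he.pF r]; ring
  · intro r
    have := he.pG r
    rw [h.pG r, this]; ring
  · rw [modeFn_sub_smul]; exact inX_sub_smul h.xF he.xF t
  · rw [modeFn_sub_smul]; exact inX_sub_smul h.xG he.xG t
  · intro r hr
    rw [rgen1_sub_smul P l (h.cF.of_le k) (he.cF.of_le k) t r]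
    have e1 := h.eqF r hr
    have e2 := he.eqF r hr
    simp only [zero_mul] at e2
    linear_combination e1 - t * e2
  · intro r hr
    rw [rgen2_sub_smul P l (h.cG.of_le k) (he.cG.of_le k) t r]
    have e1 := h.eqG r hr
    have e2 := he.eqG r hr
    simp only [zero_mul] at e2
    linear_combination e1 - t * e2

lemma PreG.pair {l : ℕ} {H : R12 → ℝ} {lam al : ℂ} {e s1 s2 F G : ℝ → ℂ}
    (h : PreG P l H lam s1 s2 F G) (h1 : ∀ r, 0 < r → s1 r = al * e r)
    (h2 : ∀ r, 0 < r → s2 r = al * conj (e r)) : P.Pair l H lam al e F G :=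
  ⟨h.sharm, h.nrm, h.cF, h.cG, h.pF, h.pG, h.xF, h.xG, fun r hr => (h.eqF r hr).trans (h1 r hr),
    fun r hr => (h.eqG r hr).trans (h2 r hr)⟩

/-- (NS): source free pairs away from the symmetry values vanish. -/
def NS (P : Profile n) (l : ℕ) (lam : ℂ) : Prop :=
  (∀ (ls : ℝ) (e : ℝ → ℂ), P.IsSym l ls e → 1 / 4 < ‖(ls : ℂ) - lam‖) →
    ∀ (H : R12 → ℝ) (F G : ℝ → ℂ), P.Pair l H lam 0 (fun _ => 0) F G →
      ∀ r : ℝ, 0 < r → F r = 0 ∧ G r = 0

/-- (SY): pairs with a symmetry source and `F rs = 0` vanish. -/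
def SY (P : Profile n) (l : ℕ) (lam : ℂ) : Prop :=
  ∀ (ls : ℝ) (e : ℝ → ℂ), P.IsSym l ls e → ‖(ls : ℂ) - lam‖ ≤ 1 / 4 →
    ∃ rs : ℝ, e rs ≠ 0 ∧
    ∀ (H : R12 → ℝ) (al : ℂ) (F G : ℝ → ℂ), P.Pair l H lam al e F G → F rs = 0 →
      ∀ r : ℝ, 0 < r → F r = 0 ∧ G r = 0

/-- near a symmetry value: from `(SY)`. -/
lemma near {l : ℕ} {lam : ℂ} (hs : SymStmt) (hSY : SY P l lam) {ls : ℝ} {e : ℝ → ℂ}
    (he : P.IsSym l ls e) (hn : ‖(ls : ℂ) - lam‖ ≤ 1 / 4) {H : R12 → ℝ} {F G s1 s2 : ℝ → ℂ} {a : ℂ}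
    (h : PreG P l H lam s1 s2 F G) (h1 : ∀ r, 0 < r → s1 r = a * e r)
    (h2 : ∀ r, 0 < r → s2 r = a * conj (e r)) :
    ∃ t : ℂ, ∀ r, 0 < r → F r = t * e r ∧ G r = t * conj (e r) := by
  obtain ⟨rs, hrs, hSY'⟩ := hSY ls e he hn
  have hpe : P.Pair l H (ls : ℂ) 0 (fun _ => 0) e (fun r => conj (e r)) :=
    hs n P l ls e H he h.sharm h.nrm
  set t : ℂ := F rs / e rs with ht
  refine ⟨t, fun r hr => ?_⟩
  have hp := h.sub hpe t
  have hpair : P.Pair l H lam (a - t * ((ls : ℂ) - lam)) e (fun r => F r - t * e r)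
      (fun r => G r - t * conj (e r)) := by
    refine hp.pair (fun r hr => ?_) (fun r hr => ?_)
    · rw [h1 r hr]; ring
    · rw [h2 r hr]; ring
  have key : (fun r => F r - t * e r) rs = 0 := by
    simp only
    rw [ht, div_mul_cancel₀ _ hrs, sub_self]
  have := hSY' H _ _ _ hpair key r hr
  exact ⟨sub_eq_zero.1 this.1, sub_eq_zero.1 this.2⟩

/-- **RED** -/
theorem modeGoodAt (hs : SymStmt) {l : ℕ} {lam : ℂ} (hNS : NS P l lam) (hSY : SY P l lam) :
    P.ModeGoodAt l lam := by
  intro H hH hn F G cF cG pF pG xF xG hsrc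
  have h0 : PreG P l H lam (fun r => P.rgen1 l F G r - lam * F r)
      (fun r => P.rgen2 l F G r - lam * G r) F G :=
    ⟨hH, hn, cF, cG, pF, pG, xF, xG, fun _ _ => rfl, fun _ _ => rfl⟩
  obtain ⟨i0, i1, i2⟩ := hsrc
  rcases Nat.lt_trichotomy l 1 with hl | hl | hl
  · -- l = 0
    have hl0 : l = 0 := by omega
    subst hl0
    obtain ⟨a, b, hab⟩ := i0 rfl
    set e0 : ℝ → ℂ := fun r => I * P.q r with he0
    have s0 : P.IsSym 0 0 e0 := Or.inl ⟨rfl, rfl, rfl⟩
    have s1 : P.IsSym 0 1 P.rtime := Or.inr (Or.inl ⟨rfl, rfl, rfl⟩)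
    have p0 : P.Pair 0 H ((0 : ℝ) : ℂ) 0 (fun _ => 0) e0 (fun r => conj (e0 r)) :=
      hs n P 0 0 e0 H s0 hH hn
    have p1 : P.Pair 0 H ((1 : ℝ) : ℂ) 0 (fun _ => 0) P.rtime (fun r => conj (P.rtime r)) :=
      hs n P 0 1 P.rtime H s1 hH hn
    have fin : ∀ a b : ℂ, (∀ r, 0 < r → F r = a * e0 r + b * P.rtime r ∧
        G r = a * conj (e0 r) + b * conj (P.rtime r)) → P.InEr 0 F G := by
      intro a b hh
      exact ⟨fun _ => ⟨a, b, hh⟩, fun h => absurd h (by norm_num), fun h => absurd h (by norm_num)⟩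
    by_cases n0 : ‖((0 : ℝ) : ℂ) - lam‖ ≤ 1 / 4
    · -- near 0
      have hne : (((1 : ℝ) : ℂ) - lam) ≠ 0 := by
        intro hz
        have : lam = 1 := by
          have := (sub_eq_zero.1 hz).symm
          simpa using this
        rw [this] at n0
        norm_num at n0
      have h1 := h0.sub p1 (b / (((1 : ℝ) : ℂ) - lam))
      obtain ⟨t, ht⟩ := near hs hSY s0 n0 h1 (a := a)
        (fun r hr => by
          have := (hab r hr).1
          simp only at this ⊢
          rw [this]; field_simp; ring)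
        (fun r hr => by
          have := (hab r hr).2
          simp only at this ⊢
          rw [this]; field_simp; ring)
      refine fin t (b / (((1 : ℝ) : ℂ) - lam)) fun r hr => ?_
      obtain ⟨k1, k2⟩ := ht r hr
      exact ⟨by linear_combination k1, by linear_combination k2⟩
    · by_cases n1 : ‖((1 : ℝ) : ℂ) - lam‖ ≤ 1 / 4
      · have hne : (((0 : ℝ) : ℂ) - lam) ≠ 0 := by
          intro hz
          rw [hz] at n0
          norm_num at n0
        have h1 := h0.sub p0 (a / (((0 : ℝ) : ℂ) - lam))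
        obtain ⟨t, ht⟩ := near hs hSY s1 n1 h1 (a := b)
          (fun r hr => by
            have := (hab r hr).1
            simp only at this ⊢
            rw [this]; field_simp; ring)
          (fun r hr => by
            have := (hab r hr).2
            simp only at this ⊢
            rw [this]; field_simp; ring)
        refine fin (a / (((0 : ℝ) : ℂ) - lam)) t fun r hr => ?_
        obtain ⟨k1, k2⟩ := ht r hr
        exact ⟨by linear_combination k1, by linear_combination k2⟩
      · have hne0 : (((0 : ℝ) : ℂ) - lam) ≠ 0 := by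
          intro hz
          rw [hz] at n0
          norm_num at n0
        have hne1 : (((1 : ℝ) : ℂ) - lam) ≠ 0 := by
          intro hz
          rw [hz] at n1
          norm_num at n1
        have h1 := (h0.sub p0 (a / (((0 : ℝ) : ℂ) - lam))).sub p1 (b / (((1 : ℝ) : ℂ) - lam))
        have hz := hNS (by
          intro ls e he
          rcases he with ⟨_, h, _⟩ | ⟨_, h, _⟩ | ⟨h, _⟩
          · rw [h]; exact not_le.1 n0
          · rw [h]; exact not_le.1 n1
          · exact absurd h (by norm_num)) H _ _ (h1.pair (al := 0) (e := fun _ => 0)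
          (fun r hr => by
            have := (hab r hr).1
            simp only at this ⊢
            rw [this]; field_simp; ring)
          (fun r hr => by
            have := (hab r hr).2
            simp only at this ⊢
            rw [this, div_mul_cancel₀ _ hne0, div_mul_cancel₀ _ hne1]
            simp only [he0, map_zero]; ring))
        refine fin (a / (((0 : ℝ) : ℂ) - lam)) (b / (((1 : ℝ) : ℂ) - lam)) fun r hr => ?_
        obtain ⟨k1, k2⟩ := hz r hr
        exact ⟨by linear_combination k1, by linear_combination k2⟩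
  · -- l = 1
    subst hl
    obtain ⟨a, ha⟩ := i1 rfl
    have s1 : P.IsSym 1 (1 / 2) (deriv P.q) := Or.inr (Or.inr ⟨rfl, rfl, rfl⟩)
    have p1 : P.Pair 1 H ((1 / 2 : ℝ) : ℂ) 0 (fun _ => 0) (deriv P.q)
        (fun r => conj (deriv P.q r)) := hs n P 1 (1 / 2) (deriv P.q) H s1 hH hn
    have fin : ∀ a : ℂ, (∀ r, 0 < r → F r = a * deriv P.q r ∧
        G r = a * conj (deriv P.q r)) → P.InEr 1 F G := by
      intro a hh
      exact ⟨fun h => absurd h (by norm_num), fun _ => ⟨a, hh⟩, fun h => absurd h (by norm_num)⟩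
    by_cases n1 : ‖((1 / 2 : ℝ) : ℂ) - lam‖ ≤ 1 / 4
    · obtain ⟨t, ht⟩ := near hs hSY s1 n1 h0 (a := a) (fun r hr => (ha r hr).1)
        (fun r hr => (ha r hr).2)
      exact fin t ht
    · have hne1 : (((1 / 2 : ℝ) : ℂ) - lam) ≠ 0 := by
        intro hz
        rw [hz] at n1
        norm_num at n1
      have h1 := h0.sub p1 (a / (((1 / 2 : ℝ) : ℂ) - lam))
      have hz := hNS (by
        intro ls e he
        rcases he with ⟨h, _⟩ | ⟨h, _⟩ | ⟨_, h, _⟩
        · exact absurd h (by norm_num)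
        · exact absurd h (by norm_num)
        · rw [h]; exact not_le.1 n1) H _ _ (h1.pair (al := 0) (e := fun _ => 0)
        (fun r hr => by
          have := (ha r hr).1
          simp only at this ⊢
          rw [this, div_mul_cancel₀ _ hne1]; ring)
        (fun r hr => by
          have := (ha r hr).2
          simp only at this ⊢
          rw [this, div_mul_cancel₀ _ hne1]; simp))
      refine fin (a / (((1 / 2 : ℝ) : ℂ) - lam)) fun r hr => ?_
      obtain ⟨k1, k2⟩ := hz r hr
      exact ⟨by linear_combination k1, by linear_combination k2⟩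
  · -- 2 ≤ l
    have hl2 : 2 ≤ l := by omega
    have hzero := i2 hl2
    have hz := hNS (by
      intro ls e he
      rcases he with ⟨h, _⟩ | ⟨h, _⟩ | ⟨h, _⟩ <;> omega) H F G (h0.pair (al := 0) (e := fun _ => 0)
      (fun r hr => by
        have := (hzero r hr).1
        simp only at this ⊢
        rw [this]; ring)
      (fun r hr => by
        have := (hzero r hr).2
        simp only at this ⊢
        rw [this]; simp))
    exact ⟨fun h => by omega, fun h => by omega, fun _ => hz⟩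

end

end Crest.Agent.R086.C4Red
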