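import Crest.Agent.R086.SHFinal

/-!
Row 86, Part C (helper851): from the radial equations of a single mode back to the equations on `ℝ¹²`:
`lap (modeFn H F) = modeFn H (rlap l F)` etc. away from the origin, and the lifted eigenvalue equation
everywhere.
-/

set_option autoImplicit false

open MeasureTheory Complex Set Filter Topology
open scoped ContDiff

namespace Crest.Agent.R086.CLift

open Crest.Agent.R086.SH

noncomputable section

lemma modeFn_smul (H : R12 → ℝ) (F : ℝ → ℂ) {r : ℝ} (hr : 0 < r) (w : S11) :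
    modeFn H F (r • (w : R12)) = ((H w : ℝ) : ℂ) * F r := by
  have h1 : ‖r • (w : R12)‖ = r := by
    rw [norm_smul, Real.norm_eq_abs, abs_of_pos hr]; simp
  unfold modeFn
  rw [h1, smul_smul, inv_mul_cancel₀ hr.ne', one_smul]

lemma comp_modeFn (K H : R12 → ℝ) (F : ℝ → ℂ) {r : ℝ} (hr : 0 < r) :
    comp K (modeFn H F) r = (∫ w : S11, ((K w : ℝ) : ℂ) * ((H w : ℝ) : ℂ) ∂sig) * F r := by
  unfold comp
  rw [← integral_mul_const]
  refine integral_congr_ae (Eventually.of_forall fun w => ?_)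
  simp only
  rw [modeFn_smul H F hr]
  ring

lemma comp_modeFn_ev (K H : R12 → ℝ) (F : ℝ → ℂ) {r : ℝ} (hr : 0 < r) :
    comp K (modeFn H F) =ᶠ[𝓝 r]
      fun s => (∫ w : S11, ((K w : ℝ) : ℂ) * ((H w : ℝ) : ℂ) ∂sig) * F s := by
  filter_upwards [Ioi_mem_nhds hr] with s hs
  exact comp_modeFn K H F hs

lemma rlap_const_mul (l : ℕ) (c : ℂ) (F : ℝ → ℂ) (r : ℝ) :
    rlap l (fun s => c * F s) r = c * rlap l F r := by
  unfold rlap
  have h1 : deriv (fun s => c * F s) = fun s => c * deriv F s := by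
    funext s; exact deriv_const_mul_field c
  rw [h1, deriv_const_mul_field]
  ring

lemma rlap_congr {l : ℕ} {F G : ℝ → ℂ} {r : ℝ} (h : F =ᶠ[𝓝 r] G) : rlap l F r = rlap l G r := by
  unfold rlap
  rw [h.deriv.deriv_eq, h.deriv_eq, h.eq_of_nhds]

/-- `lap (modeFn H F) = modeFn H (rlap l F)` on spheres -/
theorem lap_modeFn {l : ℕ} {H : R12 → ℝ} (hH : SHarm l H) {F : ℝ → ℂ}
    (hf : ContDiff ℝ 2 (modeFn H F)) {r : ℝ} (hr : 0 < r) (w : S11) :
    lap (modeFn H F) (r • (w : R12)) = ((H w : ℝ) : ℂ) * rlap l F r := by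
  have hHc : Continuous fun w : S11 => ((H w : ℝ) : ℂ) :=
    Complex.continuous_ofReal.comp (hH.continuous.comp continuous_subtype_val)
  have hlc : Continuous fun w : S11 => lap (modeFn H F) (r • (w : R12)) := by
    exact (lap_cont hf).comp (by fun_prop)
  have key := SH.complete_complex (d := 12)
    (fun w : S11 => lap (modeFn H F) (r • (w : R12)) - ((H w : ℝ) : ℂ) * rlap l F r)
    (hlc.sub (hHc.mul continuous_const)) (fun l' p hp hpl => by
      have hK : SHarm l' (SH.pfun p) := SHarm.of_harm ⟨hp, hpl⟩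
      have hKc : Continuous fun w : S11 => ((SH.pfun p w : ℝ) : ℂ) :=
        Complex.continuous_ofReal.comp (hK.continuous.comp continuous_subtype_val)
      have e1 : ∫ w : S11, (lap (modeFn H F) (r • (w : R12)) - ((H w : ℝ) : ℂ) * rlap l F r) *
          ((SH.pfun p w : ℝ) : ℂ) ∂sig =
          comp (SH.pfun p) (lap (modeFn H F)) r -
            (∫ w : S11, ((SH.pfun p w : ℝ) : ℂ) * ((H w : ℝ) : ℂ) ∂sig) * rlap l F r := by
        unfold comp
        rw [← integral_mul_const, ← integral_sub]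
        · refine integral_congr_ae (Eventually.of_forall fun w => ?_)
          simp only
          ring
        · exact integrable_sph (hKc.mul hlc)
        · exact integrable_sph ((hKc.mul hHc).mul continuous_const)
      have e2 : comp (SH.pfun p) (lap (modeFn H F)) r =
          (∫ w : S11, ((SH.pfun p w : ℝ) : ℂ) * ((H w : ℝ) : ℂ) ∂sig) * rlap l' F r := by
        rw [comp_lap hK hf hr, rlap_congr (comp_modeFn_ev (SH.pfun p) H F hr), rlap_const_mul]
      change ∫ w : S11, (lap (modeFn H F) (r • (w : R12)) - ((H w : ℝ) : ℂ) * rlap l F r) *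
          ((SH.pfun p w : ℝ) : ℂ) ∂sig = 0
      rw [e1, e2]
      by_cases hl : l' = l
      · rw [hl, sub_self]
      · have h0 := hK.orth hH hl
        have h1 : ∫ w : S11, ((SH.pfun p w : ℝ) : ℂ) * ((H w : ℝ) : ℂ) ∂sig = 0 := by
          have h2 : (fun w : S11 => ((SH.pfun p w : ℝ) : ℂ) * ((H w : ℝ) : ℂ)) =
              fun w : S11 => ((SH.pfun p w * H w : ℝ) : ℂ) := by
            funext w; push_cast; rfl
          rw [h2, integral_complex_ofReal, h0]; simp
        rw [h1]; simp) w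
  exact sub_eq_zero.mp key

theorem eul_modeFn {H : R12 → ℝ} {F : ℝ → ℂ}
    (hf : ContDiff ℝ 1 (modeFn H F)) {r : ℝ} (hr : 0 < r) (w : S11) (hF : DifferentiableAt ℝ F r) :
    eul (modeFn H F) (r • (w : R12)) = ((H w : ℝ) : ℂ) * ((r : ℂ) * deriv F r) := by
  have h1 : HasDerivAt (fun t : ℝ => modeFn H F (t • (w : R12)))
      (fderiv ℝ (modeFn H F) (r • (w : R12)) w) r := by
    have h2 : HasFDerivAt (modeFn H F) (fderiv ℝ (modeFn H F) (r • (w : R12))) (r • (w : R12)) :=
      (hf.differentiable (by norm_num) _).hasFDerivAt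
    have h3 : HasDerivAt (fun t : ℝ => t • (w : R12)) (w : R12) r := by
      simpa using (hasDerivAt_id r).smul_const (w : R12)
    exact h2.comp_hasDerivAt r h3
  have h4 : HasDerivAt (fun t : ℝ => modeFn H F (t • (w : R12)))
      (((H w : ℝ) : ℂ) * deriv F r) r := by
    refine (hF.hasDerivAt.const_mul ((H w : ℝ) : ℂ)).congr_of_eventuallyEq ?_
    filter_upwards [Ioi_mem_nhds hr] with t ht
    exact modeFn_smul H F ht w
  have h5 := h1.unique h4
  unfold eul
  rw [map_smul, h5, Complex.real_smul]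
  ring

variable {n : ℕ} (P : Profile n)

theorem gen1_modeFn {l : ℕ} {H : R12 → ℝ} (hH : SHarm l H) {F G : ℝ → ℂ}
    (hf : ContDiff ℝ 2 (modeFn H F)) {r : ℝ} (hr : 0 < r) (w : S11)
    (hF : DifferentiableAt ℝ F r) :
    P.gen1 (modeFn H F) (modeFn H G) (r • (w : R12)) = ((H w : ℝ) : ℂ) * P.rgen1 l F G r := by
  unfold Profile.gen1 Profile.rgen1
  rw [lap_modeFn hH hf hr, eul_modeFn (hf.of_le (by norm_num)) hr w hF, modeFn_smul H F hr,
    modeFn_smul H G hr, V1_smul P hr.le, V2_smul P hr.le]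
  ring

theorem gen2_modeFn {l : ℕ} {H : R12 → ℝ} (hH : SHarm l H) {F G : ℝ → ℂ}
    (hg : ContDiff ℝ 2 (modeFn H G)) {r : ℝ} (hr : 0 < r) (w : S11)
    (hG : DifferentiableAt ℝ G r) :
    P.gen2 (modeFn H F) (modeFn H G) (r • (w : R12)) = ((H w : ℝ) : ℂ) * P.rgen2 l F G r := by
  unfold Profile.gen2 Profile.rgen2
  rw [lap_modeFn hH hg hr, eul_modeFn (hg.of_le (by norm_num)) hr w hG, modeFn_smul H F hr,
    modeFn_smul H G hr, V1_smul P hr.le, V2c_smul P hr.le]
  ring

/-- unit vector in the direction of `y` -/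
lemma exists_polar {y : R12} (hy : y ≠ 0) : ∃ w : S11, y = ‖y‖ • (w : R12) := by
  have hn : ‖y‖ ≠ 0 := norm_ne_zero_iff.2 hy
  refine ⟨⟨‖y‖⁻¹ • y, by
    rw [mem_sphere_zero_iff_norm, norm_smul, norm_inv, norm_norm, inv_mul_cancel₀ hn]⟩, ?_⟩
  simp only
  rw [smul_smul, mul_inv_cancel₀ hn, one_smul]

/-- two continuous functions which agree away from the origin are equal -/
lemma eq_of_ne_zero {u v : R12 → ℂ} (hu : Continuous u) (hv : Continuous v)
    (h : ∀ y, y ≠ 0 → u y = v y) : ∀ y, u y = v y := by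
  have hd : Dense ({0}ᶜ : Set R12) := dense_compl_singleton 0
  have hcl : IsClosed {z : R12 | u z = v z} := isClosed_eq hu hv
  intro y
  have hsub : closure ({0}ᶜ : Set R12) ⊆ {z | u z = v z} :=
    closure_minimal (fun z hz => h z hz) hcl
  rw [hd.closure_eq] at hsub
  exact hsub (mem_univ y)

/-- LIFT of the (inhomogeneous) radial equation, first component. -/
theorem lift1 {l : ℕ} {H : R12 → ℝ} (hH : SHarm l H) {F G E : ℝ → ℂ} {lam : ℂ}
    (hF : ContDiff ℝ 1 F)
    (hf : ContDiff ℝ 2 (modeFn H F)) (hg : ContDiff ℝ 2 (modeFn H G))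
    (hE : Continuous (modeFn H E))
    (h : ∀ r : ℝ, 0 < r → P.rgen1 l F G r - lam * F r = E r) (y : R12) :
    P.gen1 (modeFn H F) (modeFn H G) y - lam * modeFn H F y = modeFn H E y := by
  refine eq_of_ne_zero (u := fun y => P.gen1 (modeFn H F) (modeFn H G) y - lam * modeFn H F y)
    (v := modeFn H E) ?_ hE ?_ y
  · exact (gen1_cont P hf hg).sub (continuous_const.mul hf.continuous)
  · intro y hy
    obtain ⟨w, hw⟩ := exists_polar hy
    have hr : 0 < ‖y‖ := norm_pos_iff.2 hy
    rw [hw, gen1_modeFn P hH hf hr w (hF.differentiable (by norm_num) _), modeFn_smul H F hr,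
      modeFn_smul H E hr, ← h _ hr]
    ring

/-- LIFT of the (inhomogeneous) radial equation, second component. -/
theorem lift2 {l : ℕ} {H : R12 → ℝ} (hH : SHarm l H) {F G E : ℝ → ℂ} {lam : ℂ}
    (hG : ContDiff ℝ 1 G)
    (hf : ContDiff ℝ 2 (modeFn H F)) (hg : ContDiff ℝ 2 (modeFn H G))
    (hE : Continuous (modeFn H E))
    (h : ∀ r : ℝ, 0 < r → P.rgen2 l F G r - lam * G r = E r) (y : R12) :
    P.gen2 (modeFn H F) (modeFn H G) y - lam * modeFn H G y = modeFn H E y := by
  refine eq_of_ne_zero (u := fun y => P.gen2 (modeFn H F) (modeFn H G) y - lam * modeFn H G y)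
    (v := modeFn H E) ?_ hE ?_ y
  · exact (gen2_cont P hf hg).sub (continuous_const.mul hg.continuous)
  · intro y hy
    obtain ⟨w, hw⟩ := exists_polar hy
    have hr : 0 < ‖y‖ := norm_pos_iff.2 hy
    rw [hw, gen2_modeFn P hH hg hr w (hG.differentiable (by norm_num) _), modeFn_smul H G hr,
      modeFn_smul H E hr, ← h _ hr]
    ring

lemma modeFn_zero (H : R12 → ℝ) : modeFn H (fun _ => 0) = fun _ => 0 := by
  funext y; unfold modeFn; simp

/-- LIFT, homogeneous equation. -/
theorem lift_eig {l : ℕ} {H : R12 → ℝ} (hH : SHarm l H) {F G : ℝ → ℂ} {lam : ℂ}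
    (hF : ContDiff ℝ 1 F) (hG : ContDiff ℝ 1 G)
    (hf : ContDiff ℝ 2 (modeFn H F)) (hg : ContDiff ℝ 2 (modeFn H G))
    (h1 : ∀ r : ℝ, 0 < r → P.rgen1 l F G r = lam * F r)
    (h2 : ∀ r : ℝ, 0 < r → P.rgen2 l F G r = lam * G r) :
    (∀ y, P.gen1 (modeFn H F) (modeFn H G) y = lam * modeFn H F y) ∧
    (∀ y, P.gen2 (modeFn H F) (modeFn H G) y = lam * modeFn H G y) := by
  have hE : Continuous (modeFn H fun _ => 0) := by rw [modeFn_zero]; exact continuous_const
  constructor
  · intro y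
    have := lift1 P hH (E := fun _ => 0) (lam := lam) hF hf hg hE
      (fun r hr => by rw [h1 r hr, sub_self]) y
    rw [modeFn_zero] at this
    exact sub_eq_zero.mp this
  · intro y
    have := lift2 P hH (E := fun _ => 0) (lam := lam) hG hf hg hE
      (fun r hr => by rw [h2 r hr, sub_self]) y
    rw [modeFn_zero] at this
    exact sub_eq_zero.mp this

end

end Crest.Agent.R086.CLift
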