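import Mathlib
import Crest.Agent.R086.C34Defs
import Crest.Agent.R086.C4Red
import Crest.Agent.R086.CLift

/-!
Row 86, Part C, C4 assembly (helper512): scaling of pairs, `NB`, vanishing of a pair with zero norm,
the symmetry modes in the limit.
-/

set_option autoImplicit false

open MeasureTheory Complex Set Filter Topology
open scoped ContDiff

namespace Crest.Agent.R086.C4Nb

local notation "conj" => starRingEnd ℂ

/-! ### NB -/

lemma NB_nonneg (rho : ℝ) (F G : ℝ → ℂ) : 0 ≤ NB rho F G := Real.sqrt_nonneg _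

lemma NB_smul (rho : ℝ) (F G : ℝ → ℂ) (c : ℂ) :
    NB rho (fun r => c * F r) (fun r => c * G r) = ‖c‖ * NB rho F G := by
  unfold NB
  have : (fun r : ℝ => r ^ 11 * (‖c * F r‖ ^ 2 + ‖c * G r‖ ^ 2)) =
      fun r : ℝ => ‖c‖ ^ 2 * (r ^ 11 * (‖F r‖ ^ 2 + ‖G r‖ ^ 2)) := by
    funext r
    rw [norm_mul, norm_mul]; ring
  rw [this, intervalIntegral.integral_const_mul, Real.sqrt_mul (by positivity),
    Real.sqrt_sq (norm_nonneg _)]

lemma NB_mono {a b : ℝ} (ha : 0 ≤ a) (hab : a ≤ b) {F G : ℝ → ℂ} (hF : Continuous F)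
    (hG : Continuous G) : NB a F G ≤ NB b F G := by
  unfold NB
  refine Real.sqrt_le_sqrt ?_
  have hc : Continuous fun r : ℝ => r ^ 11 * (‖F r‖ ^ 2 + ‖G r‖ ^ 2) := by fun_prop
  have h1 := intervalIntegral.integral_add_adjacent_intervals (hc.intervalIntegrable (μ := volume) 0 a)
    (hc.intervalIntegrable a b)
  have h2 : 0 ≤ ∫ r in a..b, r ^ 11 * (‖F r‖ ^ 2 + ‖G r‖ ^ 2) := by
    refine intervalIntegral.integral_nonneg hab fun r hr => ?_
    have : 0 ≤ r := ha.trans hr.1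
    positivity
  linarith

lemma NB_le {rho C : ℝ} (hrho : 0 ≤ rho) {F G : ℝ → ℂ} (hF : Continuous F) (hG : Continuous G)
    (hC : 0 ≤ C) (hFb : ∀ r ∈ Icc 0 rho, ‖F r‖ ≤ C) (hGb : ∀ r ∈ Icc 0 rho, ‖G r‖ ≤ C) :
    NB rho F G ≤ Real.sqrt (rho * (rho ^ 11 * (2 * C ^ 2))) := by
  unfold NB
  refine Real.sqrt_le_sqrt ?_
  have hc : Continuous fun r : ℝ => r ^ 11 * (‖F r‖ ^ 2 + ‖G r‖ ^ 2) := by fun_prop
  have h1 : ∫ r in (0:ℝ)..rho, r ^ 11 * (‖F r‖ ^ 2 + ‖G r‖ ^ 2) ≤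
      ∫ _r in (0:ℝ)..rho, rho ^ 11 * (2 * C ^ 2) := by
    refine intervalIntegral.integral_mono_on hrho (hc.intervalIntegrable _ _)
      (continuous_const.intervalIntegrable _ _) fun r hr => ?_
    have a1 : r ^ 11 ≤ rho ^ 11 := pow_le_pow_left₀ hr.1 hr.2 11
    have a2 : ‖F r‖ ^ 2 + ‖G r‖ ^ 2 ≤ 2 * C ^ 2 := by
      have b1 := pow_le_pow_left₀ (norm_nonneg _) (hFb r hr) 2
      have b2 := pow_le_pow_left₀ (norm_nonneg _) (hGb r hr) 2
      linarith
    exact mul_le_mul a1 a2 (by positivity) (by positivity)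
  refine h1.trans (le_of_eq ?_)
  rw [intervalIntegral.integral_const]
  simp

/-! ### scaling of pairs -/

lemma inX_smul {N : ℕ} {f : R12 → ℂ} (hf : InX N f) (c : ℂ) : InX N (fun y => c * f y) := by
  obtain ⟨a, ha⟩ := hf
  refine ⟨fun ξ => c * a ξ, ?_, fun y => ?_⟩
  · refine (ha.1.const_mul c).congr (Eventually.of_forall fun ξ => ?_)
    simp only
    ring
  · simp only
    rw [ha.2 y, ← integral_const_mul]
    refine integral_congr_ae (Eventually.of_forall fun ξ => ?_)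
    simp only
    ring

section
variable {n : ℕ} {P : Profile n}

lemma deriv_smul' (c : ℂ) (F : ℝ → ℂ) : deriv (fun r => c * F r) = fun r => c * deriv F r := by
  funext r; exact deriv_const_mul_field c

lemma rgen1_smul (l : ℕ) (F G : ℝ → ℂ) (c : ℂ) (r : ℝ) :
    P.rgen1 l (fun r => c * F r) (fun r => c * G r) r = c * P.rgen1 l F G r := by
  unfold Profile.rgen1
  rw [CLift.rlap_const_mul, deriv_smul']
  ring

lemma rgen2_smul (l : ℕ) (F G : ℝ → ℂ) (c : ℂ) (r : ℝ) :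
    P.rgen2 l (fun r => c * F r) (fun r => c * G r) r = c * P.rgen2 l F G r := by
  unfold Profile.rgen2
  rw [CLift.rlap_const_mul, deriv_smul']
  ring

lemma modeFn_smul' (H : R12 → ℝ) (F : ℝ → ℂ) (c : ℂ) :
    modeFn H (fun r => c * F r) = fun y => c * modeFn H F y := by
  funext y
  unfold modeFn
  ring

theorem pair_smul {l : ℕ} {H : R12 → ℝ} {lam al : ℂ} {e F G : ℝ → ℂ}
    (h : P.Pair l H lam al e F G) (c : ℂ) :
    P.Pair l H lam (c * al) e (fun r => c * F r) (fun r => c * G r) := by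
  refine ⟨h.sharm, h.nrm, contDiff_const.mul h.cF, contDiff_const.mul h.cG, ?_, ?_, ?_, ?_, ?_, ?_⟩
  · intro r; rw [h.pF r]; ring
  · intro r; rw [h.pG r]; ring
  · rw [modeFn_smul']; exact inX_smul h.xF c
  · rw [modeFn_smul']; exact inX_smul h.xG c
  · intro r hr
    rw [rgen1_smul]
    linear_combination c * h.eqF r hr
  · intro r hr
    rw [rgen2_smul]
    linear_combination c * h.eqG r hr

end

/-! ### vanishing -/

lemma zero_of_XBd {N : ℕ} {f : R12 → ℂ} (h : XBd N f 0) : ∀ y, f y = 0 := by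
  obtain ⟨a, ha, hb⟩ := h
  intro y
  rw [ha.2 y]
  have h1 : ‖∫ ξ : R12, exp (I * ((inner ℝ ξ y : ℝ) : ℂ)) * a ξ‖ ≤ 0 := by
    refine (norm_integral_le_integral_norm _).trans (le_trans ?_ hb)
    have hint : Integrable (fun ξ : R12 => (1 + ‖ξ‖) ^ N * ‖a ξ‖) := by
      refine ha.1.norm.congr (Eventually.of_forall fun ξ => ?_)
      simp only
      rw [norm_mul, Complex.norm_real, Real.norm_of_nonneg (by positivity)]
    refine integral_mono_of_nonneg (Eventually.of_forall fun ξ => norm_nonneg _) hint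
      (Eventually.of_forall fun ξ => ?_)
    simp only
    rw [norm_mul, mul_comm I, Complex.norm_exp_ofReal_mul_I, one_mul]
    have h1 : (1 : ℝ) ≤ (1 + ‖ξ‖) ^ N := one_le_pow₀ (by linarith [norm_nonneg ξ])
    nlinarith [norm_nonneg (a ξ)]
  exact norm_le_zero_iff.1 h1

lemma exists_H_ne {H : R12 → ℝ} (hn : (∫ w : S11, (H w) ^ 2 ∂sig) = 1) : ∃ w : S11, H w ≠ 0 := by
  by_contra hcon
  push Not at hcon
  have : (fun w : S11 => (H w) ^ 2) = fun _ => 0 := by
    funext w; rw [hcon w]; ring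
  rw [this] at hn
  simp at hn

lemma zero_of_modeFn {H : R12 → ℝ} (hn : (∫ w : S11, (H w) ^ 2 ∂sig) = 1) {F : ℝ → ℂ}
    (h : ∀ y, modeFn H F y = 0) : ∀ r, 0 < r → F r = 0 := by
  intro r hr
  obtain ⟨w, hw⟩ := exists_H_ne hn
  have := h (r • (w : R12))
  rw [CLift.modeFn_smul H F hr] at this
  exact (mul_eq_zero.1 this).resolve_left (by exact_mod_cast hw)

/-- From REG: a pair with `NB 8 = 0` and `al = 0` vanishes. -/
theorem vanish {om0 R : ℝ} {U : ℝ → ℂ} {B : BData om0 R U} (hR : R < 8) (hreg : B.REG) :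
    ∀ᶠ j in atTop, ∀ (l : ℕ) (H : R12 → ℝ) (lam al : ℂ) (e F G : ℝ → ℂ),
      0 ≤ lam.re → (B.P j).Pair l H lam al e F G →
      ((al = 0 ∧ e = fun _ => 0) ∨ ∃ ls : ℝ, (B.P j).IsSym l ls e) →
      NB 8 F G = 0 → al = 0 → ∀ r, 0 < r → F r = 0 ∧ G r = 0 := by
  obtain ⟨K, hK⟩ := hreg 8 hR
  filter_upwards [hK] with j hj l H lam al e F G hre hp hsrc hN hal r hr
  obtain ⟨h1, h2⟩ := hj l H lam al e F G hre hp hsrc
  rw [hN, hal, norm_zero, add_zero, mul_zero] at h1 h2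
  exact ⟨zero_of_modeFn hp.nrm (zero_of_XBd h1) r hr, zero_of_modeFn hp.nrm (zero_of_XBd h2) r hr⟩

end Crest.Agent.R086.C4Nb
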