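import Mathlib
import Crest.Agent.R086.C34Defs
import Crest.Agent.R086.C4Nb

/-!
Row 86, Part C, C4 assembly (helper512): bounds of the symmetry modes, uniformly in `j`.
-/

set_option autoImplicit false

open MeasureTheory Complex Set Filter Topology
open scoped ContDiff

namespace Crest.Agent.R086.C4Sym

local notation "conj" => starRingEnd ℂ

section
variable {om0 R : ℝ} {U : ℝ → ℂ}

lemma U_le (LP : LimitProfile om0 R U) (r : ℝ) : ‖U r‖ ≤ 1 := by
  rcases le_or_gt r R with h | h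
  · rw [LP.core r h]; simp
  · exact (LP.lt_one r h).le

lemma U_R (LP : LimitProfile om0 R U) : U R = 1 := LP.core R le_rfl

lemma dU_R (LP : LimitProfile om0 R U) : deriv U R = 0 := by
  have h1 : HasDerivAt U (deriv U R) R := (LP.c1.differentiable (by norm_num) R).hasDerivAt
  have h2 : HasDerivWithinAt U (deriv U R) (Iic R) R := h1.hasDerivWithinAt
  have h3 : HasDerivWithinAt U 0 (Iic R) R := by
    refine (hasDerivWithinAt_const R (Iic R) (1 : ℂ)).congr (fun r hr => LP.core r hr) (U_R LP)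
  exact (uniqueDiffWithinAt_Iic R).eq_deriv _ h2 h3

lemma cdU (LP : LimitProfile om0 R U) : Continuous (deriv U) :=
  LP.c1.continuous_deriv (by norm_num)

lemma cU (LP : LimitProfile om0 R U) : Continuous U := LP.c1.continuous

variable {B : BData om0 R U}

lemma q_tendsto (B : BData om0 R U) {r : ℝ} (hr : r ∈ Icc (0 : ℝ) 8) :
    Tendsto (fun j => (B.P j).q r) atTop (𝓝 (U r)) := by
  rw [Metric.tendsto_nhds]
  intro ε hε
  filter_upwards [B.conv (ε / 2) (half_pos hε)] with j hj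
  rw [dist_eq_norm]
  linarith [(hj r hr).1]

lemma dq_tendsto (B : BData om0 R U) {r : ℝ} (hr : r ∈ Icc (0 : ℝ) 8) :
    Tendsto (fun j => deriv (B.P j).q r) atTop (𝓝 (deriv U r)) := by
  rw [Metric.tendsto_nhds]
  intro ε hε
  filter_upwards [B.conv (ε / 2) (half_pos hε)] with j hj
  rw [dist_eq_norm]
  linarith [(hj r hr).2]

lemma inv_n_tendsto (B : BData om0 R U) :
    Tendsto (fun j => (1 : ℂ) / (B.nn j : ℂ)) atTop (𝓝 0) := by
  have h1 : Tendsto (fun n : ℕ => (1 : ℂ) / (n : ℂ)) atTop (𝓝 0) := by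
    simpa using tendsto_inv_atTop_nhds_zero_nat (𝕜 := ℂ)
  exact h1.comp B.nn_tendsto

lemma rtime_tendsto (B : BData om0 R U) {r : ℝ} (hr : r ∈ Icc (0 : ℝ) 8) :
    Tendsto (fun j => (B.P j).rtime r) atTop
      (𝓝 (((0 : ℂ) - I * om0) * U r + (1 / 2) * ((r : ℂ) * deriv U r))) := by
  have h1 := inv_n_tendsto B
  have h2 : Tendsto (fun j => ((B.P j).om : ℂ)) atTop (𝓝 (om0 : ℂ)) :=
    (Complex.continuous_ofReal.tendsto om0).comp B.om_tendsto
  have h3 := q_tendsto B hr
  have h4 := dq_tendsto B hr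
  exact ((h1.sub (h2.const_mul I)).mul h3).add ((h4.const_mul (r : ℂ)).const_mul (1 / 2))

/-- upper bound of all symmetry modes on `[0, 8]` -/
theorem sym_upper (LP : LimitProfile om0 R U) (B : BData om0 R U) :
    ∃ K : ℝ, 0 ≤ K ∧ ∀ᶠ j in atTop, ∀ (l : ℕ) (ls : ℝ) (e : ℝ → ℂ), (B.P j).IsSym l ls e →
      ∀ r ∈ Icc (0 : ℝ) 8, ‖e r‖ ≤ K := by
  obtain ⟨M, hM⟩ := (isCompact_Icc (a := (0 : ℝ)) (b := 8)).exists_bound_of_continuousOn
    (cdU LP).continuousOn
  have hM0 : 0 ≤ M := (norm_nonneg _).trans (hM 0 (by norm_num))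
  have hom : ∀ᶠ j in atTop, |(B.P j).om| ≤ 1 := by
    have h1 := B.om_tendsto.eventually (Icc_mem_nhds (a := -1) (b := 1)
      (by linarith [LP.om_lo]) (by linarith [LP.om_hi]))
    filter_upwards [h1] with j hj using abs_le.2 ⟨hj.1, hj.2⟩
  refine ⟨2 + 4 + 4 * (M + 1) + (M + 1), by positivity, ?_⟩
  filter_upwards [B.conv 1 one_pos, hom] with j hj homj l ls e he r hr
  have hq : ‖(B.P j).q r‖ ≤ 2 := by
    have h1 := (hj r hr).1
    have h2 := U_le LP r
    have h3 : ‖(B.P j).q r‖ ≤ ‖(B.P j).q r - U r‖ + ‖U r‖ := by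
      have := norm_add_le ((B.P j).q r - U r) (U r)
      simpa using this
    linarith
  have hdq : ‖deriv (B.P j).q r‖ ≤ M + 1 := by
    have h1 := (hj r hr).2
    have h2 := hM r hr
    have h3 : ‖deriv (B.P j).q r‖ ≤ ‖deriv (B.P j).q r - deriv U r‖ + ‖deriv U r‖ := by
      have := norm_add_le (deriv (B.P j).q r - deriv U r) (deriv U r)
      simpa using this
    linarith
  rcases he with ⟨_, _, rfl⟩ | ⟨_, _, rfl⟩ | ⟨_, _, rfl⟩
  · simp only [norm_mul, norm_I, one_mul]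
    linarith
  · unfold Profile.rtime
    have hn : ‖(1 : ℂ) / (B.nn j : ℂ) - I * (B.P j).om‖ ≤ 2 := by
      refine (norm_sub_le _ _).trans ?_
      have h1 : ‖(1 : ℂ) / (B.nn j : ℂ)‖ ≤ 1 := by
        rw [norm_div, norm_one, Complex.norm_natCast]
        have : (1 : ℝ) ≤ (B.nn j : ℝ) := by
          have := (B.P j).two_le
          exact_mod_cast (by omega : 1 ≤ B.nn j)
        rw [div_le_one (by linarith)]
        exact this
      have h2 : ‖I * ((B.P j).om : ℂ)‖ ≤ 1 := by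
        rw [norm_mul, norm_I, one_mul, Complex.norm_real]
        exact homj
      linarith
    refine (norm_add_le _ _).trans ?_
    have a1 : ‖((1 : ℂ) / (B.nn j : ℂ) - I * (B.P j).om) * (B.P j).q r‖ ≤ 2 * 2 := by
      rw [norm_mul]
      exact mul_le_mul hn hq (norm_nonneg _) (by norm_num)
    have a2 : ‖(1 / 2 : ℂ) * ((r : ℂ) * deriv (B.P j).q r)‖ ≤ 4 * (M + 1) := by
      rw [norm_mul, norm_mul, Complex.norm_real, Real.norm_of_nonneg hr.1]
      have : ‖(1 / 2 : ℂ)‖ = 1 / 2 := by simp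
      rw [this]
      have := mul_le_mul hr.2 hdq (norm_nonneg _) (by norm_num : (0 : ℝ) ≤ 8)
      linarith
    linarith
  · linarith

lemma eventually_norm_ge {u : ℕ → ℂ} {v : ℂ} (h : Tendsto u atTop (𝓝 v)) {c : ℝ} (hc : c < ‖v‖) :
    ∀ᶠ j in atTop, c ≤ ‖u j‖ := by
  filter_upwards [h.norm.eventually (lt_mem_nhds hc)] with j hj using hj.le

/-- lower bound of a symmetry mode at one point outside the core -/
theorem sym_lower (LP : LimitProfile om0 R U) (B : BData om0 R U) (l : ℕ) (ls : ℝ) :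
    ∃ rs ∈ Ioo R 8, ∃ c : ℝ, 0 < c ∧ ∀ᶠ j in atTop, ∀ e : ℝ → ℂ, (B.P j).IsSym l ls e →
      c ≤ ‖e rs‖ := by
  have hR1 := LP.R_lo
  have hR2 := LP.R_hi
  by_cases h0 : l = 0 ∧ ls = 0
  · obtain ⟨rfl, rfl⟩ := h0
    refine ⟨5, ⟨by linarith, by norm_num⟩, 1 / 2, by norm_num, ?_⟩
    filter_upwards [B.q_lower] with j hj e he
    rcases he with ⟨_, _, rfl⟩ | ⟨_, h, _⟩ | ⟨h, _, _⟩
    · simp only [norm_mul, norm_I, one_mul]
      exact hj 5 ⟨by norm_num, by norm_num⟩
    · norm_num at h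
    · norm_num at h
  by_cases h1 : l = 0 ∧ ls = 1
  · obtain ⟨rfl, rfl⟩ := h1
    set E : ℝ → ℂ := fun r => ((0 : ℂ) - I * om0) * U r + (1 / 2) * ((r : ℂ) * deriv U r) with hE
    have hEc : Continuous E := by
      have := cU LP
      have := cdU LP
      simp only [hE]
      fun_prop
    have hER : E R = -(I * om0) := by
      simp only [hE]
      rw [U_R LP, dU_R LP]; ring
    have hn : (1 / 4 : ℝ) < ‖E R‖ := by
      rw [hER, norm_neg, norm_mul, norm_I, one_mul, Complex.norm_real, Real.norm_eq_abs,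
        abs_of_pos (by linarith [LP.om_lo])]
      linarith [LP.om_lo]
    have hev : ∀ᶠ r in 𝓝[>] R, (1 / 4 : ℝ) < ‖E r‖ :=
      ((hEc.norm.tendsto R).eventually (lt_mem_nhds hn)).filter_mono nhdsWithin_le_nhds
    have hev2 : ∀ᶠ r in 𝓝[>] R, r ∈ Ioo R 8 := Ioo_mem_nhdsGT (by linarith)
    obtain ⟨rs, hrs1, hrs2⟩ := (hev.and hev2).exists
    refine ⟨rs, hrs2, 1 / 4, by norm_num, ?_⟩
    filter_upwards [eventually_norm_ge
      (rtime_tendsto B (r := rs) ⟨by linarith [hrs2.1], hrs2.2.le⟩) hrs1] with j hj e he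
    rcases he with ⟨_, h, _⟩ | ⟨_, _, rfl⟩ | ⟨h, _, _⟩
    · norm_num at h
    · exact hj
    · norm_num at h
  by_cases h2 : l = 1 ∧ ls = 1 / 2
  · obtain ⟨rfl, rfl⟩ := h2
    have hex : ∃ rs ∈ Ioo R 8, deriv U rs ≠ 0 := by
      by_contra hcon
      push Not at hcon
      have hd : Differentiable ℝ U := LP.c1.differentiable (by norm_num)
      have key : U 5 = U 6 := by
        have hc : ∀ x ∈ Icc (5 : ℝ) 6, U x = U 5 := by
          refine constant_of_derivWithin_zero (hd.differentiableOn) fun x hx => ?_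
          have h1 : HasDerivAt U 0 x := by
            have := (hd x).hasDerivAt
            rwa [hcon x ⟨by linarith [hx.1], by linarith [hx.2]⟩] at this
          exact h1.hasDerivWithinAt.derivWithin
            ((uniqueDiffOn_Icc (by norm_num)) x ⟨hx.1, hx.2.le⟩)
        exact (hc 6 ⟨by norm_num, le_rfl⟩).symm
      have := LP.anti (a := 5) (b := 6) (by rw [mem_Ici]; linarith) (by rw [mem_Ici]; linarith)
        (by norm_num)
      simp only at this
      rw [key] at this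
      exact lt_irrefl _ this
    obtain ⟨rs, hrs, hne⟩ := hex
    refine ⟨rs, hrs, ‖deriv U rs‖ / 2, by positivity, ?_⟩
    have hpos : 0 < ‖deriv U rs‖ := norm_pos_iff.2 hne
    filter_upwards [eventually_norm_ge
      (dq_tendsto B (r := rs) ⟨by linarith [hrs.1], hrs.2.le⟩)
      (by linarith : ‖deriv U rs‖ / 2 < ‖deriv U rs‖)] with j hj e he
    rcases he with ⟨h, _, _⟩ | ⟨h, _, _⟩ | ⟨_, _, rfl⟩
    · norm_num at h
    · norm_num at h
    · exact hj
  · refine ⟨5, ⟨by linarith, by norm_num⟩, 1, one_pos, ?_⟩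
    filter_upwards with j e he
    rcases he with ⟨a, b, _⟩ | ⟨a, b, _⟩ | ⟨a, b, _⟩
    · exact absurd ⟨a, b⟩ h0
    · exact absurd ⟨a, b⟩ h1
    · exact absurd ⟨a, b⟩ h2

end

end Crest.Agent.R086.C4Sym
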