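import Mathlib
import Crest.Agent.R086.C4Lim
import Crest.Agent.R086.C4Sym
import Crest.Agent.R086.C4FinAux
import Crest.Agent.R086.C4Defs

/-!
Row 86, Part C, C4 assembly (helper512): the symmetric case (SY).
-/

set_option autoImplicit false

open MeasureTheory Complex Set Filter Topology
open scoped ContDiff

namespace Crest.Agent.R086.C4Asm

open C4Lim C4Nb C4Sym JCx

local notation "conj" => starRingEnd ℂ

lemma Phi_ne' {l : ℕ} {m : ℂ} (hm : -(1 / 4) < m.re) {r : ℝ} (hr : 0 < r) :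
    Phi l m r ≠ 0 ∨ Phi1 l m r ≠ 0 := by
  refine C4FinAux.Phi_ne ?_ hr
  show -1 - (l : ℝ) / 2 < m.re
  have : (0 : ℝ) ≤ (l : ℝ) / 2 := by positivity
  linarith

lemma exists_point (l : ℕ) {m : ℂ} (hm : -(1 / 4) < m.re) : ∃ rp ∈ Icc (5 : ℝ) 6, Phi l m rp ≠ 0 := by
  by_contra hcon
  push Not at hcon
  have h1 : Phi l m (11 / 2) = 0 := hcon _ (by norm_num)
  have h2 : HasDerivAt (Phi l m) (Phi1 l m (11 / 2)) (11 / 2) := phiFacts.der l m hm _ (by norm_num)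
  have h3 : (fun _ : ℝ => (0 : ℂ)) =ᶠ[𝓝 (11 / 2)] Phi l m := by
    filter_upwards [Icc_mem_nhds (a := (5 : ℝ)) (b := 6) (x := 11 / 2) (by norm_num) (by norm_num)]
      with r hr
    exact (hcon r hr).symm
  have h4 : HasDerivAt (fun _ : ℝ => (0 : ℂ)) (Phi1 l m (11 / 2)) (11 / 2) :=
    h2.congr_of_eventuallyEq h3
  have h5 : Phi1 l m (11 / 2) = 0 := h4.unique (hasDerivAt_const _ _)
  rcases Phi_ne' (l := l) hm (r := 11 / 2) (by norm_num) with h | h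
  · exact h h1
  · exact h h5

section
variable {om0 R : ℝ} {U : ℝ → ℂ} {B : BData om0 R U} {𝓤 : Ultrafilter ℕ}

lemma mu_tendsto (B : BData om0 R U) (hU : (𝓤 : Filter ℕ) ≤ atTop) {lam : ℕ → ℂ} {lam0 : ℂ}
    (h : Tendsto lam 𝓤 (𝓝 lam0)) :
    Tendsto (fun j => (B.P j).mu (lam j)) 𝓤 (𝓝 (lam0 - I * om0)) := by
  have h1 := (inv_n_tendsto B).mono_left hU
  have h2 : Tendsto (fun j => ((B.P j).om : ℂ)) 𝓤 (𝓝 (om0 : ℂ)) :=
    ((Complex.continuous_ofReal.tendsto om0).comp B.om_tendsto).mono_left hU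
  have := (h.add h1).sub (h2.const_mul I)
  rw [add_zero] at this
  exact this

lemma hp_mem {lam0 : ℂ} (h : 0 ≤ lam0.re) (om0 : ℝ) : -(1 / 4) < (lam0 - I * om0 : ℂ).re := by
  simp only [sub_re, mul_re, I_re, ofReal_re, zero_mul, I_im, ofReal_im, mul_zero, sub_zero]
  linarith

lemma exp_tendsto (B : BData om0 R U) (hU : (𝓤 : Filter ℕ) ≤ atTop) {c : ℝ} (hc : 0 < c) :
    Tendsto (fun j => Real.exp (-c * B.nn j)) 𝓤 (𝓝 0) := by
  have h1 : Tendsto (fun j => (B.nn j : ℝ)) atTop atTop :=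
    tendsto_natCast_atTop_atTop.comp B.nn_tendsto
  have h2 : Tendsto (fun j => -c * (B.nn j : ℝ)) atTop atBot := by
    have := h1.const_mul_atTop hc
    have := tendsto_neg_atTop_atBot.comp this
    refine this.congr fun j => ?_
    simp
  exact (Real.tendsto_exp_atBot.comp h2).mono_left hU

/-- one component with a source -/
lemma comp_src {l : ℕ} {m ms : ℕ → ℂ} {m0 ms0 : ℂ} (hm0 : -(1 / 4) < m0.re)
    (hms0 : -(1 / 4) < ms0.re) (hm : Tendsto m 𝓤 (𝓝 m0)) (hms : Tendsto ms 𝓤 (𝓝 ms0))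
    {w : ℕ → ℂ} {w0 ga0 : ℂ} (hw : Tendsto w 𝓤 (𝓝 w0)) {f f1 : ℕ → ℝ → ℂ} {Cb d0 : ℝ} (hR : 0 < R)
    (hRd : R + d0 ≤ 5) (hb : ∀ rp ∈ Icc (5 : ℝ) 6, ∀ᶠ j in (𝓤 : Filter ℕ), ‖f j rp‖ ≤ Cb) :
    ∃ c0 : ℂ, ∀ d, 0 < d → d ≤ d0 → ∀ (c ga : ℕ → ℂ) (err : ℕ → ℝ), Tendsto ga 𝓤 (𝓝 ga0) →
      Tendsto err 𝓤 (𝓝 0) →
      (∀ᶠ j in (𝓤 : Filter ℕ), ∀ r ∈ Icc (R + d) 8,
        ‖f j r - (c j * Phi l (m j) r + w j * ga j * dslope (fun z => Phi l z r) (ms j) (m j))‖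
          ≤ err j ∧
        ‖f1 j r - (c j * Phi1 l (m j) r + w j * ga j * dslope (fun z => Phi1 l z r) (ms j) (m j))‖
          ≤ err j) →
      ∀ (r : ℕ → ℝ) (r0 : ℝ), (∀ j, r j ∈ Icc (R + d) 8) → Tendsto r 𝓤 (𝓝 r0) →
        Tendsto (fun j => f j (r j)) 𝓤
          (𝓝 (c0 * Phi l m0 r0 + w0 * ga0 * dslope (fun z => Phi l z r0) ms0 m0)) ∧
        Tendsto (fun j => f1 j (r j)) 𝓤
          (𝓝 (c0 * Phi1 l m0 r0 + w0 * ga0 * dslope (fun z => Phi1 l z r0) ms0 m0)) := by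
  have jP : Joint 𝓤 (fun j r => Phi l (m j) r) (Phi l m0) := joint_of_cont (phiFacts.cont l) hm0 hm
  have jP1 : Joint 𝓤 (fun j r => Phi1 l (m j) r) (Phi1 l m0) :=
    joint_of_cont (phiFacts.cont1 l) hm0 hm
  obtain ⟨jZ, -⟩ := joint_dslope (𝓤 := 𝓤) (phiFacts.cont l) (phiFacts.hol l) hm0 hms0 hm hms
  obtain ⟨jZ1, -⟩ := joint_dslope (𝓤 := 𝓤) (phiFacts.cont1 l) (phiFacts.hol1 l) hm0 hms0 hm hms
  have hwg : Tendsto (fun j => w j * ga0) 𝓤 (𝓝 (w0 * ga0)) := hw.mul_const ga0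
  obtain ⟨rp, hrp, hne⟩ := exists_point l hm0
  obtain ⟨c0, hc0⟩ := comp_lim (𝓤 := 𝓤) jP jP1 (jZ.mul hwg) (jZ1.mul hwg) (f := f) (f1 := f1) hR hRd
    hrp hne (hb rp hrp)
  refine ⟨c0, fun d hd hdd c ga err hga herr h => ?_⟩
  refine (hc0 d hd hdd c ?_).2
  intro r hr
  obtain ⟨r0, hr0m, hr0⟩ := rlim (𝓤 := 𝓤) hr
  have hr00 : 0 < r0 := by linarith [hr0m.1]
  have hdiff : Tendsto (fun j => w j * (ga j - ga0)) 𝓤 (𝓝 0) := by
    have := hw.mul (hga.sub_const ga0)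
    simpa using this
  constructor
  · have a1 : Tendsto (fun j => f j (r j) - (c j * Phi l (m j) (r j) + w j * ga j *
        dslope (fun z => Phi l z (r j)) (ms j) (m j))) 𝓤 (𝓝 0) := by
      refine squeeze_zero_norm' ?_ herr
      filter_upwards [h] with j hj using (hj (r j) (hr j)).1
    have a2 := hdiff.mul (jZ r r0 hr00 hr0)
    rw [zero_mul] at a2
    have := a1.add a2
    rw [add_zero] at this
    refine this.congr fun j => ?_
    ring
  · have a1 : Tendsto (fun j => f1 j (r j) - (c j * Phi1 l (m j) (r j) + w j * ga j *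
        dslope (fun z => Phi1 l z (r j)) (ms j) (m j))) 𝓤 (𝓝 0) := by
      refine squeeze_zero_norm' ?_ herr
      filter_upwards [h] with j hj using (hj (r j) (hr j)).2
    have a2 := hdiff.mul (jZ1 r r0 hr00 hr0)
    rw [zero_mul] at a2
    have := a1.add a2
    rw [add_zero] at this
    refine this.congr fun j => ?_
    ring

/-- the boundary relations in the limit -/
lemma bc_rel {l : ℕ} {f f1 g g1 : ℕ → ℝ → ℂ} {X X1 Y Y1 : ℝ → ℂ} {C d0 : ℝ} (hd0 : 0 < d0)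
    (cX : ContinuousAt X R) (cX1 : ContinuousAt X1 R) (cY : ContinuousAt Y R) (cY1 : ContinuousAt Y1 R)
    (hX : ∀ d, 0 < d → d ≤ d0 → Tendsto (fun j => f j (R + d)) 𝓤 (𝓝 (X (R + d))) ∧
      Tendsto (fun j => f1 j (R + d)) 𝓤 (𝓝 (X1 (R + d))) ∧
      Tendsto (fun j => conj (g j (R + d))) 𝓤 (𝓝 (Y (R + d))) ∧
      Tendsto (fun j => conj (g1 j (R + d))) 𝓤 (𝓝 (Y1 (R + d))))
    (hb : ∀ d, 0 < d → d ≤ d0 → ∀ᶠ j in (𝓤 : Filter ℕ),
      ‖f j (R + d) + g j (R + d)‖ ≤ C * Real.sqrt d ∧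
      ‖f1 j (R + d) - g1 j (R + d) - (l : ℂ) / (R : ℂ) * (f j (R + d) - g j (R + d))‖
        ≤ C * Real.sqrt d) :
    X R + conj (Y R) = 0 ∧ X1 R - conj (Y1 R) - (l : ℂ) / (R : ℂ) * (X R - conj (Y R)) = 0 := by
  have cc : ∀ z : ℂ, ContinuousAt (fun w : ℂ => conj w) z := fun z =>
    Complex.continuous_conj.continuousAt
  have cYc : ContinuousAt (fun r => conj (Y r)) R := (cc _).comp (f := Y) (x := R) cY
  have cY1c : ContinuousAt (fun r => conj (Y1 r)) R := (cc _).comp (f := Y1) (x := R) cY1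
  constructor
  · refine bc_zero (X := fun r => X r + conj (Y r)) hd0 (cX.add cYc) (C := C) fun d h1 h2 => ?_
    obtain ⟨a1, -, a3, -⟩ := hX d h1 h2
    have a3' : Tendsto (fun j => g j (R + d)) 𝓤 (𝓝 (conj (Y (R + d)))) := by
      have := (Complex.continuous_conj.tendsto _).comp a3
      refine this.congr fun j => ?_
      simp
    refine le_of_tendsto (a1.add a3').norm ?_
    filter_upwards [hb d h1 h2] with j hj using hj.1
  · refine bc_zero (X := fun r => X1 r - conj (Y1 r) - (l : ℂ) / (R : ℂ) * (X r - conj (Y r))) hd0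
      ((cX1.sub cY1c).sub (continuousAt_const.mul (cX.sub cYc))) (C := C) fun d h1 h2 => ?_
    obtain ⟨a1, a2, a3, a4⟩ := hX d h1 h2
    have a3' : Tendsto (fun j => g j (R + d)) 𝓤 (𝓝 (conj (Y (R + d)))) := by
      have := (Complex.continuous_conj.tendsto _).comp a3
      refine this.congr fun j => ?_
      simp
    have a4' : Tendsto (fun j => g1 j (R + d)) 𝓤 (𝓝 (conj (Y1 (R + d)))) := by
      have := (Complex.continuous_conj.tendsto _).comp a4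
      refine this.congr fun j => ?_
      simp
    refine le_of_tendsto ((a2.sub a4').sub ((a1.sub a3').const_mul _)).norm ?_
    filter_upwards [hb d h1 h2] with j hj using hj.2

end

end Crest.Agent.R086.C4Asm
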