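import Crest.Agent.R086.CCore4

/-!
Row 86 (S0114), Part C, C-core: the integrated virial identity (*) of note 12450.
-/

set_option autoImplicit false

open Complex ComplexConjugate MeasureTheory Set Filter Topology

namespace Crest.Agent.R086.CCore

namespace SysOn

variable {w b P rho b' P' : ℝ → ℝ} {kap n eps : ℝ} {lam : ℂ} {S S1 D D1 sS sD : ℝ → ℂ} {R : ℝ}

/-- boundary functional of the virial identity -/
noncomputable def Vir (w P m : ℝ → ℝ) (kap n nu : ℝ) (S S1 D D1 : ℝ → ℂ) (r : ℝ) : ℝ :=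
  m r * w r * (‖S1 r‖ ^ 2 + ‖D1 r‖ ^ 2)
        - kap * (m r * w r / r ^ 2) * (‖S r‖ ^ 2 + ‖D r‖ ^ 2)
        - n * (m r * w r * P r) * ‖S r‖ ^ 2
        - 2 * nu * (m r * w r) * (D r * conj (S r)).re

/-- `X = ∫ m w (D conj S' + S conj D')` -/
noncomputable def XX (w m : ℝ → ℝ) (S S1 D D1 : ℝ → ℂ) (R : ℝ) : ℂ :=
  ∫ r in (0)..R, ((m r * w r : ℝ) : ℂ) * (D r * conj (S1 r) + S r * conj (D1 r))

/-- **(*)**, the virial identity with the multiplier `m`, `(m w)' = 12 w`, plus `6 (E1 + E2)`. -/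
theorem star (h : SysOn w b P rho b' P' kap n eps lam S S1 D D1 sS sD R)
    {m m' : ℝ → ℝ} (hm : ∀ r ∈ Ioc 0 R, HasDerivAt m (m' r) r)
    (hm' : ContinuousOn m' (Ioc 0 R)) (hmb : ∃ C, ∀ r ∈ Ioc 0 R, |m r| ≤ C * r ∧ |m' r| ≤ C)
    (h12 : ∀ r ∈ Ioc 0 R, m' r + m r * (11 / r + 2 * rho r) = 12) :
    (∫ r in (0)..R, w r * m' r * (‖S1 r‖ ^ 2 + ‖D1 r‖ ^ 2))
      + (∫ r in (0)..R, kap * (w r * m r / r ^ 3) * (‖S r‖ ^ 2 + ‖D r‖ ^ 2))
      + (∫ r in (0)..R, n * (-P' r) * (m r * w r) * ‖S r‖ ^ 2) / 2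
    = 6 * w R * (conj (S R) * S1 R + conj (D R) * D1 R).re
      + Vir w P m kap n lam.im S S1 D D1 R / 2
      - 6 * (AA w b S D1 R + AA w b D S1 R).im
      - lam.re * (XX w m S S1 D D1 R).im
      - 6 * ((Nc w S sD R).im + (Nc w D sS R).im)
      - (∫ r in (0)..R, (((m r * w r : ℝ) : ℂ) * (sD r * conj (S1 r) + sS r * conj (D1 r)))).im := by
  have hR := h.Rpos
  have bm' : BC R m' := by
    obtain ⟨C, hC⟩ := hmb
    exact ⟨hm', C, fun r hr => (hC r hr).2⟩
  have cm : ContinuousOn m (Ioc 0 R) := fun r hr => (hm r hr).continuousAt.continuousWithinAt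
  have bm : BC R m := by
    obtain ⟨C, hC⟩ := hmb
    refine ⟨cm, |C| * R, fun r hr => ?_⟩
    calc ‖m r‖ ≤ C * r := (hC r hr).1
      _ ≤ |C| * r := mul_le_mul_of_nonneg_right (le_abs_self C) hr.1.le
      _ ≤ |C| * R := mul_le_mul_of_nonneg_left hr.2 (abs_nonneg C)
  have bmr : BC R (fun r => w r * m r / r ^ 3) := by
    have := (h.bcwj 3 (by norm_num)).mulR bm
    have e : (fun r => w r * m r / r ^ 3) = fun r => w r / r ^ 3 * m r := by
      funext r; ring
    rw [e]; exact this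
  -- the integrands
  have b1 : BC R (fun r => w r * m' r * (‖S1 r‖ ^ 2 + ‖D1 r‖ ^ 2)) :=
    (h.bcw.mulR bm').mulR (h.bcS1.normSq.add h.bcD1.normSq)
  have b1' : BC R (fun r => w r * (‖S1 r‖ ^ 2 + kap / r ^ 2 * ‖S r‖ ^ 2)) :=
    bcK h.bcw (h.bcwj 2 (by norm_num)) h.bcS h.bcS1 kap
  have b1'' : BC R (fun r => w r * (‖D1 r‖ ^ 2 + kap / r ^ 2 * ‖D r‖ ^ 2)) :=
    bcK h.bcw (h.bcwj 2 (by norm_num)) h.bcD h.bcD1 kap
  have b2 : BC R (fun r => kap * (w r * m r / r ^ 3) * (‖S r‖ ^ 2 + ‖D r‖ ^ 2)) :=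
    ((BC.const kap).mulR bmr).mulR (h.bcS.normSq.add h.bcD.normSq)
  have b3 : BC R (fun r => n * (-P' r) * (m r * w r) * ‖S r‖ ^ 2) := by
    have hn : BC R (fun r => -P' r) := by
      have := (BC.const (0 : ℝ) (R := R)).sub h.bcP'
      simpa using this
    exact (((BC.const n).mulR hn).mulR (bm.mulR h.bcw)).mulR h.bcS.normSq
  have bP : BC R (fun r => n * P r * w r * ‖S r‖ ^ 2) :=
    (((BC.const n).mulR h.bcP).mulR h.bcw).mulR h.bcS.normSq
  have b4 : BC R (fun r => ((w r : ℂ) * (conj (S r) * D r)).re) :=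
    (h.bcw.ofReal.mulC (h.bcS.cj.mulC h.bcD)).re
  have b5c : BC R (fun r => ((m r * w r : ℝ) : ℂ) * (D r * conj (S1 r) + S r * conj (D1 r))) :=
    (bm.mulR h.bcw).ofReal.mulC ((h.bcD.mulC h.bcS1.cj).add (h.bcS.mulC h.bcD1.cj))
  have b6c : BC R (fun r => ((m r * w r : ℝ) : ℂ) * (sD r * conj (S1 r) + sS r * conj (D1 r))) :=
    (bm.mulR h.bcw).ofReal.mulC ((h.bcsD.mulC h.bcS1.cj).add (h.bcsS.mulC h.bcD1.cj))
  -- the derivative of `Vir`
  let f' : ℝ → ℝ := fun r =>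
    2 * (w r * m' r * (‖S1 r‖ ^ 2 + ‖D1 r‖ ^ 2))
    + 2 * (kap * (w r * m r / r ^ 3) * (‖S r‖ ^ 2 + ‖D r‖ ^ 2))
    - 12 * (w r * (‖S1 r‖ ^ 2 + kap / r ^ 2 * ‖S r‖ ^ 2))
    - 12 * (w r * (‖D1 r‖ ^ 2 + kap / r ^ 2 * ‖D r‖ ^ 2))
    - 12 * (n * P r * w r * ‖S r‖ ^ 2)
    + n * (-P' r) * (m r * w r) * ‖S r‖ ^ 2
    - 24 * lam.im * ((w r : ℂ) * (conj (S r) * D r)).re
    + 2 * lam.re * (((m r * w r : ℝ) : ℂ) * (D r * conj (S1 r) + S r * conj (D1 r))).im
    + 2 * (((m r * w r : ℝ) : ℂ) * (sD r * conj (S1 r) + sS r * conj (D1 r))).im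
  have c2 := fun (c : ℝ) => (BC.const c (R := R))
  have d1 := (c2 2).mulR b1
  have d2 := (c2 2).mulR b2
  have d3 := (c2 12).mulR b1'
  have d4 := (c2 12).mulR b1''
  have d5 := (c2 12).mulR bP
  have d7 := (c2 (24 * lam.im)).mulR b4
  have d8 := (c2 (2 * lam.re)).mulR b5c.im
  have d9 := (c2 2).mulR b6c.im
  have bf' : BC R f' := ((((((((d1.add d2).sub d3).sub d4).sub d5).add b3).sub d7).add d8).add d9)
  have hd : ∀ r ∈ Ioc 0 R, HasDerivAt (Vir w P m kap n lam.im S S1 D D1) (f' r) r := by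
    intro r hr
    refine ((h.sys r hr).virial (hm r hr) (h.hP r hr)).congr_deriv ?_
    have hr0 : r ≠ 0 := hr.1.ne'
    have e12 := h12 r hr
    have e1 : m r * (11 / r + 2 * rho r) = 12 - m' r := by linarith
    have e2 : m r * (11 / r + 2 * rho r) / r ^ 2 = (12 - m' r) / r ^ 2 := by rw [e1]
    have e3 : m r * (11 / r + 2 * rho r) * P r = (12 - m' r) * P r := by rw [e1]
    rw [e2, e3, e1]
    simp only [f', Complex.im_ofReal_mul, Complex.re_ofReal_mul]
    have e4 : (conj (S r) * D r).re = (D r * conj (S r)).re := by rw [mul_comm]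
    rw [e4]
    field_simp
    ring
  have h0 : Tendsto (Vir w P m kap n lam.im S S1 D D1) (𝓝[>] 0) (𝓝 0) := by
    have w0 := h.w0
    have hw1 : Tendsto (fun r => m r * w r / r ^ 2) (𝓝[>] 0) (𝓝 0) := by
      have hr0 : Tendsto (fun r : ℝ => r) (𝓝[>] 0) (𝓝 0) := nhdsWithin_le_nhds
      have h3 := BC.tendsto_zero_mulR hR bmr hr0
      refine h3.congr' ?_
      filter_upwards [self_mem_nhdsWithin] with r hr
      have hr0 : r ≠ 0 := (mem_Ioi.1 hr).ne'
      field_simp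
    have t1 := BC.tendsto_zero_mulR hR (bm.mulR (h.bcS1.normSq.add h.bcD1.normSq)) w0
    have t2 := BC.tendsto_zero_mulR hR ((BC.const kap).mulR (h.bcS.normSq.add h.bcD.normSq)) hw1
    have t3 := BC.tendsto_zero_mulR hR (((BC.const n).mulR (bm.mulR h.bcP)).mulR h.bcS.normSq) w0
    have t4 := BC.tendsto_zero_mulR hR (((BC.const (2 * lam.im)).mulR bm).mulR
      (h.bcD.mulC h.bcS.cj).re) w0
    have t := ((t1.sub t2).sub t3).sub t4
    simp only [sub_zero] at t
    refine t.congr fun r => ?_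
    unfold Vir
    ring
  have key := ftc0 hR hd bf' h0
  have hI : ∫ r in (0)..R, f' r =
      2 * (∫ r in (0)..R, w r * m' r * (‖S1 r‖ ^ 2 + ‖D1 r‖ ^ 2))
      + 2 * (∫ r in (0)..R, kap * (w r * m r / r ^ 3) * (‖S r‖ ^ 2 + ‖D r‖ ^ 2))
      - 12 * KK w kap S S1 R - 12 * KK w kap D D1 R - 12 * Pot w P n S R
      + (∫ r in (0)..R, n * (-P' r) * (m r * w r) * ‖S r‖ ^ 2)
      - 24 * lam.im * (Nc w S D R).re
      + 2 * lam.re * (XX w m S S1 D D1 R).im
      + 2 * (∫ r in (0)..R, (((m r * w r : ℝ) : ℂ)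
          * (sD r * conj (S1 r) + sS r * conj (D1 r)))).im := by
    have hre : ∀ {f : ℝ → ℂ}, BC R f → ∫ r in (0)..R, (f r).re = (∫ r in (0)..R, f r).re :=
      fun hf => Complex.reCLM.intervalIntegral_comp_comm (hf.intble hR)
    have him : ∀ {f : ℝ → ℂ}, BC R f → ∫ r in (0)..R, (f r).im = (∫ r in (0)..R, f r).im :=
      fun hf => Complex.imCLM.intervalIntegral_comp_comm (hf.intble hR)
    simp only [f']
    rw [intervalIntegral.integral_add
        ((((((((d1.add d2).sub d3).sub d4).sub d5).add b3).sub d7).add d8).intble hR)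
        (d9.intble hR),
      intervalIntegral.integral_add
        (((((((d1.add d2).sub d3).sub d4).sub d5).add b3).sub d7).intble hR) (d8.intble hR),
      intervalIntegral.integral_sub
        ((((((d1.add d2).sub d3).sub d4).sub d5).add b3).intble hR) (d7.intble hR),
      intervalIntegral.integral_add
        (((((d1.add d2).sub d3).sub d4).sub d5).intble hR) (b3.intble hR),
      intervalIntegral.integral_sub ((((d1.add d2).sub d3).sub d4).intble hR) (d5.intble hR),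
      intervalIntegral.integral_sub (((d1.add d2).sub d3).intble hR) (d4.intble hR),
      intervalIntegral.integral_sub ((d1.add d2).intble hR) (d3.intble hR),
      intervalIntegral.integral_add (d1.intble hR) (d2.intble hR)]
    simp only [intervalIntegral.integral_const_mul]
    rw [hre (h.bcw.ofReal.mulC (h.bcS.cj.mulC h.bcD)), him b5c, him b6c]
    rfl
  rw [hI] at key
  have e1 := h.E1re
  have e2 := h.E2re
  have e3 : (lam * Nc w S D R).im + (lam * Nc w D S R).im = 2 * lam.im * (Nc w S D R).re := by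
    rw [← conj_Nc w S D R]
    simp only [Complex.mul_im, Complex.conj_re, Complex.conj_im]
    ring
  rw [Complex.add_re, Complex.add_im]
  linarith

/-- `Im X = Im ([m w conj S D] - 12 Nc - 2 ∫ m w conj S D')` when `(m w)' = 12 w` -/
theorem im_X (h : SysOn w b P rho b' P' kap n eps lam S S1 D D1 sS sD R)
    {m m' : ℝ → ℝ} (hm : ∀ r ∈ Ioc 0 R, HasDerivAt m (m' r) r)
    (hmb : ∃ C, ∀ r ∈ Ioc 0 R, |m r| ≤ C * r)
    (h12 : ∀ r ∈ Ioc 0 R, m' r + m r * (11 / r + 2 * rho r) = 12) :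
    (XX w m S S1 D D1 R).im = (((m R * w R : ℝ) : ℂ) * (conj (S R) * D R)
      - 12 * Nc w S D R
      - 2 * ∫ r in (0)..R, ((m r * w r : ℝ) : ℂ) * (conj (S r) * D1 r)).im := by
  have hR := h.Rpos
  have cm : ContinuousOn m (Ioc 0 R) := fun r hr => (hm r hr).continuousAt.continuousWithinAt
  have bm : BC R m := by
    obtain ⟨C, hC⟩ := hmb
    refine ⟨cm, |C| * R, fun r hr => ?_⟩
    calc ‖m r‖ ≤ C * r := hC r hr
      _ ≤ |C| * r := mul_le_mul_of_nonneg_right (le_abs_self C) hr.1.le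
      _ ≤ |C| * R := mul_le_mul_of_nonneg_left hr.2 (abs_nonneg C)
  have bN : BC R (fun r => (w r : ℂ) * (conj (S r) * D r)) :=
    h.bcw.ofReal.mulC (h.bcS.cj.mulC h.bcD)
  have bY : BC R (fun r => ((m r * w r : ℝ) : ℂ) * (conj (S r) * D1 r)) :=
    (bm.mulR h.bcw).ofReal.mulC (h.bcS.cj.mulC h.bcD1)
  have bZ : BC R (fun r => ((m r * w r : ℝ) : ℂ) * (D r * conj (S1 r))) :=
    (bm.mulR h.bcw).ofReal.mulC (h.bcD.mulC h.bcS1.cj)
  have bY2 : BC R (fun r => ((m r * w r : ℝ) : ℂ) * (S r * conj (D1 r))) :=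
    (bm.mulR h.bcw).ofReal.mulC (h.bcS.mulC h.bcD1.cj)
  have key := ftc0 (f := fun r => (w r : ℂ) * ((m r : ℂ) * (conj (S r) * D r)))
    (f' := fun r => 12 * ((w r : ℂ) * (conj (S r) * D r))
      + (((m r * w r : ℝ) : ℂ) * (conj (S r) * D1 r)
        + ((m r * w r : ℝ) : ℂ) * (D r * conj (S1 r)))) hR
    (fun r hr => by
      have h1 := (h.sys r hr).hw.ofReal_comp.mul ((hm r hr).ofReal_comp.mul
        ((hasDerivAt_conj (h.sys r hr).hS).mul (h.sys r hr).hD))
      refine h1.congr_deriv ?_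
      have e12 : ((m' r + m r * (11 / r + 2 * rho r) : ℝ) : ℂ) = 12 := by
        rw [h12 r hr]; norm_num
      simp only [Pi.mul_apply]
      push_cast at e12 ⊢
      linear_combination (w r : ℂ) * (conj (S r) * D r) * e12)
    (((BC.const (12 : ℂ)).mulC bN).add (bY.add bZ))
    (h.w0C (bm.ofReal.mulC (h.bcS.cj.mulC h.bcD)))
  have hI := key
  rw [intervalIntegral.integral_add (((BC.const (12 : ℂ)).mulC bN).intble hR)
      ((bY.add bZ).intble hR), intervalIntegral.integral_const_mul,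
    intervalIntegral.integral_add (bY.intble hR) (bZ.intble hR)] at hI
  have hX : XX w m S S1 D D1 R = (∫ r in (0)..R, ((m r * w r : ℝ) : ℂ) * (D r * conj (S1 r)))
      + conj (∫ r in (0)..R, ((m r * w r : ℝ) : ℂ) * (conj (S r) * D1 r)) := by
    rw [conj_intervalIntegral, ← intervalIntegral.integral_add (bZ.intble hR)]
    · unfold XX
      congr 1
      funext r
      simp only [map_mul, Complex.conj_ofReal, Complex.conj_conj]
      ring
    · have := bY.cj.intble hR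
      exact this
  have hN : (∫ r in (0)..R, (w r : ℂ) * (conj (S r) * D r)) = Nc w S D R := rfl
  rw [hN] at hI
  have h5 := congrArg Complex.im hI
  rw [hX]
  have e : (((m R * w R : ℝ) : ℂ) * (conj (S R) * D R)) =
      (w R : ℂ) * ((m R : ℂ) * (conj (S R) * D R)) := by
    push_cast; ring
  rw [e]
  simp only [Complex.add_im, Complex.sub_im, Complex.conj_im, Complex.mul_im (12 : ℂ),
    Complex.mul_im (2 : ℂ)] at h5 ⊢
  norm_num at h5 ⊢
  linarith

end SysOn

end Crest.Agent.R086.CCore
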