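import Crest.Agent.R086.CExDefs
import Crest.Agent.R086.CCore5

/-!
Row 86 (S0114), Part C: the integrated identities of `CExDefs` (`CEx.IdStmt`), from `CCore4/5`
(helper310).
-/

set_option autoImplicit false

open Complex ComplexConjugate MeasureTheory Set Filter Topology

namespace Crest.Agent.R086.CEx

open CCore

variable {w b P P1 rho m : ℝ → ℝ} {C0 e n rb Lam eps : ℝ} {lam : ℂ} {S S1 D D1 : ℝ → ℂ}

/-- derivative of `b` -/
theorem hb_of {r : ℝ} {kap : ℝ} {sS sD : ℂ}
    (h : Sys w b P rho kap n eps lam S S1 D D1 sS sD r) :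
    HasDerivAt b ((6 - 2 * eps) - b r * (11 / r + 2 * rho r)) r := by
  have h2 := h.hwb.div h.hw h.wne
  have hev : b =ᶠ[nhds r] (fun r => w r * b r) / w := by
    have hne : ∀ᶠ x in nhds r, w x ≠ 0 := h.hw.continuousAt.eventually_ne h.wne
    filter_upwards [hne] with x hx
    simp only [Pi.div_apply]
    rw [mul_comm, mul_div_assoc, div_self hx, mul_one]
  refine (h2.congr_of_eventuallyEq hev).congr_deriv ?_
  have := h.wne
  field_simp

theorem cont_of_mul {w : ℝ → ℝ} {f : ℝ → ℂ} {s : Set ℝ} (hw : ContinuousOn w s)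
    (h0 : ∀ r ∈ s, w r ≠ 0) (h : ContinuousOn (fun r => (w r : ℂ) * f r) s) :
    ContinuousOn f s := by
  have h1 : ContinuousOn (fun r => (w r : ℂ) * f r / (w r : ℂ)) s :=
    h.div (Complex.continuous_ofReal.comp_continuousOn hw)
      (fun r hr => by exact_mod_cast h0 r hr)
  refine h1.congr fun r hr => ?_
  have : (w r : ℂ) ≠ 0 := by exact_mod_cast h0 r hr
  field_simp

/-- `SysOn` from `Coef` and `Sol`. -/
theorem sysOn (hc : Coef w b P P1 rho m C0 e n rb) (hs : Sol w b P rho Lam n eps lam S S1 D D1 rb) :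
    SysOn w b P rho (fun r => (6 - 2 * eps) - b r * (11 / r + 2 * rho r)) P1 Lam n eps lam
      S S1 D D1 (fun _ => 0) (fun _ => 0) rb where
  Rpos := lt_of_lt_of_le one_pos hc.rb_lo
  sys := hs.sys
  hb := fun r hr => hb_of (hs.sys r hr)
  hP := hc.P_der
  cb' := by
    have h1 : ContinuousOn (fun r : ℝ => 11 / r) (Ioc 0 rb) :=
      continuousOn_const.div continuousOn_id (fun r hr => hr.1.ne')
    exact continuousOn_const.sub (hc.bcont.mul (h1.add (continuousOn_const.mul hc.rhocont)))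
  cP' := hc.P1_cont
  crho := hc.rhocont
  csS := continuousOn_const
  csD := continuousOn_const
  cS1 := cont_of_mul hc.wcont (fun r hr => (hs.sys r hr).wne)
    (fun r hr => (hs.sys r hr).hS1.continuousAt.continuousWithinAt)
  cD1 := cont_of_mul hc.wcont (fun r hr => (hs.sys r hr).wne)
    (fun r hr => (hs.sys r hr).hD1.continuousAt.continuousWithinAt)
  bdd := by
    obtain ⟨B, hB⟩ := hs.bdd
    obtain ⟨B1, hB1⟩ := hc.P1_bd
    have C0p : 0 ≤ C0 := le_trans zero_le_one hc.C0_one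
    refine ⟨|B| + |B1| + C0 + C0 * C0 + (8 + C0 * (11 + 2 * C0 * C0)), fun r hr => ?_⟩
    obtain ⟨h1, h2, h3, h4, -⟩ := hB r hr
    have hr0 := hr.1
    have hrC : r ≤ C0 := hr.2.trans hc.rb_hi
    have pB := le_abs_self B
    have pB1 := le_abs_self B1
    have nB := abs_nonneg B
    have nB1 := abs_nonneg B1
    have q1 : 0 ≤ C0 * C0 := mul_nonneg C0p C0p
    have q2 : 0 ≤ C0 * (11 + 2 * C0 * C0) := by positivity
    have bb : |b r| ≤ C0 * C0 := (hc.bhi r hr).trans (mul_le_mul_of_nonneg_left hrC C0p)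
    refine ⟨by linarith, by linarith, by linarith, by linarith, ?_, by linarith, ?_, ?_, ?_, ?_,
      ?_, ?_⟩
    · have h5 := hc.whi r hr
      have h6 := hc.wlo r hr
      have h7 : 0 ≤ w r := le_trans (by positivity) h6
      rw [abs_of_nonneg h7]
      refine h5.trans (mul_le_mul_of_nonneg_right (by linarith) (by positivity))
    · rw [abs_of_nonneg (hc.P_nonneg r hr)]
      have := hc.P_le r hr
      linarith
    · have e1 : b r * (11 / r + 2 * rho r) = 11 * (b r / r) + 2 * (b r * rho r) := by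
        field_simp
      have e2 : |b r / r| ≤ C0 := by
        rw [abs_div, abs_of_pos hr0, div_le_iff₀ hr0]
        exact hc.bhi r hr
      have e3 : |b r * rho r| ≤ C0 * C0 * C0 := by
        rw [abs_mul]
        exact mul_le_mul bb (hc.rhohi r hr) (abs_nonneg _) q1
      have e4 : |(6 - 2 * eps) - b r * (11 / r + 2 * rho r)| ≤ 6 + 11 * C0 + 2 * (C0 * C0 * C0) := by
        rw [e1]
        have e5 := abs_le.1 e2
        have e6 := abs_le.1 e3
        have e7 := hs.eps_nonneg
        have e8 := hs.eps_le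
        rw [abs_le]
        constructor <;> linarith [e5.1, e5.2, e6.1, e6.2]
      have e9 : C0 * (11 + 2 * C0 * C0) = 11 * C0 + 2 * (C0 * C0 * C0) := by ring
      rw [e9] at q2 ⊢
      linarith
    · have := hB1 r hr
      linarith
    · have := hc.rhohi r hr
      linarith
    · simp only [norm_zero]
      linarith
    · simp only [norm_zero]
      linarith

theorem Nc_zero_right (w : ℝ → ℝ) (S : ℝ → ℂ) (R : ℝ) :
    CCore.Nc w S (fun _ => 0) R = 0 := by
  unfold CCore.Nc
  simp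

theorem AA_eq (w b : ℝ → ℝ) (f g : ℝ → ℂ) (R : ℝ) : AA w b f g R = CCore.AA w b f g R := by
  unfold AA CCore.AA
  congr 1
  funext r
  push_cast
  ring

/-- the frozen statement `IdStmt` -/
theorem idStmt : IdStmt := by
  intro w b P P1 rho m C0 e n rb Lam eps lam S S1 D D1 hc hs
  have h := sysOn hc hs
  have hR := h.Rpos
  have C0p : 0 ≤ C0 := le_trans zero_le_one hc.C0_one
  have e1 := h.E1re
  have e2 := h.E2re
  have eT := h.T
  have eC := h.charge
  have cm' : ContinuousOn (fun r => 12 - m r * (11 / r + 2 * rho r)) (Ioc 0 rb) := by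
    have h1 : ContinuousOn (fun r : ℝ => 11 / r) (Ioc 0 rb) :=
      continuousOn_const.div continuousOn_id (fun r hr => hr.1.ne')
    have cm : ContinuousOn m (Ioc 0 rb) := fun r hr =>
      (hc.m_der r hr).continuousAt.continuousWithinAt
    exact continuousOn_const.sub (cm.mul (h1.add (continuousOn_const.mul hc.rhocont)))
  have hmb : ∀ r ∈ Ioc 0 rb, |m r| ≤ C0 * r := fun r hr => by
    have h1 := hc.m_lo r hr
    have h2 : 0 ≤ m r := le_trans (div_nonneg hr.1.le C0p) h1
    rw [abs_of_nonneg h2]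
    exact hc.m_hi r hr
  have hm'b : ∀ r ∈ Ioc 0 rb, |12 - m r * (11 / r + 2 * rho r)| ≤ C0 := fun r hr => by
    have h1 := hc.m1_lo r hr
    have h2 : 0 ≤ 12 - m r * (11 / r + 2 * rho r) := le_trans (by positivity) h1
    rw [abs_of_nonneg h2]
    exact hc.m1_hi r hr
  have h12 : ∀ r ∈ Ioc 0 rb,
      (12 - m r * (11 / r + 2 * rho r)) + m r * (11 / r + 2 * rho r) = 12 := fun r _ => by ring
  have eS := h.star hc.m_der cm' ⟨C0, fun r hr => ⟨hmb r hr, hm'b r hr⟩⟩ h12
  have eX := h.im_X hc.m_der ⟨C0, hmb⟩ h12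
  simp only [Nc_zero_right, Complex.zero_im, Complex.zero_re, sub_zero] at e1 e2 eC eS
  have cj := SysOn.conj_Nc w S D rb
  rw [← cj] at e2
  simp only [AA_eq]
  refine ⟨e1, e2, ?_, ?_, ?_, ?_⟩
  · rw [show CCore.Nc w S D rb = Nc w S D rb from rfl] at eT
    rw [eT]
    push_cast
    ring
  · rw [show CCore.Nc w S D rb = Nc w S D rb from rfl] at eC
    rw [eC]
    ring
  · -- virial
    have bw := h.bcw
    have bm : BC rb m := by
      refine ⟨fun r hr => (hc.m_der r hr).continuousAt.continuousWithinAt, C0 * rb,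
        fun r hr => (hmb r hr).trans (mul_le_mul_of_nonneg_left hr.2 C0p)⟩
    have bm' : BC rb (fun r => 12 - m r * (11 / r + 2 * rho r)) := ⟨cm', C0, hm'b⟩
    have b1 : BC rb (fun r => w r * (12 - m r * (11 / r + 2 * rho r)) *
        (‖S1 r‖ ^ 2 + ‖D1 r‖ ^ 2)) :=
      (h.bcw.mulR bm').mulR (h.bcS1.normSq.add h.bcD1.normSq)
    have bmr : BC rb (fun r => w r * m r / r ^ 3) := by
      have := (h.bcwj 3 (by norm_num)).mulR bm
      have e : (fun r => w r * m r / r ^ 3) = fun r => w r / r ^ 3 * m r := by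
        funext r; ring
      rw [e]; exact this
    have b2 : BC rb (fun r => Lam * (w r * m r / r ^ 3) * (‖S r‖ ^ 2 + ‖D r‖ ^ 2)) :=
      ((BC.const Lam).mulR bmr).mulR (h.bcS.normSq.add h.bcD.normSq)
    have i1 : (∫ r in (0 : ℝ)..rb, w r * ((12 - m r * (11 / r + 2 * rho r)) *
        (‖S1 r‖ ^ 2 + ‖D1 r‖ ^ 2) + Lam * (m r / r) / r ^ 2 * (‖S r‖ ^ 2 + ‖D r‖ ^ 2))) =
        (∫ r in (0)..rb, w r * (12 - m r * (11 / r + 2 * rho r)) * (‖S1 r‖ ^ 2 + ‖D1 r‖ ^ 2))
        + (∫ r in (0)..rb, Lam * (w r * m r / r ^ 3) * (‖S r‖ ^ 2 + ‖D r‖ ^ 2)) := by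
      rw [← intervalIntegral.integral_add (b1.intble hR) (b2.intble hR)]
      congr 1
      funext r
      rcases eq_or_ne r 0 with rfl | hr
      · simp
        ring
      · field_simp
    have i2 : (∫ r in (0)..rb, n * (-P1 r) * (m r * w r) * ‖S r‖ ^ 2) =
        - ∫ r in (0 : ℝ)..rb, n * P1 r * (m r * w r) * ‖S r‖ ^ 2 := by
      rw [← intervalIntegral.integral_neg]
      congr 1
      funext r
      ring
    have z0 : (∫ r in (0)..rb, (((m r * w r : ℝ) : ℂ) * ((0 : ℂ) * conj (S1 r) +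
        (0 : ℂ) * conj (D1 r)))).im = 0 := by
      simp
    rw [z0] at eS
    unfold Vir Vb Xm
    unfold SysOn.Vir SysOn.XX at eS
    rw [i1]
    rw [i2] at eS
    linarith
  · -- X
    have i3 : (∫ r in (0 : ℝ)..rb, ((m r * w r : ℝ) : ℂ) * (S r * conj (D1 r))) =
        conj (∫ r in (0 : ℝ)..rb, ((m r * w r : ℝ) : ℂ) * (conj (S r) * D1 r)) := by
      rw [SysOn.conj_intervalIntegral]
      congr 1
      funext r
      simp only [map_mul, Complex.conj_ofReal, Complex.conj_conj]
    rw [i3, Complex.conj_im]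
    unfold Xm
    unfold SysOn.XX at eX
    rw [eX]
    have i4 : (((m rb * w rb : ℝ) : ℂ) * (conj (S rb) * D rb)).im =
        m rb * w rb * (conj (S rb) * D rb).im := Complex.im_ofReal_mul _ _
    have i5 : (12 * CCore.Nc w S D rb).im = 12 * (Nc w S D rb).im := by
      rw [show (12 : ℂ) = ((12 : ℝ) : ℂ) by norm_num, Complex.im_ofReal_mul]
      rfl
    have i6 : (2 * ∫ r in (0)..rb, ((m r * w r : ℝ) : ℂ) * (conj (S r) * D1 r)).im =
        2 * (∫ r in (0)..rb, ((m r * w r : ℝ) : ℂ) * (conj (S r) * D1 r)).im := by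
      rw [show (2 : ℂ) = ((2 : ℝ) : ℂ) by norm_num, Complex.im_ofReal_mul]
    rw [Complex.sub_im, Complex.sub_im, i4, i5, i6]
    ring

end Crest.Agent.R086.CEx
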