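import Crest.Agent.R086.BCIface
import Crest.Agent.R086.ABIface

/-!
Row 86, PART C: frozen node statements R0..R4 and the target (captain helper777).
`CTop.lean` proves `R0Stmt → R1Stmt → R2Stmt → R3Stmt → R4Stmt → PartC`.
-/

set_option autoImplicit false

open MeasureTheory Complex Set Filter Topology
open scoped ContDiff

namespace Crest.Agent.R086

namespace Profile
variable {n : ℕ} (P : Profile n)

/-- regularity and normalisation of a mode pair (hypotheses of `ModeGood`) -/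
structure Mode (N l : ℕ) (H : R12 → ℝ) (F G : ℝ → ℂ) : Prop where
  harm : SHarm l H
  norm : (∫ w : S11, (H w) ^ 2 ∂sig) = 1
  cF : ContDiff ℝ N F
  cG : ContDiff ℝ N G
  pF : ∀ r, F (-r) = (-1) ^ l * F r
  pG : ∀ r, G (-r) = (-1) ^ l * G r
  xF : InX N (modeFn H F)
  xG : InX N (modeFn H G)

/-- the symmetry modes of degree `l` with eigenvalue `ls`: `(e1, e2)` -/
def Src (l : ℕ) (ls : ℂ) (e1 e2 : ℝ → ℂ) : Prop :=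
  (l = 0 ∧ ls = 0 ∧ (∀ r, e1 r = I * P.q r) ∧ (∀ r, e2 r = starRingEnd ℂ (I * P.q r))) ∨
  (l = 0 ∧ ls = 1 ∧ (∀ r, e1 r = P.rtime r) ∧ (∀ r, e2 r = starRingEnd ℂ (P.rtime r))) ∨
  (l = 1 ∧ ls = 1 / 2 ∧ (∀ r, e1 r = deriv P.q r) ∧ (∀ r, e2 r = starRingEnd ℂ (deriv P.q r)))

/-- exact (source-free) eigenpair of degree `l` -/
structure Eig (lam : ℂ) (l : ℕ) (H : R12 → ℝ) (F G : ℝ → ℂ) : Prop where
  mode : Mode N0 l H F G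
  eq1 : ∀ r, 0 < r → P.rgen1 l F G r = lam * F r
  eq2 : ∀ r, 0 < r → P.rgen2 l F G r = lam * G r

/-- eigenpair with source `al * (e1, e2)`; either `al = 0` or `(e1,e2)` is a symmetry mode with eigenvalue `lam` -/
structure EigS (lam : ℂ) (l : ℕ) (H : R12 → ℝ) (F G : ℝ → ℂ) (al : ℂ) (e1 e2 : ℝ → ℂ) : Prop where
  mode : Mode N0 l H F G
  src : al = 0 ∨ P.Src l lam e1 e2
  eq1 : ∀ r, 0 < r → P.rgen1 l F G r - lam * F r = al * e1 r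
  eq2 : ∀ r, 0 < r → P.rgen2 l F G r - lam * G r = al * e2 r

end Profile

/-- the pair does not vanish identically on `r > 0` -/
def NZ (F G : ℝ → ℂ) : Prop := ∃ r : ℝ, 0 < r ∧ (F r ≠ 0 ∨ G r ≠ 0)

/-- R0 (helper362): `Re lam ≤ C'` -/
def R0Stmt : Prop :=
  ∀ (om0 R : ℝ) (U : ℝ → ℂ), LimitProfile om0 R U → ∀ B : BData om0 R U, ∃ C' : ℝ,
    ∀ᶠ j in atTop, ∀ (lam : ℂ) (l : ℕ) (H : R12 → ℝ) (F G : ℝ → ℂ),
      (B.P j).Eig lam l H F G → 0 ≤ lam.re → NZ F G → lam.re ≤ C'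

/-- R1 (helper590): `|lam| ≤ n^K` -/
def R1Stmt : Prop :=
  ∀ (om0 R : ℝ) (U : ℝ → ℂ), LimitProfile om0 R U → ∀ B : BData om0 R U, ∃ K : ℕ,
    ∀ᶠ j in atTop, ∀ (lam : ℂ) (l : ℕ) (H : R12 → ℝ) (F G : ℝ → ℂ),
      (B.P j).Eig lam l H F G → 0 ≤ lam.re → NZ F G → ‖lam‖ ≤ (B.nn j : ℝ) ^ K

/-- R2 (helper851): `l ≤ n^K2` -/
def R2Stmt : Prop :=
  ∀ (om0 R : ℝ) (U : ℝ → ℂ), LimitProfile om0 R U → ∀ B : BData om0 R U, ∀ K : ℕ, ∃ K2 : ℕ,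
    ∀ᶠ j in atTop, ∀ (lam : ℂ) (l : ℕ) (H : R12 → ℝ) (F G : ℝ → ℂ),
      (B.P j).Eig lam l H F G → 0 ≤ lam.re → NZ F G → ‖lam‖ ≤ (B.nn j : ℝ) ^ K →
      (l : ℝ) ≤ (B.nn j : ℝ) ^ K2

/-- R3 (helper153, with EXT 684 and DtN 480): `|lam| + l ≤ M0` -/
def R3Stmt : Prop :=
  ∀ (om0 R : ℝ) (U : ℝ → ℂ), LimitProfile om0 R U → ∀ B : BData om0 R U, ∀ (C' : ℝ) (K : ℕ),
    ∃ M0 : ℝ, ∀ᶠ j in atTop, ∀ (lam : ℂ) (l : ℕ) (H : R12 → ℝ) (F G : ℝ → ℂ),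
      (B.P j).Eig lam l H F G → 0 ≤ lam.re → NZ F G → lam.re ≤ C' → ‖lam‖ ≤ (B.nn j : ℝ) ^ K →
      (l : ℝ) ≤ (B.nn j : ℝ) ^ K → ‖lam‖ + l ≤ M0

/-- R4 (helper426): bounded `lam`, `l`, with source -/
def R4Stmt : Prop :=
  ∀ (D : A.AData) (U : ℝ → ℂ), LimitProfile D.om D.R U → ∀ B : BData D.om D.R U, ∀ M0 : ℝ,
    ∀ᶠ j in atTop, ∀ (lam : ℂ) (l : ℕ) (H : R12 → ℝ) (F G : ℝ → ℂ) (al : ℂ) (e1 e2 : ℝ → ℂ),
      0 ≤ lam.re → ‖lam‖ + l ≤ M0 → (B.P j).EigS lam l H F G al e1 e2 → (B.P j).InEr l F G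

/-- TARGET OF PART C -/
def PartC : Prop :=
  ∀ (D : A.AData) (U : ℝ → ℂ), LimitProfile D.om D.R U → ∀ B : BData D.om D.R U, B.CGood

end Crest.Agent.R086
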