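import Crest.Agent.R086.C4Defs

/-!
Row 86, Part C, node C4Fac (helper2): `LimitProfile + BData → C4Facts`.
-/

set_option autoImplicit false

open MeasureTheory Complex Set Filter Topology
open scoped ContDiff

namespace Crest.Agent.R086

namespace C4FactsMain

variable {om0 R : ℝ} {U : ℝ → ℂ}

theorem norm_U_le (L : LimitProfile om0 R U) (r : ℝ) : ‖U r‖ ≤ 1 := by
  rcases le_or_gt r R with h | h
  · rw [L.core r h]; simp
  · exact (L.lt_one r h).le

theorem continuous_deriv_U (L : LimitProfile om0 R U) : Continuous (deriv U) :=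
  L.c1.continuous_deriv (by norm_num)

theorem deriv_U_lt (L : LimitProfile om0 R U) {r : ℝ} (hr : r < R) : deriv U r = 0 := by
  have h : U =ᶠ[𝓝 r] fun _ => (1:ℂ) := by
    filter_upwards [Iio_mem_nhds hr] with t ht
    exact L.core t (le_of_lt ht)
  rw [h.deriv_eq]
  simp

theorem deriv_U_le (L : LimitProfile om0 R U) {r : ℝ} (hr : r ≤ R) : deriv U r = 0 := by
  rcases hr.eq_or_lt with h | h
  · subst h
    have h1 : Tendsto (deriv U) (𝓝[<] r) (𝓝 (deriv U r)) :=
      ((continuous_deriv_U L).tendsto r).mono_left nhdsWithin_le_nhds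
    have h2 : Tendsto (deriv U) (𝓝[<] r) (𝓝 0) := by
      refine tendsto_const_nhds.congr' ?_
      filter_upwards [self_mem_nhdsWithin] with t ht
      exact (deriv_U_lt L ht).symm
    exact tendsto_nhds_unique h1 h2
  · exact deriv_U_lt L h

theorem R_pos (L : LimitProfile om0 R U) : 3 < R := by linarith [L.R_lo]

theorem R_lt8 (L : LimitProfile om0 R U) : R < 8 := by linarith [L.R_hi]

/-- `|q'/q| ≤ C` -/
theorem quot_bdd (B : BData om0 R U) : ∃ C : ℝ, 0 ≤ C ∧ ∀ᶠ j in atTop, ∀ r : ℝ, 0 ≤ r →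
    ‖deriv (B.P j).q r / (B.P j).q r‖ ≤ C := by
  obtain ⟨C, hC⟩ := B.q_der
  refine ⟨|C|, abs_nonneg _, ?_⟩
  filter_upwards [hC] with j hj r hr
  have h1 := (hj r hr).1
  have h2 : (B.P j).q r ≠ 0 := B.q_ne j r
  have h3 : 0 < ‖(B.P j).q r‖ := norm_pos_iff.2 h2
  rw [norm_div, div_le_iff₀ h3]
  refine h1.trans ?_
  have h4 : r / (1 + r ^ 2) ≤ 1 := by
    rw [div_le_one (by positivity)]
    nlinarith [sq_nonneg (r - 1)]
  have h5 : 0 ≤ r / (1 + r ^ 2) := by positivity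
  have h6 : C * (r / (1 + r ^ 2)) ≤ |C| := by
    calc C * (r / (1 + r ^ 2)) ≤ |C| * (r / (1 + r ^ 2)) :=
          mul_le_mul_of_nonneg_right (le_abs_self C) h5
      _ ≤ |C| * 1 := mul_le_mul_of_nonneg_left h4 (abs_nonneg _)
      _ = |C| := mul_one _
  exact mul_le_mul_of_nonneg_right h6 h3.le

/-- `|q'/q| ≤ e` on `[0,R]` -/
theorem quot_small (L : LimitProfile om0 R U) (B : BData om0 R U) (e : ℝ) (he : 0 < e) :
    ∀ᶠ j in atTop, ∀ r ∈ Icc (0:ℝ) R, ‖deriv (B.P j).q r / (B.P j).q r‖ ≤ e := by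
  filter_upwards [B.conv (e / 2) (by positivity), B.q_lower] with j h1 h2 r hr
  have hr8 : r ∈ Icc (0:ℝ) 8 := ⟨hr.1, hr.2.trans (R_lt8 L).le⟩
  have h3 := (h1 r hr8).2
  rw [deriv_U_le L hr.2, sub_zero] at h3
  have h4 := h2 r hr8
  have h5 : 0 < ‖(B.P j).q r‖ := by linarith
  rw [norm_div, div_le_iff₀ h5]
  nlinarith

theorem om_bdd (L : LimitProfile om0 R U) (B : BData om0 R U) :
    ∀ᶠ j in atTop, |(B.P j).om| ≤ 1 := by
  have h1 : ∀ᶠ j in atTop, (B.P j).om ∈ Ioo (0:ℝ) 1 := by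
    apply B.om_tendsto.eventually
    exact Ioo_mem_nhds (by linarith [L.om_lo]) (by linarith [L.om_hi])
  filter_upwards [h1] with j hj
  rw [abs_of_pos hj.1]
  exact hj.2.le

theorem inv_small (B : BData om0 R U) (e : ℝ) (he : 0 < e) :
    ∀ᶠ j in atTop, (1:ℝ) / (B.nn j) ≤ e := by
  have h1 : Tendsto (fun j => (1:ℝ) / (B.nn j)) atTop (𝓝 0) :=
    tendsto_one_div_atTop_nhds_zero_nat.comp B.nn_tendsto
  exact (h1.eventually (Iio_mem_nhds he)).mono fun j hj => le_of_lt hj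

/-- quotient of the time mode -/
theorem rtime_div {n : ℕ} (P : Profile n) {r : ℝ} (h : P.q r ≠ 0) :
    P.rtime r / P.q r = ((1 : ℂ) / n - I * P.om) + (1 / 2) * (r : ℂ) * (deriv P.q r / P.q r) := by
  rw [Profile.rtime]
  field_simp

theorem src_bound {n : ℕ} (P : Profile n) {r C : ℝ} (hq : P.q r ≠ 0) (hr : r ∈ Icc (0:ℝ) 8)
    (h1 : ‖deriv P.q r / P.q r‖ ≤ C) (hom : |P.om| ≤ 1) (hC : 0 ≤ C) {l : ℕ} {ls : ℝ} {e : ℝ → ℂ}
    (he : P.IsSym l ls e) : ‖e r / P.q r‖ ≤ 2 + 4 * C := by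
  have hn2 : (2:ℝ) ≤ n := by exact_mod_cast P.two_le
  rcases he with ⟨_, _, rfl⟩ | ⟨_, _, rfl⟩ | ⟨_, _, rfl⟩
  · rw [mul_div_assoc, div_self hq, mul_one, norm_I]
    linarith
  · rw [rtime_div P hq]
    refine (norm_add_le _ _).trans ?_
    have h2 : ‖(1 : ℂ) / n - I * P.om‖ ≤ 2 := by
      refine (norm_sub_le _ _).trans ?_
      rw [norm_mul, norm_I, one_mul, Complex.norm_real, Real.norm_eq_abs, norm_div, norm_one,
        Complex.norm_natCast]
      have : (1:ℝ) / n ≤ 1 := by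
        rw [div_le_one (by linarith)]; linarith
      linarith
    have h3 : ‖(1 / 2 : ℂ) * (r : ℂ) * (deriv P.q r / P.q r)‖ ≤ 4 * C := by
      rw [norm_mul, norm_mul, Complex.norm_real, Real.norm_eq_abs, abs_of_nonneg hr.1]
      have : ‖(1 / 2 : ℂ)‖ = 1 / 2 := by norm_num
      rw [this]
      have h4 : (1:ℝ) / 2 * r ≤ 4 := by linarith [hr.2]
      exact mul_le_mul h4 h1 (norm_nonneg _) (by norm_num)
    linarith
  · linarith

theorem src0_bound {n : ℕ} (P : Profile n) {r C : ℝ} (hq : P.q r ≠ 0) (hr : r ∈ Icc (0:ℝ) 8)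
    (h1 : ‖deriv P.q r / P.q r‖ ≤ C) (hC : 0 ≤ C) {l : ℕ} {ls : ℝ} {e : ℝ → ℂ}
    (he : P.IsSym l ls e) : |(e r / P.q r).re| ≤ 1 / n + 4 * C := by
  have hn0 : (0:ℝ) ≤ 1 / n := by positivity
  rcases he with ⟨_, _, rfl⟩ | ⟨_, _, rfl⟩ | ⟨_, _, rfl⟩
  · rw [mul_div_assoc, div_self hq, mul_one, I_re, abs_zero]
    positivity
  · rw [rtime_div P hq]
    have h2 : ((1 : ℂ) / n - I * P.om).re = 1 / n := by
      rw [sub_re, mul_re, I_re, I_im, ofReal_im]
      have : ((1:ℂ) / n).re = 1 / n := by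
        rw [show ((1:ℂ) / n) = (((1:ℝ) / n : ℝ) : ℂ) by push_cast; rfl, ofReal_re]
      rw [this]
      ring
    rw [add_re, h2]
    refine (abs_add_le _ _).trans ?_
    rw [abs_of_nonneg hn0]
    have h3 : ‖(1 / 2 : ℂ) * (r : ℂ) * (deriv P.q r / P.q r)‖ ≤ 4 * C := by
      rw [norm_mul, norm_mul, Complex.norm_real, Real.norm_eq_abs, abs_of_nonneg hr.1]
      have : ‖(1 / 2 : ℂ)‖ = 1 / 2 := by norm_num
      rw [this]
      have h4 : (1:ℝ) / 2 * r ≤ 4 := by linarith [hr.2]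
      exact mul_le_mul h4 h1 (norm_nonneg _) (by norm_num)
    have h4 := (Complex.abs_re_le_norm _).trans h3
    linarith
  · have h4 := (Complex.abs_re_le_norm _).trans h1
    linarith

/-- `U - 1`, `U'` are `O(d)` at `R + d` -/
theorem U1_bound (L : LimitProfile om0 R U) :
    ∃ C : ℝ, ∀ d ∈ Icc (0 : ℝ) 1, ‖U (R + d) - 1‖ ≤ C * d ∧ ‖deriv U (R + d)‖ ≤ C * d := by
  have hR := R_pos L
  obtain ⟨M, hM⟩ := (isCompact_Icc (a := R) (b := R + 1)).exists_bound_of_continuousOn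
    (continuous_deriv_U L).continuousOn
  have hM0 : 0 ≤ M := (norm_nonneg _).trans (hM R ⟨le_rfl, by linarith⟩)
  set K : ℝ := 20 * M + 1 with hK
  have hode : ∀ r ∈ Ioc R (R+1), ‖-(11 / (r : ℂ) + I * r / 2) * deriv U r - om0 * U r‖ ≤ K := by
    intro r hr
    have hr0 : 0 < r := by linarith [hr.1]
    have hr' : r ∈ Icc R (R+1) := ⟨hr.1.le, hr.2⟩
    refine (norm_sub_le _ _).trans ?_
    rw [norm_mul, norm_neg, norm_mul]
    have h1 : ‖(11 / (r : ℂ) + I * r / 2)‖ ≤ 20 := by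
      refine (norm_add_le _ _).trans ?_
      rw [norm_div, norm_div, norm_mul, norm_I, Complex.norm_real, Real.norm_eq_abs,
        abs_of_pos hr0]
      have e1 : ‖(11:ℂ)‖ = 11 := by norm_num
      have e2 : ‖(2:ℂ)‖ = 2 := by norm_num
      rw [e1, e2]
      have e3 : (11:ℝ) / r ≤ 11 := by
        rw [div_le_iff₀ hr0]; nlinarith [hr.1]
      have e4 : r ≤ 5 := by linarith [hr.2, L.R_hi]
      linarith
    have h2 := hM r hr'
    have h3 : ‖(om0 : ℂ)‖ ≤ 1 := by
      rw [Complex.norm_real, Real.norm_eq_abs, abs_of_pos (by linarith [L.om_lo])]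
      linarith [L.om_hi]
    have h4 := norm_U_le L r
    have h5 : ‖(11 / (r : ℂ) + I * r / 2)‖ * ‖deriv U r‖ ≤ 20 * M :=
      mul_le_mul h1 h2 (norm_nonneg _) (by norm_num)
    have h6 : ‖(om0 : ℂ)‖ * ‖U r‖ ≤ 1 := by
      calc ‖(om0 : ℂ)‖ * ‖U r‖ ≤ 1 * 1 := mul_le_mul h3 h4 (norm_nonneg _) (by norm_num)
        _ = 1 := one_mul 1
    linarith
  -- derivative bound
  have hd1 : ∀ s ∈ Icc R (R+1), ‖deriv U s‖ ≤ K * (s - R) := by
    intro s hs
    rcases hs.1.eq_or_lt with h0 | h0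
    · rw [← h0, deriv_U_le L le_rfl, norm_zero, sub_self, mul_zero]
    · have h1 : ∀ s1 ∈ Ioo R s, ‖deriv U s - deriv U s1‖ ≤ K * (s - s1) := by
        intro s1 hs1
        have h2 := (convex_Icc s1 s).norm_image_sub_le_of_norm_hasDerivWithin_le
          (f := deriv U) (f' := fun r => -(11 / (r : ℂ) + I * r / 2) * deriv U r - om0 * U r)
          (C := K) (fun r hr => (L.ode r (hs1.1.trans_le hr.1)).hasDerivWithinAt)
          (fun r hr => hode r ⟨hs1.1.trans_le hr.1, hr.2.trans hs.2⟩)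
          (left_mem_Icc.2 hs1.2.le) (right_mem_Icc.2 hs1.2.le)
        rwa [Real.norm_eq_abs, abs_of_pos (by linarith [hs1.2])] at h2
      have t1 : Tendsto (fun s1 => ‖deriv U s - deriv U s1‖) (𝓝[>] R) (𝓝 ‖deriv U s - deriv U R‖) :=
        ((continuous_const.sub (continuous_deriv_U L)).norm.tendsto R).mono_left
          nhdsWithin_le_nhds
      have t2 : Tendsto (fun s1 => K * (s - s1)) (𝓝[>] R) (𝓝 (K * (s - R))) :=
        ((by fun_prop : Continuous fun s1 : ℝ => K * (s - s1)).tendsto R).mono_left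
          nhdsWithin_le_nhds
      have h3 := le_of_tendsto_of_tendsto t1 t2 (by
        filter_upwards [Ioo_mem_nhdsGT h0] with s1 hs1
        exact h1 s1 hs1)
      rwa [deriv_U_le L le_rfl, sub_zero] at h3
  have hK0 : 0 ≤ K := by positivity
  refine ⟨K, fun d hd => ?_⟩
  have hmem : R + d ∈ Icc R (R+1) := ⟨by linarith [hd.1], by linarith [hd.2]⟩
  refine ⟨?_, ?_⟩
  · have h2 := (convex_Icc R (R+d)).norm_image_sub_le_of_norm_hasDerivWithin_le
      (f := U) (f' := deriv U) (C := K * d)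
      (fun r _ => ((L.c1.differentiable (by norm_num)) r).hasDerivAt.hasDerivWithinAt)
      (fun r hr => (hd1 r ⟨hr.1, hr.2.trans hmem.2⟩).trans (by
        apply mul_le_mul_of_nonneg_left _ hK0
        linarith [hr.2]))
      (left_mem_Icc.2 (by linarith [hd.1])) (right_mem_Icc.2 (by linarith [hd.1]))
    rw [L.core R le_rfl] at h2
    refine h2.trans ?_
    rw [show R + d - R = d by ring, Real.norm_eq_abs, abs_of_nonneg hd.1]
    have h3 : d * d ≤ d * 1 := mul_le_mul_of_nonneg_left hd.2 hd.1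
    nlinarith
  · have := hd1 (R+d) hmem
    rwa [show R + d - R = d by ring] at this

theorem nP_bound (L : LimitProfile om0 R U) (B : BData om0 R U) (d : ℝ) (hd : 0 < d) :
    ∀ᶠ j in atTop, ∀ r ∈ Icc (R + d) 8, (B.nn j : ℝ) * ‖(B.P j).q r‖ ^ (B.nn j) ≤ 1 := by
  obtain ⟨c, hc, h1⟩ := B.pow_tail (R + d) (by linarith)
  have hlim : Tendsto (fun x : ℝ => x * Real.exp (-c * x)) atTop (𝓝 0) := by
    have := Real.tendsto_pow_mul_exp_neg_atTop_nhds_zero 1
    have h2 := this.comp (tendsto_id.const_mul_atTop hc)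
    have h3 := h2.const_mul (1 / c)
    rw [mul_zero] at h3
    refine h3.congr fun x => ?_
    simp only [Function.comp_apply, id, pow_one]
    rw [show -(c * x) = -c * x by ring]
    field_simp
  have h2 : ∀ᶠ j in atTop, (B.nn j : ℝ) * Real.exp (-c * B.nn j) ≤ 1 := by
    have h3 := (hlim.comp (tendsto_natCast_atTop_atTop.comp B.nn_tendsto)).eventually
      (Iio_mem_nhds one_pos)
    exact h3.mono fun j hj => le_of_lt hj
  filter_upwards [h1, h2] with j h3 h4 r hr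
  have h5 := h3 r hr.1
  have hr1 : 1 ≤ r := by linarith [hr.1, R_pos L]
  have h6 : Real.exp (-c * B.nn j) / r ^ 2 ≤ Real.exp (-c * B.nn j) :=
    div_le_self (Real.exp_pos _).le (by nlinarith)
  calc (B.nn j : ℝ) * ‖(B.P j).q r‖ ^ (B.nn j) ≤ (B.nn j : ℝ) * Real.exp (-c * B.nn j) :=
        mul_le_mul_of_nonneg_left (h5.trans h6) (Nat.cast_nonneg _)
    _ ≤ 1 := h4

/-- **C4Fac** -/
theorem c4Facts (L : LimitProfile om0 R U) (B : BData om0 R U) : C4Facts B where
  qu := by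
    filter_upwards [B.conv 1 one_pos] with j hj r hr
    have h1 := (hj r hr).1
    have h2 := norm_U_le L r
    calc ‖(B.P j).q r‖ = ‖((B.P j).q r - U r) + U r‖ := by congr 1; ring
      _ ≤ ‖(B.P j).q r - U r‖ + ‖U r‖ := norm_add_le _ _
      _ ≤ 2 := by linarith
  bb := by
    obtain ⟨C, hC0, hC⟩ := quot_bdd B
    refine ⟨2 * C + 4, ?_⟩
    filter_upwards [hC] with j hj r hr
    have h1 := (Complex.abs_im_le_norm _).trans (hj r hr.1)
    rw [CCore.b]
    refine (abs_add_le _ _).trans ?_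
    have e1 : |2 * (deriv (B.P j).q r / (B.P j).q r).im| =
        2 * |(deriv (B.P j).q r / (B.P j).q r).im| := by
      rw [abs_mul, abs_of_pos (by norm_num : (0:ℝ) < 2)]
    have e2 : |r / 2| = r / 2 := abs_of_nonneg (by linarith [hr.1])
    rw [e1, e2]
    linarith [hr.2]
  rho0 := by
    intro e he
    filter_upwards [quot_small L B e he] with j hj r hr
    exact (Complex.abs_re_le_norm _).trans (hj r hr)
  src := by
    obtain ⟨C, hC0, hC⟩ := quot_bdd B
    refine ⟨2 + 4 * C, ?_⟩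
    filter_upwards [hC, om_bdd L B] with j hj ho l ls e he r hr
    exact src_bound (B.P j) (B.q_ne j r) hr (hj r hr.1) ho hC0 he
  src0 := by
    intro t ht
    filter_upwards [quot_small L B (t / 8) (by positivity), inv_small B (t / 2) (by positivity)]
      with j hj h1 l ls e he r hr
    have h2 := src0_bound (B.P j) (B.q_ne j r) ⟨hr.1, hr.2.trans (R_lt8 L).le⟩ (hj r hr)
      (by positivity) he
    linarith
  U1 := U1_bound L
  nP := nP_bound L B

end C4FactsMain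

end Crest.Agent.R086
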