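import Crest.Agent.R086.DLIface

/-! Row 86, node GEN (helper718): the generator of `S` is the pointwise operator. -/

set_option autoImplicit false

open MeasureTheory Complex Set Filter
open scoped ContDiff Topology

namespace Crest.Agent.R086.DGen

open Crest.Agent.R086

/-- bilinear form turning Mathlib's Fourier integral into `ft` -/
noncomputable def LL : R12 →L[ℝ] R12 →L[ℝ] ℝ := (-(2 * Real.pi)⁻¹) • innerSL ℝ

lemma LL_apply (ξ y : R12) : LL ξ y = -(2 * Real.pi)⁻¹ * inner ℝ ξ y := rfl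

lemma ft_term (ξ y : R12) (b : ℂ) :
    Real.fourierChar (-(LL.toLinearMap₁₂ ξ y)) • b = exp (I * ((inner ℝ ξ y : ℝ) : ℂ)) * b := by
  have h0 : LL.toLinearMap₁₂ ξ y = -(2 * Real.pi)⁻¹ * inner ℝ ξ y := LL_apply ξ y
  simp only [Circle.smul_def, Real.fourierChar_apply, h0, smul_eq_mul]
  congr 2
  have : (Real.pi : ℂ) ≠ 0 := by exact_mod_cast Real.pi_ne_zero
  push_cast
  field_simp

lemma ft_eq (a : R12 → ℂ) :
    ft a = VectorFourier.fourierIntegral Real.fourierChar volume LL.toLinearMap₁₂ a := by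
  funext y
  unfold ft VectorFourier.fourierIntegral
  refine integral_congr_ae (Eventually.of_forall fun ξ => ?_)
  exact (ft_term ξ y (a ξ)).symm

/-- moments from the weight -/
lemma moments {N : ℕ} {a : R12 → ℂ} (h : Integrable (fun ξ : R12 => wt N ξ * ‖a ξ‖))
    (hm : AEStronglyMeasurable a volume) (n : ℕ) (hn : n ≤ N) :
    Integrable (fun ξ : R12 => ‖ξ‖ ^ n * ‖a ξ‖) := by
  refine h.mono (((continuous_norm.pow n).aestronglyMeasurable).mul hm.norm)
    (Eventually.of_forall fun ξ => ?_)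
  rw [Real.norm_of_nonneg (by positivity), Real.norm_of_nonneg (by unfold wt; positivity)]
  unfold wt
  refine mul_le_mul_of_nonneg_right ?_ (norm_nonneg _)
  calc ‖ξ‖ ^ n ≤ (1 + ‖ξ‖) ^ n := pow_le_pow_left₀ (norm_nonneg _) (by linarith [norm_nonneg ξ]) n
    _ ≤ (1 + ‖ξ‖) ^ N := pow_le_pow_right₀ (by linarith [norm_nonneg ξ]) hn

/-- derivatives of `ft a` -/
lemma iter_ft {N : ℕ} {a : R12 → ℂ} (h : Integrable (fun ξ : R12 => wt N ξ * ‖a ξ‖))
    (hm : AEStronglyMeasurable a volume) (n : ℕ) (hn : n ≤ N) (y : R12) (v : Fin n → R12) :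
    iteratedFDeriv ℝ n (ft a) y v =
      ∫ ξ : R12, exp (I * ((inner ℝ ξ y : ℝ) : ℂ)) * ((∏ i, (I * ((inner ℝ ξ (v i) : ℝ) : ℂ))) * a ξ) := by
  have hmom : ∀ k : ℕ, (k : ℕ∞) ≤ (N : ℕ∞) → Integrable (fun ξ : R12 => ‖ξ‖ ^ k * ‖a ξ‖) volume := by
    intro k hk
    exact moments h hm k (by exact_mod_cast hk)
  rw [ft_eq, VectorFourier.iteratedFDeriv_fourierIntegral LL hmom hm (by exact_mod_cast hn),
    VectorFourier.fourierIntegral_continuousMultilinearMap_apply Real.continuous_fourierChar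
      (VectorFourier.integrable_fourierPowSMulRight LL (hmom n (by exact_mod_cast hn)) hm)]
  unfold VectorFourier.fourierIntegral
  refine integral_congr_ae (Eventually.of_forall fun ξ => ?_)
  simp only [ft_term, VectorFourier.fourierPowSMulRight_apply, LL_apply]
  congr 1
  rw [smul_eq_mul, Complex.real_smul, ← mul_assoc]
  congr 1
  have hpi : (Real.pi : ℂ) ≠ 0 := by exact_mod_cast Real.pi_ne_zero
  have e1 : (-(2 * (Real.pi : ℂ) * I)) ^ n = ∏ _i : Fin n, (-(2 * (Real.pi : ℂ) * I)) := by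
    rw [Finset.prod_const, Finset.card_univ, Fintype.card_fin]
  rw [e1, Complex.ofReal_prod, ← Finset.prod_mul_distrib]
  refine Finset.prod_congr rfl fun i _ => ?_
  push_cast
  field_simp

lemma lap_ft {N : ℕ} (hN : 2 ≤ N) {a : R12 → ℂ} (h : Integrable (fun ξ : R12 => wt N ξ * ‖a ξ‖))
    (hm : AEStronglyMeasurable a volume) (y : R12) :
    lap (ft a) y = ∫ ξ : R12, exp (I * ((inner ℝ ξ y : ℝ) : ℂ)) * ((-((‖ξ‖ ^ 2 : ℝ) : ℂ)) * a ξ) := by
  unfold lap
  have hint : ∀ i : Fin 12, Integrable (fun ξ : R12 => exp (I * ((inner ℝ ξ y : ℝ) : ℂ)) *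
      ((I * ((inner ℝ ξ (ei i) : ℝ) : ℂ)) ^ 2 * a ξ)) := by
    intro i
    have h2 := moments h hm 2 hN
    refine h2.mono ?_ (Eventually.of_forall fun ξ => ?_)
    · exact (Continuous.aestronglyMeasurable (by fun_prop)).mul
        ((Continuous.aestronglyMeasurable (by fun_prop)).mul hm)
    · rw [norm_mul, norm_mul, norm_pow, norm_mul, Complex.norm_I, one_mul, Complex.norm_real,
        mul_comm I, Complex.norm_exp_ofReal_mul_I, one_mul, norm_mul, norm_pow, norm_norm, norm_norm]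
      refine mul_le_mul_of_nonneg_right ?_ (norm_nonneg _)
      refine pow_le_pow_left₀ (norm_nonneg _) ?_ 2
      have := norm_inner_le_norm (𝕜 := ℝ) ξ (ei i)
      simpa using this
  have e : ∀ i : Fin 12, iteratedFDeriv ℝ 2 (ft a) y ![ei i, ei i] =
      ∫ ξ : R12, exp (I * ((inner ℝ ξ y : ℝ) : ℂ)) *
      ((I * ((inner ℝ ξ (ei i) : ℝ) : ℂ)) ^ 2 * a ξ) := by
    intro i
    rw [iter_ft h hm 2 hN]
    refine integral_congr_ae (Eventually.of_forall fun ξ => ?_)
    simp [Fin.prod_univ_two, pow_two]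
  rw [Finset.sum_congr rfl (fun i _ => e i), ← integral_finsetSum _ (fun i _ => hint i)]
  refine integral_congr_ae (Eventually.of_forall fun ξ => ?_)
  simp only
  rw [← Finset.mul_sum, ← Finset.sum_mul]
  congr 2
  have : ∀ i : Fin 12, (I * ((inner ℝ ξ (ei i) : ℝ) : ℂ)) ^ 2 = -((ξ i ^ 2 : ℝ) : ℂ) := by
    intro i
    rw [mul_pow, I_sq, EuclideanSpace.inner_single_right]
    simp
  rw [Finset.sum_congr rfl (fun i _ => this i), Finset.sum_neg_distrib, EuclideanSpace.norm_sq_eq]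
  push_cast
  refine congrArg _ (Finset.sum_congr rfl fun i _ => ?_)
  rw [Real.norm_eq_abs]
  have : (((|ξ.ofLp i| ^ 2 : ℝ)) : ℂ) = ((ξ.ofLp i ^ 2 : ℝ) : ℂ) := by rw [sq_abs]
  push_cast at this
  exact this.symm

lemma eul_ft {N : ℕ} (hN : 1 ≤ N) {a : R12 → ℂ} (h : Integrable (fun ξ : R12 => wt N ξ * ‖a ξ‖))
    (hm : AEStronglyMeasurable a volume) (y : R12) :
    eul (ft a) y = ∫ ξ : R12, exp (I * ((inner ℝ ξ y : ℝ) : ℂ)) *
      ((I * ((inner ℝ ξ y : ℝ) : ℂ)) * a ξ) := by
  unfold eul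
  have h1 := iter_ft h hm 1 hN y ![y]
  simpa using h1

/-- phase of the free flow in the variable `η = e^{s/2} ξ` -/
noncomputable def th (σ : ℝ) (p : R12) (t : ℝ) (η : R12) : ℝ :=
  Real.exp (-t / 2) * inner ℝ η p - σ * (1 - Real.exp (-t)) * ‖η‖ ^ 2

noncomputable def th' (σ : ℝ) (p : R12) (t : ℝ) (η : R12) : ℝ :=
  -(1 / 2) * Real.exp (-t / 2) * inner ℝ η p - σ * Real.exp (-t) * ‖η‖ ^ 2

lemma hasDerivAt_th (σ : ℝ) (p : R12) (t : ℝ) (η : R12) :
    HasDerivAt (fun t => th σ p t η) (th' σ p t η) t := by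
  have h1 : HasDerivAt (fun t : ℝ => Real.exp (-t / 2)) (Real.exp (-t / 2) * (-1 / 2)) t := by
    have := ((hasDerivAt_id t).neg.div_const 2).exp
    simpa using this
  have h2 : HasDerivAt (fun t : ℝ => Real.exp (-t)) (Real.exp (-t) * (-1)) t := by
    have := ((hasDerivAt_id t).neg).exp
    simpa using this
  have h3 := (h1.mul_const (inner ℝ η p)).sub (((h2.const_sub 1).const_mul σ).mul_const (‖η‖ ^ 2))
  refine h3.congr_deriv ?_
  unfold th'; ring

lemma hasDerivAt_int (σ : ℝ) (p : R12) {N : ℕ} (hN : 2 ≤ N) {a : R12 → ℂ}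
    (h : Integrable (fun ξ : R12 => wt N ξ * ‖a ξ‖)) (hm : AEStronglyMeasurable a volume) :
    HasDerivAt (fun t : ℝ => ∫ η : R12, exp (I * (th σ p t η : ℂ)) * a η)
      (-(1 / 2) * eul (ft a) p + I * σ * lap (ft a) p) 0 := by
  have h1 := moments h hm 1 (by omega)
  have h2 := moments h hm 2 hN
  have h0 := moments h hm 0 (by omega)
  have hexp : ∀ t ∈ Metric.ball (0 : ℝ) 1, Real.exp (-t / 2) ≤ 3 ∧ Real.exp (-t) ≤ 3 := by
    intro t ht
    rw [Metric.mem_ball, dist_zero_right, Real.norm_eq_abs, abs_lt] at ht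
    have e3 : Real.exp 1 ≤ 3 := by linarith [Real.exp_one_lt_d9]
    exact ⟨(Real.exp_le_exp.2 (by linarith)).trans e3, (Real.exp_le_exp.2 (by linarith)).trans e3⟩
  have hmeas : ∀ t, AEStronglyMeasurable (fun η : R12 => exp (I * (th σ p t η : ℂ)) * a η) volume := by
    intro t
    refine (Continuous.aestronglyMeasurable ?_).mul hm
    unfold th; fun_prop
  have key := (hasDerivAt_integral_of_dominated_loc_of_deriv_le (μ := (volume : Measure R12))
    (F := fun t η => exp (I * (th σ p t η : ℂ)) * a η)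
    (F' := fun t η => (exp (I * (th σ p t η : ℂ)) * (I * (th' σ p t η : ℂ))) * a η)
    (x₀ := (0 : ℝ)) (s := Metric.ball (0 : ℝ) 1)
    (bound := fun η => 3 * ‖p‖ * (‖η‖ ^ 1 * ‖a η‖) + 3 * |σ| * (‖η‖ ^ 2 * ‖a η‖))
    (Metric.ball_mem_nhds _ one_pos)
    (Eventually.of_forall fun t => hmeas t)
    (by
      refine (h0).mono (hmeas 0) (Eventually.of_forall fun η => ?_)
      rw [norm_mul, mul_comm I, Complex.norm_exp_ofReal_mul_I]
      simp)
    (by
      refine (Continuous.aestronglyMeasurable ?_).mul hm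
      unfold th th'; fun_prop)
    (Eventually.of_forall fun η t ht => by
      obtain ⟨e1, e2⟩ := hexp t ht
      rw [norm_mul, norm_mul, mul_comm I, Complex.norm_exp_ofReal_mul_I, one_mul, norm_mul,
        Complex.norm_I, one_mul, Complex.norm_real, Real.norm_eq_abs]
      have hb : |th' σ p t η| ≤ 3 * ‖p‖ * ‖η‖ ^ 1 + 3 * |σ| * ‖η‖ ^ 2 := by
        unfold th'
        have i1 : |inner ℝ η p| ≤ ‖η‖ * ‖p‖ := abs_real_inner_le_norm η p
        have a1 : |-(1 / 2) * Real.exp (-t / 2) * inner ℝ η p| ≤ 3 * ‖p‖ * ‖η‖ ^ 1 := by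
          rw [abs_mul, abs_mul, abs_neg, abs_of_pos (by norm_num : (0:ℝ) < 1 / 2),
            abs_of_pos (Real.exp_pos _)]
          have := mul_le_mul e1 i1 (abs_nonneg _) (by norm_num)
          nlinarith [norm_nonneg η, norm_nonneg p, mul_nonneg (norm_nonneg η) (norm_nonneg p)]
        have a2 : |σ * Real.exp (-t) * ‖η‖ ^ 2| ≤ 3 * |σ| * ‖η‖ ^ 2 := by
          rw [abs_mul, abs_mul, abs_of_pos (Real.exp_pos _), abs_of_nonneg (by positivity : (0:ℝ) ≤ ‖η‖ ^ 2)]
          refine mul_le_mul_of_nonneg_right ?_ (by positivity)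
          rw [mul_comm]
          exact mul_le_mul_of_nonneg_right e2 (abs_nonneg _)
        exact (abs_sub _ _).trans (add_le_add a1 a2)
      calc |th' σ p t η| * ‖a η‖ ≤ (3 * ‖p‖ * ‖η‖ ^ 1 + 3 * |σ| * ‖η‖ ^ 2) * ‖a η‖ :=
            mul_le_mul_of_nonneg_right hb (norm_nonneg _)
        _ = _ := by ring)
    ((h1.const_mul _).add (h2.const_mul _))
    (Eventually.of_forall fun η t _ => by
      have hh := (hasDerivAt_th σ p t η).ofReal_comp
      exact ((hh.const_mul I).cexp).mul_const _)).2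
  refine key.congr_deriv ?_
  rw [eul_ft (by omega) h hm, lap_ft hN h hm, ← integral_const_mul, ← integral_const_mul,
    ← integral_add]
  · refine integral_congr_ae (Eventually.of_forall fun η => ?_)
    simp only [th, th']
    simp only [neg_zero, zero_div, Real.exp_zero, one_mul, sub_self, mul_zero, zero_mul, sub_zero]
    push_cast
    ring
  · refine Integrable.const_mul ?_ _
    refine (h1.const_mul ‖p‖).mono ((Continuous.aestronglyMeasurable (by fun_prop)).mul
      ((Continuous.aestronglyMeasurable (by fun_prop)).mul hm)) (Eventually.of_forall fun ξ => ?_)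
    rw [norm_mul, mul_comm I, Complex.norm_exp_ofReal_mul_I, one_mul, norm_mul, norm_mul,
      Complex.norm_I, mul_one, Complex.norm_real,
      Real.norm_of_nonneg (show 0 ≤ ‖p‖ * (‖ξ‖ ^ 1 * ‖a ξ‖) by positivity)]
    have i1 := norm_inner_le_norm (𝕜 := ℝ) ξ p
    calc ‖inner ℝ ξ p‖ * ‖a ξ‖ ≤ (‖ξ‖ * ‖p‖) * ‖a ξ‖ := mul_le_mul_of_nonneg_right i1 (norm_nonneg _)
      _ = _ := by ring
  · refine Integrable.const_mul ?_ _
    refine h2.mono ((Continuous.aestronglyMeasurable (by fun_prop)).mul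
      ((Continuous.aestronglyMeasurable (by fun_prop)).mul hm)) (Eventually.of_forall fun ξ => ?_)
    rw [norm_mul, mul_comm I, Complex.norm_exp_ofReal_mul_I, one_mul, norm_mul, norm_neg,
      Complex.norm_real, Real.norm_of_nonneg (by positivity), Real.norm_of_nonneg (by positivity)]

/-- weighted integrability of an element of `XN N` -/
lemma wint {N : ℕ} (a : XN N) : Integrable (fun ξ : R12 => wt N ξ * ‖(a : R12 → ℂ) ξ‖) ∧
    AEStronglyMeasurable (a : R12 → ℂ) volume := by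
  have hc : Measurable fun ξ : R12 => ENNReal.ofReal (wt N ξ) := by
    unfold wt; fun_prop
  have hpos : ∀ ξ : R12, 0 < wt N ξ := fun ξ => by unfold wt; positivity
  have h1 : Integrable (a : R12 → ℂ) (muN N) := L1.integrable_coeFn a
  have hac : (volume : Measure R12) ≪ muN N := by
    unfold muN
    exact withDensity_absolutelyContinuous' hc.aemeasurable
      (Eventually.of_forall fun ξ => by simpa using hpos ξ)
  refine ⟨?_, h1.aestronglyMeasurable.mono_ac hac⟩
  have h2 := h1.norm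
  unfold muN at h2
  rw [integrable_withDensity_iff_integrable_smul' hc
    (Eventually.of_forall fun ξ => ENNReal.ofReal_lt_top)] at h2
  refine h2.congr (Eventually.of_forall fun ξ => ?_)
  simp only [ENNReal.toReal_ofReal (hpos ξ).le, smul_eq_mul]
  rfl

lemma norm_XN {N : ℕ} (a : XN N) : ‖a‖ = ∫ ξ : R12, wt N ξ * ‖(a : R12 → ℂ) ξ‖ := by
  have hc : Measurable fun ξ : R12 => ENNReal.ofReal (wt N ξ) := by
    unfold wt; fun_prop
  have hpos : ∀ ξ : R12, 0 < wt N ξ := fun ξ => by unfold wt; positivity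
  rw [L1.norm_eq_integral_norm a]
  unfold muN
  rw [integral_withDensity_eq_integral_toReal_smul hc
    (Eventually.of_forall fun ξ => ENNReal.ofReal_lt_top)]
  refine integral_congr_ae (Eventually.of_forall fun ξ => ?_)
  simp only [ENNReal.toReal_ofReal (hpos ξ).le, smul_eq_mul]

lemma ac_muN {N : ℕ} : (volume : Measure R12) ≪ muN N := by
  have hc : Measurable fun ξ : R12 => ENNReal.ofReal (wt N ξ) := by
    unfold wt; fun_prop
  unfold muN
  exact withDensity_absolutelyContinuous' hc.aemeasurable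
    (Eventually.of_forall fun ξ => by
      have : 0 < wt N ξ := by unfold wt; positivity
      simpa using this)

lemma integrable_XN {N : ℕ} (a : XN N) : Integrable (a : R12 → ℂ) := by
  obtain ⟨h, hm⟩ := wint a
  refine h.mono hm (Eventually.of_forall fun ξ => ?_)
  rw [Real.norm_of_nonneg (by unfold wt; positivity)]
  have : 1 ≤ wt N ξ := one_le_pow₀ (by linarith [norm_nonneg ξ])
  nlinarith [norm_nonneg ((a : R12 → ℂ) ξ)]

lemma ft_congr {a b : R12 → ℂ} (h : a =ᵐ[volume] b) (p : R12) : ft a p = ft b p :=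
  integral_congr_ae (h.mono fun ξ hξ => by simp only [hξ])

lemma integrable_ftterm {a : R12 → ℂ} (ha : Integrable a) (p : R12) :
    Integrable fun ξ : R12 => exp (I * ((inner ℝ ξ p : ℝ) : ℂ)) * a ξ := by
  refine ha.mono ((Continuous.aestronglyMeasurable (by fun_prop)).mul ha.aestronglyMeasurable)
    (Eventually.of_forall fun ξ => ?_)
  rw [norm_mul, mul_comm I, Complex.norm_exp_ofReal_mul_I, one_mul]

/-- point evaluation as a continuous linear functional -/
lemma ft_add_XN {N : ℕ} (a b : XN N) (p : R12) :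
    ft (a + b : XN N) p = ft a p + ft b p := by
  have h : ((a + b : XN N) : R12 → ℂ) =ᵐ[volume] fun ξ => (a : R12 → ℂ) ξ + (b : R12 → ℂ) ξ :=
    ac_muN.ae_le (Lp.coeFn_add a b)
  rw [ft_congr h]
  unfold ft
  rw [← integral_add (integrable_ftterm (integrable_XN a) p) (integrable_ftterm (integrable_XN b) p)]
  refine integral_congr_ae (Eventually.of_forall fun ξ => ?_)
  simp only; ring

lemma ft_smul_XN {N : ℕ} (c : ℂ) (a : XN N) (p : R12) :
    ft (c • a : XN N) p = c * ft a p := by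
  have h : ((c • a : XN N) : R12 → ℂ) =ᵐ[volume] fun ξ => c * (a : R12 → ℂ) ξ :=
    ac_muN.ae_le (Lp.coeFn_smul c a)
  rw [ft_congr h]
  unfold ft
  rw [← integral_const_mul]
  refine integral_congr_ae (Eventually.of_forall fun ξ => ?_)
  simp only; ring

lemma norm_ft_le {N : ℕ} (a : XN N) (p : R12) : ‖ft a p‖ ≤ ‖a‖ := by
  rw [norm_XN]
  refine (norm_integral_le_integral_norm _).trans ?_
  refine integral_mono (integrable_ftterm (integrable_XN a) p).norm (wint a).1 fun ξ => ?_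
  simp only
  rw [norm_mul, mul_comm I, Complex.norm_exp_ofReal_mul_I, one_mul]
  have : 1 ≤ wt N ξ := one_le_pow₀ (by linarith [norm_nonneg ξ])
  nlinarith [norm_nonneg ((a : R12 → ℂ) ξ)]

noncomputable def ev (N : ℕ) (p : R12) : XN N →L[ℂ] ℂ :=
  LinearMap.mkContinuous
    { toFun := fun a => ft a p
      map_add' := fun a b => ft_add_XN a b p
      map_smul' := fun c a => by simpa using ft_smul_XN c a p } 1
    (fun a => by simpa using norm_ft_le a p)

@[simp] lemma ev_apply {N : ℕ} (p : R12) (a : XN N) : ev N p a = ft a p := rfl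

/-- the free flow, evaluated at a point -/
lemma ft_free (σ : ℝ) (β : ℂ) (p : R12) (t : ℝ) (a : R12 → ℂ) :
    ft (fun z => exp (β * t) * exp (6 * (t : ℂ)) *
      exp (-(σ : ℂ) * I * (((Real.exp t - 1) * ‖z‖ ^ 2 : ℝ) : ℂ)) * a (Real.exp (t / 2) • z)) p =
      exp (β * t) * ∫ η : R12, exp (I * (th σ p t η : ℂ)) * a η := by
  unfold ft
  have hE : Real.exp t = Real.exp (t / 2) ^ 2 := by
    rw [← Real.exp_nat_mul]; congr 1; push_cast; ring
  have hE' : Real.exp (-t) = (Real.exp (t / 2) ^ 2)⁻¹ := by rw [Real.exp_neg, hE]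
  have hE'' : Real.exp (-t / 2) = (Real.exp (t / 2))⁻¹ := by
    rw [← Real.exp_neg]; congr 1; ring
  have hR : Real.exp (t / 2) ≠ 0 := (Real.exp_pos _).ne'
  have h1 : ∀ z : R12, exp (I * ((inner ℝ z p : ℝ) : ℂ)) * (exp (β * t) * exp (6 * (t : ℂ)) *
      exp (-(σ : ℂ) * I * (((Real.exp t - 1) * ‖z‖ ^ 2 : ℝ) : ℂ)) * a (Real.exp (t / 2) • z)) =
      (exp (β * t) * exp (6 * (t : ℂ))) *
        (fun η : R12 => exp (I * (th σ p t η : ℂ)) * a η) (Real.exp (t / 2) • z) := by
    intro z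
    simp only
    have h2 : (th σ p t (Real.exp (t / 2) • z)) = inner ℝ z p - σ * ((Real.exp t - 1) * ‖z‖ ^ 2) := by
      unfold th
      rw [inner_smul_left, norm_smul, hE', hE'', hE, Real.norm_of_nonneg (Real.exp_pos _).le]
      simp only [conj_trivial]
      field_simp
    have h3 : exp (I * (th σ p t (Real.exp (t / 2) • z) : ℂ)) =
        exp (I * ((inner ℝ z p : ℝ) : ℂ)) *
          exp (-(σ : ℂ) * I * (((Real.exp t - 1) * ‖z‖ ^ 2 : ℝ) : ℂ)) := by
      rw [h2, ← Complex.exp_add]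
      congr 1
      push_cast; ring
    rw [h3]; ring
  rw [integral_congr_ae (Eventually.of_forall h1), integral_const_mul,
    Measure.integral_comp_smul volume (fun η : R12 => exp (I * (th σ p t η : ℂ)) * a η)
      (Real.exp (t / 2))]
  have hfr : Module.finrank ℝ R12 = 12 := by simp
  rw [hfr, abs_of_pos (by positivity)]
  have h6 : exp (6 * (t : ℂ)) = ((Real.exp (t / 2) ^ 12 : ℝ) : ℂ) := by
    rw [← Real.exp_nat_mul]
    push_cast
    congr 1; ring
  rw [h6, Complex.real_smul]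
  have hR' : ((Real.exp (t / 2) ^ 12 : ℝ) : ℂ) ≠ 0 := by
    exact_mod_cast pow_ne_zero _ hR
  push_cast at hR' ⊢
  field_simp

/-- derivative of the point value of the free flow -/
lemma hasDeriv_free (σ : ℝ) (β : ℂ) (p : R12) {N : ℕ} (hN : 2 ≤ N) (a : XN N) :
    HasDerivAt (fun t : ℝ => exp (β * t) * ∫ η : R12, exp (I * (th σ p t η : ℂ)) * (a : R12 → ℂ) η)
      (β * ft a p - (1 / 2) * eul (ft a) p + I * σ * lap (ft a) p) 0 := by
  obtain ⟨h, hm⟩ := wint a
  have h1 := hasDerivAt_int σ p hN h hm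
  have h2 : HasDerivAt (fun t : ℝ => exp (β * t)) (β) 0 := by
    have := ((((hasDerivAt_id (0 : ℝ)).ofReal_comp).const_mul β)).cexp
    simpa using this
  have h3 := h2.mul h1
  refine h3.congr_deriv ?_
  have e0 : (∫ η : R12, exp (I * (th σ p 0 η : ℂ)) * (a : R12 → ℂ) η) = ft a p := by
    unfold ft th
    simp
  rw [e0]
  simp only [Complex.ofReal_zero, mul_zero, Complex.exp_zero]
  ring

lemma ft_cv {v a : R12 → ℂ} (hv : Integrable v) (ha : Integrable a) (p : R12) :
    ft (cv v a) p = ft v p * ft a p := by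
  have h1 := integral_convolution (μ := (volume : Measure R12)) (ν := (volume : Measure R12))
    (ContinuousLinearMap.mul ℝ ℂ) (integrable_ftterm ha p) (integrable_ftterm hv p)
  rw [ContinuousLinearMap.mul_apply'] at h1
  have h2 : ft (cv v a) p = ∫ x : R12, (convolution
      (fun ξ : R12 => exp (I * ((inner ℝ ξ p : ℝ) : ℂ)) * a ξ)
      (fun ξ : R12 => exp (I * ((inner ℝ ξ p : ℝ) : ℂ)) * v ξ) (ContinuousLinearMap.mul ℝ ℂ) volume) x := by
    unfold ft
    refine integral_congr_ae (Eventually.of_forall fun η => ?_)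
    simp only [convolution_def, ContinuousLinearMap.mul_apply', cv]
    rw [← integral_const_mul]
    refine integral_congr_ae (Eventually.of_forall fun ξ => ?_)
    simp only
    have h3 : exp (I * ((inner ℝ η p : ℝ) : ℂ)) =
        exp (I * ((inner ℝ ξ p : ℝ) : ℂ)) * exp (I * ((inner ℝ (η - ξ) p : ℝ) : ℂ)) := by
      rw [← Complex.exp_add, inner_sub_left]; congr 1; push_cast; ring
    rw [h3]; ring
  rw [h2, h1]
  unfold ft
  ring

lemma integrable_cv {v a : R12 → ℂ} (hv : Integrable v) (ha : Integrable a) :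
    Integrable (cv v a) := by
  have h := ha.integrable_convolution (ContinuousLinearMap.mul ℝ ℂ) hv
  refine h.congr (Eventually.of_forall fun η => ?_)
  simp only [convolution_def, ContinuousLinearMap.mul_apply', cv]
  refine integral_congr_ae (Eventually.of_forall fun ξ => ?_)
  simp only; ring

lemma ft_comb {u w : R12 → ℂ} (hu : Integrable u) (hw : Integrable w) (c : ℂ) (p : R12) :
    ft (fun z => c * (u z + w z)) p = c * (ft u p + ft w p) := by
  unfold ft
  rw [← integral_add (integrable_ftterm hu p) (integrable_ftterm hw p), ← integral_const_mul]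
  refine integral_congr_ae (Eventually.of_forall fun ξ => ?_)
  simp only; ring

lemma integrable_rep {N : ℕ} {a f : R12 → ℂ} (h : Rep N a f) : Integrable a := by
  have h0 := h.1
  have hm : AEStronglyMeasurable a volume := by
    have h1 : AEStronglyMeasurable (fun ξ : R12 => ((((1 + ‖ξ‖) ^ N : ℝ) : ℂ))⁻¹ *
        ((((1 + ‖ξ‖) ^ N : ℝ) : ℂ) * a ξ)) volume :=
      (Continuous.aestronglyMeasurable (by
        refine Continuous.inv₀ (by fun_prop) fun ξ => ?_
        have : (0:ℝ) < (1 + ‖ξ‖) ^ N := by positivity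
        exact_mod_cast this.ne')).mul h0.aestronglyMeasurable
    refine h1.congr (Eventually.of_forall fun ξ => ?_)
    have : ((((1 + ‖ξ‖) ^ N : ℝ) : ℂ)) ≠ 0 := by
      have : (0:ℝ) < (1 + ‖ξ‖) ^ N := by positivity
      exact_mod_cast this.ne'
    simp only
    field_simp
  refine h0.mono hm (Eventually.of_forall fun ξ => ?_)
  rw [norm_mul, Complex.norm_real, Real.norm_of_nonneg (by positivity)]
  have : 1 ≤ (1 + ‖ξ‖) ^ N := one_le_pow₀ (by linarith [norm_nonneg ξ])
  nlinarith [norm_nonneg (a ξ)]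

lemma ft_rep {N : ℕ} {a f : R12 → ℂ} (h : Rep N a f) (p : R12) : ft a p = f p := (h.2 p).symm

section gen
variable {n : ℕ} {P : Profile n} {T : Pot P} {N : ℕ} (D : LinData P T N)

lemma S0_le_one {s : ℝ} (hs : 0 ≤ s) (z : XX N) : ‖D.S0 s z‖ ≤ ‖z‖ := by
  have h1 : ‖D.S0 s‖ ≤ 1 := (D.S0_norm s hs).trans (by
    rw [← Real.exp_zero]
    refine Real.exp_le_exp.2 ?_
    rw [neg_div]
    have : 0 ≤ s / n := by positivity
    linarith)
  calc ‖D.S0 s z‖ ≤ ‖D.S0 s‖ * ‖z‖ := (D.S0 s).le_opNorm z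
    _ ≤ 1 * ‖z‖ := mul_le_mul_of_nonneg_right h1 (norm_nonneg _)
    _ = ‖z‖ := one_mul _

lemma cont_duh {t : ℝ} {g : ℝ → XX N} (hg : ContinuousOn g (Icc 0 t)) :
    ContinuousOn (fun r => D.S0 (t - r) (g r)) (Icc 0 t) := by
  intro r0 hr0
  have h1 : Tendsto (fun r => ‖g r - g r0‖ + ‖D.S0 (t - r) (g r0) - D.S0 (t - r0) (g r0)‖)
      (𝓝[Icc 0 t] r0) (𝓝 (0 + 0)) := by
    refine Tendsto.add ?_ ?_
    · exact tendsto_iff_norm_sub_tendsto_zero.1 (hg r0 hr0)
    · have hc : ContinuousOn (fun r => D.S0 (t - r) (g r0)) (Icc 0 t) := by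
        refine (D.S0_cont (g r0)).comp (by fun_prop) fun r hr => ?_
        simp only [mem_Ici, sub_nonneg]; exact hr.2
      exact tendsto_iff_norm_sub_tendsto_zero.1 (hc r0 hr0)
  rw [add_zero] at h1
  refine tendsto_iff_norm_sub_tendsto_zero.2 ?_
  refine squeeze_zero' (Eventually.of_forall fun r => norm_nonneg _) ?_ h1
  filter_upwards [self_mem_nhdsWithin] with r hr
  have e : D.S0 (t - r) (g r) - D.S0 (t - r0) (g r0) =
      D.S0 (t - r) (g r - g r0) + (D.S0 (t - r) (g r0) - D.S0 (t - r0) (g r0)) := by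
    rw [map_sub]; abel
  rw [e]
  refine (norm_add_le _ _).trans (add_le_add_left ?_ _)
  exact S0_le_one D (by linarith [hr.2]) _

lemma duh_deriv (x : XX N) :
    HasDerivWithinAt (fun t => ∫ r in (0 : ℝ)..t, D.S0 (t - r) (D.VV (D.S r x))) (D.VV x) (Ici 0) 0 := by
  rw [hasDerivWithinAt_iff_isLittleO, Asymptotics.isLittleO_iff]
  intro c hc
  set w := D.VV x with hw
  have hS : Tendsto (fun r => ‖D.S r x - x‖) (𝓝[Ici 0] 0) (𝓝 0) := by
    have h := D.S_cont x 0 (mem_Ici.2 le_rfl)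
    have h0 : D.S 0 x = x := by rw [D.S_zero]; rfl
    have := tendsto_iff_norm_sub_tendsto_zero.1 h
    simpa only [h0] using this
  have hS0 : Tendsto (fun r => ‖D.S0 r w - w‖) (𝓝[Ici 0] 0) (𝓝 0) := by
    have h := D.S0_cont w 0 (mem_Ici.2 le_rfl)
    have h0 : D.S0 0 w = w := by rw [D.S0_zero]; rfl
    have := tendsto_iff_norm_sub_tendsto_zero.1 h
    simpa only [h0] using this
  have hsum : Tendsto (fun r => ‖D.VV‖ * ‖D.S r x - x‖) (𝓝[Ici 0] 0) (𝓝 0) := by
    simpa using hS.const_mul ‖D.VV‖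
  have ev1 := hsum.eventually (gt_mem_nhds (half_pos hc))
  have ev2 := hS0.eventually (gt_mem_nhds (half_pos hc))
  obtain ⟨δ, hδ, hδ'⟩ := Metric.mem_nhdsWithin_iff.1 (ev1.and ev2)
  have hball : ∀ r, 0 ≤ r → r < δ → ‖D.VV‖ * ‖D.S r x - x‖ < c / 2 ∧ ‖D.S0 r w - w‖ < c / 2 := by
    intro r h0 h1
    refine hδ' ⟨?_, mem_Ici.2 h0⟩
    rw [Metric.mem_ball, dist_zero_right, Real.norm_of_nonneg h0]; exact h1
  have hmem : Ici (0:ℝ) ∩ Metric.ball 0 δ ∈ 𝓝[Ici 0] (0:ℝ) :=
    inter_mem self_mem_nhdsWithin (mem_nhdsWithin_of_mem_nhds (Metric.ball_mem_nhds _ hδ))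
  filter_upwards [hmem] with t ht
  obtain ⟨ht0, htδ⟩ := ht
  rw [mem_Ici] at ht0
  rw [Metric.mem_ball, dist_zero_right, Real.norm_of_nonneg ht0] at htδ
  rw [intervalIntegral.integral_same, sub_zero, sub_zero]
  have hcont : ContinuousOn (fun r => D.S0 (t - r) (D.VV (D.S r x))) (Icc 0 t) := by
    refine cont_duh D ?_
    exact D.VV.continuous.comp_continuousOn ((D.S_cont x).mono fun r hr => hr.1)
  have hint : IntervalIntegrable (fun r => D.S0 (t - r) (D.VV (D.S r x))) volume 0 t :=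
    (hcont.mono (by rw [uIcc_of_le ht0])).intervalIntegrable
  have e1 : (∫ r in (0 : ℝ)..t, D.S0 (t - r) (D.VV (D.S r x))) - t • w =
      ∫ r in (0 : ℝ)..t, (D.S0 (t - r) (D.VV (D.S r x)) - w) := by
    rw [intervalIntegral.integral_sub hint intervalIntegrable_const,
      intervalIntegral.integral_const, sub_zero]
  rw [e1]
  have hb : ∀ r ∈ uIoc (0:ℝ) t, ‖D.S0 (t - r) (D.VV (D.S r x)) - w‖ ≤ c := by
    intro r hr
    rw [uIoc_of_le ht0] at hr
    have hr0 : 0 ≤ r := hr.1.le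
    have e2 : D.S0 (t - r) (D.VV (D.S r x)) - w =
        D.S0 (t - r) (D.VV (D.S r x - x)) + (D.S0 (t - r) w - w) := by
      rw [map_sub, map_sub, hw]; abel
    rw [e2]
    have b1 : ‖D.S0 (t - r) (D.VV (D.S r x - x))‖ ≤ c / 2 :=
      ((S0_le_one D (by linarith [hr.2]) _).trans (D.VV.le_opNorm _)).trans
        (hball r hr0 (by linarith [hr.2])).1.le
    have b2 : ‖D.S0 (t - r) w - w‖ ≤ c / 2 :=
      (hball (t - r) (by linarith [hr.2]) (by linarith)).2.le
    linarith [norm_add_le (D.S0 (t - r) (D.VV (D.S r x - x))) (D.S0 (t - r) w - w)]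
  have := intervalIntegral.norm_integral_le_of_norm_le_const hb
  rw [sub_zero] at this
  rwa [Real.norm_eq_abs]

end gen

/-- NODE GEN. -/
theorem genStmt : GenStmt := by
  intro n P T N hN D x y hd
  have hu : UniqueDiffWithinAt ℝ (Ici (0:ℝ)) 0 := uniqueDiffWithinAt_Ici 0
  have key : ∀ (ℓ : XX N →L[ℂ] ℂ) (d : ℂ),
      HasDerivWithinAt (fun t => ℓ (D.S0 t x)) d (Ici 0) 0 → ℓ y = d + ℓ (D.VV x) := by
    intro ℓ d h0
    have h1 : HasDerivWithinAt (fun t => ℓ (D.S t x)) (ℓ y) (Ici 0) 0 :=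
      (ℓ.restrictScalars ℝ).hasFDerivAt.comp_hasDerivWithinAt 0 hd
    have h2 : HasDerivWithinAt (fun t => ℓ (∫ r in (0 : ℝ)..t, D.S0 (t - r) (D.VV (D.S r x))))
        (ℓ (D.VV x)) (Ici 0) 0 :=
      (ℓ.restrictScalars ℝ).hasFDerivAt.comp_hasDerivWithinAt 0 (duh_deriv D x)
    have h3 : HasDerivWithinAt (fun t => ℓ (D.S t x)) (d + ℓ (D.VV x)) (Ici 0) 0 := by
      refine (h0.add h2).congr (fun t ht => ?_) ?_
      · rw [D.duh t ht x, map_add]; rfl
      · rw [D.duh 0 le_rfl x, map_add]; rfl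
    exact hu.eq_deriv _ h1 h3
  constructor
  · intro p
    have h1 := key ((ev N p).comp (ContinuousLinearMap.fst ℂ _ _))
      ((I * P.om - 1 / n) * ft x.1 p - (1 / 2) * eul (ft x.1) p + I * (1 : ℝ) * lap (ft x.1) p) (by
        refine ((hasDeriv_free 1 (I * P.om - 1 / n) p hN x.1).hasDerivWithinAt).congr
          (fun t ht => ?_) ?_
        · show ft (D.S0 t x).1 p = _
          rw [ft_congr (D.S0_fst t ht x) p, ← ft_free 1]
          simp
        · show ft (D.S0 0 x).1 p = _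
          rw [ft_congr (D.S0_fst 0 le_rfl x) p, ← ft_free 1]
          simp)
    have h2 : ft (D.VV x).1 p = -I * (P.V1 p * ft x.1 p + P.V2 p * ft x.2 p) := by
      have i1 := integrable_rep (T.rep_v1 0)
      have i2 := integrable_rep (T.rep_v2 0)
      have j1 := integrable_XN x.1
      have j2 := integrable_XN x.2
      rw [ft_congr (D.VV_fst x) p, ft_comb (integrable_cv i1 j1) (integrable_cv i2 j2),
        ft_cv i1 j1, ft_cv i2 j2, ft_rep (T.rep_v1 0), ft_rep (T.rep_v2 0)]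
    simp only [ContinuousLinearMap.comp_apply, ContinuousLinearMap.coe_fst', ev_apply] at h1
    rw [h1, h2]
    unfold Profile.gen1
    push_cast
    ring
  · intro p
    have h1 := key ((ev N p).comp (ContinuousLinearMap.snd ℂ _ _))
      ((-I * P.om - 1 / n) * ft x.2 p - (1 / 2) * eul (ft x.2) p + I * (-1 : ℝ) * lap (ft x.2) p) (by
        refine ((hasDeriv_free (-1) (-I * P.om - 1 / n) p hN x.2).hasDerivWithinAt).congr
          (fun t ht => ?_) ?_
        · show ft (D.S0 t x).2 p = _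
          rw [ft_congr (D.S0_snd t ht x) p, ← ft_free (-1)]
          simp
        · show ft (D.S0 0 x).2 p = _
          rw [ft_congr (D.S0_snd 0 le_rfl x) p, ← ft_free (-1)]
          simp)
    have h2 : ft (D.VV x).2 p = I * (P.V1 p * ft x.2 p + P.V2c p * ft x.1 p) := by
      have i1 := integrable_rep (T.rep_v1 0)
      have i2 := integrable_rep (T.rep_v2c 0)
      have j1 := integrable_XN x.1
      have j2 := integrable_XN x.2
      rw [ft_congr (D.VV_snd x) p, ft_comb (integrable_cv i1 j2) (integrable_cv i2 j1),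
        ft_cv i1 j2, ft_cv i2 j1, ft_rep (T.rep_v1 0), ft_rep (T.rep_v2c 0)]
    simp only [ContinuousLinearMap.comp_apply, ContinuousLinearMap.coe_snd', ev_apply] at h1
    rw [h1, h2]
    unfold Profile.gen2
    push_cast
    ring

end Crest.Agent.R086.DGen
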