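import Crest.Agent.R086.XExt1
import Crest.Agent.R086.DCcv
import Crest.Agent.R086.DGen

/-!
Row 86 (S0114), node EXT (helper684), part 3: products and conjugates of Fourier-`L¹` functions.
-/

set_option autoImplicit false

open MeasureTheory Complex Set
open scoped ContDiff ComplexConjugate

namespace Crest.Agent.R086.XExt

open Crest.Agent.R086.SH

theorem rep_mono {N M : ℕ} (hM : M ≤ N) {a f : R12 → ℂ} (h : Rep N a f) : Rep M a f := by
  refine ⟨?_, h.2⟩
  have hm : AEStronglyMeasurable (fun ξ : R12 => (((1 + ‖ξ‖) ^ M : ℝ) : ℂ) * a ξ) := by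
    have hc : Continuous fun ξ : R12 => (((1 + ‖ξ‖) ^ M : ℝ) : ℂ) := by fun_prop
    exact hc.aestronglyMeasurable.mul (SH.Rep.aestronglyMeasurable h)
  refine (Rep.integrable_wt h hM).mono' hm (Filter.Eventually.of_forall fun ξ => ?_)
  rw [norm_mul, Complex.norm_real, Real.norm_of_nonneg (by positivity)]

theorem xn_mono {N M m : ℕ} (hmM : m ≤ M) (hM : M ≤ N) {a f : R12 → ℂ} (h : Rep N a f) :
    xn m a ≤ xn M a := by
  refine integral_mono (Rep.integrable_wt h (hmM.trans hM)) (Rep.integrable_wt h hM) fun ξ => ?_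
  exact mul_le_mul_of_nonneg_right (pow_le_pow_right₀ (by linarith [norm_nonneg ξ]) hmM)
    (norm_nonneg _)

theorem rep_mul {N : ℕ} {v V a f : R12 → ℂ} (hv : Rep N v V) (ha : Rep N a f) :
    Rep N (cv v a) (fun y => V y * f y) ∧ ∀ M ≤ N, xn M (cv v a) ≤ xn M v * xn M a := by
  have iv := DGen.integrable_rep hv
  have ia := DGen.integrable_rep ha
  refine ⟨⟨?_, fun y => ?_⟩, fun M hM => ?_⟩
  · have h := (gint_of_integrable hv.1).cv (gint_of_integrable ha.1)
    rw [← cv_eq_wie] at h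
    refine Integrable.congr h (Filter.Eventually.of_forall fun ξ => ?_)
    simp only [Wie.wtV_apply, Wie.wt, Complex.real_smul]
  · have := DGen.ft_cv iv ia y
    show V y * f y = ft (cv v a) y
    rw [this, DGen.ft_rep hv, DGen.ft_rep ha]
  · have h := Wie.integral_norm_cv_le (gint_of_integrable (rep_mono hM hv).1)
      (gint_of_integrable (rep_mono hM ha).1)
    rw [← cv_eq_wie] at h
    exact h

theorem rep_add {N : ℕ} {a b f g : R12 → ℂ} (ha : Rep N a f) (hb : Rep N b g) :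
    Rep N (fun ξ => a ξ + b ξ) (fun y => f y + g y) ∧
      ∀ M ≤ N, xn M (fun ξ => a ξ + b ξ) ≤ xn M a + xn M b := by
  have ia := DGen.integrable_rep ha
  have ib := DGen.integrable_rep hb
  have key : ∀ {c : R12 → ℂ} (hc : Integrable c) (y : R12),
      Integrable fun ξ : R12 => exp (I * ((inner ℝ ξ y : ℝ) : ℂ)) * c ξ := by
    intro c hc y
    have hm : AEStronglyMeasurable fun ξ : R12 => exp (I * ((inner ℝ ξ y : ℝ) : ℂ)) := by
      have : Continuous fun ξ : R12 => exp (I * ((inner ℝ ξ y : ℝ) : ℂ)) := by fun_prop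
      exact this.aestronglyMeasurable
    refine hc.norm.mono' (hm.mul hc.aestronglyMeasurable) (Filter.Eventually.of_forall fun ξ => ?_)
    have : ‖exp (I * ((inner ℝ ξ y : ℝ) : ℂ))‖ = 1 := by
      rw [mul_comm]; exact Complex.norm_exp_ofReal_mul_I _
    rw [norm_mul, this, one_mul]
  refine ⟨⟨?_, fun y => ?_⟩, fun M hM => ?_⟩
  · refine (ha.1.add hb.1).congr (Filter.Eventually.of_forall fun ξ => ?_)
    simp only [Pi.add_apply]; ring
  · show f y + g y = ∫ ξ : R12, exp (I * ((inner ℝ ξ y : ℝ) : ℂ)) * (a ξ + b ξ)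
    rw [ha.2 y, hb.2 y, ← integral_add (key ia y) (key ib y)]
    congr 1; funext ξ; ring
  · unfold xn
    rw [← integral_add (Rep.integrable_wt ha hM) (Rep.integrable_wt hb hM)]
    refine integral_mono_of_nonneg (Filter.Eventually.of_forall fun ξ => by positivity)
      ((Rep.integrable_wt ha hM).add (Rep.integrable_wt hb hM))
      (Filter.Eventually.of_forall fun ξ => ?_)
    show (1 + ‖ξ‖) ^ M * ‖a ξ + b ξ‖ ≤ (1 + ‖ξ‖) ^ M * ‖a ξ‖ + (1 + ‖ξ‖) ^ M * ‖b ξ‖
    rw [← mul_add]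
    exact mul_le_mul_of_nonneg_left (norm_add_le _ _) (by positivity)

theorem rep_const_mul {N : ℕ} (c : ℂ) {a f : R12 → ℂ} (ha : Rep N a f) :
    Rep N (fun ξ => c * a ξ) (fun y => c * f y) ∧ ∀ M, xn M (fun ξ => c * a ξ) = ‖c‖ * xn M a := by
  refine ⟨⟨?_, fun y => ?_⟩, fun M => ?_⟩
  · refine (ha.1.const_mul c).congr (Filter.Eventually.of_forall fun ξ => ?_)
    simp only; ring
  · show c * f y = ∫ ξ : R12, exp (I * ((inner ℝ ξ y : ℝ) : ℂ)) * (c * a ξ)
    rw [ha.2 y, ← integral_const_mul]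
    congr 1; funext ξ; ring
  · unfold xn
    rw [← integral_const_mul]
    congr 1; funext ξ; rw [norm_mul]; ring

theorem rep_conj {N : ℕ} {a f : R12 → ℂ} (ha : Rep N a f) :
    Rep N (fun ξ => conj (a (-ξ))) (fun y => conj (f y)) ∧ ∀ M, xn M (fun ξ => conj (a (-ξ))) = xn M a := by
  refine ⟨⟨?_, fun y => ?_⟩, fun M => ?_⟩
  · have h1 : Integrable (fun ξ : R12 => (((1 + ‖-ξ‖) ^ N : ℝ) : ℂ) * a (-ξ)) := ha.1.comp_neg
    have h2 : Integrable (fun ξ : R12 => conj ((((1 + ‖-ξ‖) ^ N : ℝ) : ℂ) * a (-ξ))) :=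
      (Complex.conjCLE : ℂ →L[ℝ] ℂ).integrable_comp h1
    refine h2.congr (Filter.Eventually.of_forall fun ξ => ?_)
    simp only [norm_neg, map_mul, conj_ofReal]
  · show conj (f y) = ∫ ξ : R12, exp (I * ((inner ℝ ξ y : ℝ) : ℂ)) * conj (a (-ξ))
    rw [ha.2 y, ← integral_conj, ← integral_neg_eq_self]
    congr 1; funext ξ
    rw [map_mul, ← Complex.exp_conj, map_mul, conj_I, conj_ofReal, inner_neg_left]
    congr 2
    push_cast; ring
  · unfold xn
    rw [← integral_neg_eq_self]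
    congr 1; funext ξ
    simp only [norm_neg, neg_neg, Complex.norm_conj]

theorem lap_conj2 {f : R12 → ℂ} (hf : ContDiff ℝ 2 f) (y : R12) :
    lap (fun y => conj (f y)) y = conj (lap f y) := by
  unfold lap
  rw [map_sum]
  refine Finset.sum_congr rfl fun i _ => ?_
  have h := (Complex.conjCLE : ℂ →L[ℝ] ℂ).iteratedFDeriv_comp_left (x := y) (i := 2)
    (hf.contDiffAt) le_rfl
  have h2 : (fun y => conj (f y)) = (Complex.conjCLE : ℂ →L[ℝ] ℂ) ∘ f := rfl
  rw [h2, h]
  rfl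

theorem eul_conj2 {f : R12 → ℂ} (hf : ContDiff ℝ 1 f) (y : R12) :
    eul (fun y => conj (f y)) y = conj (eul f y) := by
  unfold eul
  have hd : DifferentiableAt ℝ f y := (hf.differentiable (by norm_num)) y
  have h3 : HasFDerivAt (fun y => conj (f y)) ((Complex.conjCLE : ℂ →L[ℝ] ℂ).comp (fderiv ℝ f y)) y :=
    (Complex.conjCLE : ℂ →L[ℝ] ℂ).hasFDerivAt.comp y hd.hasFDerivAt
  rw [h3.fderiv]
  rfl

end Crest.Agent.R086.XExt
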