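import Crest.Agent.R086.C4Phi
import Crest.Agent.R086.C4Fin
import Crest.Agent.R086.C4FinAux
import Crest.Agent.R086.C4Red
import Crest.Agent.R086.C4Defs
import Crest.Agent.R086.XAlg

/-!
Row 86 (S0114), Part C, node N7/NS (helper684): source free pairs away from the symmetry values vanish for
all large `j`, uniformly for `‖lam‖ ≤ La` (contradiction along an ultrafilter).
-/

set_option autoImplicit false

open MeasureTheory Complex Set Filter Topology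
open scoped ContDiff

namespace Crest.Agent.R086.C4NS

open Crest.Agent.R086.XExt

local notation "conj" => starRingEnd ℂ

/-! ### `NB` -/

theorem NB_nonneg (rho : ℝ) (F G : ℝ → ℂ) : 0 ≤ NB rho F G := Real.sqrt_nonneg _

theorem NB_smul (rho : ℝ) (t : ℂ) (F G : ℝ → ℂ) :
    NB rho (fun r => t * F r) (fun r => t * G r) = ‖t‖ * NB rho F G := by
  unfold NB
  have e : ∀ r : ℝ, r ^ 11 * (‖t * F r‖ ^ 2 + ‖t * G r‖ ^ 2)
      = ‖t‖ ^ 2 * (r ^ 11 * (‖F r‖ ^ 2 + ‖G r‖ ^ 2)) := fun r => by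
    rw [norm_mul, norm_mul]; ring
  simp only [e]
  rw [intervalIntegral.integral_const_mul, Real.sqrt_mul (by positivity),
    Real.sqrt_sq (norm_nonneg _)]

theorem c_dens {F G : ℝ → ℂ} (hF : Continuous F) (hG : Continuous G) :
    Continuous (fun r : ℝ => r ^ 11 * (‖F r‖ ^ 2 + ‖G r‖ ^ 2)) := by fun_prop

theorem NB_mono {F G : ℝ → ℂ} (hF : Continuous F) (hG : Continuous G) {a b : ℝ} (ha : 0 ≤ a)
    (hab : a ≤ b) : NB a F G ≤ NB b F G := by
  unfold NB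
  refine Real.sqrt_le_sqrt ?_
  have hc := c_dens hF hG
  rw [← intervalIntegral.integral_add_adjacent_intervals (hc.intervalIntegrable 0 a)
    (hc.intervalIntegrable a b)]
  have : 0 ≤ ∫ r in a..b, r ^ 11 * (‖F r‖ ^ 2 + ‖G r‖ ^ 2) := by
    refine intervalIntegral.integral_nonneg hab fun r hr => ?_
    have : 0 ≤ r := ha.trans hr.1
    positivity
  linarith

/-! ### scaling of source free pairs -/

theorem deriv_mul_const' {F : ℝ → ℂ} (hF : ContDiff ℝ 1 F) (t : ℂ) :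
    deriv (fun r => t * F r) = fun r => t * deriv F r := by
  funext r
  exact ((hF.differentiable (by norm_num) r).hasDerivAt.const_mul t).deriv

theorem rlap_smul (l : ℕ) {F : ℝ → ℂ} (hF : ContDiff ℝ 2 F) (t : ℂ) (r : ℝ) :
    rlap l (fun r => t * F r) r = t * rlap l F r := by
  unfold rlap
  rw [deriv_mul_const' (hF.of_le (by norm_num)) t,
    deriv_mul_const' (C4Red.contDiff_deriv hF) t]
  ring

theorem modeFn_smul (H : R12 → ℝ) (F : ℝ → ℂ) (t : ℂ) :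
    modeFn H (fun r => t * F r) = fun y => t * modeFn H F y := by
  funext y
  unfold modeFn
  ring

theorem pair_smul {n : ℕ} {P : Profile n} {l : ℕ} {H : R12 → ℝ} {lam : ℂ} {F G : ℝ → ℂ}
    (h : P.Pair l H lam 0 (fun _ => 0) F G) (t : ℂ) :
    P.Pair l H lam 0 (fun _ => 0) (fun r => t * F r) (fun r => t * G r) := by
  have k := C4Red.two_le_N0
  have hF : ContDiff ℝ 2 F := h.cF.of_le k
  have hG : ContDiff ℝ 2 G := h.cG.of_le k
  refine ⟨h.sharm, h.nrm, contDiff_const.mul h.cF, contDiff_const.mul h.cG, ?_, ?_, ?_, ?_, ?_, ?_⟩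
  · intro r; rw [h.pF r]; ring
  · intro r; rw [h.pG r]; ring
  · rw [modeFn_smul]
    obtain ⟨a, ha⟩ := h.xF
    exact ⟨_, (rep_const_mul t ha).1⟩
  · rw [modeFn_smul]
    obtain ⟨a, ha⟩ := h.xG
    exact ⟨_, (rep_const_mul t ha).1⟩
  · intro r hr
    have e := h.eqF r hr
    unfold Profile.rgen1 at e ⊢
    rw [rlap_smul l hF t r, deriv_mul_const' (hF.of_le (by norm_num)) t]
    linear_combination t * e
  · intro r hr
    have e := h.eqG r hr
    unfold Profile.rgen2 at e ⊢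
    rw [rlap_smul l hG t r, deriv_mul_const' (hG.of_le (by norm_num)) t]
    simp only [map_zero] at e ⊢
    linear_combination t * e

/-! ### vanishing from `REG` -/

theorem XBd_zero {f : R12 → ℂ} {M : ℝ} (h : XBd 1 f M) (hM : M ≤ 0) (y : R12) : f y = 0 := by
  obtain ⟨a, ha, hb⟩ := h
  have h1 := norm_iteratedFDeriv_le_xn ha (j := 0) (m := 1) (by norm_num) le_rfl y
  rw [norm_iteratedFDeriv_zero] at h1
  have h2 : xn 1 a ≤ M := hb
  exact norm_le_zero_iff.1 (h1.trans (h2.trans hM))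

theorem exists_H_ne {H : R12 → ℝ} (hn : (∫ w : S11, (H w) ^ 2 ∂sig) = 1) : ∃ w : S11, H w ≠ 0 := by
  by_contra hcon
  push Not at hcon
  have : (∫ w : S11, (H w) ^ 2 ∂sig) = 0 := by
    simp [hcon]
  rw [this] at hn
  exact zero_ne_one hn

theorem modeFn_zero {H : R12 → ℝ} (hn : (∫ w : S11, (H w) ^ 2 ∂sig) = 1) {F : ℝ → ℂ}
    (h : ∀ y, modeFn H F y = 0) {r : ℝ} (hr : 0 < r) : F r = 0 := by
  obtain ⟨w, hw⟩ := exists_H_ne hn
  have hw1 : ‖(w : R12)‖ = 1 := by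
    have := w.2
    simpa using this
  have e := h (r • (w : R12))
  unfold modeFn at e
  have e1 : ‖r • (w : R12)‖ = r := by
    rw [norm_smul, hw1, mul_one, Real.norm_of_nonneg hr.le]
  rw [e1, smul_smul, inv_mul_cancel₀ hr.ne', one_smul] at e
  rcases mul_eq_zero.1 e with h | h
  · exact absurd (by exact_mod_cast h) hw
  · exact h

/-! ### nonvanishing of `Phi` -/

theorem Phi_exists_ne {l : ℕ} {m : ℂ} (hm : -(1 / 4) < m.re) {a b : ℝ} (ha : 0 < a) (hab : a < b) :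
    ∃ r ∈ Ioo a b, JCx.Phi l m r ≠ 0 := by
  by_contra hcon
  push Not at hcon
  set c := (a + b) / 2 with hc
  have hca : c ∈ Ioo a b := ⟨by rw [hc]; linarith, by rw [hc]; linarith⟩
  have hc0 : 0 < c := ha.trans hca.1
  have e : JCx.Phi l m =ᶠ[𝓝 c] fun _ => 0 := by
    filter_upwards [Ioo_mem_nhds hca.1 hca.2] with r hr using hcon r hr
  have hd := phiFacts.der l m hm c hc0
  have h1 : JCx.Phi1 l m c = 0 := by
    have := hd.deriv
    rw [e.deriv_eq] at this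
    rw [← this]; simp
  have hH : m ∈ C4FinAux.HP l := by
    show -1 - (l : ℝ) / 2 < m.re
    have : (0 : ℝ) ≤ (l : ℝ) / 2 := by positivity
    linarith
  rcases C4FinAux.Phi_ne hH hc0 with h | h
  · exact h (hcon c hca)
  · exact h h1

theorem Phi_exists_ne2 {l : ℕ} {m m' : ℂ} (hm : -(1 / 4) < m.re) (hm' : -(1 / 4) < m'.re) {a b : ℝ}
    (ha : 0 < a) (hab : a < b) : ∃ r ∈ Ioo a b, JCx.Phi l m r ≠ 0 ∧ JCx.Phi l m' r ≠ 0 := by
  obtain ⟨r, hr, h1⟩ := Phi_exists_ne (l := l) hm ha hab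
  have hr0 : 0 < r := ha.trans hr.1
  have hc : ContinuousAt (JCx.Phi l m) r := (phiFacts.der l m hm r hr0).continuousAt
  have hev : ∀ᶠ x in 𝓝 r, JCx.Phi l m x ≠ 0 ∧ x ∈ Ioo a b :=
    (hc.eventually_ne h1).and (Ioo_mem_nhds hr.1 hr.2)
  obtain ⟨ε, hε, hball⟩ := Metric.eventually_nhds_iff.1 hev
  obtain ⟨x, hx, h2⟩ := Phi_exists_ne (l := l) hm' (a := r) (b := r + ε) hr0 (by linarith)
  have := hball (y := x) (by rw [Real.dist_eq, abs_of_pos (by linarith [hx.1])]; linarith [hx.2])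
  exact ⟨x, this.2, this.1, h2⟩

/-! ### uniform products -/

theorem unif_mul {ι : Type*} {φ : Filter ι} {f : ι → ℝ → ℂ} {g : ℝ → ℂ} {K : Set ℝ}
    (h : TendstoUniformlyOn f g φ K) {M : ℝ} (hM : ∀ r ∈ K, ‖g r‖ ≤ M) {c : ι → ℂ} {c0 : ℂ}
    (hc : Tendsto c φ (𝓝 c0)) {ε : ℝ} (hε : 0 < ε) :
    ∀ᶠ j in φ, ∀ r ∈ K, ‖c j * f j r - c0 * g r‖ ≤ ε := by
  set M' := |M| + 1 with hM'
  have hM0 : 0 < M' := by positivity
  have h1 : ∀ᶠ j in φ, ‖c j - c0‖ < min 1 (ε / (2 * M')) := by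
    have := (Metric.tendsto_nhds.1 hc) (min 1 (ε / (2 * M'))) (by positivity)
    filter_upwards [this] with j hj
    rwa [dist_eq_norm] at hj
  have h2 := (Metric.tendstoUniformlyOn_iff.1 h) (ε / (2 * (‖c0‖ + 1))) (by positivity)
  filter_upwards [h1, h2] with j h1 h2 r hr
  have e1 : c j * f j r - c0 * g r = c j * (f j r - g r) + (c j - c0) * g r := by ring
  rw [e1]
  have a1 : ‖c j‖ ≤ ‖c0‖ + 1 := by
    have : ‖c j - c0‖ ≤ 1 := h1.le.trans (min_le_left _ _)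
    calc ‖c j‖ = ‖c0 + (c j - c0)‖ := by congr 1; ring
      _ ≤ ‖c0‖ + ‖c j - c0‖ := norm_add_le _ _
      _ ≤ ‖c0‖ + 1 := by linarith
  have a2 : ‖f j r - g r‖ ≤ ε / (2 * (‖c0‖ + 1)) := by
    have := (h2 r hr).le
    rwa [dist_comm, dist_eq_norm] at this
  have a3 : ‖c j - c0‖ ≤ ε / (2 * M') := h1.le.trans (min_le_right _ _)
  have a4 : ‖g r‖ ≤ M' := (hM r hr).trans ((le_abs_self M).trans (by rw [hM']; linarith))
  calc ‖c j * (f j r - g r) + (c j - c0) * g r‖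
      ≤ ‖c j‖ * ‖f j r - g r‖ + ‖c j - c0‖ * ‖g r‖ := by
        refine (norm_add_le _ _).trans ?_
        rw [norm_mul, norm_mul]
    _ ≤ (‖c0‖ + 1) * (ε / (2 * (‖c0‖ + 1))) + (ε / (2 * M')) * M' := by
        gcongr
    _ = ε := by field_simp; ring

theorem exists_bound_Icc {f : ℝ → ℂ} {a b : ℝ} (h : ContinuousOn f (Icc a b)) :
    ∃ M, ∀ r ∈ Icc a b, ‖f r‖ ≤ M := isCompact_Icc.exists_bound_of_continuousOn h


section
variable {om0 R : ℝ} {U : ℝ → ℂ} (B : BData om0 R U)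

/-- a normalised source free pair of `B.P j` away from the symmetry values -/
structure Bad (La : ℝ) (l j : ℕ) (lam : ℂ) (H : R12 → ℝ) (F G : ℝ → ℂ) : Prop where
  re : 0 ≤ lam.re
  bd : ‖lam‖ ≤ La
  far : ∀ (ls : ℝ) (e : ℝ → ℂ), (B.P j).IsSym l ls e → 1 / 4 < ‖(ls : ℂ) - lam‖
  pair : (B.P j).Pair l H lam 0 (fun _ => 0) F G
  nb : NB 8 F G = 1

theorem exists_bad (hR8 : R < 8) (hReg : B.REG) (La : ℝ) (l : ℕ) :
    ∀ᶠ j in atTop, ∀ lam : ℂ, 0 ≤ lam.re → ‖lam‖ ≤ La → ¬ C4Red.NS (B.P j) l lam →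
      ∃ (H : R12 → ℝ) (F G : ℝ → ℂ), Bad B La l j lam H F G := by
  obtain ⟨K, hK⟩ := hReg 8 hR8
  filter_upwards [hK] with j hj lam hre hbd hns
  unfold C4Red.NS at hns
  push Not at hns
  obtain ⟨far, H, F, G, hp, r, hr, hne⟩ := hns
  have hx := hj l H lam 0 (fun _ => 0) F G hre hp (Or.inl ⟨rfl, rfl⟩)
  have hpos : 0 < NB 8 F G := by
    rcases (NB_nonneg 8 F G).eq_or_lt with h | h
    · exfalso
      rw [← h] at hx
      have zF : F r = 0 := modeFn_zero hp.nrm (XBd_zero hx.1 (by simp)) hr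
      have zG : G r = 0 := modeFn_zero hp.nrm (XBd_zero hx.2 (by simp)) hr
      exact hne zF zG
    · exact h
  have hp' := pair_smul hp (((NB 8 F G)⁻¹ : ℝ) : ℂ)
  refine ⟨H, _, _, hre, hbd, far, hp', ?_⟩
  rw [NB_smul, Complex.norm_real, Real.norm_of_nonneg (inv_nonneg.2 hpos.le),
    inv_mul_cancel₀ hpos.ne']

theorem mu_tendsto {φ : Filter ℕ} (hφ : φ ≤ atTop) {lam : ℕ → ℂ} {ls : ℂ}
    (h : Tendsto lam φ (𝓝 ls)) :
    Tendsto (fun j => (B.P j).mu (lam j)) φ (𝓝 (ls - I * om0)) := by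
  have hn : Tendsto (fun j => (1 : ℂ) / (B.nn j : ℂ)) φ (𝓝 0) :=
    ((tendsto_one_div_atTop_nhds_zero_nat (𝕜 := ℂ)).comp B.nn_tendsto).mono_left hφ
  have ho : Tendsto (fun j => ((B.P j).om : ℂ)) φ (𝓝 (om0 : ℂ)) :=
    (Complex.continuous_ofReal.tendsto om0).comp (B.om_tendsto.mono_left hφ)
  have := (h.add hn).sub (ho.const_mul I)
  rw [add_zero] at this
  exact this

theorem exp_tendsto {φ : Filter ℕ} (hφ : φ ≤ atTop) {c : ℝ} (hc : 0 < c) (A : ℝ) :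
    Tendsto (fun j => Real.exp (-c * B.nn j) * A) φ (𝓝 0) := by
  have h1 : Tendsto (fun j => (B.nn j : ℝ)) atTop atTop :=
    tendsto_natCast_atTop_atTop.comp B.nn_tendsto
  have h2 : Tendsto (fun j => c * (B.nn j : ℝ)) atTop atTop := h1.const_mul_atTop hc
  have h3 : Tendsto (fun j => Real.exp (-(c * (B.nn j : ℝ)))) atTop (𝓝 0) :=
    Real.tendsto_exp_neg_atTop_nhds_zero.comp h2
  have h4 := (h3.mono_left hφ).mul_const A
  rw [zero_mul] at h4
  refine h4.congr fun j => ?_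
  rw [neg_mul]

/-- a bounded sequence converges along an ultrafilter -/
theorem ultra_lim (φ : Ultrafilter ℕ) {z : ℕ → ℂ} {C : ℝ} (h : ∀ᶠ j in φ, ‖z j‖ ≤ C) :
    ∃ w : ℂ, Tendsto z φ (𝓝 w) := by
  have hK : IsCompact (Metric.closedBall (0 : ℂ) C) := isCompact_closedBall 0 C
  have hm : Metric.closedBall (0 : ℂ) C ∈ (φ.map z) := by
    show ∀ᶠ j in φ, z j ∈ Metric.closedBall (0 : ℂ) C
    filter_upwards [h] with j hj
    simpa using hj
  obtain ⟨w, _, hw⟩ := hK.ultrafilter_le_nhds' (φ.map z) hm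
  exact ⟨w, hw⟩

/-- the limit of a bad sequence -/
theorem limit (hR0 : 0 < R) (hR6 : R < 6) (hBC : B.C4BC) (hE : B.EXT0 JCx.Phi JCx.Phi1)
    {La : ℝ} {l : ℕ} (φ : Ultrafilter ℕ) (hφ : (φ : Filter ℕ) ≤ atTop) {lam : ℕ → ℂ}
    {H : ℕ → R12 → ℝ} {F G : ℕ → ℝ → ℂ} (hbad : ∀ᶠ j in φ, Bad B La l j (lam j) (H j) (F j) (G j))
    {ls : ℂ} (hls : Tendsto lam φ (𝓝 ls)) (hre : 0 ≤ ls.re) :
    ∃ c1 c2 : ℂ, ∀ d : ℝ, 0 < d → ∀ ε : ℝ, 0 < ε → ∀ᶠ j in φ, ∀ r ∈ Icc (R + d) 8,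
      ‖F j r - c1 * JCx.Phi l (ls - I * om0) r‖ ≤ ε ∧
      ‖deriv (F j) r - c1 * JCx.Phi1 l (ls - I * om0) r‖ ≤ ε ∧
      ‖G j r - c2 * conj (JCx.Phi l (conj ls - I * om0) r)‖ ≤ ε ∧
      ‖deriv (G j) r - c2 * conj (JCx.Phi1 l (conj ls - I * om0) r)‖ ≤ ε := by
  set m : ℂ := ls - I * om0 with hm
  set m' : ℂ := conj ls - I * om0 with hm'
  have hmre : -(1 / 4) < m.re := by
    rw [hm]; simp; linarith
  have hmre' : -(1 / 4) < m'.re := by
    rw [hm']; simp; linarith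
  have hmu : Tendsto (fun j => (B.P j).mu (lam j)) φ (𝓝 m) := mu_tendsto B hφ hls
  have hmu' : Tendsto (fun j => (B.P j).mu (conj (lam j))) φ (𝓝 m') :=
    mu_tendsto B hφ ((Complex.continuous_conj.tendsto ls).comp hls)
  obtain ⟨r3, hr3, hne, hne'⟩ := Phi_exists_ne2 (l := l) hmre hmre' hR0 hR6
  -- `F j r3`, `G j r3` are bounded
  obtain ⟨C, d0, hd0, hC⟩ := hBC La l
  have hbd : ∀ᶠ j in φ, ‖F j r3‖ ≤ C ∧ ‖G j r3‖ ≤ C := by
    have h1 := hφ (hC (min d0 (r3 - R)) (lt_min hd0 (by linarith [hr3.1])) (min_le_left _ _))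
    filter_upwards [hbad, h1] with j hb hj
    have := (hj (H j) (lam j) 0 (fun _ => 0) (F j) (G j) hb.re hb.bd (by simp) hb.pair
      (Or.inl ⟨rfl, rfl⟩) hb.nb.le).2.2 r3 ⟨by linarith [min_le_right d0 (r3 - R)], hr3.2.le⟩
    exact this
  obtain ⟨f3, hf3⟩ := ultra_lim φ (hbd.mono fun _ h => h.1)
  obtain ⟨g3, hg3⟩ := ultra_lim φ (hbd.mono fun _ h => h.2)
  have hcne' : conj (JCx.Phi l m' r3) ≠ 0 := by simpa using hne'
  refine ⟨f3 / JCx.Phi l m r3, g3 / conj (JCx.Phi l m' r3), fun d hd ε hε => ?_⟩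
  set d' := min d (r3 - R) with hd'
  have hd'0 : 0 < d' := lt_min hd (by linarith [hr3.1])
  have hRd : 0 < R + d' := by linarith
  obtain ⟨K, c, hc, hK⟩ := hE (R + d') (by linarith)
  -- the constants
  have hex : ∀ j, ∃ c1 c2 : ℂ, (Bad B La l j (lam j) (H j) (F j) (G j) → (∀ (l : ℕ) (H : R12 → ℝ) (lam : ℂ) (F G : ℝ → ℂ),
    0 ≤ lam.re → (B.P j).Pair l H lam 0 (fun _ => 0) F G →
    ∃ c1 c2 : ℂ, ∀ r ∈ Icc (R + d') 8,
      ‖F r - c1 * JCx.Phi l ((B.P j).mu lam) r‖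
        ≤ Real.exp (-c * B.nn j) * (1 + ‖lam‖) ^ K * NB (R + d') F G ∧
      ‖deriv F r - c1 * JCx.Phi1 l ((B.P j).mu lam) r‖
        ≤ Real.exp (-c * B.nn j) * (1 + ‖lam‖) ^ K * NB (R + d') F G ∧
      ‖G r - c2 * starRingEnd ℂ (JCx.Phi l ((B.P j).mu (starRingEnd ℂ lam)) r)‖
        ≤ Real.exp (-c * B.nn j) * (1 + ‖lam‖) ^ K * NB (R + d') F G ∧
      ‖deriv G r - c2 * starRingEnd ℂ (JCx.Phi1 l ((B.P j).mu (starRingEnd ℂ lam)) r)‖
        ≤ Real.exp (-c * B.nn j) * (1 + ‖lam‖) ^ K * NB (R + d') F G) →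
      ∀ r ∈ Icc (R + d') 8,
      ‖F j r - c1 * JCx.Phi l ((B.P j).mu (lam j)) r‖ ≤ Real.exp (-c * B.nn j) * (1 + La) ^ K ∧
      ‖deriv (F j) r - c1 * JCx.Phi1 l ((B.P j).mu (lam j)) r‖
        ≤ Real.exp (-c * B.nn j) * (1 + La) ^ K ∧
      ‖G j r - c2 * conj (JCx.Phi l ((B.P j).mu (conj (lam j))) r)‖
        ≤ Real.exp (-c * B.nn j) * (1 + La) ^ K ∧
      ‖deriv (G j) r - c2 * conj (JCx.Phi1 l ((B.P j).mu (conj (lam j))) r)‖
        ≤ Real.exp (-c * B.nn j) * (1 + La) ^ K) := by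
    intro j
    by_cases hb : Bad B La l j (lam j) (H j) (F j) (G j)
    · by_cases h : (∀ (l : ℕ) (H : R12 → ℝ) (lam : ℂ) (F G : ℝ → ℂ),
        0 ≤ lam.re → (B.P j).Pair l H lam 0 (fun _ => 0) F G →
        ∃ c1 c2 : ℂ, ∀ r ∈ Icc (R + d') 8,
          ‖F r - c1 * JCx.Phi l ((B.P j).mu lam) r‖
            ≤ Real.exp (-c * B.nn j) * (1 + ‖lam‖) ^ K * NB (R + d') F G ∧
          ‖deriv F r - c1 * JCx.Phi1 l ((B.P j).mu lam) r‖
            ≤ Real.exp (-c * B.nn j) * (1 + ‖lam‖) ^ K * NB (R + d') F G ∧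
          ‖G r - c2 * starRingEnd ℂ (JCx.Phi l ((B.P j).mu (starRingEnd ℂ lam)) r)‖
            ≤ Real.exp (-c * B.nn j) * (1 + ‖lam‖) ^ K * NB (R + d') F G ∧
          ‖deriv G r - c2 * starRingEnd ℂ (JCx.Phi1 l ((B.P j).mu (starRingEnd ℂ lam)) r)‖
            ≤ Real.exp (-c * B.nn j) * (1 + ‖lam‖) ^ K * NB (R + d') F G)
      · obtain ⟨c1, c2, h12⟩ := h l (H j) (lam j) (F j) (G j) hb.re hb.pair
        refine ⟨c1, c2, fun _ _ r hr => ?_⟩
        have hE0 : Real.exp (-c * B.nn j) * (1 + ‖lam j‖) ^ K * NB (R + d') (F j) (G j)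
            ≤ Real.exp (-c * B.nn j) * (1 + La) ^ K := by
          have n1 : NB (R + d') (F j) (G j) ≤ 1 := by
            rw [← hb.nb]
            refine NB_mono (hb.pair.cF.continuous) (hb.pair.cG.continuous) hRd.le ?_
            have := min_le_right d (r3 - R)
            have := hr3.2
            linarith
          have n2 : (1 + ‖lam j‖) ^ K ≤ (1 + La) ^ K :=
            pow_le_pow_left₀ (by positivity) (by linarith [hb.bd]) K
          have n3 : 0 ≤ (1 + ‖lam j‖) ^ K := by positivity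
          calc Real.exp (-c * B.nn j) * (1 + ‖lam j‖) ^ K * NB (R + d') (F j) (G j)
              ≤ Real.exp (-c * B.nn j) * (1 + ‖lam j‖) ^ K * 1 := by gcongr
            _ = Real.exp (-c * B.nn j) * (1 + ‖lam j‖) ^ K := mul_one _
            _ ≤ Real.exp (-c * B.nn j) * (1 + La) ^ K := by gcongr
        obtain ⟨a1, a2, a3, a4⟩ := h12 r hr
        exact ⟨a1.trans hE0, a2.trans hE0, a3.trans hE0, a4.trans hE0⟩
      · exact ⟨0, 0, fun _ h' => absurd h' h⟩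
    · exact ⟨0, 0, fun h' => absurd h' hb⟩
  choose c1 c2 hcc using hex
  have hmain : ∀ᶠ j in φ, ∀ r ∈ Icc (R + d') 8,
      ‖F j r - c1 j * JCx.Phi l ((B.P j).mu (lam j)) r‖ ≤ Real.exp (-c * B.nn j) * (1 + La) ^ K ∧
      ‖deriv (F j) r - c1 j * JCx.Phi1 l ((B.P j).mu (lam j)) r‖
        ≤ Real.exp (-c * B.nn j) * (1 + La) ^ K ∧
      ‖G j r - c2 j * conj (JCx.Phi l ((B.P j).mu (conj (lam j))) r)‖
        ≤ Real.exp (-c * B.nn j) * (1 + La) ^ K ∧
      ‖deriv (G j) r - c2 j * conj (JCx.Phi1 l ((B.P j).mu (conj (lam j))) r)‖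
        ≤ Real.exp (-c * B.nn j) * (1 + La) ^ K := by
    filter_upwards [hbad, hφ hK] with j hb hj using hcc j hb hj
  have hexp : Tendsto (fun j => Real.exp (-c * B.nn j) * (1 + La) ^ K) φ (𝓝 0) :=
    exp_tendsto B hφ hc _
  have hr3mem : r3 ∈ Icc (R + d') 8 := ⟨by linarith [min_le_right d (r3 - R)], by linarith [hr3.2]⟩
  -- uniform convergence of `Phi`
  obtain ⟨u1, u2⟩ := phiFacts.unif l hmre hmu (a := R + d') (b := 8) hRd
  obtain ⟨u3, u4⟩ := phiFacts.unif l hmre' hmu' (a := R + d') (b := 8) hRd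
  have conjU : ∀ {f : ℕ → ℝ → ℂ} {g : ℝ → ℂ} {s : Set ℝ}, TendstoUniformlyOn f g φ s →
      TendstoUniformlyOn (fun j r => conj (f j r)) (fun r => conj (g r)) φ s := by
    intro f g s h
    rw [Metric.tendstoUniformlyOn_iff] at h ⊢
    intro ε hε
    filter_upwards [h ε hε] with j hj r hr
    have := hj r hr
    rw [dist_eq_norm] at this ⊢
    rwa [← map_sub, Complex.norm_conj]
  have v3 := conjU u3
  have v4 := conjU u4
  -- convergence of the constants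
  have cv : ∀ {f : ℕ → ℂ} {f0 : ℂ} {k p : ℕ → ℂ} {p0 : ℂ}, Tendsto f φ (𝓝 f0) → Tendsto p φ (𝓝 p0) →
      p0 ≠ 0 → (∀ᶠ j in φ, ‖f j - k j * p j‖ ≤ Real.exp (-c * B.nn j) * (1 + La) ^ K) →
      Tendsto k φ (𝓝 (f0 / p0)) := by
    intro f f0 k p p0 hf hp hp0 hb
    have h0 : Tendsto (fun j => f j - k j * p j) φ (𝓝 0) := squeeze_zero_norm' hb hexp
    have h1 : Tendsto (fun j => k j * p j) φ (𝓝 f0) := by
      have := hf.sub h0
      rw [sub_zero] at this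
      refine this.congr fun j => ?_
      ring
    have h2 := h1.div hp hp0
    refine h2.congr' ?_
    filter_upwards [hp.eventually_ne hp0] with j hj
    simp only [Pi.div_apply]
    field_simp
  have hp1 : Tendsto (fun j => JCx.Phi l ((B.P j).mu (lam j)) r3) φ (𝓝 (JCx.Phi l m r3)) :=
    u1.tendsto_at hr3mem
  have hp2 : Tendsto (fun j => conj (JCx.Phi l ((B.P j).mu (conj (lam j))) r3)) φ
      (𝓝 (conj (JCx.Phi l m' r3))) := v3.tendsto_at hr3mem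
  have hc1 := cv hf3 hp1 hne (hmain.mono fun j hj => (hj r3 hr3mem).1)
  have hc2 := cv hg3 hp2 hcne' (hmain.mono fun j hj => (hj r3 hr3mem).2.2.1)
  -- bounds
  have hcont : ∀ {m : ℂ}, -(1 / 4) < m.re → ContinuousOn (JCx.Phi l m) (Icc (R + d') 8) ∧
      ContinuousOn (JCx.Phi1 l m) (Icc (R + d') 8) := by
    intro m hm
    constructor
    · intro r hr
      exact (phiFacts.der l m hm r (lt_of_lt_of_le hRd hr.1)).continuousAt.continuousWithinAt
    · have h1 := phiFacts.cont1 l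
      have h2 : ContinuousOn (fun r : ℝ => (m, r)) (Icc (R + d') 8) := by fun_prop
      exact h1.comp h2 fun r hr => ⟨hm, lt_of_lt_of_le hRd hr.1⟩
  have hc' : ∀ {f : ℝ → ℂ}, ContinuousOn f (Icc (R + d') 8) →
      ContinuousOn (fun r => conj (f r)) (Icc (R + d') 8) := fun h =>
    Complex.continuous_conj.comp_continuousOn h
  obtain ⟨M1, hM1⟩ := exists_bound_Icc (hcont hmre).1
  obtain ⟨M2, hM2⟩ := exists_bound_Icc (hcont hmre).2
  obtain ⟨M3, hM3⟩ := exists_bound_Icc (hc' (hcont hmre').1)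
  obtain ⟨M4, hM4⟩ := exists_bound_Icc (hc' (hcont hmre').2)
  have w1 := unif_mul u1 hM1 hc1 (half_pos hε)
  have w2 := unif_mul u2 hM2 hc1 (half_pos hε)
  have w3 := unif_mul v3 hM3 hc2 (half_pos hε)
  have w4 := unif_mul v4 hM4 hc2 (half_pos hε)
  have he2 : ∀ᶠ j in φ, Real.exp (-c * B.nn j) * (1 + La) ^ K ≤ ε / 2 :=
    (hexp.eventually (gt_mem_nhds (half_pos hε))).mono fun _ h => h.le
  filter_upwards [hmain, w1, w2, w3, w4, he2] with j hj w1 w2 w3 w4 he r hr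
  have hr' : r ∈ Icc (R + d') 8 := ⟨by linarith [hr.1, min_le_left d (r3 - R)], hr.2⟩
  obtain ⟨a1, a2, a3, a4⟩ := hj r hr'
  have tri : ∀ {x y z : ℂ}, ‖x - y‖ ≤ Real.exp (-c * B.nn j) * (1 + La) ^ K → ‖y - z‖ ≤ ε / 2 →
      ‖x - z‖ ≤ ε := by
    intro x y z h1 h2
    calc ‖x - z‖ = ‖(x - y) + (y - z)‖ := by congr 1; ring
      _ ≤ ‖x - y‖ + ‖y - z‖ := norm_add_le _ _
      _ ≤ ε := by linarith
  exact ⟨tri a1 (w1 r hr'), tri a2 (w2 r hr'), tri a3 (w3 r hr'), tri a4 (w4 r hr')⟩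

/-- **NS** (node N7, source free part) -/
theorem ns (hR0 : 0 < R) (hR6 : R < 6) (hReg : B.REG) (hBC : B.C4BC) (hNT : B.C4NT)
    (hE : B.EXT0 JCx.Phi JCx.Phi1) (hL : LimitSpec JCx.Phi JCx.Phi1 om0 R) (La : ℝ) (l : ℕ) :
    ∀ᶠ j in atTop, ∀ lam : ℂ, 0 ≤ lam.re → ‖lam‖ ≤ La → C4Red.NS (B.P j) l lam := by
  by_contra hcon
  have hfr : ∃ᶠ j in atTop, ∃ lam : ℂ, 0 ≤ lam.re ∧ ‖lam‖ ≤ La ∧ ¬ C4Red.NS (B.P j) l lam := by
    rw [Filter.not_eventually] at hcon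
    refine hcon.mono fun j hj => ?_
    push Not at hj
    exact hj
  have hfr2 := hfr.and_eventually (exists_bad B (by linarith) hReg La l)
  have hfr3 : ∃ᶠ j in atTop, ∃ (lam : ℂ) (H : R12 → ℝ) (F G : ℝ → ℂ), Bad B La l j lam H F G := by
    refine hfr2.mono fun j hj => ?_
    obtain ⟨⟨lam, h1, h2, h3⟩, h4⟩ := hj
    obtain ⟨H, F, G, hb⟩ := h4 lam h1 h2 h3
    exact ⟨lam, H, F, G, hb⟩
  set S : Set ℕ := {j | ∃ (lam : ℂ) (H : R12 → ℝ) (F G : ℝ → ℂ), Bad B La l j lam H F G} with hS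
  have : NeBot (atTop ⊓ 𝓟 S) := frequently_mem_iff_neBot.1 hfr3
  set φ : Ultrafilter ℕ := Ultrafilter.of (atTop ⊓ 𝓟 S) with hφd
  have hφle : (φ : Filter ℕ) ≤ atTop ⊓ 𝓟 S := Ultrafilter.of_le _
  have hφ : (φ : Filter ℕ) ≤ atTop := hφle.trans inf_le_left
  have hφS : ∀ᶠ j in φ, j ∈ S := hφle (mem_inf_of_right (mem_principal_self S))
  have hch : ∀ j, ∃ (lam : ℂ) (H : R12 → ℝ) (F G : ℝ → ℂ), j ∈ S → Bad B La l j lam H F G := by
    intro j
    by_cases h : j ∈ S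
    · obtain ⟨lam, H, F, G, hb⟩ := h
      exact ⟨lam, H, F, G, fun _ => hb⟩
    · exact ⟨0, 0, 0, 0, fun h' => absurd h' h⟩
  choose lam H F G hb using hch
  have hbad : ∀ᶠ j in φ, Bad B La l j (lam j) (H j) (F j) (G j) := hφS.mono fun j hj => hb j hj
  obtain ⟨ls, hls⟩ := ultra_lim φ (hbad.mono fun _ h => h.bd)
  have hre : 0 ≤ ls.re := by
    have h1 : Tendsto (fun j => (lam j).re) φ (𝓝 ls.re) := (Complex.continuous_re.tendsto ls).comp hls
    exact ge_of_tendsto h1 (hbad.mono fun _ h => h.re)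
  -- `DetL ≠ 0`
  have far : ∀ (s : ℝ), (∀ j, ∃ e, (B.P j).IsSym l s e) → ls ≠ (s : ℂ) := by
    intro s hs heq
    have h1 : ∀ᶠ j in φ, 1 / 4 ≤ ‖(s : ℂ) - lam j‖ := hbad.mono fun j h => by
      obtain ⟨e, he⟩ := hs j
      exact (h.far s e he).le
    have h2 : Tendsto (fun j => ‖(s : ℂ) - lam j‖) φ (𝓝 ‖(s : ℂ) - ls‖) :=
      (hls.const_sub (s : ℂ)).norm
    have h3 := ge_of_tendsto h2 h1
    rw [heq, sub_self, norm_zero] at h3
    norm_num at h3
  have hD : DetL JCx.Phi JCx.Phi1 om0 R l ls ≠ 0 := by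
    refine hL.ne_zero l ls hre ?_ ?_
    · rintro ⟨hl, h | h⟩
      · refine far 0 (fun j => ⟨_, Or.inl ⟨hl, rfl, rfl⟩⟩) ?_
        rw [h]; simp
      · refine far 1 (fun j => ⟨_, Or.inr (Or.inl ⟨hl, rfl, rfl⟩)⟩) ?_
        rw [h]; simp
    · rintro ⟨hl, h⟩
      refine far (1 / 2) (fun j => ⟨_, Or.inr (Or.inr ⟨hl, rfl, rfl⟩)⟩) ?_
      rw [h]; push_cast; rfl
  obtain ⟨c1, c2, hlim⟩ := limit B hR0 hR6 hBC hE φ hφ hbad hls hre
  set m : ℂ := ls - I * om0 with hm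
  set m' : ℂ := conj ls - I * om0 with hm'
  have hmre : -(1 / 4) < m.re := by
    rw [hm]; simp; linarith
  have hmre' : -(1 / 4) < m'.re := by
    rw [hm']; simp; linarith
  -- boundary relations
  obtain ⟨C, d0, hd0, hC⟩ := hBC La l
  have hrel : ∀ d : ℝ, 0 < d → d ≤ d0 → R + d ≤ 8 →
      ‖c1 * JCx.Phi l m (R + d) + c2 * conj (JCx.Phi l m' (R + d))‖ ≤ C * Real.sqrt d ∧
      ‖(c1 * JCx.Phi1 l m (R + d) - c2 * conj (JCx.Phi1 l m' (R + d))) - (l : ℂ) / (R : ℂ) *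
        (c1 * JCx.Phi l m (R + d) - c2 * conj (JCx.Phi l m' (R + d)))‖ ≤ C * Real.sqrt d := by
    intro d hd hdd hd8
    have h1 := (hC d hd hdd).filter_mono hφ
    have key : ∀ ε : ℝ, 0 < ε →
        ‖c1 * JCx.Phi l m (R + d) + c2 * conj (JCx.Phi l m' (R + d))‖ ≤
          C * Real.sqrt d + (2 + 2 * ‖(l : ℂ) / (R : ℂ)‖) * ε ∧
        ‖(c1 * JCx.Phi1 l m (R + d) - c2 * conj (JCx.Phi1 l m' (R + d))) - (l : ℂ) / (R : ℂ) *
          (c1 * JCx.Phi l m (R + d) - c2 * conj (JCx.Phi l m' (R + d)))‖ ≤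
          C * Real.sqrt d + (2 + 2 * ‖(l : ℂ) / (R : ℂ)‖) * ε := by
      intro ε hε
      obtain ⟨j, hj1, hj2, hj3⟩ := (hbad.and (h1.and (hlim d hd ε hε))).exists
      obtain ⟨b1, b2, _⟩ := hj2 (H j) (lam j) 0 (fun _ => 0) (F j) (G j) hj1.re hj1.bd (by simp)
        hj1.pair (Or.inl ⟨rfl, rfl⟩) hj1.nb.le
      obtain ⟨a1, a2, a3, a4⟩ := hj3 (R + d) ⟨le_rfl, hd8⟩
      set X := JCx.Phi l m (R + d)
      set X1 := JCx.Phi1 l m (R + d)
      set Y := conj (JCx.Phi l m' (R + d))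
      set Y1 := conj (JCx.Phi1 l m' (R + d))
      set q := (l : ℂ) / (R : ℂ)
      have hq := norm_nonneg q
      constructor
      · have e : c1 * X + c2 * Y = (F j (R + d) + G j (R + d)) - (F j (R + d) - c1 * X)
            - (G j (R + d) - c2 * Y) := by ring
        rw [e]
        calc _ ≤ ‖F j (R + d) + G j (R + d)‖ + ‖F j (R + d) - c1 * X‖ + ‖G j (R + d) - c2 * Y‖ := by
              refine (norm_sub_le _ _).trans ?_
              gcongr
              exact norm_sub_le _ _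
          _ ≤ C * Real.sqrt d + ε + ε := by gcongr
          _ ≤ _ := by nlinarith
      · have e : (c1 * X1 - c2 * Y1) - q * (c1 * X - c2 * Y)
            = (deriv (F j) (R + d) - deriv (G j) (R + d) - q * (F j (R + d) - G j (R + d)))
              - (deriv (F j) (R + d) - c1 * X1) + (deriv (G j) (R + d) - c2 * Y1)
              + q * (F j (R + d) - c1 * X) - q * (G j (R + d) - c2 * Y) := by ring
        rw [e]
        calc _ ≤ ‖deriv (F j) (R + d) - deriv (G j) (R + d) - q * (F j (R + d) - G j (R + d))‖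
              + ‖deriv (F j) (R + d) - c1 * X1‖ + ‖deriv (G j) (R + d) - c2 * Y1‖
              + ‖q * (F j (R + d) - c1 * X)‖ + ‖q * (G j (R + d) - c2 * Y)‖ := by
              refine (norm_sub_le _ _).trans ?_
              gcongr
              refine (norm_add_le _ _).trans ?_
              gcongr
              refine (norm_add_le _ _).trans ?_
              gcongr
              exact norm_sub_le _ _
          _ ≤ C * Real.sqrt d + ε + ε + ‖q‖ * ε + ‖q‖ * ε := by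
              rw [norm_mul, norm_mul]
              gcongr
          _ = _ := by ring
    have hA : 0 < 2 + 2 * ‖(l : ℂ) / (R : ℂ)‖ := by positivity
    constructor
    · refine le_of_forall_pos_le_add fun ε hε => ?_
      have := (key (ε / (2 + 2 * ‖(l : ℂ) / (R : ℂ)‖)) (by positivity)).1
      rwa [mul_div_cancel₀ _ hA.ne'] at this
    · refine le_of_forall_pos_le_add fun ε hε => ?_
      have := (key (ε / (2 + 2 * ‖(l : ℂ) / (R : ℂ)‖)) (by positivity)).2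
      rwa [mul_div_cancel₀ _ hA.ne'] at this
  -- limit `d → 0`
  have hcR : ∀ {m : ℂ}, -(1 / 4) < m.re → ContinuousAt (JCx.Phi l m) R ∧
      ContinuousAt (JCx.Phi1 l m) R := by
    intro m hm
    constructor
    · exact (phiFacts.der l m hm R hR0).continuousAt
    · have h1 : ContinuousAt (fun p : ℂ × ℝ => JCx.Phi1 l p.1 p.2) (m, R) :=
        (phiFacts.cont1 l (m, R) ⟨hm, hR0⟩).continuousAt
          ((isOpen_HPl.prod isOpen_Ioi).mem_nhds ⟨hm, hR0⟩)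
      exact ContinuousAt.comp (g := fun p : ℂ × ℝ => JCx.Phi1 l p.1 p.2)
        (f := fun r : ℝ => (m, r)) (x := R) h1 (by fun_prop)
  have hsh : Tendsto (fun d : ℝ => R + d) (𝓝[>] 0) (𝓝 R) := by
    have : Tendsto (fun d : ℝ => R + d) (𝓝 0) (𝓝 (R + 0)) := (continuous_const.add continuous_id).tendsto 0
    rw [add_zero] at this
    exact this.mono_left nhdsWithin_le_nhds
  have tt : ∀ {f : ℝ → ℂ}, ContinuousAt f R → Tendsto (fun d : ℝ => f (R + d)) (𝓝[>] 0) (𝓝 (f R)) :=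
    fun h => h.tendsto.comp hsh
  have tc : ∀ {f : ℝ → ℂ}, ContinuousAt f R →
      Tendsto (fun d : ℝ => conj (f (R + d))) (𝓝[>] 0) (𝓝 (conj (f R))) := fun h =>
    (Complex.continuous_conj.tendsto _).comp (tt h)
  have t1 := tt (hcR hmre).1
  have t2 := tt (hcR hmre).2
  have t3 := tc (hcR hmre').1
  have t4 := tc (hcR hmre').2
  have hsq : Tendsto (fun d : ℝ => C * Real.sqrt d) (𝓝[>] 0) (𝓝 0) := by
    have : Tendsto (fun d : ℝ => C * Real.sqrt d) (𝓝 0) (𝓝 (C * Real.sqrt 0)) :=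
      (continuous_const.mul Real.continuous_sqrt).tendsto 0
    rw [Real.sqrt_zero, mul_zero] at this
    exact this.mono_left nhdsWithin_le_nhds
  have hevd : ∀ᶠ d : ℝ in 𝓝[>] 0, 0 < d ∧ d ≤ d0 ∧ R + d ≤ 8 := by
    have h1 : Ioc (0 : ℝ) (min d0 (8 - R)) ∈ 𝓝[>] (0 : ℝ) := Ioc_mem_nhdsGT (lt_min hd0 (by linarith))
    filter_upwards [h1] with d hd
    exact ⟨hd.1, hd.2.trans (min_le_left _ _), by linarith [hd.2.trans (min_le_right d0 (8 - R))]⟩
  have z1 : c1 * JCx.Phi l m R + c2 * conj (JCx.Phi l m' R) = 0 := by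
    have h1 : Tendsto (fun d : ℝ => c1 * JCx.Phi l m (R + d) + c2 * conj (JCx.Phi l m' (R + d)))
        (𝓝[>] 0) (𝓝 0) := by
      refine squeeze_zero_norm' ?_ hsq
      filter_upwards [hevd] with d hd using (hrel d hd.1 hd.2.1 hd.2.2).1
    exact tendsto_nhds_unique ((t1.const_mul c1).add (t3.const_mul c2)) h1
  have z2 : (c1 * JCx.Phi1 l m R - c2 * conj (JCx.Phi1 l m' R)) - (l : ℂ) / (R : ℂ) *
      (c1 * JCx.Phi l m R - c2 * conj (JCx.Phi l m' R)) = 0 := by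
    have h1 : Tendsto (fun d : ℝ => (c1 * JCx.Phi1 l m (R + d) - c2 * conj (JCx.Phi1 l m' (R + d)))
        - (l : ℂ) / (R : ℂ) * (c1 * JCx.Phi l m (R + d) - c2 * conj (JCx.Phi l m' (R + d))))
        (𝓝[>] 0) (𝓝 0) := by
      refine squeeze_zero_norm' ?_ hsq
      filter_upwards [hevd] with d hd using (hrel d hd.1 hd.2.1 hd.2.2).2
    exact tendsto_nhds_unique (((t2.const_mul c1).sub (t4.const_mul c2)).sub
      (((t1.const_mul c1).sub (t3.const_mul c2)).const_mul ((l : ℂ) / (R : ℂ)))) h1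
  have z2' : c1 * PsiL JCx.Phi JCx.Phi1 R l m - c2 * conj (PsiL JCx.Phi JCx.Phi1 R l m') = 0 := by
    unfold PsiL
    rw [← z2]
    simp only [map_sub, map_mul, map_div₀, map_natCast, Complex.conj_ofReal]
    ring
  obtain ⟨rfl, rfl⟩ := C4Fin.alg1 hD z1 z2'
  -- contradiction
  obtain ⟨d, hd, hd6, hnt⟩ := hNT La l (1 / 2) (by norm_num)
  obtain ⟨j, hj1, hj2, hj3⟩ := (hbad.and ((hnt.filter_mono hφ).and (hlim d hd d hd))).exists
  have := hj2 (H j) (lam j) 0 (fun _ => 0) (F j) (G j) hj1.re hj1.bd (by simp) hj1.pair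
    (Or.inl ⟨rfl, rfl⟩) hj1.nb.le (fun r hr => by
      obtain ⟨a1, a2, a3, a4⟩ := hj3 r hr
      simp only [zero_mul, sub_zero] at a1 a2 a3 a4
      exact ⟨a1, a2, a3, a4⟩)
  rw [hj1.nb] at this
  norm_num at this

end

end Crest.Agent.R086.C4NS
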