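import Crest.Agent.R086.C4d

/-!
Row 86 (S0114), Part C, C4: `∫_0^R w |D|²` is controlled by the boundary values and by small quantities.
-/

set_option autoImplicit false

open Complex ComplexConjugate Set MeasureTheory

namespace Crest.Agent.R086.C4

open Crest.Agent.R086.CCore Hyp

namespace Hyp

variable {Q Q1 : ℝ → ℂ} {P : ℝ → ℝ} {kap n eps : ℝ} {lam : ℂ}
  {S S1 D D1 sS sD : ℝ → ℂ} {B L M : ℝ}

/-- density of the kinetic energy of `D` -/
noncomputable def kD (Q : ℝ → ℂ) (kap : ℝ) (D D1 : ℝ → ℂ) (r : ℝ) : ℝ :=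
  w Q r * ‖D1 r‖ ^ 2 + kap * (‖Q r‖ ^ 2 * r ^ 9) * ‖D r‖ ^ 2

theorem im_le_mul (z u : ℂ) : |(z * conj u).im| ≤ ‖z‖ * ‖u‖ := by
  calc |(z * conj u).im| ≤ ‖z * conj u‖ := Complex.abs_im_le_norm _
    _ = ‖z‖ * ‖u‖ := by rw [norm_mul, Complex.norm_conj]

/-- **(L3)** kinetic energy of `D` on `[0,R]`. -/
theorem KD (h : Hyp 8 Q Q1 P kap n eps lam S S1 D D1 sS sD)
    (hb : Bds Q Q1 eps lam S D sS sD B L M)
    {R sg s2 : ℝ} (hR : 0 < R) (hR6 : R ≤ 6)
    (hsg : ∀ r ∈ Icc 0 R, ‖sS r‖ ≤ sg)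
    (hs2 : ∫ r in (0:ℝ)..R, w Q r * ‖S r‖ ^ 2 ≤ s2) :
    ∫ r in (0:ℝ)..R, kD Q kap D D1 r ≤
      w Q R * (‖D1 R‖ * ‖D R‖ + B * (‖S R‖ * ‖D R‖))
        + ((8 + L) * (Real.sqrt s2 * Real.sqrt M) + B * (Real.sqrt s2 * Real.sqrt (Ec B L M))
          + sg * (Real.sqrt (8 * (4 * 8 ^ 11)) * Real.sqrt M)) := by
  have hB0 := B0 hb
  have hL0 := L0 hb
  have hR8 : R ≤ 8 := by linarith
  have hsub : Icc 0 R ⊆ Icc (0:ℝ) 8 := Icc_subset_Icc le_rfl hR8
  have hs : ∀ r ∈ Ioo 0 R, r ∈ Ioo (0:ℝ) 8 := fun r hr => ⟨hr.1, by linarith [hr.2]⟩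
  have hsg0 : 0 ≤ sg := (norm_nonneg _).trans (hsg 0 ⟨le_rfl, hR.le⟩)
  have cw' := h.ofReal_w_cont.mono hsub
  have cw0 := h.cw.mono hsub
  have cb0 := h.cb.mono hsub
  have cb' := h.ofReal_b_cont.mono hsub
  have cQ := h.cQ.mono hsub
  have cS := h.cS.mono hsub
  have cS1 := h.cS1.mono hsub
  have cD := h.cD.mono hsub
  have cD1 := h.cD1.mono hsub
  have csS := h.csS.mono hsub
  set Ψ : ℝ → ℝ := fun r => (((w Q r : ℂ) * D1 r) * conj (D r)).re
    - ((((w Q r * b Q Q1 r : ℝ) : ℂ) * S r) * conj (D r)).im with hΨ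
  set f : ℝ → ℝ := fun r => w Q r * ‖D1 r‖ ^ 2 + kap * (‖Q r‖ ^ 2 * r ^ 9) * ‖D r‖ ^ 2
    + w Q r * ((lam * S r + sS r) * conj (D r)).im
    - (6 - 2 * eps) * w Q r * (S r * conj (D r)).im
    - w Q r * b Q Q1 r * (S r * conj (D1 r)).im with hf
  have hd : ∀ r ∈ Ioo 0 R, HasDerivAt Ψ (f r) r := by
    intro r hr
    have hs' := h.sys r (hs r hr)
    have hr0 : r ≠ 0 := hr.1.ne'
    have hDc : HasDerivAt (fun r => conj (D r)) (conj (D1 r)) r := CCore.hasDerivAt_conj hs'.hD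
    have dwb : HasDerivAt (fun r : ℝ => ((w Q r * b Q Q1 r : ℝ) : ℂ))
      (((6 - 2 * eps) * w Q r : ℝ) : ℂ) r := hs'.hwb.ofReal_comp
    have t1 := Complex.reCLM.hasFDerivAt.comp_hasDerivAt r (hs'.hD1.mul hDc)
    have t2 := Complex.imCLM.hasFDerivAt.comp_hasDerivAt r ((dwb.mul hs'.hS).mul hDc)
    have t : HasDerivAt Ψ _ r := t1.sub t2
    refine t.congr_deriv ?_
    have e1 : ((kap : ℂ) / (r : ℂ) ^ 2) = ((kap / r ^ 2 : ℝ) : ℂ) := by push_cast; rfl
    have e2 : kap / r ^ 2 * w Q r = kap * (‖Q r‖ ^ 2 * r ^ 9) := by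
      rw [← w_div Q hr0]; ring
    have e : ∀ z : ℂ, ‖z‖ ^ 2 = z.re ^ 2 + z.im ^ 2 := by
      intro z
      rw [← Complex.normSq_eq_norm_sq, Complex.normSq_apply]
      ring
    simp only [hf, Complex.reCLM_apply, Complex.imCLM_apply, e1]
    rw [← e2]
    simp only [e (D1 r), e (D r), Pi.mul_apply, Complex.mul_re, Complex.mul_im,
      Complex.add_re, Complex.add_im, Complex.sub_re,
      Complex.sub_im, Complex.conj_re, Complex.conj_im, Complex.ofReal_re, Complex.ofReal_im,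
      Complex.I_re, Complex.I_im]
    ring
  have cconj : ∀ u : ℝ → ℂ, ContinuousOn u (Icc 0 R) → ContinuousOn (fun r => conj (u r))
      (Icc 0 R) := fun u hu => Complex.continuous_conj.comp_continuousOn hu
  have k1 : ContinuousOn (fun r => ((lam * S r + sS r) * conj (D r)).im) (Icc 0 R) :=
    Complex.continuous_im.comp_continuousOn
      (((continuousOn_const.mul cS).add csS).mul (cconj D cD))
  have k2 : ContinuousOn (fun r => (S r * conj (D r)).im) (Icc 0 R) :=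
    Complex.continuous_im.comp_continuousOn (cS.mul (cconj D cD))
  have k3 : ContinuousOn (fun r => (S r * conj (D1 r)).im) (Icc 0 R) :=
    Complex.continuous_im.comp_continuousOn (cS.mul (cconj D1 cD1))
  have cf : ContinuousOn f (Icc 0 R) := by
    simp only [hf]
    fun_prop
  have cΨ : ContinuousOn Ψ (Icc 0 R) := by
    have kwb : ContinuousOn (fun r => ((w Q r * b Q Q1 r : ℝ) : ℂ)) (Icc 0 R) :=
      Complex.continuous_ofReal.comp_continuousOn (cw0.mul cb0)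
    exact (Complex.continuous_re.comp_continuousOn ((cw'.mul cD1).mul (cconj D cD))).sub
      (Complex.continuous_im.comp_continuousOn ((kwb.mul cS).mul (cconj D cD)))
  have iff' : IntervalIntegrable f volume 0 R :=
    ContinuousOn.intervalIntegrable (by rw [uIcc_of_le hR.le]; exact cf)
  have hftc := intervalIntegral.integral_eq_sub_of_hasDerivAt_of_le hR.le cΨ hd iff'
  have hΨ0 : Ψ 0 = 0 := by simp [hΨ, w]
  rw [hΨ0, sub_zero] at hftc
  -- boundary term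
  have hw0R := w_nonneg Q hR.le
  have hΨR : Ψ R ≤ w Q R * (‖D1 R‖ * ‖D R‖ + B * (‖S R‖ * ‖D R‖)) := by
    simp only [hΨ]
    have e1 : (((w Q R : ℂ) * D1 R) * conj (D R)).re ≤ w Q R * (‖D1 R‖ * ‖D R‖) := by
      rw [mul_assoc, Complex.re_ofReal_mul]
      exact mul_le_mul_of_nonneg_left ((le_abs_self _).trans (re_le_mul _ _)) hw0R
    have e2 : -((((w Q R * b Q Q1 R : ℝ) : ℂ) * S R) * conj (D R)).im ≤
        w Q R * (B * (‖S R‖ * ‖D R‖)) := by
      rw [mul_assoc, Complex.im_ofReal_mul]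
      have a1 := hb.hB R ⟨hR.le, hR8⟩
      have a2 := im_le_mul (S R) (D R)
      calc -(w Q R * b Q Q1 R * (S R * conj (D R)).im)
          ≤ |w Q R * b Q Q1 R * (S R * conj (D R)).im| := neg_le_abs _
        _ = w Q R * (|b Q Q1 R| * |(S R * conj (D R)).im|) := by
            rw [abs_mul, abs_mul, abs_of_nonneg hw0R]; ring
        _ ≤ _ := by gcongr
    linarith
  -- lower bound of f
  have hbd : ∀ r ∈ Icc 0 R, kD Q kap D D1 r ≤ f r + ((8 + L) * (w Q r * (‖S r‖ * ‖D r‖))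
      + B * (w Q r * (‖S r‖ * ‖D1 r‖)) + sg * (w Q r * ‖D r‖)) := by
    intro r hr
    have hr' := hsub hr
    have hw0 := w_nonneg Q hr'.1
    have a1 : -(((lam * S r + sS r) * conj (D r)).im) ≤ (L * ‖S r‖ + sg) * ‖D r‖ := by
      refine (neg_le_abs _).trans ((im_le_mul _ _).trans ?_)
      refine mul_le_mul_of_nonneg_right ?_ (norm_nonneg _)
      refine (norm_add_le _ _).trans ?_
      rw [norm_mul]
      have := hb.hL
      have := hsg r hr
      gcongr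
    have a2 : (6 - 2 * eps) * (S r * conj (D r)).im ≤ 8 * (‖S r‖ * ‖D r‖) := by
      have h1 := abs_le.1 hb.he
      have h2 : |6 - 2 * eps| ≤ 8 := by rw [abs_le]; constructor <;> linarith [h1.1, h1.2]
      calc (6 - 2 * eps) * (S r * conj (D r)).im ≤ |(6 - 2 * eps) * (S r * conj (D r)).im| :=
            le_abs_self _
        _ = |6 - 2 * eps| * |(S r * conj (D r)).im| := abs_mul _ _
        _ ≤ _ := by
            have := im_le_mul (S r) (D r)
            gcongr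
    have a3 : b Q Q1 r * (S r * conj (D1 r)).im ≤ B * (‖S r‖ * ‖D1 r‖) := by
      calc b Q Q1 r * (S r * conj (D1 r)).im ≤ |b Q Q1 r * (S r * conj (D1 r)).im| :=
            le_abs_self _
        _ = |b Q Q1 r| * |(S r * conj (D1 r)).im| := abs_mul _ _
        _ ≤ _ := by
            have := im_le_mul (S r) (D1 r)
            have := hb.hB r hr'
            gcongr
    have b1 := mul_le_mul_of_nonneg_left a1 hw0
    have b2 := mul_le_mul_of_nonneg_left a2 hw0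
    have b3 := mul_le_mul_of_nonneg_left a3 hw0
    simp only [hf, kD]
    linarith
  have ckD : ContinuousOn (kD Q kap D D1) (Icc 0 R) := by
    unfold kD
    fun_prop
  have cnS := cS.norm
  have cnD := cD.norm
  have cnD1 := cD1.norm
  have j1 : IntervalIntegrable (fun r => (8 + L) * (w Q r * (‖S r‖ * ‖D r‖))) volume 0 R :=
    ContinuousOn.intervalIntegrable (by rw [uIcc_of_le hR.le]; fun_prop)
  have j2 : IntervalIntegrable (fun r => B * (w Q r * (‖S r‖ * ‖D1 r‖))) volume 0 R :=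
    ContinuousOn.intervalIntegrable (by rw [uIcc_of_le hR.le]; fun_prop)
  have j3 : IntervalIntegrable (fun r => sg * (w Q r * ‖D r‖)) volume 0 R :=
    ContinuousOn.intervalIntegrable (by rw [uIcc_of_le hR.le]; fun_prop)
  have jk : IntervalIntegrable (kD Q kap D D1) volume 0 R :=
    ContinuousOn.intervalIntegrable (by rw [uIcc_of_le hR.le]; exact ckD)
  have hm := intervalIntegral.integral_mono_on hR.le jk (iff'.add ((j1.add j2).add j3)) hbd
  have q1 : ∫ r in (0:ℝ)..R, (8 + L) * (w Q r * (‖S r‖ * ‖D r‖)) =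
      (8 + L) * ∫ r in (0:ℝ)..R, (w Q r * (‖S r‖ * ‖D r‖)) :=
    intervalIntegral.integral_const_mul _ _
  have q2 : ∫ r in (0:ℝ)..R, B * (w Q r * (‖S r‖ * ‖D1 r‖)) =
      B * ∫ r in (0:ℝ)..R, (w Q r * (‖S r‖ * ‖D1 r‖)) :=
    intervalIntegral.integral_const_mul _ _
  have q3 : ∫ r in (0:ℝ)..R, sg * (w Q r * ‖D r‖) =
      sg * ∫ r in (0:ℝ)..R, (w Q r * ‖D r‖) :=
    intervalIntegral.integral_const_mul _ _
  rw [intervalIntegral.integral_add iff' ((j1.add j2).add j3),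
    intervalIntegral.integral_add (j1.add j2) j3, intervalIntegral.integral_add j1 j2,
    q1, q2, q3, hftc] at hm
  -- the three integrals
  have hMD : ∫ r in (0:ℝ)..R, w Q r * ‖D r‖ ^ 2 ≤ M := by
    refine le_trans ?_ (h.nd_int hb le_rfl hR.le hR8)
    refine intervalIntegral.integral_mono_on hR.le ?_ ?_ ?_
    · exact ContinuousOn.intervalIntegrable (by rw [uIcc_of_le hR.le]; fun_prop)
    · exact ContinuousOn.intervalIntegrable (by rw [uIcc_of_le hR.le]; exact h.c_nd.mono hsub)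
    · intro r hr
      have := w_nonneg Q hr.1
      have : 0 ≤ w Q r * ‖S r‖ ^ 2 := by positivity
      unfold nd
      linarith
  have hED : ∫ r in (0:ℝ)..R, w Q r * ‖D1 r‖ ^ 2 ≤ Ec B L M := by
    refine le_trans ?_ (h.e6 hb le_rfl hR.le hR6)
    refine intervalIntegral.integral_mono_on hR.le ?_ ?_ ?_
    · exact ContinuousOn.intervalIntegrable (by rw [uIcc_of_le hR.le]; fun_prop)
    · exact ContinuousOn.intervalIntegrable (by rw [uIcc_of_le hR.le]; exact h.c_ed.mono hsub)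
    · intro r hr
      have hr' := hsub hr
      have h0 := w_nonneg Q hr.1
      have h2 := h.P0 r hr'
      have h3 := h.kap0
      have h4 := h.n0
      have h5 := hr'.1
      unfold ed
      have h6 : 0 ≤ kap * (‖Q r‖ ^ 2 * r ^ 9) * (‖S r‖ ^ 2 + ‖D r‖ ^ 2)
        + n * P r * w Q r * ‖S r‖ ^ 2 := by positivity
      have h7 : 0 ≤ w Q r * ‖S1 r‖ ^ 2 := by positivity
      linarith
  have c1 := cs_abs hR.le cw0 cnS cnD (fun r hr => w_nonneg Q hr.1)
  have c2 := cs_abs hR.le cw0 cnS cnD1 (fun r hr => w_nonneg Q hr.1)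
  have c3 := h.w_f hR.le hR8 cnD hMD
  have c1' : ∫ r in (0:ℝ)..R, w Q r * (‖S r‖ * ‖D r‖) ≤ Real.sqrt s2 * Real.sqrt M :=
    c1.trans (mul_le_mul (Real.sqrt_le_sqrt hs2) (Real.sqrt_le_sqrt hMD) (Real.sqrt_nonneg _)
      (Real.sqrt_nonneg _))
  have c2' : ∫ r in (0:ℝ)..R, w Q r * (‖S r‖ * ‖D1 r‖) ≤ Real.sqrt s2 * Real.sqrt (Ec B L M) :=
    c2.trans (mul_le_mul (Real.sqrt_le_sqrt hs2) (Real.sqrt_le_sqrt hED) (Real.sqrt_nonneg _)
      (Real.sqrt_nonneg _))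
  have d1 := mul_le_mul_of_nonneg_left c1' (by positivity : 0 ≤ 8 + L)
  have d2 := mul_le_mul_of_nonneg_left c2' hB0
  have d3 := mul_le_mul_of_nonneg_left c3 hsg0
  linarith

/-- `∫_0^R w ‖D‖²` by the boundary value and the kinetic energy. -/
theorem D_L2 (h : Hyp 8 Q Q1 P kap n eps lam S S1 D D1 sS sD)
    {R K : ℝ} (hR : 0 < R) (hR6 : R ≤ 6)
    (hK : ∫ r in (0:ℝ)..R, kD Q kap D D1 r ≤ K) :
    ∫ r in (0:ℝ)..R, w Q r * ‖D r‖ ^ 2 ≤ 8 * (8 * 8 ^ 11 * ‖D R‖ ^ 2 + 256 * K) := by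
  have hR8 : R ≤ 8 := by linarith
  have hsub : Icc 0 R ⊆ Icc (0:ℝ) 8 := Icc_subset_Icc le_rfl hR8
  have hs : ∀ r ∈ Ioo 0 R, r ∈ Ioo (0:ℝ) 8 := fun r hr => ⟨hr.1, by linarith [hr.2]⟩
  have cw0 := h.cw.mono hsub
  have cQ := h.cQ.mono hsub
  have cD := h.cD.mono hsub
  have cD1 := h.cD1.mono hsub
  have ckD : ContinuousOn (kD Q kap D D1) (Icc 0 R) := by
    unfold kD
    fun_prop
  have hk0 : ∀ r ∈ Icc 0 R, 0 ≤ kD Q kap D D1 r := by
    intro r hr
    have := w_nonneg Q hr.1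
    have := h.kap0
    have := hr.1
    unfold kD
    positivity
  have hK0 : 0 ≤ K := le_trans (intervalIntegral.integral_nonneg hR.le hk0) hK
  have key : ∀ r ∈ Icc 0 R, w Q r * ‖D r‖ ^ 2 ≤ 8 * 8 ^ 11 * ‖D R‖ ^ 2 + 256 * K := by
    intro r hr
    have hr' := hsub hr
    have hsr : Icc r R ⊆ Icc 0 R := Icc_subset_Icc hr.1 le_rfl
    have h1 := diff_sq hr.2 (cD.mono hsr) (cD1.mono hsr) (fun x hx =>
      (h.sys x (hs x ⟨by linarith [hx.1, hr.1], hx.2⟩)).hD)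
    have h2 : r ^ 11 / 4 * (∫ x in r..R, ‖D1 x‖ ^ 2) ≤ K := by
      have ckr := ckD.mono hsr
      have cD1r := cD1.mono hsr
      rw [← intervalIntegral.integral_const_mul]
      refine le_trans (intervalIntegral.integral_mono_on hr.2 ?_ ?_ ?_)
        ((sub_int ckD hk0 hr.1 hr.2 le_rfl).trans hK)
      · exact ContinuousOn.intervalIntegrable (by rw [uIcc_of_le hr.2]; fun_prop)
      · exact ContinuousOn.intervalIntegrable (by rw [uIcc_of_le hr.2]; exact ckr)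
      · intro x hx
        have hx' := hsub (hsr hx)
        have h5 := h.wl hx'
        have h6 : r ^ 11 ≤ x ^ 11 := pow_le_pow_left₀ hr.1 hx.1 11
        have h7 : r ^ 11 / 4 * ‖D1 x‖ ^ 2 ≤ w Q x * ‖D1 x‖ ^ 2 :=
          mul_le_mul_of_nonneg_right (by linarith) (sq_nonneg _)
        have h8 : 0 ≤ kap * (‖Q x‖ ^ 2 * x ^ 9) * ‖D x‖ ^ 2 := by
          have := h.kap0
          have := hx'.1
          positivity
        unfold kD
        linarith
    have hJ0 : 0 ≤ ∫ x in r..R, ‖D1 x‖ ^ 2 :=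
      intervalIntegral.integral_nonneg hr.2 (fun x _ => sq_nonneg _)
    have h3 : r ^ 11 * ‖D R - D r‖ ^ 2 ≤ 32 * K := by
      have hr11 : 0 ≤ r ^ 11 := pow_nonneg hr.1 11
      have g1 : ‖D R - D r‖ ^ 2 ≤ 8 * ∫ x in r..R, ‖D1 x‖ ^ 2 :=
        h1.trans (mul_le_mul_of_nonneg_right (by linarith [hr.1]) hJ0)
      have g2 := mul_le_mul_of_nonneg_left g1 hr11
      linarith
    have h4 : ‖D r‖ ^ 2 ≤ 2 * ‖D R‖ ^ 2 + 2 * ‖D R - D r‖ ^ 2 := by
      have g0 : ‖D r‖ ≤ ‖D R‖ + ‖D R - D r‖ := by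
        calc ‖D r‖ = ‖D R - (D R - D r)‖ := by ring_nf
          _ ≤ _ := norm_sub_le _ _
      nlinarith [sq_nonneg (‖D R‖ - ‖D R - D r‖), norm_nonneg (D r), norm_nonneg (D R),
        norm_nonneg (D R - D r)]
    have h5 := h.wu hr'
    have h6 : r ^ 11 ≤ 8 ^ 11 := pow_le_pow_left₀ hr'.1 hr'.2 11
    have hr11 : 0 ≤ r ^ 11 := pow_nonneg hr.1 11
    calc w Q r * ‖D r‖ ^ 2 ≤ (4 * r ^ 11) * (2 * ‖D R‖ ^ 2 + 2 * ‖D R - D r‖ ^ 2) :=
          mul_le_mul h5 h4 (sq_nonneg _) (by positivity)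
      _ = 8 * (r ^ 11 * ‖D R‖ ^ 2) + 8 * (r ^ 11 * ‖D R - D r‖ ^ 2) := by ring
      _ ≤ 8 * (8 ^ 11 * ‖D R‖ ^ 2) + 8 * (32 * K) := by
          have := mul_le_mul_of_nonneg_right h6 (sq_nonneg ‖D R‖)
          linarith
      _ = _ := by ring
  have i1 : IntervalIntegrable (fun r => w Q r * ‖D r‖ ^ 2) volume 0 R :=
    ContinuousOn.intervalIntegrable (by rw [uIcc_of_le hR.le]; fun_prop)
  have i2 : IntervalIntegrable (fun _ : ℝ => (8 * 8 ^ 11 * ‖D R‖ ^ 2 + 256 * K : ℝ)) volume 0 R :=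
    intervalIntegrable_const
  have hm := intervalIntegral.integral_mono_on hR.le i1 i2 key
  rw [intervalIntegral.integral_const, smul_eq_mul, sub_zero] at hm
  refine hm.trans (mul_le_mul_of_nonneg_right hR8 ?_)
  positivity

end Hyp

end Crest.Agent.R086.C4
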