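import Mathlib
import Crest.Agent.R086.C4e

/-!
Row 86 (S0114), Part C, C4: a pair which is small outside is small inside (helper651).
-/

set_option autoImplicit false

open Complex ComplexConjugate Set MeasureTheory Filter Topology

namespace Crest.Agent.R086.C4

open Crest.Agent.R086.CCore Hyp

/-- bound of `∫_0^R w |S|²` -/
noncomputable def bs2 (B L M x : ℝ) : ℝ := x ^ 2 * Ec B L M + x * (4 * 8 ^ 11 * (8 * (Ec B L M + M)))
/-- bound of `|S(R)|` -/
noncomputable def bSR (B L M x : ℝ) : ℝ := Real.sqrt (24 * x * Ec B L M)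
/-- bound of `|D(R)|` -/
noncomputable def bDR (B L M A x : ℝ) : ℝ := A * x + Real.sqrt (4 * x * Ec B L M)
/-- bound of `w(R) |D1(R)|` -/
noncomputable def bWD (kap B L M A x : ℝ) : ℝ :=
  4 * 8 ^ 11 * (A * x) +
    Real.sqrt (x * (4 * (4 * 8 ^ 11) * ((kap ^ 2 + L ^ 2 + 1) * M + B ^ 2 * Ec B L M)))
/-- bound of the kinetic energy -/
noncomputable def bK (kap B L M A x : ℝ) : ℝ :=
  (bWD kap B L M A x * bDR B L M A x + 4 * 8 ^ 11 * (B * (bSR B L M x * bDR B L M A x)))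
    + ((8 + L) * (Real.sqrt (bs2 B L M x) * Real.sqrt M)
      + B * (Real.sqrt (bs2 B L M x) * Real.sqrt (Ec B L M))
      + x * (Real.sqrt (8 * (4 * 8 ^ 11)) * Real.sqrt M))
/-- total bound -/
noncomputable def Tot (kap B L M A x : ℝ) : ℝ :=
  bs2 B L M x + 8 * (8 * 8 ^ 11 * bDR B L M A x ^ 2 + 256 * bK kap B L M A x)
    + x * (4 * 8 ^ 11 * (16 * (Ec B L M + M)))

theorem Tot_continuous (kap B L M A : ℝ) : Continuous (Tot kap B L M A) := by
  unfold Tot bK bWD bDR bSR bs2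
  fun_prop

theorem Tot_zero (kap B L M A : ℝ) : Tot kap B L M A 0 = 0 := by
  unfold Tot bK bWD bDR bSR bs2
  simp

namespace Hyp

variable {Q Q1 : ℝ → ℂ} {P : ℝ → ℝ} {kap n eps : ℝ} {lam : ℂ}
  {S S1 D D1 sS sD : ℝ → ℂ} {B L M : ℝ}

theorem nt_abs (h : Hyp 8 Q Q1 P kap n eps lam S S1 D D1 sS sD)
    (hb : Bds Q Q1 eps lam S D sS sD B L M)
    {R x A c : ℝ} (hR3 : 3 ≤ R) (hR4 : R ≤ 4) (hx : 0 < x) (hx1 : x ≤ 1 / 2) (hA : 0 ≤ A)
    (hc : 0 < c) (hn : 0 < n) (hP : ∀ r ∈ Icc 0 (R - x), c ≤ P r) (hX : 1 / (n * c) ≤ x ^ 2)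
    (hsg : ∀ r ∈ Icc 0 R, ‖sS r‖ ≤ x) (hD : ‖D (R + x)‖ ≤ A * x) (hD1 : ‖D1 (R + x)‖ ≤ A * x) :
    ∫ r in (0:ℝ)..(R + x), nd Q S D r ≤ Tot kap B L M A x := by
  have hB0 := B0 hb
  have hL0 := L0 hb
  have hM0 := M0 h hb
  have hE0 := E0 h hb
  have hnc : 0 < n * c := mul_pos hn hc
  -- `∫_0^R w |S|²`
  have hs2 : ∫ r in (0:ℝ)..R, w Q r * ‖S r‖ ^ 2 ≤ bs2 B L M x := by
    refine (h.S_L2 hb hR3 (by linarith) hx hx1 hc hn hP).trans ?_
    unfold bs2
    have := mul_le_mul_of_nonneg_right hX hE0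
    linarith
  -- `S(R)`
  have hSR : ‖S R‖ ≤ bSR B L M x := by
    unfold bSR
    apply Real.le_sqrt_of_sq_le
    refine (h.S_R hb (by linarith) (by linarith) hx hx1 hc hn hP).trans ?_
    have h1 : 8 / (x * (n * c)) ≤ 8 * x := by
      have : 8 / (x * (n * c)) = 8 / x * (1 / (n * c)) := by field_simp
      rw [this]
      calc 8 / x * (1 / (n * c)) ≤ 8 / x * x ^ 2 := by gcongr
        _ = 8 * x := by field_simp
    have := mul_le_mul_of_nonneg_right h1 hE0
    linarith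
  -- `D(R)`
  have hho := h.hold hb (a := R) (c := R + x) (by linarith) (by linarith) (by linarith)
  have hDR : ‖D R‖ ≤ bDR B L M A x := by
    have h1 : ‖D (R + x) - D R‖ ≤ Real.sqrt (4 * x * Ec B L M) := by
      apply Real.le_sqrt_of_sq_le
      refine hho.2.trans (le_of_eq ?_)
      ring
    calc ‖D R‖ = ‖D (R + x) - (D (R + x) - D R)‖ := by ring_nf
      _ ≤ ‖D (R + x)‖ + ‖D (R + x) - D R‖ := norm_sub_le _ _
      _ ≤ _ := by unfold bDR; linarith
  -- `w(R) D1(R)`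
  have hWD : w Q R * ‖D1 R‖ ≤ bWD kap B L M A x := by
    have hw := h.holdw hb (a := R) (c := R + x) (by linarith) (by linarith) (by linarith)
    have h1 : ‖(w Q (R + x) : ℂ) * D1 (R + x) - (w Q R : ℂ) * D1 R‖ ≤
        Real.sqrt (x * (4 * (4 * 8 ^ 11) * ((kap ^ 2 + L ^ 2 + 1) * M + B ^ 2 * Ec B L M))) := by
      apply Real.le_sqrt_of_sq_le
      refine hw.trans (le_of_eq ?_)
      ring
    have h2 : ‖(w Q (R + x) : ℂ) * D1 (R + x)‖ ≤ 4 * 8 ^ 11 * (A * x) := by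
      rw [norm_mul, Complex.norm_real, Real.norm_of_nonneg (w_nonneg Q (by linarith))]
      exact mul_le_mul (h.w_le8 ⟨by linarith, by linarith⟩) hD1 (norm_nonneg _) (by positivity)
    have h3 : w Q R * ‖D1 R‖ = ‖(w Q R : ℂ) * D1 R‖ := by
      rw [norm_mul, Complex.norm_real, Real.norm_of_nonneg (w_nonneg Q (by linarith))]
    rw [h3]
    calc ‖(w Q R : ℂ) * D1 R‖ = ‖(w Q (R + x) : ℂ) * D1 (R + x)
          - ((w Q (R + x) : ℂ) * D1 (R + x) - (w Q R : ℂ) * D1 R)‖ := by ring_nf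
      _ ≤ ‖(w Q (R + x) : ℂ) * D1 (R + x)‖
          + ‖(w Q (R + x) : ℂ) * D1 (R + x) - (w Q R : ℂ) * D1 R‖ := norm_sub_le _ _
      _ ≤ _ := by unfold bWD; linarith
  have hbSR0 : 0 ≤ bSR B L M x := Real.sqrt_nonneg _
  have hbDR0 : 0 ≤ bDR B L M A x := (norm_nonneg _).trans hDR
  have hwR := h.w_le8 (r := R) ⟨by linarith, by linarith⟩
  have hwR0 := w_nonneg Q (show (0:ℝ) ≤ R by linarith)
  -- kinetic energy
  have hK : ∫ r in (0:ℝ)..R, kD Q kap D D1 r ≤ bK kap B L M A x := by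
    refine (h.KD hb (R := R) (by linarith) (by linarith) hsg hs2).trans ?_
    unfold bK
    have h1 : w Q R * (‖D1 R‖ * ‖D R‖ + B * (‖S R‖ * ‖D R‖)) ≤
        bWD kap B L M A x * bDR B L M A x + 4 * 8 ^ 11 * (B * (bSR B L M x * bDR B L M A x)) := by
      have e1 : w Q R * (‖D1 R‖ * ‖D R‖ + B * (‖S R‖ * ‖D R‖)) =
          (w Q R * ‖D1 R‖) * ‖D R‖ + w Q R * (B * (‖S R‖ * ‖D R‖)) := by ring
      rw [e1]
      have e2 : (w Q R * ‖D1 R‖) * ‖D R‖ ≤ bWD kap B L M A x * bDR B L M A x :=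
        mul_le_mul hWD hDR (norm_nonneg _)
          ((mul_nonneg hwR0 (norm_nonneg _)).trans hWD)
      have e3 : w Q R * (B * (‖S R‖ * ‖D R‖)) ≤ 4 * 8 ^ 11 * (B * (bSR B L M x * bDR B L M A x)) := by
        have e4 : ‖S R‖ * ‖D R‖ ≤ bSR B L M x * bDR B L M A x :=
          mul_le_mul hSR hDR (norm_nonneg _) hbSR0
        exact mul_le_mul hwR (mul_le_mul_of_nonneg_left e4 hB0) (by positivity) (by positivity)
      linarith
    linarith
  have hD2 := h.D_L2 (R := R) (by linarith) (by linarith) hK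
  -- on `[R, R + x]`
  have cnd := h.c_nd
  have cw := h.cw
  have cS := h.cS
  have cD := h.cD
  have i0 : IntervalIntegrable (nd Q S D) volume 0 R :=
    ContinuousOn.intervalIntegrable (by
      rw [uIcc_of_le (by linarith)]; exact cnd.mono (Icc_subset_Icc le_rfl (by linarith)))
  have i1 : IntervalIntegrable (nd Q S D) volume R (R + x) :=
    ContinuousOn.intervalIntegrable (by
      rw [uIcc_of_le (by linarith)]; exact cnd.mono (Icc_subset_Icc (by linarith) (by linarith)))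
  have hmid : ∫ r in R..(R + x), nd Q S D r ≤ x * (4 * 8 ^ 11 * (16 * (Ec B L M + M))) := by
    have hpt : ∀ r ∈ Icc R (R + x), nd Q S D r ≤ 4 * 8 ^ 11 * (16 * (Ec B L M + M)) := by
      intro r hr
      have h1 := h.pt hb (r := r) (by linarith [hr.1]) (by linarith [hr.2])
      have h2 := h.w_le8 (r := r) ⟨by linarith [hr.1], by linarith [hr.2]⟩
      unfold nd
      exact mul_le_mul h2 (by linarith [h1.1, h1.2]) (by positivity) (by positivity)
    have h3 := intervalIntegral.integral_mono_on (by linarith : R ≤ R + x) i1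
      (intervalIntegrable_const (c := 4 * 8 ^ 11 * (16 * (Ec B L M + M)))) hpt
    rw [intervalIntegral.integral_const] at h3
    simpa using h3
  have hin : ∫ r in (0:ℝ)..R, nd Q S D r =
      (∫ r in (0:ℝ)..R, w Q r * ‖S r‖ ^ 2) + ∫ r in (0:ℝ)..R, w Q r * ‖D r‖ ^ 2 := by
    have hsub : Icc 0 R ⊆ Icc (0:ℝ) 8 := Icc_subset_Icc le_rfl (by linarith)
    have k1 := cw.mono hsub
    have k2 := cS.mono hsub
    have k3 := cD.mono hsub
    rw [← intervalIntegral.integral_add]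
    · refine intervalIntegral.integral_congr ?_
      intro r _
      simp only [nd]
      ring
    · exact ContinuousOn.intervalIntegrable (by rw [uIcc_of_le (by linarith)]; fun_prop)
    · exact ContinuousOn.intervalIntegrable (by rw [uIcc_of_le (by linarith)]; fun_prop)
  rw [← intervalIntegral.integral_add_adjacent_intervals i0 i1, hin]
  have hDR2 : ‖D R‖ ^ 2 ≤ bDR B L M A x ^ 2 := pow_le_pow_left₀ (norm_nonneg _) hDR 2
  unfold Tot
  linarith

end Hyp

end Crest.Agent.R086.C4
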