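import Mathlib
import Crest.Agent.R086.C4NT
import Crest.Agent.R086.C4Inst

/-!
Row 86 (S0114), Part C, node C4NT (helper651): a pair which is small on `[R+d, 8]` is small on `[0, 8]`.
-/

set_option autoImplicit false

open MeasureTheory Complex ComplexConjugate Set Filter Topology
open scoped ContDiff

namespace Crest.Agent.R086.C4

open Crest.Agent.R086.CCore

theorem norm_uD_le {q F G : ℝ → ℂ} {r x : ℝ} (hq : 1 / 2 ≤ ‖q r‖) (hF : ‖F r‖ ≤ x)
    (hG : ‖G r‖ ≤ x) : ‖uD q F G r‖ ≤ 2 * x := by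
  have hq0 : 0 < ‖q r‖ := by linarith
  have h1 : ‖F r / q r‖ ≤ 2 * x := by
    rw [norm_div, div_le_iff₀ hq0]
    have : 0 ≤ x := (norm_nonneg _).trans hF
    nlinarith
  have h2 : ‖G r / conj (q r)‖ ≤ 2 * x := by
    rw [norm_div, RCLike.norm_conj, div_le_iff₀ hq0]
    have : 0 ≤ x := (norm_nonneg _).trans hG
    nlinarith
  unfold uD
  rw [norm_div]
  have h3 := norm_sub_le (F r / q r) (G r / conj (q r))
  have e2 : ‖(2:ℂ)‖ = 2 := by norm_num
  rw [e2, div_le_iff₀ (by norm_num)]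
  linarith

theorem norm_quo1_le {q q1 F F1 : ℝ → ℂ} {r x C : ℝ} (hq : 1 / 2 ≤ ‖q r‖) (hF : ‖F r‖ ≤ x)
    (hF1 : ‖F1 r‖ ≤ x) (hC : ‖q1 r‖ ≤ C * ‖q r‖) : ‖quo1 q q1 F F1 r‖ ≤ 2 * (1 + C) * x := by
  have hq0 : 0 < ‖q r‖ := by linarith
  have hx0 : 0 ≤ x := (norm_nonneg _).trans hF
  unfold quo1
  rw [norm_div, div_le_iff₀ hq0]
  have h1 : ‖F r / q r * q1 r‖ ≤ x * C := by
    rw [norm_mul, norm_div]
    calc ‖F r‖ / ‖q r‖ * ‖q1 r‖ ≤ ‖F r‖ / ‖q r‖ * (C * ‖q r‖) := by gcongr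
      _ = ‖F r‖ * C := by field_simp
      _ ≤ x * C := by
        have hC0 : 0 ≤ C := by
          by_contra h
          rw [not_le] at h
          have := (norm_nonneg _).trans hC
          nlinarith
        gcongr
  have hC0 : 0 ≤ C := by
    by_contra h
    rw [not_le] at h
    have := (norm_nonneg _).trans hC
    nlinarith
  have h2 := norm_sub_le (F1 r) (F r / q r * q1 r)
  have h3 : ‖F1 r - F r / q r * q1 r‖ ≤ (1 + C) * x := by linarith
  have h4 : 0 ≤ (1 + C) * x := by positivity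
  nlinarith

theorem quo1c_eq (q q1 G G1 : ℝ → ℂ) (r : ℝ) :
    quo1c q q1 G G1 r = quo1 (fun r => conj (q r)) (fun r => conj (q1 r)) G G1 r := rfl

theorem norm_uD1_le {q F G : ℝ → ℂ} {r x C : ℝ} (hq : 1 / 2 ≤ ‖q r‖) (hF : ‖F r‖ ≤ x)
    (hF1 : ‖deriv F r‖ ≤ x) (hG : ‖G r‖ ≤ x) (hG1 : ‖deriv G r‖ ≤ x)
    (hC : ‖deriv q r‖ ≤ C * ‖q r‖) : ‖uD1 q F G r‖ ≤ 2 * (1 + C) * x := by
  have h1 := norm_quo1_le (F1 := deriv F) (q1 := deriv q) hq hF hF1 hC
  have h2 : ‖quo1c q (deriv q) G (deriv G) r‖ ≤ 2 * (1 + C) * x := by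
    rw [quo1c_eq]
    refine norm_quo1_le ?_ hG hG1 ?_
    · rw [RCLike.norm_conj]; exact hq
    · rw [RCLike.norm_conj, RCLike.norm_conj]; exact hC
  unfold uD1
  rw [norm_div]
  have h3 := norm_sub_le (quo1 q (deriv q) F (deriv F) r) (quo1c q (deriv q) G (deriv G) r)
  have e2 : ‖(2:ℂ)‖ = 2 := by norm_num
  rw [e2, div_le_iff₀ (by norm_num)]
  linarith

theorem oSD_sq {q e : ℝ → ℂ} {al : ℂ} {r C : ℝ} (hal : ‖al‖ ≤ 1)
    (h : ‖e r / q r‖ ≤ C) : ‖oS q al e r‖ ^ 2 + ‖oD q al e r‖ ^ 2 ≤ C ^ 2 := by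
  have hp : ∀ a b : ℂ, ‖(a + b) / 2‖ ^ 2 + ‖(a - b) / 2‖ ^ 2 = (‖a‖ ^ 2 + ‖b‖ ^ 2) / 2 := by
    intro a b
    have e : ∀ z : ℂ, ‖z‖ ^ 2 = z.re ^ 2 + z.im ^ 2 := fun z => by
      rw [← Complex.normSq_eq_norm_sq, Complex.normSq_apply]; ring
    simp only [e, Complex.div_ofNat_re, Complex.div_ofNat_im, Complex.add_re, Complex.add_im,
      Complex.sub_re, Complex.sub_im]
    ring
  unfold oS oD
  rw [hp]
  have h1 : ‖al * e r / q r‖ ≤ C := by
    rw [mul_div_assoc, norm_mul]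
    have := norm_nonneg (e r / q r)
    nlinarith [norm_nonneg al]
  have h2 : ‖al * conj (e r) / conj (q r)‖ ≤ C := by
    rw [mul_div_assoc, norm_mul, ← map_div₀, RCLike.norm_conj]
    have := norm_nonneg (e r / q r)
    nlinarith [norm_nonneg al]
  have h3 := pow_le_pow_left₀ (norm_nonneg _) h1 2
  have h4 := pow_le_pow_left₀ (norm_nonneg _) h2 2
  linarith

theorem oS_le {q e : ℝ → ℂ} {al : ℂ} {r x : ℝ} (hal : ‖al‖ ≤ 1)
    (h : |(e r / q r).re| ≤ x) : ‖oS q al e r‖ ≤ x := by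
  have e1 : oS q al e r = al * (((e r / q r).re : ℝ) : ℂ) := by
    unfold oS
    rw [mul_div_assoc, mul_div_assoc, ← map_div₀, ← mul_add, Complex.add_conj]
    push_cast
    ring
  rw [e1, norm_mul, Complex.norm_real, Real.norm_eq_abs]
  nlinarith [norm_nonneg al, abs_nonneg (e r / q r).re]

end Crest.Agent.R086.C4

namespace Crest.Agent.R086

open C4

/-- **node C4NT** -/
theorem c4nt {om0 R : ℝ} {U : ℝ → ℂ} (hL : LimitProfile om0 R U) (B : BData om0 R U)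
    (hF : C4Facts B) : B.C4NT := by
  intro La l t ht
  obtain ⟨Bb, hBb⟩ := hF.bb
  obtain ⟨Cs, hCs⟩ := hF.src
  obtain ⟨Cq, hCq⟩ := B.q_der
  have hRlo := hL.R_lo
  have hRhi := hL.R_hi
  set M : ℝ := 1 / 2 + 8 * (4 * 8 ^ 11 * Cs ^ 2) with hM
  set A : ℝ := 2 * (1 + |Cq|) with hA
  set kap : ℝ := (l : ℝ) * (l + 10) with hkap
  have hA0 : 0 ≤ A := by positivity
  -- choice of the small parameter
  have hcont : Continuous fun x : ℝ => 2 * Tot kap Bb |La| M A x + 16 * (8 ^ 11 * x ^ 2) := by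
    have := Tot_continuous kap Bb |La| M A
    fun_prop
  have hlim : Tendsto (fun x : ℝ => 2 * Tot kap Bb |La| M A x + 16 * (8 ^ 11 * x ^ 2))
      (𝓝[>] 0) (𝓝 0) := by
    have h1 := (hcont.tendsto 0).mono_left (nhdsWithin_le_nhds (s := Ioi (0:ℝ)))
    simpa [Tot_zero] using h1
  have hev1 : ∀ᶠ x : ℝ in 𝓝[>] 0, 2 * Tot kap Bb |La| M A x + 16 * (8 ^ 11 * x ^ 2) < t ^ 2 :=
    hlim.eventually_lt_const (by positivity)
  have hev2 : ∀ᶠ x : ℝ in 𝓝[>] 0, x ∈ Ioo (0:ℝ) (1/2) := Ioo_mem_nhdsGT (by norm_num)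
  obtain ⟨x, hx1, hx2⟩ := (hev1.and hev2).exists
  obtain ⟨hx0, hx12⟩ := hx2
  refine ⟨x, hx0, by linarith, ?_⟩
  obtain ⟨c, hc, hpow⟩ := B.pow_ge x hx0
  have hnn := B.nn_tendsto
  have hn1 : ∀ᶠ j in atTop, 1 ≤ B.nn j := hnn.eventually_ge_atTop 1
  have hn2 : ∀ᶠ j in atTop, 1 / (c * x ^ 2) ≤ (B.nn j : ℝ) :=
    (tendsto_natCast_atTop_atTop.comp hnn).eventually_ge_atTop _
  filter_upwards [hBb, hCs, hCq, hpow, hn1, hn2, hF.qu, B.q_lower, hF.src0 x hx0] with j hBj hCsj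
    hCqj hpowj hn1j hn2j hquj hqlj hsrc0j
  intro H lam al e F G hre hlam hal hp hsrc hNB hsmall
  have hnpos : (0:ℝ) < B.nn j := by exact_mod_cast hn1j
  have h := instStmt (B.nn j) (B.P j) l H lam al e F G (B.q_ne j) hqlj hquj hp hsrc
  have hq0 : ∀ r ∈ Icc (0:ℝ) 8, (B.P j).q r ≠ 0 := fun r _ => B.q_ne j r
  have hnd : ∫ r in (0:ℝ)..8, Hyp.nd (B.P j).q (uS (B.P j).q F G) (uD (B.P j).q F G) r =
      (NB 8 F G) ^ 2 / 2 := nd_int (by norm_num) hq0
  have hNB0 : 0 ≤ NB 8 F G := Real.sqrt_nonneg _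
  -- sources
  have hosd : ∀ r ∈ Icc (0:ℝ) 8, ‖oS (B.P j).q al e r‖ ^ 2 + ‖oD (B.P j).q al e r‖ ^ 2 ≤ Cs ^ 2 := by
    intro r hr
    rcases hsrc with ⟨_, h0⟩ | ⟨ls, hs⟩
    · have : ‖oS (B.P j).q al e r‖ ^ 2 + ‖oD (B.P j).q al e r‖ ^ 2 ≤ 0 ^ 2 :=
        oSD_sq hal (by rw [h0]; simp)
      have h2 := sq_nonneg Cs
      linarith
    · exact oSD_sq hal (hCsj l ls e hs r hr)
  have hos : ∀ r ∈ Icc (0:ℝ) R, ‖oS (B.P j).q al e r‖ ≤ x := by
    intro r hr
    rcases hsrc with ⟨_, h0⟩ | ⟨ls, hs⟩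
    · exact oS_le hal (by rw [h0]; simpa using hx0.le)
    · exact oS_le hal (hsrc0j l ls e hs r hr)
  have cnds := h.c_nds
  have cnd := h.c_nd
  have hb : Bds (B.P j).q (deriv (B.P j).q) (1 / (B.nn j : ℝ)) lam (uS (B.P j).q F G)
      (uD (B.P j).q F G) (oS (B.P j).q al e) (oD (B.P j).q al e) Bb |La| M := by
    refine ⟨hBj, hlam.trans (le_abs_self La), ?_, ?_⟩
    · rw [abs_of_nonneg (by positivity), div_le_one hnpos]
      exact_mod_cast hn1j
    · have i1 : IntervalIntegrable (Hyp.nd (B.P j).q (uS (B.P j).q F G) (uD (B.P j).q F G))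
          volume 0 8 :=
        ContinuousOn.intervalIntegrable (by rw [uIcc_of_le (by norm_num)]; exact cnd)
      have i2 : IntervalIntegrable (Hyp.nd (B.P j).q (oS (B.P j).q al e) (oD (B.P j).q al e))
          volume 0 8 :=
        ContinuousOn.intervalIntegrable (by rw [uIcc_of_le (by norm_num)]; exact cnds)
      rw [intervalIntegral.integral_add i1 i2, hnd]
      have h1 : ∫ r in (0:ℝ)..8, Hyp.nd (B.P j).q (oS (B.P j).q al e) (oD (B.P j).q al e) r ≤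
          8 * (4 * 8 ^ 11 * Cs ^ 2) := by
        have h2 := intervalIntegral.integral_mono_on (by norm_num : (0:ℝ) ≤ 8) i2
          (intervalIntegrable_const (c := 4 * 8 ^ 11 * Cs ^ 2)) (fun r hr => by
            have h3 := h.w_le8 hr
            have h4 := hosd r hr
            unfold Hyp.nd
            exact mul_le_mul h3 h4 (by positivity) (by positivity))
        rw [intervalIntegral.integral_const] at h2
        simpa using h2
      have h2 : (NB 8 F G) ^ 2 ≤ 1 := pow_le_one₀ hNB0 hNB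
      rw [hM]
      linarith
  -- small data at `R + x`
  have hsm := hsmall (R + x) ⟨le_rfl, by linarith⟩
  have hqx := hqlj (R + x) ⟨by linarith, by linarith⟩
  have hq1 : ‖deriv (B.P j).q (R + x)‖ ≤ |Cq| * ‖(B.P j).q (R + x)‖ := by
    refine (hCqj (R + x) (by linarith)).1.trans ?_
    refine mul_le_mul_of_nonneg_right ?_ (norm_nonneg _)
    have hr0 : 0 ≤ (R + x) / (1 + (R + x) ^ 2) := by
      have : 0 ≤ R + x := by linarith
      positivity
    have hr1 : (R + x) / (1 + (R + x) ^ 2) ≤ 1 := by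
      rw [div_le_one (by positivity)]
      nlinarith [sq_nonneg (R + x - 1)]
    calc Cq * ((R + x) / (1 + (R + x) ^ 2)) ≤ |Cq| * ((R + x) / (1 + (R + x) ^ 2)) := by
          gcongr; exact le_abs_self _
      _ ≤ |Cq| * 1 := by gcongr
      _ = |Cq| := mul_one _
  have hD : ‖uD (B.P j).q F G (R + x)‖ ≤ A * x := by
    refine (norm_uD_le hqx hsm.1 hsm.2.2.1).trans ?_
    rw [hA]
    nlinarith [abs_nonneg Cq, mul_nonneg (abs_nonneg Cq) hx0.le]
  have hD1 : ‖uD1 (B.P j).q F G (R + x)‖ ≤ A * x :=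
    norm_uD1_le hqx hsm.1 hsm.2.1 hsm.2.2.1 hsm.2.2.2 hq1
  have hX : 1 / ((B.nn j : ℝ) * c) ≤ x ^ 2 := by
    rw [div_le_iff₀ (by positivity)]
    rw [div_le_iff₀ (by positivity)] at hn2j
    linarith
  have hmain := h.nt_abs hb (R := R) (x := x) (A := A) (c := c) (by linarith) (by linarith) hx0
    hx12.le hA0 hc hnpos hpowj hX hos hD hD1
  -- conclusion
  have i1 : IntervalIntegrable (Hyp.nd (B.P j).q (uS (B.P j).q F G) (uD (B.P j).q F G))
      volume 0 (R + x) :=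
    ContinuousOn.intervalIntegrable (by
      rw [uIcc_of_le (by linarith)]; exact cnd.mono (Icc_subset_Icc le_rfl (by linarith)))
  have i2 : IntervalIntegrable (Hyp.nd (B.P j).q (uS (B.P j).q F G) (uD (B.P j).q F G))
      volume (R + x) 8 :=
    ContinuousOn.intervalIntegrable (by
      rw [uIcc_of_le (by linarith)]; exact cnd.mono (Icc_subset_Icc (by linarith) le_rfl))
  have hout : ∫ r in (R + x)..8, Hyp.nd (B.P j).q (uS (B.P j).q F G) (uD (B.P j).q F G) r ≤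
      8 * (8 ^ 11 * x ^ 2) := by
    have h2 := intervalIntegral.integral_mono_on (by linarith : R + x ≤ 8) i2
      (intervalIntegrable_const (c := 8 ^ 11 * x ^ 2)) (fun r hr => by
        rw [nd_eq (B.q_ne j r)]
        obtain ⟨g1, -, g2, -⟩ := hsmall r hr
        have h3 := pow_le_pow_left₀ (norm_nonneg _) g1 2
        have h4 := pow_le_pow_left₀ (norm_nonneg _) g2 2
        have hr0 : 0 ≤ r := by linarith [hr.1]
        have h5 : r ^ 11 ≤ 8 ^ 11 := pow_le_pow_left₀ hr0 hr.2 11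
        have h6 : r ^ 11 * (‖F r‖ ^ 2 + ‖G r‖ ^ 2) ≤ 8 ^ 11 * (x ^ 2 + x ^ 2) :=
          mul_le_mul h5 (by linarith) (by positivity) (by positivity)
        linarith)
    rw [intervalIntegral.integral_const, smul_eq_mul] at h2
    refine h2.trans ?_
    have : 0 ≤ 8 ^ 11 * x ^ 2 := by positivity
    nlinarith
  have hsum := intervalIntegral.integral_add_adjacent_intervals i1 i2
  rw [hnd] at hsum
  have hfin : (NB 8 F G) ^ 2 ≤ t ^ 2 := by linarith
  exact (pow_le_pow_iff_left₀ hNB0 ht.le (by norm_num)).1 hfin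

end Crest.Agent.R086
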