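import Mathlib
import Crest.Agent.R086.C4Asm

/-!
Row 86, Part C, C4 (helper512): the symmetric case (SY), sequence version and final statement.
-/

set_option autoImplicit false

open MeasureTheory Complex Set Filter Topology
open scoped ContDiff

namespace Crest.Agent.R086.C4SY

open C4Lim C4Nb C4Sym C4Asm JCx

local notation "conj" => starRingEnd ℂ

section
variable {om0 R : ℝ} {U : ℝ → ℂ} {B : BData om0 R U} {𝓤 : Ultrafilter ℕ}

lemma deriv_conj' {e : ℝ → ℂ} (he : Differentiable ℝ e) (r : ℝ) :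
    deriv (fun r => conj (e r)) r = conj (deriv e r) := by
  have h1 : HasDerivAt e (deriv e r) r := (he r).hasDerivAt
  have h2 : HasDerivAt (fun r => conj (e r)) (conj (deriv e r)) r := h1.star
  exact h2.deriv

lemma contAt_Phi {l : ℕ} {m : ℂ} (hm : -(1 / 4) < m.re) {r : ℝ} (hr : 0 < r) :
    ContinuousAt (fun r => Phi l m r) r := (phiFacts.der l m hm r hr).continuousAt

lemma contAt_Phi1 {l : ℕ} {m : ℂ} (hm : -(1 / 4) < m.re) {r : ℝ} (hr : 0 < r) :
    ContinuousAt (fun r => Phi1 l m r) r := by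
  have h := phiFacts.cont1 l
  have hO : IsOpen ({m : ℂ | -(1 / 4) < m.re} ×ˢ Ioi (0 : ℝ)) :=
    (isOpen_lt continuous_const continuous_re).prod isOpen_Ioi
  have h1 : ContinuousAt (fun p : ℂ × ℝ => Phi1 l p.1 p.2) (m, r) :=
    (h (m, r) ⟨hm, hr⟩).continuousAt (hO.mem_nhds ⟨hm, hr⟩)
  exact ContinuousAt.comp (f := fun r : ℝ => (m, r)) (g := fun p : ℂ × ℝ => Phi1 l p.1 p.2) (x := r)
    h1 (by fun_prop)

/-- the limit of a symmetry mode outside the core -/
theorem sym_lim (LP : LimitProfile om0 R U) (hs : SymStmt) (hBC : B.C4BC)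
    (hU : (𝓤 : Filter ℕ) ≤ atTop) {l : ℕ} {ls : ℝ} (hls : 0 ≤ ls) (hls1 : ls ≤ 1)
    {H : ℕ → R12 → ℝ} {e : ℕ → ℝ → ℂ}
    (he : ∀ᶠ j in (𝓤 : Filter ℕ), (B.P j).IsSym l ls (e j) ∧ SHarm l (H j) ∧
      (∫ w : S11, (H j w) ^ 2 ∂sig) = 1)
    {d0 : ℝ} (hRd : R + d0 ≤ 5)
    (hE : ∀ d, 0 < d → d ≤ d0 → ∃ (ga : ℕ → ℂ) (err : ℕ → ℝ), Tendsto err 𝓤 (𝓝 0) ∧
      ∀ᶠ j in (𝓤 : Filter ℕ), ∀ r ∈ Icc (R + d) 8,
        ‖e j r - ga j * Phi l ((B.P j).mu ls) r‖ ≤ err j ∧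
        ‖deriv (e j) r - ga j * Phi1 l ((B.P j).mu ls) r‖ ≤ err j) (hd0 : 0 < d0) :
    ∃ ga0 : ℂ,
      (∀ d, 0 < d → d ≤ d0 → ∀ (ga : ℕ → ℂ) (err : ℕ → ℝ), Tendsto err 𝓤 (𝓝 0) →
        (∀ᶠ j in (𝓤 : Filter ℕ), ∀ r ∈ Icc (R + d) 8,
          ‖e j r - ga j * Phi l ((B.P j).mu ls) r‖ ≤ err j ∧
          ‖deriv (e j) r - ga j * Phi1 l ((B.P j).mu ls) r‖ ≤ err j) →
        Tendsto ga 𝓤 (𝓝 ga0)) ∧
      (∀ d, 0 < d → d ≤ d0 → ∀ (r : ℕ → ℝ) (r0 : ℝ), (∀ j, r j ∈ Icc (R + d) 8) →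
        Tendsto r 𝓤 (𝓝 r0) →
        Tendsto (fun j => e j (r j)) 𝓤 (𝓝 (ga0 * Phi l ((ls : ℂ) - I * om0) r0)) ∧
        Tendsto (fun j => deriv (e j) (r j)) 𝓤 (𝓝 (ga0 * Phi1 l ((ls : ℂ) - I * om0) r0))) ∧
      ga0 * Phi l ((ls : ℂ) - I * om0) R + conj (ga0 * Phi l ((ls : ℂ) - I * om0) R) = 0 ∧
      ga0 * PsiL Phi Phi1 R l ((ls : ℂ) - I * om0)
        - conj (ga0 * PsiL Phi Phi1 R l ((ls : ℂ) - I * om0)) = 0 := by
  have hR : 0 < R := by linarith [LP.R_lo]
  have hm0 : -(1 / 4) < ((ls : ℂ) - I * om0 : ℂ).re := hp_mem (by simpa using hls) om0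
  have hmu : Tendsto (fun j => (B.P j).mu (ls : ℂ)) 𝓤 (𝓝 ((ls : ℂ) - I * om0)) :=
    mu_tendsto B hU tendsto_const_nhds
  have jP : Joint 𝓤 (fun j r => Phi l ((B.P j).mu ls) r) (Phi l ((ls : ℂ) - I * om0)) :=
    joint_of_cont (phiFacts.cont l) hm0 hmu
  have jP1 : Joint 𝓤 (fun j r => Phi1 l ((B.P j).mu ls) r) (Phi1 l ((ls : ℂ) - I * om0)) :=
    joint_of_cont (phiFacts.cont1 l) hm0 hmu
  obtain ⟨rp, hrp, hne⟩ := exists_point l hm0
  obtain ⟨K, hK0, hK⟩ := sym_upper LP B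
  have hb : ∀ᶠ j in (𝓤 : Filter ℕ), ‖e j rp‖ ≤ K := by
    filter_upwards [hK.filter_mono hU, he] with j h1 h2
    exact h1 l ls (e j) h2.1 rp ⟨by linarith [hrp.1], by linarith [hrp.2]⟩
  obtain ⟨ga0, hga0⟩ := comp_lim (𝓤 := 𝓤) jP jP1 (Joint.zero _) (Joint.zero _) (f := e)
    (f1 := fun j r => deriv (e j) r) hR hRd hrp hne hb
  have happr : ∀ d, 0 < d → d ≤ d0 → ∀ (ga : ℕ → ℂ) (err : ℕ → ℝ), Tendsto err 𝓤 (𝓝 0) →
      (∀ᶠ j in (𝓤 : Filter ℕ), ∀ r ∈ Icc (R + d) 8,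
        ‖e j r - ga j * Phi l ((B.P j).mu ls) r‖ ≤ err j ∧
        ‖deriv (e j) r - ga j * Phi1 l ((B.P j).mu ls) r‖ ≤ err j) →
      Appr 𝓤 (fun j r => Phi l ((B.P j).mu ls) r) (fun j r => Phi1 l ((B.P j).mu ls) r) e
        (fun j r => deriv (e j) r) (fun _ _ => 0) (fun _ _ => 0) (R + d) ga := by
    intro d h1 h2 ga err h3 h4
    refine appr_of_le h3 ?_
    filter_upwards [h4] with j hj r hr
    obtain ⟨a1, a2⟩ := hj r hr
    exact ⟨by simpa using a1, by simpa using a2⟩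
  have hlim : ∀ d, 0 < d → d ≤ d0 → ∀ (r : ℕ → ℝ) (r0 : ℝ), (∀ j, r j ∈ Icc (R + d) 8) →
      Tendsto r 𝓤 (𝓝 r0) →
      Tendsto (fun j => e j (r j)) 𝓤 (𝓝 (ga0 * Phi l ((ls : ℂ) - I * om0) r0)) ∧
      Tendsto (fun j => deriv (e j) (r j)) 𝓤 (𝓝 (ga0 * Phi1 l ((ls : ℂ) - I * om0) r0)) := by
    intro d h1 h2 r r0 hr hr0
    obtain ⟨ga, err, h3, h4⟩ := hE d h1 h2
    have := (hga0 d h1 h2 ga (happr d h1 h2 ga err h3 h4)).2 r r0 hr hr0
    simpa using this
  -- boundary relations through the scaled pair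
  set K' : ℝ := 1 + Real.sqrt (8 * (8 ^ 11 * (2 * K ^ 2))) with hK'
  have hK'1 : 1 ≤ K' := by
    have := Real.sqrt_nonneg (8 * (8 ^ 11 * (2 * K ^ 2)))
    linarith
  have hK'0 : 0 < K' := by linarith
  set c : ℂ := ((K'⁻¹ : ℝ) : ℂ) with hc
  have hc0 : c ≠ 0 := by
    rw [hc]; exact_mod_cast inv_ne_zero hK'0.ne'
  have hcc : conj c = c := by rw [hc, Complex.conj_ofReal]
  have hcn : ‖c‖ = K'⁻¹ := by
    rw [hc, Complex.norm_real, Real.norm_of_nonneg (inv_nonneg.2 hK'0.le)]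
  obtain ⟨C, d1, hd1, hbc⟩ := hBC 1 l
  set d2 : ℝ := min d0 d1 with hd2
  have hd2p : 0 < d2 := lt_min hd0 hd1
  have hrel := bc_rel (𝓤 := 𝓤) (R := R) (l := l) (f := fun j r => c * e j r)
    (f1 := fun j r => c * deriv (e j) r) (g := fun j r => c * conj (e j r))
    (g1 := fun j r => c * conj (deriv (e j) r))
    (X := fun r => c * (ga0 * Phi l ((ls : ℂ) - I * om0) r))
    (X1 := fun r => c * (ga0 * Phi1 l ((ls : ℂ) - I * om0) r))
    (Y := fun r => c * (ga0 * Phi l ((ls : ℂ) - I * om0) r))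
    (Y1 := fun r => c * (ga0 * Phi1 l ((ls : ℂ) - I * om0) r)) (C := C) hd2p
    (continuousAt_const.mul (continuousAt_const.mul (contAt_Phi hm0 hR)))
    (continuousAt_const.mul (continuousAt_const.mul (contAt_Phi1 hm0 hR)))
    (continuousAt_const.mul (continuousAt_const.mul (contAt_Phi hm0 hR)))
    (continuousAt_const.mul (continuousAt_const.mul (contAt_Phi1 hm0 hR))) ?_ ?_
  · obtain ⟨r1, r2⟩ := hrel
    refine ⟨ga0, fun d h1 h2 ga err h3 h4 => (hga0 d h1 h2 ga (happr d h1 h2 ga err h3 h4)).1,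
      hlim, ?_, ?_⟩
    · simp only [map_mul, hcc] at r1 ⊢
      have : c * (ga0 * Phi l ((ls : ℂ) - I * om0) R
          + conj ga0 * conj (Phi l ((ls : ℂ) - I * om0) R)) = 0 := by linear_combination r1
      exact (mul_eq_zero.1 this).resolve_left hc0
    · unfold PsiL
      simp only [map_mul, map_sub, map_div₀, hcc, Complex.conj_ofReal, map_natCast] at r2 ⊢
      have : c * (ga0 * (Phi1 l ((ls : ℂ) - I * om0) R
            - (l : ℂ) / (R : ℂ) * Phi l ((ls : ℂ) - I * om0) R)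
          - conj ga0 * (conj (Phi1 l ((ls : ℂ) - I * om0) R)
            - (l : ℂ) / (R : ℂ) * conj (Phi l ((ls : ℂ) - I * om0) R))) = 0 := by
        linear_combination r2
      exact (mul_eq_zero.1 this).resolve_left hc0
  · intro d h1 h2
    have hdd : d ≤ d0 := h2.trans (min_le_left _ _)
    have hmem : ∀ _j : ℕ, R + d ∈ Icc (R + d) 8 := fun _ => ⟨le_rfl, by linarith⟩
    obtain ⟨a1, a2⟩ := hlim d h1 hdd (fun _ => R + d) (R + d) hmem tendsto_const_nhds
    refine ⟨a1.const_mul c, a2.const_mul c, ?_, ?_⟩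
    · refine (a1.const_mul c).congr fun j => ?_
      simp [hcc]
    · refine (a2.const_mul c).congr fun j => ?_
      simp [hcc]
  · intro d h1 h2
    filter_upwards [(hbc d h1 (h2.trans (min_le_right _ _))).filter_mono hU, he,
      hK.filter_mono hU] with j b1 b2 b3
    obtain ⟨hsym, hH, hn⟩ := b2
    have hpe := hs _ (B.P j) l ls (e j) (H j) hsym hH hn
    have hps := pair_smul hpe c
    rw [mul_zero] at hps
    have ce : Continuous (e j) := hpe.cF.continuous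
    have cec : Continuous fun r => conj (e j r) := hpe.cG.continuous
    have hNB : NB 8 (fun r => c * e j r) (fun r => c * conj (e j r)) ≤ 1 := by
      rw [NB_smul, hcn]
      have h3 : NB 8 (e j) (fun r => conj (e j r)) ≤ Real.sqrt (8 * (8 ^ 11 * (2 * K ^ 2))) := by
        refine NB_le (by norm_num) ce cec hK0 (b3 l ls (e j) hsym) fun r hr => ?_
        rw [RCLike.norm_conj]
        exact b3 l ls (e j) hsym r hr
      have h4 : NB 8 (e j) (fun r => conj (e j r)) ≤ K' := by linarith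
      calc K'⁻¹ * NB 8 (e j) (fun r => conj (e j r)) ≤ K'⁻¹ * K' :=
            mul_le_mul_of_nonneg_left h4 (inv_nonneg.2 hK'0.le)
        _ = 1 := inv_mul_cancel₀ hK'0.ne'
    obtain ⟨c1, c2, -⟩ := b1 (H j) (ls : ℂ) 0 (fun _ => 0) _ _ (by simpa using hls)
      (by rw [Complex.norm_real, Real.norm_of_nonneg hls]; exact hls1) (by simp) hps
      (Or.inl ⟨rfl, rfl⟩) hNB
    refine ⟨c1, ?_⟩
    have hde : Differentiable ℝ (e j) := by
      have : ContDiff ℝ 1 (e j) := hpe.cF.of_le (by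
        have : (1 : ℕ) ≤ N0 := by norm_num [N0]
        exact_mod_cast this)
      exact this.differentiable (by norm_num)
    rw [deriv_smul', deriv_smul'] at c2
    simp only at c2
    rw [deriv_conj' hde] at c2
    exact c2

/-- the data of EXT for a sequence of pairs -/
lemma ext_data (hE : B.EXTs' Phi Phi1) (hU : (𝓤 : Filter ℕ) ≤ atTop) (hR : 0 < R) {La : ℝ} {l : ℕ}
    {ls : ℝ} {lam al : ℕ → ℂ} {H : ℕ → R12 → ℝ} {e F G : ℕ → ℝ → ℂ}
    (hp : ∀ᶠ j in (𝓤 : Filter ℕ), 0 ≤ (lam j).re ∧ ‖lam j‖ ≤ La ∧ ‖al j‖ ≤ 1 ∧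
      (B.P j).IsSym l ls (e j) ∧ (B.P j).Pair l (H j) (lam j) (al j) (e j) (F j) (G j) ∧
      NB 8 (F j) (G j) ≤ 1) {d : ℝ} (hd : 0 < d) (hd8 : R + d ≤ 8) :
    ∃ (ga c1 c2 : ℕ → ℂ) (err : ℕ → ℝ), Tendsto err 𝓤 (𝓝 0) ∧
      ∀ᶠ j in (𝓤 : Filter ℕ), ∀ r ∈ Icc (R + d) 8,
        (‖e j r - ga j * Phi l ((B.P j).mu ls) r‖ ≤ err j ∧
        ‖deriv (e j) r - ga j * Phi1 l ((B.P j).mu ls) r‖ ≤ err j) ∧
        (‖F j r - (c1 j * Phi l ((B.P j).mu (lam j)) r + al j * ga j *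
          dslope (fun z => Phi l z r) ((B.P j).mu ls) ((B.P j).mu (lam j)))‖ ≤ err j ∧
        ‖deriv (F j) r - (c1 j * Phi1 l ((B.P j).mu (lam j)) r + al j * ga j *
          dslope (fun z => Phi1 l z r) ((B.P j).mu ls) ((B.P j).mu (lam j)))‖ ≤ err j) ∧
        (‖conj (G j r) - (c2 j * Phi l ((B.P j).mu (conj (lam j))) r + conj (al j) * ga j *
          dslope (fun z => Phi l z r) ((B.P j).mu ls) ((B.P j).mu (conj (lam j))))‖ ≤ err j ∧
        ‖conj (deriv (G j) r) - (c2 j * Phi1 l ((B.P j).mu (conj (lam j))) r + conj (al j) * ga j *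
          dslope (fun z => Phi1 l z r) ((B.P j).mu ls) ((B.P j).mu (conj (lam j))))‖ ≤ err j) := by
  obtain ⟨c, hc, hEv⟩ := hE (R + d) (by linarith) La
  have key : ∀ᶠ j in (𝓤 : Filter ℕ), ∃ t : ℂ × ℂ × ℂ, ∀ r ∈ Icc (R + d) 8,
        (‖e j r - t.1 * Phi l ((B.P j).mu ls) r‖ ≤ Real.exp (-c * B.nn j) * 2 ∧
        ‖deriv (e j) r - t.1 * Phi1 l ((B.P j).mu ls) r‖ ≤ Real.exp (-c * B.nn j) * 2) ∧
        (‖F j r - (t.2.1 * Phi l ((B.P j).mu (lam j)) r + al j * t.1 *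
          dslope (fun z => Phi l z r) ((B.P j).mu ls) ((B.P j).mu (lam j)))‖
            ≤ Real.exp (-c * B.nn j) * 2 ∧
        ‖deriv (F j) r - (t.2.1 * Phi1 l ((B.P j).mu (lam j)) r + al j * t.1 *
          dslope (fun z => Phi1 l z r) ((B.P j).mu ls) ((B.P j).mu (lam j)))‖
            ≤ Real.exp (-c * B.nn j) * 2) ∧
        (‖conj (G j r) - (t.2.2 * Phi l ((B.P j).mu (conj (lam j))) r + conj (al j) * t.1 *
          dslope (fun z => Phi l z r) ((B.P j).mu ls) ((B.P j).mu (conj (lam j))))‖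
            ≤ Real.exp (-c * B.nn j) * 2 ∧
        ‖conj (deriv (G j) r) - (t.2.2 * Phi1 l ((B.P j).mu (conj (lam j))) r + conj (al j) * t.1 *
          dslope (fun z => Phi1 l z r) ((B.P j).mu ls) ((B.P j).mu (conj (lam j))))‖
            ≤ Real.exp (-c * B.nn j) * 2) := by
    filter_upwards [hEv.filter_mono hU, hp] with j h1 h2
    obtain ⟨h0re, hLa, hal, hsym, hpair, hNB⟩ := h2
    obtain ⟨ga, hga, hrest⟩ := h1 l ls (e j) hsym (H j) hpair.sharm hpair.nrm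
    obtain ⟨c1, c2, hcc⟩ := hrest (lam j) (al j) (F j) (G j) h0re hLa hpair
    refine ⟨(ga, c1, conj c2), fun r hr => ?_⟩
    obtain ⟨e1, e2⟩ := hga r hr
    obtain ⟨f1, f2, g1, g2⟩ := hcc r hr
    have hexp := Real.exp_pos (-c * B.nn j)
    have hle : NB (R + d) (F j) (G j) + ‖al j‖ ≤ 2 := by
      have := NB_mono (a := R + d) (b := 8) (by linarith) hd8 hpair.cF.continuous
        hpair.cG.continuous
      linarith
    have hle2 : Real.exp (-c * B.nn j) * (NB (R + d) (F j) (G j) + ‖al j‖) ≤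
        Real.exp (-c * B.nn j) * 2 := mul_le_mul_of_nonneg_left hle hexp.le
    refine ⟨⟨by linarith, by linarith⟩, ⟨f1.trans hle2, f2.trans hle2⟩, ⟨?_, ?_⟩⟩
    · refine le_trans (le_of_eq ?_) (g1.trans hle2)
      rw [← RCLike.norm_conj (G j r - _)]
      congr 1
      simp only [map_sub, map_add, map_mul, Complex.conj_conj]
      ring
    · refine le_trans (le_of_eq ?_) (g2.trans hle2)
      rw [← RCLike.norm_conj (deriv (G j) r - _)]
      congr 1
      simp only [map_sub, map_add, map_mul, Complex.conj_conj]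
      ring
  obtain ⟨t, ht⟩ := key.choice
  refine ⟨fun j => (t j).1, fun j => (t j).2.1, fun j => (t j).2.2,
    fun j => Real.exp (-c * B.nn j) * 2, ?_, ht⟩
  have := (exp_tendsto B hU hc).mul_const 2
  simpa using this

/-- **sequence version of (SY)** -/
theorem seq_SY (LP : LimitProfile om0 R U) (hs : SymStmt) (hE : B.EXTs' Phi Phi1) (hBC : B.C4BC)
    (hL : LimitSpec Phi Phi1 om0 R) (hU : (𝓤 : Filter ℕ) ≤ atTop) {La : ℝ} {l : ℕ} {ls : ℝ}
    (hls : (l = 0 ∧ ls = 0) ∨ (l = 0 ∧ ls = 1) ∨ (l = 1 ∧ ls = 1 / 2))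
    {lam al : ℕ → ℂ} {H : ℕ → R12 → ℝ} {e F G : ℕ → ℝ → ℂ} {lam0 a : ℂ}
    (hlam : Tendsto lam 𝓤 (𝓝 lam0)) (hal : Tendsto al 𝓤 (𝓝 a))
    (hp : ∀ᶠ j in (𝓤 : Filter ℕ), 0 ≤ (lam j).re ∧ ‖lam j‖ ≤ La ∧ ‖al j‖ ≤ 1 ∧
      (B.P j).IsSym l ls (e j) ∧ (B.P j).Pair l (H j) (lam j) (al j) (e j) (F j) (G j) ∧
      NB 8 (F j) (G j) ≤ 1)
    (hnear : ∀ᶠ j in (𝓤 : Filter ℕ), ‖(ls : ℂ) - lam j‖ ≤ 1 / 4)
    {rs : ℝ} (hrs : rs ∈ Ioo R 8) {c : ℝ} (hc : 0 < c)
    (hes : ∀ᶠ j in (𝓤 : Filter ℕ), c ≤ ‖e j rs‖) (hF : ∀ᶠ j in (𝓤 : Filter ℕ), F j rs = 0) :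
    a = 0 ∧ ∀ d, 0 < d → ∀ r : ℕ → ℝ, (∀ j, r j ∈ Icc (R + d) 8) →
      Tendsto (fun j => F j (r j)) 𝓤 (𝓝 0) ∧ Tendsto (fun j => deriv (F j) (r j)) 𝓤 (𝓝 0) ∧
      Tendsto (fun j => G j (r j)) 𝓤 (𝓝 0) ∧ Tendsto (fun j => deriv (G j) (r j)) 𝓤 (𝓝 0) := by
  have hR : 0 < R := by linarith [LP.R_lo]
  have hR2 := LP.R_hi
  have hls0 : 0 ≤ ls ∧ ls ≤ 1 := by
    rcases hls with ⟨_, h⟩ | ⟨_, h⟩ | ⟨_, h⟩ <;> rw [h] <;> norm_num
  have hDet : DetL Phi Phi1 om0 R l (ls : ℂ) = 0 ∧ deriv (DetL Phi Phi1 om0 R l) (ls : ℂ) ≠ 0 := by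
    rcases hls with ⟨h1, h2⟩ | ⟨h1, h2⟩ | ⟨h1, h2⟩
    · rw [h1, h2]; simpa using hL.simple_zero
    · rw [h1, h2]; simpa using hL.simple_one
    · rw [h1, h2]; simpa using hL.simple_half
  obtain ⟨C, db, hdb, hbc⟩ := hBC La l
  set d0 : ℝ := min db 1 with hd0
  have hd0p : 0 < d0 := lt_min hdb one_pos
  have hd01 : d0 ≤ 1 := min_le_right _ _
  have hRd : R + d0 ≤ 5 := by linarith
  have hbcj : ∀ d, 0 < d → d ≤ d0 → ∀ᶠ j in (𝓤 : Filter ℕ),
      ‖F j (R + d) + G j (R + d)‖ ≤ C * Real.sqrt d ∧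
      ‖deriv (F j) (R + d) - deriv (G j) (R + d)
        - (l : ℂ) / (R : ℂ) * (F j (R + d) - G j (R + d))‖ ≤ C * Real.sqrt d ∧
      (∀ r ∈ Icc (R + d) 6, ‖F j r‖ ≤ C ∧ ‖G j r‖ ≤ C) := by
    intro d h1 h2
    filter_upwards [(hbc d h1 (h2.trans (min_le_left _ _))).filter_mono hU, hp] with j b1 b2
    obtain ⟨h0re, hLa, hal', hsym, hpair, hNB⟩ := b2
    exact b1 (H j) (lam j) (al j) (e j) (F j) (G j) h0re hLa hal' hpair (Or.inr ⟨ls, hsym⟩) hNB
  have hED : ∀ d, 0 < d → d ≤ d0 → _ := fun d h1 h2 =>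
    ext_data (𝓤 := 𝓤) hE hU hR hp h1 (by linarith : R + d ≤ 8)
  obtain ⟨ga0, hga, hel, hg1, hg2⟩ := sym_lim (𝓤 := 𝓤) LP hs hBC hU hls0.1 hls0.2 (H := H) (e := e)
    (by filter_upwards [hp] with j hj using ⟨hj.2.2.2.1, hj.2.2.2.2.1.sharm, hj.2.2.2.2.1.nrm⟩)
    hRd (fun d h1 h2 => by
      obtain ⟨ga, c1, c2, err, h3, h4⟩ := hED d h1 h2
      refine ⟨ga, err, h3, ?_⟩
      filter_upwards [h4] with j hj r hr using (hj r hr).1) hd0p
  -- limits of the parameters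
  have hlam0re : 0 ≤ lam0.re := by
    refine ge_of_tendsto ((continuous_re.tendsto _).comp hlam) ?_
    filter_upwards [hp] with j hj using hj.1
  have hnear0 : ‖(ls : ℂ) - lam0‖ ≤ 1 / 4 :=
    le_of_tendsto (hlam.const_sub (ls : ℂ)).norm hnear
  have hlamc : Tendsto (fun j => conj (lam j)) 𝓤 (𝓝 (conj lam0)) :=
    (Complex.continuous_conj.tendsto _).comp hlam
  have halc : Tendsto (fun j => conj (al j)) 𝓤 (𝓝 (conj a)) :=
    (Complex.continuous_conj.tendsto _).comp hal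
  have hms0 : -(1 / 4) < ((ls : ℂ) - I * om0 : ℂ).re := hp_mem (by simpa using hls0.1) om0
  have hm0 : -(1 / 4) < (lam0 - I * om0 : ℂ).re := hp_mem hlam0re om0
  have hmt0 : -(1 / 4) < (conj lam0 - I * om0 : ℂ).re := hp_mem (by simpa using hlam0re) om0
  have tms : Tendsto (fun j => (B.P j).mu (ls : ℂ)) 𝓤 (𝓝 ((ls : ℂ) - I * om0)) :=
    mu_tendsto B hU tendsto_const_nhds
  have tm := mu_tendsto B hU hlam
  have tmt := mu_tendsto B hU hlamc
  -- the two components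
  obtain ⟨c1, hc1⟩ := comp_src (𝓤 := 𝓤) (l := l) hm0 hms0 tm tms hal (ga0 := ga0) (f := F)
    (f1 := fun j r => deriv (F j) r) (Cb := C) hR hRd (fun rp hrp => by
      filter_upwards [hbcj d0 hd0p le_rfl] with j hj
      exact (hj.2.2 rp ⟨by linarith [hrp.1], hrp.2⟩).1)
  obtain ⟨c2, hc2⟩ := comp_src (𝓤 := 𝓤) (l := l) hmt0 hms0 tmt tms halc (ga0 := ga0)
    (f := fun j r => conj (G j r)) (f1 := fun j r => conj (deriv (G j) r)) (Cb := C) hR hRd
    (fun rp hrp => by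
      filter_upwards [hbcj d0 hd0p le_rfl] with j hj
      rw [RCLike.norm_conj]
      exact (hj.2.2 rp ⟨by linarith [hrp.1], hrp.2⟩).2)
  have limF : ∀ d, 0 < d → d ≤ d0 → ∀ (r : ℕ → ℝ) (r0 : ℝ), (∀ j, r j ∈ Icc (R + d) 8) →
      Tendsto r 𝓤 (𝓝 r0) →
        Tendsto (fun j => F j (r j)) 𝓤 (𝓝 (c1 * Phi l (lam0 - I * om0) r0
          + a * ga0 * dslope (fun z => Phi l z r0) ((ls : ℂ) - I * om0) (lam0 - I * om0))) ∧
        Tendsto (fun j => deriv (F j) (r j)) 𝓤 (𝓝 (c1 * Phi1 l (lam0 - I * om0) r0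
          + a * ga0 * dslope (fun z => Phi1 l z r0) ((ls : ℂ) - I * om0) (lam0 - I * om0))) := by
    intro d h1 h2 r r0 hr hr0
    obtain ⟨ga, k1, k2, err, h3, h4⟩ := hED d h1 h2
    have hgat : Tendsto ga 𝓤 (𝓝 ga0) := hga d h1 h2 ga err h3 (by
      filter_upwards [h4] with j hj r hr using (hj r hr).1)
    exact hc1 d h1 h2 k1 ga err hgat h3 (by
      filter_upwards [h4] with j hj r hr using (hj r hr).2.1) r r0 hr hr0
  have limG : ∀ d, 0 < d → d ≤ d0 → ∀ (r : ℕ → ℝ) (r0 : ℝ), (∀ j, r j ∈ Icc (R + d) 8) →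
      Tendsto r 𝓤 (𝓝 r0) →
        Tendsto (fun j => conj (G j (r j))) 𝓤 (𝓝 (c2 * Phi l (conj lam0 - I * om0) r0
          + conj a * ga0 * dslope (fun z => Phi l z r0) ((ls : ℂ) - I * om0)
            (conj lam0 - I * om0))) ∧
        Tendsto (fun j => conj (deriv (G j) (r j))) 𝓤 (𝓝 (c2 * Phi1 l (conj lam0 - I * om0) r0
          + conj a * ga0 * dslope (fun z => Phi1 l z r0) ((ls : ℂ) - I * om0)
            (conj lam0 - I * om0))) := by
    intro d h1 h2 r r0 hr hr0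
    obtain ⟨ga, k1, k2, err, h3, h4⟩ := hED d h1 h2
    have hgat : Tendsto ga 𝓤 (𝓝 ga0) := hga d h1 h2 ga err h3 (by
      filter_upwards [h4] with j hj r hr using (hj r hr).1)
    exact hc2 d h1 h2 k2 ga err hgat h3 (by
      filter_upwards [h4] with j hj r hr using (hj r hr).2.2) r r0 hr hr0
  -- boundary relations
  have cds : ∀ m : ℂ, -(1 / 4) < m.re →
      ContinuousAt (fun r => dslope (fun z => Phi l z r) ((ls : ℂ) - I * om0) m) R ∧
      ContinuousAt (fun r => dslope (fun z => Phi1 l z r) ((ls : ℂ) - I * om0) m) R := by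
    intro m hm
    have k1 := (joint_dslope (𝓤 := (𝓤 : Filter ℕ)) (phiFacts.cont l) (phiFacts.hol l) hm hms0
      (m := fun _ => m) tendsto_const_nhds tms).2
    have k2 := (joint_dslope (𝓤 := (𝓤 : Filter ℕ)) (phiFacts.cont1 l) (phiFacts.hol1 l) hm hms0
      (m := fun _ => m) tendsto_const_nhds tms).2
    exact ⟨k1.continuousAt (isOpen_Ioi.mem_nhds hR), k2.continuousAt (isOpen_Ioi.mem_nhds hR)⟩
  obtain ⟨r1, r2⟩ := bc_rel (𝓤 := 𝓤) (R := R) (l := l) (f := F) (f1 := fun j r => deriv (F j) r)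
    (g := G) (g1 := fun j r => deriv (G j) r)
    (X := fun r => c1 * Phi l (lam0 - I * om0) r
      + a * ga0 * dslope (fun z => Phi l z r) ((ls : ℂ) - I * om0) (lam0 - I * om0))
    (X1 := fun r => c1 * Phi1 l (lam0 - I * om0) r
      + a * ga0 * dslope (fun z => Phi1 l z r) ((ls : ℂ) - I * om0) (lam0 - I * om0))
    (Y := fun r => c2 * Phi l (conj lam0 - I * om0) r
      + conj a * ga0 * dslope (fun z => Phi l z r) ((ls : ℂ) - I * om0) (conj lam0 - I * om0))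
    (Y1 := fun r => c2 * Phi1 l (conj lam0 - I * om0) r
      + conj a * ga0 * dslope (fun z => Phi1 l z r) ((ls : ℂ) - I * om0) (conj lam0 - I * om0))
    (C := C) hd0p
    ((continuousAt_const.mul (contAt_Phi hm0 hR)).add (continuousAt_const.mul (cds _ hm0).1))
    ((continuousAt_const.mul (contAt_Phi1 hm0 hR)).add (continuousAt_const.mul (cds _ hm0).2))
    ((continuousAt_const.mul (contAt_Phi hmt0 hR)).add (continuousAt_const.mul (cds _ hmt0).1))
    ((continuousAt_const.mul (contAt_Phi1 hmt0 hR)).add (continuousAt_const.mul (cds _ hmt0).2))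
    (fun d h1 h2 => by
      have hmem : ∀ _j : ℕ, R + d ∈ Icc (R + d) 8 := fun _ => ⟨le_rfl, by linarith⟩
      obtain ⟨a1, a2⟩ := limF d h1 h2 (fun _ => R + d) (R + d) hmem tendsto_const_nhds
      obtain ⟨a3, a4⟩ := limG d h1 h2 (fun _ => R + d) (R + d) hmem tendsto_const_nhds
      exact ⟨a1, a2, a3, a4⟩)
    (fun d h1 h2 => by
      filter_upwards [hbcj d h1 h2] with j hj using ⟨hj.1, hj.2.1⟩)
  -- values at `rs`
  set ds : ℝ := min d0 (rs - R) with hds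
  have hdsp : 0 < ds := lt_min hd0p (by linarith [hrs.1])
  have hrsm : ∀ _j : ℕ, rs ∈ Icc (R + ds) 8 := fun _ =>
    ⟨by linarith [min_le_right d0 (rs - R)], hrs.2.le⟩
  have eE : ga0 * Phi l ((ls : ℂ) - I * om0) rs ≠ 0 := by
    have h1 := (hel ds hdsp (min_le_left _ _) (fun _ => rs) rs hrsm tendsto_const_nhds).1
    have h2 : c ≤ ‖ga0 * Phi l ((ls : ℂ) - I * om0) rs‖ := ge_of_tendsto h1.norm hes
    exact norm_pos_iff.1 (lt_of_lt_of_le hc h2)
  have eF : c1 * Phi l (lam0 - I * om0) rs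
      + a * ga0 * dslope (fun z => Phi l z rs) ((ls : ℂ) - I * om0) (lam0 - I * om0) = 0 := by
    have h1 := (limF ds hdsp (min_le_left _ _) (fun _ => rs) rs hrsm tendsto_const_nhds).1
    have h2 : Tendsto (fun j => F j rs) 𝓤 (𝓝 0) := by
      refine (tendsto_const_nhds (x := (0 : ℂ))).congr' ?_
      filter_upwards [hF] with j hj using hj.symm
    exact tendsto_nhds_unique h1 h2
  have hga0 : ga0 ≠ 0 := left_ne_zero_of_mul eE
  -- the algebra
  have alg : a = 0 ∧ c1 = 0 ∧ c2 = 0 := by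
    by_cases heq : lam0 = (ls : ℂ)
    · subst heq
      simp only [Complex.conj_ofReal, dslope_same, map_add, map_mul, Complex.conj_conj,
        map_sub] at r1 r2 eF
      have hderiv : deriv (fun m => PsiL Phi Phi1 R l m) ((ls : ℂ) - I * om0) =
          deriv (fun m => Phi1 l m R) ((ls : ℂ) - I * om0)
            - (l : ℂ) / (R : ℂ) * deriv (fun m => Phi l m R) ((ls : ℂ) - I * om0) := by
        have hO : IsOpen {m : ℂ | -(1 / 4) < m.re} := isOpen_lt continuous_const continuous_re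
        have d1 := ((phiFacts.hol1 l R hR).differentiableAt (hO.mem_nhds hms0)).hasDerivAt
        have d2 := ((phiFacts.hol l R hR).differentiableAt (hO.mem_nhds hms0)).hasDerivAt
        exact (d1.sub (d2.const_mul _)).deriv
      obtain ⟨ha, t, ht1, ht2⟩ := C4Fin.alg2 (om0 := om0) phiFacts hR hls0.1 hDet.1 hDet.2
        (ga := ga0) (c1 := c1) (c2 := conj c2) (al := a) hga0 hg1 hg2
        (by
          simp only [map_mul]
          linear_combination r1)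
        (by
          rw [hderiv]
          unfold PsiL
          simp only [map_mul, map_sub, map_div₀, Complex.conj_ofReal, map_natCast]
          linear_combination r2)
      rw [ha] at eF
      have ht : t = 0 := by
        rw [ht1] at eF
        have : t * (ga0 * Phi l ((ls : ℂ) - I * om0) rs) = 0 := by linear_combination eF
        exact (mul_eq_zero.1 this).resolve_right eE
      refine ⟨ha, by rw [ht1, ht, zero_mul], ?_⟩
      have : conj c2 = 0 := by rw [ht2, ht, zero_mul]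
      simpa using this
    · have hne1 : lam0 - I * om0 ≠ (ls : ℂ) - I * om0 := fun h => heq (by
        have := sub_left_inj.1 h; exact this)
      have hne2 : conj lam0 - I * om0 ≠ (ls : ℂ) - I * om0 := fun h => heq (by
        have h2 := sub_left_inj.1 h
        have h3 := congrArg conj h2
        rwa [Complex.conj_conj, Complex.conj_ofReal] at h3)
      have hδ : lam0 - (ls : ℂ) ≠ 0 := sub_ne_zero.2 heq
      have hδc : conj lam0 - (ls : ℂ) ≠ 0 := by
        intro h; exact hne2 (by rw [sub_eq_zero.1 h])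
      have hD : DetL Phi Phi1 om0 R l lam0 ≠ 0 := by
        refine hL.ne_zero l lam0 hlam0re ?_ ?_
        · rintro ⟨h1, h2⟩
          rcases hls with ⟨_, hz⟩ | ⟨_, hz⟩ | ⟨hz, _⟩
          · rcases h2 with h2 | h2
            · exact heq (by rw [h2, hz]; simp)
            · rw [h2, hz] at hnear0; norm_num at hnear0
          · rcases h2 with h2 | h2
            · rw [h2, hz] at hnear0; norm_num at hnear0
            · exact heq (by rw [h2, hz]; simp)
          · omega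
        · rintro ⟨h1, h2⟩
          rcases hls with ⟨hz, _⟩ | ⟨hz, _⟩ | ⟨_, hz⟩
          · omega
          · omega
          · exact heq (by rw [h2, hz]; push_cast; ring)
      have ds1 : ∀ (g : ℂ → ℂ), dslope g ((ls : ℂ) - I * om0) (lam0 - I * om0) =
          (g (lam0 - I * om0) - g ((ls : ℂ) - I * om0)) / (lam0 - ls) := by
        intro g
        rw [dslope_of_ne _ hne1, slope_def_module, smul_eq_mul]
        have : lam0 - I * om0 - ((ls : ℂ) - I * om0) = lam0 - ls := by ring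
        rw [this]
        field_simp
      have ds2 : ∀ (g : ℂ → ℂ), dslope g ((ls : ℂ) - I * om0) (conj lam0 - I * om0) =
          (g (conj lam0 - I * om0) - g ((ls : ℂ) - I * om0)) / (conj lam0 - ls) := by
        intro g
        rw [dslope_of_ne _ hne2, slope_def_module, smul_eq_mul]
        have : conj lam0 - I * om0 - ((ls : ℂ) - I * om0) = conj lam0 - ls := by ring
        rw [this]
        field_simp
      simp only [ds1, ds2] at r1 r2 eF
      simp only [map_add, map_mul, map_sub, map_div₀, Complex.conj_conj, Complex.conj_ofReal] at r1 r2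
      simp only [map_mul] at hg1
      unfold PsiL at hg2
      simp only [map_mul, map_sub, map_div₀, Complex.conj_ofReal, map_natCast] at hg2
      obtain ⟨k1, k2⟩ := C4Fin.alg1 (c1 := c1 + a * ga0 / (lam0 - ls))
        (c2 := conj c2 + a * conj ga0 / (lam0 - ls)) hD
        (by
          linear_combination (exp := 1) r1 + a / (lam0 - ls) * hg1)
        (by
          unfold PsiL
          simp only [map_mul, map_sub, map_div₀, Complex.conj_ofReal, map_natCast]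
          linear_combination (exp := 1) r2 + a / (lam0 - ls) * hg2)
      have ha : a = 0 := by
        have e1 : a * (ga0 * Phi l ((ls : ℂ) - I * om0) rs) = 0 := by
          have e2 : (lam0 - ls) * (c1 * Phi l (lam0 - I * om0) rs + a * ga0 *
              ((Phi l (lam0 - I * om0) rs - Phi l ((ls : ℂ) - I * om0) rs) / (lam0 - ls))) = 0 := by
            rw [eF, mul_zero]
          have e3 : (lam0 - ls) * (c1 + a * ga0 / (lam0 - ls)) = 0 := by rw [k1, mul_zero]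
          field_simp at e2 e3
          linear_combination (Phi l (lam0 - I * om0) rs) * e3 - e2
        exact (mul_eq_zero.1 e1).resolve_right eE
      rw [ha] at k1 k2
      simp only [zero_mul, zero_div, add_zero] at k1 k2
      exact ⟨ha, k1, by simpa using k2⟩
  obtain ⟨ha, hz1, hz2⟩ := alg
  refine ⟨ha, fun d hd r hr => ?_⟩
  set d' : ℝ := min d d0 with hd'
  have hd'p : 0 < d' := lt_min hd hd0p
  have hr' : ∀ j, r j ∈ Icc (R + d') 8 := fun j =>
    ⟨by linarith [min_le_left d d0, (hr j).1], (hr j).2⟩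
  obtain ⟨r0, -, hr0⟩ := rlim (𝓤 := 𝓤) hr'
  obtain ⟨a1, a2⟩ := limF d' hd'p (min_le_right _ _) r r0 hr' hr0
  obtain ⟨a3, a4⟩ := limG d' hd'p (min_le_right _ _) r r0 hr' hr0
  rw [ha, hz1] at a1 a2
  rw [ha, hz2] at a3 a4
  simp only [zero_mul, add_zero, map_zero] at a1 a2 a3 a4
  refine ⟨a1, a2, ?_, ?_⟩
  · have := (Complex.continuous_conj.tendsto _).comp a3
    simp only [map_zero] at this
    refine this.congr fun j => ?_
    simp
  · have := (Complex.continuous_conj.tendsto _).comp a4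
    simp only [map_zero] at this
    refine this.congr fun j => ?_
    simp

end

end Crest.Agent.R086.C4SY
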