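import Mathlib
import Crest.Agent.R086.C4SY

/-!
Row 86, Part C, C4 (helper512): final form of (SY).
-/

set_option autoImplicit false

open MeasureTheory Complex Set Filter Topology
open scoped ContDiff

namespace Crest.Agent.R086.C4SY

open C4Lim C4Nb C4Sym C4Asm JCx

local notation "conj" => starRingEnd ℂ

/-- uniform statements from sequential ones -/
lemma ev_of_seq {𝓤 : Filter ℕ} {K : Set ℝ} {r00 : ℝ} (h00 : r00 ∈ K) {p : ℕ → ℝ → Prop}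
    (h : ∀ r : ℕ → ℝ, (∀ j, r j ∈ K) → ∀ᶠ j in 𝓤, p j (r j)) : ∀ᶠ j in 𝓤, ∀ r ∈ K, p j r := by
  classical
  let r : ℕ → ℝ := fun j => if hj : ∃ r ∈ K, ¬ p j r then hj.choose else r00
  have hr : ∀ j, r j ∈ K := by
    intro j
    by_cases hj : ∃ r ∈ K, ¬ p j r
    · simp only [r, dif_pos hj]
      exact hj.choose_spec.1
    · simp only [r, dif_neg hj]
      exact h00
  filter_upwards [h r hr] with j hj
  by_contra hcon
  push Not at hcon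
  have hcon' : ∃ r ∈ K, ¬ p j r := hcon
  simp only [r, dif_pos hcon'] at hj
  exact hcon'.choose_spec.2 hj

/-- an ultrafilter containing a frequent set -/
lemma exists_ultra {S : ℕ → Prop} (h : ∃ᶠ j in atTop, S j) :
    ∃ 𝓤 : Ultrafilter ℕ, (𝓤 : Filter ℕ) ≤ atTop ∧ ∀ᶠ j in (𝓤 : Filter ℕ), S j := by
  have hne : (atTop ⊓ 𝓟 {j | S j} : Filter ℕ).NeBot := by
    rw [Filter.inf_principal_neBot_iff]
    intro U hU
    obtain ⟨j, hj1, hj2⟩ := (h.and_eventually hU).exists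
    exact ⟨j, hj2, hj1⟩
  refine ⟨Ultrafilter.of (atTop ⊓ 𝓟 {j | S j}), (Ultrafilter.of_le _).trans inf_le_left, ?_⟩
  have := (Ultrafilter.of_le (atTop ⊓ 𝓟 {j | S j})).trans inf_le_right
  exact le_principal_iff.1 this

section
variable {om0 R : ℝ} {U : ℝ → ℂ} {B : BData om0 R U}

/-- from vanishing limits to a contradiction with the normalisation -/
lemma small_of_lim (hNT : B.C4NT) {𝓤 : Ultrafilter ℕ} (hU : (𝓤 : Filter ℕ) ≤ atTop) {La : ℝ} {l : ℕ}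
    {lam al : ℕ → ℂ} {H : ℕ → R12 → ℝ} {e F G : ℕ → ℝ → ℂ}
    (hp : ∀ᶠ j in (𝓤 : Filter ℕ), 0 ≤ (lam j).re ∧ ‖lam j‖ ≤ La ∧ ‖al j‖ ≤ 1 ∧
      (B.P j).Pair l (H j) (lam j) (al j) (e j) (F j) (G j) ∧
      ((al j = 0 ∧ e j = fun _ => 0) ∨ ∃ ls : ℝ, (B.P j).IsSym l ls (e j)) ∧
      NB 8 (F j) (G j) ≤ 1)
    (hlim : ∀ d, 0 < d → ∀ r : ℕ → ℝ, (∀ j, r j ∈ Icc (R + d) 8) →
      Tendsto (fun j => F j (r j)) 𝓤 (𝓝 0) ∧ Tendsto (fun j => deriv (F j) (r j)) 𝓤 (𝓝 0) ∧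
      Tendsto (fun j => G j (r j)) 𝓤 (𝓝 0) ∧ Tendsto (fun j => deriv (G j) (r j)) 𝓤 (𝓝 0)) :
    ∀ᶠ j in (𝓤 : Filter ℕ), NB 8 (F j) (G j) ≤ 1 / 2 := by
  obtain ⟨d, hd, hd6, hev⟩ := hNT La l (1 / 2) (by norm_num)
  have hmem : R + d ∈ Icc (R + d) 8 := ⟨le_rfl, by linarith⟩
  have hsmall : ∀ᶠ j in (𝓤 : Filter ℕ), ∀ r ∈ Icc (R + d) 8,
      ‖F j r‖ ≤ d ∧ ‖deriv (F j) r‖ ≤ d ∧ ‖G j r‖ ≤ d ∧ ‖deriv (G j) r‖ ≤ d := by
    refine ev_of_seq hmem fun r hr => ?_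
    obtain ⟨a1, a2, a3, a4⟩ := hlim d hd r hr
    have key : ∀ u : ℕ → ℂ, Tendsto u 𝓤 (𝓝 0) → ∀ᶠ j in (𝓤 : Filter ℕ), ‖u j‖ ≤ d := by
      intro u hu
      have := hu.norm
      rw [norm_zero] at this
      filter_upwards [this.eventually (gt_mem_nhds hd)] with j hj using le_of_lt hj
    filter_upwards [key _ a1, key _ a2, key _ a3, key _ a4] with j b1 b2 b3 b4
    exact ⟨b1, b2, b3, b4⟩
  filter_upwards [hev.filter_mono hU, hsmall, hp] with j h1 h2 h3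
  obtain ⟨c1, c2, c3, c4, c5, c6⟩ := h3
  exact h1 (H j) (lam j) (al j) (e j) (F j) (G j) c1 c2 c3 c4 c5 c6 h2

/-- (SY) for one symmetry value -/
theorem sy_fixed (LP : LimitProfile om0 R U) (hs : SymStmt) (hReg : B.REG) (hE : B.EXTs' Phi Phi1)
    (hBC : B.C4BC) (hNT : B.C4NT) (hL : LimitSpec Phi Phi1 om0 R) (La : ℝ) {l : ℕ} {ls : ℝ}
    (hls : (l = 0 ∧ ls = 0) ∨ (l = 0 ∧ ls = 1) ∨ (l = 1 ∧ ls = 1 / 2)) :
    ∃ rs : ℝ, ∀ᶠ j in atTop, ∀ lam : ℂ, 0 ≤ lam.re → ‖lam‖ ≤ La → ∀ e : ℝ → ℂ,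
      (B.P j).IsSym l ls e → ‖(ls : ℂ) - lam‖ ≤ 1 / 4 → e rs ≠ 0 ∧
      ∀ (H : R12 → ℝ) (al : ℂ) (F G : ℝ → ℂ), (B.P j).Pair l H lam al e F G → F rs = 0 →
        ∀ r : ℝ, 0 < r → F r = 0 ∧ G r = 0 := by
  obtain ⟨rs, hrs, c, hc, hlow⟩ := sym_lower LP B l ls
  refine ⟨rs, ?_⟩
  have hR8 : R < 8 := by linarith [LP.R_hi]
  by_contra hcon
  have hfreq := (not_eventually.1 hcon).and_eventually (hlow.and (vanish hR8 hReg))
  set bad : ℕ → Prop := fun j => ∃ t : (ℂ × ℂ) × (R12 → ℝ) × (ℝ → ℂ) × (ℝ → ℂ) × (ℝ → ℂ),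
    (0 ≤ t.1.1.re ∧ ‖t.1.1‖ ≤ La ∧ ‖t.1.2‖ ≤ 1 ∧ (B.P j).IsSym l ls t.2.2.1 ∧
      (B.P j).Pair l t.2.1 t.1.1 t.1.2 t.2.2.1 t.2.2.2.1 t.2.2.2.2 ∧
      NB 8 t.2.2.2.1 t.2.2.2.2 ≤ 1) ∧ ‖(ls : ℂ) - t.1.1‖ ≤ 1 / 4 ∧ c ≤ ‖t.2.2.1 rs‖ ∧
      t.2.2.2.1 rs = 0 ∧ (NB 8 t.2.2.2.1 t.2.2.2.2 = 1 ∨ ‖t.1.2‖ = 1) with hbad
  have hb : ∃ᶠ j in atTop, bad j := by
    refine hfreq.mono fun j hj => ?_
    obtain ⟨h1, h2, h3⟩ := hj
    push Not at h1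
    obtain ⟨lam, hre, hLa, e, hsym, hnear, himp⟩ := h1
    have hers : c ≤ ‖e rs‖ := h2 e hsym
    have hne : e rs ≠ 0 := norm_pos_iff.1 (lt_of_lt_of_le hc hers)
    obtain ⟨H, al, F, G, hpair, hF, r, hr, hnz⟩ := himp hne
    set κ : ℝ := max (NB 8 F G) ‖al‖ with hκ
    have hκ0 : 0 < κ := by
      rcases lt_or_eq_of_le ((NB_nonneg 8 F G).trans (le_max_left (NB 8 F G) ‖al‖)) with h | h
      · exact h
      · exfalso
        have hN : NB 8 F G = 0 := le_antisymm (by rw [h]; exact le_max_left _ _) (NB_nonneg _ _ _)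
        have ha : al = 0 := by
          have : ‖al‖ ≤ 0 := by rw [h]; exact le_max_right _ _
          exact norm_le_zero_iff.1 this
        have := h3 l H lam al e F G hre hpair (Or.inr ⟨ls, hsym⟩) hN ha r hr
        exact hnz this.1 this.2
    have hcn : ‖((κ⁻¹ : ℝ) : ℂ)‖ = κ⁻¹ := by
      rw [Complex.norm_real, Real.norm_of_nonneg (inv_nonneg.2 hκ0.le)]
    have hi0 : 0 ≤ κ⁻¹ := inv_nonneg.2 hκ0.le
    have hN1 : κ⁻¹ * NB 8 F G ≤ 1 := by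
      calc κ⁻¹ * NB 8 F G ≤ κ⁻¹ * κ := mul_le_mul_of_nonneg_left (le_max_left _ _) hi0
        _ = 1 := inv_mul_cancel₀ hκ0.ne'
    have ha1 : κ⁻¹ * ‖al‖ ≤ 1 := by
      calc κ⁻¹ * ‖al‖ ≤ κ⁻¹ * κ := mul_le_mul_of_nonneg_left (le_max_right _ _) hi0
        _ = 1 := inv_mul_cancel₀ hκ0.ne'
    refine ⟨((lam, ((κ⁻¹ : ℝ) : ℂ) * al), H, e, fun r => ((κ⁻¹ : ℝ) : ℂ) * F r,
      fun r => ((κ⁻¹ : ℝ) : ℂ) * G r), ⟨hre, hLa, ?_, hsym, pair_smul hpair _, ?_⟩, hnear, hers,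
      ?_, ?_⟩
    · simp only
      rw [norm_mul, hcn]; exact ha1
    · simp only
      rw [NB_smul, hcn]; exact hN1
    · simp only
      rw [hF, mul_zero]
    · simp only
      rw [NB_smul, norm_mul, hcn]
      rcases max_choice (NB 8 F G) ‖al‖ with h | h
      · left
        rw [← h]; exact inv_mul_cancel₀ hκ0.ne'
      · right
        rw [← h]; exact inv_mul_cancel₀ hκ0.ne'
  obtain ⟨𝓤, hU, hbU⟩ := exists_ultra hb
  obtain ⟨t, ht⟩ := hbU.choice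
  obtain ⟨lam0, -, hlam⟩ := ulim (𝓤 := 𝓤) (u := fun j => (t j).1.1) (C := La)
    (by filter_upwards [ht] with j hj using hj.1.2.1)
  obtain ⟨a, -, hal⟩ := ulim (𝓤 := 𝓤) (u := fun j => (t j).1.2) (C := 1)
    (by filter_upwards [ht] with j hj using hj.1.2.2.1)
  obtain ⟨ha, hlim⟩ := seq_SY (𝓤 := 𝓤) LP hs hE hBC hL hU (La := La) hls (H := fun j => (t j).2.1)
    (e := fun j => (t j).2.2.1) (F := fun j => (t j).2.2.2.1) (G := fun j => (t j).2.2.2.2) hlam hal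
    (by filter_upwards [ht] with j hj using hj.1)
    (by filter_upwards [ht] with j hj using hj.2.1) hrs hc
    (by filter_upwards [ht] with j hj using hj.2.2.1)
    (by filter_upwards [ht] with j hj using hj.2.2.2.1)
  have hsm := small_of_lim (𝓤 := 𝓤) hNT hU (La := La) (l := l) (lam := fun j => (t j).1.1)
    (al := fun j => (t j).1.2) (H := fun j => (t j).2.1)
    (e := fun j => (t j).2.2.1) (F := fun j => (t j).2.2.2.1) (G := fun j => (t j).2.2.2.2)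
    (by
      filter_upwards [ht] with j hj
      obtain ⟨⟨b1, b2, b3, b4, b5, b6⟩, -⟩ := hj
      exact ⟨b1, b2, b3, b5, Or.inr ⟨ls, b4⟩, b6⟩) hlim
  have hal0 : ∀ᶠ j in (𝓤 : Filter ℕ), ‖(t j).1.2‖ < 1 := by
    have := hal.norm
    rw [ha, norm_zero] at this
    exact this.eventually (gt_mem_nhds one_pos)
  obtain ⟨j, h1, h2, h3⟩ := (hsm.and (hal0.and ht)).exists
  rcases h3.2.2.2.2 with h | h
  · rw [h] at h1; norm_num at h1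
  · rw [h] at h2; exact lt_irrefl _ h2

/-- **(SY)** -/
theorem sy (LP : LimitProfile om0 R U) (hs : SymStmt) (hReg : B.REG) (hE : B.EXTs' Phi Phi1)
    (hBC : B.C4BC) (hNT : B.C4NT) (hL : LimitSpec Phi Phi1 om0 R) (La : ℝ) (l : ℕ) :
    ∀ᶠ j in atTop, ∀ lam : ℂ, 0 ≤ lam.re → ‖lam‖ ≤ La → C4Red.SY (B.P j) l lam := by
  have key : ∀ ls : ℝ, ∃ rs : ℝ, ∀ᶠ j in atTop, ∀ lam : ℂ, 0 ≤ lam.re → ‖lam‖ ≤ La →
      ∀ e : ℝ → ℂ, (B.P j).IsSym l ls e → ‖(ls : ℂ) - lam‖ ≤ 1 / 4 → e rs ≠ 0 ∧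
      ∀ (H : R12 → ℝ) (al : ℂ) (F G : ℝ → ℂ), (B.P j).Pair l H lam al e F G → F rs = 0 →
        ∀ r : ℝ, 0 < r → F r = 0 ∧ G r = 0 := by
    intro ls
    by_cases hls : (l = 0 ∧ ls = 0) ∨ (l = 0 ∧ ls = 1) ∨ (l = 1 ∧ ls = 1 / 2)
    · exact sy_fixed LP hs hReg hE hBC hNT hL La hls
    · refine ⟨0, Eventually.of_forall fun j lam _ _ e he => ?_⟩
      exfalso
      rcases he with ⟨h1, h2, _⟩ | ⟨h1, h2, _⟩ | ⟨h1, h2, _⟩
      · exact hls (Or.inl ⟨h1, h2⟩)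
      · exact hls (Or.inr (Or.inl ⟨h1, h2⟩))
      · exact hls (Or.inr (Or.inr ⟨h1, h2⟩))
  obtain ⟨r0, h0⟩ := key 0
  obtain ⟨r1, h1⟩ := key 1
  obtain ⟨r2, h2⟩ := key (1 / 2)
  filter_upwards [h0, h1, h2] with j k0 k1 k2 lam hre hLa ls e he hn
  have hls : ls = 0 ∨ ls = 1 ∨ ls = 1 / 2 := by
    rcases he with ⟨_, h, _⟩ | ⟨_, h, _⟩ | ⟨_, h, _⟩
    · exact Or.inl h
    · exact Or.inr (Or.inl h)
    · exact Or.inr (Or.inr h)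
  rcases hls with h | h | h
  · subst h; exact ⟨r0, k0 lam hre hLa e he hn⟩
  · subst h; exact ⟨r1, k1 lam hre hLa e he hn⟩
  · subst h; exact ⟨r2, k2 lam hre hLa e he hn⟩

end

end Crest.Agent.R086.C4SY
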