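import Crest.Agent.R086.CReg2

/-!
Row 86, Part C3 (helper360): REG, `regStmt : SmoStmt → RegStmt B`.
-/

set_option autoImplicit false

open MeasureTheory Complex Set Filter Topology
open scoped ContDiff SchwartzMap FourierTransform

namespace Crest.Agent.R086.CReg

open Crest.Agent.R086

/-- closing real-number lemma -/
theorem close_aux {n μ im W1 W2 M δ β x0 x1 E L V G La : ℝ} (hn : 1 ≤ n) (hμ : 0 ≤ μ)
    (him : im ≤ n) (hW1 : 0 ≤ W1) (hW2 : 0 ≤ W2) (hM : 0 ≤ M) (hδ0 : 0 ≤ δ) (hδ : 4 * n * δ ≤ 1)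
    (hβ : 0 ≤ β) (hx0 : 0 ≤ x0) (hx1 : 0 ≤ x1) (hE : 0 ≤ E)
    (h0 : x0 ≤ im * (β + (2 * δ * x0 + E)))
    (h1 : x1 ≤ (2 * im + 6 + μ) * β + W1 * (M * (2 * x0)) + im * (2 * δ * x1 + E))
    (h3 : ∀ La : ℝ, 0 < La → β ≤ 2 * (La ^ 12 * V * (M * L)) + W2 * (M * (2 * x1)) / La)
    (hG : G = 2 * (3 * n + 6 + μ + 4 * W1 * M * n)) (hLa : La = 1 + 4 * W2 * M * G) :
    x1 ≤ G * (4 * (La ^ 12 * V * (M * L)) + 2 * E) := by
  have hn0 : 0 ≤ n := by linarith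
  have hWM : 0 ≤ W1 * M := mul_nonneg hW1 hM
  have hWMn : 0 ≤ W1 * M * n := mul_nonneg hWM hn0
  have hG0 : 0 ≤ G := by rw [hG]; linarith
  have hWG : 0 ≤ W2 * M * G := mul_nonneg (mul_nonneg hW2 hM) hG0
  have hLa0 : 0 < La := by rw [hLa]; linarith
  have hbE : 0 ≤ β + E := add_nonneg hβ hE
  have e0 : x0 ≤ 2 * n * (β + E) := by
    have a1 : im * (β + (2 * δ * x0 + E)) ≤ n * (β + (2 * δ * x0 + E)) :=
      mul_le_mul_of_nonneg_right him (by positivity)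
    have a2 : (4 * n * δ) * x0 ≤ 1 * x0 := mul_le_mul_of_nonneg_right hδ hx0
    linear_combination 2 * h0 + 2 * a1 + a2
  have e1 : x1 ≤ G * (β + E) := by
    have a1 : im * (2 * δ * x1 + E) ≤ n * (2 * δ * x1 + E) :=
      mul_le_mul_of_nonneg_right him (by positivity)
    have a2 : (4 * n * δ) * x1 ≤ 1 * x1 := mul_le_mul_of_nonneg_right hδ hx1
    have a3 : (2 * im + 6 + μ) * β ≤ (2 * n + 6 + μ) * β :=
      mul_le_mul_of_nonneg_right (by linarith) hβ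
    have a4 : W1 * M * (2 * x0) ≤ W1 * M * (2 * (2 * n * (β + E))) :=
      mul_le_mul_of_nonneg_left (by linarith) hWM
    have a5 : 0 ≤ n * β := mul_nonneg hn0 hβ
    have a6 : 0 ≤ n * E := mul_nonneg hn0 hE
    have a7 : 0 ≤ μ * E := mul_nonneg hμ hE
    rw [hG]
    linear_combination 2 * h1 + 2 * a1 + a2 + 2 * a3 + 2 * a4 + 2 * a5 + 4 * a6 + 12 * hE + 2 * a7
  have e3 : β ≤ 4 * (La ^ 12 * V * (M * L)) + E := by
    have a1 := h3 La hLa0
    have a2 : W2 * (M * (2 * x1)) / La ≤ (β + E) / 2 := by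
      rw [div_le_iff₀ hLa0, hLa]
      have b1 : W2 * M * 2 * x1 ≤ W2 * M * 2 * (G * (β + E)) :=
        mul_le_mul_of_nonneg_left e1 (by positivity)
      linear_combination b1 + hbE / 2
    linear_combination 2 * a1 + 2 * a2
  calc x1 ≤ G * (β + E) := e1
    _ ≤ G * (4 * (La ^ 12 * V * (M * L)) + 2 * E) :=
        mul_le_mul_of_nonneg_left (by linarith) hG0

theorem poly_aux {n l W1 W2 V o L E x1 X CG G La P CT Y : ℝ} {K0 k : ℕ} (hn : 2 ≤ n) (hl : 0 ≤ l)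
    (ho : 0 ≤ o) (hW1 : 0 ≤ W1) (hW2 : 0 ≤ W2) (hV : 0 ≤ V) (hL : 0 ≤ L) (hE : 0 ≤ E)
    (hX : X = n * (1 + l)) (hCG : CG = 2 * (11 + o + 4 * W1))
    (hG : G = 2 * (3 * n + 6 + (l + o + 2) + 4 * W1 * n ^ K0 * n))
    (hLa : La = 1 + 4 * W2 * n ^ K0 * G)
    (hP : P = (1 + 4 * W2 * CG) ^ 12) (hCT : CT = 4 * V * CG * P + 2 * CG) (hk : CT ≤ 2 ^ k)
    (hY : Y = X ^ (26 * K0 + 13))
    (h : x1 ≤ G * (4 * (La ^ 12 * V * (n ^ K0 * L)) + 2 * E)) :
    x1 ≤ X ^ k * Y * (L + E) := by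
  have hnl : 0 ≤ n * l := mul_nonneg (by linarith) hl
  have hX2 : 2 ≤ X := by rw [hX]; linarith
  have hX1 : 1 ≤ X := by linarith
  have hnX : n ≤ X := by rw [hX]; linarith
  have hlX : 1 + l ≤ X := by
    have : 1 * (1 + l) ≤ n * (1 + l) := mul_le_mul_of_nonneg_right (by linarith) (by linarith)
    rw [hX]; linarith
  have hCG0 : 0 ≤ CG := by rw [hCG]; linarith
  have hXK1 : X ≤ X ^ (K0 + 1) := by
    calc X = X ^ 1 := (pow_one X).symm
      _ ≤ X ^ (K0 + 1) := pow_le_pow_right₀ hX1 (by omega)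
  have hnK : n ^ K0 ≤ X ^ K0 := pow_le_pow_left₀ (by linarith) hnX K0
  have hnK0 : 0 ≤ n ^ K0 := by positivity
  have hnK1 : n ^ K0 * n ≤ X ^ (K0 + 1) := by
    rw [pow_succ]
    exact mul_le_mul hnK hnX (by linarith) (by positivity)
  have hG0 : 0 ≤ G := by rw [hG]; positivity
  have hGb : G ≤ CG * X ^ (K0 + 1) := by
    have a1 : W1 * (n ^ K0 * n) ≤ W1 * X ^ (K0 + 1) := mul_le_mul_of_nonneg_left hnK1 hW1
    have a2 : 8 + l + o ≤ (8 + o) * X ^ (K0 + 1) := by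
      have b1 : 8 + l + o ≤ (8 + o) * (1 + l) := by
        linear_combination 7 * hl + mul_nonneg ho hl
      have b2 : (8 + o) * (1 + l) ≤ (8 + o) * X ^ (K0 + 1) :=
        mul_le_mul_of_nonneg_left (hlX.trans hXK1) (by linarith)
      linarith
    rw [hG, hCG]
    linear_combination 8 * a1 + 2 * a2 + 6 * (hnX.trans hXK1)
  have hLa0 : 0 ≤ La := by rw [hLa]; positivity
  have hLab : La ≤ (1 + 4 * W2 * CG) * X ^ (2 * K0 + 1) := by
    have a1 : n ^ K0 * G ≤ CG * X ^ (2 * K0 + 1) := by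
      calc n ^ K0 * G ≤ X ^ K0 * (CG * X ^ (K0 + 1)) := mul_le_mul hnK hGb hG0 (by positivity)
        _ = CG * X ^ (2 * K0 + 1) := by ring
    have a2 : 1 ≤ X ^ (2 * K0 + 1) := one_le_pow₀ hX1
    have a3 : W2 * (n ^ K0 * G) ≤ W2 * (CG * X ^ (2 * K0 + 1)) := mul_le_mul_of_nonneg_left a1 hW2
    rw [hLa]
    linear_combination 4 * a3 + a2
  have hP0 : 0 ≤ P := by rw [hP]; positivity
  have hLa12 : La ^ 12 ≤ P * X ^ (24 * K0 + 12) := by
    refine (pow_le_pow_left₀ hLa0 hLab 12).trans (le_of_eq ?_)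
    rw [mul_pow, ← pow_mul, hP]
    congr 2; ring
  have hYe : Y = X ^ (K0 + 1) * (X ^ (24 * K0 + 12) * X ^ K0) := by
    rw [hY, ← pow_add, ← pow_add]; congr 1; ring
  have hY0 : 0 ≤ Y := by rw [hY]; positivity
  have hmain1 : G * (4 * (La ^ 12 * V * (n ^ K0 * L))) ≤ (4 * V * CG * P) * Y * L := by
    have a1 : G * (La ^ 12 * n ^ K0) ≤ (CG * X ^ (K0 + 1)) * ((P * X ^ (24 * K0 + 12)) * X ^ K0) :=
      mul_le_mul hGb (mul_le_mul hLa12 hnK hnK0 (by positivity)) (by positivity) (by positivity)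
    have a2 : (CG * X ^ (K0 + 1)) * ((P * X ^ (24 * K0 + 12)) * X ^ K0) = CG * P * Y := by
      rw [hYe]; ring
    rw [a2] at a1
    have a3 : (4 * V * L) * (G * (La ^ 12 * n ^ K0)) ≤ (4 * V * L) * (CG * P * Y) :=
      mul_le_mul_of_nonneg_left a1 (by positivity)
    calc G * (4 * (La ^ 12 * V * (n ^ K0 * L))) = (4 * V * L) * (G * (La ^ 12 * n ^ K0)) := by ring
      _ ≤ _ := a3
      _ = _ := by ring
  have hmain2 : G * (2 * E) ≤ (2 * CG) * Y * E := by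
    have a1 : G ≤ CG * Y := by
      refine hGb.trans (mul_le_mul_of_nonneg_left ?_ hCG0)
      rw [hY]
      exact pow_le_pow_right₀ hX1 (by omega)
    have a2 := mul_le_mul_of_nonneg_right a1 hE
    linear_combination 2 * a2
  have hkX : CT ≤ X ^ k := hk.trans (pow_le_pow_left₀ (by norm_num) hX2 k)
  have hLE : 0 ≤ L + E := add_nonneg hL hE
  have p1 : 0 ≤ 4 * V * CG * P := by positivity
  have p2 : 0 ≤ 2 * CG := by positivity
  have p3 : 0 ≤ (4 * V * CG * P) * (Y * E) := mul_nonneg p1 (mul_nonneg hY0 hE)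
  have p4 : 0 ≤ (2 * CG) * (Y * L) := mul_nonneg p2 (mul_nonneg hY0 hL)
  have q1 : x1 ≤ CT * Y * (L + E) := by
    rw [hCT]
    linear_combination h + hmain1 + hmain2 + p3 + p4
  exact q1.trans (mul_le_mul_of_nonneg_right (mul_le_mul_of_nonneg_right hkX hY0) hLE)

theorem exists_cut {r0 r1 : ℝ} (h0 : 0 < r0) (h1 : r0 < r1) : ∃ χ : R12 → ℝ, IsCut χ r0 r1 := by
  let b : ContDiffBump (0 : R12) := ⟨r0, r1, h0, h1⟩
  refine ⟨b, h0, h1, b.contDiff, fun y hy => b.one_of_mem_closedBall (by simpa using hy),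
    fun y hy => b.zero_of_le_dist (by simpa using hy), fun y => b.nonneg, fun y => b.le_one⟩

theorem IsCut.compact {χ : R12 → ℝ} {r0 r1 : ℝ} (h : IsCut χ r0 r1) : HasCompactSupport χ := by
  refine HasCompactSupport.of_support_subset_isCompact (isCompact_closedBall (0 : R12) r1) ?_
  intro y hy
  rw [Function.mem_support] at hy
  rw [Metric.mem_closedBall, dist_zero_right]
  by_contra hh
  exact hy (h.zero y (not_le.1 hh).le)

/-- REG -/
theorem regStmt (hS : SmoStmt) {om0 R : ℝ} {U : ℝ → ℂ} (hR : 0 ≤ R) (B : BData om0 R U) :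
    RegStmt B := by
  intro r1 hr1
  obtain ⟨χ, hχ⟩ := exists_cut (r0 := (R + r1) / 2) (r1 := r1) (by linarith) (by linarith)
  obtain ⟨c, hc, htail⟩ := B.tail ((R + r1) / 2) r1 (by linarith) (by linarith) χ hχ
  obtain ⟨K0, hpoly⟩ := B.poly
  obtain ⟨w, hw⟩ := DSpec.exists_ft hχ.smooth (IsCut.compact hχ)
  set W1 : ℝ := ∫ ξ : R12, ‖fderiv ℝ (w : R12 → ℂ) ξ‖ with hW1
  set W2 : ℝ := xn 1 (w : R12 → ℂ) with hW2
  have hW10 : 0 ≤ W1 := integral_nonneg fun _ => norm_nonneg _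
  have hW20 : 0 ≤ W2 := xn_nonneg _ _
  obtain ⟨k, hk⟩ := pow_unbounded_of_one_lt (4 * vB * (2 * (11 + |om0| + 4 * W1)) *
        (1 + 4 * W2 * (2 * (11 + |om0| + 4 * W1))) ^ 12 + 2 * (2 * (11 + |om0| + 4 * W1)))
        (one_lt_two (α := ℝ))
  refine ⟨k + (26 * K0 + 13), ?_⟩
  have hn2 : ∀ᶠ j in atTop, 2 ≤ B.nn j := B.nn_tendsto.eventually_ge_atTop 2
  have hom : ∀ᶠ j in atTop, |(B.P j).om| ≤ |om0| + 1 := by
    have h1 := B.om_tendsto.abs
    exact (h1.eventually (gt_mem_nhds (show |om0| < |om0| + 1 by linarith))).mono fun j hj => hj.le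
  have hexp : ∀ᶠ j in atTop, 4 * (B.nn j : ℝ) * Real.exp (-c * B.nn j) ≤ 1 := by
    have h1 : Tendsto (fun x : ℝ => x ^ (1 : ℝ) * Real.exp (-c * x)) atTop (𝓝 0) :=
      tendsto_rpow_mul_exp_neg_mul_atTop_nhds_zero 1 c hc
    have h2 : Tendsto (fun j => (B.nn j : ℝ)) atTop atTop :=
      tendsto_natCast_atTop_atTop.comp B.nn_tendsto
    have h3 := (h1.comp h2).eventually (gt_mem_nhds (show (0 : ℝ) < 1 / 4 by norm_num))
    refine h3.mono fun j hj => ?_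
    simp only [Function.comp_apply, Real.rpow_one] at hj
    linarith
  filter_upwards [htail, hpoly, hn2, hom, hexp] with j htj hpj hnj homj hexpj
  intro lam al hlam f g e1 e2 a b c1 c2 ha hb hc1 hc2 heq1 heq2
  obtain ⟨⟨t1, ht1, ht1b⟩, ⟨t2, ht2, ht2b⟩, ⟨t2c, ht2c, ht2cb⟩⟩ := htj
  obtain ⟨⟨v1, hv1, hv1b⟩, ⟨v2, hv2, hv2b⟩, ⟨v2c, hv2c, hv2cb⟩, -⟩ := hpj
  have hnR : (2 : ℝ) ≤ (B.nn j : ℝ) := by exact_mod_cast hnj
  set n : ℝ := (B.nn j : ℝ) with hn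
  set M : ℝ := n ^ K0 with hM
  set δ : ℝ := Real.exp (-c * n) with hδ
  have bv1 : xn 1 v1 ≤ M := (xn_mono (by norm_num) (Rep.wint hv1)).trans hv1b
  have bv2 : xn 1 v2 ≤ M := (xn_mono (by norm_num) (Rep.wint hv2)).trans hv2b
  have bv2c : xn 1 v2c ≤ M := (xn_mono (by norm_num) (Rep.wint hv2c)).trans hv2cb
  have bt1 : xn 1 t1 ≤ δ := (xn_mono (by norm_num) (Rep.wint ht1)).trans ht1b
  have bt2 : xn 1 t2 ≤ δ := (xn_mono (by norm_num) (Rep.wint ht2)).trans ht2b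
  have bt2c : xn 1 t2c ≤ δ := (xn_mono (by norm_num) (Rep.wint ht2c)).trans ht2cb
  set mu1 : ℂ := lam + 1 / (B.nn j : ℂ) - I * (B.P j).om with hmu1
  set mu2 : ℂ := lam + 1 / (B.nn j : ℂ) + I * (B.P j).om with hmu2
  have hre : ((1 : ℂ) / (B.nn j : ℂ)).re = 1 / n := by
    rw [hn]
    have : (1 : ℂ) / (B.nn j : ℂ) = ((1 / (B.nn j : ℝ) : ℝ) : ℂ) := by push_cast; ring
    rw [this, ofReal_re]
  have hr1' : mu1.re = lam.re + 1 / n := by
    rw [hmu1, sub_re, add_re, hre]; simp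
  have hr2' : mu2.re = lam.re + 1 / n := by
    rw [hmu2, add_re, add_re, hre]; simp
  have hn0 : 0 < n := by linarith
  have hmpos : 0 < lam.re + 1 / n := by positivity
  have hnorm : ‖(1 : ℂ) / (B.nn j : ℂ)‖ ≤ 1 := by
    rw [norm_div, norm_one, Complex.norm_natCast, ← hn]
    rw [div_le_one hn0]; linarith
  have hnI : ‖I * ((B.P j).om : ℂ)‖ ≤ |om0| + 1 := by
    rw [norm_mul, norm_I, one_mul, Complex.norm_real]; exact homj
  have hb1 : ‖mu1‖ ≤ ‖lam‖ + |om0| + 2 := by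
    rw [hmu1]
    have h1 := norm_sub_le (lam + 1 / (B.nn j : ℂ)) (I * (B.P j).om)
    have h2 := norm_add_le lam (1 / (B.nn j : ℂ))
    linarith
  have hb2 : ‖mu2‖ ≤ ‖lam‖ + |om0| + 2 := by
    rw [hmu2]
    have h1 := norm_add_le (lam + 1 / (B.nn j : ℂ)) (I * (B.P j).om)
    have h2 := norm_add_le lam (1 / (B.nn j : ℂ))
    linarith
  have hE1 : ∀ y, (((1 : ℝ) : ℂ)) * I * lap f y - (1 / 2) * eul f y - mu1 * f y
      = (((1 : ℝ) : ℂ)) * I * ((B.P j).V1 y * f y + (B.P j).V2 y * g y) + al * e1 y := by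
    intro y
    rw [← heq1 y, Profile.gen1, hmu1]
    push_cast; ring
  have hE2 : ∀ y, (((-1 : ℝ) : ℂ)) * I * lap g y - (1 / 2) * eul g y - mu2 * g y
      = (((-1 : ℝ) : ℂ)) * I * ((B.P j).V1 y * g y + (B.P j).V2c y * f y) + al * e2 y := by
    intro y
    rw [← heq2 y, Profile.gen2, hmu2]
    push_cast; ring
  obtain ⟨β1, hβ1, A0, A1, A3⟩ := comp_est hS (Or.inl rfl) (mu := mu1) (al := al)
    (by rw [hr1']; exact hmpos) ha hb hc1
    (Rep.mono (by norm_num) hv1) (Rep.mono (by norm_num) hv2)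
    (Rep.mono (by norm_num) ht1) (Rep.mono (by norm_num) ht2) bv1 bv2 bt1 bt2 w hw
    hχ.nonneg hχ.le_one hχ.zero hE1
  obtain ⟨β2, hβ2, B0, B1, B3⟩ := comp_est hS (Or.inr rfl) (mu := mu2) (al := al)
    (by rw [hr2']; exact hmpos) hb ha hc2
    (Rep.mono (by norm_num) hv1) (Rep.mono (by norm_num) hv2c)
    (Rep.mono (by norm_num) ht1) (Rep.mono (by norm_num) ht2c) bv1 bv2c bt1 bt2c w hw
    hχ.nonneg hχ.le_one hχ.zero hE2
  rw [hr1'] at A0 A1
  rw [hr2'] at B0 B1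
  set im : ℝ := (lam.re + 1 / n)⁻¹ with him
  have him0 : 0 ≤ im := by positivity
  have himn : im ≤ n := by
    rw [him]
    calc (lam.re + 1 / n)⁻¹ ≤ (1 / n)⁻¹ := by
          apply inv_anti₀ (by positivity); linarith
      _ = n := by rw [one_div, inv_inv]
  have hsw : (∫ y in Metric.closedBall (0 : R12) r1, (‖g y‖ + ‖f y‖)) =
      ∫ y in Metric.closedBall (0 : R12) r1, (‖f y‖ + ‖g y‖) := by
    refine integral_congr_ae (Eventually.of_forall fun y => ?_)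
    simp only; ring
  set L : ℝ := ∫ y in Metric.closedBall (0 : R12) r1, (‖f y‖ + ‖g y‖) with hL
  have hL0 : 0 ≤ L := integral_nonneg fun _ => by positivity
  have na0 := xn_nonneg 0 a
  have nb0 := xn_nonneg 0 b
  have na1 := xn_nonneg 1 a
  have nb1 := xn_nonneg 1 b
  have nc1 := xn_nonneg 1 c1
  have nc2 := xn_nonneg 1 c2
  have nal := norm_nonneg al
  have hM0 : 0 ≤ M := by positivity
  have hδ0 : 0 ≤ δ := (Real.exp_pos _).le
  have nl := norm_nonneg lam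
  have hoo := abs_nonneg om0
  have hfin := close_aux (n := n) (μ := ‖lam‖ + |om0| + 2) (im := im) (W1 := W1) (W2 := W2) (M := M)
    (δ := δ) (β := β1 + β2) (x0 := xn 0 a + xn 0 b) (x1 := xn 1 a + xn 1 b)
    (E := ‖al‖ * (xn 1 c1 + xn 1 c2)) (L := L) (V := vB) (by linarith) (by positivity) himn
    hW10 hW20 hM0 hδ0 hexpj (by positivity) (by positivity) (by positivity) (by positivity)
    (by
      rw [div_eq_mul_inv] at A0 B0
      linear_combination A0 + B0)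
    (by
      rw [div_eq_mul_inv, div_eq_mul_inv _ (lam.re + 1 / n)] at A1 B1
      have m1 : ‖mu1‖ * β1 ≤ (‖lam‖ + |om0| + 2) * β1 := mul_le_mul_of_nonneg_right hb1 hβ1
      have m2 : ‖mu2‖ * β2 ≤ (‖lam‖ + |om0| + 2) * β2 := mul_le_mul_of_nonneg_right hb2 hβ2
      linear_combination A1 + B1 + m1 + m2)
    (by
      intro La hLa
      have h1 := A3 La hLa
      have h2 := B3 La hLa
      rw [hsw] at h2
      rw [div_eq_mul_inv] at h1 h2 ⊢
      linear_combination h1 + h2) rfl rfl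
  have hres := poly_aux (k := k) (K0 := K0) (o := |om0|) hnR nl hoo hW10 hW20 vB_nonneg hL0
    (by positivity) rfl rfl rfl rfl rfl rfl hk.le rfl hfin
  rw [pow_add]
  exact hres

end Crest.Agent.R086.CReg
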