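import Crest.Agent.R086.CTop
import Crest.Agent.R086.CRegB
import Crest.Agent.R086.CReg

/-!
Row 86, PART C: final assembly from the leaves (captain helper777).
-/

set_option autoImplicit false

open MeasureTheory Complex Set Filter Topology
open scoped ContDiff

namespace Crest.Agent.R086

/-- `R4Stmt` from the output of C4 (`BData.C4Stmt`, helper426). -/
theorem r4_of_c4 (h : ∀ (D : A.AData) (U : ℝ → ℂ), LimitProfile D.om D.R U →
    ∀ B : BData D.om D.R U, B.C4Stmt) : R4Stmt := by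
  intro D U hL B M0
  have h1 : ∀ᶠ j in atTop, ∀ l ∈ Finset.range (⌈M0⌉₊ + 1), ∀ lam : ℂ, 0 ≤ lam.re → ‖lam‖ ≤ M0 →
      (B.P j).ModeGoodAt l lam :=
    (Filter.eventually_all_finset _).mpr fun l _ => h D U hL B M0 l
  filter_upwards [h1] with j hj
  intro lam l H F G al e1 e2 hre hM hE
  have hl : (l : ℝ) ≤ M0 := by linarith [norm_nonneg lam]
  have hlam : ‖lam‖ ≤ M0 := by linarith [(Nat.cast_nonneg l : (0 : ℝ) ≤ l)]
  have hmem : l ∈ Finset.range (⌈M0⌉₊ + 1) := by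
    rw [Finset.mem_range]
    have : l ≤ ⌈M0⌉₊ := by exact_mod_cast hl.trans (Nat.le_ceil M0)
    omega
  refine hj l hmem lam hre hlam H hE.mode.harm hE.mode.norm F G hE.mode.cF hE.mode.cG hE.mode.pF
    hE.mode.pG hE.mode.xF hE.mode.xG ?_
  rcases hE.src with h0 | h0 | h0 | h0
  · refine ⟨fun _ => ⟨0, 0, fun r hr => ?_⟩, fun _ => ⟨0, fun r hr => ?_⟩, fun _ r hr => ?_⟩
    · simp only [hE.eq1 r hr, hE.eq2 r hr, h0]; simp
    · simp only [hE.eq1 r hr, hE.eq2 r hr, h0]; simp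
    · simp only [hE.eq1 r hr, hE.eq2 r hr, h0]; simp
  · obtain ⟨hl0, -, he1, he2⟩ := h0
    refine ⟨fun _ => ⟨al, 0, fun r hr => ?_⟩, fun h => ?_, fun h => ?_⟩
    · simp only [hE.eq1 r hr, hE.eq2 r hr, he1, he2]; simp
    · omega
    · omega
  · obtain ⟨hl0, -, he1, he2⟩ := h0
    refine ⟨fun _ => ⟨0, al, fun r hr => ?_⟩, fun h => ?_, fun h => ?_⟩
    · simp only [hE.eq1 r hr, hE.eq2 r hr, he1, he2]; simp
    · omega
    · omega
  · obtain ⟨hl0, -, he1, he2⟩ := h0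
    refine ⟨fun h => ?_, fun _ => ⟨al, fun r hr => ?_⟩, fun h => ?_⟩
    · omega
    · simp only [hE.eq1 r hr, hE.eq2 r hr, he1, he2]; simp
    · omega

/-- `R2Stmt` from `SmoStmt` -/
theorem r2_of_smo (h : CReg.SmoStmt) : R2Stmt :=
  CRegB.r2Stmt fun _ _ _ hL B => CReg.regStmt h (by have := hL.R_lo; linarith) B

theorem partC_of_leaves (h0 : R0Stmt) (h1 : R1Stmt) (hS : CReg.SmoStmt) (h3 : R3Stmt)
    (h4 : ∀ (D : A.AData) (U : ℝ → ℂ), LimitProfile D.om D.R U → ∀ B : BData D.om D.R U, B.C4Stmt) :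
    PartC :=
  CTop.partC_of h0 h1 (r2_of_smo hS) h3 (r4_of_c4 h4)

end Crest.Agent.R086
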