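import Crest.Agent.R086.C4Red
import Crest.Agent.R086.C4Phi
import Crest.Agent.R086.CFin

/-!
Row 86, Part C: node C4, assembly (captain helper777).
-/

set_option autoImplicit false

open MeasureTheory Complex Set Filter Topology
open scoped ContDiff

namespace Crest.Agent.R086

/-- output of the limit argument of C4: (NS) and (SY) eventually, for bounded `lam` and fixed `l`. -/
def BData.C4Lim {om0 R : ℝ} {U : ℝ → ℂ} (B : BData om0 R U) : Prop :=
  ∀ (La : ℝ) (l : ℕ), ∀ᶠ j in atTop, ∀ lam : ℂ, 0 ≤ lam.re → ‖lam‖ ≤ La →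
    C4Red.NS (B.P j) l lam ∧ C4Red.SY (B.P j) l lam

theorem BData.c4Stmt_of_lim {om0 R : ℝ} {U : ℝ → ℂ} (B : BData om0 R U) (hs : SymStmt)
    (h : B.C4Lim) : B.C4Stmt := by
  intro La l
  filter_upwards [h La l] with j hj
  intro lam h0 h1
  exact C4Red.modeGoodAt hs (hj lam h0 h1).1 (hj lam h0 h1).2

theorem fo_eq_Phi (l : ℕ) (mu : ℂ) (r : ℝ) : A.fo l mu r = JCx.Phi l mu r := rfl

theorem fo1_eq_Phi1 (l : ℕ) (mu : ℂ) (r : ℝ) : A.fo1 l mu r = JCx.Phi1 l mu r := by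
  unfold A.fo1 JCx.Phi1 A.fo JCx.zr
  ring

theorem detL_eq (om0 R : ℝ) (l : ℕ) :
    A.DetL om0 R l = DetL JCx.Phi JCx.Phi1 om0 R l := by
  funext lam
  unfold A.DetL DetL A.Psi PsiL
  simp only [fo_eq_Phi, fo1_eq_Phi1]

/-- Part A's limit spectral statement in the form of `C34Defs` -/
theorem limitSpec_of_AData (D : A.AData) : LimitSpec JCx.Phi JCx.Phi1 D.om D.R := by
  have h := D.limitSpec
  refine ⟨fun l lam h1 h2 h3 => ?_, ?_, ?_, ?_⟩
  · rw [← detL_eq]; exact h.ne_zero l lam h1 h2 h3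
  · rw [← detL_eq]; exact h.simple_zero
  · rw [← detL_eq]; exact h.simple_one
  · rw [← detL_eq]; exact h.simple_half

end Crest.Agent.R086
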