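import Crest.Agent.R086.CCore2

/-!
Row 86 (S0114), Part C, C4: quantitative estimates for one radial eigen-system on `(0, rb)`
(energy estimate with the multiplier `(rb - r)^2`, boundary relations at `R`).
-/

set_option autoImplicit false

open Complex ComplexConjugate Set MeasureTheory

namespace Crest.Agent.R086.C4

open Crest.Agent.R086.CCore

/-- One radial eigen-system on `(0, rb)` with continuous data on `[0, rb]`. -/
structure Hyp (rb : ℝ) (Q Q1 : ℝ → ℂ) (P : ℝ → ℝ) (kap n eps : ℝ) (lam : ℂ)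
    (S S1 D D1 sS sD : ℝ → ℂ) : Prop where
  rb0 : 0 < rb
  sys : ∀ r ∈ Ioo 0 rb, Sys (w Q) (b Q Q1) P (rho Q Q1) kap n eps lam S S1 D D1 (sS r) (sD r) r
  cQ : ContinuousOn Q (Icc 0 rb)
  cQ1 : ContinuousOn Q1 (Icc 0 rb)
  cP : ContinuousOn P (Icc 0 rb)
  cS : ContinuousOn S (Icc 0 rb)
  cS1 : ContinuousOn S1 (Icc 0 rb)
  cD : ContinuousOn D (Icc 0 rb)
  cD1 : ContinuousOn D1 (Icc 0 rb)
  csS : ContinuousOn sS (Icc 0 rb)
  csD : ContinuousOn sD (Icc 0 rb)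
  ql : ∀ r ∈ Icc 0 rb, 1 / 2 ≤ ‖Q r‖
  qu : ∀ r ∈ Icc 0 rb, ‖Q r‖ ≤ 2
  P0 : ∀ r ∈ Icc 0 rb, 0 ≤ P r
  kap0 : 0 ≤ kap
  n0 : 0 ≤ n

namespace Hyp

variable {rb : ℝ} {Q Q1 : ℝ → ℂ} {P : ℝ → ℝ} {kap n eps : ℝ} {lam : ℂ}
  {S S1 D D1 sS sD : ℝ → ℂ}

theorem cw (h : Hyp rb Q Q1 P kap n eps lam S S1 D D1 sS sD) :
    ContinuousOn (w Q) (Icc 0 rb) := by
  have := h.cQ
  unfold w
  fun_prop

theorem cb (h : Hyp rb Q Q1 P kap n eps lam S S1 D D1 sS sD) :
    ContinuousOn (b Q Q1) (Icc 0 rb) := by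
  have h1 : ContinuousOn (fun r => Q1 r / Q r) (Icc 0 rb) := by
    refine h.cQ1.div h.cQ ?_
    intro r hr h0
    have := h.ql r hr
    rw [h0, norm_zero] at this
    linarith
  unfold b
  have h2 : ContinuousOn (fun r => (Q1 r / Q r).im) (Icc 0 rb) :=
    Complex.continuous_im.comp_continuousOn h1
  fun_prop

/-- `w r / r^2`, continuous version -/
theorem w_div (Q : ℝ → ℂ) {r : ℝ} (hr : r ≠ 0) : w Q r / r ^ 2 = ‖Q r‖ ^ 2 * r ^ 9 := by
  unfold w
  field_simp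

theorem w_nonneg (Q : ℝ → ℂ) {r : ℝ} (hr : 0 ≤ r) : 0 ≤ w Q r := by
  unfold w
  positivity

theorem wl (h : Hyp rb Q Q1 P kap n eps lam S S1 D D1 sS sD) {r : ℝ} (hr : r ∈ Icc 0 rb) :
    r ^ 11 / 4 ≤ w Q r := by
  have h1 := h.ql r hr
  have h2 : (1 / 2 : ℝ) ^ 2 ≤ ‖Q r‖ ^ 2 := pow_le_pow_left₀ (by norm_num) h1 2
  have h3 : (0 : ℝ) ≤ r ^ 11 := pow_nonneg hr.1 11
  unfold w
  nlinarith

theorem wu (h : Hyp rb Q Q1 P kap n eps lam S S1 D D1 sS sD) {r : ℝ} (hr : r ∈ Icc 0 rb) :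
    w Q r ≤ 4 * r ^ 11 := by
  have h1 := h.qu r hr
  have h2 : ‖Q r‖ ^ 2 ≤ (2 : ℝ) ^ 2 := pow_le_pow_left₀ (norm_nonneg _) h1 2
  have h3 : (0 : ℝ) ≤ r ^ 11 := pow_nonneg hr.1 11
  unfold w
  nlinarith

/-- energy density -/
noncomputable def ed (Q : ℝ → ℂ) (P : ℝ → ℝ) (kap n : ℝ) (S S1 D D1 : ℝ → ℂ) (r : ℝ) : ℝ :=
  w Q r * (‖S1 r‖ ^ 2 + ‖D1 r‖ ^ 2) + kap * (‖Q r‖ ^ 2 * r ^ 9) * (‖S r‖ ^ 2 + ‖D r‖ ^ 2)
    + n * P r * w Q r * ‖S r‖ ^ 2

theorem ed_nonneg (h : Hyp rb Q Q1 P kap n eps lam S S1 D D1 sS sD) {r : ℝ}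
    (hr : r ∈ Icc 0 rb) : 0 ≤ ed Q P kap n S S1 D D1 r := by
  have h1 := w_nonneg Q hr.1
  have h2 := h.P0 r hr
  have h3 := h.kap0
  have h4 := h.n0
  have h5 := hr.1
  unfold ed
  positivity

theorem c_ed (h : Hyp rb Q Q1 P kap n eps lam S S1 D D1 sS sD) :
    ContinuousOn (ed Q P kap n S S1 D D1) (Icc 0 rb) := by
  have h1 := h.cw
  have h2 := h.cQ
  have h3 := h.cP
  have h4 := h.cS
  have h5 := h.cS1
  have h6 := h.cD
  have h7 := h.cD1
  unfold ed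
  fun_prop

/-- `L²(w)` density of `(S, D)` -/
noncomputable def nd (Q : ℝ → ℂ) (S D : ℝ → ℂ) (r : ℝ) : ℝ := w Q r * (‖S r‖ ^ 2 + ‖D r‖ ^ 2)

theorem c_nd (h : Hyp rb Q Q1 P kap n eps lam S S1 D D1 sS sD) :
    ContinuousOn (nd Q S D) (Icc 0 rb) := by
  have h1 := h.cw
  have h4 := h.cS
  have h6 := h.cD
  unfold nd
  fun_prop

theorem c_nds (h : Hyp rb Q Q1 P kap n eps lam S S1 D D1 sS sD) :
    ContinuousOn (nd Q sS sD) (Icc 0 rb) := by
  have h1 := h.cw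
  have h4 := h.csS
  have h6 := h.csD
  unfold nd
  fun_prop

theorem re_le_mul (z u : ℂ) : |(z * conj u).re| ≤ ‖z‖ * ‖u‖ := by
  calc |(z * conj u).re| ≤ ‖z * conj u‖ := Complex.abs_re_le_norm _
    _ = ‖z‖ * ‖u‖ := by rw [norm_mul, Complex.norm_conj]

theorem key_real {X W s s1 d d1 ss sd B L p1 p2 q e : ℝ} (hW : 0 ≤ W) (hX0 : 0 ≤ X)
    (hX8 : X ^ 2 ≤ 64) (hB0 : 0 ≤ B) (hL0 : 0 ≤ L)
    (hp1 : p1 ≤ s1 * s) (hp2 : p2 ≤ d1 * d)
    (hq : q ≤ (B * d1 + L * d + sd) * s + (B * s1 + L * s + ss) * d)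
    (he : W * (s1 ^ 2 + d1 ^ 2) ≤ e) :
    1 / 2 * (X ^ 2 * e) - (100 * (1 + B ^ 2 + L)) * (W * (s ^ 2 + d ^ 2) + W * (ss ^ 2 + sd ^ 2)) ≤
      -(2 * X) * (W * p1 + W * p2) + X ^ 2 * e - X ^ 2 * W * q := by
  have hx2 : 0 ≤ X ^ 2 := sq_nonneg _
  have t1 : 2 * X * (W * p1 + W * p2) ≤
      X ^ 2 * W * (1 / 4 * (s1 ^ 2 + d1 ^ 2)) + 4 * (W * (s ^ 2 + d ^ 2)) := by
    have u1 : p1 + p2 ≤ s1 * s + d1 * d := by linarith
    have u2 : 2 * X * (s1 * s + d1 * d) ≤ X ^ 2 / 4 * (s1 ^ 2 + d1 ^ 2) + 4 * (s ^ 2 + d ^ 2) := by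
      linarith [sq_nonneg (X / 2 * s1 - 2 * s), sq_nonneg (X / 2 * d1 - 2 * d)]
    have u3 : 2 * X * (p1 + p2) ≤ X ^ 2 / 4 * (s1 ^ 2 + d1 ^ 2) + 4 * (s ^ 2 + d ^ 2) :=
      (mul_le_mul_of_nonneg_left u1 (by positivity)).trans u2
    have u4 := mul_le_mul_of_nonneg_left u3 hW
    linarith
  have t3 : q ≤ 1 / 4 * (s1 ^ 2 + d1 ^ 2) + (B ^ 2 + L + 1 / 2) * (s ^ 2 + d ^ 2)
        + 1 / 2 * (ss ^ 2 + sd ^ 2) := by
    linarith [sq_nonneg (d1 / 2 - B * s), sq_nonneg (s1 / 2 - B * d), sq_nonneg (s - sd),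
      sq_nonneg (d - ss), mul_nonneg hL0 (sq_nonneg (s - d))]
  have t3' : X ^ 2 * W * q ≤ X ^ 2 * W * (1 / 4 * (s1 ^ 2 + d1 ^ 2))
      + 64 * (W * ((B ^ 2 + L + 1 / 2) * (s ^ 2 + d ^ 2) + 1 / 2 * (ss ^ 2 + sd ^ 2))) := by
    have u1 := mul_le_mul_of_nonneg_left t3 (mul_nonneg hx2 hW)
    have u2 : X ^ 2 * (W * ((B ^ 2 + L + 1 / 2) * (s ^ 2 + d ^ 2)
        + 1 / 2 * (ss ^ 2 + sd ^ 2))) ≤ 64 * (W * ((B ^ 2 + L + 1 / 2) * (s ^ 2 + d ^ 2)
        + 1 / 2 * (ss ^ 2 + sd ^ 2))) := by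
      refine mul_le_mul_of_nonneg_right hX8 ?_
      positivity
    linarith
  have hedX := mul_le_mul_of_nonneg_left he hx2
  have p1' : 0 ≤ W * (s ^ 2 + d ^ 2) := by positivity
  have p2' : 0 ≤ W * (ss ^ 2 + sd ^ 2) := by positivity
  have q1 : (4 + 64 * (B ^ 2 + L + 1 / 2)) ≤ (100 * (1 + B ^ 2 + L)) := by
    linarith [sq_nonneg B]
  have q2 : (32 : ℝ) ≤ (100 * (1 + B ^ 2 + L)) := by linarith [sq_nonneg B]
  have r1 := mul_le_mul_of_nonneg_right q1 p1'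
  have r2 := mul_le_mul_of_nonneg_right q2 p2'
  linarith

/-- **Energy estimate** with the multiplier `(rb - r)^2`. -/
theorem energy (h : Hyp rb Q Q1 P kap n eps lam S S1 D D1 sS sD) {B L : ℝ} (hrb : rb ≤ 8)
    (hB : ∀ r ∈ Icc 0 rb, |b Q Q1 r| ≤ B) (hL : ‖lam‖ ≤ L) :
    ∫ r in (0:ℝ)..rb, (rb - r) ^ 2 * ed Q P kap n S S1 D D1 r ≤
      (200 * (1 + B ^ 2 + L)) * ∫ r in (0:ℝ)..rb, (nd Q S D r + nd Q sS sD r) := by
  have hB0 : 0 ≤ B := (abs_nonneg _).trans (hB 0 ⟨le_rfl, h.rb0.le⟩)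
  have hL0 : 0 ≤ L := (norm_nonneg _).trans hL
  set Φ : ℝ → ℝ := fun r => ((((rb - r) ^ 2 : ℝ) : ℂ) * (((w Q r : ℂ) * S1 r) * conj (S r))
    + (((rb - r) ^ 2 : ℝ) : ℂ) * (((w Q r : ℂ) * D1 r) * conj (D r))).re with hΦ
  -- derivative
  set f : ℝ → ℝ := fun r => (-(2 * (rb - r))) * (w Q r * (S1 r * conj (S r)).re
      + w Q r * (D1 r * conj (D r)).re)
      + (rb - r) ^ 2 * ed Q P kap n S S1 D D1 r
      - (rb - r) ^ 2 * w Q r * ((I * ((b Q Q1 r * D1 r + lam * D r + sD r) * conj (S r))).re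
        + (I * ((b Q Q1 r * S1 r + lam * S r + sS r) * conj (D r))).re) with hf
  have hd : ∀ r ∈ Ioo 0 rb, HasDerivAt Φ (f r) r := by
    intro r hr
    have hs := h.sys r hr
    have hc : HasDerivAt (fun r : ℝ => (rb - r) ^ 2) (-(2 * (rb - r))) r := by
      have := ((hasDerivAt_id r).const_sub rb).pow 2
      refine this.congr_deriv ?_
      simp
    have h1 := (hs.flux_SS hc).add (hs.flux_DD hc)
    have h2 := Complex.reCLM.hasFDerivAt.comp_hasDerivAt r h1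
    have h3 : HasDerivAt Φ _ r := h2
    refine h3.congr_deriv ?_
    have hr0 : r ≠ 0 := hr.1.ne'
    have e1 : ((kap : ℂ) / (r : ℂ) ^ 2) = ((kap / r ^ 2 : ℝ) : ℂ) := by push_cast; rfl
    have e2 : kap / r ^ 2 * w Q r = kap * (‖Q r‖ ^ 2 * r ^ 9) := by
      rw [← w_div Q hr0]; ring
    simp only [hf, ed, Complex.reCLM_apply, e1]
    have e : ∀ z : ℂ, ‖z‖ ^ 2 = z.re ^ 2 + z.im ^ 2 := by
      intro z
      rw [← Complex.normSq_eq_norm_sq, Complex.normSq_apply]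
      ring
    rw [← e2]
    simp only [e (S1 r), e (D1 r), e (S r), e (D r), Complex.mul_re, Complex.mul_im,
      Complex.add_re, Complex.add_im, Complex.sub_re,
      Complex.sub_im, Complex.conj_re, Complex.conj_im, Complex.ofReal_re, Complex.ofReal_im,
      Complex.I_re, Complex.I_im]
    ring
  have hcf : ContinuousOn f (Icc 0 rb) := by
    have h1 := h.cw
    have h2 := h.c_ed
    have h3 := h.cb
    have h4 := h.cS
    have h5 := h.cS1
    have h6 := h.cD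
    have h7 := h.cD1
    have h8 := h.csS
    have h9 := h.csD
    have k1 : ContinuousOn (fun r => (S1 r * conj (S r)).re) (Icc 0 rb) := by
      refine Complex.continuous_re.comp_continuousOn ?_
      exact h5.mul (Complex.continuous_conj.comp_continuousOn h4)
    have k2 : ContinuousOn (fun r => (D1 r * conj (D r)).re) (Icc 0 rb) := by
      refine Complex.continuous_re.comp_continuousOn ?_
      exact h7.mul (Complex.continuous_conj.comp_continuousOn h6)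
    have k3 : ContinuousOn (fun r => (I * ((b Q Q1 r * D1 r + lam * D r + sD r) * conj (S r))).re)
        (Icc 0 rb) := by
      refine Complex.continuous_re.comp_continuousOn ?_
      refine continuousOn_const.mul (ContinuousOn.mul ?_
        (Complex.continuous_conj.comp_continuousOn h4))
      have : ContinuousOn (fun r => ((b Q Q1 r : ℝ) : ℂ)) (Icc 0 rb) :=
        Complex.continuous_ofReal.comp_continuousOn h3
      fun_prop
    have k4 : ContinuousOn (fun r => (I * ((b Q Q1 r * S1 r + lam * S r + sS r) * conj (D r))).re)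
        (Icc 0 rb) := by
      refine Complex.continuous_re.comp_continuousOn ?_
      refine continuousOn_const.mul (ContinuousOn.mul ?_
        (Complex.continuous_conj.comp_continuousOn h6))
      have : ContinuousOn (fun r => ((b Q Q1 r : ℝ) : ℂ)) (Icc 0 rb) :=
        Complex.continuous_ofReal.comp_continuousOn h3
      fun_prop
    simp only [hf]
    fun_prop
  have hcΦ : ContinuousOn Φ (Icc 0 rb) := by
    have h1 := h.cw
    have h4 := h.cS
    have h5 := h.cS1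
    have h6 := h.cD
    have h7 := h.cD1
    refine Complex.continuous_re.comp_continuousOn ?_
    have hw : ContinuousOn (fun r => ((w Q r : ℝ) : ℂ)) (Icc 0 rb) :=
        Complex.continuous_ofReal.comp_continuousOn h1
    have hx : ContinuousOn (fun r : ℝ => (((rb - r) ^ 2 : ℝ) : ℂ)) (Icc 0 rb) :=
        Complex.continuous_ofReal.comp_continuousOn (by fun_prop)
    exact (hx.mul ((hw.mul h5).mul (Complex.continuous_conj.comp_continuousOn h4))).add
      (hx.mul ((hw.mul h7).mul (Complex.continuous_conj.comp_continuousOn h6)))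
  have hint : IntervalIntegrable f volume 0 rb :=
    (hcf.mono (by rw [uIcc_of_le h.rb0.le])).intervalIntegrable
  have hftc : ∫ r in (0:ℝ)..rb, f r = 0 := by
    rw [intervalIntegral.integral_eq_sub_of_hasDerivAt_of_le h.rb0.le hcΦ hd hint]
    simp [hΦ, w]
  have key : ∀ r ∈ Icc 0 rb, (1 / 2) * ((rb - r) ^ 2 * ed Q P kap n S S1 D D1 r)
      - (100 * (1 + B ^ 2 + L)) * (nd Q S D r + nd Q sS sD r) ≤ f r := by
    intro r hr
    have hw0 := w_nonneg Q hr.1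
    have hed : w Q r * (‖S1 r‖ ^ 2 + ‖D1 r‖ ^ 2) ≤ ed Q P kap n S S1 D D1 r := by
      have h2 := h.P0 r hr
      have h3 := h.kap0
      have h4 := h.n0
      have h5 := hr.1
      unfold ed
      have : 0 ≤ kap * (‖Q r‖ ^ 2 * r ^ 9) * (‖S r‖ ^ 2 + ‖D r‖ ^ 2)
        + n * P r * w Q r * ‖S r‖ ^ 2 := by positivity
      linarith
    have hx0 : 0 ≤ rb - r := by linarith [hr.2]
    have hx8 : (rb - r) ^ 2 ≤ 64 := by
      have : rb - r ≤ 8 := by linarith [hr.1]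
      nlinarith
    have hx2 : 0 ≤ (rb - r) ^ 2 := sq_nonneg _
    have a1 := abs_le.1 (re_le_mul (S1 r) (S r))
    have a2 := abs_le.1 (re_le_mul (D1 r) (D r))
    have bnd : ∀ (u v x y : ℂ), |(I * ((b Q Q1 r * u + lam * v + x) * conj y)).re| ≤
        (B * ‖u‖ + L * ‖v‖ + ‖x‖) * ‖y‖ := by
      intro u v x y
      calc |(I * ((b Q Q1 r * u + lam * v + x) * conj y)).re|
          ≤ ‖I * ((b Q Q1 r * u + lam * v + x) * conj y)‖ := Complex.abs_re_le_norm _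
        _ = ‖(b Q Q1 r : ℂ) * u + lam * v + x‖ * ‖y‖ := by
            rw [norm_mul, norm_mul, Complex.norm_conj, Complex.norm_I, one_mul]
        _ ≤ (B * ‖u‖ + L * ‖v‖ + ‖x‖) * ‖y‖ := by
            refine mul_le_mul_of_nonneg_right ?_ (norm_nonneg _)
            calc ‖(b Q Q1 r : ℂ) * u + lam * v + x‖
                ≤ ‖(b Q Q1 r : ℂ) * u‖ + ‖lam * v‖ + ‖x‖ := norm_add₃_le
              _ ≤ _ := by
                  rw [norm_mul, norm_mul, Complex.norm_real, Real.norm_eq_abs]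
                  have := hB r hr
                  gcongr
    have a3 := abs_le.1 (bnd (D1 r) (D r) (sD r) (S r))
    have a4 := abs_le.1 (bnd (S1 r) (S r) (sS r) (D r))
    have hk := key_real (X := rb - r) (W := w Q r) hw0 hx0 hx8 hB0 hL0 a1.2 a2.2
      (q := (I * ((b Q Q1 r * D1 r + lam * D r + sD r) * conj (S r))).re
        + (I * ((b Q Q1 r * S1 r + lam * S r + sS r) * conj (D r))).re)
      (add_le_add a3.2 a4.2) hed
    simp only [hf, nd]
    exact hk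
  have hI1 : IntervalIntegrable (fun r => (1 / 2) * ((rb - r) ^ 2 * ed Q P kap n S S1 D D1 r)
      - (100 * (1 + B ^ 2 + L)) * (nd Q S D r + nd Q sS sD r)) volume 0 rb := by
    refine ContinuousOn.intervalIntegrable ?_
    rw [uIcc_of_le h.rb0.le]
    have h2 := h.c_ed
    have h3 := h.c_nd
    have h4 := h.c_nds
    fun_prop
  have hle := intervalIntegral.integral_mono_on h.rb0.le hI1 hint key
  have hI2 : IntervalIntegrable (fun r => (1 / 2) * ((rb - r) ^ 2 * ed Q P kap n S S1 D D1 r))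
      volume 0 rb := by
    refine ContinuousOn.intervalIntegrable ?_
    rw [uIcc_of_le h.rb0.le]
    have h2 := h.c_ed
    fun_prop
  have hI3 : IntervalIntegrable (fun r => (100 * (1 + B ^ 2 + L)) * (nd Q S D r + nd Q sS sD r))
      volume 0 rb := by
    refine ContinuousOn.intervalIntegrable ?_
    rw [uIcc_of_le h.rb0.le]
    have h3 := h.c_nd
    have h4 := h.c_nds
    fun_prop
  rw [hftc, intervalIntegral.integral_sub hI2 hI3, intervalIntegral.integral_const_mul,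
    intervalIntegral.integral_const_mul] at hle
  linarith

end Hyp

end Crest.Agent.R086.C4
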