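import Crest.Agent.R086.C4a

/-!
Row 86 (S0114), Part C, C4: boundary relations at `R`, control of `D` inside, transport across
a short interval.
-/

set_option autoImplicit false

open Complex ComplexConjugate Set MeasureTheory

namespace Crest.Agent.R086.C4

open Crest.Agent.R086.CCore

theorem cs {a c : ℝ} (hac : a ≤ c) {f g : ℝ → ℝ} (hf : ContinuousOn f (Icc a c))
    (hg : ContinuousOn g (Icc a c)) :
    (∫ r in a..c, f r * g r) ^ 2 ≤ (∫ r in a..c, f r ^ 2) * ∫ r in a..c, g r ^ 2 := by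
  have i1 : IntervalIntegrable (fun r => f r ^ 2) volume a c :=
    ContinuousOn.intervalIntegrable (by rw [uIcc_of_le hac]; fun_prop)
  have i2 : IntervalIntegrable (fun r => f r * g r) volume a c :=
    ContinuousOn.intervalIntegrable (by rw [uIcc_of_le hac]; fun_prop)
  have i3 : IntervalIntegrable (fun r => g r ^ 2) volume a c :=
    ContinuousOn.intervalIntegrable (by rw [uIcc_of_le hac]; fun_prop)
  have key : ∀ t : ℝ, 0 ≤ (∫ r in a..c, g r ^ 2) * (t * t) + (-2 * ∫ r in a..c, f r * g r) * t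
      + ∫ r in a..c, f r ^ 2 := by
    intro t
    have h0 : 0 ≤ ∫ r in a..c, (f r - t * g r) ^ 2 :=
      intervalIntegral.integral_nonneg hac (fun r _ => sq_nonneg _)
    have h1 : ∫ r in a..c, (f r - t * g r) ^ 2 =
        (∫ r in a..c, f r ^ 2) - (2 * t) * (∫ r in a..c, f r * g r)
          + t ^ 2 * ∫ r in a..c, g r ^ 2 := by
      rw [← intervalIntegral.integral_const_mul, ← intervalIntegral.integral_const_mul,
        ← intervalIntegral.integral_sub i1 (i2.const_mul _),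
        ← intervalIntegral.integral_add (i1.sub (i2.const_mul _)) (i3.const_mul _)]
      congr 1
      funext r
      ring
    rw [h1] at h0
    nlinarith
  have h2 := discrim_le_zero key
  unfold discrim at h2
  nlinarith

/-- `∫ f ≤ sqrt(..)` form with a weight. -/
theorem cs_w {a c : ℝ} (hac : a ≤ c) {W f : ℝ → ℝ} (hW : ContinuousOn W (Icc a c))
    (hf : ContinuousOn f (Icc a c)) (hW0 : ∀ r ∈ Icc a c, 0 ≤ W r) :
    (∫ r in a..c, W r * f r) ≤ Real.sqrt (∫ r in a..c, W r)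
      * Real.sqrt (∫ r in a..c, W r * f r ^ 2) := by
  have h1 := cs hac (f := fun r => Real.sqrt (W r)) (g := fun r => Real.sqrt (W r) * f r)
    (Real.continuous_sqrt.comp_continuousOn hW)
    ((Real.continuous_sqrt.comp_continuousOn hW).mul hf)
  have e1 : ∫ r in a..c, Real.sqrt (W r) * (Real.sqrt (W r) * f r) = ∫ r in a..c, W r * f r := by
    refine intervalIntegral.integral_congr ?_
    intro r hr
    rw [uIcc_of_le hac] at hr
    simp only
    rw [← mul_assoc, Real.mul_self_sqrt (hW0 r hr)]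
  have e2 : ∫ r in a..c, Real.sqrt (W r) ^ 2 = ∫ r in a..c, W r := by
    refine intervalIntegral.integral_congr ?_
    intro r hr
    rw [uIcc_of_le hac] at hr
    simp only
    rw [Real.sq_sqrt (hW0 r hr)]
  have e3 : ∫ r in a..c, (Real.sqrt (W r) * f r) ^ 2 = ∫ r in a..c, W r * f r ^ 2 := by
    refine intervalIntegral.integral_congr ?_
    intro r hr
    rw [uIcc_of_le hac] at hr
    simp only
    rw [mul_pow, Real.sq_sqrt (hW0 r hr)]
  rw [e1, e2, e3] at h1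
  have hA : 0 ≤ ∫ r in a..c, W r :=
    intervalIntegral.integral_nonneg hac hW0
  have h3 := Real.le_sqrt_of_sq_le h1
  rwa [Real.sqrt_mul hA] at h3

namespace Hyp

variable {rb : ℝ} {Q Q1 : ℝ → ℂ} {P : ℝ → ℝ} {kap n eps : ℝ} {lam : ℂ}
  {S S1 D D1 sS sD : ℝ → ℂ}

/-- FTC bound: `‖u c - u a‖^2 ≤ (c-a) ∫ ‖u1‖^2`. -/
theorem diff_sq {a c : ℝ} (hac : a ≤ c) {u u1 : ℝ → ℂ} (hu : ContinuousOn u (Icc a c))
    (hu1 : ContinuousOn u1 (Icc a c)) (hd : ∀ r ∈ Ioo a c, HasDerivAt u (u1 r) r) :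
    ‖u c - u a‖ ^ 2 ≤ (c - a) * ∫ r in a..c, ‖u1 r‖ ^ 2 := by
  have i1 : IntervalIntegrable u1 volume a c :=
    ContinuousOn.intervalIntegrable (by rw [uIcc_of_le hac]; exact hu1)
  have h1 := intervalIntegral.integral_eq_sub_of_hasDerivAt_of_le hac hu hd i1
  have h2 : ‖u c - u a‖ ≤ ∫ r in a..c, ‖u1 r‖ := by
    rw [← h1]
    exact intervalIntegral.norm_integral_le_integral_norm hac
  have h3 := cs hac (f := fun _ => (1:ℝ)) (g := fun r => ‖u1 r‖) continuousOn_const hu1.norm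
  simp only [one_mul, one_pow, intervalIntegral.integral_const, smul_eq_mul, mul_one] at h3
  calc ‖u c - u a‖ ^ 2 ≤ (∫ r in a..c, ‖u1 r‖) ^ 2 :=
        pow_le_pow_left₀ (norm_nonneg _) h2 2
    _ ≤ _ := h3

/-- value of `u` at `R` controlled by `∫ ‖u'‖²` on `[a,R]` and the `L²` norm on `[a,c]`. -/
theorem at_bound {a c R : ℝ} (hac : a < c) (hcR : c ≤ R) {u u1 : ℝ → ℂ}
    (hu : ContinuousOn u (Icc a R)) (hu1 : ContinuousOn u1 (Icc a R))
    (hd : ∀ r ∈ Ioo a R, HasDerivAt u (u1 r) r) :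
    ‖u R‖ ^ 2 ≤ 2 * (R - a) * (∫ r in a..R, ‖u1 r‖ ^ 2)
      + (2 / (c - a)) * ∫ r in a..c, ‖u r‖ ^ 2 := by
  have haR : a ≤ R := by linarith
  set J := ∫ r in a..R, ‖u1 r‖ ^ 2 with hJ
  have hJ0 : 0 ≤ J := intervalIntegral.integral_nonneg haR (fun r _ => sq_nonneg _)
  have hpt : ∀ r ∈ Icc a c, ‖u R‖ ^ 2 ≤ 2 * (R - a) * J + 2 * ‖u r‖ ^ 2 := by
    intro r hr
    have hrR : r ≤ R := hr.2.trans hcR
    have hsub2 : Icc r R ⊆ Icc a R := Icc_subset_Icc hr.1 le_rfl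
    have h1 := diff_sq hrR (hu.mono hsub2) (hu1.mono hsub2) (fun x hx =>
      hd x ⟨by linarith [hx.1, hr.1], hx.2⟩)
    have h2 : ∫ x in r..R, ‖u1 x‖ ^ 2 ≤ J := by
      rw [hJ]
      refine intervalIntegral.integral_mono_interval hr.1 hrR le_rfl ?_ ?_
      · exact Filter.Eventually.of_forall (fun x => sq_nonneg _)
      · exact ContinuousOn.intervalIntegrable (by rw [uIcc_of_le haR]; fun_prop)
    have h3 : ‖u R‖ ≤ ‖u R - u r‖ + ‖u r‖ := by
      calc ‖u R‖ = ‖(u R - u r) + u r‖ := by ring_nf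
        _ ≤ _ := norm_add_le _ _
    have h4 : ‖u R‖ ^ 2 ≤ 2 * ‖u R - u r‖ ^ 2 + 2 * ‖u r‖ ^ 2 := by
      nlinarith [sq_nonneg (‖u R - u r‖ - ‖u r‖), norm_nonneg (u R), norm_nonneg (u r),
        norm_nonneg (u R - u r)]
    have h5 : ‖u R - u r‖ ^ 2 ≤ (R - a) * J := by
      refine h1.trans ?_
      have : 0 ≤ ∫ x in r..R, ‖u1 x‖ ^ 2 :=
        intervalIntegral.integral_nonneg hrR (fun x _ => sq_nonneg _)
      exact mul_le_mul (by linarith [hr.1]) h2 this (by linarith)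
    linarith
  have hsc : Icc a c ⊆ Icc a R := Icc_subset_Icc le_rfl hcR
  have hcw : ContinuousOn (fun r => ‖u r‖ ^ 2) (Icc a c) := by
    have h2 := hu.mono hsc
    fun_prop
  have icw : IntervalIntegrable (fun r => ‖u r‖ ^ 2) volume a c :=
    ContinuousOn.intervalIntegrable (by rw [uIcc_of_le hac.le]; exact hcw)
  have ic0 : IntervalIntegrable (fun _ : ℝ => 2 * (R - a) * J) volume a c :=
    intervalIntegrable_const
  have ic1 : IntervalIntegrable (fun _ : ℝ => ‖u R‖ ^ 2) volume a c :=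
    intervalIntegrable_const
  have hint := intervalIntegral.integral_mono_on hac.le ic1 (ic0.add (icw.const_mul 2)) hpt
  rw [intervalIntegral.integral_const, intervalIntegral.integral_add ic0 (icw.const_mul _),
    intervalIntegral.integral_const, intervalIntegral.integral_const_mul] at hint
  simp only [smul_eq_mul] at hint
  have hca : 0 < c - a := by linarith
  rw [div_mul_eq_mul_div, ← sub_le_iff_le_add']
  rw [le_div_iff₀ hca]
  nlinarith

/-- pointwise: `‖S1‖², ‖D1‖² ≤ 4 ed`, `r ≥ 1` -/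
theorem s1_le (h : Hyp rb Q Q1 P kap n eps lam S S1 D D1 sS sD) {r : ℝ} (h1 : 1 ≤ r)
    (hr : r ≤ rb) : ‖S1 r‖ ^ 2 + ‖D1 r‖ ^ 2 ≤ 4 * ed Q P kap n S S1 D D1 r := by
  have hr' : r ∈ Icc 0 rb := ⟨by linarith, hr⟩
  have h3 : w Q r * (‖S1 r‖ ^ 2 + ‖D1 r‖ ^ 2) ≤ ed Q P kap n S S1 D D1 r := by
    have h2 := h.P0 r hr'
    have h3 := h.kap0
    have h4 := h.n0
    have h5 := hr'.1
    have h6 := w_nonneg Q h5
    unfold ed
    have : 0 ≤ kap * (‖Q r‖ ^ 2 * r ^ 9) * (‖S r‖ ^ 2 + ‖D r‖ ^ 2)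
      + n * P r * w Q r * ‖S r‖ ^ 2 := by positivity
    linarith
  have h4 := h.wl hr'
  have h5 : (1 : ℝ) ≤ r ^ 11 := one_le_pow₀ h1
  have h6 : 0 ≤ ‖S1 r‖ ^ 2 + ‖D1 r‖ ^ 2 := by positivity
  nlinarith

theorem s_le (h : Hyp rb Q Q1 P kap n eps lam S S1 D D1 sS sD) {r : ℝ} (h1 : 1 ≤ r)
    (hr : r ≤ rb) : ‖S r‖ ^ 2 + ‖D r‖ ^ 2 ≤ 4 * nd Q S D r := by
  have hr' : r ∈ Icc 0 rb := ⟨by linarith, hr⟩
  have h4 := h.wl hr'
  have h5 : (1 : ℝ) ≤ r ^ 11 := one_le_pow₀ h1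
  have h6 : 0 ≤ ‖S r‖ ^ 2 + ‖D r‖ ^ 2 := by positivity
  unfold nd
  nlinarith

end Hyp

end Crest.Agent.R086.C4
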