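import Crest.Agent.R086.C4e

/-!
Row 86 (S0114), Part C, C4: boundary relations at `R + d` with error `O(√d)`, one system.
-/

set_option autoImplicit false

open Complex ComplexConjugate Set MeasureTheory

namespace Crest.Agent.R086.C4

open Crest.Agent.R086.CCore Hyp

theorem nsq {x : ℂ} {a d : ℝ} (h : ‖x‖ ^ 2 ≤ a * d) (ha : 0 ≤ a) :
    ‖x‖ ≤ Real.sqrt a * Real.sqrt d := by
  rw [← Real.sqrt_mul ha]
  exact Real.le_sqrt_of_sq_le h

/-- `4 · 8^11` -/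
noncomputable def W8 : ℝ := 4 * 8 ^ 11

theorem W8_pos : 0 < W8 := by unfold W8; norm_num

/-- conditions on one system: smallness parameter `d`. -/
structure Sm (R d c : ℝ) (Q Q1 : ℝ → ℂ) (P : ℝ → ℝ) (n : ℝ) (sS : ℝ → ℂ) (Br : ℝ) : Prop where
  R3 : 3 ≤ R
  R4 : R ≤ 4
  d0 : 0 < d
  d2 : d ≤ 1 / 2
  c0 : 0 < c
  n0 : 0 < n
  P_lo : ∀ r ∈ Icc 0 (R - d), c ≤ P r
  nc : 8 ≤ n * c * d ^ 2
  sg : ∀ r ∈ Icc 0 R, ‖sS r‖ ≤ d
  rh : ∀ r ∈ Icc 0 R, |rho Q Q1 r| ≤ d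
  rB : ∀ r ∈ Icc (0:ℝ) 8, |rho Q Q1 r| ≤ Br
  nP : ∀ r ∈ Icc (R + d / 2) 8, n * P r ≤ 1

namespace Hyp

variable {Q Q1 : ℝ → ℂ} {P : ℝ → ℝ} {kap n eps : ℝ} {lam : ℂ}
  {S S1 D D1 sS sD : ℝ → ℂ} {B L M Br R d c : ℝ}

theorem SR_le (h : Hyp 8 Q Q1 P kap n eps lam S S1 D D1 sS sD)
    (hb : Bds Q Q1 eps lam S D sS sD B L M) (hs : Sm R d c Q Q1 P n sS Br) :
    ‖S R‖ ≤ Real.sqrt (17 * Ec B L M) * Real.sqrt d := by
  have hE := h.E0 hb
  have h1 := h.S_R hb (by linarith [hs.R3]) (by linarith [hs.R4]) hs.d0 hs.d2 hs.c0 hs.n0 hs.P_lo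
  refine nsq ?_ (by positivity)
  have hd := hs.d0
  have hnc : 0 < n * c := mul_pos hs.n0 hs.c0
  have h2 : 8 / (d * (n * c)) ≤ d := by
    rw [div_le_iff₀ (by positivity)]
    linarith [hs.nc]
  have h3 := mul_le_mul_of_nonneg_right h2 hE
  linarith

theorem SRd_le (h : Hyp 8 Q Q1 P kap n eps lam S S1 D D1 sS sD)
    (hb : Bds Q Q1 eps lam S D sS sD B L M) (hs : Sm R d c Q Q1 P n sS Br) :
    ‖S (R + d)‖ ≤ (Real.sqrt (17 * Ec B L M) + Real.sqrt (4 * Ec B L M)) * Real.sqrt d := by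
  have hE := h.E0 hb
  have h1 := h.SR_le hb hs
  have h2 := (h.hold hb (by linarith [hs.R3]) (by linarith [hs.d0]) (by linarith [hs.R4, hs.d2]) :
    ‖S (R + d) - S R‖ ^ 2 ≤ (R + d - R) * (4 * Ec B L M) ∧ _).1
  have h3 : ‖S (R + d) - S R‖ ≤ Real.sqrt (4 * Ec B L M) * Real.sqrt d := by
    refine nsq ?_ (by positivity)
    have e : R + d - R = d := by ring
    rw [e] at h2
    linarith
  calc ‖S (R + d)‖ = ‖(S (R + d) - S R) + S R‖ := by ring_nf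
    _ ≤ ‖S (R + d) - S R‖ + ‖S R‖ := norm_add_le _ _
    _ ≤ _ := by rw [add_mul]; linarith

theorem s2_le (h : Hyp 8 Q Q1 P kap n eps lam S S1 D D1 sS sD)
    (hb : Bds Q Q1 eps lam S D sS sD B L M) (hs : Sm R d c Q Q1 P n sS Br) :
    ∫ r in (0:ℝ)..R, w Q r * ‖S r‖ ^ 2 ≤ (Ec B L M + W8 * (8 * (Ec B L M + M))) * d := by
  have hE := h.E0 hb
  have h1 := h.S_L2 hb hs.R3 (by linarith [hs.R4]) hs.d0 hs.d2 hs.c0 hs.n0 hs.P_lo
  refine h1.trans ?_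
  have hd := hs.d0
  have hnc : 0 < n * c := mul_pos hs.n0 hs.c0
  have h2 : 1 / (n * c) ≤ d := by
    rw [div_le_iff₀ hnc]
    have h3 : d ≤ 1 := by linarith [hs.d2]
    have h4 : n * c * d ^ 2 ≤ n * c * d := by
      refine mul_le_mul_of_nonneg_left ?_ hnc.le
      nlinarith
    linarith [hs.nc]
  have h3 := mul_le_mul_of_nonneg_right h2 hE
  unfold W8
  linarith

theorem w_lip (h : Hyp 8 Q Q1 P kap n eps lam S S1 D D1 sS sD)
    (hs : Sm R d c Q Q1 P n sS Br) {a e : ℝ} (ha : 1 ≤ a) (hae : a ≤ e) (he : e ≤ 6) :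
    |w Q e - w Q a| ≤ (e - a) * (W8 * (11 + 2 * Br)) := by
  have hsub : Icc a e ⊆ Icc (0:ℝ) 8 := Icc_subset_Icc (by linarith) (by linarith)
  have hd : ∀ r ∈ Icc a e, HasDerivWithinAt (w Q) (w Q r * (11 / r + 2 * rho Q Q1 r)) (Icc a e) r := by
    intro r hr
    exact (h.sys r ⟨by linarith [hr.1], by linarith [hr.2]⟩).hw.hasDerivWithinAt
  have hbd : ∀ r ∈ Ico a e, ‖w Q r * (11 / r + 2 * rho Q Q1 r)‖ ≤ W8 * (11 + 2 * Br) := by
    intro r hr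
    have hr' := hsub (Ico_subset_Icc_self hr)
    have hr1 : 1 ≤ r := ha.trans hr.1
    have hw0 := w_nonneg Q hr'.1
    have hw8 := h.w_le8 hr'
    rw [norm_mul, Real.norm_eq_abs, Real.norm_eq_abs, abs_of_nonneg hw0]
    have h1 : |11 / r + 2 * rho Q Q1 r| ≤ 11 + 2 * Br := by
      refine (abs_add_le _ _).trans ?_
      have h2 : |11 / r| ≤ 11 := by
        rw [abs_of_nonneg (by positivity)]
        exact div_le_self (by norm_num) hr1
      have h3 : |2 * rho Q Q1 r| ≤ 2 * Br := by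
        rw [abs_mul, abs_of_pos (by norm_num : (0:ℝ) < 2)]
        have := hs.rB r hr'
        linarith
      linarith
    exact mul_le_mul hw8 h1 (abs_nonneg _) (by unfold W8; norm_num)
  have h1 := norm_image_sub_le_of_norm_deriv_le_segment' hd hbd e ⟨hae, le_rfl⟩
  rw [Real.norm_eq_abs] at h1
  linarith

/-- the constant of `D1_le` -/
noncomputable def K2 (B L M Br : ℝ) (l : ℕ) : ℝ :=
  4 * (Real.sqrt (4 * (4 * 8 ^ 11) * ((((l : ℝ) * (l + 10)) ^ 2 + L ^ 2 + 1) * M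
        + B ^ 2 * Ec B L M))
    + 8 ^ l * ((8 + L + l * B) * (Real.sqrt (8 * (4 * 8 ^ 11)) *
        Real.sqrt (Ec B L M + W8 * (8 * (Ec B L M + M)))) + 8 * (4 * 8 ^ 11)
        + 2 * l * (Real.sqrt (8 * (4 * 8 ^ 11)) * Real.sqrt M))
    + W8 * B * Real.sqrt (17 * Ec B L M)
    + l * (W8 * Real.sqrt (4 * Ec B L M))
    + l * ((W8 * (11 + 2 * Br)) * Real.sqrt (8 * (Ec B L M + M))))

theorem D1_le (h : Hyp 8 Q Q1 P kap n eps lam S S1 D D1 sS sD)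
    (hb : Bds Q Q1 eps lam S D sS sD B L M) (hs : Sm R d c Q Q1 P n sS Br) {l : ℕ}
    (hkap : kap = (l : ℝ) * (l + 10)) :
    ‖D1 (R + d) - (l : ℂ) / (R : ℂ) * D (R + d)‖ ≤ K2 B L M Br l * Real.sqrt d := by
  have hE := h.E0 hb
  have hM := h.M0 hb
  have hB0 := B0 hb
  have hL0 := L0 hb
  have hd := hs.d0
  have hR0 : 0 < R := by linarith [hs.R3]
  have hR6 : R ≤ 6 := by linarith [hs.R4]
  have hRd6 : R + d ≤ 6 := by linarith [hs.R4, hs.d2]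
  have hl0 : (0:ℝ) ≤ l := Nat.cast_nonneg l
  have hdd : d ≤ Real.sqrt d := by
    refine Real.le_sqrt_of_sq_le ?_
    nlinarith [hs.d2]
  have hsd0 : 0 ≤ Real.sqrt d := Real.sqrt_nonneg d
  have hRc : (R : ℂ) ≠ 0 := by exact_mod_cast hR0.ne'
  have hBr : 0 ≤ Br := (abs_nonneg _).trans (hs.rB 0 (by norm_num))
  -- step 1 : value at R
  have t1 := h.L2 hb hkap hR0 hR6 hs.sg hs.rh (h.s2_le hb hs)
  have hpos : 0 ≤ Ec B L M + W8 * (8 * (Ec B L M + M)) := by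
    have := W8_pos
    positivity
  rw [Real.sqrt_mul hpos] at t1
  set c8 := Real.sqrt (8 * (4 * 8 ^ 11)) with hc8
  set A1 := Real.sqrt (Ec B L M + W8 * (8 * (Ec B L M + M))) with hA1
  have hc80 : 0 ≤ c8 := Real.sqrt_nonneg _
  have hA10 : 0 ≤ A1 := Real.sqrt_nonneg _
  set X : ℂ := (w Q R : ℂ) * D1 R - (l : ℂ) / (R : ℂ) * ((w Q R : ℂ) * D R) with hX
  have e1 : (((R ^ l : ℝ) : ℂ) * ((w Q R : ℂ) * D1 R) - (((l : ℝ) * R ^ (l - 1) : ℝ) : ℂ) *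
        ((w Q R : ℂ) * D R)) + I * (((R ^ l : ℝ) : ℂ) * (((w Q R * b Q Q1 R : ℝ) : ℂ) * S R)) =
      ((R ^ l : ℝ) : ℂ) * (X + I * (((w Q R * b Q Q1 R : ℝ) : ℂ) * S R)) := by
    rw [pow_aux1 l hR0.ne', hX]
    push_cast
    field_simp
  rw [e1, norm_mul, Complex.norm_real, Real.norm_eq_abs,
    abs_of_nonneg (by positivity : (0:ℝ) ≤ R ^ l)] at t1
  have hRl : 1 ≤ R ^ l := one_le_pow₀ (by linarith [hs.R3])
  set T := 8 ^ l * ((8 + L + l * B) * (c8 * A1) + 8 * (4 * 8 ^ 11) + 2 * l * (c8 * Real.sqrt M))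
    with hT
  have t2 : ‖X + I * (((w Q R * b Q Q1 R : ℝ) : ℂ) * S R)‖ ≤ T * Real.sqrt d := by
    have h1 : ‖X + I * (((w Q R * b Q Q1 R : ℝ) : ℂ) * S R)‖ ≤
        R ^ l * ‖X + I * (((w Q R * b Q Q1 R : ℝ) : ℂ) * S R)‖ :=
      le_mul_of_one_le_left (norm_nonneg _) hRl
    refine h1.trans (t1.trans ?_)
    have h2 : 8 * (4 * 8 ^ 11) * d ≤ 8 * (4 * 8 ^ 11) * Real.sqrt d :=
      mul_le_mul_of_nonneg_left hdd (by norm_num)
    have h3 : 2 * l * d * (c8 * Real.sqrt M) ≤ 2 * l * Real.sqrt d * (c8 * Real.sqrt M) := by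
      have := Real.sqrt_nonneg M
      gcongr
    have h4 : (0:ℝ) ≤ 8 ^ l := by positivity
    calc 8 ^ l * ((8 + L + l * B) * (c8 * (A1 * Real.sqrt d)) + 8 * (4 * 8 ^ 11) * d
          + 2 * l * d * (c8 * Real.sqrt M))
        ≤ 8 ^ l * ((8 + L + l * B) * (c8 * (A1 * Real.sqrt d)) + 8 * (4 * 8 ^ 11) * Real.sqrt d
          + 2 * l * Real.sqrt d * (c8 * Real.sqrt M)) :=
          mul_le_mul_of_nonneg_left (by linarith) h4
      _ = _ := by rw [hT]; ring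
  have hw0R := w_nonneg Q hR0.le
  have hw8R := h.w_le8 (⟨hR0.le, by linarith⟩ : R ∈ Icc (0:ℝ) 8)
  have t3 : ‖X‖ ≤ (T + W8 * B * Real.sqrt (17 * Ec B L M)) * Real.sqrt d := by
    have h1 : ‖I * (((w Q R * b Q Q1 R : ℝ) : ℂ) * S R)‖ ≤
        W8 * B * Real.sqrt (17 * Ec B L M) * Real.sqrt d := by
      rw [norm_mul, norm_mul, Complex.norm_I, one_mul, Complex.norm_real, Real.norm_eq_abs,
        abs_mul, abs_of_nonneg hw0R]
      have h2 := hb.hB R ⟨hR0.le, by linarith⟩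
      have h3 := h.SR_le hb hs
      have h4 : w Q R * |b Q Q1 R| ≤ W8 * B :=
        mul_le_mul hw8R h2 (abs_nonneg _) W8_pos.le
      calc w Q R * |b Q Q1 R| * ‖S R‖ ≤ (W8 * B) * (Real.sqrt (17 * Ec B L M) * Real.sqrt d) :=
            mul_le_mul h4 h3 (norm_nonneg _) (mul_nonneg W8_pos.le hB0)
        _ = _ := by ring
    calc ‖X‖ = ‖(X + I * (((w Q R * b Q Q1 R : ℝ) : ℂ) * S R))
          - I * (((w Q R * b Q Q1 R : ℝ) : ℂ) * S R)‖ := by ring_nf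
      _ ≤ _ := norm_sub_le _ _
      _ ≤ _ := by rw [add_mul]; linarith
  -- step 2 : transport
  have t4 := h.holdw hb (by linarith [hs.R3] : 1 ≤ R) (by linarith : R ≤ R + d) hRd6
  have e2 : R + d - R = d := by ring
  rw [e2] at t4
  set HW := 4 * (4 * 8 ^ 11) * ((kap ^ 2 + L ^ 2 + 1) * M + B ^ 2 * Ec B L M) with hHW
  have hHW0 : 0 ≤ HW := by positivity
  have t5 : ‖(w Q (R + d) : ℂ) * D1 (R + d) - (w Q R : ℂ) * D1 R‖ ≤
      Real.sqrt HW * Real.sqrt d := nsq (by linarith) hHW0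
  have t6 : ‖D (R + d) - D R‖ ≤ Real.sqrt (4 * Ec B L M) * Real.sqrt d := by
    have h2 := (h.hold hb (by linarith [hs.R3]) (by linarith [hs.d0]) hRd6 :
      _ ∧ ‖D (R + d) - D R‖ ^ 2 ≤ (R + d - R) * (4 * Ec B L M)).2
    rw [e2] at h2
    exact nsq (by linarith) (by positivity)
  have t7 : ‖D (R + d)‖ ≤ Real.sqrt (8 * (Ec B L M + M)) :=
    Real.le_sqrt_of_sq_le (h.pt hb (by linarith [hs.R3] : 2 ≤ R + d) hRd6).2
  have t8 := h.w_lip hs (by linarith [hs.R3] : 1 ≤ R) (by linarith : R ≤ R + d) hRd6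
  rw [e2] at t8
  -- combine
  have hlR : ‖(l : ℂ) / (R : ℂ)‖ ≤ l := by
    rw [norm_div, Complex.norm_natCast, Complex.norm_real, Real.norm_eq_abs, abs_of_pos hR0]
    exact div_le_self hl0 (by linarith [hs.R3])
  have hwpos : 1 / 4 ≤ w Q (R + d) := by
    have h1 := h.wl (⟨by linarith, by linarith⟩ : R + d ∈ Icc (0:ℝ) 8)
    have h2 : (1 : ℝ) ≤ (R + d) ^ 11 := one_le_pow₀ (by linarith [hs.R3])
    linarith
  have e3 : (w Q (R + d) : ℂ) * (D1 (R + d) - (l : ℂ) / (R : ℂ) * D (R + d)) =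
      ((w Q (R + d) : ℂ) * D1 (R + d) - (w Q R : ℂ) * D1 R) + X
      + (l : ℂ) / (R : ℂ) * ((w Q R : ℂ) * (-(D (R + d) - D R)))
      + (l : ℂ) / (R : ℂ) * (-((w Q (R + d) - w Q R : ℝ) : ℂ) * D (R + d)) := by
    rw [hX]
    push_cast
    ring
  have t9 : ‖(w Q (R + d) : ℂ) * (D1 (R + d) - (l : ℂ) / (R : ℂ) * D (R + d))‖ ≤
      (Real.sqrt HW + T + W8 * B * Real.sqrt (17 * Ec B L M)
        + l * (W8 * Real.sqrt (4 * Ec B L M))
        + l * ((W8 * (11 + 2 * Br)) * Real.sqrt (8 * (Ec B L M + M)))) * Real.sqrt d := by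
    rw [e3]
    refine (norm_add_le _ _).trans ?_
    refine (add_le_add (norm_add_le _ _) le_rfl).trans ?_
    refine (add_le_add (add_le_add (norm_add_le _ _) le_rfl) le_rfl).trans ?_
    have u1 : ‖(l : ℂ) / (R : ℂ) * ((w Q R : ℂ) * (-(D (R + d) - D R)))‖ ≤
        l * (W8 * Real.sqrt (4 * Ec B L M)) * Real.sqrt d := by
      rw [norm_mul, norm_mul, norm_neg, Complex.norm_real, Real.norm_eq_abs, abs_of_nonneg hw0R]
      calc ‖(l : ℂ) / (R : ℂ)‖ * (w Q R * ‖D (R + d) - D R‖)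
          ≤ l * (W8 * (Real.sqrt (4 * Ec B L M) * Real.sqrt d)) := by
            refine mul_le_mul hlR (mul_le_mul hw8R t6 (norm_nonneg _) W8_pos.le) ?_ hl0
            positivity
        _ = _ := by ring
    have u2 : ‖(l : ℂ) / (R : ℂ) * (-((w Q (R + d) - w Q R : ℝ) : ℂ) * D (R + d))‖ ≤
        l * ((W8 * (11 + 2 * Br)) * Real.sqrt (8 * (Ec B L M + M))) * Real.sqrt d := by
      rw [norm_mul, norm_mul, norm_neg, Complex.norm_real, Real.norm_eq_abs]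
      have v1 : |w Q (R + d) - w Q R| ≤ (W8 * (11 + 2 * Br)) * Real.sqrt d := by
        refine t8.trans ?_
        have := W8_pos
        rw [mul_comm]
        exact mul_le_mul_of_nonneg_left hdd (by positivity)
      calc ‖(l : ℂ) / (R : ℂ)‖ * (|w Q (R + d) - w Q R| * ‖D (R + d)‖)
          ≤ l * (((W8 * (11 + 2 * Br)) * Real.sqrt d) * Real.sqrt (8 * (Ec B L M + M))) := by
            have := W8_pos
            refine mul_le_mul hlR (mul_le_mul v1 t7 (norm_nonneg _) (by positivity)) ?_ hl0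
            positivity
        _ = _ := by ring
    have e4 : (Real.sqrt HW + T + W8 * B * Real.sqrt (17 * Ec B L M)
        + l * (W8 * Real.sqrt (4 * Ec B L M))
        + l * ((W8 * (11 + 2 * Br)) * Real.sqrt (8 * (Ec B L M + M)))) * Real.sqrt d =
        Real.sqrt HW * Real.sqrt d + (T + W8 * B * Real.sqrt (17 * Ec B L M)) * Real.sqrt d
        + l * (W8 * Real.sqrt (4 * Ec B L M)) * Real.sqrt d
        + l * ((W8 * (11 + 2 * Br)) * Real.sqrt (8 * (Ec B L M + M))) * Real.sqrt d := by ring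
    rw [e4]
    linarith
  rw [norm_mul, Complex.norm_real, Real.norm_eq_abs, abs_of_nonneg (by linarith)] at t9
  have t10 : 1 / 4 * ‖D1 (R + d) - (l : ℂ) / (R : ℂ) * D (R + d)‖ ≤
      w Q (R + d) * ‖D1 (R + d) - (l : ℂ) / (R : ℂ) * D (R + d)‖ :=
    mul_le_mul_of_nonneg_right hwpos (norm_nonneg _)
  have e5 : K2 B L M Br l * Real.sqrt d = 4 * ((Real.sqrt HW + T
        + W8 * B * Real.sqrt (17 * Ec B L M)
        + l * (W8 * Real.sqrt (4 * Ec B L M))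
        + l * ((W8 * (11 + 2 * Br)) * Real.sqrt (8 * (Ec B L M + M)))) * Real.sqrt d) := by
    unfold K2
    rw [hHW, hT, hkap]
    ring
  rw [e5]
  linarith

end Hyp

end Crest.Agent.R086.C4
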