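import Crest.Agent.R086.C4f

/-!
Row 86 (S0114), Part C, C4: pointwise bound of `S'` at `R + d`.
-/

set_option autoImplicit false

open Complex ComplexConjugate Set MeasureTheory

namespace Crest.Agent.R086.C4

open Crest.Agent.R086.CCore Hyp

namespace Hyp

variable {Q Q1 : ℝ → ℂ} {P : ℝ → ℝ} {kap n eps : ℝ} {lam : ℂ}
  {S S1 D D1 sS sD : ℝ → ℂ} {B L M Br R d c : ℝ}

/-- constant of `S1_le` -/
noncomputable def K3 (B L M : ℝ) (l : ℕ) : ℝ :=
  4 * Real.sqrt (4 * (4 * 8 ^ 11) * ((((l : ℝ) * (l + 10) + 1) ^ 2 + L ^ 2 + 1) * M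
        + B ^ 2 * Ec B L M) + 4 * (W8 * Ec B L M))

set_option maxHeartbeats 800000 in
theorem S1_le (h : Hyp 8 Q Q1 P kap n eps lam S S1 D D1 sS sD)
    (hb : Bds Q Q1 eps lam S D sS sD B L M) (hs : Sm R d c Q Q1 P n sS Br) {l : ℕ}
    (hkap : kap = (l : ℝ) * (l + 10)) :
    d * ‖S1 (R + d)‖ ^ 2 ≤ K3 B L M l ^ 2 := by
  have hE := h.E0 hb
  have hM := h.M0 hb
  have hB0 := B0 hb
  have hL0 := L0 hb
  have hd := hs.d0
  have hRd6 : R + d ≤ 6 := by linarith [hs.R4, hs.d2]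
  have hl0 : (0:ℝ) ≤ l := Nat.cast_nonneg l
  set a := R + d / 2 with ha
  set e := R + d with he
  have hae : a < e := by rw [ha, he]; linarith
  have ha1 : 1 ≤ a := by rw [ha]; linarith [hs.R3]
  have hsub : Icc a e ⊆ Icc (0:ℝ) 8 := Icc_subset_Icc (by linarith) (by linarith)
  have hss : ∀ r ∈ Ioo a e, r ∈ Ioo (0:ℝ) 8 := fun r hr =>
    ⟨by linarith [hr.1], by linarith [hr.2]⟩
  have cw' := h.ofReal_w_cont.mono hsub
  have cb' := h.ofReal_b_cont.mono hsub
  have cS := h.cS.mono hsub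
  have cS1 := h.cS1.mono hsub
  have cD := h.cD.mono hsub
  have cD1 := h.cD1.mono hsub
  have csD := h.csD.mono hsub
  have cP := h.cP.mono hsub
  have cw0 := h.cw.mono hsub
  set g : ℝ → ℂ := fun r =>
    (w Q r : ℂ) * ((kap / (r : ℂ) ^ 2 + n * P r) * S r - I * (b Q Q1 r * D1 r + lam * D r + sD r))
    with hg
  have cg : ContinuousOn g (Icc a e) := by
    have hk : ContinuousOn (fun r : ℝ => (kap : ℂ) / (r : ℂ) ^ 2) (Icc a e) := by
      refine ContinuousOn.div continuousOn_const (by fun_prop) ?_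
      intro r hr
      have : (r : ℂ) ≠ 0 := by exact_mod_cast (by linarith [hr.1] : (0:ℝ) < r).ne'
      exact pow_ne_zero 2 this
    have hP' : ContinuousOn (fun r => ((P r : ℝ) : ℂ)) (Icc a e) :=
      Complex.continuous_ofReal.comp_continuousOn cP
    simp only [hg]
    fun_prop
  have h1 := at_bound (a := a) (c := e) (R := e) hae le_rfl (u := fun r => (w Q r : ℂ) * S1 r)
    (u1 := g) (cw'.mul cS1) cg (fun r hr => (h.sys r (hss r hr)).hS1)
  have e2 : e - a = d / 2 := by rw [ha, he]; ring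
  rw [e2] at h1
  have ce := h.c_ed.mono hsub
  have cn := h.c_nd.mono hsub
  have cns := h.c_nds.mono hsub
  -- the integral of `‖g‖²`
  have key : ∫ r in a..e, ‖g r‖ ^ 2 ≤ ∫ r in a..e, (4 * (4 * 8 ^ 11)) *
      (((kap + 1) ^ 2 + L ^ 2) * nd Q S D r + B ^ 2 * ed Q P kap n S S1 D D1 r
        + nd Q sS sD r) := by
    refine intervalIntegral.integral_mono_on hae.le ?_ ?_ ?_
    · exact ContinuousOn.intervalIntegrable (by rw [uIcc_of_le hae.le]; fun_prop)
    · exact ContinuousOn.intervalIntegrable (by rw [uIcc_of_le hae.le]; fun_prop)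
    · intro r hr
      have hr' := hsub hr
      have hr1 : 1 ≤ r := ha1.trans hr.1
      have hw0 := w_nonneg Q hr'.1
      have hw8 := h.w_le8 hr'
      have hk0 := h.kap0
      have hnP0 : 0 ≤ n * P r := mul_nonneg h.n0 (h.P0 r hr')
      have hnP1 : n * P r ≤ 1 := hs.nP r ⟨hr.1, hr'.2⟩
      have n1 : ‖g r‖ ≤ w Q r * ((kap + 1) * ‖S r‖ + B * ‖D1 r‖ + L * ‖D r‖ + ‖sD r‖) := by
        simp only [hg]
        rw [norm_mul, Complex.norm_real, Real.norm_eq_abs, abs_of_nonneg hw0]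
        refine mul_le_mul_of_nonneg_left ?_ hw0
        have e1 : ‖((kap : ℂ) / (r : ℂ) ^ 2 + n * P r) * S r‖ ≤ (kap + 1) * ‖S r‖ := by
          rw [norm_mul]
          refine mul_le_mul_of_nonneg_right ?_ (norm_nonneg _)
          refine (norm_add_le _ _).trans (add_le_add ?_ ?_)
          · rw [norm_div, norm_pow, Complex.norm_real, Complex.norm_real, Real.norm_eq_abs,
              Real.norm_eq_abs, abs_of_nonneg h.kap0, abs_of_nonneg hr'.1]
            exact div_le_self h.kap0 (one_le_pow₀ hr1)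
          · rw [← Complex.ofReal_mul, Complex.norm_real, Real.norm_eq_abs, abs_of_nonneg hnP0]
            exact hnP1
        have e2 : ‖I * ((b Q Q1 r : ℂ) * D1 r + lam * D r + sD r)‖ ≤
            B * ‖D1 r‖ + L * ‖D r‖ + ‖sD r‖ := by
          rw [norm_mul, Complex.norm_I, one_mul]
          refine norm_add₃_le.trans ?_
          rw [norm_mul, norm_mul, Complex.norm_real, Real.norm_eq_abs]
          have := hb.hB r hr'
          have := hb.hL
          gcongr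
        calc _ ≤ ‖((kap : ℂ) / (r : ℂ) ^ 2 + n * P r) * S r‖
              + ‖I * ((b Q Q1 r : ℂ) * D1 r + lam * D r + sD r)‖ := norm_sub_le _ _
          _ ≤ _ := by linarith
      have n2 : ‖g r‖ ^ 2 ≤
          (w Q r * ((kap + 1) * ‖S r‖ + B * ‖D1 r‖ + L * ‖D r‖ + ‖sD r‖)) ^ 2 :=
        pow_le_pow_left₀ (norm_nonneg _) n1 2
      have n3 : ((kap + 1) * ‖S r‖ + B * ‖D1 r‖ + L * ‖D r‖ + ‖sD r‖) ^ 2 ≤
          4 * ((kap + 1) ^ 2 * ‖S r‖ ^ 2 + B ^ 2 * ‖D1 r‖ ^ 2 + L ^ 2 * ‖D r‖ ^ 2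
            + ‖sD r‖ ^ 2) := by
        linarith [sq_nonneg ((kap + 1) * ‖S r‖ - B * ‖D1 r‖),
          sq_nonneg ((kap + 1) * ‖S r‖ - L * ‖D r‖),
          sq_nonneg ((kap + 1) * ‖S r‖ - ‖sD r‖), sq_nonneg (B * ‖D1 r‖ - L * ‖D r‖),
          sq_nonneg (B * ‖D1 r‖ - ‖sD r‖), sq_nonneg (L * ‖D r‖ - ‖sD r‖)]
      have hed : w Q r * (‖S1 r‖ ^ 2 + ‖D1 r‖ ^ 2) ≤ ed Q P kap n S S1 D D1 r := by
        have h2 := h.P0 r hr'
        have h3 := h.kap0
        have h4 := h.n0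
        have h5 := hr'.1
        unfold ed
        have : 0 ≤ kap * (‖Q r‖ ^ 2 * r ^ 9) * (‖S r‖ ^ 2 + ‖D r‖ ^ 2)
          + n * P r * w Q r * ‖S r‖ ^ 2 := by positivity
        linarith
      calc ‖g r‖ ^ 2 ≤ (w Q r * ((kap + 1) * ‖S r‖ + B * ‖D1 r‖ + L * ‖D r‖ + ‖sD r‖)) ^ 2 := n2
        _ = w Q r * (w Q r * ((kap + 1) * ‖S r‖ + B * ‖D1 r‖ + L * ‖D r‖ + ‖sD r‖) ^ 2) := by
            ring
        _ ≤ (4 * 8 ^ 11) * (w Q r * (4 * ((kap + 1) ^ 2 * ‖S r‖ ^ 2 + B ^ 2 * ‖D1 r‖ ^ 2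
              + L ^ 2 * ‖D r‖ ^ 2 + ‖sD r‖ ^ 2))) := by
            refine mul_le_mul hw8 (mul_le_mul_of_nonneg_left n3 hw0) ?_ (by norm_num)
            positivity
        _ ≤ _ := by
            have m1 : w Q r * ‖D1 r‖ ^ 2 ≤ ed Q P kap n S S1 D D1 r := by
              have : 0 ≤ w Q r * ‖S1 r‖ ^ 2 := by positivity
              linarith
            have m2 : B ^ 2 * (w Q r * ‖D1 r‖ ^ 2) ≤ B ^ 2 * ed Q P kap n S S1 D D1 r :=
              mul_le_mul_of_nonneg_left m1 (sq_nonneg _)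
            have m3 : 0 ≤ (kap + 1) ^ 2 * (w Q r * ‖D r‖ ^ 2) := by positivity
            have m4 : 0 ≤ L ^ 2 * (w Q r * ‖S r‖ ^ 2) := by positivity
            have m5 : 0 ≤ w Q r * ‖sS r‖ ^ 2 := by positivity
            have e : (4 * 8 ^ 11 : ℝ) * (w Q r * (4 * ((kap + 1) ^ 2 * ‖S r‖ ^ 2
              + B ^ 2 * ‖D1 r‖ ^ 2
              + L ^ 2 * ‖D r‖ ^ 2 + ‖sD r‖ ^ 2))) = (4 * (4 * 8 ^ 11)) *
              ((kap + 1) ^ 2 * (w Q r * ‖S r‖ ^ 2) + B ^ 2 * (w Q r * ‖D1 r‖ ^ 2)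
              + L ^ 2 * (w Q r * ‖D r‖ ^ 2) + w Q r * ‖sD r‖ ^ 2) := by ring
            rw [e]
            refine mul_le_mul_of_nonneg_left ?_ (by norm_num)
            unfold nd
            linarith
  have i1 : IntervalIntegrable (fun r => ((kap + 1) ^ 2 + L ^ 2) * nd Q S D r) volume a e :=
    ContinuousOn.intervalIntegrable (by rw [uIcc_of_le hae.le]; fun_prop)
  have i2 : IntervalIntegrable (fun r => B ^ 2 * ed Q P kap n S S1 D D1 r) volume a e :=
    ContinuousOn.intervalIntegrable (by rw [uIcc_of_le hae.le]; fun_prop)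
  have i3 : IntervalIntegrable (fun r => nd Q sS sD r) volume a e :=
    ContinuousOn.intervalIntegrable (by rw [uIcc_of_le hae.le]; fun_prop)
  rw [intervalIntegral.integral_const_mul, intervalIntegral.integral_add (i1.add i2) i3,
    intervalIntegral.integral_add i1 i2, intervalIntegral.integral_const_mul,
    intervalIntegral.integral_const_mul] at key
  have a1 := h.nd_int hb (by linarith : 0 ≤ a) hae.le (by linarith : e ≤ 8)
  have a2 := h.e6 hb (by linarith : 0 ≤ a) hae.le hRd6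
  have a3 := h.nds_int hb (by linarith : 0 ≤ a) hae.le (by linarith : e ≤ 8)
  have b1 := mul_le_mul_of_nonneg_left a1 (by positivity : 0 ≤ (kap + 1) ^ 2 + L ^ 2)
  have b2 := mul_le_mul_of_nonneg_left a2 (sq_nonneg B)
  have key2 : ∫ r in a..e, ‖g r‖ ^ 2 ≤ (4 * (4 * 8 ^ 11)) *
      (((kap + 1) ^ 2 + L ^ 2 + 1) * M + B ^ 2 * Ec B L M) := by
    refine key.trans (mul_le_mul_of_nonneg_left ?_ (by norm_num))
    linarith
  -- the integral of `‖w S1‖²`
  have key3 : ∫ r in a..e, ‖(w Q r : ℂ) * S1 r‖ ^ 2 ≤ W8 * Ec B L M := by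
    have h2 : ∫ r in a..e, ‖(w Q r : ℂ) * S1 r‖ ^ 2 ≤
        ∫ r in a..e, W8 * ed Q P kap n S S1 D D1 r := by
      refine intervalIntegral.integral_mono_on hae.le ?_ ?_ ?_
      · exact ContinuousOn.intervalIntegrable (by rw [uIcc_of_le hae.le]; fun_prop)
      · exact ContinuousOn.intervalIntegrable (by rw [uIcc_of_le hae.le]; fun_prop)
      · intro r hr
        have hr' := hsub hr
        have hw0 := w_nonneg Q hr'.1
        have hw8 := h.w_le8 hr'
        have hed : w Q r * (‖S1 r‖ ^ 2 + ‖D1 r‖ ^ 2) ≤ ed Q P kap n S S1 D D1 r := by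
          have h2 := h.P0 r hr'
          have h3 := h.kap0
          have h4 := h.n0
          have h5 := hr'.1
          unfold ed
          have : 0 ≤ kap * (‖Q r‖ ^ 2 * r ^ 9) * (‖S r‖ ^ 2 + ‖D r‖ ^ 2)
            + n * P r * w Q r * ‖S r‖ ^ 2 := by positivity
          linarith
        rw [norm_mul, Complex.norm_real, Real.norm_eq_abs, abs_of_nonneg hw0]
        calc (w Q r * ‖S1 r‖) ^ 2 = w Q r * (w Q r * ‖S1 r‖ ^ 2) := by ring
          _ ≤ W8 * (w Q r * ‖S1 r‖ ^ 2) :=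
              mul_le_mul_of_nonneg_right hw8 (by positivity)
          _ ≤ _ := by
              refine mul_le_mul_of_nonneg_left ?_ W8_pos.le
              have : 0 ≤ w Q r * ‖D1 r‖ ^ 2 := by positivity
              linarith
    refine h2.trans ?_
    rw [intervalIntegral.integral_const_mul]
    exact mul_le_mul_of_nonneg_left a2 W8_pos.le
  -- combine
  set HS := (4 * (4 * 8 ^ 11)) * (((kap + 1) ^ 2 + L ^ 2 + 1) * M + B ^ 2 * Ec B L M) with hHS
  have hHS0 : 0 ≤ HS := by positivity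
  have hWE0 : 0 ≤ W8 * Ec B L M := mul_nonneg W8_pos.le hE
  have h3 : ‖(w Q e : ℂ) * S1 e‖ ^ 2 ≤ d * HS + 4 / d * (W8 * Ec B L M) := by
    refine h1.trans ?_
    have u1 : 2 * (d / 2) * ∫ r in a..e, ‖g r‖ ^ 2 ≤ 2 * (d / 2) * HS :=
      mul_le_mul_of_nonneg_left key2 (by positivity)
    have u2 : 2 / (d / 2) * ∫ r in a..e, ‖(w Q r : ℂ) * S1 r‖ ^ 2 ≤
        2 / (d / 2) * (W8 * Ec B L M) :=
      mul_le_mul_of_nonneg_left key3 (by positivity)
    have u3 : 2 / (d / 2) = 4 / d := by field_simp; norm_num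
    rw [u3] at u2
    rw [u3]
    linarith
  have hwpos : 1 / 4 ≤ w Q e := by
    have h1 := h.wl (⟨by linarith, by linarith⟩ : e ∈ Icc (0:ℝ) 8)
    have h2 : (1 : ℝ) ≤ e ^ 11 := one_le_pow₀ (by linarith)
    linarith
  rw [norm_mul, Complex.norm_real, Real.norm_eq_abs, abs_of_nonneg (by linarith)] at h3
  have h4 : d * ((w Q e * ‖S1 e‖) ^ 2) ≤ HS + 4 * (W8 * Ec B L M) := by
    have u1 := mul_le_mul_of_nonneg_left h3 hd.le
    have u2 : d * (4 / d * (W8 * Ec B L M)) = 4 * (W8 * Ec B L M) := by field_simp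
    have u3 : d * (d * HS) ≤ HS := by
      have v1 : d * d ≤ 1 / 2 * (1 / 2) := mul_le_mul hs.d2 hs.d2 hd.le (by norm_num)
      have v2 : d * d ≤ 1 := by linarith
      have v3 := mul_le_mul_of_nonneg_right v2 hHS0
      linarith
    linarith
  have h5 : d * ‖S1 e‖ ^ 2 ≤ 16 * (HS + 4 * (W8 * Ec B L M)) := by
    have u1 : ‖S1 e‖ ^ 2 ≤ 16 * (w Q e * ‖S1 e‖) ^ 2 := by
      have v1 : ‖S1 e‖ ≤ 4 * (w Q e * ‖S1 e‖) := by
        have := mul_le_mul_of_nonneg_right hwpos (norm_nonneg (S1 e))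
        linarith
      have v2 := pow_le_pow_left₀ (norm_nonneg _) v1 2
      linarith
    have u2 := mul_le_mul_of_nonneg_left u1 hd.le
    linarith
  have e5 : K3 B L M l ^ 2 = 16 * (HS + 4 * (W8 * Ec B L M)) := by
    unfold K3
    rw [mul_pow, ← hkap, Real.sq_sqrt (by positivity), hHS]
    ring
  rw [e5]
  exact h5

end Hyp

end Crest.Agent.R086.C4
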