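import Crest.Agent.R086.CTop
import Crest.Agent.R086.C34Defs
import Crest.Agent.R086.CInst

/-!
Row 86 (S0114), Part C, node SYMF (helper392): the radial symmetry modes are mode pairs.
-/

set_option autoImplicit false

open MeasureTheory Complex ComplexConjugate Set Filter Topology
open scoped ContDiff

namespace Crest.Agent.R086.CSym

open CTop SH

theorem eq_of_par {f g : ℝ → ℂ} {l : ℕ} (hf : Continuous f) (hg : Continuous g)
    (pf : ∀ r, f (-r) = (-1) ^ l * f r) (pg : ∀ r, g (-r) = (-1) ^ l * g r)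
    (h : ∀ r, 0 < r → f r = g r) : f = g := by
  have h0 : f 0 = g 0 := by
    have h1 : Tendsto f (𝓝[>] 0) (𝓝 (f 0)) := hf.continuousAt.tendsto.mono_left nhdsWithin_le_nhds
    have h2 : Tendsto g (𝓝[>] 0) (𝓝 (g 0)) := hg.continuousAt.tendsto.mono_left nhdsWithin_le_nhds
    have h3 : g =ᶠ[𝓝[>] 0] f := by
      filter_upwards [self_mem_nhdsWithin] with r hr using (h r hr).symm
    exact tendsto_nhds_unique h1 (h2.congr' h3)
  funext r
  rcases lt_trichotomy r 0 with hr | hr | hr
  · have e1 := pf (-r)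
    have e2 := pg (-r)
    rw [neg_neg] at e1 e2
    rw [e1, e2, h (-r) (by linarith)]
  · rw [hr]; exact h0
  · exact h r hr

theorem rgen1_zero {n : ℕ} (P : Profile n) (l : ℕ) (r : ℝ) :
    P.rgen1 l (fun _ => 0) (fun _ => 0) r = 0 := by
  unfold Profile.rgen1 rlap
  simp

theorem rgen2_zero {n : ℕ} (P : Profile n) (l : ℕ) (r : ℝ) :
    P.rgen2 l (fun _ => 0) (fun _ => 0) r = 0 := by
  unfold Profile.rgen2 rlap
  simp

theorem modeFn_smul (H : R12 → ℝ) (F : ℝ → ℂ) (c : ℂ) :
    modeFn H (fun r => c * F r) = fun y => c * modeFn H F y := by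
  funext y
  unfold modeFn
  ring

theorem pair_of {n : ℕ} (P : Profile n) {l : ℕ} {H : R12 → ℝ} (hH : SHarm l H)
    (hn : (∫ w : S11, (H w) ^ 2 ∂sig) = 1) (m : Option (Option (Fin 12))) {c : ℂ} (hc : c ≠ 0)
    (hcc : conj c = c) {e : ℝ → ℂ} (ce : Continuous e) (pe : ∀ r, e (-r) = (-1) ^ l * e r)
    (h1 : ∀ r, 0 < r → E1 P H m r = e r * c) :
    P.Pair l H (DM.ml m : ℂ) 0 (fun _ => 0) e (fun r => conj (e r)) := by
  have he : e = fun r => c⁻¹ * E1 P H m r := by
    refine eq_of_par (l := l) ce (continuous_const.mul (E1_cd P hH m 0).continuous) pe ?_ ?_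
    · intro r
      rw [E1_par P hH]
      ring
    · intro r hr
      rw [h1 r hr]
      field_simp
  have hE : ∀ r, E2 P H m r = conj (E1 P H m r) := fun r => comp_mode2 P H m r
  have hec : (fun r => conj (e r)) = fun r => c⁻¹ * E2 P H m r := by
    funext r
    rw [he, hE]
    simp only [map_mul, map_inv₀, hcc]
  rw [hec, he]
  have d1 : ContDiff ℝ N0 (E1 P H m) := E1_cd P hH m N0
  have d2 : ContDiff ℝ N0 (E2 P H m) := E2_cd P hH m N0
  have g1 := fun r => rgen1_sub P (l := l) (F := fun _ => 0) (G := fun _ => 0)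
    (E2 := E2 P H m) contDiff_const (E1_cd P hH m 2) (-c⁻¹) r
  have g2 := fun r => rgen2_sub P (l := l) (F := fun _ => 0) (G := fun _ => 0)
    (E1 := E1 P H m) contDiff_const (E2_cd P hH m 2) (-c⁻¹) r
  simp only [rgen1_zero, rgen2_zero, zero_sub, neg_mul, neg_neg] at g1 g2
  exact
  { sharm := hH
    nrm := hn
    cF := contDiff_const.mul d1
    cG := contDiff_const.mul d2
    pF := fun r => by
      rw [E1_par P hH]; ring
    pG := fun r => by
      rw [E2_par P hH]; ring
    xF := by
      rw [modeFn_smul]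
      exact inX_smul _ (E1_inX P hH m N0)
    xG := by
      rw [modeFn_smul]
      exact inX_smul _ (E2_inX P hH m N0)
    eqF := fun r hr => by
      rw [g1 r, E_eq1 P hH m hr]; ring
    eqG := fun r hr => by
      rw [g2 r, E_eq2 P hH m hr]; simp only [map_zero]; ring }

theorem dq_odd {n : ℕ} (P : Profile n) (r : ℝ) : deriv P.q (-r) = -deriv P.q r := by
  have h := CInst.hd_q P (-r)
  have h1 : HasDerivAt (fun r : ℝ => P.q (-r)) (-deriv P.q (-r)) r := by
    have h5 := h.scomp r (hasDerivAt_neg r)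
    rw [neg_one_smul] at h5
    exact h5
  have e : (fun r : ℝ => P.q (-r)) = P.q := funext (CInst.q_even P)
  rw [e] at h1
  have h2 := h1.unique (CInst.hd_q P r)
  rw [← h2, neg_neg]

theorem symStmt : SymStmt := by
  intro n P l ls e H hs hH hn
  have cq : Continuous P.q := CInst.cq P
  have cdq : Continuous (deriv P.q) := CInst.cd_q P
  rcases hs with ⟨hl, hls, he⟩ | ⟨hl, hls, he⟩ | ⟨hl, hls, he⟩
  · subst hl hls he
    have h := pair_of P hH hn none (m0_ne hH hn) (m0_conj H) (e := fun r => I * P.q r)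
      (continuous_const.mul cq) (fun r => by simp [CInst.q_even P r]) (fun r hr => E1_phase P H hr)
    exact h
  · subst hl hls he
    have hc : Continuous P.rtime := CInst.c_rtime P
    have h := pair_of P hH hn (some none) (m0_ne hH hn) (m0_conj H) (e := P.rtime) hc
      (fun r => by
        unfold Profile.rtime
        rw [CInst.q_even P r, dq_odd]
        push_cast
        ring) (fun r hr => E1_time P H hr)
    exact h
  · subst hl hls he
    obtain ⟨j, hj⟩ := m1_ne hH hn
    have h := pair_of P hH hn (some (some j)) hj (m1_conj H j) (e := deriv P.q) cdq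
      (fun r => by rw [dq_odd]; ring) (fun r hr => E1_tr P H j hr)
    exact h

end Crest.Agent.R086.CSym
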