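import Crest.Agent.R086.SHX
import Crest.Agent.R086.XOut

/-!
Row 86 (S0114), Part C (helper362): a mode function in `X_N` has a radial part with `N` bounded derivatives
on `(0,∞)`.
-/

set_option autoImplicit false

open MeasureTheory Complex Filter Topology
open scoped ContDiff

namespace Crest.Agent.R086.ModeDer

/-- derivatives of a Fourier integral along a line through the origin. -/
noncomputable def gj (a : R12 → ℂ) (w : R12) (j : ℕ) (t : ℝ) : ℂ :=
  ∫ ξ : R12, exp (I * ((inner ℝ ξ (t • w) : ℝ) : ℂ)) * ((I * ((inner ℝ ξ w : ℝ) : ℂ)) ^ j * a ξ)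

theorem norm_gj_le {N : ℕ} {a f : R12 → ℂ} (h : Rep N a f) {w : R12} (hw : ‖w‖ = 1) {j : ℕ}
    (hj : j ≤ N) (t : ℝ) : ‖gj a w j t‖ ≤ ∫ ξ : R12, ‖ξ‖ ^ j * ‖a ξ‖ := by
  unfold gj
  refine norm_integral_le_of_norm_le (SH.Rep.integrable_pow h hj) ?_
  filter_upwards with ξ
  rw [norm_mul, norm_mul, norm_pow, norm_mul, Complex.norm_I, one_mul, Complex.norm_real]
  have e1 : ‖exp (I * ((inner ℝ ξ (t • w) : ℝ) : ℂ))‖ = 1 := by
    rw [mul_comm]; exact Complex.norm_exp_ofReal_mul_I _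
  rw [e1, one_mul]
  apply mul_le_mul_of_nonneg_right _ (norm_nonneg _)
  apply pow_le_pow_left₀ (norm_nonneg _)
  have := norm_inner_le_norm (𝕜 := ℝ) ξ w
  rwa [hw, mul_one] at this

theorem gj_integrable {N : ℕ} {a f : R12 → ℂ} (h : Rep N a f) {w : R12} (hw : ‖w‖ = 1) {j : ℕ}
    (hj : j ≤ N) (t : ℝ) : Integrable (fun ξ : R12 =>
      exp (I * ((inner ℝ ξ (t • w) : ℝ) : ℂ)) * ((I * ((inner ℝ ξ w : ℝ) : ℂ)) ^ j * a ξ)) := by
  refine (SH.Rep.integrable_pow h hj).mono' ?_ ?_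
  · have hc : Continuous fun ξ : R12 => exp (I * ((inner ℝ ξ (t • w) : ℝ) : ℂ)) *
        (I * ((inner ℝ ξ w : ℝ) : ℂ)) ^ j := by fun_prop
    have := hc.aestronglyMeasurable.mul (SH.Rep.aestronglyMeasurable h) (μ := volume)
    refine this.congr ?_
    filter_upwards with ξ
    simp only [Pi.mul_apply]
    ring
  · filter_upwards with ξ
    rw [norm_mul, norm_mul, norm_pow, norm_mul, Complex.norm_I, one_mul, Complex.norm_real]
    have e1 : ‖exp (I * ((inner ℝ ξ (t • w) : ℝ) : ℂ))‖ = 1 := by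
      rw [mul_comm]; exact Complex.norm_exp_ofReal_mul_I _
    rw [e1, one_mul]
    apply mul_le_mul_of_nonneg_right _ (norm_nonneg _)
    apply pow_le_pow_left₀ (norm_nonneg _)
    have := norm_inner_le_norm (𝕜 := ℝ) ξ w
    rwa [hw, mul_one] at this

theorem hasDerivAt_gj {N : ℕ} {a f : R12 → ℂ} (h : Rep N a f) {w : R12} (hw : ‖w‖ = 1) {j : ℕ}
    (hj : j < N) (t : ℝ) : HasDerivAt (gj a w j) (gj a w (j + 1) t) t := by
  have key := hasDerivAt_integral_of_dominated_loc_of_deriv_le (μ := (volume : Measure R12))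
    (F := fun (t : ℝ) (ξ : R12) => exp (I * ((inner ℝ ξ (t • w) : ℝ) : ℂ)) *
      ((I * ((inner ℝ ξ w : ℝ) : ℂ)) ^ j * a ξ))
    (F' := fun (t : ℝ) (ξ : R12) => exp (I * ((inner ℝ ξ (t • w) : ℝ) : ℂ)) *
      ((I * ((inner ℝ ξ w : ℝ) : ℂ)) ^ (j + 1) * a ξ))
    (x₀ := t) (s := Set.univ) (bound := fun ξ => ‖ξ‖ ^ (j + 1) * ‖a ξ‖) Filter.univ_mem
    (Filter.Eventually.of_forall (fun t => (gj_integrable h hw hj.le t).aestronglyMeasurable))
    (gj_integrable h hw hj.le t)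
    (gj_integrable h hw (Nat.succ_le_of_lt hj) t).aestronglyMeasurable
    (by
      filter_upwards with ξ t _
      rw [norm_mul, norm_mul, norm_pow, norm_mul, Complex.norm_I, one_mul, Complex.norm_real]
      have e1 : ‖exp (I * ((inner ℝ ξ (t • w) : ℝ) : ℂ))‖ = 1 := by
        rw [mul_comm]; exact Complex.norm_exp_ofReal_mul_I _
      rw [e1, one_mul]
      apply mul_le_mul_of_nonneg_right _ (norm_nonneg _)
      apply pow_le_pow_left₀ (norm_nonneg _)
      have := norm_inner_le_norm (𝕜 := ℝ) ξ w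
      rwa [hw, mul_one] at this)
    (SH.Rep.integrable_pow h (Nat.succ_le_of_lt hj))
    (by
      filter_upwards with ξ t _
      have e1 : HasDerivAt (fun t : ℝ => (I * ((inner ℝ ξ (t • w) : ℝ) : ℂ)))
          (I * ((inner ℝ ξ w : ℝ) : ℂ)) t := by
        have e2 : HasDerivAt (fun t : ℝ => ((inner ℝ ξ (t • w) : ℝ) : ℂ))
            (((inner ℝ ξ w : ℝ) : ℂ)) t := by
          have e3 : (fun t : ℝ => (inner ℝ ξ (t • w) : ℝ)) = fun t : ℝ => t * inner ℝ ξ w := by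
            funext t; rw [real_inner_smul_right]
          have e4 : HasDerivAt (fun t : ℝ => (inner ℝ ξ (t • w) : ℝ)) (inner ℝ ξ w) t := by
            rw [e3]; simpa using (hasDerivAt_id t).mul_const (inner ℝ ξ w : ℝ)
          exact e4.ofReal_comp
        exact e2.const_mul I
      have e5 := (e1.cexp).mul_const ((I * ((inner ℝ ξ w : ℝ) : ℂ)) ^ j * a ξ)
      refine e5.congr_deriv ?_
      ring)
  exact key.2

theorem iteratedDeriv_gj {N : ℕ} {a f : R12 → ℂ} (h : Rep N a f) {w : R12} (hw : ‖w‖ = 1) :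
    ∀ j ≤ N, iteratedDeriv j (gj a w 0) = gj a w j := by
  intro j
  induction j with
  | zero => intro _; simp
  | succ j ih =>
    intro hj
    rw [iteratedDeriv_succ, ih (by omega)]
    funext t
    exact (hasDerivAt_gj h hw (by omega) t).deriv

theorem gj_zero {N : ℕ} {a f : R12 → ℂ} (h : Rep N a f) (w : R12) (t : ℝ) :
    gj a w 0 t = f (t • w) := by
  rw [h.2 (t • w)]
  unfold gj
  simp

/-- along a unit direction where `H ≠ 0`. -/
theorem bound_of_dir {N : ℕ} {H : R12 → ℝ} {F : ℝ → ℂ} (hX : InX N (modeFn H F)) {w : R12}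
    (hw : ‖w‖ = 1) (hH : H w ≠ 0) :
    ∀ j ≤ N, ∃ C : ℝ, ∀ r : ℝ, 0 < r → ‖iteratedDeriv j F r‖ ≤ C := by
  obtain ⟨a, ha⟩ := hX
  intro j hj
  refine ⟨‖((H w : ℝ) : ℂ)⁻¹‖ * ∫ ξ : R12, ‖ξ‖ ^ j * ‖a ξ‖, ?_⟩
  intro r hr
  have hH' : ((H w : ℝ) : ℂ) ≠ 0 := by exact_mod_cast hH
  have e : F =ᶠ[𝓝 r] fun t => ((H w : ℝ) : ℂ)⁻¹ * gj a w 0 t := by
    filter_upwards [Ioi_mem_nhds hr] with t ht
    have ht' : (0 : ℝ) < t := ht
    rw [gj_zero ha]
    unfold modeFn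
    have n1 : ‖t • w‖ = t := by rw [norm_smul, hw, mul_one, Real.norm_of_nonneg ht'.le]
    rw [n1, smul_smul, inv_mul_cancel₀ ht'.ne', one_smul, ← mul_assoc, inv_mul_cancel₀ hH', one_mul]
  rw [e.iteratedDeriv_eq j]
  have e2 : iteratedDeriv j (fun t => ((H w : ℝ) : ℂ)⁻¹ * gj a w 0 t) r
      = ((H w : ℝ) : ℂ)⁻¹ * gj a w j r := by
    rw [← congrFun (iteratedDeriv_gj ha hw j hj) r]
    simp only [iteratedDeriv_const_mul_field]
  rw [e2, norm_mul]
  exact mul_le_mul_of_nonneg_left (norm_gj_le ha hw hj r) (norm_nonneg _)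

/-- a normalised `H` does not vanish identically on the sphere. -/
theorem exists_dir {H : R12 → ℝ} (hH : (∫ w : S11, (H w) ^ 2 ∂sig) = 1) :
    ∃ w : R12, ‖w‖ = 1 ∧ H w ≠ 0 := by
  by_contra hcon
  push Not at hcon
  have : (∫ w : S11, (H w) ^ 2 ∂sig) = 0 := by
    have e : (fun w : S11 => (H w) ^ 2) = fun _ => (0 : ℝ) := by
      funext w
      have hw : ‖(w : R12)‖ = 1 := by simpa using w.2
      rw [hcon w hw]
      norm_num
    rw [e]
    simp
  rw [this] at hH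
  exact zero_ne_one hH

/-- **bounded derivatives of the radial part** -/
theorem bound {N : ℕ} {H : R12 → ℝ} {F : ℝ → ℂ} (hH : (∫ w : S11, (H w) ^ 2 ∂sig) = 1)
    (hX : InX N (modeFn H F)) : ∀ j ≤ N, ∃ C : ℝ, ∀ r : ℝ, 0 < r → ‖iteratedDeriv j F r‖ ≤ C := by
  obtain ⟨w, hw, hw2⟩ := exists_dir hH
  exact bound_of_dir hX hw hw2

theorem bd {N : ℕ} {H : R12 → ℝ} {F : ℝ → ℂ} (hH : (∫ w : S11, (H w) ^ 2 ∂sig) = 1)
    (hF : ContDiff ℝ N F) (hX : InX N (modeFn H F)) : XOut.BD 0 N F :=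
  XOut.BD_of_iteratedDeriv hF (bound hH hX)

end Crest.Agent.R086.ModeDer
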