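import Crest.Agent.R086.CH1

/-!
Row 86 (S0114), Part C, node C-H (helper362): abstract uniform bound of `Re lam` by monotonicity of one
boundary functional.
-/

set_option autoImplicit false

open Complex ComplexConjugate Filter Topology

namespace Crest.Agent.R086.CH

open CCore CCore.Sys

/-- a differentiable function on `(0,∞)` with nonnegative derivative and limits `0` at both ends is `0`,
and its derivative vanishes. -/
theorem zero_of_mono {f f' : ℝ → ℝ} (hd : ∀ r, 0 < r → HasDerivAt f (f' r) r)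
    (hn : ∀ r, 0 < r → 0 ≤ f' r) (h0 : Tendsto f (𝓝[>] 0) (𝓝 0)) (hi : Tendsto f atTop (𝓝 0)) :
    ∀ r, 0 < r → f r = 0 ∧ f' r = 0 := by
  have hm : MonotoneOn f (Set.Ioi 0) := by
    apply monotoneOn_of_deriv_nonneg (convex_Ioi 0)
    · intro x hx
      exact (hd x hx).continuousAt.continuousWithinAt
    · intro x hx
      rw [interior_Ioi] at hx
      exact (hd x hx).differentiableAt.differentiableWithinAt
    · intro x hx
      rw [interior_Ioi] at hx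
      rw [(hd x hx).deriv]
      exact hn x hx
  have hz : ∀ r, 0 < r → f r = 0 := by
    intro r hr
    apply le_antisymm
    · refine ge_of_tendsto hi ?_
      filter_upwards [eventually_ge_atTop r] with x hx
      exact hm (Set.mem_Ioi.2 hr) (Set.mem_Ioi.2 (lt_of_lt_of_le hr hx)) hx
    · refine le_of_tendsto h0 ?_
      have : Set.Ioo (0 : ℝ) r ∈ 𝓝[>] (0 : ℝ) := Ioo_mem_nhdsGT hr
      filter_upwards [this] with x hx
      exact hm (Set.mem_Ioi.2 hx.1) (Set.mem_Ioi.2 hr) hx.2.le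
  intro r hr
  refine ⟨hz r hr, ?_⟩
  have e : f =ᶠ[𝓝 r] fun _ => 0 := by
    filter_upwards [Ioi_mem_nhds hr] with x hx
    exact hz x hx
  have := (hasDerivAt_const r (0 : ℝ)).congr_of_eventuallyEq e
  exact (hd r hr).unique this

/-- `f` differentiable on `(0,∞)` with nonnegative derivative and limit `0` at `0+` is nonnegative. -/
theorem nonneg_of_mono {f f' : ℝ → ℝ} (hd : ∀ r, 0 < r → HasDerivAt f (f' r) r)
    (hn : ∀ r, 0 < r → 0 ≤ f' r) (h0 : Tendsto f (𝓝[>] 0) (𝓝 0)) :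
    ∀ r, 0 < r → 0 ≤ f r := by
  have hm : MonotoneOn f (Set.Ioi 0) := by
    apply monotoneOn_of_deriv_nonneg (convex_Ioi 0)
    · intro x hx
      exact (hd x hx).continuousAt.continuousWithinAt
    · intro x hx
      rw [interior_Ioi] at hx
      exact (hd x hx).differentiableAt.differentiableWithinAt
    · intro x hx
      rw [interior_Ioi] at hx
      rw [(hd x hx).deriv]
      exact hn x hx
  intro r hr
  refine le_of_tendsto h0 ?_
  have : Set.Ioo (0 : ℝ) r ∈ 𝓝[>] (0 : ℝ) := Ioo_mem_nhdsGT hr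
  filter_upwards [this] with x hx
  exact hm (Set.mem_Ioi.2 hx.1) (Set.mem_Ioi.2 hr) hx.2.le

/-- bounds of the transport coefficient from comparability of the weight with `r^11 g`,
`-2 g ≤ r g' ≤ 0`. -/
theorem b_bounds {w b g g1 : ℝ → ℝ} {eps A : ℝ} (hA : 0 < A) (he0 : 0 ≤ eps) (he : eps ≤ 3)
    (hg0 : ∀ r, 0 < r → 0 < g r) (hg : ∀ r, 0 < r → HasDerivAt g (g1 r) r)
    (hg1 : ∀ r, 0 < r → -2 * g r ≤ r * g1 r)
    (hgb : ∀ r, 0 < r → g r ≤ 1)
    (hw1 : ∀ r, 0 < r → (A ^ 2)⁻¹ * (r ^ 11 * g r) ≤ w r)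
    (hw2 : ∀ r, 0 < r → w r ≤ A ^ 2 * (r ^ 11 * g r))
    (hwb : ∀ r, 0 < r → HasDerivAt (fun r => w r * b r) ((6 - 2 * eps) * w r) r)
    (h0 : Tendsto (fun r => w r * b r) (𝓝[>] 0) (𝓝 0)) :
    ∀ r, 0 < r → 0 ≤ b r ∧ b r ≤ A ^ 4 * r := by
  have hwpos : ∀ r, 0 < r → 0 < w r := fun r hr =>
    lt_of_lt_of_le (mul_pos (by positivity) (mul_pos (by positivity) (hg0 r hr))) (hw1 r hr)
  have h1 : ∀ r, 0 < r → 0 ≤ w r * b r := nonneg_of_mono hwb
    (fun r hr => mul_nonneg (by linarith) (hwpos r hr).le) h0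
  have hG : ∀ r, 0 < r → HasDerivAt (fun r => A ^ 2 * (r ^ 12 * g r) - w r * b r)
      (A ^ 2 * (12 * r ^ 11 * g r + r ^ 12 * g1 r) - (6 - 2 * eps) * w r) r := by
    intro r hr
    have hp : HasDerivAt (fun r : ℝ => r ^ 12) (12 * r ^ 11) r := by
      simpa using hasDerivAt_pow 12 r
    exact ((hp.mul (hg r hr)).const_mul (A ^ 2)).sub (hwb r hr)
  have h2 : ∀ r, 0 < r → 0 ≤ A ^ 2 * (r ^ 12 * g r) - w r * b r := by
    refine nonneg_of_mono hG ?_ ?_
    · intro r hr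
      have e1 := hw2 r hr
      have e2 := hg1 r hr
      have e3 := hwpos r hr
      have e4 : (6 - 2 * eps) * w r ≤ 6 * (A ^ 2 * (r ^ 11 * g r)) := by nlinarith
      have e5 : r ^ 12 * g1 r = r ^ 11 * (r * g1 r) := by ring
      have e6 : r ^ 11 * (-2 * g r) ≤ r ^ 11 * (r * g1 r) :=
        mul_le_mul_of_nonneg_left e2 (by positivity)
      have e7 : 0 < r ^ 11 * g r := mul_pos (by positivity) (hg0 r hr)
      have e8 : 0 < A ^ 2 := by positivity
      rw [e5]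
      have : A ^ 2 * (12 * r ^ 11 * g r + r ^ 11 * (-2 * g r)) ≤
          A ^ 2 * (12 * r ^ 11 * g r + r ^ 11 * (r * g1 r)) :=
        mul_le_mul_of_nonneg_left (by linarith) e8.le
      nlinarith [mul_pos e8 e7]
    · have hz : Tendsto (fun r : ℝ => A ^ 2 * (r ^ 12 * g r)) (𝓝[>] 0) (𝓝 0) := by
        have hp : Tendsto (fun r : ℝ => A ^ 2 * r ^ 12) (𝓝[>] 0) (𝓝 0) := by
          have : Tendsto (fun r : ℝ => A ^ 2 * r ^ 12) (𝓝 0) (𝓝 (A ^ 2 * 0 ^ 12)) :=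
            (continuous_const.mul (continuous_pow 12)).tendsto 0
          simp only [ne_eq, OfNat.ofNat_ne_zero, not_false_eq_true, zero_pow, mul_zero] at this
          exact this.mono_left nhdsWithin_le_nhds
        refine squeeze_zero' ?_ ?_ hp
        · filter_upwards [self_mem_nhdsWithin] with r hr
          have := hg0 r hr
          have hr' : (0 : ℝ) < r := hr
          positivity
        · filter_upwards [self_mem_nhdsWithin] with r hr
          have := hgb r hr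
          have hr' : (0 : ℝ) < r := hr
          have h12 : r ^ 12 * g r ≤ r ^ 12 := by
            have : r ^ 12 * g r ≤ r ^ 12 * 1 := mul_le_mul_of_nonneg_left this (by positivity)
            linarith
          exact mul_le_mul_of_nonneg_left h12 (by positivity)
      simpa using hz.sub h0
  intro r hr
  have hw := hwpos r hr
  have i1 := h1 r hr
  have i2 := h2 r hr
  have i3 := hw1 r hr
  refine ⟨?_, ?_⟩
  · by_contra hneg
    push Not at hneg
    have := mul_neg_of_pos_of_neg hw hneg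
    linarith
  · have i4 : A ^ 2 * (r ^ 12 * g r) ≤ A ^ 4 * r * w r := by
      have e : A ^ 2 * (r ^ 12 * g r) = A ^ 4 * r * ((A ^ 2)⁻¹ * (r ^ 11 * g r)) := by
        field_simp
      rw [e]
      exact mul_le_mul_of_nonneg_left i3 (by positivity)
    have i5 : w r * b r ≤ w r * (A ^ 4 * r) := by linarith [mul_comm (w r) (A ^ 4 * r)]
    exact le_of_mul_le_mul_left i5 hw

/-- pointwise Hardy inequality. -/
theorem hardy_pt {g g1 : ℝ → ℝ} {S S1 : ℝ → ℂ} {r : ℝ} (hr : 0 < r) (hg0 : 0 < g r)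
    (hg : HasDerivAt g (g1 r) r) (hg1 : -2 * g r ≤ r * g1 r) (hS : HasDerivAt S (S1 r) r) :
    ∃ H' : ℝ, HasDerivAt (fun r => r ^ 10 * g r * ‖S r‖ ^ 2) H' r ∧
      4 * (r ^ 9 * g r * ‖S r‖ ^ 2) - (1 / 4) * (r ^ 11 * g r * ‖S1 r‖ ^ 2) ≤ H' := by
  have hp : HasDerivAt (fun r : ℝ => r ^ 10) (10 * r ^ 9) r := by
    simpa using hasDerivAt_pow 10 r
  have hn : HasDerivAt (fun r => ‖S r‖ ^ 2) (2 * (S1 r * conj (S r)).re) r := hasDerivAt_normSq hS
  refine ⟨_, (hp.mul hg).mul hn, ?_⟩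
  have hre : -(‖S r‖ * ‖S1 r‖) ≤ (S1 r * conj (S r)).re := by
    have h1 := Complex.abs_re_le_norm (S1 r * conj (S r))
    rw [norm_mul, Complex.norm_conj] at h1
    have := (abs_le.1 h1).1
    linarith [mul_comm ‖S r‖ ‖S1 r‖]
  simp only [Pi.mul_apply]
  set s := ‖S r‖
  set t := ‖S1 r‖
  have hs : 0 ≤ s := norm_nonneg _
  have ht : 0 ≤ t := norm_nonneg _
  have a1 : r ^ 9 * (-2 * g r) * s ^ 2 ≤ r ^ 9 * (r * g1 r) * s ^ 2 := by
    have := mul_le_mul_of_nonneg_left hg1 (show 0 ≤ r ^ 9 by positivity)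
    exact mul_le_mul_of_nonneg_right this (by positivity)
  have a2 : r ^ 10 * g r * (2 * -(s * t)) ≤ r ^ 10 * g r * (2 * (S1 r * conj (S r)).re) := by
    apply mul_le_mul_of_nonneg_left _ (by positivity)
    linarith
  have a3 : 0 ≤ r ^ 9 * g r * (2 * s - r * t / 2) ^ 2 := by positivity
  nlinarith [a1, a2, a3]

/-- **abstract bound**: with the structural bounds, `Re lam > 4 + B0 (11 + 2 B)` forces `S = D = 0`. -/
theorem abstract_bound {w b P rho P1 g g1 : ℝ → ℝ} {kap n eps A B0 B dl : ℝ} {lam : ℂ}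
    {S S1 D D1 : ℝ → ℂ} (hA : 0 < A) (he0 : 0 ≤ eps) (he : eps ≤ 3) (hn : 0 < n) (hk : 0 ≤ kap)
    (hB0 : 0 ≤ B0) (hB : 0 ≤ B) (hdl0 : 0 ≤ dl) (hdl : dl * A ^ 4 ≤ 1)
    (hg0 : ∀ r, 0 < r → 0 < g r) (hg : ∀ r, 0 < r → HasDerivAt g (g1 r) r)
    (hg1 : ∀ r, 0 < r → -2 * g r ≤ r * g1 r)
    (hw1 : ∀ r, 0 < r → (A ^ 2)⁻¹ * (r ^ 11 * g r) ≤ w r)
    (hw2 : ∀ r, 0 < r → w r ≤ A ^ 2 * (r ^ 11 * g r))
    (hsys : ∀ r, 0 < r → Sys w b P rho kap n eps lam S S1 D D1 0 0 r)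
    (hP : ∀ r, 0 < r → HasDerivAt P (P1 r) r) (hP0 : ∀ r, 0 < r → 0 < P r)
    (hb0 : ∀ r, 0 < r → 0 ≤ b r) (hb1 : ∀ r, 0 < r → b r ≤ B0 * r)
    (hrho : ∀ r, 0 < r → r * rho r ≤ B)
    (hPb : ∀ r, 0 < r → n * (P1 r * b r) ≤ n * P r + dl / r ^ 2)
    (hlam : 4 + B0 * (11 + 2 * B) < lam.re)
    (l0 : Tendsto (Bd w b P kap n lam S S1 D D1) (𝓝[>] 0) (𝓝 0))
    (li : Tendsto (Bd w b P kap n lam S S1 D D1) atTop (𝓝 0))
    (lh0 : Tendsto (fun r => r ^ 10 * g r * ‖S r‖ ^ 2) (𝓝[>] 0) (𝓝 0))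
    (lhi : Tendsto (fun r => r ^ 10 * g r * ‖S r‖ ^ 2) atTop (𝓝 0)) :
    ∀ r, 0 < r → S r = 0 ∧ D r = 0 := by
  have hwpos : ∀ r, 0 < r → 0 < w r := fun r hr =>
    lt_of_lt_of_le (mul_pos (by positivity) (mul_pos (by positivity) (hg0 r hr))) (hw1 r hr)
  have hH : ∀ r, ∃ H' : ℝ, 0 < r → HasDerivAt (fun r => r ^ 10 * g r * ‖S r‖ ^ 2) H' r ∧
      4 * (r ^ 9 * g r * ‖S r‖ ^ 2) - (1 / 4) * (r ^ 11 * g r * ‖S1 r‖ ^ 2) ≤ H' := by
    intro r
    by_cases hr : 0 < r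
    · obtain ⟨H', h1, h2⟩ := hardy_pt hr (hg0 r hr) (hg r hr) (hg1 r hr) (hsys r hr).hS
      exact ⟨H', fun _ => ⟨h1, h2⟩⟩
    · exact ⟨0, fun h => absurd h hr⟩
  choose H' hH' using hH
  set c : ℝ := dl * A ^ 2 / 8 with hc
  have hc0 : 0 ≤ c := by positivity
  set C0 : ℝ := 4 + B0 * (11 + 2 * B) with hC0
  set Φ : ℝ → ℝ := fun r => Bd w b P kap n lam S S1 D D1 r + c * (r ^ 10 * g r * ‖S r‖ ^ 2) with hΦ
  set Φ' : ℝ → ℝ := fun r => (lam.re * en w P kap n S S1 D D1 r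
        - ((3 - eps - ((6 - 2 * eps) - b r * (11 / r + 2 * rho r))) * (w r * (‖S1 r‖ ^ 2 + ‖D1 r‖ ^ 2))
          + (3 - eps - b r / r) * (kap * (w r / r ^ 2) * (‖S r‖ ^ 2 + ‖D r‖ ^ 2))
          + (3 - eps) * (n * (w r * P r) * ‖S r‖ ^ 2)
          + n / 2 * (P1 r * b r * w r) * ‖S r‖ ^ 2)) + c * H' r with hΦ'
  have hd : ∀ r, 0 < r → HasDerivAt Φ (Φ' r) r := by
    intro r hr
    exact ((hsys r hr).energyH (hP r hr)).add ((hH' r hr).1.const_mul c)
  have hen : ∀ r, 0 < r → 0 ≤ en w P kap n S S1 D D1 r := by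
    intro r hr
    unfold en
    have := hwpos r hr
    have := hP0 r hr
    positivity
  have hkey : ∀ r, 0 < r → (lam.re - C0) * en w P kap n S S1 D D1 r ≤ Φ' r := by
    intro r hr
    have hw := hwpos r hr
    have hPr := hP0 r hr
    have hb0r := hb0 r hr
    have hb1r := hb1 r hr
    have hrh := hrho r hr
    have hpb := hPb r hr
    have hg0r := hg0 r hr
    set X : ℝ := w r * (‖S1 r‖ ^ 2 + ‖D1 r‖ ^ 2) with hX
    set Y : ℝ := kap * (w r / r ^ 2) * (‖S r‖ ^ 2 + ‖D r‖ ^ 2) with hY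
    set Z : ℝ := n * (w r * P r) * ‖S r‖ ^ 2 with hZ
    have hX0 : 0 ≤ X := by positivity
    have hY0 : 0 ≤ Y := by positivity
    have hZ0 : 0 ≤ Z := by positivity
    -- coefficient of X
    have hx : (3 - eps - ((6 - 2 * eps) - b r * (11 / r + 2 * rho r))) * X ≤
        (B0 * (11 + 2 * B)) * X := by
      apply mul_le_mul_of_nonneg_right _ hX0
      have e1 : b r * (11 / r + 2 * rho r) = (b r / r) * (11 + 2 * (r * rho r)) := by
        field_simp
      have e2 : 0 ≤ b r / r := div_nonneg hb0r hr.le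
      have e3 : b r / r ≤ B0 := by rw [div_le_iff₀ hr]; exact hb1r
      have e4 : (b r / r) * (11 + 2 * (r * rho r)) ≤ B0 * (11 + 2 * B) := by
        calc (b r / r) * (11 + 2 * (r * rho r)) ≤ (b r / r) * (11 + 2 * B) :=
              mul_le_mul_of_nonneg_left (by linarith) e2
          _ ≤ _ := mul_le_mul_of_nonneg_right e3 (by linarith)
      rw [e1]
      linarith
    have hy : (3 - eps - b r / r) * Y ≤ 3 * Y := by
      apply mul_le_mul_of_nonneg_right _ hY0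
      have e2 : 0 ≤ b r / r := div_nonneg hb0r hr.le
      linarith
    have hz : (3 - eps) * Z ≤ 3 * Z := mul_le_mul_of_nonneg_right (by linarith) hZ0
    -- pressure term
    have hsq : 0 ≤ w r * ‖S r‖ ^ 2 := by positivity
    have hp1 : n / 2 * (P1 r * b r * w r) * ‖S r‖ ^ 2 ≤ 1 / 2 * Z
        + dl / 2 * (w r / r ^ 2 * ‖S r‖ ^ 2) := by
      have := mul_le_mul_of_nonneg_right hpb hsq
      have e1 : n / 2 * (P1 r * b r * w r) * ‖S r‖ ^ 2
          = 1 / 2 * (n * (P1 r * b r) * (w r * ‖S r‖ ^ 2)) := by ring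
      have e2 : 1 / 2 * Z + dl / 2 * (w r / r ^ 2 * ‖S r‖ ^ 2)
          = 1 / 2 * ((n * P r + dl / r ^ 2) * (w r * ‖S r‖ ^ 2)) := by rw [hZ]; ring
      rw [e1, e2]
      linarith
    have hp2 : w r / r ^ 2 * ‖S r‖ ^ 2 ≤ A ^ 2 * (r ^ 9 * g r * ‖S r‖ ^ 2) := by
      have := mul_le_mul_of_nonneg_right (hw2 r hr) (show 0 ≤ (r ^ 2)⁻¹ * ‖S r‖ ^ 2 by positivity)
      calc w r / r ^ 2 * ‖S r‖ ^ 2 = w r * ((r ^ 2)⁻¹ * ‖S r‖ ^ 2) := by rw [div_eq_mul_inv]; ring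
        _ ≤ _ := this
        _ = _ := by field_simp
    have hh := (hH' r hr).2
    have hp3 : (r ^ 11 * g r * ‖S1 r‖ ^ 2) ≤ A ^ 2 * X := by
      have e1 := hw1 r hr
      have e2 : r ^ 11 * g r ≤ A ^ 2 * w r := by
        have := mul_le_mul_of_nonneg_left e1 (show 0 ≤ A ^ 2 by positivity)
        rwa [← mul_assoc, mul_inv_cancel₀ (by positivity), one_mul] at this
      calc r ^ 11 * g r * ‖S1 r‖ ^ 2 ≤ A ^ 2 * w r * ‖S1 r‖ ^ 2 :=
            mul_le_mul_of_nonneg_right e2 (by positivity)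
        _ ≤ A ^ 2 * w r * (‖S1 r‖ ^ 2 + ‖D1 r‖ ^ 2) := by
            apply mul_le_mul_of_nonneg_left _ (by positivity)
            have : 0 ≤ ‖D1 r‖ ^ 2 := by positivity
            linarith
        _ = _ := by rw [hX]; ring
    have hp4 : dl / 2 * (w r / r ^ 2 * ‖S r‖ ^ 2) ≤ c * H' r + X := by
      have s1 : dl / 2 * (w r / r ^ 2 * ‖S r‖ ^ 2) ≤ dl / 2 * (A ^ 2 * (r ^ 9 * g r * ‖S r‖ ^ 2)) :=
        mul_le_mul_of_nonneg_left hp2 (by positivity)
      have s2 : c * (4 * (r ^ 9 * g r * ‖S r‖ ^ 2) - (1 / 4) * (r ^ 11 * g r * ‖S1 r‖ ^ 2)) ≤ c * H' r :=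
        mul_le_mul_of_nonneg_left hh hc0
      have s3 : c * ((1 / 4) * (r ^ 11 * g r * ‖S1 r‖ ^ 2)) ≤ X := by
        have t1 : c * ((1 / 4) * (r ^ 11 * g r * ‖S1 r‖ ^ 2)) ≤ c * ((1 / 4) * (A ^ 2 * X)) :=
          mul_le_mul_of_nonneg_left (by linarith) hc0
        have t2 : c * ((1 / 4) * (A ^ 2 * X)) = (dl * A ^ 4) / 32 * X := by rw [hc]; ring
        rw [t2] at t1
        have t3 : (dl * A ^ 4) / 32 * X ≤ 1 * X := mul_le_mul_of_nonneg_right (by linarith) hX0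
        linarith
      have s4 : dl / 2 * (A ^ 2 * (r ^ 9 * g r * ‖S r‖ ^ 2)) = c * (4 * (r ^ 9 * g r * ‖S r‖ ^ 2)) := by
        rw [hc]; ring
      rw [s4] at s1
      linarith [s1, s2, s3, mul_sub c (4 * (r ^ 9 * g r * ‖S r‖ ^ 2)) ((1 / 4) * (r ^ 11 * g r * ‖S1 r‖ ^ 2))]
    have hE : en w P kap n S S1 D D1 r = X + Y + Z := rfl
    simp only [hΦ', hE]
    have hBB : 0 ≤ B0 * (11 + 2 * B) := by positivity
    have q1 : (lam.re - C0) * (X + Y + Z) = lam.re * (X + Y + Z) - C0 * X - C0 * Y - C0 * Z := by ring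
    rw [q1]
    have q2 : C0 * X = 4 * X + B0 * (11 + 2 * B) * X := by rw [hC0]; ring
    have q3 : 4 * Y ≤ C0 * Y := mul_le_mul_of_nonneg_right (by rw [hC0]; linarith) hY0
    have q4 : 4 * Z ≤ C0 * Z := mul_le_mul_of_nonneg_right (by rw [hC0]; linarith) hZ0
    linarith
  have hlc : 0 < lam.re - C0 := by linarith
  have hn' : ∀ r, 0 < r → 0 ≤ Φ' r := fun r hr =>
    le_trans (mul_nonneg hlc.le (hen r hr)) (hkey r hr)
  have hL0 : Tendsto Φ (𝓝[>] 0) (𝓝 0) := by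
    simpa using l0.add (lh0.const_mul c)
  have hLi : Tendsto Φ atTop (𝓝 0) := by
    simpa using li.add (lhi.const_mul c)
  have hzero := zero_of_mono hd hn' hL0 hLi
  have hen0 : ∀ r, 0 < r → en w P kap n S S1 D D1 r = 0 := by
    intro r hr
    have h1 := hkey r hr
    rw [(hzero r hr).2] at h1
    have h2 := hen r hr
    by_contra hne
    have : 0 < en w P kap n S S1 D D1 r := lt_of_le_of_ne h2 (Ne.symm hne)
    have := mul_pos hlc this
    linarith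
  have hS0 : ∀ r, 0 < r → S r = 0 ∧ S1 r = 0 ∧ D1 r = 0 := by
    intro r hr
    have h := hen0 r hr
    have hw := hwpos r hr
    have hPr := hP0 r hr
    unfold en at h
    have p1 : 0 ≤ w r * (‖S1 r‖ ^ 2 + ‖D1 r‖ ^ 2) := by positivity
    have p2 : 0 ≤ kap * (w r / r ^ 2) * (‖S r‖ ^ 2 + ‖D r‖ ^ 2) := by positivity
    have p3 : 0 ≤ n * (w r * P r) * ‖S r‖ ^ 2 := by positivity
    have z1 : w r * (‖S1 r‖ ^ 2 + ‖D1 r‖ ^ 2) = 0 := by linarith
    have z3 : n * (w r * P r) * ‖S r‖ ^ 2 = 0 := by linarith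
    have z1' : ‖S1 r‖ ^ 2 + ‖D1 r‖ ^ 2 = 0 := by
      rcases mul_eq_zero.1 z1 with h | h
      · exact absurd h hw.ne'
      · exact h
    have z3' : ‖S r‖ ^ 2 = 0 := by
      rcases mul_eq_zero.1 z3 with h | h
      · exact absurd h (by positivity)
      · exact h
    have y1 : 0 ≤ ‖S1 r‖ ^ 2 := by positivity
    have y2 : 0 ≤ ‖D1 r‖ ^ 2 := by positivity
    refine ⟨?_, ?_, ?_⟩
    · simpa using z3'
    · have : ‖S1 r‖ ^ 2 = 0 := by linarith
      simpa using this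
    · have : ‖D1 r‖ ^ 2 = 0 := by linarith
      simpa using this
  intro r hr
  refine ⟨(hS0 r hr).1, ?_⟩
  have h1 := (hsys r hr).hS1
  have e : (fun r => (w r : ℂ) * S1 r) =ᶠ[𝓝 r] fun _ => 0 := by
    filter_upwards [Ioi_mem_nhds hr] with x hx
    rw [(hS0 x hx).2.1, mul_zero]
  have h2 := (hasDerivAt_const r (0 : ℂ)).congr_of_eventuallyEq e
  have h3 := h1.unique h2
  rw [(hS0 r hr).1, (hS0 r hr).2.2] at h3
  have hw : (w r : ℂ) ≠ 0 := by exact_mod_cast (hwpos r hr).ne'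
  have hl : lam ≠ 0 := by
    rintro rfl
    simp only [Complex.zero_re] at hlam
    have : 0 ≤ B0 * (11 + 2 * B) := by positivity
    linarith
  have h4 : (w r : ℂ) * (I * lam * D r) = 0 := by
    linear_combination -h3
  have h5 := (mul_eq_zero.1 h4).resolve_left hw
  exact (mul_eq_zero.1 h5).resolve_left (mul_ne_zero Complex.I_ne_zero hl)

end Crest.Agent.R086.CH
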