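import Crest.Agent.R086.CTopDefs
import Crest.Agent.R086.CLift
import Crest.Agent.R086.CH2

/-!
Row 86 (S0114), Part C, node R0Stmt (helper91, second seat of helper362): the radial equation of the
profile and the exact system of an eigenpair.
-/

set_option autoImplicit false

open MeasureTheory Complex Set Filter Topology ComplexConjugate
open scoped ContDiff

namespace Crest.Agent.R086.R0

open CCore SH CLift

variable {n : ℕ} (P : Profile n)

/-- a point of the sphere -/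
noncomputable def w0 : S11 := ⟨ei 0, by rw [mem_sphere_zero_iff_norm]; exact norm_ei 0⟩

theorem Q_modeFn : P.Q = modeFn (fun _ => 1) P.q := by
  funext y
  rw [Q_eq]
  unfold modeFn
  simp

theorem q_diff (r : ℝ) : HasDerivAt P.q (deriv P.q r) r :=
  ((q_contDiff P).differentiable (by norm_num) r).hasDerivAt

theorem dq_contDiff : ContDiff ℝ ∞ (deriv P.q) := by
  have h := q_contDiff P
  exact (contDiff_infty_iff_deriv.1 h).2

theorem dq_diff (r : ℝ) : HasDerivAt (deriv P.q) (deriv (deriv P.q) r) r :=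
  ((dq_contDiff P).differentiable (by norm_num) r).hasDerivAt

/-- radial ODE of the profile -/
theorem ode_q {r : ℝ} (hr : 0 < r) :
    rlap 0 P.q r + (I / 2) * ((r : ℂ) * deriv P.q r) + ((P.om : ℂ) + I / n) * P.q r
      = ((‖P.q r‖ ^ n : ℝ) : ℂ) * P.q r := by
  have h := P.eqn (r • (w0 : R12))
  have h2 : ContDiff ℝ 2 (modeFn (fun _ => 1) P.q) := by
    rw [← Q_modeFn]
    exact P.smooth.of_le (WithTop.coe_le_coe.2 le_top)
  have e1 : lap P.Q (r • (w0 : R12)) = rlap 0 P.q r := by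
    rw [Q_modeFn, lap_modeFn (SHarm.const 1) h2 hr w0]
    simp
  have e2 : eul P.Q (r • (w0 : R12)) = (r : ℂ) * deriv P.q r := eul_Q_smul P hr w0
  rw [e1, e2, Q_smul P hr.le] at h
  exact h

theorem hasDerivAt_dq {r : ℝ} (hr : 0 < r) :
    HasDerivAt (deriv P.q) (-((11 : ℂ) / r + I * r / 2) * deriv P.q r
      - (((P.om : ℝ) : ℂ) + I * ((1 / n : ℝ) : ℂ)) * P.q r + ((‖P.q r‖ ^ n : ℝ) : ℂ) * P.q r) r := by
  refine (dq_diff P r).congr_deriv ?_
  have h := ode_q P hr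
  unfold rlap at h
  push_cast at h ⊢
  linear_combination h

theorem V2_eq {r : ℝ} (h0 : P.q r ≠ 0) :
    P.rV2 r = (n : ℂ) / 2 * ((‖P.q r‖ ^ n : ℝ) : ℂ) * (P.q r / conj (P.q r)) := by
  unfold Profile.rV2
  obtain ⟨m, hm⟩ : ∃ m, n = m + 2 := ⟨n - 2, by have := P.two_le; omega⟩
  have hc : conj (P.q r) ≠ 0 := by simpa using h0
  have hsq : ((‖P.q r‖ ^ 2 : ℝ) : ℂ) = P.q r * conj (P.q r) := by
    rw [Complex.mul_conj, Complex.normSq_eq_norm_sq]
  have e : ((‖P.q r‖ ^ n : ℝ) : ℂ) = ((‖P.q r‖ ^ (n - 2) : ℝ) : ℂ) * (P.q r * conj (P.q r)) := by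
    rw [← hsq, ← Complex.ofReal_mul, ← pow_add]
    congr 3
    have := P.two_le
    omega
  rw [e]
  field_simp

theorem V2c_eq {r : ℝ} (h0 : P.q r ≠ 0) :
    P.rV2c r = (n : ℂ) / 2 * ((‖P.q r‖ ^ n : ℝ) : ℂ) * (conj (P.q r) / P.q r) := by
  unfold Profile.rV2c
  have hsq : ((‖P.q r‖ ^ 2 : ℝ) : ℂ) = P.q r * conj (P.q r) := by
    rw [Complex.mul_conj, Complex.normSq_eq_norm_sq]
  have e : ((‖P.q r‖ ^ n : ℝ) : ℂ) = ((‖P.q r‖ ^ (n - 2) : ℝ) : ℂ) * (P.q r * conj (P.q r)) := by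
    rw [← hsq, ← Complex.ofReal_mul, ← pow_add]
    congr 3
    have := P.two_le
    omega
  rw [e]
  field_simp

/-- `|q|^n` -/
noncomputable def Pw (r : ℝ) : ℝ := ‖P.q r‖ ^ n

section
variable (F G : ℝ → ℂ)
/-- `S = (F/q + G/conj q)/2` -/
noncomputable def S (r : ℝ) : ℂ := (F r / P.q r + G r / conj (P.q r)) / 2
noncomputable def S1 (r : ℝ) : ℂ :=
  (quo1 P.q (deriv P.q) F (deriv F) r + quo1c P.q (deriv P.q) G (deriv G) r) / 2
noncomputable def D (r : ℝ) : ℂ := (F r / P.q r - G r / conj (P.q r)) / 2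
noncomputable def D1 (r : ℝ) : ℂ :=
  (quo1 P.q (deriv P.q) F (deriv F) r - quo1c P.q (deriv P.q) G (deriv G) r) / 2
end

/-- the exact system of an eigenpair -/
theorem sys {lam : ℂ} {l : ℕ} {F G : ℝ → ℂ} (hF : ContDiff ℝ 2 F) (hG : ContDiff ℝ 2 G)
    {r : ℝ} (hr : 0 < r) (h0 : P.q r ≠ 0)
    (eq1 : P.rgen1 l F G r = lam * F r) (eq2 : P.rgen2 l F G r = lam * G r) :
    Sys (w P.q) (b P.q (deriv P.q)) (Pw P) (rho P.q (deriv P.q)) ((l : ℝ) * (l + 10)) n (1 / n) lam
      (S P F G) (S1 P F G) (D P F G) (D1 P F G) 0 0 r := by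
  have hd : ∀ {K : ℝ → ℂ}, ContDiff ℝ 2 K → HasDerivAt K (deriv K r) r ∧
      HasDerivAt (deriv K) (deriv (deriv K) r) r := by
    intro K hK
    have h1 : ContDiff ℝ (1 + 1) K := by norm_num; exact hK
    have h2 := (contDiff_succ_iff_deriv.1 h1)
    exact ⟨(h2.1 r).hasDerivAt, ((h2.2.2.differentiable (by norm_num)) r).hasDerivAt⟩
  have h := sys_of_eqs (Q := P.q) (Q1 := deriv P.q) (F := F) (F1 := deriv F) (G := G)
    (G1 := deriv G) (F2 := deriv (deriv F) r) (G2 := deriv (deriv G) r) (a := 0) (c := 0)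
    (lam := lam) (P := Pw P) (kap := (l : ℝ) * (l + 10)) (n := n) (om := P.om) (eps := 1 / n)
    (r := r) hr.ne' h0 (q_diff P r) (hasDerivAt_dq P hr) (hd hF).1 (hd hF).2 (hd hG).1 (hd hG).2
    (by
      have e := eq1
      unfold Profile.rgen1 rlap at e
      rw [V2_eq P h0] at e
      unfold Profile.rV1 at e
      unfold Pw
      push_cast at e ⊢
      linear_combination e)
    (by
      have e := eq2
      unfold Profile.rgen2 rlap at e
      rw [V2c_eq P h0] at e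
      unfold Profile.rV1 at e
      unfold Pw
      push_cast at e ⊢
      linear_combination e)
  simp only [zero_div, add_zero, sub_zero] at h
  exact h

end Crest.Agent.R086.R0
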