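import Crest.Agent.R086.CH4
import Crest.Agent.R086.ModeDer
import Crest.Agent.R086.R0a

/-!
Row 86 (S0114), Part C, node R0Stmt (helper362): final assembly.
-/

set_option autoImplicit false

open MeasureTheory Complex Set Filter Topology ComplexConjugate
open scoped ContDiff

namespace Crest.Agent.R086.CH

open CCore

/-- `n² K exp(-c n) → 0` -/
theorem exp_small {c K : ℝ} (hc : 0 < c) :
    ∀ᶠ n : ℕ in atTop, (n : ℝ) ^ 2 * K * Real.exp (-c * n) ≤ 1 := by
  have h1 := Real.tendsto_pow_mul_exp_neg_atTop_nhds_zero 2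
  have h2 : Tendsto (fun n : ℕ => c * (n : ℝ)) atTop atTop :=
    tendsto_natCast_atTop_atTop.const_mul_atTop hc
  have h3 := (h1.comp h2).const_mul (K / c ^ 2)
  rw [mul_zero] at h3
  filter_upwards [h3.eventually (gt_mem_nhds (zero_lt_one))] with n hn
  simp only [Function.comp] at hn
  have e : K / c ^ 2 * ((c * (n : ℝ)) ^ 2 * Real.exp (-(c * n))) = (n : ℝ) ^ 2 * K * Real.exp (-c * n) := by
    have : -(c * (n : ℝ)) = -c * n := by ring
    rw [this]
    field_simp
  rw [e] at hn
  exact hn.le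

theorem prof_of_bdata {om0 R : ℝ} {U : ℝ → ℂ} (L : LimitProfile om0 R U) (B : BData om0 R U) :
    ∃ A C R1 e1 : ℝ, 0 < A ∧ 0 ≤ C ∧ ∀ᶠ j in atTop, ∃ dl1 : ℝ,
      Prof (B.nn j) (B.P j).q (deriv (B.P j).q) (B.P j).om A C R1 e1 dl1 := by
  obtain ⟨A, hA, hdec⟩ := B.decay2
  obtain ⟨C0, hder⟩ := B.q_der
  obtain ⟨del0, hdel, hlog⟩ := B.logder
  have hR : 0 < R := by have := L.R_lo; linarith
  have hR1 : 0 < R + del0 := by linarith
  obtain ⟨c, hc, htail⟩ := B.pow_tail (R + del0) (by linarith)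
  set C : ℝ := max C0 0 with hCdef
  have hC : 0 ≤ C := le_max_right _ _
  have he1 : 0 < 1 / (A ^ 4 * (R + del0)) := by positivity
  refine ⟨A, C, R + del0, 1 / (A ^ 4 * (R + del0)), hA, hC, ?_⟩
  have hexp := B.nn_tendsto.eventually (exp_small (c := c) (K := C * A ^ 8) hc)
  filter_upwards [hdec, hder, hlog _ he1, htail, hexp] with j h1 h2 h3 h4 h5
  refine ⟨Real.exp (-c * B.nn j), ?_⟩
  exact
    { two_le := (B.P j).two_le
      hA := hA
      hC := hC
      hR1 := hR1
      he1 := he1.le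
      hdl := (Real.exp_pos _).le
      ne := fun r _ => B.q_ne j r
      dq := fun r _ => R0.q_diff (B.P j) r
      dq1 := fun r hr => R0.hasDerivAt_dq (B.P j) hr
      lo := fun r hr => by
        have := (h1 r hr.le).1
        rwa [one_div] at this
      hi := fun r hr => (h1 r hr.le).2
      der := fun r hr => by
        refine ((h2 r hr.le).1).trans ?_
        apply mul_le_mul_of_nonneg_right _ (norm_nonneg _)
        exact mul_le_mul_of_nonneg_right (le_max_left _ _) (by positivity)
      core := fun r hr hr1 => h3 r ⟨hr.le, hr1⟩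
      far := fun r hr => h4 r hr
      small1 := by
        have : 1 / (A ^ 4 * (R + del0)) * A ^ 4 * (R + del0) = 1 := by field_simp
        rw [this]
      small2 := by
        calc (B.nn j : ℝ) ^ 2 * C * A ^ 8 * Real.exp (-c * B.nn j)
            = (B.nn j : ℝ) ^ 2 * (C * A ^ 8) * Real.exp (-c * B.nn j) := by ring
          _ ≤ 1 := h5 }

/-- eigenpairs with large real part vanish. -/
theorem eig_zero {n : ℕ} {P : Profile n} {A C R1 e1 dl1 : ℝ}
    (h : Prof n P.q (deriv P.q) P.om A C R1 e1 dl1) {lam : ℂ} {l : ℕ} {H : R12 → ℝ} {F G : ℝ → ℂ}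
    (he : P.Eig lam l H F G) (hlam : 4 + A ^ 4 * (11 + 2 * C) < lam.re) :
    ∀ r : ℝ, 0 < r → F r = 0 ∧ G r = 0 := by
  have hm := he.mode
  have bF := ModeDer.bound hm.norm hm.xF
  have bG := ModeDer.bound hm.norm hm.xG
  have hsel : ∀ j : ℕ, ∃ C : ℝ, 0 ≤ C ∧ (j ≤ 20 → ∀ r : ℝ, 0 < r → ‖iteratedDeriv j F r‖ ≤ C ∧
      ‖iteratedDeriv j G r‖ ≤ C) := by
    intro j
    by_cases hj : j ≤ 20
    · obtain ⟨c1, h1⟩ := bF j hj
      obtain ⟨c2, h2⟩ := bG j hj
      refine ⟨|c1| + |c2|, by positivity, fun _ r hr => ⟨?_, ?_⟩⟩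
      · have := h1 r hr
        have := le_abs_self c1
        have := abs_nonneg c2
        linarith
      · have := h2 r hr
        have := le_abs_self c2
        have := abs_nonneg c1
        linarith
    · exact ⟨0, le_refl _, fun h => absurd h hj⟩
  choose cc hcc0 hcc using hsel
  set M : ℝ := ∑ j ∈ Finset.range 21, cc j with hM
  have hM0 : 0 ≤ M := Finset.sum_nonneg (fun j _ => hcc0 j)
  have hle : ∀ j, j ≤ 20 → cc j ≤ M := by
    intro j hj
    exact Finset.single_le_sum (f := cc) (fun i _ => hcc0 i) (Finset.mem_range.2 (by omega))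
  have hder : ∀ {K : ℝ → ℂ}, ContDiff ℝ N0 K → ∀ j, j < 20 → ∀ s : ℝ,
      HasDerivAt (iteratedDeriv j K) (iteratedDeriv (j + 1) K s) s := by
    intro K hK j hj s
    have hlt : (j : ℕ∞ω) < (N0 : ℕ∞ω) := by exact_mod_cast hj
    have h1 := hK.differentiable_iteratedDeriv j hlt
    rw [iteratedDeriv_succ]
    exact (h1 s).hasDerivAt
  have eF1 : ∀ r, iteratedDeriv 1 F r = deriv F r := fun r => by rw [iteratedDeriv_one]
  have eF2 : ∀ r, iteratedDeriv 2 F r = deriv (deriv F) r := fun r => by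
    rw [iteratedDeriv_succ, iteratedDeriv_one]
  have eG1 : ∀ r, iteratedDeriv 1 G r = deriv G r := fun r => by rw [iteratedDeriv_one]
  have eG2 : ∀ r, iteratedDeriv 2 G r = deriv (deriv G) r := fun r => by
    rw [iteratedDeriv_succ, iteratedDeriv_one]
  have hk : 0 ≤ (l : ℝ) * (l + 10) := by positivity
  have := R0_core h (lam := lam) (kap := (l : ℝ) * (l + 10)) hk
    (F := fun j => iteratedDeriv j F) (G := fun j => iteratedDeriv j G) (M := M) hM0
    (fun j hj s _ => hder hm.cF j hj s) (fun j hj s _ => hder hm.cG j hj s)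
    (fun j hj s hs => ((hcc j hj s hs).1).trans (hle j hj))
    (fun j hj s hs => ((hcc j hj s hs).2).trans (hle j hj))
    (by
      intro r hr
      simp only [eF1, eF2, iteratedDeriv_zero]
      have e := he.eq1 r hr
      unfold Profile.rgen1 rlap at e
      rw [R0.V2_eq P (h.ne r hr)] at e
      unfold Profile.rV1 at e
      push_cast at e ⊢
      linear_combination e)
    (by
      intro r hr
      simp only [eG1, eG2, iteratedDeriv_zero]
      have e := he.eq2 r hr
      unfold Profile.rgen2 rlap at e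
      rw [R0.V2c_eq P (h.ne r hr)] at e
      unfold Profile.rV1 at e
      push_cast at e ⊢
      linear_combination e)
    hlam
  intro r hr
  simpa only [iteratedDeriv_zero] using this r hr

/-- **R0** -/
theorem r0Stmt : R0Stmt := by
  intro om0 R U L B
  obtain ⟨A, C, R1, e1, hA, hC, hev⟩ := prof_of_bdata L B
  refine ⟨4 + A ^ 4 * (11 + 2 * C), ?_⟩
  filter_upwards [hev] with j hj
  obtain ⟨dl1, hprof⟩ := hj
  intro lam l H F G he _ hnz
  by_contra hcon
  push Not at hcon
  obtain ⟨r, hr, hne⟩ := hnz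
  have hz := eig_zero hprof he hcon r hr
  rcases hne with h1 | h1
  · exact h1 hz.1
  · exact h1 hz.2

end Crest.Agent.R086.CH
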