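import Crest.Agent.R086.DLIface
import Crest.Agent.R086.BCIface

/-!
Row 86, Part C3 (helper360): frozen statements around REG.

* `SmoStmt`  : what REG needs from 470's RES + SMO (resolvent in the Wiener algebra).
* `RegStmt B`: the regularity/locality estimate, consumed by 426 (C4), 684 (EXT), 851 (R2b), 777.
-/

set_option autoImplicit false

open MeasureTheory Complex Set Filter Topology
open scoped ContDiff SchwartzMap

namespace Crest.Agent.R086.CReg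

open Crest.Agent.R086

/-- weighted `L¹` norm of a density (same integral as in `XBd`) -/
noncomputable def xn (N : ℕ) (a : R12 → ℂ) : ℝ := ∫ ξ : R12, (1 + ‖ξ‖) ^ N * ‖a ξ‖

/-- Resolvent bound + smoothing, for a solution `f = ft a` of
`± i lap f - ½ eul f - mu f = -(w*c)^ - b^` (`sg = 1`: first component, `sg = -1`: second component). -/
def SmoStmt : Prop := ∀ sg : ℝ, (sg = 1 ∨ sg = -1) → ∀ mu : ℂ, 0 < mu.re →
  ∀ (f a c b : R12 → ℂ) (w : 𝓢(R12, ℂ)), Rep 2 a f → Integrable c →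
    Integrable (fun ξ : R12 => (((1 + ‖ξ‖) ^ 1 : ℝ) : ℂ) * b ξ) →
    (∀ y, (sg : ℂ) * I * lap f y - (1 / 2) * eul f y - mu * f y
      = -(ft (cv (w : R12 → ℂ) c) y + ft b y)) →
    xn 0 a ≤ (xn 0 (cv (w : R12 → ℂ) c) + xn 0 b) / mu.re ∧
    xn 1 a ≤ (2 / mu.re + 6 + ‖mu‖) * xn 0 (cv (w : R12 → ℂ) c)
      + (∫ ξ : R12, ‖fderiv ℝ (w : R12 → ℂ) ξ‖) * xn 0 c + xn 1 b / mu.re

/-- REG: for `R < r1`, eventually in `j`, for every `lam` with `Re lam ≥ 0` and every solution of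
`(L - lam)(f,g) = al (e1,e2)` with densities `a, b` (of `f, g`), `c1, c2` (of `e1, e2`). -/
def RegStmt {om0 R : ℝ} {U : ℝ → ℂ} (B : BData om0 R U) : Prop :=
  ∀ r1 : ℝ, R < r1 → ∃ K : ℕ, ∀ᶠ j in atTop, ∀ lam al : ℂ, 0 ≤ lam.re →
    ∀ f g e1 e2 a b c1 c2 : R12 → ℂ, Rep 2 a f → Rep 2 b g → Rep 1 c1 e1 → Rep 1 c2 e2 →
      (∀ y, (B.P j).gen1 f g y - lam * f y = al * e1 y) →
      (∀ y, (B.P j).gen2 f g y - lam * g y = al * e2 y) →
      xn 1 a + xn 1 b ≤ ((B.nn j : ℝ) * (1 + ‖lam‖)) ^ K *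
        ((∫ y in Metric.closedBall (0 : R12) r1, (‖f y‖ + ‖g y‖)) + ‖al‖ * (xn 1 c1 + xn 1 c2))

end Crest.Agent.R086.CReg
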