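import Crest.Agent.R086.Res1
import Crest.Agent.R086.DGen

/-! Row 86 (helper718): SMO.  Smoothing estimate for the resolvent density of a `C¹` density, and
convolution with a Schwartz density. -/

set_option autoImplicit false

open MeasureTheory Complex Set Filter
open scoped ContDiff Topology SchwartzMap

namespace Crest.Agent.R086.Res

open Crest.Agent.R086.Wie (WInt)

section joint

variable {E : Type*} [NormedAddCommGroup E] [NormedSpace ℝ E] {F : R12 → E} {β : ℝ}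

omit [NormedSpace ℝ E] in
theorem slice_norm (F : R12 → E) {s : ℝ} (hs : 0 < s) :
    ∫ ξ : R12, s ^ β * ‖F (s • ξ)‖ = s ^ (β - 12) * ∫ ξ : R12, ‖F ξ‖ := by
  have h := Measure.integral_comp_smul_of_nonneg (volume : Measure R12)
    (fun ξ => ‖F ξ‖) s (hR := hs.le)
  rw [finrank_R12] at h
  rw [integral_const_mul, h, smul_eq_mul, show (β - 12 : ℝ) = β - (12 : ℕ) by push_cast; ring,
    Real.rpow_sub_natCast hs.ne']
  ring

theorem aesm_pow (hF : AEStronglyMeasurable F volume) (β : ℝ) :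
    AEStronglyMeasurable (fun p : ℝ × R12 => p.1 ^ β • F (p.1 • p.2)) (rho1.prod volume) := by
  have h1 : AEStronglyMeasurable (fun p : ℝ × R12 => F (p.1 • p.2)) (rho1.prod volume) :=
    hF.comp_quasiMeasurePreserving qmp_smul
  have h2 : Measurable fun p : ℝ × R12 => p.1 ^ β := by fun_prop
  exact h2.aestronglyMeasurable.smul h1

theorem joint_pow (hF : Integrable F) (hβ : β < 11) :
    Integrable (fun p : ℝ × R12 => p.1 ^ β • F (p.1 • p.2)) (rho1.prod volume) := by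
  have hm := aesm_pow hF.1 β
  rw [integrable_prod_iff hm]
  constructor
  · refine (ae_restrict_iff' measurableSet_Ioi).2 (Eventually.of_forall fun s hs => ?_)
    have hs0 : (0 : ℝ) < s := lt_trans one_pos hs
    exact (Integrable.comp_smul (μ := (volume : Measure R12)) hF hs0.ne').smul (s ^ β)
  · have h1 : Integrable (fun s : ℝ => s ^ (β - 12) * ∫ ξ : R12, ‖F ξ‖) rho1 :=
      (integrableOn_Ioi_rpow_of_lt (by linarith) one_pos).mul_const _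
    refine h1.congr ((ae_restrict_iff' measurableSet_Ioi).2 (Eventually.of_forall fun s hs => ?_))
    have hs0 : (0 : ℝ) < s := lt_trans one_pos hs
    simp only
    rw [← slice_norm F hs0]
    refine integral_congr_ae (Eventually.of_forall fun ξ => ?_)
    simp only [norm_smul, Real.norm_of_nonneg (Real.rpow_nonneg hs0.le β)]

omit [NormedSpace ℝ E] in
theorem joint_int (hF : Integrable F) (hβ : β < 11) :
    ∫ ξ : R12, ∫ s in Ioi (1 : ℝ), s ^ β * ‖F (s • ξ)‖ = (∫ ξ : R12, ‖F ξ‖) / (11 - β) := by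
  have h1 : Integrable (fun p : ℝ × R12 => p.1 ^ β * ‖F (p.1 • p.2)‖) (rho1.prod volume) := by
    have := joint_pow hF.norm hβ
    simpa only [smul_eq_mul] using this
  have h2 := integral_integral_swap (μ := rho1) (ν := (volume : Measure R12))
    (f := fun s ξ => s ^ β * ‖F (s • ξ)‖) h1
  rw [← h2]
  have h3 : ∫ s in Ioi (1 : ℝ), ∫ ξ : R12, s ^ β * ‖F (s • ξ)‖
      = ∫ s in Ioi (1 : ℝ), s ^ (β - 12) * ∫ ξ : R12, ‖F ξ‖ := by
    refine setIntegral_congr_fun measurableSet_Ioi fun s hs => ?_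
    exact slice_norm F (lt_trans one_pos hs)
  rw [h3, integral_mul_const, integral_Ioi_rpow_of_lt (by linarith) one_pos, Real.one_rpow]
  have h4 : β - 12 + 1 = -(11 - β) := by ring
  have h5 : (11 - β) ≠ 0 := by linarith
  rw [h4]
  field_simp

theorem ae_integrableOn (hF : Integrable F) (hβ : β < 11) :
    ∀ᵐ ξ : R12, IntegrableOn (fun s : ℝ => s ^ β • F (s • ξ)) (Ioi 1) := by
  exact (joint_pow hF hβ).prod_left_ae

omit [NormedSpace ℝ E] in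
theorem integrable_inner (hF : Integrable F) (hβ : β < 11) :
    Integrable fun ξ : R12 => ∫ s in Ioi (1 : ℝ), s ^ β * ‖F (s • ξ)‖ := by
  have h1 : Integrable (fun p : ℝ × R12 => p.1 ^ β * ‖F (p.1 • p.2)‖) (rho1.prod volume) := by
    have := joint_pow hF.norm hβ
    simpa only [smul_eq_mul] using this
  exact h1.integral_prod_right

end joint

section parts

variable {sg : ℝ} {μ : ℂ} {b1 : R12 → ℂ} {b1' : R12 → R12 →L[ℝ] ℂ}

/-- the phase -/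
noncomputable def phs (sg : ℝ) (ξ : R12) (s : ℝ) : ℂ :=
  exp (-I * ((sg * ‖ξ‖ ^ 2 * (s ^ 2 - 1) : ℝ) : ℂ))

theorem norm_phs (sg : ℝ) (ξ : R12) (s : ℝ) : ‖phs sg ξ s‖ = 1 := by
  unfold phs
  rw [show -I * ((sg * ‖ξ‖ ^ 2 * (s ^ 2 - 1) : ℝ) : ℂ)
    = ((-(sg * ‖ξ‖ ^ 2 * (s ^ 2 - 1)) : ℝ) : ℂ) * I by push_cast; ring]
  exact norm_exp_ofReal_mul_I _

theorem hasDerivAt_phs (sg : ℝ) (ξ : R12) (s : ℝ) :
    HasDerivAt (phs sg ξ) (-I * ((sg * ‖ξ‖ ^ 2 * (2 * s) : ℝ) : ℂ) * phs sg ξ s) s := by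
  have h1 : HasDerivAt (fun s : ℝ => sg * ‖ξ‖ ^ 2 * (s ^ 2 - 1)) (sg * ‖ξ‖ ^ 2 * (2 * s)) s := by
    have := ((hasDerivAt_pow 2 s).sub_const 1).const_mul (sg * ‖ξ‖ ^ 2)
    simpa using this
  have h2 := (h1.ofReal_comp.const_mul (-I)).cexp
  refine h2.congr_deriv ?_
  unfold phs
  ring

theorem hasDerivAt_vv (hd : ∀ x, HasFDerivAt b1 (b1' x) x) (ξ : R12) {s : ℝ} (hs : 0 < s) :
    HasDerivAt (fun s : ℝ => (s : ℂ) ^ (10 - 2 * μ) * b1 (s • ξ))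
      ((10 - 2 * μ) * (s : ℂ) ^ (9 - 2 * μ) * b1 (s • ξ)
        + (s : ℂ) ^ (10 - 2 * μ) * b1' (s • ξ) ξ) s := by
  have hs' : (s : ℂ) ≠ 0 := by exact_mod_cast hs.ne'
  have h1 : HasDerivAt (fun s : ℝ => (s : ℂ) ^ (10 - 2 * μ))
      ((10 - 2 * μ) * (s : ℂ) ^ (9 - 2 * μ)) s := by
    have h := (hasDerivAt_id (s : ℂ)).cpow_const (c := 10 - 2 * μ)
      (by left; simpa using hs)
    have h' := h.comp_ofReal
    simp only [id, mul_one] at h'
    rw [show (9 - 2 * μ) = 10 - 2 * μ - 1 by ring]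
    exact h'
  have h2 : HasDerivAt (fun s : ℝ => b1 (s • ξ)) (b1' (s • ξ) ξ) s := by
    have h3 : HasDerivAt (fun s : ℝ => s • ξ) ξ s := by
      simpa using (hasDerivAt_id s).smul_const ξ
    exact (hd (s • ξ)).comp_hasDerivAt s h3
  exact h1.mul h2

theorem norm_cpow_ofReal {s : ℝ} (hs : 0 < s) (k : ℝ) :
    ‖(s : ℂ) ^ ((k : ℂ) - 2 * μ)‖ = s ^ (k - 2 * μ.re) := by
  rw [norm_cpow_eq_rpow_re_of_pos hs]
  simp

set_option maxHeartbeats 3200000 in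
theorem resDen_parts (hsg : sg = 1 ∨ sg = -1) (hd : ∀ x, HasFDerivAt b1 (b1' x) x)
    (hc : Continuous b1') {ξ : R12} (hξ : ξ ≠ 0)
    (i11 : IntegrableOn (fun s : ℝ => s ^ (11 - 2 * μ.re) • ‖b1 (s • ξ)‖) (Ioi 1))
    (i9 : IntegrableOn (fun s : ℝ => s ^ (9 - 2 * μ.re) • ‖b1 (s • ξ)‖) (Ioi 1))
    (i10 : IntegrableOn (fun s : ℝ => s ^ (10 - 2 * μ.re) • ‖b1' (s • ξ)‖) (Ioi 1)) :
    ‖ξ‖ ^ 2 * ‖resDen sg μ b1 ξ‖ ≤ ‖b1 ξ‖
      + ‖10 - 2 * μ‖ * (∫ s in Ioi (1 : ℝ), s ^ (9 - 2 * μ.re) * ‖b1 (s • ξ)‖)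
      + ‖ξ‖ * ∫ s in Ioi (1 : ℝ), s ^ (10 - 2 * μ.re) * ‖b1' (s • ξ)‖ := by
  have hb1c : Continuous b1 := continuous_iff_continuousAt.2 fun x => (hd x).continuousAt
  have hsg1 : |sg| = 1 := by rcases hsg with h | h <;> simp [h]
  have hsg0 : (sg : ℂ) ≠ 0 := by rcases hsg with h | h <;> simp [h]
  have hξ0 : ((‖ξ‖ : ℝ) : ℂ) ≠ 0 := by simpa using hξ
  set v : ℝ → ℂ := fun s => (s : ℂ) ^ (10 - 2 * μ) * b1 (s • ξ) with hv
  set v' : ℝ → ℂ := fun s => (10 - 2 * μ) * (s : ℂ) ^ (9 - 2 * μ) * b1 (s • ξ)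
        + (s : ℂ) ^ (10 - 2 * μ) * b1' (s • ξ) ξ with hv'
  have hvd : ∀ s : ℝ, 0 < s → HasDerivAt v (v' s) s := fun s hs => hasDerivAt_vv hd ξ hs
  -- measurability on (1,∞)
  have hcpow : ∀ c : ℂ, ContinuousOn (fun s : ℝ => (s : ℂ) ^ c) (Ioi 1) := by
    intro c s hs
    have hs0 : (0 : ℝ) < s := lt_trans one_pos hs
    have : ContinuousAt (fun s : ℝ => (s : ℂ) ^ c) s := by
      have h := continuousAt_cpow_const (a := (s : ℂ)) (b := c) (by left; simpa using hs0)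
      exact h.comp continuous_ofReal.continuousAt
    exact this.continuousWithinAt
  have hb1s : Continuous fun s : ℝ => b1 (s • ξ) := by fun_prop
  have hb1s' : Continuous fun s : ℝ => b1' (s • ξ) ξ := by fun_prop
  have hvc : ContinuousOn v (Ioi 1) := (hcpow _).mul hb1s.continuousOn
  have hv'c : ContinuousOn v' (Ioi 1) :=
    (((continuousOn_const.mul (hcpow _)).mul hb1s.continuousOn).add
      ((hcpow _).mul hb1s'.continuousOn))
  have hphc : Continuous (phs sg ξ) := by unfold phs; fun_prop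
  -- norms
  have hnv : ∀ s : ℝ, 1 < s → ‖v s‖ ≤ s ^ (11 - 2 * μ.re) * ‖b1 (s • ξ)‖ := by
    intro s hs
    have hs0 : (0 : ℝ) < s := lt_trans one_pos hs
    rw [hv]; simp only
    have h10 := norm_cpow_ofReal (μ := μ) hs0 10
    push_cast at h10
    rw [norm_mul, h10]
    refine mul_le_mul_of_nonneg_right ?_ (norm_nonneg _)
    exact Real.rpow_le_rpow_of_exponent_le hs.le (by linarith)
  have hnv' : ∀ s : ℝ, 1 < s → ‖v' s‖ ≤ ‖10 - 2 * μ‖ * (s ^ (9 - 2 * μ.re) * ‖b1 (s • ξ)‖)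
      + ‖ξ‖ * (s ^ (10 - 2 * μ.re) * ‖b1' (s • ξ)‖) := by
    intro s hs
    have hs0 : (0 : ℝ) < s := lt_trans one_pos hs
    rw [hv']; simp only
    have h10 := norm_cpow_ofReal (μ := μ) hs0 10
    have h9 := norm_cpow_ofReal (μ := μ) hs0 9
    push_cast at h10 h9
    refine (norm_add_le _ _).trans ?_
    rw [norm_mul, norm_mul, norm_mul, h9, h10]
    refine add_le_add (le_of_eq (by ring)) ?_
    have h := (b1' (s • ξ)).le_opNorm ξ
    have h0 : 0 ≤ s ^ (10 - 2 * μ.re) := Real.rpow_nonneg hs0.le _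
    calc s ^ (10 - 2 * μ.re) * ‖b1' (s • ξ) ξ‖
        ≤ s ^ (10 - 2 * μ.re) * (‖b1' (s • ξ)‖ * ‖ξ‖) := mul_le_mul_of_nonneg_left h h0
      _ = _ := by ring
  -- integrability
  have iv : IntegrableOn v (Ioi 1) := by
    refine i11.mono' (hvc.aestronglyMeasurable measurableSet_Ioi)
      ((ae_restrict_iff' measurableSet_Ioi).2 (Eventually.of_forall fun s hs => ?_))
    exact hnv s hs
  have iv' : IntegrableOn v' (Ioi 1) := by
    refine ((i9.const_mul ‖10 - 2 * μ‖).add (i10.const_mul ‖ξ‖)).mono'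
      (hv'c.aestronglyMeasurable measurableSet_Ioi)
      ((ae_restrict_iff' measurableSet_Ioi).2 (Eventually.of_forall fun s hs => ?_))
    exact hnv' s hs
  -- product with the phase
  set f : ℝ → ℂ := fun s => phs sg ξ s * v s with hf
  set f' : ℝ → ℂ := fun s => (-I * ((sg * ‖ξ‖ ^ 2 * (2 * s) : ℝ) : ℂ) * phs sg ξ s) * v s
    + phs sg ξ s * v' s with hf'
  have hfd : ∀ s : ℝ, 0 < s → HasDerivAt f (f' s) s := fun s hs =>
    (hasDerivAt_phs sg ξ s).mul (hvd s hs)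
  have iker : IntegrableOn (fun s : ℝ => kern sg μ s ξ * b1 (s • ξ)) (Ioi 1) := by
    have hm : AEStronglyMeasurable (fun s : ℝ => kern sg μ s ξ * b1 (s • ξ)) rho1 := by
      have hk : Measurable fun s : ℝ => kern sg μ s ξ :=
        (measurable_kern sg μ).comp (measurable_id.prodMk measurable_const)
      exact hk.aestronglyMeasurable.mul hb1s.aestronglyMeasurable
    refine (i11.const_mul 2).mono' hm
      ((ae_restrict_iff' measurableSet_Ioi).2 (Eventually.of_forall fun s hs => ?_))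
    have hs0 : (0 : ℝ) < s := lt_trans one_pos hs
    rw [norm_mul, norm_kern hs0]
    exact le_of_eq (by simp only [smul_eq_mul]; ring)
  have hrel : ∀ s : ℝ, 0 < s →
      (-I * ((sg * ‖ξ‖ ^ 2 * (2 * s) : ℝ) : ℂ) * phs sg ξ s) * v s
        = (-I * (sg : ℂ) * ((‖ξ‖ : ℝ) : ℂ) ^ 2) * (kern sg μ s ξ * b1 (s • ξ)) := by
    intro s hs
    have hs' : (s : ℂ) ≠ 0 := by exact_mod_cast hs.ne'
    have h1 : (s : ℂ) ^ (11 - 2 * μ) = (s : ℂ) ^ (10 - 2 * μ) * s := by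
      rw [show (11 - 2 * μ) = 10 - 2 * μ + 1 by ring, cpow_add _ _ hs', cpow_one]
    rw [hv]
    unfold kern phs
    simp only
    rw [h1]
    push_cast
    ring
  have if1 : IntegrableOn (fun s : ℝ =>
      (-I * ((sg * ‖ξ‖ ^ 2 * (2 * s) : ℝ) : ℂ) * phs sg ξ s) * v s) (Ioi 1) := by
    refine IntegrableOn.congr_fun (iker.const_mul (-I * (sg : ℂ) * ((‖ξ‖ : ℝ) : ℂ) ^ 2))
      (fun s hs => ?_) measurableSet_Ioi
    exact (hrel s (lt_trans one_pos hs)).symm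
  have if2 : IntegrableOn (fun s : ℝ => phs sg ξ s * v' s) (Ioi 1) := by
    refine iv'.norm.mono' (hphc.aestronglyMeasurable.mul
      (hv'c.aestronglyMeasurable measurableSet_Ioi)) (Eventually.of_forall fun s => ?_)
    rw [norm_mul, norm_phs, one_mul]
  have iff : IntegrableOn f (Ioi 1) := by
    refine iv.norm.mono' (hphc.aestronglyMeasurable.mul
      (hvc.aestronglyMeasurable measurableSet_Ioi)) (Eventually.of_forall fun s => ?_)
    rw [hf]; simp only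
    rw [norm_mul, norm_phs, one_mul]
  have if' : IntegrableOn f' (Ioi 1) := if1.add if2
  have hlim : Tendsto f atTop (𝓝 0) :=
    tendsto_zero_of_hasDerivAt_of_integrableOn_Ioi
      (fun s hs => hfd s (lt_trans one_pos hs)) if' iff
  have hint := integral_Ioi_of_hasDerivAt_of_tendsto (a := (1 : ℝ))
    (hfd 1 one_pos).continuousAt.continuousWithinAt
    (fun s hs => hfd s (lt_trans one_pos hs)) if' hlim
  have hf1 : f 1 = b1 ξ := by
    rw [hf, hv]; simp [phs]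
  have hsplit : ∫ s in Ioi (1 : ℝ), f' s
      = (-I * (sg : ℂ) * ((‖ξ‖ : ℝ) : ℂ) ^ 2) * resDen sg μ b1 ξ
        + ∫ s in Ioi (1 : ℝ), phs sg ξ s * v' s := by
    have e1 : ∫ s in Ioi (1 : ℝ), f' s
        = (∫ s in Ioi (1 : ℝ), (-I * ((sg * ‖ξ‖ ^ 2 * (2 * s) : ℝ) : ℂ) * phs sg ξ s) * v s)
          + ∫ s in Ioi (1 : ℝ), phs sg ξ s * v' s := integral_add if1 if2
    rw [e1]
    congr 1
    unfold resDen
    rw [← integral_const_mul]
    exact setIntegral_congr_fun measurableSet_Ioi fun s hs => hrel s (lt_trans one_pos hs)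
  rw [hint, hf1, zero_sub] at hsplit
  have hres : (-I * (sg : ℂ) * ((‖ξ‖ : ℝ) : ℂ) ^ 2) * resDen sg μ b1 ξ
      = -(b1 ξ) - ∫ s in Ioi (1 : ℝ), phs sg ξ s * v' s := by
    linear_combination -hsplit
  have hnl : ‖(-I * (sg : ℂ) * ((‖ξ‖ : ℝ) : ℂ) ^ 2) * resDen sg μ b1 ξ‖
      = ‖ξ‖ ^ 2 * ‖resDen sg μ b1 ξ‖ := by
    rw [norm_mul, norm_mul, norm_mul, norm_neg, norm_I, norm_real, Real.norm_eq_abs, hsg1,
      norm_pow, norm_real, norm_norm]
    ring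
  rw [← hnl, hres]
  have hi1 : ‖∫ s in Ioi (1 : ℝ), phs sg ξ s * v' s‖
      ≤ ∫ s in Ioi (1 : ℝ), (‖10 - 2 * μ‖ * (s ^ (9 - 2 * μ.re) * ‖b1 (s • ξ)‖)
      + ‖ξ‖ * (s ^ (10 - 2 * μ.re) * ‖b1' (s • ξ)‖)) := by
    refine norm_integral_le_of_norm_le ((i9.const_mul _).add (i10.const_mul _))
      ((ae_restrict_iff' measurableSet_Ioi).2 (Eventually.of_forall fun s hs => ?_))
    rw [norm_mul, norm_phs, one_mul]
    exact hnv' s hs
  have hi2 : ∫ s in Ioi (1 : ℝ), (‖10 - 2 * μ‖ * (s ^ (9 - 2 * μ.re) * ‖b1 (s • ξ)‖)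
      + ‖ξ‖ * (s ^ (10 - 2 * μ.re) * ‖b1' (s • ξ)‖))
      = ‖10 - 2 * μ‖ * (∫ s in Ioi (1 : ℝ), s ^ (9 - 2 * μ.re) * ‖b1 (s • ξ)‖)
      + ‖ξ‖ * ∫ s in Ioi (1 : ℝ), s ^ (10 - 2 * μ.re) * ‖b1' (s • ξ)‖ := by
    rw [← integral_const_mul, ← integral_const_mul]
    exact integral_add (i9.const_mul _) (i10.const_mul _)
  calc ‖-(b1 ξ) - ∫ s in Ioi (1 : ℝ), phs sg ξ s * v' s‖
      ≤ ‖-(b1 ξ)‖ + ‖∫ s in Ioi (1 : ℝ), phs sg ξ s * v' s‖ := norm_sub_le _ _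
    _ ≤ ‖b1 ξ‖ + (‖10 - 2 * μ‖ * (∫ s in Ioi (1 : ℝ), s ^ (9 - 2 * μ.re) * ‖b1 (s • ξ)‖)
      + ‖ξ‖ * ∫ s in Ioi (1 : ℝ), s ^ (10 - 2 * μ.re) * ‖b1' (s • ξ)‖) := by
        rw [norm_neg, ← hi2]
        exact add_le_add le_rfl hi1
    _ = _ := by ring

theorem smo_pt (hsg : sg = 1 ∨ sg = -1) (hμ : 0 < μ.re) (hd : ∀ x, HasFDerivAt b1 (b1' x) x)
    (hc : Continuous b1') (h0 : Integrable b1) (h1 : Integrable b1') :
    ∀ᵐ ξ : R12, (1 + ‖ξ‖) * ‖resDen sg μ b1 ξ‖ ≤ 2 * ‖resDen sg μ b1 ξ‖ + (‖b1 ξ‖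
      + ‖10 - 2 * μ‖ * (∫ s in Ioi (1 : ℝ), s ^ (9 - 2 * μ.re) * ‖b1 (s • ξ)‖)
      + ∫ s in Ioi (1 : ℝ), s ^ (10 - 2 * μ.re) * ‖b1' (s • ξ)‖) := by
  have i11 := ae_integrableOn h0.norm (show 11 - 2 * μ.re < 11 by linarith)
  have i9 := ae_integrableOn h0.norm (show 9 - 2 * μ.re < 11 by linarith)
  have i10 := ae_integrableOn h1.norm (show 10 - 2 * μ.re < 11 by linarith)
  filter_upwards [i11, i9, i10] with ξ h11 h9 h10
  have n9 : 0 ≤ ∫ s in Ioi (1 : ℝ), s ^ (9 - 2 * μ.re) * ‖b1 (s • ξ)‖ :=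
    setIntegral_nonneg measurableSet_Ioi fun s hs =>
      mul_nonneg (Real.rpow_nonneg (lt_trans one_pos hs).le _) (norm_nonneg _)
  have n10 : 0 ≤ ∫ s in Ioi (1 : ℝ), s ^ (10 - 2 * μ.re) * ‖b1' (s • ξ)‖ :=
    setIntegral_nonneg measurableSet_Ioi fun s hs =>
      mul_nonneg (Real.rpow_nonneg (lt_trans one_pos hs).le _) (norm_nonneg _)
  have nr := norm_nonneg (resDen sg μ b1 ξ)
  have nb := norm_nonneg (b1 ξ)
  have nm := norm_nonneg (10 - 2 * μ)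
  rcases le_or_gt ‖ξ‖ 1 with hx | hx
  · have : (1 + ‖ξ‖) * ‖resDen sg μ b1 ξ‖ ≤ 2 * ‖resDen sg μ b1 ξ‖ :=
      mul_le_mul_of_nonneg_right (by linarith) nr
    have := mul_nonneg nm n9
    linarith
  · have hx0 : ξ ≠ 0 := by
      intro h; rw [h, norm_zero] at hx; linarith
    have key := resDen_parts hsg hd hc hx0 h11 h9 h10
    set A := ∫ s in Ioi (1 : ℝ), s ^ (9 - 2 * μ.re) * ‖b1 (s • ξ)‖
    set B := ∫ s in Ioi (1 : ℝ), s ^ (10 - 2 * μ.re) * ‖b1' (s • ξ)‖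
    have hA := mul_nonneg nm n9
    have hk2 : ‖ξ‖ * (‖ξ‖ * ‖resDen sg μ b1 ξ‖)
        ≤ ‖ξ‖ * (‖b1 ξ‖ + ‖10 - 2 * μ‖ * A + B) := by
      have e1 : ‖b1 ξ‖ + ‖10 - 2 * μ‖ * A ≤ ‖ξ‖ * (‖b1 ξ‖ + ‖10 - 2 * μ‖ * A) :=
        le_mul_of_one_le_left (by positivity) hx.le
      nlinarith
    have hk3 := le_of_mul_le_mul_left hk2 (by linarith)
    linarith

/-- SMO: smoothing estimate (426/470's (A)). -/
theorem smo (hsg : sg = 1 ∨ sg = -1) (hμ : 0 < μ.re) (hd : ∀ x, HasFDerivAt b1 (b1' x) x)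
    (hc : Continuous b1') (h0 : Integrable b1) (h1 : Integrable b1') :
    WInt 1 (resDen sg μ b1) ∧
    xn 1 (resDen sg μ b1) ≤ (2 / μ.re + 6 + ‖μ‖) * xn 0 b1 + ∫ ξ, ‖b1' ξ‖ := by
  have hw0 : WInt 0 b1 := by
    unfold WInt
    refine h0.congr (Eventually.of_forall fun ξ => ?_)
    simp [Wie.wt]
  have hr0 : WInt 0 (resDen sg μ b1) := wint_resDen hμ hw0
  have hri : Integrable (resDen sg μ b1) := hr0.integrable
  have J9 := integrable_inner h0 (show 9 - 2 * μ.re < 11 by linarith)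
  have J10 := integrable_inner h1 (show 10 - 2 * μ.re < 11 by linarith)
  have hB : Integrable fun ξ : R12 => 2 * ‖resDen sg μ b1 ξ‖ + (‖b1 ξ‖
      + ‖10 - 2 * μ‖ * (∫ s in Ioi (1 : ℝ), s ^ (9 - 2 * μ.re) * ‖b1 (s • ξ)‖)
      + ∫ s in Ioi (1 : ℝ), s ^ (10 - 2 * μ.re) * ‖b1' (s • ξ)‖) :=
    (hri.norm.const_mul 2).add ((h0.norm.add (J9.const_mul _)).add J10)
  have hpt := smo_pt hsg hμ hd hc h0 h1
  have hwt : ∀ ξ : R12, Wie.wt 1 ξ = 1 + ‖ξ‖ := fun ξ => by simp [Wie.wt]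
  have hW : WInt 1 (resDen sg μ b1) := by
    refine hB.mono' ((Wie.measurable_wt 1).aestronglyMeasurable.smul hri.1) ?_
    filter_upwards [hpt] with ξ hξ
    show ‖Wie.wt 1 ξ • resDen sg μ b1 ξ‖ ≤ _
    rw [norm_smul, Real.norm_of_nonneg (Wie.wt_nonneg 1 ξ), hwt]
    exact hξ
  refine ⟨hW, ?_⟩
  have hx0 : ∀ c : R12 → ℂ, xn 0 c = ∫ ξ, ‖c ξ‖ := by
    intro c; unfold xn; simp [Wie.wt]
  have hn := xn_resDen_le (sg := sg) hμ hw0
  have hI : xn 1 (resDen sg μ b1) ≤ 2 * xn 0 (resDen sg μ b1) + (xn 0 b1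
      + ‖10 - 2 * μ‖ * (xn 0 b1 / (11 - (9 - 2 * μ.re)))
      + (∫ ξ, ‖b1' ξ‖) / (11 - (10 - 2 * μ.re))) := by
    rw [hx0, hx0]
    rw [← joint_int h0 (show 9 - 2 * μ.re < 11 by linarith),
      ← joint_int h1 (show 10 - 2 * μ.re < 11 by linarith)]
    rw [← integral_const_mul, ← integral_const_mul]
    have K1 : (∫ ξ, ‖b1 ξ‖) + (∫ ξ : R12, ‖10 - 2 * μ‖ * ∫ s in Ioi (1 : ℝ),
        s ^ (9 - 2 * μ.re) * ‖b1 (s • ξ)‖) = ∫ ξ : R12, (‖b1 ξ‖ + ‖10 - 2 * μ‖ *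
          ∫ s in Ioi (1 : ℝ), s ^ (9 - 2 * μ.re) * ‖b1 (s • ξ)‖) :=
      (integral_add h0.norm (J9.const_mul _)).symm
    have K2 : (∫ ξ : R12, (‖b1 ξ‖ + ‖10 - 2 * μ‖ *
          ∫ s in Ioi (1 : ℝ), s ^ (9 - 2 * μ.re) * ‖b1 (s • ξ)‖))
          + (∫ ξ : R12, ∫ s in Ioi (1 : ℝ), s ^ (10 - 2 * μ.re) * ‖b1' (s • ξ)‖)
        = ∫ ξ : R12, ((‖b1 ξ‖ + ‖10 - 2 * μ‖ *
          ∫ s in Ioi (1 : ℝ), s ^ (9 - 2 * μ.re) * ‖b1 (s • ξ)‖)
          + ∫ s in Ioi (1 : ℝ), s ^ (10 - 2 * μ.re) * ‖b1' (s • ξ)‖) :=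
      (integral_add (h0.norm.add (J9.const_mul _)) J10).symm
    have K3 : (∫ ξ : R12, 2 * ‖resDen sg μ b1 ξ‖) + (∫ ξ : R12, ((‖b1 ξ‖ + ‖10 - 2 * μ‖ *
          ∫ s in Ioi (1 : ℝ), s ^ (9 - 2 * μ.re) * ‖b1 (s • ξ)‖)
          + ∫ s in Ioi (1 : ℝ), s ^ (10 - 2 * μ.re) * ‖b1' (s • ξ)‖))
        = ∫ ξ : R12, (2 * ‖resDen sg μ b1 ξ‖ + ((‖b1 ξ‖ + ‖10 - 2 * μ‖ *
          ∫ s in Ioi (1 : ℝ), s ^ (9 - 2 * μ.re) * ‖b1 (s • ξ)‖)
          + ∫ s in Ioi (1 : ℝ), s ^ (10 - 2 * μ.re) * ‖b1' (s • ξ)‖)) :=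
      (integral_add (hri.norm.const_mul 2) ((h0.norm.add (J9.const_mul _)).add J10)).symm
    rw [K1, K2, K3]
    unfold xn
    refine integral_mono_ae ?_ hB ?_
    · have := hW.norm
      refine this.congr (Eventually.of_forall fun ξ => ?_)
      show ‖Wie.wt 1 ξ • resDen sg μ b1 ξ‖ = _
      rw [norm_smul, Real.norm_of_nonneg (Wie.wt_nonneg 1 ξ)]
    · filter_upwards [hpt] with ξ hξ
      simp only [hwt]
      exact hξ
  refine hI.trans ?_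
  have hb0 := xn_nonneg 0 b1
  have hD0 : 0 ≤ ∫ ξ, ‖b1' ξ‖ := integral_nonneg fun ξ => norm_nonneg _
  have q1 : (∫ ξ, ‖b1' ξ‖) / (11 - (10 - 2 * μ.re)) ≤ ∫ ξ, ‖b1' ξ‖ :=
    div_le_self hD0 (by linarith)
  have q2 : ‖10 - 2 * μ‖ ≤ 10 + 2 * ‖μ‖ := by
    refine (norm_sub_le _ _).trans ?_
    rw [norm_mul]; simp
  have q3 : ‖10 - 2 * μ‖ * (xn 0 b1 / (11 - (9 - 2 * μ.re))) ≤ (5 + ‖μ‖) * xn 0 b1 := by
    have e1 : 11 - (9 - 2 * μ.re) = 2 + 2 * μ.re := by ring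
    rw [e1, ← mul_div_assoc, div_le_iff₀ (by linarith)]
    have e2 : ‖10 - 2 * μ‖ * xn 0 b1 ≤ (10 + 2 * ‖μ‖) * xn 0 b1 :=
      mul_le_mul_of_nonneg_right q2 hb0
    have e3 : 0 ≤ (5 + ‖μ‖) * xn 0 b1 * μ.re := by
      have := norm_nonneg μ
      positivity
    nlinarith
  have q4 : 2 * xn 0 (resDen sg μ b1) ≤ 2 / μ.re * xn 0 b1 := by
    have : 2 / μ.re * xn 0 b1 = 2 * (xn 0 b1 / μ.re) := by ring
    rw [this]; linarith
  nlinarith

end parts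

section conv

variable {c : R12 → ℂ}

/-- derivative of `w * c` -/
noncomputable def dcv (w : 𝓢(R12, ℂ)) (c : R12 → ℂ) (x : R12) : R12 →L[ℝ] ℂ :=
  ∫ ξ : R12, c ξ • fderiv ℝ (w : R12 → ℂ) (x - ξ)

theorem exists_bound_fderiv (w : 𝓢(R12, ℂ)) : ∃ M : ℝ, 0 ≤ M ∧ ∀ x, ‖fderiv ℝ (w : R12 → ℂ) x‖ ≤ M := by
  obtain ⟨M, hM0, hM⟩ := w.decay 0 1
  refine ⟨M, hM0.le, fun x => ?_⟩
  have := hM x
  rwa [pow_zero, one_mul, norm_iteratedFDeriv_one] at this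

theorem continuous_fderiv_sch (w : 𝓢(R12, ℂ)) : Continuous (fderiv ℝ (w : R12 → ℂ)) :=
  (w.smooth 1).continuous_fderiv (by norm_num)

theorem hasFDerivAt_cv (w : 𝓢(R12, ℂ)) (hc : Integrable c) (x : R12) :
    HasFDerivAt (cv (w : R12 → ℂ) c) (dcv w c x) x := by
  obtain ⟨M, hM0, hM⟩ := exists_bound_fderiv w
  have hwc : Continuous (w : R12 → ℂ) := w.continuous
  have hdc := continuous_fderiv_sch w
  have hmeas : ∀ x : R12, AEStronglyMeasurable (fun ξ : R12 => (w : R12 → ℂ) (x - ξ) * c ξ) volume :=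
    fun x => (Continuous.aestronglyMeasurable (by fun_prop)).mul hc.1
  have h := hasFDerivAt_integral_of_dominated_of_fderiv_le (𝕜 := ℝ) (μ := (volume : Measure R12))
    (F := fun (x ξ : R12) => (w : R12 → ℂ) (x - ξ) * c ξ)
    (F' := fun (x ξ : R12) => c ξ • fderiv ℝ (w : R12 → ℂ) (x - ξ))
    (x₀ := x) (s := univ) (bound := fun ξ => M * ‖c ξ‖) univ_mem ?_ ?_ ?_ ?_ ?_ ?_
  · exact h
  · exact Eventually.of_forall hmeas
  · obtain ⟨W, hW0, hW⟩ := w.decay 0 0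
    refine (hc.norm.const_mul W).mono' (hmeas x) (Eventually.of_forall fun ξ => ?_)
    rw [norm_mul]
    refine mul_le_mul_of_nonneg_right ?_ (norm_nonneg _)
    have := hW (x - ξ)
    rwa [pow_zero, one_mul, norm_iteratedFDeriv_zero] at this
  · exact hc.1.smul (Continuous.aestronglyMeasurable (by fun_prop))
  · refine Eventually.of_forall fun ξ y _ => ?_
    rw [norm_smul, mul_comm]
    exact mul_le_mul_of_nonneg_right (hM _) (norm_nonneg _)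
  · exact hc.norm.const_mul M
  · refine Eventually.of_forall fun ξ y _ => ?_
    have h1 : HasFDerivAt (fun y : R12 => (w : R12 → ℂ) (y - ξ)) (fderiv ℝ (w : R12 → ℂ) (y - ξ)) y := by
      have h2 : HasFDerivAt (w : R12 → ℂ) (fderiv ℝ (w : R12 → ℂ) (y - ξ)) (y - ξ) :=
        (w.differentiable (y - ξ)).hasFDerivAt
      have h3 := h2.comp y ((hasFDerivAt_id y).sub_const ξ)
      rwa [ContinuousLinearMap.comp_id] at h3
    exact h1.mul_const (c ξ)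

theorem continuous_dcv (w : 𝓢(R12, ℂ)) (hc : Integrable c) : Continuous (dcv w c) := by
  obtain ⟨M, hM0, hM⟩ := exists_bound_fderiv w
  have hdc := continuous_fderiv_sch w
  refine continuous_of_dominated (bound := fun ξ => M * ‖c ξ‖) (fun x => ?_) (fun x => ?_)
    (hc.norm.const_mul M) (Eventually.of_forall fun ξ => ?_)
  · exact hc.1.smul (Continuous.aestronglyMeasurable (by fun_prop))
  · refine Eventually.of_forall fun ξ => ?_
    rw [norm_smul, mul_comm]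
    exact mul_le_mul_of_nonneg_right (hM _) (norm_nonneg _)
  · fun_prop

theorem integrable_fderiv_sch (w : 𝓢(R12, ℂ)) : Integrable fun ξ : R12 => ‖fderiv ℝ (w : R12 → ℂ) ξ‖ := by
  have h := (SchwartzMap.fderivCLM ℝ R12 ℂ w).integrable (μ := (volume : Measure R12))
  exact h.norm

theorem dcv_bound (w : 𝓢(R12, ℂ)) (hc : Integrable c) :
    Integrable (dcv w c) ∧
    ∫ x, ‖dcv w c x‖ ≤ (∫ ξ : R12, ‖fderiv ℝ (w : R12 → ℂ) ξ‖) * ∫ ξ, ‖c ξ‖ := by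
  have hdc := continuous_fderiv_sch w
  have hw := integrable_fderiv_sch w
  have h1 := Integrable.integrable_convolution (ContinuousLinearMap.mul ℝ ℝ) hc.norm hw
  have h2 := integral_convolution (ContinuousLinearMap.mul ℝ ℝ) (μ := (volume : Measure R12))
    (ν := (volume : Measure R12)) hc.norm hw
  have hpt : ∀ x : R12, ‖dcv w c x‖ ≤ convolution (fun ξ => ‖c ξ‖)
      (fun ξ => ‖fderiv ℝ (w : R12 → ℂ) ξ‖) (ContinuousLinearMap.mul ℝ ℝ) volume x := by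
    intro x
    unfold dcv convolution
    refine (norm_integral_le_integral_norm _).trans (le_of_eq ?_)
    refine integral_congr_ae (Eventually.of_forall fun ξ => ?_)
    simp [norm_smul]
  constructor
  · refine h1.mono' (continuous_dcv w hc).aestronglyMeasurable (Eventually.of_forall hpt)
  · calc ∫ x, ‖dcv w c x‖ ≤ _ := integral_mono_of_nonneg
          (Eventually.of_forall fun x => norm_nonneg _) h1 (Eventually.of_forall hpt)
      _ = _ := by rw [h2]; simp [mul_comm]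

theorem integrable_cv_sch (w : 𝓢(R12, ℂ)) (hc : Integrable c) :
    Integrable (cv (w : R12 → ℂ) c) := DGen.integrable_cv w.integrable hc

/-- SMO applied to `w * c`. -/
theorem smo_cv {sg : ℝ} {μ : ℂ} (hsg : sg = 1 ∨ sg = -1) (hμ : 0 < μ.re) (w : 𝓢(R12, ℂ))
    (hc : Integrable c) :
    WInt 1 (resDen sg μ (cv (w : R12 → ℂ) c)) ∧
    xn 1 (resDen sg μ (cv (w : R12 → ℂ) c)) ≤ (2 / μ.re + 6 + ‖μ‖) * xn 0 (cv (w : R12 → ℂ) c)
      + (∫ ξ : R12, ‖fderiv ℝ (w : R12 → ℂ) ξ‖) * xn 0 c := by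
  obtain ⟨h1, h2⟩ := smo hsg hμ (hasFDerivAt_cv w hc) (continuous_dcv w hc)
    (integrable_cv_sch w hc) (dcv_bound w hc).1
  refine ⟨h1, h2.trans (add_le_add le_rfl ?_)⟩
  refine (dcv_bound w hc).2.trans (le_of_eq ?_)
  unfold xn
  simp [Wie.wt]

end conv

end Crest.Agent.R086.Res
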