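import Crest.Agent.R086.Res4
import Crest.Agent.R086.ResSmo
import Crest.Agent.R086.CRegDefs

/-!
Row 86, node RES/SMO (helper470, helper718): `theorem smoStmt : CReg.SmoStmt`.
-/

set_option autoImplicit false

open MeasureTheory Complex Set Filter
open scoped ContDiff Topology SchwartzMap

namespace Crest.Agent.R086.Res

open Crest.Agent.R086.Wie (WInt)

theorem xn_congr' {N : ℕ} {a b : R12 → ℂ} (h : a =ᵐ[volume] b) : xn N a = xn N b := by
  unfold xn
  exact integral_congr_ae (h.mono fun ξ hξ => by simp only [hξ])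

theorem xn_add_le {N : ℕ} {a b : R12 → ℂ} (ha : WInt N a) (hb : WInt N b) :
    xn N (fun ξ => a ξ + b ξ) ≤ xn N a + xn N b := by
  have ha' : Integrable fun ξ => Wie.wt N ξ • a ξ := ha
  have hb' : Integrable fun ξ => Wie.wt N ξ • b ξ := hb
  simp only [xn_eq]
  rw [← integral_add ha'.norm hb'.norm]
  refine integral_mono ?_ (ha'.norm.add hb'.norm) fun ξ => ?_
  · refine Integrable.norm ?_
    refine (ha'.add hb').congr (Eventually.of_forall fun ξ => ?_)
    simp only [Pi.add_apply, smul_add]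
  · simp only [smul_add]
    exact norm_add_le _ _

theorem resDen_add {sg : ℝ} {μ : ℂ} (hμ : 0 < μ.re) {b1 b2 : R12 → ℂ} (h1 : Integrable b1)
    (h2 : Integrable b2) :
    resDen sg μ (fun ξ => b1 ξ + b2 ξ) =ᵐ[volume] fun ξ => resDen sg μ b1 ξ + resDen sg μ b2 ξ := by
  have k1 := (integrable_joint (N := 0) (sg := sg) hμ (wint_zero h1)).prod_left_ae
  have k2 := (integrable_joint (N := 0) (sg := sg) hμ (wint_zero h2)).prod_left_ae
  filter_upwards [k1, k2] with ξ hk1 hk2
  simp only [Wie.wt, pow_zero, one_smul] at hk1 hk2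
  unfold resDen
  rw [← integral_add hk1 hk2]
  simp only [mul_add]

theorem wint_of_rep {N : ℕ} {a f : R12 → ℂ} (h : Rep N a f) : WInt N a := by
  show Integrable fun ξ => Wie.wt N ξ • a ξ
  refine h.1.congr (Eventually.of_forall fun ξ => ?_)
  simp only [Wie.wt, real_smul]

/-- `SmoStmt` (input of REG) -/
theorem smoStmt : CReg.SmoStmt := by
  intro sg hsg μ hμ f a c b w hf hc hb heq
  obtain ⟨hsA, hsB⟩ := smo_cv hsg hμ w hc
  have hb1 : Integrable (cv (w : R12 → ℂ) c) := integrable_cv_sch w hc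
  have ha : WInt 2 a := wint_of_rep hf
  have hbW : WInt 1 b := by
    show Integrable fun ξ => Wie.wt 1 ξ • b ξ
    refine hb.congr (Eventually.of_forall fun ξ => ?_)
    simp only [Wie.wt, real_smul]
  have hbI : Integrable b := hbW.integrable
  have hfe : f = ft a := funext hf.2
  set b1 : R12 → ℂ := cv (w : R12 → ℂ) c with hb1def
  have hsum : Integrable fun ξ => b1 ξ + b ξ := hb1.add hbI
  have hEq : ∀ y, (sg : ℂ) * I * lap (ft a) y - (1 / 2) * eul (ft a) y - μ * ft a y
      = - ft (fun ξ => b1 ξ + b ξ) y := by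
    intro y
    rw [← hfe, heq y]
    congr 1
    simp only [ft_eq, smul_add]
    exact (integral_add (integrable_ch_smul hb1 y) (integrable_ch_smul hbI y)).symm
  have hu := res_uniq hμ ha hsum hEq
  have hu2 : a =ᵐ[volume] fun ξ => resDen sg μ b1 ξ + resDen sg μ b ξ :=
    hu.trans (resDen_add hμ hb1 hbI)
  constructor
  · have h1 : xn 0 a ≤ xn 0 (fun ξ => b1 ξ + b ξ) / μ.re := by
      rw [xn_congr' hu]
      exact xn_resDen_le hμ (wint_zero hsum)
    have h2 : xn 0 (fun ξ => b1 ξ + b ξ) ≤ xn 0 b1 + xn 0 b :=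
      xn_add_le (wint_zero hb1) (wint_zero hbI)
    exact h1.trans (div_le_div_of_nonneg_right h2 hμ.le)
  · have h1 : xn 1 a ≤ xn 1 (resDen sg μ b1) + xn 1 (resDen sg μ b) := by
      rw [xn_congr' hu2]
      exact xn_add_le hsA (wint_resDen hμ hbW)
    have h2 : xn 1 (resDen sg μ b) ≤ xn 1 b / μ.re := xn_resDen_le hμ hbW
    calc CReg.xn 1 a = xn 1 a := rfl
      _ ≤ xn 1 (resDen sg μ b1) + xn 1 (resDen sg μ b) := h1
      _ ≤ ((2 / μ.re + 6 + ‖μ‖) * xn 0 b1 + (∫ ξ : R12, ‖fderiv ℝ (w : R12 → ℂ) ξ‖) * xn 0 c)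
          + xn 1 b / μ.re := add_le_add hsB h2
      _ = _ := rfl

end Crest.Agent.R086.Res
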