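import Crest.Agent.R086.C4Top
import Crest.Agent.R086.R0Final
import Crest.Agent.R086.ResSmoTop
import Crest.Agent.R086.CSym

/-!
Row 86, PART C: what is left (captain helper777).  `partC_of` : the open nodes R1, R3, NS, SY imply `PartC`.
-/

set_option autoImplicit false

open MeasureTheory Complex Set Filter Topology
open scoped ContDiff

namespace Crest.Agent.R086

theorem partC_of (h1 : R1Stmt) (h3 : R3Stmt)
    (hNS : ∀ (D : A.AData) (U : ℝ → ℂ), LimitProfile D.om D.R U → ∀ B : BData D.om D.R U,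
      ∀ (La : ℝ) (l : ℕ), ∀ᶠ j in atTop, ∀ lam : ℂ, 0 ≤ lam.re → ‖lam‖ ≤ La →
        C4Red.NS (B.P j) l lam)
    (hSY : ∀ (D : A.AData) (U : ℝ → ℂ), LimitProfile D.om D.R U → ∀ B : BData D.om D.R U,
      ∀ (La : ℝ) (l : ℕ), ∀ᶠ j in atTop, ∀ lam : ℂ, 0 ≤ lam.re → ‖lam‖ ≤ La →
        C4Red.SY (B.P j) l lam) : PartC :=
  partC_of_leaves CH.r0Stmt h1 Res.smoStmt h3 fun D U hL B =>
    B.c4Stmt_of_lim CSym.symStmt fun La l => by
      filter_upwards [hNS D U hL B La l, hSY D U hL B La l] with j h h'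
      exact fun lam a b => ⟨h lam a b, h' lam a b⟩

/-- (REG) of `BData`, unconditional -/
theorem BData.reg {om0 R : ℝ} {U : ℝ → ℂ} (hL : LimitProfile om0 R U) (B : BData om0 R U) : B.REG :=
  CRegB.reg_of CSym.symStmt B (by have := hL.R_lo; linarith)
    (CReg.regStmt Res.smoStmt (by have := hL.R_lo; linarith) B)

end Crest.Agent.R086
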