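import Mathlib

/-!
Row 86 (S0114), Part C, C-core: exact first order form of the linearised problem, radial variables,
and the exact identities (pointwise, `HasDerivAt` form).

`Q` radial profile (`Q1 = Q'`), `w = |Q|² r¹¹`, `rho = Re (Q1/Q) = |Q|'/|Q|`,
`b = 2 Im (Q1/Q) + r/2`, `P = |Q|ⁿ`.
-/

set_option autoImplicit false

open Complex ComplexConjugate

namespace Crest.Agent.R086.CCore

/-- weight `|Q|² r¹¹` -/
noncomputable def w (Q : ℝ → ℂ) (r : ℝ) : ℝ := ‖Q r‖ ^ 2 * r ^ 11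
/-- `|Q|' / |Q|` -/
noncomputable def rho (Q Q1 : ℝ → ℂ) (r : ℝ) : ℝ := (Q1 r / Q r).re
/-- transport coefficient `2 θ' + r/2` -/
noncomputable def b (Q Q1 : ℝ → ℂ) (r : ℝ) : ℝ := 2 * (Q1 r / Q r).im + r / 2

section K1

variable {Q Q1 : ℝ → ℂ} {r : ℝ}

theorem w_mul_b (Q Q1 : ℝ → ℂ) (r : ℝ) :
    w Q r * b Q Q1 r = 2 * r ^ 11 * (Q1 r * conj (Q r)).im + r ^ 12 / 2 * ‖Q r‖ ^ 2 := by
  unfold w b
  by_cases h : Q r = 0
  · simp [h]
  · have h1 : ‖Q r‖ ^ 2 * (Q1 r / Q r).im = (Q1 r * conj (Q r)).im := by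
      rw [← Complex.normSq_eq_norm_sq]
      have hn : Complex.normSq (Q r) ≠ 0 := by simpa [Complex.normSq_eq_zero] using h
      rw [Complex.div_im]
      simp only [Complex.mul_im, Complex.conj_re, Complex.conj_im]
      field_simp
      ring
    calc ‖Q r‖ ^ 2 * r ^ 11 * (2 * (Q1 r / Q r).im + r / 2)
        = 2 * r ^ 11 * (‖Q r‖ ^ 2 * (Q1 r / Q r).im) + r ^ 12 / 2 * ‖Q r‖ ^ 2 := by ring
      _ = _ := by rw [h1]

theorem hasDerivAt_normSq (hQ : HasDerivAt Q (Q1 r) r) :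
    HasDerivAt (fun r => ‖Q r‖ ^ 2) (2 * (Q1 r * conj (Q r)).re) r := by
  have h := hQ.norm_sq
  convert h using 1
  rw [Complex.inner]

theorem hasDerivAt_w (hQ : HasDerivAt Q (Q1 r) r) (hr : r ≠ 0) (h0 : Q r ≠ 0) :
    HasDerivAt (w Q) (w Q r * (11 / r + 2 * rho Q Q1 r)) r := by
  have h1 := (hasDerivAt_normSq hQ).mul (hasDerivAt_pow 11 r)
  refine h1.congr_deriv ?_
  unfold w rho
  have h2 : ‖Q r‖ ^ 2 * (Q1 r / Q r).re = (Q1 r * conj (Q r)).re := by
    rw [← Complex.normSq_eq_norm_sq]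
    have hn : Complex.normSq (Q r) ≠ 0 := by simpa [Complex.normSq_eq_zero] using h0
    rw [Complex.div_re]
    simp only [Complex.mul_re, Complex.conj_re, Complex.conj_im]
    field_simp
    ring
  rw [← h2]
  field_simp
  push_cast
  ring

theorem hasDerivAt_wb {om eps P : ℝ} (hQ : HasDerivAt Q (Q1 r) r) (hr : r ≠ 0)
    (hQ1 : HasDerivAt Q1 (-((11 : ℂ) / r + I * r / 2) * Q1 r - (om + I * eps) * Q r + P * Q r) r) :
    HasDerivAt (fun r => w Q r * b Q Q1 r) ((6 - 2 * eps) * w Q r) r := by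
  have e : (fun r => w Q r * b Q Q1 r) = fun r =>
      2 * r ^ 11 * (Q1 r * conj (Q r)).im + r ^ 12 / 2 * ‖Q r‖ ^ 2 := by
    funext r
    exact w_mul_b Q Q1 r
  rw [e]
  have hc : HasDerivAt (fun r => conj (Q r)) (conj (Q1 r)) r := by
    exact (Complex.conjCLE.toContinuousLinearMap.hasFDerivAt.comp_hasDerivAt r hQ)
  have hp := hQ1.mul hc
  have him : HasDerivAt (fun r => (Q1 r * conj (Q r)).im) _ r :=
    Complex.imCLM.hasFDerivAt.comp_hasDerivAt r hp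
  have h1 : HasDerivAt (fun r : ℝ => 2 * r ^ 11) (2 * (11 * r ^ 10)) r := by
    simpa using (hasDerivAt_pow 11 r).const_mul 2
  have h2 : HasDerivAt (fun r : ℝ => r ^ 12 / 2) ((12 * r ^ 11) / 2) r := by
    simpa using (hasDerivAt_pow 12 r).div_const 2
  have h3 := (h1.mul him).add (h2.mul (hasDerivAt_normSq hQ))
  refine h3.congr_deriv ?_
  unfold w
  rw [← Complex.normSq_eq_norm_sq, Complex.normSq_apply]
  have hr' : (r : ℂ) ≠ 0 := by exact_mod_cast hr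
  have e1 : ((11 : ℂ) / r) = ((11 / r : ℝ) : ℂ) := by push_cast; rfl
  rw [e1]
  simp only [Complex.imCLM_apply, Complex.add_im, Complex.mul_im, Complex.mul_re, Complex.sub_im,
    Complex.sub_re, Complex.neg_re, Complex.neg_im, Complex.add_re, Complex.conj_re,
    Complex.conj_im, Complex.ofReal_re, Complex.ofReal_im, Complex.I_re, Complex.I_im,
    Complex.div_ofNat_re, Complex.div_ofNat_im]
  field_simp
  ring

end K1

section K2

variable {Q Q1 : ℝ → ℂ} {r : ℝ}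

theorem ofReal_rho (Q Q1 : ℝ → ℂ) (r : ℝ) :
    (rho Q Q1 r : ℂ) = (Q1 r / Q r + conj (Q1 r) / conj (Q r)) / 2 := by
  unfold rho
  have h : conj (Q1 r) / conj (Q r) = conj (Q1 r / Q r) := (map_div₀ _ _ _).symm
  rw [h]
  generalize Q1 r / Q r = z
  apply Complex.ext <;> simp

theorem ofReal_b (Q Q1 : ℝ → ℂ) (r : ℝ) :
    (b Q Q1 r : ℂ) = -I * (Q1 r / Q r - conj (Q1 r) / conj (Q r)) + r / 2 := by
  unfold b
  have h : conj (Q1 r) / conj (Q r) = conj (Q1 r / Q r) := (map_div₀ _ _ _).symm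
  rw [h]
  generalize Q1 r / Q r = z
  apply Complex.ext <;> simp
  ring

/-- the quotient derivative `(F/Q)'` -/
noncomputable def quo1 (Q Q1 F F1 : ℝ → ℂ) (r : ℝ) : ℂ := (F1 r - F r / Q r * Q1 r) / Q r

theorem hasDerivAt_quo {F F1 : ℝ → ℂ} (hQ : HasDerivAt Q (Q1 r) r) (h0 : Q r ≠ 0)
    (hF : HasDerivAt F (F1 r) r) :
    HasDerivAt (fun r => F r / Q r) (quo1 Q Q1 F F1 r) r := by
  refine (hF.div hQ h0).congr_deriv ?_
  unfold quo1
  field_simp

theorem hasDerivAt_w_quo1 {F F1 : ℝ → ℂ} {F2 G a lam : ℂ} {kap n om eps P : ℝ}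
    (hr : r ≠ 0) (h0 : Q r ≠ 0)
    (hQ : HasDerivAt Q (Q1 r) r)
    (hQ1 : HasDerivAt Q1 (-((11 : ℂ) / r + I * r / 2) * Q1 r - (om + I * eps) * Q r + P * Q r) r)
    (hF : HasDerivAt F (F1 r) r) (hF1 : HasDerivAt F1 F2 r)
    (heq : I * (F2 + 11 / r * F1 r - kap / r ^ 2 * F r) - r / 2 * F1 r + (I * om - eps) * F r
      - I * ((1 + n / 2) * P * F r + n / 2 * P * (Q r / conj (Q r)) * G) = lam * F r + a) :
    HasDerivAt (fun r => (w Q r : ℂ) * quo1 Q Q1 F F1 r)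
      ((w Q r : ℂ) * (kap / r ^ 2 * (F r / Q r) + n / 2 * P * (F r / Q r + G / conj (Q r))
        - I * b Q Q1 r * quo1 Q Q1 F F1 r - I * lam * (F r / Q r) - I * (a / Q r))) r := by
  have hr' : (r : ℂ) ≠ 0 := by exact_mod_cast hr
  have hc0 : conj (Q r) ≠ 0 := by simpa using h0
  have hw : HasDerivAt (fun r => (w Q r : ℂ)) ((w Q r * (11 / r + 2 * rho Q Q1 r) : ℝ) : ℂ) r :=
    (hasDerivAt_w hQ hr h0).ofReal_comp
  have hq : HasDerivAt (quo1 Q Q1 F F1)
      (((F2 - (quo1 Q Q1 F F1 r * Q1 r + F r / Q r *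
        (-((11 : ℂ) / r + I * r / 2) * Q1 r - (om + I * eps) * Q r + P * Q r))) * Q r
        - (F1 r - F r / Q r * Q1 r) * Q1 r) / Q r ^ 2) r :=
    ((hF1.sub ((hasDerivAt_quo hQ h0 hF).mul hQ1)).div hQ h0)
  refine (hw.mul hq).congr_deriv ?_
  have hF2 : F2 = -(11 / r) * F1 r + kap / r ^ 2 * F r - I * (r / 2 * F1 r - (I * om - eps) * F r
      + I * ((1 + n / 2) * P * F r + n / 2 * P * (Q r / conj (Q r)) * G) + lam * F r + a) := by
    linear_combination (-I) * heq + (F2 + 11 / r * F1 r - kap / r ^ 2 * F r) * (Complex.I_mul_I)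
  rw [hF2]
  push_cast
  rw [ofReal_rho, ofReal_b]
  unfold quo1
  generalize hz : conj (Q r) = qb at *
  generalize hz1 : conj (Q1 r) = qb1 at *
  generalize (w Q r : ℂ) = ww
  generalize Q r = q at *
  generalize Q1 r = q1 at *
  field_simp
  ring_nf
  rw [Complex.I_sq]
  ring

/-- the quotient derivative `(G / conj Q)'` -/
noncomputable def quo1c (Q Q1 G G1 : ℝ → ℂ) (r : ℝ) : ℂ :=
  (G1 r - G r / conj (Q r) * conj (Q1 r)) / conj (Q r)

theorem hasDerivAt_conj {f : ℝ → ℂ} {f' : ℂ} (hf : HasDerivAt f f' r) :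
    HasDerivAt (fun r => conj (f r)) (conj f') r :=
  Complex.conjCLE.toContinuousLinearMap.hasFDerivAt.comp_hasDerivAt r hf

theorem hasDerivAt_quoc {G G1 : ℝ → ℂ} (hQ : HasDerivAt Q (Q1 r) r) (h0 : Q r ≠ 0)
    (hG : HasDerivAt G (G1 r) r) :
    HasDerivAt (fun r => G r / conj (Q r)) (quo1c Q Q1 G G1 r) r := by
  have hc0 : conj (Q r) ≠ 0 := by simpa using h0
  refine (hG.div (hasDerivAt_conj hQ) hc0).congr_deriv ?_
  unfold quo1c
  field_simp

theorem hasDerivAt_w_quo1c {G G1 : ℝ → ℂ} {G2 F c lam : ℂ} {kap n om eps P : ℝ}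
    (hr : r ≠ 0) (h0 : Q r ≠ 0)
    (hQ : HasDerivAt Q (Q1 r) r)
    (hQ1 : HasDerivAt Q1 (-((11 : ℂ) / r + I * r / 2) * Q1 r - (om + I * eps) * Q r + P * Q r) r)
    (hG : HasDerivAt G (G1 r) r) (hG1 : HasDerivAt G1 G2 r)
    (heq : -I * (G2 + 11 / r * G1 r - kap / r ^ 2 * G r) - r / 2 * G1 r + (-I * om - eps) * G r
      + I * ((1 + n / 2) * P * G r + n / 2 * P * (conj (Q r) / Q r) * F) = lam * G r + c) :
    HasDerivAt (fun r => (w Q r : ℂ) * quo1c Q Q1 G G1 r)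
      ((w Q r : ℂ) * (kap / r ^ 2 * (G r / conj (Q r)) + n / 2 * P * (F / Q r + G r / conj (Q r))
        + I * b Q Q1 r * quo1c Q Q1 G G1 r + I * lam * (G r / conj (Q r))
        + I * (c / conj (Q r)))) r := by
  have h := hasDerivAt_w_quo1 (F := fun r => conj (G r)) (F1 := fun r => conj (G1 r))
    (F2 := conj G2) (G := conj F) (a := conj c) (lam := conj lam) (kap := kap) (n := n)
    hr h0 hQ hQ1 (hasDerivAt_conj hG) (hasDerivAt_conj hG1) (by
      have e := congrArg conj heq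
      simp only [map_add, map_sub, map_mul, map_neg, map_div₀, Complex.conj_I,
        Complex.conj_ofReal, Complex.conj_conj, map_pow, map_one, map_ofNat] at e
      rw [← e]
      ring)
  have h2 := hasDerivAt_conj h
  have e1 : (fun r => (w Q r : ℂ) * quo1c Q Q1 G G1 r) = fun r => conj ((w Q r : ℂ) *
      quo1 Q Q1 (fun r => conj (G r)) (fun r => conj (G1 r)) r) := by
    funext r
    simp [quo1c, quo1]
  rw [e1]
  refine h2.congr_deriv ?_
  simp only [map_add, map_sub, map_mul, map_neg, map_div₀, Complex.conj_I,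
    Complex.conj_ofReal, Complex.conj_conj, map_pow, map_ofNat, quo1, quo1c]
  ring

end K2

/-- The exact system at the point `r` (weights `w`, transport `b`, pressure `P`, `rho = |Q|'/|Q|`). -/
structure Sys (w b P rho : ℝ → ℝ) (kap n eps : ℝ) (lam : ℂ) (S S1 D D1 : ℝ → ℂ) (sS sD : ℂ)
    (r : ℝ) : Prop where
  hr : r ≠ 0
  wne : w r ≠ 0
  hw : HasDerivAt w (w r * (11 / r + 2 * rho r)) r
  hwb : HasDerivAt (fun r => w r * b r) ((6 - 2 * eps) * w r) r
  hS : HasDerivAt S (S1 r) r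
  hD : HasDerivAt D (D1 r) r
  hS1 : HasDerivAt (fun r => (w r : ℂ) * S1 r)
    ((w r : ℂ) * ((kap / r ^ 2 + n * P r) * S r - I * (b r * D1 r + lam * D r + sD))) r
  hD1 : HasDerivAt (fun r => (w r : ℂ) * D1 r)
    ((w r : ℂ) * (kap / r ^ 2 * D r - I * (b r * S1 r + lam * S r + sS))) r

/-- (K2) The linearised equations for `(F, G)` give the exact system for
`S = (F/Q + G/conj Q)/2`, `D = (F/Q - G/conj Q)/2`. -/
theorem sys_of_eqs {Q Q1 F F1 G G1 : ℝ → ℂ} {F2 G2 a c lam : ℂ} {P : ℝ → ℝ}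
    {kap n om eps r : ℝ}
    (hr : r ≠ 0) (h0 : Q r ≠ 0)
    (hQ : HasDerivAt Q (Q1 r) r)
    (hQ1 : HasDerivAt Q1 (-((11 : ℂ) / r + I * r / 2) * Q1 r - (om + I * eps) * Q r
      + P r * Q r) r)
    (hF : HasDerivAt F (F1 r) r) (hF1 : HasDerivAt F1 F2 r)
    (hG : HasDerivAt G (G1 r) r) (hG1 : HasDerivAt G1 G2 r)
    (heF : I * (F2 + 11 / r * F1 r - kap / r ^ 2 * F r) - r / 2 * F1 r + (I * om - eps) * F r
      - I * ((1 + n / 2) * P r * F r + n / 2 * P r * (Q r / conj (Q r)) * G r) = lam * F r + a)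
    (heG : -I * (G2 + 11 / r * G1 r - kap / r ^ 2 * G r) - r / 2 * G1 r + (-I * om - eps) * G r
      + I * ((1 + n / 2) * P r * G r + n / 2 * P r * (conj (Q r) / Q r) * F r) = lam * G r + c) :
    Sys (w Q) (b Q Q1) P (rho Q Q1) kap n eps lam
      (fun r => (F r / Q r + G r / conj (Q r)) / 2)
      (fun r => (quo1 Q Q1 F F1 r + quo1c Q Q1 G G1 r) / 2)
      (fun r => (F r / Q r - G r / conj (Q r)) / 2)
      (fun r => (quo1 Q Q1 F F1 r - quo1c Q Q1 G G1 r) / 2)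
      ((a / Q r + c / conj (Q r)) / 2) ((a / Q r - c / conj (Q r)) / 2) r where
  hr := hr
  wne := by
    unfold w
    have : ‖Q r‖ ≠ 0 := by simpa using h0
    positivity
  hw := hasDerivAt_w hQ hr h0
  hwb := hasDerivAt_wb hQ hr hQ1
  hS := ((hasDerivAt_quo hQ h0 hF).add (hasDerivAt_quoc hQ h0 hG)).div_const 2
  hD := ((hasDerivAt_quo hQ h0 hF).sub (hasDerivAt_quoc hQ h0 hG)).div_const 2
  hS1 := by
    have h1 := hasDerivAt_w_quo1 hr h0 hQ hQ1 hF hF1 heF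
    have h2 := hasDerivAt_w_quo1c hr h0 hQ hQ1 hG hG1 heG
    have h3 := (h1.add h2).div_const 2
    have e : (fun r => (w Q r : ℂ) * ((quo1 Q Q1 F F1 r + quo1c Q Q1 G G1 r) / 2)) =
        fun r => ((w Q r : ℂ) * quo1 Q Q1 F F1 r + (w Q r : ℂ) * quo1c Q Q1 G G1 r) / 2 := by
      funext r
      ring
    rw [e]
    refine h3.congr_deriv ?_
    ring
  hD1 := by
    have h1 := hasDerivAt_w_quo1 hr h0 hQ hQ1 hF hF1 heF
    have h2 := hasDerivAt_w_quo1c hr h0 hQ hQ1 hG hG1 heG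
    have h3 := (h1.sub h2).div_const 2
    have e : (fun r => (w Q r : ℂ) * ((quo1 Q Q1 F F1 r - quo1c Q Q1 G G1 r) / 2)) =
        fun r => ((w Q r : ℂ) * quo1 Q Q1 F F1 r - (w Q r : ℂ) * quo1c Q Q1 G G1 r) / 2 := by
      funext r
      ring
    rw [e]
    refine h3.congr_deriv ?_
    ring

end Crest.Agent.R086.CCore
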