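import Crest.Agent.R086.CCore2

/-!
Row 86 (S0114), Part C, C-core: the energy identity (H), pointwise form.
-/

set_option autoImplicit false

open Complex ComplexConjugate

namespace Crest.Agent.R086.CCore

namespace Sys

variable {w b P rho : ℝ → ℝ} {kap n eps : ℝ} {lam : ℂ} {S S1 D D1 : ℝ → ℂ} {sS sD : ℂ} {r : ℝ}

/-- boundary functional of (H) -/
noncomputable def BdH (w b P : ℝ → ℝ) (kap n : ℝ) (lam : ℂ) (S S1 D D1 : ℝ → ℂ) (r : ℝ) : ℝ :=
  (conj lam * ((w r : ℂ) * (S1 r * conj (S r) + D1 r * conj (D r)))).re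
    + b r / 2 * w r * (‖S1 r‖ ^ 2 + ‖D1 r‖ ^ 2)
    - kap * b r * w r * (‖S r‖ ^ 2 + ‖D r‖ ^ 2) / (2 * r ^ 2)
    - n * P r * b r * w r * ‖S r‖ ^ 2 / 2

/-- **(H)** energy identity, pointwise form (`kap = l(l+10)`, `lam.re` is called `kap` in note 12450). -/
theorem flux_H (h : Sys w b P rho kap n eps lam S S1 D D1 sS sD r) {b' P' : ℝ}
    (hb : HasDerivAt b b' r) (hP : HasDerivAt P P' r) :
    HasDerivAt (BdH w b P kap n lam S S1 D D1)
      (lam.re * (w r * (‖S1 r‖ ^ 2 + ‖D1 r‖ ^ 2) + kap / r ^ 2 * w r * (‖S r‖ ^ 2 + ‖D r‖ ^ 2)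
          + n * P r * w r * ‖S r‖ ^ 2)
        - (3 - eps - b') * w r * (‖S1 r‖ ^ 2 + ‖D1 r‖ ^ 2)
        - kap * (3 - eps - b r / r) * w r * (‖S r‖ ^ 2 + ‖D r‖ ^ 2) / r ^ 2
        - (3 - eps) * (n * P r * w r * ‖S r‖ ^ 2)
        - n * P' * b r * w r * ‖S r‖ ^ 2 / 2
        + w r * (sD * (conj lam * conj (S r) + b r * conj (S1 r))
          + sS * (conj lam * conj (D r) + b r * conj (D1 r))).im) r := by
  have hw0 := h.wne
  have hr := h.hr
  have re_d : ∀ {f : ℝ → ℂ} {f' : ℂ}, HasDerivAt f f' r →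
      HasDerivAt (fun r => (f r).re) f'.re r := fun hf =>
    Complex.reCLM.hasFDerivAt.comp_hasDerivAt r hf
  have im_d : ∀ {f : ℝ → ℂ} {f' : ℂ}, HasDerivAt f f' r →
      HasDerivAt (fun r => (f r).im) f'.im r := fun hf =>
    Complex.imCLM.hasFDerivAt.comp_hasDerivAt r hf
  have hSr := re_d h.hS
  have hSi := im_d h.hS
  have hDr := re_d h.hD
  have hDi := im_d h.hD
  have hS1r := re_d h.hS1
  have hS1i := im_d h.hS1
  have hD1r := re_d h.hD1
  have hD1i := im_d h.hD1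
  have hwi : HasDerivAt (fun r => (w r)⁻¹) (-(w r * (11 / r + 2 * rho r)) / w r ^ 2) r :=
    h.hw.inv hw0
  have hmr2 : HasDerivAt (fun r : ℝ => (r ^ 2)⁻¹) (-(2 * r) / (r ^ 2) ^ 2) r := by
    have := (hasDerivAt_pow 2 r).inv (pow_ne_zero 2 hr)
    refine this.congr_deriv ?_
    norm_num
  -- `b * (w'/w) = 6 - 2 eps - b'`
  have hbw : b r * (11 / r + 2 * rho r) = 6 - 2 * eps - b' := by
    have h1 := h.hw.mul hb
    have h2 := h.hwb.unique h1
    have h3 : w r * (6 - 2 * eps) = w r * (b r * (11 / r + 2 * rho r) + b') := by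
      linear_combination h2
    have h4 := mul_left_cancel₀ hw0 h3
    linarith
  have hL1 := ((hS1r.mul hSr).add (hS1i.mul hSi)).add ((hD1r.mul hDr).add (hD1i.mul hDi))
  have hL2 := ((hS1i.mul hSr).sub (hS1r.mul hSi)).add ((hD1i.mul hDr).sub (hD1r.mul hDi))
  have hL := (hL1.const_mul lam.re).add (hL2.const_mul lam.im)
  have hK := (((hb.div_const 2).mul hwi).mul (((hS1r.pow 2).add (hS1i.pow 2)).add
    ((hD1r.pow 2).add (hD1i.pow 2))))
  have hA := (((h.hwb).mul hmr2).const_mul (kap / 2)).mul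
    (((hSr.pow 2).add (hSi.pow 2)).add ((hDr.pow 2).add (hDi.pow 2)))
  have hB := ((h.hwb.mul hP).const_mul (n / 2)).mul ((hSr.pow 2).add (hSi.pow 2))
  have hT := ((hL.add hK).sub hA).sub hB
  let Φ : ℝ → ℝ := fun x =>
      (lam.re * ((((w x : ℂ) * S1 x).re * (S x).re + ((w x : ℂ) * S1 x).im * (S x).im)
          + (((w x : ℂ) * D1 x).re * (D x).re + ((w x : ℂ) * D1 x).im * (D x).im))
        + lam.im * ((((w x : ℂ) * S1 x).im * (S x).re - ((w x : ℂ) * S1 x).re * (S x).im)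
          + (((w x : ℂ) * D1 x).im * (D x).re - ((w x : ℂ) * D1 x).re * (D x).im))
        + (b x / 2) * (w x)⁻¹ *
        ((((w x : ℂ) * S1 x).re ^ 2 + ((w x : ℂ) * S1 x).im ^ 2)
        + (((w x : ℂ) * D1 x).re ^ 2 + ((w x : ℂ) * D1 x).im ^ 2)))
        - ((kap / 2) * ((w x * b x) * (x ^ 2)⁻¹)) * (((S x).re ^ 2 + (S x).im ^ 2)
          + ((D x).re ^ 2 + (D x).im ^ 2))
        - ((n / 2) * ((w x * b x) * P x)) * ((S x).re ^ 2 + (S x).im ^ 2)
  have hT' : HasDerivAt Φ _ r := hT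
  have hev : (BdH w b P kap n lam S S1 D D1) =ᶠ[nhds r] Φ := by
    have hne : ∀ᶠ x in nhds r, w x ≠ 0 := h.hw.continuousAt.eventually_ne hw0
    filter_upwards [hne] with x hx
    have e : ∀ z : ℂ, ‖z‖ ^ 2 = z.re ^ 2 + z.im ^ 2 := by
      intro z
      rw [← Complex.normSq_eq_norm_sq, Complex.normSq_apply]
      ring
    simp only [BdH, e, Φ, Complex.mul_re, Complex.mul_im, Complex.conj_re, Complex.conj_im,
        Complex.ofReal_re, Complex.ofReal_im, Complex.add_re, Complex.add_im]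
    field_simp
    ring
  refine (hT'.congr_of_eventuallyEq hev).congr_deriv ?_
  have e : ∀ z : ℂ, ‖z‖ ^ 2 = z.re ^ 2 + z.im ^ 2 := by
    intro z
    rw [← Complex.normSq_eq_norm_sq, Complex.normSq_apply]
    ring
  have hk1 : ((kap : ℂ) / (r : ℂ) ^ 2) = ((kap / r ^ 2 : ℝ) : ℂ) := by push_cast; rfl
  rw [hk1]
  have hb' : b' = 6 - 2 * eps - b r * (11 / r + 2 * rho r) := by linarith
  rw [hb']
  simp only [e, Complex.mul_re, Complex.mul_im, Complex.add_re, Complex.add_im, Complex.sub_re,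
    Complex.sub_im, Complex.conj_re, Complex.conj_im, Complex.ofReal_re, Complex.ofReal_im,
    Complex.I_re, Complex.I_im, Pi.mul_apply, Pi.sub_apply, Pi.add_apply, Pi.pow_apply]
  field_simp
  ring

end Sys

end Crest.Agent.R086.CCore
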