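import Crest.Agent.R086.CCore3

/-!
Row 86 (S0114), Part C, C-core: integrated identities on `(0, R]` (note 12450, C1):
(E1), (E2), (T), (charge), virial (*), equipartition.
-/

set_option autoImplicit false

open Complex ComplexConjugate MeasureTheory Set Filter Topology

namespace Crest.Agent.R086.CCore

/-- continuous and bounded on `(0,R]` -/
def BC {E : Type*} [NormedAddCommGroup E] (R : ℝ) (f : ℝ → E) : Prop :=
  ContinuousOn f (Ioc 0 R) ∧ ∃ C, ∀ r ∈ Ioc 0 R, ‖f r‖ ≤ C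

namespace BC
variable {R : ℝ}

theorem mulC {f g : ℝ → ℂ} (hf : BC R f) (hg : BC R g) : BC R (fun r => f r * g r) := by
  obtain ⟨cf, A, hA⟩ := hf
  obtain ⟨cg, B, hB⟩ := hg
  refine ⟨cf.mul cg, |A| * |B|, fun r hr => ?_⟩
  rw [norm_mul]
  exact mul_le_mul ((hA r hr).trans (le_abs_self A)) ((hB r hr).trans (le_abs_self B))
    (norm_nonneg _) (abs_nonneg _)

theorem mulR {f g : ℝ → ℝ} (hf : BC R f) (hg : BC R g) : BC R (fun r => f r * g r) := by
  obtain ⟨cf, A, hA⟩ := hf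
  obtain ⟨cg, B, hB⟩ := hg
  refine ⟨cf.mul cg, |A| * |B|, fun r hr => ?_⟩
  rw [norm_mul]
  exact mul_le_mul ((hA r hr).trans (le_abs_self A)) ((hB r hr).trans (le_abs_self B))
    (norm_nonneg _) (abs_nonneg _)

theorem add {E : Type*} [NormedAddCommGroup E] {f g : ℝ → E} (hf : BC R f) (hg : BC R g) :
    BC R (fun r => f r + g r) := by
  obtain ⟨cf, A, hA⟩ := hf
  obtain ⟨cg, B, hB⟩ := hg
  exact ⟨cf.add cg, A + B, fun r hr => (norm_add_le _ _).trans (add_le_add (hA r hr) (hB r hr))⟩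

theorem sub {E : Type*} [NormedAddCommGroup E] {f g : ℝ → E} (hf : BC R f) (hg : BC R g) :
    BC R (fun r => f r - g r) := by
  obtain ⟨cf, A, hA⟩ := hf
  obtain ⟨cg, B, hB⟩ := hg
  exact ⟨cf.sub cg, A + B, fun r hr => (norm_sub_le _ _).trans (add_le_add (hA r hr) (hB r hr))⟩

theorem const {E : Type*} [NormedAddCommGroup E] (c : E) : BC R (fun _ => c) :=
  ⟨continuousOn_const, ‖c‖, fun _ _ => le_rfl⟩

theorem cj {f : ℝ → ℂ} (hf : BC R f) : BC R (fun r => (starRingEnd ℂ) (f r)) := by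
  obtain ⟨cf, A, hA⟩ := hf
  refine ⟨Complex.continuous_conj.comp_continuousOn cf, A, fun r hr => ?_⟩
  simpa using hA r hr

theorem ofReal {f : ℝ → ℝ} (hf : BC R f) : BC R (fun r => (f r : ℂ)) := by
  obtain ⟨cf, A, hA⟩ := hf
  refine ⟨Complex.continuous_ofReal.comp_continuousOn cf, A, fun r hr => ?_⟩
  simpa using hA r hr

theorem re {f : ℝ → ℂ} (hf : BC R f) : BC R (fun r => (f r).re) := by
  obtain ⟨cf, A, hA⟩ := hf
  exact ⟨Complex.continuous_re.comp_continuousOn cf, A, fun r hr =>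
    (Complex.abs_re_le_norm _).trans (hA r hr)⟩

theorem im {f : ℝ → ℂ} (hf : BC R f) : BC R (fun r => (f r).im) := by
  obtain ⟨cf, A, hA⟩ := hf
  exact ⟨Complex.continuous_im.comp_continuousOn cf, A, fun r hr =>
    (Complex.abs_im_le_norm _).trans (hA r hr)⟩

theorem normSq {f : ℝ → ℂ} (hf : BC R f) : BC R (fun r => ‖f r‖ ^ 2) := by
  obtain ⟨cf, A, hA⟩ := hf
  refine ⟨(cf.norm).pow 2, A ^ 2, fun r hr => ?_⟩
  rw [Real.norm_of_nonneg (by positivity)]
  exact pow_le_pow_left₀ (norm_nonneg _) (hA r hr) 2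

theorem intble {E : Type*} [NormedAddCommGroup E] [NormedSpace ℝ E] {f : ℝ → E}
    (hf : BC R f) (hR : 0 < R) : IntervalIntegrable f volume 0 R := by
  obtain ⟨hc, C, hC⟩ := hf
  rw [intervalIntegrable_iff_integrableOn_Ioc_of_le hR.le]
  refine Integrable.of_bound (hc.aestronglyMeasurable measurableSet_Ioc) C ?_
  filter_upwards [ae_restrict_mem measurableSet_Ioc] with r hr
  exact hC r hr

/-- product with something tending to zero at `0` -/
theorem tendsto_zero_mulR {f g : ℝ → ℝ} (hR : 0 < R) (hf : BC R f)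
    (hg : Tendsto g (𝓝[>] 0) (𝓝 0)) : Tendsto (fun r => g r * f r) (𝓝[>] 0) (𝓝 0) := by
  obtain ⟨_, C, hC⟩ := hf
  refine squeeze_zero_norm' (a := fun r => |g r| * C) ?_ ?_
  · have : Ioc 0 R ∈ 𝓝[>] (0 : ℝ) := Ioc_mem_nhdsGT hR
    filter_upwards [this] with r hr
    rw [norm_mul]
    exact mul_le_mul_of_nonneg_left (hC r hr) (abs_nonneg _)
  · simpa using (hg.abs).mul_const C

end BC

/-- FTC on `(0,R]` with vanishing limit at `0` -/
theorem ftc0 {E : Type*} [NormedAddCommGroup E] [NormedSpace ℝ E] [CompleteSpace E]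
    {f f' : ℝ → E} {R : ℝ} (hR : 0 < R)
    (hd : ∀ r ∈ Ioc 0 R, HasDerivAt f (f' r) r) (hf' : BC R f')
    (h0 : Tendsto f (𝓝[>] 0) (𝓝 0)) :
    ∫ r in (0)..R, f' r = f R := by
  have h := intervalIntegral.integral_eq_sub_of_hasDerivAt_of_tendsto hR
    (fun x hx => hd x ⟨hx.1, hx.2.le⟩) (hf'.intble hR) h0
    ((hd R ⟨hR, le_rfl⟩).continuousAt.tendsto.mono_left nhdsWithin_le_nhds)
  rw [h, sub_zero]

/-- The eigen-system on `(0,R]`, regular at `0` (sources `sS`, `sD` allowed). -/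
structure SysOn (w b P rho b' P' : ℝ → ℝ) (kap n eps : ℝ) (lam : ℂ) (S S1 D D1 sS sD : ℝ → ℂ)
    (R : ℝ) : Prop where
  Rpos : 0 < R
  sys : ∀ r ∈ Ioc 0 R, Sys w b P rho kap n eps lam S S1 D D1 (sS r) (sD r) r
  hb : ∀ r ∈ Ioc 0 R, HasDerivAt b (b' r) r
  hP : ∀ r ∈ Ioc 0 R, HasDerivAt P (P' r) r
  cb' : ContinuousOn b' (Ioc 0 R)
  cP' : ContinuousOn P' (Ioc 0 R)
  crho : ContinuousOn rho (Ioc 0 R)
  csS : ContinuousOn sS (Ioc 0 R)
  csD : ContinuousOn sD (Ioc 0 R)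
  cS1 : ContinuousOn S1 (Ioc 0 R)
  cD1 : ContinuousOn D1 (Ioc 0 R)
  bdd : ∃ C, ∀ r ∈ Ioc 0 R, ‖S r‖ ≤ C ∧ ‖D r‖ ≤ C ∧ ‖S1 r‖ ≤ C ∧ ‖D1 r‖ ≤ C ∧
    |w r| ≤ C * r ^ 11 ∧ |b r| ≤ C ∧ |P r| ≤ C ∧
    |b' r| ≤ C ∧ |P' r| ≤ C ∧ |rho r| ≤ C ∧ ‖sS r‖ ≤ C ∧ ‖sD r‖ ≤ C

namespace SysOn

variable {w b P rho b' P' : ℝ → ℝ} {kap n eps : ℝ} {lam : ℂ} {S S1 D D1 sS sD : ℝ → ℂ} {R : ℝ}

theorem bcS (h : SysOn w b P rho b' P' kap n eps lam S S1 D D1 sS sD R) : BC R S := by
  obtain ⟨C, hC⟩ := h.bdd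
  exact ⟨fun r hr => (h.sys r hr).hS.continuousAt.continuousWithinAt, C, fun r hr => (hC r hr).1⟩
theorem bcD (h : SysOn w b P rho b' P' kap n eps lam S S1 D D1 sS sD R) : BC R D := by
  obtain ⟨C, hC⟩ := h.bdd
  exact ⟨fun r hr => (h.sys r hr).hD.continuousAt.continuousWithinAt, C, fun r hr => (hC r hr).2.1⟩
theorem bcS1 (h : SysOn w b P rho b' P' kap n eps lam S S1 D D1 sS sD R) : BC R S1 := by
  obtain ⟨C, hC⟩ := h.bdd
  exact ⟨h.cS1, C, fun r hr => (hC r hr).2.2.1⟩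
theorem bcD1 (h : SysOn w b P rho b' P' kap n eps lam S S1 D D1 sS sD R) : BC R D1 := by
  obtain ⟨C, hC⟩ := h.bdd
  exact ⟨h.cD1, C, fun r hr => (hC r hr).2.2.2.1⟩
theorem cw (h : SysOn w b P rho b' P' kap n eps lam S S1 D D1 sS sD R) :
    ContinuousOn w (Ioc 0 R) := fun r hr => (h.sys r hr).hw.continuousAt.continuousWithinAt

/-- `w / r ^ j` is bounded for `j ≤ 11` -/
theorem bcwj (h : SysOn w b P rho b' P' kap n eps lam S S1 D D1 sS sD R) (j : ℕ) (hj : j ≤ 11) :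
    BC R (fun r => w r / r ^ j) := by
  obtain ⟨C, hC⟩ := h.bdd
  refine ⟨h.cw.div (by fun_prop) (fun r hr => pow_ne_zero _ hr.1.ne'), |C| * R ^ (11 - j),
    fun r hr => ?_⟩
  have h1 := (hC r hr).2.2.2.2.1
  have hr0 := hr.1
  rw [norm_div, Real.norm_eq_abs, norm_pow, Real.norm_of_nonneg hr0.le, div_le_iff₀ (by positivity)]
  calc |w r| ≤ C * r ^ 11 := h1
    _ ≤ |C| * r ^ 11 := mul_le_mul_of_nonneg_right (le_abs_self C) (by positivity)
    _ = |C| * r ^ (11 - j) * r ^ j := by rw [mul_assoc, ← pow_add, Nat.sub_add_cancel hj]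
    _ ≤ |C| * R ^ (11 - j) * r ^ j := by
      refine mul_le_mul_of_nonneg_right (mul_le_mul_of_nonneg_left ?_ (abs_nonneg _))
        (by positivity)
      exact pow_le_pow_left₀ hr0.le hr.2 _

theorem bcw (h : SysOn w b P rho b' P' kap n eps lam S S1 D D1 sS sD R) : BC R w := by
  simpa using h.bcwj 0 (by norm_num)
theorem bcb (h : SysOn w b P rho b' P' kap n eps lam S S1 D D1 sS sD R) : BC R b := by
  obtain ⟨C, hC⟩ := h.bdd
  exact ⟨fun r hr => (h.hb r hr).continuousAt.continuousWithinAt, C,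
    fun r hr => (hC r hr).2.2.2.2.2.1⟩
theorem bcP (h : SysOn w b P rho b' P' kap n eps lam S S1 D D1 sS sD R) : BC R P := by
  obtain ⟨C, hC⟩ := h.bdd
  exact ⟨fun r hr => (h.hP r hr).continuousAt.continuousWithinAt, C,
    fun r hr => (hC r hr).2.2.2.2.2.2.1⟩
theorem bcb' (h : SysOn w b P rho b' P' kap n eps lam S S1 D D1 sS sD R) : BC R b' := by
  obtain ⟨C, hC⟩ := h.bdd
  exact ⟨h.cb', C, fun r hr => (hC r hr).2.2.2.2.2.2.2.1⟩
theorem bcP' (h : SysOn w b P rho b' P' kap n eps lam S S1 D D1 sS sD R) : BC R P' := by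
  obtain ⟨C, hC⟩ := h.bdd
  exact ⟨h.cP', C, fun r hr => (hC r hr).2.2.2.2.2.2.2.2.1⟩
theorem bcrho (h : SysOn w b P rho b' P' kap n eps lam S S1 D D1 sS sD R) : BC R rho := by
  obtain ⟨C, hC⟩ := h.bdd
  exact ⟨h.crho, C, fun r hr => (hC r hr).2.2.2.2.2.2.2.2.2.1⟩
theorem bcsS (h : SysOn w b P rho b' P' kap n eps lam S S1 D D1 sS sD R) : BC R sS := by
  obtain ⟨C, hC⟩ := h.bdd
  exact ⟨h.csS, C, fun r hr => (hC r hr).2.2.2.2.2.2.2.2.2.2.1⟩
theorem bcsD (h : SysOn w b P rho b' P' kap n eps lam S S1 D D1 sS sD R) : BC R sD := by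
  obtain ⟨C, hC⟩ := h.bdd
  exact ⟨h.csD, C, fun r hr => (hC r hr).2.2.2.2.2.2.2.2.2.2.2⟩

/-- `w → 0` at `0` -/
theorem w0 (h : SysOn w b P rho b' P' kap n eps lam S S1 D D1 sS sD R) :
    Tendsto w (𝓝[>] 0) (𝓝 0) := by
  obtain ⟨C, hC⟩ := h.bdd
  refine squeeze_zero_norm' (a := fun r => C * r ^ 11) ?_ ?_
  · filter_upwards [Ioc_mem_nhdsGT h.Rpos] with r hr
    exact (hC r hr).2.2.2.2.1
  · have : Tendsto (fun r : ℝ => C * r ^ 11) (𝓝 0) (𝓝 (C * 0 ^ 11)) := by
      exact (continuous_const.mul (continuous_pow 11)).tendsto 0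
    simpa using this.mono_left nhdsWithin_le_nhds

theorem w0C (h : SysOn w b P rho b' P' kap n eps lam S S1 D D1 sS sD R) {f : ℝ → ℂ}
    (hf : BC R f) : Tendsto (fun r => (w r : ℂ) * f r) (𝓝[>] 0) (𝓝 0) := by
  obtain ⟨_, C, hC⟩ := hf
  refine squeeze_zero_norm' (a := fun r => |w r| * C) ?_ ?_
  · filter_upwards [Ioc_mem_nhdsGT h.Rpos] with r hr
    rw [norm_mul, Complex.norm_real, Real.norm_eq_abs]
    exact mul_le_mul_of_nonneg_left (hC r hr) (abs_nonneg _)
  · simpa using (h.w0.abs).mul_const C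

end SysOn

/-- `K_S` (and `K_D` with `D`, `D1`) -/
noncomputable def KK (w : ℝ → ℝ) (kap : ℝ) (S S1 : ℝ → ℂ) (R : ℝ) : ℝ :=
  ∫ r in (0)..R, w r * (‖S1 r‖ ^ 2 + kap / r ^ 2 * ‖S r‖ ^ 2)
/-- `Pot` -/
noncomputable def Pot (w P : ℝ → ℝ) (n : ℝ) (S : ℝ → ℂ) (R : ℝ) : ℝ :=
  ∫ r in (0)..R, n * P r * w r * ‖S r‖ ^ 2
/-- `∫ w conj(S) D` -/
noncomputable def Nc (w : ℝ → ℝ) (S D : ℝ → ℂ) (R : ℝ) : ℂ :=
  ∫ r in (0)..R, (w r : ℂ) * (conj (S r) * D r)
/-- `A1 = ∫ w b conj(S) D'`, `A2 = AA w b D S1` -/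
noncomputable def AA (w b : ℝ → ℝ) (S D1 : ℝ → ℂ) (R : ℝ) : ℂ :=
  ∫ r in (0)..R, (w r : ℂ) * (b r * (conj (S r) * D1 r))

namespace SysOn

variable {w b P rho b' P' : ℝ → ℝ} {kap n eps : ℝ} {lam : ℂ} {S S1 D D1 sS sD : ℝ → ℂ} {R : ℝ}

theorem bcK {w : ℝ → ℝ} {S S1 : ℝ → ℂ} (hw : BC R w) (hw2 : BC R (fun r => w r / r ^ 2))
    (hS : BC R S) (hS1 : BC R S1) (kap : ℝ) :
    BC R (fun r => w r * (‖S1 r‖ ^ 2 + kap / r ^ 2 * ‖S r‖ ^ 2)) := by
  have h1 := (hw.mulR hS1.normSq).add (((BC.const kap).mulR hw2).mulR hS.normSq)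
  have e : (fun r => w r * (‖S1 r‖ ^ 2 + kap / r ^ 2 * ‖S r‖ ^ 2)) =
      fun r => w r * ‖S1 r‖ ^ 2 + kap * (w r / r ^ 2) * ‖S r‖ ^ 2 := by
    funext r
    ring
  rw [e]
  exact h1

theorem cns (z : ℂ) : z * conj z = ((‖z‖ ^ 2 : ℝ) : ℂ) := by
  rw [Complex.mul_conj, Complex.normSq_eq_norm_sq]

/-- **(E1)** complex form -/
theorem E1 (h : SysOn w b P rho b' P' kap n eps lam S S1 D D1 sS sD R) :
    (w R : ℂ) * (conj (S R) * S1 R) =
      ((KK w kap S S1 R + Pot w P n S R : ℝ) : ℂ)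
        - I * (AA w b S D1 R + lam * Nc w S D R + Nc w S sD R) := by
  have hR := h.Rpos
  have bK := bcK h.bcw (h.bcwj 2 (by norm_num)) h.bcS h.bcS1 kap
  have bP : BC R (fun r => n * P r * w r * ‖S r‖ ^ 2) :=
    (((BC.const n).mulR h.bcP).mulR h.bcw).mulR h.bcS.normSq
  have bA : BC R (fun r => (w r : ℂ) * (b r * (conj (S r) * D1 r))) :=
    h.bcw.ofReal.mulC (h.bcb.ofReal.mulC (h.bcS.cj.mulC h.bcD1))
  have bN : BC R (fun r => (w r : ℂ) * (conj (S r) * D r)) :=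
    h.bcw.ofReal.mulC (h.bcS.cj.mulC h.bcD)
  have bs : BC R (fun r => (w r : ℂ) * (conj (S r) * sD r)) :=
    h.bcw.ofReal.mulC (h.bcS.cj.mulC h.bcsD)
  have bKc := bK.ofReal
  have bPc := bP.ofReal
  have key := ftc0 (f := fun r => (w r : ℂ) * (conj (S r) * S1 r))
    (f' := fun r => ((((w r * (‖S1 r‖ ^ 2 + kap / r ^ 2 * ‖S r‖ ^ 2) : ℝ) : ℂ)
      + ((n * P r * w r * ‖S r‖ ^ 2 : ℝ) : ℂ))
      - I * (((w r : ℂ) * (b r * (conj (S r) * D1 r)) + lam * ((w r : ℂ) * (conj (S r) * D r)))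
        + (w r : ℂ) * (conj (S r) * sD r)))) hR
    (fun r hr => by
      have h1 := (h.sys r hr).hS1.mul (hasDerivAt_conj (h.sys r hr).hS)
      have e : (fun r => (w r : ℂ) * (conj (S r) * S1 r)) =
          (fun r => ((w r : ℂ) * S1 r)) * (fun r => conj (S r)) := by
        funext x
        simp only [Pi.mul_apply]
        ring
      rw [e]
      refine h1.congr_deriv ?_
      push_cast
      simp only [← Complex.ofReal_pow]
      rw [← cns, ← cns]
      push_cast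
      ring)
    ((bKc.add bPc).sub ((BC.const I).mulC ((bA.add ((BC.const lam).mulC bN)).add bs)))
    (h.w0C (h.bcS.cj.mulC h.bcS1))
  rw [← key]
  rw [intervalIntegral.integral_sub ((bKc.add bPc).intble hR)
      (((BC.const I).mulC ((bA.add ((BC.const lam).mulC bN)).add bs)).intble hR),
    intervalIntegral.integral_add (bKc.intble hR) (bPc.intble hR),
    intervalIntegral.integral_const_mul,
    intervalIntegral.integral_add ((bA.add ((BC.const lam).mulC bN)).intble hR) (bs.intble hR),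
    intervalIntegral.integral_add (bA.intble hR) (((BC.const lam).mulC bN).intble hR),
    intervalIntegral.integral_const_mul, intervalIntegral.integral_ofReal,
    intervalIntegral.integral_ofReal]
  unfold KK Pot AA Nc
  push_cast
  ring

/-- **(E2)** complex form -/
theorem E2 (h : SysOn w b P rho b' P' kap n eps lam S S1 D D1 sS sD R) :
    (w R : ℂ) * (conj (D R) * D1 R) =
      ((KK w kap D D1 R : ℝ) : ℂ)
        - I * (AA w b D S1 R + lam * Nc w D S R + Nc w D sS R) := by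
  have hR := h.Rpos
  have bK := bcK h.bcw (h.bcwj 2 (by norm_num)) h.bcD h.bcD1 kap
  have bA : BC R (fun r => (w r : ℂ) * (b r * (conj (D r) * S1 r))) :=
    h.bcw.ofReal.mulC (h.bcb.ofReal.mulC (h.bcD.cj.mulC h.bcS1))
  have bN : BC R (fun r => (w r : ℂ) * (conj (D r) * S r)) :=
    h.bcw.ofReal.mulC (h.bcD.cj.mulC h.bcS)
  have bs : BC R (fun r => (w r : ℂ) * (conj (D r) * sS r)) :=
    h.bcw.ofReal.mulC (h.bcD.cj.mulC h.bcsS)
  have bKc := bK.ofReal
  have key := ftc0 (f := fun r => (w r : ℂ) * (conj (D r) * D1 r))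
    (f' := fun r => (((w r * (‖D1 r‖ ^ 2 + kap / r ^ 2 * ‖D r‖ ^ 2) : ℝ) : ℂ))
      - I * (((w r : ℂ) * (b r * (conj (D r) * S1 r)) + lam * ((w r : ℂ) * (conj (D r) * S r)))
        + (w r : ℂ) * (conj (D r) * sS r))) hR
    (fun r hr => by
      have h1 := (h.sys r hr).hD1.mul (hasDerivAt_conj (h.sys r hr).hD)
      have e : (fun r => (w r : ℂ) * (conj (D r) * D1 r)) =
          (fun r => ((w r : ℂ) * D1 r)) * (fun r => conj (D r)) := by
        funext x
        simp only [Pi.mul_apply]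
        ring
      rw [e]
      refine h1.congr_deriv ?_
      push_cast
      simp only [← Complex.ofReal_pow]
      rw [← cns, ← cns]
      push_cast
      ring)
    (bKc.sub ((BC.const I).mulC ((bA.add ((BC.const lam).mulC bN)).add bs)))
    (h.w0C (h.bcD.cj.mulC h.bcD1))
  rw [← key]
  rw [intervalIntegral.integral_sub (bKc.intble hR)
      (((BC.const I).mulC ((bA.add ((BC.const lam).mulC bN)).add bs)).intble hR),
    intervalIntegral.integral_const_mul,
    intervalIntegral.integral_add ((bA.add ((BC.const lam).mulC bN)).intble hR) (bs.intble hR),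
    intervalIntegral.integral_add (bA.intble hR) (((BC.const lam).mulC bN).intble hR),
    intervalIntegral.integral_const_mul, intervalIntegral.integral_ofReal]
  unfold KK AA Nc
  ring

theorem conj_intervalIntegral (f : ℝ → ℂ) (a c : ℝ) :
    conj (∫ r in a..c, f r) = ∫ r in a..c, conj (f r) := by
  simp only [intervalIntegral, map_sub, ← integral_conj]

theorem conj_Nc (w : ℝ → ℝ) (S D : ℝ → ℂ) (R : ℝ) : conj (Nc w S D R) = Nc w D S R := by
  unfold Nc
  rw [conj_intervalIntegral]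
  congr 1
  funext r
  simp only [map_mul, Complex.conj_ofReal, Complex.conj_conj]
  ring

/-- **(T)** transport: `A1 + conj A2 = [w b conj(S) D] - (6 - 2 eps) Nc` -/
theorem T (h : SysOn w b P rho b' P' kap n eps lam S S1 D D1 sS sD R) :
    AA w b S D1 R + conj (AA w b D S1 R) =
      (w R : ℂ) * (b R * (conj (S R) * D R)) - (6 - 2 * eps) * Nc w S D R := by
  have hR := h.Rpos
  have bA : BC R (fun r => (w r : ℂ) * (b r * (conj (S r) * D1 r))) :=
    h.bcw.ofReal.mulC (h.bcb.ofReal.mulC (h.bcS.cj.mulC h.bcD1))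
  have bA2 : BC R (fun r => (w r : ℂ) * (b r * (D r * conj (S1 r)))) :=
    h.bcw.ofReal.mulC (h.bcb.ofReal.mulC (h.bcD.mulC h.bcS1.cj))
  have bN : BC R (fun r => (w r : ℂ) * (conj (S r) * D r)) :=
    h.bcw.ofReal.mulC (h.bcS.cj.mulC h.bcD)
  have key := ftc0 (f := fun r => (w r : ℂ) * (b r * (conj (S r) * D r)))
    (f' := fun r => ((6 - 2 * eps : ℝ) : ℂ) * ((w r : ℂ) * (conj (S r) * D r))
      + ((w r : ℂ) * (b r * (conj (S r) * D1 r)) + (w r : ℂ) * (b r * (D r * conj (S1 r))))) hR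
    (fun r hr => by
      have h1 := (h.sys r hr).hwb.ofReal_comp.mul
        ((hasDerivAt_conj (h.sys r hr).hS).mul (h.sys r hr).hD)
      have e : (fun r => (w r : ℂ) * (b r * (conj (S r) * D r))) =
          (fun r => ((w r * b r : ℝ) : ℂ)) * ((fun r => conj (S r)) * D) := by
        funext x
        simp only [Pi.mul_apply]
        push_cast
        ring
      rw [e]
      refine h1.congr_deriv ?_
      simp only [Pi.mul_apply]
      push_cast
      ring)
    (((BC.const ((6 - 2 * eps : ℝ) : ℂ)).mulC bN).add (bA.add bA2))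
    (h.w0C (h.bcb.ofReal.mulC (h.bcS.cj.mulC h.bcD)))
  have e2 : conj (AA w b D S1 R) = ∫ r in (0)..R, (w r : ℂ) * (b r * (D r * conj (S1 r))) := by
    unfold AA
    rw [conj_intervalIntegral]
    congr 1
    funext r
    simp only [map_mul, Complex.conj_ofReal, Complex.conj_conj]
  rw [← key, e2,
    intervalIntegral.integral_add (((BC.const ((6 - 2 * eps : ℝ) : ℂ)).mulC bN).intble hR)
      ((bA.add bA2).intble hR),
    intervalIntegral.integral_const_mul,
    intervalIntegral.integral_add (bA.intble hR) (bA2.intble hR)]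
  unfold AA Nc
  push_cast
  ring

/-- (E1), real part -/
theorem E1re (h : SysOn w b P rho b' P' kap n eps lam S S1 D D1 sS sD R) :
    KK w kap S S1 R + Pot w P n S R = w R * (conj (S R) * S1 R).re
      - (AA w b S D1 R).im - (lam * Nc w S D R).im - (Nc w S sD R).im := by
  have h1 := congrArg Complex.re h.E1
  rw [Complex.re_ofReal_mul, Complex.sub_re, Complex.ofReal_re, Complex.I_mul_re,
    Complex.add_im, Complex.add_im] at h1
  linarith

/-- (E2), real part -/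
theorem E2re (h : SysOn w b P rho b' P' kap n eps lam S S1 D D1 sS sD R) :
    KK w kap D D1 R = w R * (conj (D R) * D1 R).re
      - (AA w b D S1 R).im - (lam * Nc w D S R).im - (Nc w D sS R).im := by
  have h1 := congrArg Complex.re h.E2
  rw [Complex.re_ofReal_mul, Complex.sub_re, Complex.ofReal_re, Complex.I_mul_re,
    Complex.add_im, Complex.add_im] at h1
  linarith

/-- **(charge)** `Im[w(conj S S' + conj D D')] + Re[w b conj S D] = 2 (3 - eps - Re lam) Re Nc - Re(sources)` -/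
theorem charge (h : SysOn w b P rho b' P' kap n eps lam S S1 D D1 sS sD R) :
    w R * (conj (S R) * S1 R + conj (D R) * D1 R).im + w R * b R * (conj (S R) * D R).re
      = 2 * (3 - eps - lam.re) * (Nc w S D R).re - (Nc w S sD R).re - (Nc w D sS R).re := by
  have h1 := congrArg Complex.im h.E1
  have h2 := congrArg Complex.im h.E2
  have h3 := congrArg Complex.re h.T
  rw [← conj_Nc w S D R] at h2
  simp only [Complex.im_ofReal_mul, Complex.re_ofReal_mul, Complex.sub_im, Complex.ofReal_im,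
    Complex.I_mul_im, Complex.add_re, Complex.mul_re, Complex.conj_re, Complex.conj_im,
    Complex.sub_re, Complex.mul_im, Complex.ofReal_re, Complex.add_im] at h1 h2 h3 ⊢
  norm_num at h1 h2 h3 ⊢
  linarith

/-- `Im (A1 + A2) = 2 Im A1 - Im[w b conj S D] + (6 - 2 eps) Im Nc` -/
theorem im_A (h : SysOn w b P rho b' P' kap n eps lam S S1 D D1 sS sD R) :
    (AA w b S D1 R + AA w b D S1 R).im = 2 * (AA w b S D1 R).im
      - w R * b R * (conj (S R) * D R).im + (6 - 2 * eps) * (Nc w S D R).im := by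
  have h3 := congrArg Complex.im h.T
  simp only [Complex.im_ofReal_mul, Complex.re_ofReal_mul, Complex.sub_im, Complex.ofReal_im,
    Complex.I_mul_im, Complex.add_re, Complex.mul_re, Complex.conj_re, Complex.conj_im,
    Complex.sub_re, Complex.mul_im, Complex.ofReal_re, Complex.add_im] at h3 ⊢
  norm_num at h3 ⊢
  linarith

end SysOn

end Crest.Agent.R086.CCore
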