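import Crest.Agent.R086.CDecay

/-!
Row 86 (S0114), Part C, node C-H (helper362): decay of mode pairs.
-/

set_option autoImplicit false

open Complex Filter Topology Set

namespace Crest.Agent.R086.CDecay

/-- `f = O(r^(-a))` on `[1,∞)` -/
def Dk (f : ℝ → ℂ) (a : ℝ) : Prop := ∃ C : ℝ, 0 ≤ C ∧ ∀ r : ℝ, 1 ≤ r → ‖f r‖ ≤ C * r ^ (-a)

theorem Dk.mono {f : ℝ → ℂ} {a b : ℝ} (h : Dk f a) (hab : b ≤ a) : Dk f b := by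
  obtain ⟨C, hC, h⟩ := h
  refine ⟨C, hC, fun r hr => (h r hr).trans ?_⟩
  apply mul_le_mul_of_nonneg_left _ hC
  exact Real.rpow_le_rpow_of_exponent_le hr (by linarith)

theorem Dk.of_bdd {f : ℝ → ℂ} {M : ℝ} (hM : 0 ≤ M) (h : ∀ r : ℝ, 1 ≤ r → ‖f r‖ ≤ M) : Dk f 0 :=
  ⟨M, hM, fun r hr => by simpa using h r hr⟩

/-- step (E): the equation gives one more power for `F'`. -/
theorem stepE {F F1 F2 G : ℝ → ℂ} {mu : ℂ} {K a : ℝ} (hK : 0 ≤ K)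
    (hE : ∀ r : ℝ, 1 ≤ r → ‖(r / 2 : ℂ) * F1 r + mu * F r‖ ≤
      K * (‖F2 r‖ + ‖F1 r‖ / r + (‖F r‖ + ‖G r‖) / r ^ 2))
    (h0 : Dk F a) (h1 : Dk F1 a) (h2 : Dk F2 a) (hG : Dk G a) : Dk F1 (1 + a) := by
  obtain ⟨A0, a0, h0⟩ := h0
  obtain ⟨A1, a1, h1⟩ := h1
  obtain ⟨A2, a2, h2⟩ := h2
  obtain ⟨A3, a3, hG⟩ := hG
  refine ⟨2 * (K * (A2 + A1 + (A0 + A3)) + ‖mu‖ * A0), by positivity, ?_⟩
  intro r hr
  have hr0 : 0 < r := by linarith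
  have g0 := h0 r hr
  have g1 := h1 r hr
  have g2 := h2 r hr
  have g3 := hG r hr
  have gE := hE r hr
  set x : ℝ := r ^ (-a) with hx
  have hx0 : 0 < x := Real.rpow_pos_of_pos hr0 _
  have e1 : ‖F1 r‖ / r ≤ A1 * x := by
    rw [div_le_iff₀ hr0]
    nlinarith [mul_nonneg a1 hx0.le]
  have e2 : (‖F r‖ + ‖G r‖) / r ^ 2 ≤ (A0 + A3) * x := by
    rw [div_le_iff₀ (by positivity)]
    have : 1 ≤ r ^ 2 := one_le_pow₀ hr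
    nlinarith [mul_nonneg (add_nonneg a0 a3) hx0.le]
  have e3 : ‖(r / 2 : ℂ) * F1 r + mu * F r‖ ≤ K * (A2 + A1 + (A0 + A3)) * x := by
    refine gE.trans ?_
    have : ‖F2 r‖ + ‖F1 r‖ / r + (‖F r‖ + ‖G r‖) / r ^ 2 ≤ (A2 + A1 + (A0 + A3)) * x := by
      linarith
    calc K * (‖F2 r‖ + ‖F1 r‖ / r + (‖F r‖ + ‖G r‖) / r ^ 2) ≤ K * ((A2 + A1 + (A0 + A3)) * x) :=
          mul_le_mul_of_nonneg_left this hK
      _ = _ := by ring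
  have e4 : ‖(r / 2 : ℂ) * F1 r‖ = r / 2 * ‖F1 r‖ := by
    rw [norm_mul, norm_div, Complex.norm_real, Real.norm_of_nonneg hr0.le]
    norm_num
  have e5 : r / 2 * ‖F1 r‖ ≤ (K * (A2 + A1 + (A0 + A3)) + ‖mu‖ * A0) * x := by
    rw [← e4]
    have := norm_sub_le ((r / 2 : ℂ) * F1 r + mu * F r) (mu * F r)
    rw [add_sub_cancel_right] at this
    have h6 : ‖mu * F r‖ ≤ ‖mu‖ * A0 * x := by
      rw [norm_mul, mul_assoc]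
      exact mul_le_mul_of_nonneg_left g0 (norm_nonneg _)
    linarith
  have e6 : r ^ (-(1 + a)) = r⁻¹ * x := by
    rw [neg_add, Real.rpow_add hr0, Real.rpow_neg_one]
  rw [e6]
  have e7 : ‖F1 r‖ = (r / 2 * ‖F1 r‖) * (2 * r⁻¹) := by field_simp
  rw [e7]
  calc (r / 2 * ‖F1 r‖) * (2 * r⁻¹) ≤ ((K * (A2 + A1 + (A0 + A3)) + ‖mu‖ * A0) * x) * (2 * r⁻¹) :=
        mul_le_mul_of_nonneg_right e5 (by positivity)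
    _ = _ := by ring

/-- step (I): integration. -/
theorem stepI {F F1 F2 G : ℝ → ℂ} {mu : ℂ} {K a b : ℝ} (hK : 0 ≤ K) (hb : b < 2 * mu.re)
    (hba : b ≤ a + 2) (hF : ∀ r : ℝ, 1 ≤ r → HasDerivAt F (F1 r) r)
    (hE : ∀ r : ℝ, 1 ≤ r → ‖(r / 2 : ℂ) * F1 r + mu * F r‖ ≤
      K * (‖F2 r‖ + ‖F1 r‖ / r + (‖F r‖ + ‖G r‖) / r ^ 2))
    (h0 : Dk F a) (h1 : Dk F1 (1 + a)) (h2 : Dk F2 b) (hG : Dk G a) : Dk F b := by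
  obtain ⟨A0, a0, h0⟩ := h0
  obtain ⟨A1, a1, h1⟩ := h1
  obtain ⟨A2, a2, h2⟩ := h2
  obtain ⟨A3, a3, hG⟩ := hG
  apply integrate (mu := mu) (C := K * (A2 + A1 + (A0 + A3))) (by positivity) hb hF
  intro r hr
  have hr0 : 0 < r := by linarith
  have g0 := h0 r hr
  have g1 := h1 r hr
  have g2 := h2 r hr
  have g3 := hG r hr
  refine (hE r hr).trans ?_
  have p1 : r ^ (-(1 + a)) / r ≤ r ^ (-b) := by
    have : r ^ (-(1 + a)) / r = r ^ (-(a + 2)) := by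
      rw [div_eq_mul_inv, ← Real.rpow_neg_one, ← Real.rpow_add hr0]
      congr 1; ring
    rw [this]
    exact Real.rpow_le_rpow_of_exponent_le hr (by linarith)
  have p2 : r ^ (-a) / r ^ 2 ≤ r ^ (-b) := by
    have : r ^ (-a) / r ^ 2 = r ^ (-(a + 2)) := by
      have e : (r ^ 2 : ℝ) = r ^ (2 : ℝ) := by norm_cast
      rw [e, ← Real.rpow_sub hr0]
      congr 1; ring
    rw [this]
    exact Real.rpow_le_rpow_of_exponent_le hr (by linarith)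
  have e1 : ‖F1 r‖ / r ≤ A1 * r ^ (-b) := by
    calc ‖F1 r‖ / r ≤ (A1 * r ^ (-(1 + a))) / r := div_le_div_of_nonneg_right g1 hr0.le
      _ = A1 * (r ^ (-(1 + a)) / r) := by ring
      _ ≤ _ := mul_le_mul_of_nonneg_left p1 a1
  have e2 : (‖F r‖ + ‖G r‖) / r ^ 2 ≤ (A0 + A3) * r ^ (-b) := by
    calc (‖F r‖ + ‖G r‖) / r ^ 2 ≤ ((A0 + A3) * r ^ (-a)) / r ^ 2 :=
          div_le_div_of_nonneg_right (by linarith) (by positivity)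
      _ = (A0 + A3) * (r ^ (-a) / r ^ 2) := by ring
      _ ≤ _ := mul_le_mul_of_nonneg_left p2 (by positivity)
  calc K * (‖F2 r‖ + ‖F1 r‖ / r + (‖F r‖ + ‖G r‖) / r ^ 2)
      ≤ K * (A2 * r ^ (-b) + A1 * r ^ (-b) + (A0 + A3) * r ^ (-b)) :=
        mul_le_mul_of_nonneg_left (by linarith) hK
    _ = _ := by ring

/-- **decay of pairs.** -/
theorem pair {F G : ℕ → ℝ → ℂ} {mu nu : ℂ} {K M : ℝ} (hK : 0 ≤ K) (hM : 0 ≤ M)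
    (hdF : ∀ j, j < 20 → ∀ s : ℝ, 1 ≤ s → HasDerivAt (F j) (F (j + 1) s) s)
    (hdG : ∀ j, j < 20 → ∀ s : ℝ, 1 ≤ s → HasDerivAt (G j) (G (j + 1) s) s)
    (hbF : ∀ j, j ≤ 20 → ∀ s : ℝ, 1 ≤ s → ‖F j s‖ ≤ M)
    (hbG : ∀ j, j ≤ 20 → ∀ s : ℝ, 1 ≤ s → ‖G j s‖ ≤ M)
    (hEF : ∀ r : ℝ, 1 ≤ r → ‖(r / 2 : ℂ) * F 1 r + mu * F 0 r‖ ≤
      K * (‖F 2 r‖ + ‖F 1 r‖ / r + (‖F 0 r‖ + ‖G 0 r‖) / r ^ 2))
    (hEG : ∀ r : ℝ, 1 ≤ r → ‖(r / 2 : ℂ) * G 1 r + nu * G 0 r‖ ≤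
      K * (‖G 2 r‖ + ‖G 1 r‖ / r + (‖G 0 r‖ + ‖F 0 r‖) / r ^ 2)) :
    ∀ m : ℕ, m ≤ 18 → (m : ℝ) / 2 < 2 * mu.re → (m : ℝ) / 2 < 2 * nu.re →
      (Dk (F 0) (m / 2) ∧ Dk (F 1) (m / 2) ∧ Dk (F 2) (m / 2)) ∧
      (Dk (G 0) (m / 2) ∧ Dk (G 1) (m / 2) ∧ Dk (G 2) (m / 2)) := by
  intro m
  induction m with
  | zero =>
    intro _ _ _
    have e : ((0 : ℕ) : ℝ) / 2 = 0 := by norm_num
    rw [e]
    exact ⟨⟨Dk.of_bdd hM (hbF 0 (by norm_num)), Dk.of_bdd hM (hbF 1 (by norm_num)),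
      Dk.of_bdd hM (hbF 2 (by norm_num))⟩, Dk.of_bdd hM (hbG 0 (by norm_num)),
      Dk.of_bdd hM (hbG 1 (by norm_num)), Dk.of_bdd hM (hbG 2 (by norm_num))⟩
  | succ m ih =>
    intro hm h1 h2
    have hcast : ((m + 1 : ℕ) : ℝ) / 2 = m / 2 + 1 / 2 := by push_cast; ring
    rw [hcast] at h1 h2 ⊢
    obtain ⟨⟨f0, f1, f2⟩, g0, g1, g2⟩ := ih (by omega) (by linarith) (by linarith)
    have hm17 : (m : ℝ) ≤ 17 := by exact_mod_cast (by omega : m ≤ 17)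
    have hm0 : (0 : ℝ) ≤ m := Nat.cast_nonneg m
    set a : ℝ := (m : ℝ) / 2 with ha
    have ha0 : 0 ≤ a := by positivity
    have F1' : Dk (F 1) (1 + a) := stepE hK hEF f0 f1 f2 g0
    have G1' : Dk (G 1) (1 + a) := stepE hK hEG g0 g1 g2 f0
    have F2' : Dk (F 2) (a + 1 / 2) := by
      obtain ⟨C1, c1, hc1⟩ := F1'
      obtain ⟨C2, c2, hc2⟩ := interp (f := F) (al := 1 + a) (by linarith) hM c1 hdF hbF hc1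
      exact Dk.mono ⟨C2, c2, hc2⟩ (by linarith)
    have G2' : Dk (G 2) (a + 1 / 2) := by
      obtain ⟨C1, c1, hc1⟩ := G1'
      obtain ⟨C2, c2, hc2⟩ := interp (f := G) (al := 1 + a) (by linarith) hM c1 hdG hbG hc1
      exact Dk.mono ⟨C2, c2, hc2⟩ (by linarith)
    have F0' : Dk (F 0) (a + 1 / 2) :=
      stepI hK h1 (by linarith) (hdF 0 (by norm_num)) hEF f0 F1' F2' g0
    have G0' : Dk (G 0) (a + 1 / 2) :=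
      stepI hK h2 (by linarith) (hdG 0 (by norm_num)) hEG g0 G1' G2' f0
    exact ⟨⟨F0', F1'.mono (by linarith), F2'⟩, G0', G1'.mono (by linarith), G2'⟩

/-- decay with one more power for the derivatives -/
theorem pair' {F G : ℕ → ℝ → ℂ} {mu nu : ℂ} {K M : ℝ} (hK : 0 ≤ K) (hM : 0 ≤ M)
    (hdF : ∀ j, j < 20 → ∀ s : ℝ, 1 ≤ s → HasDerivAt (F j) (F (j + 1) s) s)
    (hdG : ∀ j, j < 20 → ∀ s : ℝ, 1 ≤ s → HasDerivAt (G j) (G (j + 1) s) s)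
    (hbF : ∀ j, j ≤ 20 → ∀ s : ℝ, 1 ≤ s → ‖F j s‖ ≤ M)
    (hbG : ∀ j, j ≤ 20 → ∀ s : ℝ, 1 ≤ s → ‖G j s‖ ≤ M)
    (hEF : ∀ r : ℝ, 1 ≤ r → ‖(r / 2 : ℂ) * F 1 r + mu * F 0 r‖ ≤
      K * (‖F 2 r‖ + ‖F 1 r‖ / r + (‖F 0 r‖ + ‖G 0 r‖) / r ^ 2))
    (hEG : ∀ r : ℝ, 1 ≤ r → ‖(r / 2 : ℂ) * G 1 r + nu * G 0 r‖ ≤
      K * (‖G 2 r‖ + ‖G 1 r‖ / r + (‖G 0 r‖ + ‖F 0 r‖) / r ^ 2))
    (m : ℕ) (hm : m ≤ 18) (h1 : (m : ℝ) / 2 < 2 * mu.re) (h2 : (m : ℝ) / 2 < 2 * nu.re) :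
      Dk (F 0) (m / 2) ∧ Dk (F 1) (1 + m / 2) ∧ Dk (G 0) (m / 2) ∧ Dk (G 1) (1 + m / 2) := by
  obtain ⟨⟨f0, f1, f2⟩, g0, g1, g2⟩ := pair hK hM hdF hdG hbF hbG hEF hEG m hm h1 h2
  exact ⟨f0, stepE hK hEF f0 f1 f2 g0, g0, stepE hK hEG g0 g1 g2 f0⟩

end Crest.Agent.R086.CDecay
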