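import Crest.Agent.R086.CCore

/-!
Row 86, Part C, regime (R3) `|lam| + l` large: definitions and frozen statements (helper777).
One-dimensional ODE level.  `w = |q|² r¹¹`, `b = 2θ' + r/2`, `rho = q'/q`, `P = |q|^n`, `m` = virial multiplier,
`(m w)' = 12 w`, `Lam = l(l+10)`, `lam = κ + iμ`.
-/

set_option autoImplicit false

open Complex Set Filter Topology MeasureTheory

namespace Crest.Agent.R086.CEx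

open Crest.Agent.R086.CCore

local notation "conj" => starRingEnd ℂ

/-- Bounds of the coefficient functions on `(0, rb]`. `P1 = P'`. -/
structure Coef (w b P P1 rho m : ℝ → ℝ) (C0 e n rb : ℝ) : Prop where
  C0_one : 1 ≤ C0
  n_one : 1 ≤ n
  e_nonneg : 0 ≤ e
  rb_lo : 1 ≤ rb
  rb_hi : rb ≤ C0
  wlo : ∀ r ∈ Ioc 0 rb, r ^ 11 / C0 ≤ w r
  whi : ∀ r ∈ Ioc 0 rb, w r ≤ C0 * r ^ 11
  wcont : ContinuousOn w (Ioc 0 rb)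
  bhi : ∀ r ∈ Ioc 0 rb, |b r| ≤ C0 * r
  bcont : ContinuousOn b (Ioc 0 rb)
  rhohi : ∀ r ∈ Ioc 0 rb, |rho r| ≤ C0
  rhocont : ContinuousOn rho (Ioc 0 rb)
  P_nonneg : ∀ r ∈ Ioc 0 rb, 0 ≤ P r
  P_le : ∀ r ∈ Ioc 0 rb, P r ≤ C0
  P_der : ∀ r ∈ Ioc 0 rb, HasDerivAt P (P1 r) r
  P1_cont : ContinuousOn P1 (Ioc 0 rb)
  P1_bd : ∃ B, ∀ r ∈ Ioc 0 rb, |P1 r| ≤ B
  P1_le : ∀ r ∈ Ioc 0 rb, n * P1 r ≤ e * (n * P r) + e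
  m_der : ∀ r ∈ Ioc 0 rb, HasDerivAt m (12 - m r * (11 / r + 2 * rho r)) r
  m_lo : ∀ r ∈ Ioc 0 rb, r / C0 ≤ m r
  m_hi : ∀ r ∈ Ioc 0 rb, m r ≤ C0 * r
  m1_lo : ∀ r ∈ Ioc 0 rb, 1 / C0 ≤ 12 - m r * (11 / r + 2 * rho r)
  m1_hi : ∀ r ∈ Ioc 0 rb, 12 - m r * (11 / r + 2 * rho r) ≤ C0

/-- An exact (source-free) solution pair on `(0, rb]`, bounded at `0`. -/
structure Sol (w b P rho : ℝ → ℝ) (Lam n eps : ℝ) (lam : ℂ) (S S1 D D1 : ℝ → ℂ) (rb : ℝ) : Prop where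
  Lam_nonneg : 0 ≤ Lam
  eps_nonneg : 0 ≤ eps
  eps_le : eps ≤ 1
  sys : ∀ r ∈ Ioc 0 rb, Sys w b P rho Lam n eps lam S S1 D D1 0 0 r
  bdd : ∃ B, ∀ r ∈ Ioc 0 rb, ‖S r‖ ≤ B ∧ ‖D r‖ ≤ B ∧ ‖S1 r‖ ≤ B ∧ ‖D1 r‖ ≤ B ∧
    (Lam ≠ 0 → ‖S r‖ ≤ B * r ∧ ‖D r‖ ≤ B * r)

/-- `∫ w(|f'|² + Λ|f|²/r²)` -/
noncomputable def KK (w : ℝ → ℝ) (Lam : ℝ) (f f1 : ℝ → ℂ) (rb : ℝ) : ℝ :=
  ∫ r in (0 : ℝ)..rb, w r * (‖f1 r‖ ^ 2 + Lam / r ^ 2 * ‖f r‖ ^ 2)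
/-- `∫ w |f|²` -/
noncomputable def L2 (w : ℝ → ℝ) (f : ℝ → ℂ) (rb : ℝ) : ℝ := ∫ r in (0 : ℝ)..rb, w r * ‖f r‖ ^ 2
noncomputable def Pot (w P : ℝ → ℝ) (n : ℝ) (S : ℝ → ℂ) (rb : ℝ) : ℝ :=
  ∫ r in (0 : ℝ)..rb, n * P r * w r * ‖S r‖ ^ 2
noncomputable def Nc (w : ℝ → ℝ) (S D : ℝ → ℂ) (rb : ℝ) : ℂ :=
  ∫ r in (0 : ℝ)..rb, (w r : ℂ) * (conj (S r) * D r)
/-- `∫ w b conj(f) g'` -/
noncomputable def AA (w b : ℝ → ℝ) (f g1 : ℝ → ℂ) (rb : ℝ) : ℂ :=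
  ∫ r in (0 : ℝ)..rb, ((w r * b r : ℝ) : ℂ) * (conj (f r) * g1 r)
/-- `∫ m w (D conj S' + S conj D')` -/
noncomputable def Xm (w m : ℝ → ℝ) (S S1 D D1 : ℝ → ℂ) (rb : ℝ) : ℂ :=
  ∫ r in (0 : ℝ)..rb, ((m r * w r : ℝ) : ℂ) * (D r * conj (S1 r) + S r * conj (D1 r))
/-- left side of the virial identity -/
noncomputable def Vir (w rho m P1 : ℝ → ℝ) (Lam n : ℝ) (S S1 D D1 : ℝ → ℂ) (rb : ℝ) : ℝ :=
  (∫ r in (0 : ℝ)..rb, w r * ((12 - m r * (11 / r + 2 * rho r)) * (‖S1 r‖ ^ 2 + ‖D1 r‖ ^ 2)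
      + Lam * (m r / r) / r ^ 2 * (‖S r‖ ^ 2 + ‖D r‖ ^ 2)))
    - (1 / 2) * ∫ r in (0 : ℝ)..rb, n * P1 r * (m r * w r) * ‖S r‖ ^ 2
/-- boundary term of the virial identity at `r` -/
noncomputable def Vb (w m P : ℝ → ℝ) (Lam n : ℝ) (lam : ℂ) (S S1 D D1 : ℝ → ℂ) (r : ℝ) : ℝ :=
  m r * w r * (‖S1 r‖ ^ 2 + ‖D1 r‖ ^ 2) - Lam * (m r * w r / r ^ 2) * (‖S r‖ ^ 2 + ‖D r‖ ^ 2)
    - n * (m r * w r * P r) * ‖S r‖ ^ 2 - 2 * lam.im * (m r * w r) * (D r * conj (S r)).re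

/-- INTEGRATED IDENTITIES (owner helper310). -/
def IdStmt : Prop :=
  ∀ (w b P P1 rho m : ℝ → ℝ) (C0 e n rb Lam eps : ℝ) (lam : ℂ) (S S1 D D1 : ℝ → ℂ),
    Coef w b P P1 rho m C0 e n rb → Sol w b P rho Lam n eps lam S S1 D D1 rb →
    -- (E1)
    (KK w Lam S S1 rb + Pot w P n S rb =
      w rb * (conj (S rb) * S1 rb).re - (AA w b S D1 rb).im - (lam * Nc w S D rb).im) ∧
    -- (E2)
    (KK w Lam D D1 rb =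
      w rb * (conj (D rb) * D1 rb).re - (AA w b D S1 rb).im - (lam * conj (Nc w S D rb)).im) ∧
    -- (A12)
    (AA w b S D1 rb + conj (AA w b D S1 rb) =
      ((w rb * b rb : ℝ) : ℂ) * (conj (S rb) * D rb) - (6 - 2 * eps) * Nc w S D rb) ∧
    -- (charge)
    (w rb * (conj (S rb) * S1 rb + conj (D rb) * D1 rb).im + w rb * b rb * (conj (S rb) * D rb).re =
      (6 - 2 * eps - 2 * lam.re) * (Nc w S D rb).re) ∧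
    -- (virial)
    (Vir w rho m P1 Lam n S S1 D D1 rb =
      (1 / 2) * Vb w m P Lam n lam S S1 D D1 rb
        + 6 * (w rb * (conj (S rb) * S1 rb + conj (D rb) * D1 rb).re)
        - 6 * (AA w b S D1 rb + AA w b D S1 rb).im
        - lam.re * (Xm w m S S1 D D1 rb).im) ∧
    -- (X)  Xm = [m w conj(S) D] - 12 Nc + 2 i Im ∫ m w S conj D'
    ((Xm w m S S1 D D1 rb).im = (m rb * w rb) * (conj (S rb) * D rb).im - 12 * (Nc w S D rb).im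
        + 2 * (∫ r in (0 : ℝ)..rb, ((m r * w r : ℝ) : ℂ) * (S r * conj (D1 r))).im)

/-- boundary relation with exterior log-derivatives `h1` (for `F`) and `h2` (for `conj G`), error `dl`.
`w0 = w'/(2w)`.  (`h = φ'/φ`, `φ = r^{11/2} e^{ir²/8} f_out`.) -/
structure Bdry (w b rho : ℝ → ℝ) (S S1 D D1 : ℝ → ℂ) (h1 h2 : ℂ) (dl rb : ℝ) : Prop where
  dl_nonneg : 0 ≤ dl
  relF : ‖(S1 rb + D1 rb) - (h1 - ((11 / rb + 2 * rho rb) / 2 : ℝ) - I * (b rb / 2 : ℝ)) * (S rb + D rb)‖ ^ 2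
      ≤ dl * (L2 w S rb + L2 w D rb)
  relG : ‖(S1 rb - D1 rb) - (conj h2 - ((11 / rb + 2 * rho rb) / 2 : ℝ) + I * (b rb / 2 : ℝ)) * (S rb - D rb)‖ ^ 2
      ≤ dl * (L2 w S rb + L2 w D rb)

/-- CASE II (owner helper777): both channels evanescent with margin `eta`. -/
def CaseII : Prop :=
  ∀ C0 eta : ℝ, 1 ≤ C0 → 0 < eta → ∃ M c : ℝ, 0 < M ∧ 0 < c ∧
  ∀ (w b P P1 rho m : ℝ → ℝ) (e n rb Lam eps : ℝ) (lam h1 h2 : ℂ) (S S1 D D1 : ℝ → ℂ) (dl : ℝ),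
    Coef w b P P1 rho m C0 e n rb → Sol w b P rho Lam n eps lam S S1 D D1 rb →
    Bdry w b rho S S1 D D1 h1 h2 dl rb →
    |lam.re| ≤ C0 → M ≤ Lam → |lam.im| * rb ^ 2 ≤ (1 - eta) * Lam →
    h1.re ≤ -(Real.sqrt Lam) / C0 → h2.re ≤ -(Real.sqrt Lam) / C0 →
    dl ≤ c →
    ∀ r ∈ Ioc 0 rb, S r = 0 ∧ D r = 0

/-- CASE III (owner helper153): `lam.im = -k²`, channel 1 propagating with margin, channel 2 evanescent. -/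
def CaseIII : Prop :=
  ∀ C0 : ℝ, 1 ≤ C0 → ∃ M c : ℝ, 0 < M ∧ 0 < c ∧
  ∀ (w b P P1 rho m : ℝ → ℝ) (e n rb Lam eps k : ℝ) (lam h1 h2 : ℂ) (S S1 D D1 : ℝ → ℂ) (dl : ℝ),
    Coef w b P P1 rho m C0 e n rb → Sol w b P rho Lam n eps lam S S1 D D1 rb →
    Bdry w b rho S S1 D D1 h1 h2 dl rb →
    |lam.re| ≤ C0 → M ≤ k → lam.im = -k ^ 2 → Lam ≤ C0 * k ^ 2 → e ≤ c →
    k / C0 ≤ h1.im → ‖h1‖ ≤ C0 * k →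
    h2.re ≤ -k / C0 → ‖h2‖ ≤ C0 * k → ‖h2‖ ^ 2 ≤ Lam / rb ^ 2 + k ^ 2 + C0 → |h2.im| ≤ C0 / k →
    dl * k ^ 2 ≤ c →
    ∀ r ∈ Ioc 0 rb, S r = 0 ∧ D r = 0

end Crest.Agent.R086.CEx
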