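import Crest.Agent.R086.CExId

/-!
Row 86 (S0114), Part C, regime R3: CASE II (both channels evanescent) of `CExDefs` (helper777).
-/

set_option autoImplicit false

open Complex MeasureTheory Set Filter Topology

namespace Crest.Agent.R086.CEx.II

open CCore

local notation "conj" => starRingEnd ℂ

variable {w b P P1 rho m : ℝ → ℝ} {C0 e n rb Lam eps : ℝ} {lam : ℂ} {S S1 D D1 : ℝ → ℂ}

theorem int_mono {f g : ℝ → ℝ} {R : ℝ} (h0 : 0 ≤ R) (hf : IntervalIntegrable f volume 0 R)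
    (hg : IntervalIntegrable g volume 0 R) (h : ∀ r ∈ Ioc 0 R, f r ≤ g r) :
    ∫ r in (0 : ℝ)..R, f r ≤ ∫ r in (0 : ℝ)..R, g r := by
  rw [intervalIntegral.integral_of_le h0, intervalIntegral.integral_of_le h0]
  exact setIntegral_mono_on ((intervalIntegrable_iff_integrableOn_Ioc_of_le h0).mp hf)
    ((intervalIntegrable_iff_integrableOn_Ioc_of_le h0).mp hg) measurableSet_Ioc h

theorem int_nonneg {f : ℝ → ℝ} {R : ℝ} (h0 : 0 ≤ R) (h : ∀ r ∈ Ioc 0 R, 0 ≤ f r) :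
    0 ≤ ∫ r in (0 : ℝ)..R, f r := by
  rw [intervalIntegral.integral_of_le h0]
  exact setIntegral_nonneg measurableSet_Ioc h

theorem norm_int_le {f : ℝ → ℂ} {g : ℝ → ℝ} {R : ℝ} (h0 : 0 ≤ R)
    (hg : IntervalIntegrable g volume 0 R) (h : ∀ r ∈ Ioc 0 R, ‖f r‖ ≤ g r) :
    ‖∫ r in (0 : ℝ)..R, f r‖ ≤ ∫ r in (0 : ℝ)..R, g r := by
  rw [intervalIntegral.integral_of_le h0, intervalIntegral.integral_of_le h0]
  refine norm_integral_le_of_norm_le ((intervalIntegrable_iff_integrableOn_Ioc_of_le h0).mp hg) ?_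
  exact (ae_restrict_iff' measurableSet_Ioc).mpr (Eventually.of_forall h)

/-- data derived from `Coef`, `Sol` -/
structure Der (w b P : ℝ → ℝ) (C0 n rb Lam : ℝ) (S S1 D D1 : ℝ → ℂ) : Prop where
  C1 : 1 ≤ C0
  rb1 : 1 ≤ rb
  rbC : rb ≤ C0
  Lam0 : 0 ≤ Lam
  n0 : 0 ≤ n
  bcw : BC rb w
  bcb : BC rb b
  bcP : BC rb P
  bcS : BC rb S
  bcS1 : BC rb S1
  bcD : BC rb D
  bcD1 : BC rb D1
  w0 : ∀ r ∈ Ioc 0 rb, 0 < w r
  wC : ∀ r ∈ Ioc 0 rb, w r ≤ C0 * r ^ 11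
  wr2 : BC rb (fun r => w r / r ^ 2)
  P0 : ∀ r ∈ Ioc 0 rb, 0 ≤ P r
  bC : ∀ r ∈ Ioc 0 rb, |b r| ≤ C0 * r

theorem der (hc : Coef w b P P1 rho m C0 e n rb) (hs : Sol w b P rho Lam n eps lam S S1 D D1 rb) :
    Der w b P C0 n rb Lam S S1 D D1 := by
  have h := sysOn hc hs
  exact
  { C1 := hc.C0_one
    rb1 := hc.rb_lo
    rbC := hc.rb_hi
    Lam0 := hs.Lam_nonneg
    n0 := le_trans zero_le_one hc.n_one
    bcw := h.bcw
    bcb := h.bcb
    bcP := h.bcP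
    bcS := h.bcS
    bcS1 := h.bcS1
    bcD := h.bcD
    bcD1 := h.bcD1
    w0 := fun r hr => lt_of_lt_of_le (div_pos (pow_pos hr.1 11)
      (lt_of_lt_of_le one_pos hc.C0_one)) (hc.wlo r hr)
    wC := hc.whi
    wr2 := h.bcwj 2 (by norm_num)
    P0 := hc.P_nonneg
    bC := hc.bhi }

section
variable {f f1 g g1 : ℝ → ℂ}

theorem intK (h : Der w b P C0 n rb Lam S S1 D D1) (hf : BC rb f) (hf1 : BC rb f1) :
    IntervalIntegrable (fun r => w r * (‖f1 r‖ ^ 2 + Lam / r ^ 2 * ‖f r‖ ^ 2)) volume 0 rb := by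
  have e : (fun r => w r * (‖f1 r‖ ^ 2 + Lam / r ^ 2 * ‖f r‖ ^ 2)) =
      fun r => w r * ‖f1 r‖ ^ 2 + Lam * ((w r / r ^ 2) * ‖f r‖ ^ 2) := by funext r; ring
  rw [e]
  exact ((h.bcw.mulR hf1.normSq).add ((BC.const Lam).mulR (h.wr2.mulR hf.normSq))).intble
    (by linarith [h.rb1])

theorem intL (h : Der w b P C0 n rb Lam S S1 D D1) (hf : BC rb f) :
    IntervalIntegrable (fun r => w r * ‖f r‖ ^ 2) volume 0 rb :=
  (h.bcw.mulR hf.normSq).intble (by linarith [h.rb1])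

theorem L2_nonneg (h : Der w b P C0 n rb Lam S S1 D D1) (f : ℝ → ℂ) : 0 ≤ L2 w f rb :=
  int_nonneg (by linarith [h.rb1]) fun r hr => mul_nonneg (h.w0 r hr).le (sq_nonneg _)

theorem KK_nonneg (h : Der w b P C0 n rb Lam S S1 D D1) (f f1 : ℝ → ℂ) : 0 ≤ KK w Lam f f1 rb :=
  int_nonneg (by linarith [h.rb1]) fun r hr => by
    have := h.w0 r hr
    have := h.Lam0
    have := hr.1
    positivity

theorem Pot_nonneg (h : Der w b P C0 n rb Lam S S1 D D1) (f : ℝ → ℂ) : 0 ≤ Pot w P n f rb :=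
  int_nonneg (by linarith [h.rb1]) fun r hr => by
    have := h.w0 r hr
    have := h.n0
    have := h.P0 r hr
    positivity

/-- `Λ ∫ w|f|² ≤ rb² K(f)` -/
theorem Lam_L2_le (h : Der w b P C0 n rb Lam S S1 D D1) (hf : BC rb f) (hf1 : BC rb f1) :
    Lam * L2 w f rb ≤ rb ^ 2 * KK w Lam f f1 rb := by
  have hrb : 0 < rb := lt_of_lt_of_le one_pos h.rb1
  unfold L2 KK
  rw [← intervalIntegral.integral_const_mul, ← intervalIntegral.integral_const_mul]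
  refine int_mono hrb.le ((intL h hf).const_mul _) ((intK h hf hf1).const_mul _) fun r hr => ?_
  have hw := (h.w0 r hr).le
  have hr0 := hr.1
  have h1 : Lam * ‖f r‖ ^ 2 ≤ rb ^ 2 * (Lam / r ^ 2 * ‖f r‖ ^ 2) := by
    have h2 : r ^ 2 ≤ rb ^ 2 := pow_le_pow_left₀ hr0.le hr.2 2
    have h3 : 0 ≤ Lam * ‖f r‖ ^ 2 := mul_nonneg h.Lam0 (sq_nonneg _)
    have h4 : rb ^ 2 * (Lam / r ^ 2 * ‖f r‖ ^ 2) = (rb ^ 2 / r ^ 2) * (Lam * ‖f r‖ ^ 2) := by ring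
    rw [h4]
    have h5 : 1 ≤ rb ^ 2 / r ^ 2 := by
      rw [le_div_iff₀ (by positivity)]; linarith
    nlinarith
  have h6 : 0 ≤ rb ^ 2 * ‖f1 r‖ ^ 2 := by positivity
  nlinarith [mul_le_mul_of_nonneg_left h1 hw, mul_nonneg hw h6]

theorem grad_le (h : Der w b P C0 n rb Lam S S1 D D1) (hf : BC rb f) (hf1 : BC rb f1) :
    L2 w f1 rb ≤ KK w Lam f f1 rb := by
  have hrb : 0 < rb := lt_of_lt_of_le one_pos h.rb1
  refine int_mono hrb.le (intL h hf1) (intK h hf hf1) fun r hr => ?_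
  have hw := (h.w0 r hr).le
  have hr0 := hr.1
  have := h.Lam0
  refine mul_le_mul_of_nonneg_left ?_ hw
  have : 0 ≤ Lam / r ^ 2 * ‖f r‖ ^ 2 := by positivity
  linarith

theorem norm_Nc_le (h : Der w b P C0 n rb Lam S S1 D D1) (hf : BC rb f) (hg : BC rb g) :
    ‖Nc w f g rb‖ ≤ (L2 w f rb + L2 w g rb) / 2 := by
  have hrb : 0 < rb := lt_of_lt_of_le one_pos h.rb1
  have e : (L2 w f rb + L2 w g rb) / 2 =
      ∫ r in (0 : ℝ)..rb, (1 / 2) * (w r * ‖f r‖ ^ 2 + w r * ‖g r‖ ^ 2) := by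
    rw [intervalIntegral.integral_const_mul, intervalIntegral.integral_add (intL h hf) (intL h hg)]
    unfold L2; ring
  rw [e]
  refine norm_int_le hrb.le (((intL h hf).add (intL h hg)).const_mul _) fun r hr => ?_
  have hw := (h.w0 r hr).le
  rw [norm_mul, norm_mul, RCLike.norm_conj, Complex.norm_real, Real.norm_of_nonneg hw]
  nlinarith [mul_nonneg hw (sq_nonneg (‖f r‖ - ‖g r‖))]

/-- `|∫ w b conj f g| ≤ C0 rb/2 (t ∫w|f|² + t⁻¹ ∫ w|g|²)` -/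
theorem norm_AA_le (h : Der w b P C0 n rb Lam S S1 D D1) (hf : BC rb f) (hg : BC rb g) {t : ℝ}
    (ht : 0 < t) :
    ‖AA w b f g rb‖ ≤ C0 * rb / 2 * (t * L2 w f rb + t⁻¹ * L2 w g rb) := by
  have hrb : 0 < rb := lt_of_lt_of_le one_pos h.rb1
  have hC : 0 ≤ C0 := le_trans zero_le_one h.C1
  have e : C0 * rb / 2 * (t * L2 w f rb + t⁻¹ * L2 w g rb) =
      ∫ r in (0 : ℝ)..rb, (C0 * rb / 2) * (t * (w r * ‖f r‖ ^ 2) + t⁻¹ * (w r * ‖g r‖ ^ 2)) := by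
    rw [intervalIntegral.integral_const_mul, intervalIntegral.integral_add
      ((intL h hf).const_mul _) ((intL h hg).const_mul _), intervalIntegral.integral_const_mul,
      intervalIntegral.integral_const_mul]
    rfl
  rw [e]
  refine norm_int_le hrb.le ((((intL h hf).const_mul _).add ((intL h hg).const_mul _)).const_mul _)
    fun r hr => ?_
  have hw := (h.w0 r hr).le
  rw [norm_mul, norm_mul, RCLike.norm_conj, Complex.norm_real, Real.norm_eq_abs, abs_mul,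
    abs_of_nonneg hw]
  have hb := h.bC r hr
  have hb2 : |b r| ≤ C0 * rb := hb.trans (mul_le_mul_of_nonneg_left hr.2 hC)
  have h1 : ‖f r‖ * ‖g r‖ ≤ (t * ‖f r‖ ^ 2 + t⁻¹ * ‖g r‖ ^ 2) / 2 := by
    have h2 : 0 ≤ (t * ‖f r‖ - ‖g r‖) ^ 2 / t := by positivity
    have h3 : (t * ‖f r‖ - ‖g r‖) ^ 2 / t = t * ‖f r‖ ^ 2 - 2 * (‖f r‖ * ‖g r‖) + t⁻¹ * ‖g r‖ ^ 2 := by
      field_simp
      ring
    linarith
  have h4 : 0 ≤ ‖f r‖ * ‖g r‖ := by positivity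
  calc w r * |b r| * (‖f r‖ * ‖g r‖) ≤ w r * (C0 * rb) * (‖f r‖ * ‖g r‖) := by
        gcongr
    _ ≤ w r * (C0 * rb) * ((t * ‖f r‖ ^ 2 + t⁻¹ * ‖g r‖ ^ 2) / 2) := by
        have : 0 ≤ w r * (C0 * rb) := by positivity
        exact mul_le_mul_of_nonneg_left h1 this
    _ = C0 * rb / 2 * (t * (w r * ‖f r‖ ^ 2) + t⁻¹ * (w r * ‖g r‖ ^ 2)) := by ring

/-- vanishing -/
theorem zero_of_KK (h : Der w b P C0 n rb Lam S S1 D D1) (hL : 0 < Lam) (hf : BC rb f)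
    (hf1 : BC rb f1) (h0 : KK w Lam f f1 rb ≤ 0) : ∀ r ∈ Ioc 0 rb, f r = 0 := by
  have hrb : 0 < rb := lt_of_lt_of_le one_pos h.rb1
  have hL2 : L2 w f rb = 0 := by
    refine le_antisymm ?_ (L2_nonneg h f)
    have h1 := Lam_L2_le h hf hf1
    have h2 : rb ^ 2 * KK w Lam f f1 rb ≤ 0 := mul_nonpos_of_nonneg_of_nonpos (by positivity) h0
    by_contra hc
    push Not at hc
    nlinarith [mul_pos hL hc]
  unfold L2 at hL2
  rw [intervalIntegral.integral_of_le hrb.le] at hL2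
  have hi := (intervalIntegrable_iff_integrableOn_Ioc_of_le hrb.le).mp (intL h hf)
  have hae := (setIntegral_eq_zero_iff_of_nonneg_ae
    ((ae_restrict_iff' measurableSet_Ioc).mpr (Eventually.of_forall fun r hr =>
      mul_nonneg (h.w0 r hr).le (sq_nonneg _))) hi).mp hL2
  have hcont : ContinuousOn (fun r => w r * ‖f r‖ ^ 2) (Ioc 0 rb) :=
    (h.bcw.mulR hf.normSq).1
  have heq := Measure.eqOn_Ioc_of_ae_eq volume hae hcont continuousOn_const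
  intro r hr
  have h3 : w r * ‖f r‖ ^ 2 = 0 := heq hr
  have h4 : ‖f r‖ ^ 2 = 0 := (mul_eq_zero.mp h3).resolve_left (h.w0 r hr).ne'
  exact norm_eq_zero.mp (pow_eq_zero_iff (by norm_num) |>.mp h4)

end

/-- boundary flux of one channel -/
theorem flux_le {F F1 h1 : ℂ} {w0 bb E : ℝ}
    (hrel : ‖F1 - (h1 - (w0 : ℝ) - I * (bb : ℝ)) * F‖ ^ 2 ≤ E) :
    (conj F * F1).re ≤ (h1.re - w0 + 1) * ‖F‖ ^ 2 + E := by
  set er := F1 - (h1 - (w0 : ℝ) - I * (bb : ℝ)) * F with her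
  have hF1 : F1 = (h1 - (w0 : ℝ) - I * (bb : ℝ)) * F + er := by rw [her]; ring
  have h2 : (conj F * F1).re = (h1.re - w0) * ‖F‖ ^ 2 + (conj F * er).re := by
    rw [hF1, mul_add, Complex.add_re]
    congr 1
    have h3 : conj F * ((h1 - (w0 : ℝ) - I * (bb : ℝ)) * F) =
        (h1 - (w0 : ℝ) - I * (bb : ℝ)) * ((‖F‖ ^ 2 : ℝ) : ℂ) := by
      have : conj F * F = ((‖F‖ ^ 2 : ℝ) : ℂ) := by
        rw [mul_comm, Complex.mul_conj, Complex.normSq_eq_norm_sq]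
      rw [← this]; ring
    rw [h3, Complex.re_mul_ofReal]
    simp
  have h4 : (conj F * er).re ≤ ‖F‖ ^ 2 + ‖er‖ ^ 2 := by
    have h5 : (conj F * er).re ≤ ‖F‖ * ‖er‖ := by
      refine (Complex.re_le_norm _).trans ?_
      rw [norm_mul, RCLike.norm_conj]
    nlinarith [sq_nonneg (‖F‖ - ‖er‖), sq_nonneg (‖F‖ + ‖er‖), norm_nonneg F, norm_nonneg er]
  rw [h2]
  nlinarith

theorem flux_le' {F F1 h1 : ℂ} {w0 bb E : ℝ}
    (hrel : ‖F1 - (conj h1 - (w0 : ℝ) + I * (bb : ℝ)) * F‖ ^ 2 ≤ E) :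
    (conj F * F1).re ≤ (h1.re - w0 + 1) * ‖F‖ ^ 2 + E := by
  have h := flux_le (F := F) (F1 := F1) (h1 := conj h1) (w0 := w0) (bb := -bb) (E := E) (by
    refine le_trans (le_of_eq ?_) hrel
    congr 2
    push_cast
    ring)
  simpa using h

theorem fin_aux {eta KS KD Pt a1 a2 c1 c2 d1 d2 x : ℝ} (heta : 0 < eta) (hP : 0 ≤ Pt)
    (e1 : KS + Pt = a1 - c1 - d1) (e2 : KD = a2 - c2 - d2) (hN : d1 + d2 = x)
    (hNb : -x ≤ (1 - eta) * (KS + KD)) (hAb : -c1 - c2 ≤ eta / 4 * (KS + KD))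
    (hBd : a1 + a2 ≤ eta / 4 * (KS + KD)) : KS + KD ≤ 0 := by
  have h : KS + KD ≤ eta / 4 * (KS + KD) + eta / 4 * (KS + KD) + (1 - eta) * (KS + KD) := by
    linarith
  have h2 : eta / 2 * (KS + KD) ≤ 0 := by nlinarith
  by_contra hc
  push Not at hc
  have := mul_pos (half_pos heta) hc
  linarith

theorem neg_aux {C0 s h w0 : ℝ} (hC : 0 < C0) (s3 : C0 * (C0 + 1) ≤ s) (hh : h ≤ -s / C0)
    (hw : -w0 ≤ C0) : h - w0 + 1 ≤ 0 := by
  have h3 : C0 + 1 ≤ s / C0 := by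
    rw [le_div_iff₀ hC]; nlinarith
  have h4 : -s / C0 = -(s / C0) := by ring
  rw [h4] at hh
  linarith

theorem re_pol (a b c d : ℂ) : (conj a * b).re + (conj c * d).re =
      ((conj (a + c) * (b + d)).re + (conj (a - c) * (b - d)).re) / 2 := by
  simp only [map_add, map_sub]
  have : (conj a + conj c) * (b + d) + (conj a - conj c) * (b - d)
      = 2 * (conj a * b + conj c * d) := by ring
  have h3 := congrArg Complex.re this
  simp only [Complex.add_re] at h3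
  have h4 : (2 * (conj a * b + conj c * d)).re =
      2 * ((conj a * b).re + (conj c * d).re) := by
    simp
  rw [h4] at h3
  linarith

/-- the `N` term -/
theorem N_aux {KS KD LS LD mu N Lam rb eta : ℝ} (hLam : 0 < Lam) (hN : |N| ≤ (LS + LD) / 2)
    (aS : Lam * LS ≤ rb ^ 2 * KS) (aD : Lam * LD ≤ rb ^ 2 * KD) (hK : 0 ≤ KS + KD)
    (hmu : |mu| * rb ^ 2 ≤ (1 - eta) * Lam) : -(2 * mu * N) ≤ (1 - eta) * (KS + KD) := by
  have h4 : -(2 * mu * N) ≤ |mu| * (LS + LD) := by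
    calc -(2 * mu * N) ≤ |2 * mu * N| := neg_le_abs _
      _ = 2 * |mu| * |N| := by rw [abs_mul, abs_mul]; norm_num
      _ ≤ 2 * |mu| * ((LS + LD) / 2) := by gcongr
      _ = _ := by ring
  have h5 : |mu| * (LS + LD) * Lam ≤ (1 - eta) * (KS + KD) * Lam := by
    calc |mu| * (LS + LD) * Lam = |mu| * (Lam * LS + Lam * LD) := by ring
      _ ≤ |mu| * (rb ^ 2 * KS + rb ^ 2 * KD) := by gcongr
      _ = (|mu| * rb ^ 2) * (KS + KD) := by ring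
      _ ≤ ((1 - eta) * Lam) * (KS + KD) := by gcongr
      _ = _ := by ring
  exact h4.trans (le_of_mul_le_mul_right h5 hLam)

/-- the `A` terms -/
theorem A_aux {C0 rb s eta K a1 a2 G1 G2 LS LD KS KD Lam : ℝ} (C0p : 0 < C0) (hrb : 0 < rb)
    (hrbC : rb ≤ C0) (hs0 : 0 < s) (hs2 : s ^ 2 = Lam) (heta : 0 < eta) (hK : K = KS + KD) (hK0 : 0 ≤ K)
    (aS : Lam * LS ≤ rb ^ 2 * KS) (aD : Lam * LD ≤ rb ^ 2 * KD) (gS : G1 ≤ KS) (gD : G2 ≤ KD)
    (s2 : 4 * C0 ^ 3 / eta ≤ s)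
    (h1 : a1 ≤ C0 * rb / 2 * (s / rb * LS + (s / rb)⁻¹ * G2))
    (h2 : a2 ≤ C0 * rb / 2 * (s / rb * LD + (s / rb)⁻¹ * G1)) :
    a1 + a2 ≤ eta / 4 * K := by
  have ti : (s / rb)⁻¹ = rb / s := by rw [inv_div]
  rw [ti] at h1 h2
  have hrs : 0 ≤ rb / s := by positivity
  have hcr : 0 ≤ C0 * rb / 2 := by positivity
  have tS : s / rb * LS ≤ rb / s * KS := by
    rw [div_mul_eq_mul_div, div_mul_eq_mul_div, div_le_div_iff₀ hrb hs0]
    calc s * LS * s = Lam * LS := by rw [← hs2]; ring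
      _ ≤ rb ^ 2 * KS := aS
      _ = rb * KS * rb := by ring
  have tD : s / rb * LD ≤ rb / s * KD := by
    rw [div_mul_eq_mul_div, div_mul_eq_mul_div, div_le_div_iff₀ hrb hs0]
    calc s * LD * s = Lam * LD := by rw [← hs2]; ring
      _ ≤ rb ^ 2 * KD := aD
      _ = rb * KD * rb := by ring
  have h3 : s / rb * LS + rb / s * G2 ≤ rb / s * K := by
    have := mul_le_mul_of_nonneg_left gD hrs
    rw [hK, mul_add]; linarith
  have h4 : s / rb * LD + rb / s * G1 ≤ rb / s * K := by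
    have := mul_le_mul_of_nonneg_left gS hrs
    rw [hK, mul_add]; linarith
  have h5 : C0 * rb * (rb / s) ≤ eta / 4 := by
    have h6 : C0 * rb * (rb / s) ≤ C0 ^ 3 / s := by
      have : C0 * rb * (rb / s) = C0 * rb ^ 2 / s := by ring
      rw [this]
      have h7 : rb ^ 2 ≤ C0 ^ 2 := pow_le_pow_left₀ hrb.le hrbC 2
      have h8 : C0 * rb ^ 2 ≤ C0 ^ 3 := by nlinarith
      gcongr
    refine h6.trans ?_
    rw [div_le_iff₀ hs0]
    rw [div_le_iff₀ heta] at s2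
    nlinarith
  have h1' := h1.trans (mul_le_mul_of_nonneg_left h3 hcr)
  have h2' := h2.trans (mul_le_mul_of_nonneg_left h4 hcr)
  calc a1 + a2 ≤ C0 * rb / 2 * (rb / s * K) + C0 * rb / 2 * (rb / s * K) := add_le_add h1' h2'
    _ = (C0 * rb * (rb / s)) * K := by ring
    _ ≤ eta / 4 * K := mul_le_mul_of_nonneg_right h5 hK0

/-- the boundary terms -/
theorem B_aux {C0 rb eta KS KD LS LD Lam wb x y dl : ℝ} (C0p : 0 < C0) (hrb : 0 < rb)
    (hrbC : rb ≤ C0) (heta : 0 < eta) (hLam : 0 < Lam) (hK0 : 0 ≤ KS + KD) (hL0 : 0 ≤ LS + LD)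
    (aS : Lam * LS ≤ rb ^ 2 * KS) (aD : Lam * LD ≤ rb ^ 2 * KD)
    (m1 : 4 * C0 ^ 14 / eta ≤ Lam) (hw0 : 0 < wb) (hwC : wb ≤ C0 ^ 12) (hdl : dl ≤ 1)
    (h3 : x + y ≤ dl * (LS + LD)) : wb * x + wb * y ≤ eta / 4 * (KS + KD) := by
  have h6 : wb * x + wb * y ≤ C0 ^ 12 * (LS + LD) := by
    calc wb * x + wb * y = wb * (x + y) := by ring
      _ ≤ wb * (dl * (LS + LD)) := mul_le_mul_of_nonneg_left h3 hw0.le
      _ ≤ wb * (1 * (LS + LD)) := by gcongr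
      _ ≤ C0 ^ 12 * (LS + LD) := by rw [one_mul]; gcongr
  refine h6.trans ?_
  have h8 : C0 ^ 12 * (LS + LD) * Lam ≤ eta / 4 * (KS + KD) * Lam := by
    have h9 : rb ^ 2 ≤ C0 ^ 2 := pow_le_pow_left₀ hrb.le hrbC 2
    calc C0 ^ 12 * (LS + LD) * Lam = C0 ^ 12 * (Lam * LS + Lam * LD) := by ring
      _ ≤ C0 ^ 12 * (rb ^ 2 * KS + rb ^ 2 * KD) := by gcongr
      _ = C0 ^ 12 * rb ^ 2 * (KS + KD) := by ring
      _ ≤ C0 ^ 12 * C0 ^ 2 * (KS + KD) := by gcongr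
      _ = C0 ^ 14 * (KS + KD) := by ring
      _ ≤ (eta / 4 * Lam) * (KS + KD) := by
          rw [div_le_iff₀ heta] at m1
          have : C0 ^ 14 ≤ eta / 4 * Lam := by nlinarith
          gcongr
      _ = _ := by ring
  exact le_of_mul_le_mul_right h8 hLam

theorem Nc_im (lam N : ℂ) : (lam * N).im + (lam * conj N).im = 2 * lam.im * N.re := by
  simp [Complex.mul_im]; ring

theorem wb_le (hd : Der w b P C0 n rb Lam S S1 D D1) : w rb ≤ C0 ^ 12 := by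
  have hrb : 0 < rb := lt_of_lt_of_le one_pos hd.rb1
  have C0p : 0 < C0 := lt_of_lt_of_le one_pos hd.C1
  refine (hd.wC rb ⟨hrb, le_rfl⟩).trans ?_
  have : rb ^ 11 ≤ C0 ^ 11 := pow_le_pow_left₀ hrb.le hd.rbC 11
  calc C0 * rb ^ 11 ≤ C0 * C0 ^ 11 := by gcongr
    _ = C0 ^ 12 := by ring

/-- the boundary flux of both channels together -/
theorem flux_sum {s : ℝ} {h1 h2 : ℂ} {dl : ℝ} (hb : Bdry w b rho S S1 D D1 h1 h2 dl rb)
    (C0p : 0 < C0) (hrb : 0 < rb) (hrho : |rho rb| ≤ C0) (s3 : C0 * (C0 + 1) ≤ s)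
    (hh1 : h1.re ≤ -s / C0) (hh2 : h2.re ≤ -s / C0) :
    (conj (S rb) * S1 rb).re + (conj (D rb) * D1 rb).re ≤ dl * (L2 w S rb + L2 w D rb) := by
  have f1 := flux_le hb.relF
  have f2 := flux_le' hb.relG
  have hw0le : -((11 / rb + 2 * rho rb) / 2) ≤ C0 := by
    have h3 := (abs_le.mp hrho).1
    have h4 : 0 ≤ 11 / rb := by positivity
    linarith
  have hneg1 := neg_aux C0p s3 hh1 hw0le
  have hneg2 := neg_aux C0p s3 hh2 hw0le
  rw [re_pol]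
  have h4 := mul_nonpos_of_nonpos_of_nonneg hneg1 (sq_nonneg ‖S rb + D rb‖)
  have h5 := mul_nonpos_of_nonpos_of_nonneg hneg2 (sq_nonneg ‖S rb - D rb‖)
  linarith

theorem caseII_K {eta : ℝ} (heta : 0 < eta) {h1 h2 : ℂ} {dl : ℝ}
    (hc : Coef w b P P1 rho m C0 e n rb) (hs : Sol w b P rho Lam n eps lam S S1 D D1 rb)
    (hb : Bdry w b rho S S1 D D1 h1 h2 dl rb)
    (m1 : 4 * C0 ^ 14 / eta ≤ Lam) (m2 : 16 * C0 ^ 6 / eta ^ 2 ≤ Lam) (m3 : (C0 * (C0 + 1)) ^ 2 ≤ Lam)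
    (hLam : 0 < Lam) (hmu : |lam.im| * rb ^ 2 ≤ (1 - eta) * Lam)
    (hh1 : h1.re ≤ -(Real.sqrt Lam) / C0) (hh2 : h2.re ≤ -(Real.sqrt Lam) / C0) (hdl : dl ≤ 1) :
    KK w Lam S S1 rb + KK w Lam D D1 rb ≤ 0 := by
  have hd := der hc hs
  have C0p : 0 < C0 := lt_of_lt_of_le one_pos hd.C1
  have hrb : 0 < rb := lt_of_lt_of_le one_pos hd.rb1
  have hrbC := hd.rbC
  have hs0 : 0 < Real.sqrt Lam := Real.sqrt_pos.mpr hLam
  have s2 : 4 * C0 ^ 3 / eta ≤ Real.sqrt Lam := by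
    apply Real.le_sqrt_of_sq_le
    refine le_trans (le_of_eq ?_) m2
    ring
  have s3 : C0 * (C0 + 1) ≤ Real.sqrt Lam := Real.le_sqrt_of_sq_le m3
  have KS0 : 0 ≤ KK w Lam S S1 rb := KK_nonneg hd S S1
  have KD0 : 0 ≤ KK w Lam D D1 rb := KK_nonneg hd D D1
  have LS0 : 0 ≤ L2 w S rb := L2_nonneg hd S
  have LD0 : 0 ≤ L2 w D rb := L2_nonneg hd D
  have aS := Lam_L2_le hd hd.bcS hd.bcS1
  have aD := Lam_L2_le hd hd.bcD hd.bcD1
  have gS := grad_le hd hd.bcS hd.bcS1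
  have gD := grad_le hd hd.bcD hd.bcD1
  obtain ⟨e1, e2, -, -, -, -⟩ := idStmt w b P P1 rho m C0 e n rb Lam eps lam S S1 D D1 hc hs
  have hP0 : 0 ≤ Pot w P n S rb := Pot_nonneg hd S
  have hK0 := add_nonneg KS0 KD0
  have hNb := N_aux hLam ((Complex.abs_re_le_norm _).trans (norm_Nc_le hd hd.bcS hd.bcD)) aS aD hK0 hmu
  have ht : 0 < Real.sqrt Lam / rb := by positivity
  have hA1 := norm_AA_le hd hd.bcS hd.bcD1 ht
  have hA2 := norm_AA_le hd hd.bcD hd.bcS1 ht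
  have hAb := A_aux C0p hrb hrbC hs0 (Real.sq_sqrt hLam.le) heta rfl hK0 aS aD gS gD s2 hA1 hA2
  have hAb' : -(AA w b S D1 rb).im - (AA w b D S1 rb).im ≤
      eta / 4 * (KK w Lam S S1 rb + KK w Lam D D1 rb) := by
    refine le_trans ?_ hAb
    have h3 : -(AA w b S D1 rb).im ≤ ‖AA w b S D1 rb‖ :=
      (neg_le_abs _).trans (Complex.abs_im_le_norm _)
    have h4 : -(AA w b D S1 rb).im ≤ ‖AA w b D S1 rb‖ :=
      (neg_le_abs _).trans (Complex.abs_im_le_norm _)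
    exact (sub_eq_add_neg _ _).trans_le (add_le_add h3 h4)
  have hmem : rb ∈ Ioc 0 rb := ⟨hrb, le_rfl⟩
  have hfl := flux_sum hb C0p hrb (hc.rhohi rb hmem) s3 hh1 hh2
  have hBd := B_aux C0p hrb hrbC heta hLam hK0 (add_nonneg LS0 LD0) aS aD m1
    (hd.w0 rb hmem) (wb_le hd) hdl hfl
  exact fin_aux heta hP0 e1 e2 (Nc_im _ _) hNb hAb' hBd

theorem caseII : CaseII := by
  intro C0 eta hC0 heta
  refine ⟨4 * C0 ^ 14 / eta + 16 * C0 ^ 6 / eta ^ 2 + (C0 * (C0 + 1)) ^ 2, 1, by positivity, one_pos, ?_⟩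
  intro w b P P1 rho m e n rb Lam eps lam h1 h2 S S1 D D1 dl hc hs hb _ hM hmu hh1 hh2 hdl
  have hd := der hc hs
  have C0p : 0 < C0 := lt_of_lt_of_le one_pos hC0
  have p1 : 0 ≤ 4 * C0 ^ 14 / eta := by positivity
  have p2 : 0 ≤ 16 * C0 ^ 6 / eta ^ 2 := by positivity
  have p3 : 0 < (C0 * (C0 + 1)) ^ 2 := by positivity
  have m1 : 4 * C0 ^ 14 / eta ≤ Lam := by linarith
  have m2 : 16 * C0 ^ 6 / eta ^ 2 ≤ Lam := by linarith
  have m3 : (C0 * (C0 + 1)) ^ 2 ≤ Lam := by linarith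
  have hLam : 0 < Lam := lt_of_lt_of_le p3 m3
  have hK := caseII_K heta hc hs hb m1 m2 m3 hLam hmu hh1 hh2 hdl
  have KS0 : 0 ≤ KK w Lam S S1 rb := KK_nonneg hd S S1
  have KD0 : 0 ≤ KK w Lam D D1 rb := KK_nonneg hd D D1
  exact fun r hr => ⟨zero_of_KK hd hLam hd.bcS hd.bcS1 (by linarith) r hr,
    zero_of_KK hd hLam hd.bcD hd.bcD1 (by linarith) r hr⟩

end Crest.Agent.R086.CEx.II
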