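import Crest.Agent.R086.CCore

/-!
Row 86 (S0114), Part C, node C-H (helper362): the energy identity (H) of note 12555 in pointwise form.
Multiplier `conj (b S' + lam S)`, `conj (b D' + lam D)`.
-/

set_option autoImplicit false

open Complex ComplexConjugate

namespace Crest.Agent.R086.CCore

namespace Sys

variable {w b P rho : ℝ → ℝ} {kap n eps : ℝ} {lam : ℂ} {S S1 D D1 : ℝ → ℂ} {sS sD : ℂ} {r : ℝ}

/-- boundary functional of the energy identity (H) -/
noncomputable def Bd (w b P : ℝ → ℝ) (kap n : ℝ) (lam : ℂ) (S S1 D D1 : ℝ → ℂ) (r : ℝ) : ℝ :=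
  (conj lam * ((w r : ℂ) * (S1 r * conj (S r) + D1 r * conj (D r)))).re
    + w r * b r / 2 * (‖S1 r‖ ^ 2 + ‖D1 r‖ ^ 2)
    - kap * (w r * b r / (2 * r ^ 2)) * (‖S r‖ ^ 2 + ‖D r‖ ^ 2)
    - n * (w r * b r * P r / 2) * ‖S r‖ ^ 2

/-- energy density -/
noncomputable def en (w P : ℝ → ℝ) (kap n : ℝ) (S S1 D D1 : ℝ → ℂ) (r : ℝ) : ℝ :=
  w r * (‖S1 r‖ ^ 2 + ‖D1 r‖ ^ 2) + kap * (w r / r ^ 2) * (‖S r‖ ^ 2 + ‖D r‖ ^ 2)
    + n * (w r * P r) * ‖S r‖ ^ 2

theorem hb (h : Sys w b P rho kap n eps lam S S1 D D1 sS sD r) :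
    HasDerivAt b ((6 - 2 * eps) - b r * (11 / r + 2 * rho r)) r := by
  have h1 := h.hwb.div h.hw h.wne
  have hne : ∀ᶠ x in nhds r, w x ≠ 0 := h.hw.continuousAt.eventually_ne h.wne
  have hw0 := h.wne
  have e : b =ᶠ[nhds r] fun r => w r * b r / w r := by
    filter_upwards [hne] with x hx
    field_simp
  refine (h1.congr_of_eventuallyEq e).congr_deriv ?_
  field_simp

/-- **(H)** energy identity, pointwise. -/
theorem energyH (h : Sys w b P rho kap n eps lam S S1 D D1 0 0 r) {P' : ℝ}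
    (hP : HasDerivAt P P' r) :
    HasDerivAt (Bd w b P kap n lam S S1 D D1)
      (lam.re * en w P kap n S S1 D D1 r
        - ((3 - eps - ((6 - 2 * eps) - b r * (11 / r + 2 * rho r))) * (w r * (‖S1 r‖ ^ 2 + ‖D1 r‖ ^ 2))
          + (3 - eps - b r / r) * (kap * (w r / r ^ 2) * (‖S r‖ ^ 2 + ‖D r‖ ^ 2))
          + (3 - eps) * (n * (w r * P r) * ‖S r‖ ^ 2)
          + n / 2 * (P' * b r * w r) * ‖S r‖ ^ 2)) r := by
  have hw0 := h.wne
  have hr := h.hr
  have re_d : ∀ {f : ℝ → ℂ} {f' : ℂ}, HasDerivAt f f' r →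
      HasDerivAt (fun r => (f r).re) f'.re r := fun hf =>
    Complex.reCLM.hasFDerivAt.comp_hasDerivAt r hf
  have im_d : ∀ {f : ℝ → ℂ} {f' : ℂ}, HasDerivAt f f' r →
      HasDerivAt (fun r => (f r).im) f'.im r := fun hf =>
    Complex.imCLM.hasFDerivAt.comp_hasDerivAt r hf
  have hSr := re_d h.hS
  have hSi := im_d h.hS
  have hDr := re_d h.hD
  have hDi := im_d h.hD
  have hS1r := re_d h.hS1
  have hS1i := im_d h.hS1
  have hD1r := re_d h.hD1
  have hD1i := im_d h.hD1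
  have hwi : HasDerivAt (fun r => (w r)⁻¹) (-(w r * (11 / r + 2 * rho r)) / w r ^ 2) r :=
    h.hw.inv hw0
  have hmr2 : HasDerivAt (fun r : ℝ => (r ^ 2)⁻¹) (-(2 * r) / (r ^ 2) ^ 2) r := by
    have := (hasDerivAt_pow 2 r).inv (pow_ne_zero 2 hr)
    refine this.congr_deriv ?_
    norm_num
  -- the four pieces
  have hL := ((hS1r.mul hSr).add (hS1i.mul hSi)).add ((hD1r.mul hDr).add (hD1i.mul hDi))
  have hL2 := ((hS1i.mul hSr).sub (hS1r.mul hSi)).add ((hD1i.mul hDr).sub (hD1r.mul hDi))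
  have hA := (hL.const_mul lam.re).add (hL2.const_mul lam.im)
  have hK := ((h.hwb.mul (hwi.pow 2)).mul (((hS1r.pow 2).add (hS1i.pow 2)).add
    ((hD1r.pow 2).add (hD1i.pow 2)))).const_mul (1 / 2)
  have hB := (((h.hwb.mul hmr2).const_mul (kap / 2)).mul
    (((hSr.pow 2).add (hSi.pow 2)).add ((hDr.pow 2).add (hDi.pow 2))))
  have hC := (((h.hwb.mul hP).const_mul (n / 2)).mul ((hSr.pow 2).add (hSi.pow 2)))
  have hT := ((hA.add hK).sub hB).sub hC
  let Φ : ℝ → ℝ := fun x =>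
    (lam.re * (((((w x : ℂ) * S1 x).re * (S x).re + ((w x : ℂ) * S1 x).im * (S x).im))
      + ((((w x : ℂ) * D1 x).re * (D x).re + ((w x : ℂ) * D1 x).im * (D x).im)))
      + lam.im * (((((w x : ℂ) * S1 x).im * (S x).re - ((w x : ℂ) * S1 x).re * (S x).im))
      + ((((w x : ℂ) * D1 x).im * (D x).re - ((w x : ℂ) * D1 x).re * (D x).im)))
      + (1 / 2) * (w x * b x * (w x)⁻¹ ^ 2 *
        ((((w x : ℂ) * S1 x).re ^ 2 + ((w x : ℂ) * S1 x).im ^ 2)
        + (((w x : ℂ) * D1 x).re ^ 2 + ((w x : ℂ) * D1 x).im ^ 2))))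
      - (kap / 2 * (w x * b x * (x ^ 2)⁻¹)) * (((S x).re ^ 2 + (S x).im ^ 2)
          + ((D x).re ^ 2 + (D x).im ^ 2))
      - (n / 2 * (w x * b x * P x)) * ((S x).re ^ 2 + (S x).im ^ 2)
  have hT' : HasDerivAt Φ _ r := hT
  have e : ∀ z : ℂ, ‖z‖ ^ 2 = z.re ^ 2 + z.im ^ 2 := by
    intro z
    rw [← Complex.normSq_eq_norm_sq, Complex.normSq_apply]
    ring
  have hev : (Bd w b P kap n lam S S1 D D1) =ᶠ[nhds r] Φ := by
    have hne : ∀ᶠ x in nhds r, w x ≠ 0 := h.hw.continuousAt.eventually_ne hw0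
    have hne2 : ∀ᶠ x in nhds r, x ≠ 0 := continuousAt_id.eventually_ne hr
    filter_upwards [hne, hne2] with x hx hx2
    simp only [e, Φ, Bd, Complex.mul_re, Complex.mul_im, Complex.conj_re, Complex.conj_im,
        Complex.ofReal_re, Complex.ofReal_im, Complex.add_re, Complex.add_im]
    field_simp
    ring
  refine (hT'.congr_of_eventuallyEq hev).congr_deriv ?_
  have hk1 : ((kap : ℂ) / (r : ℂ) ^ 2) = ((kap / r ^ 2 : ℝ) : ℂ) := by push_cast; rfl
  unfold en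
  rw [hk1]
  simp only [e, Complex.mul_re, Complex.mul_im, Complex.add_re, Complex.add_im, Complex.sub_re,
    Complex.sub_im, Complex.conj_re, Complex.conj_im, Complex.ofReal_re, Complex.ofReal_im,
    Complex.I_re, Complex.I_im, Pi.mul_apply, Pi.add_apply, Pi.pow_apply, Complex.zero_re,
    Complex.zero_im, show (2 : ℕ) - 1 = 1 from rfl, pow_one]
  field_simp
  ring

end Sys

end Crest.Agent.R086.CCore
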