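import Crest.Agent.R086.CH2
import Crest.Agent.R086.CDecay2

/-!
Row 86 (S0114), Part C, node C-H (helper362): the uniform bound of `Re lam`, radial form.
-/

set_option autoImplicit false

open Complex ComplexConjugate Filter Topology

namespace Crest.Agent.R086.CH

open CCore CCore.Sys CDecay

/-- quantitative hypotheses on the radial profile `q` (`q1 = q'`), power `n`. -/
structure Prof (n : ℕ) (q q1 : ℝ → ℂ) (om A C R1 e1 dl1 : ℝ) : Prop where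
  two_le : 2 ≤ n
  hA : 0 < A
  hC : 0 ≤ C
  hR1 : 0 < R1
  he1 : 0 ≤ e1
  hdl : 0 ≤ dl1
  ne : ∀ r, 0 < r → q r ≠ 0
  dq : ∀ r, 0 < r → HasDerivAt q (q1 r) r
  dq1 : ∀ r : ℝ, 0 < r → HasDerivAt q1 (-((11 : ℂ) / r + I * r / 2) * q1 r
    - (om + I * ((1 / (n : ℝ) : ℝ) : ℂ)) * q r + ((‖q r‖ ^ n : ℝ) : ℂ) * q r) r
  lo : ∀ r : ℝ, 0 < r → A⁻¹ ≤ ‖q r‖ * (1 + r) ^ ((2 : ℝ) / n)
  hi : ∀ r : ℝ, 0 < r → ‖q r‖ * (1 + r) ^ ((2 : ℝ) / n) ≤ A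
  der : ∀ r : ℝ, 0 < r → ‖q1 r‖ ≤ C * (r / (1 + r ^ 2)) * ‖q r‖
  core : ∀ r, 0 < r → r ≤ R1 → (n : ℝ) * (q1 r / q r).re ≤ e1
  far : ∀ r, R1 ≤ r → ‖q r‖ ^ n ≤ dl1 / r ^ 2
  small1 : e1 * A ^ 4 * R1 ≤ 1
  small2 : (n : ℝ) ^ 2 * C * A ^ 8 * dl1 ≤ 1

namespace Prof

variable {n : ℕ} {q q1 : ℝ → ℂ} {om A C R1 e1 dl1 : ℝ}

/-- the weight `(1+r)^(-4/n)` -/
noncomputable def gg (n : ℕ) (r : ℝ) : ℝ := (1 + r) ^ (-(4 : ℝ) / n)
noncomputable def gg1 (n : ℕ) (r : ℝ) : ℝ := (-(4 : ℝ) / n) * (1 + r) ^ (-(4 : ℝ) / n - 1)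

theorem gg_pos (n : ℕ) {r : ℝ} (hr : 0 < r) : 0 < gg n r := Real.rpow_pos_of_pos (by linarith) _

theorem gg_le (n : ℕ) {r : ℝ} (hr : 0 < r) : gg n r ≤ 1 := by
  apply Real.rpow_le_one_of_one_le_of_nonpos (by linarith)
  rw [neg_div]
  have : (0 : ℝ) ≤ 4 / n := by positivity
  linarith

theorem gg_der (n : ℕ) {r : ℝ} (hr : 0 < r) : HasDerivAt (gg n) (gg1 n r) r := by
  have h1 : HasDerivAt (fun r : ℝ => 1 + r) 1 r := by simpa using (hasDerivAt_id r).const_add 1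
  have h2 := h1.rpow_const (p := -(4 : ℝ) / n) (Or.inl (by linarith : (1 + r : ℝ) ≠ 0))
  refine h2.congr_deriv ?_
  unfold gg1
  ring

theorem gg1_ge {n : ℕ} (hn : 2 ≤ n) {r : ℝ} (hr : 0 < r) : -2 * gg n r ≤ r * gg1 n r := by
  have hg := gg_pos n hr
  have e : gg1 n r = (-(4 : ℝ) / n) * (gg n r / (1 + r)) := by
    unfold gg1 gg
    rw [Real.rpow_sub_one (by linarith : (1 + r : ℝ) ≠ 0)]
  rw [e]
  have hn' : (2 : ℝ) ≤ n := by exact_mod_cast hn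
  have h4 : (4 : ℝ) / n ≤ 2 := by
    rw [div_le_iff₀ (by linarith)]; linarith
  have h40 : (0 : ℝ) ≤ 4 / n := by positivity
  have h5 : r * (gg n r / (1 + r)) ≤ gg n r := by
    rw [mul_div_assoc', div_le_iff₀ (by linarith)]
    nlinarith
  have h50 : 0 ≤ r * (gg n r / (1 + r)) := by positivity
  have h6 : (4 : ℝ) / n * (r * (gg n r / (1 + r))) ≤ 2 * gg n r := by
    calc (4 : ℝ) / n * (r * (gg n r / (1 + r))) ≤ 2 * (r * (gg n r / (1 + r))) :=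
          mul_le_mul_of_nonneg_right h4 h50
      _ ≤ 2 * gg n r := by linarith
  have e2 : r * (-(4 : ℝ) / n * (gg n r / (1 + r))) = -((4 : ℝ) / n * (r * (gg n r / (1 + r)))) := by
    ring
  rw [e2]
  linarith

theorem sq_two (n : ℕ) {r : ℝ} (hr : 0 < r) :
    ((1 + r) ^ ((2 : ℝ) / n)) ^ 2 * gg n r = 1 := by
  unfold gg
  have h : (0 : ℝ) < 1 + r := by linarith
  rw [← Real.rpow_natCast, ← Real.rpow_mul h.le, ← Real.rpow_add h]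
  have : (2 : ℝ) / n * ((2 : ℕ) : ℝ) + -(4 : ℝ) / n = 0 := by push_cast; ring
  rw [this, Real.rpow_zero]

theorem w_lo (h : Prof n q q1 om A C R1 e1 dl1) {r : ℝ} (hr : 0 < r) :
    (A ^ 2)⁻¹ * (r ^ 11 * gg n r) ≤ w q r := by
  have hA := h.hA
  have h1 := h.lo r hr
  have h2 : (A⁻¹) ^ 2 ≤ (‖q r‖ * (1 + r) ^ ((2 : ℝ) / n)) ^ 2 :=
    pow_le_pow_left₀ (by positivity) h1 2
  have hs := sq_two n hr
  have hg := gg_pos n hr
  unfold w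
  have h3 : (A ^ 2)⁻¹ * gg n r ≤ ‖q r‖ ^ 2 := by
    calc (A ^ 2)⁻¹ * gg n r = (A⁻¹) ^ 2 * gg n r := by rw [inv_pow]
      _ ≤ (‖q r‖ * (1 + r) ^ ((2 : ℝ) / n)) ^ 2 * gg n r := mul_le_mul_of_nonneg_right h2 hg.le
      _ = ‖q r‖ ^ 2 * (((1 + r) ^ ((2 : ℝ) / n)) ^ 2 * gg n r) := by ring
      _ = ‖q r‖ ^ 2 := by rw [hs, mul_one]
  calc (A ^ 2)⁻¹ * (r ^ 11 * gg n r) = ((A ^ 2)⁻¹ * gg n r) * r ^ 11 := by ring
    _ ≤ ‖q r‖ ^ 2 * r ^ 11 := mul_le_mul_of_nonneg_right h3 (by positivity)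

theorem w_hi (h : Prof n q q1 om A C R1 e1 dl1) {r : ℝ} (hr : 0 < r) :
    w q r ≤ A ^ 2 * (r ^ 11 * gg n r) := by
  have hA := h.hA
  have h1 := h.hi r hr
  have h10 : 0 < (1 + r) ^ ((2 : ℝ) / n) := Real.rpow_pos_of_pos (by linarith) _
  have h2 : (‖q r‖ * (1 + r) ^ ((2 : ℝ) / n)) ^ 2 ≤ A ^ 2 :=
    pow_le_pow_left₀ (by positivity) h1 2
  have hs := sq_two n hr
  have hg := gg_pos n hr
  unfold w
  have h3 : ‖q r‖ ^ 2 ≤ A ^ 2 * gg n r := by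
    calc ‖q r‖ ^ 2 = ‖q r‖ ^ 2 * (((1 + r) ^ ((2 : ℝ) / n)) ^ 2 * gg n r) := by rw [hs, mul_one]
      _ = (‖q r‖ * (1 + r) ^ ((2 : ℝ) / n)) ^ 2 * gg n r := by ring
      _ ≤ A ^ 2 * gg n r := mul_le_mul_of_nonneg_right h2 hg.le
  calc ‖q r‖ ^ 2 * r ^ 11 ≤ (A ^ 2 * gg n r) * r ^ 11 :=
        mul_le_mul_of_nonneg_right h3 (by positivity)
    _ = _ := by ring

theorem npos (h : Prof n q q1 om A C R1 e1 dl1) : (0 : ℝ) < n := by
  have := h.two_le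
  exact_mod_cast (by omega : 0 < n)

/-- `‖q1/q‖ ≤ C r/(1+r²)` -/
theorem ratio (h : Prof n q q1 om A C R1 e1 dl1) {r : ℝ} (hr : 0 < r) :
    ‖q1 r / q r‖ ≤ C * (r / (1 + r ^ 2)) := by
  have h0 : 0 < ‖q r‖ := norm_pos_iff.2 (h.ne r hr)
  rw [norm_div, div_le_iff₀ h0]
  exact h.der r hr

theorem ratio_le (h : Prof n q q1 om A C R1 e1 dl1) {r : ℝ} (hr : 0 < r) :
    ‖q1 r / q r‖ * r ≤ C := by
  have h1 := h.ratio hr
  have hC := h.hC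
  have h2 : r / (1 + r ^ 2) * r ≤ 1 := by
    rw [div_mul_eq_mul_div, div_le_one (by positivity)]
    nlinarith
  calc ‖q1 r / q r‖ * r ≤ C * (r / (1 + r ^ 2)) * r := mul_le_mul_of_nonneg_right h1 hr.le
    _ = C * (r / (1 + r ^ 2) * r) := by ring
    _ ≤ C * 1 := mul_le_mul_of_nonneg_left h2 hC
    _ = C := mul_one _

theorem ratio_le' (h : Prof n q q1 om A C R1 e1 dl1) {r : ℝ} (hr : 0 < r) :
    ‖q1 r / q r‖ ≤ C := by
  have h1 := h.ratio hr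
  have hC := h.hC
  have h2 : r / (1 + r ^ 2) ≤ 1 := by
    rw [div_le_one (by positivity)]
    nlinarith [sq_nonneg (r - 1)]
  calc ‖q1 r / q r‖ ≤ C * (r / (1 + r ^ 2)) := h1
    _ ≤ C * 1 := mul_le_mul_of_nonneg_left h2 hC
    _ = C := mul_one _

theorem rho_le (h : Prof n q q1 om A C R1 e1 dl1) {r : ℝ} (hr : 0 < r) :
    r * rho q q1 r ≤ C := by
  have h1 := h.ratio_le hr
  have h2 : rho q q1 r ≤ ‖q1 r / q r‖ := Complex.re_le_norm _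
  calc r * rho q q1 r ≤ r * ‖q1 r / q r‖ := mul_le_mul_of_nonneg_left h2 hr.le
    _ ≤ C := by rw [mul_comm]; exact h1

theorem abs_b_le (h : Prof n q q1 om A C R1 e1 dl1) {r : ℝ} (hr : 0 < r) :
    |b q q1 r| ≤ 2 * C + r / 2 := by
  unfold b
  have h2 : |(q1 r / q r).im| ≤ ‖q1 r / q r‖ := Complex.abs_im_le_norm _
  have h3 := h.ratio_le' hr
  calc |2 * (q1 r / q r).im + r / 2| ≤ |2 * (q1 r / q r).im| + |r / 2| := abs_add_le _ _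
    _ = 2 * |(q1 r / q r).im| + r / 2 := by
        rw [abs_mul, abs_of_pos (by norm_num : (0 : ℝ) < 2), abs_of_pos (by positivity : 0 < r / 2)]
    _ ≤ _ := by linarith

/-- the pressure and its derivative -/
theorem dP (h : Prof n q q1 om A C R1 e1 dl1) {r : ℝ} (hr : 0 < r) :
    HasDerivAt (fun r => ‖q r‖ ^ n) ((n : ℝ) * rho q q1 r * ‖q r‖ ^ n) r := by
  have h0 := h.ne r hr
  have hn0 : 0 < ‖q r‖ := norm_pos_iff.2 h0
  have h1 := hasDerivAt_normSq (Q1 := q1) (h.dq r hr)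
  have h2 := h1.sqrt (by positivity)
  have e : (fun r => Real.sqrt (‖q r‖ ^ 2)) = fun r => ‖q r‖ := by
    funext r; exact Real.sqrt_sq (norm_nonneg _)
  rw [e, Real.sqrt_sq (norm_nonneg _)] at h2
  have h3 := h2.pow n
  refine h3.congr_deriv ?_
  have h4 : (q1 r * conj (q r)).re = ‖q r‖ ^ 2 * rho q q1 r := by
    unfold rho
    rw [← Complex.normSq_eq_norm_sq]
    have hn : Complex.normSq (q r) ≠ 0 := by simpa [Complex.normSq_eq_zero] using h0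
    rw [Complex.div_re]
    simp only [Complex.mul_re, Complex.conj_re, Complex.conj_im]
    field_simp
    ring
  rw [h4]
  obtain ⟨m, rfl⟩ : ∃ m, n = m + 1 := ⟨n - 1, by have := h.two_le; omega⟩
  simp only [Nat.add_sub_cancel]
  field_simp
  ring

/-- qualitative decay of the pressure -/
theorem P_le (h : Prof n q q1 om A C R1 e1 dl1) {r : ℝ} (hr : 0 < r) :
    ‖q r‖ ^ n * (1 + r) ^ 2 ≤ A ^ n := by
  have h1 := h.hi r hr
  have h10 : 0 < (1 + r) ^ ((2 : ℝ) / n) := Real.rpow_pos_of_pos (by linarith) _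
  have h2 : (‖q r‖ * (1 + r) ^ ((2 : ℝ) / n)) ^ n ≤ A ^ n :=
    pow_le_pow_left₀ (by positivity) h1 n
  have hn := h.npos
  have h3 : ((1 + r) ^ ((2 : ℝ) / n)) ^ n = (1 + r) ^ 2 := by
    rw [← Real.rpow_natCast, ← Real.rpow_mul (by linarith)]
    have : (2 : ℝ) / n * (n : ℝ) = ((2 : ℕ) : ℝ) := by field_simp; norm_num
    rw [this, Real.rpow_natCast]
  rwa [mul_pow, h3] at h2

end Prof

end Crest.Agent.R086.CH
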