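import Crest.Agent.R086.CH3

/-!
Row 86 (S0114), Part C, node C-H (helper362): the uniform bound of `Re lam`, radial form.
-/

set_option autoImplicit false

open Complex ComplexConjugate Filter Topology

namespace Crest.Agent.R086.CH

open CCore CCore.Sys CDecay Prof

section Alg

variable {q q1 F F1 G G1 : ℝ → ℂ} {r : ℝ}

/-- the functions `S, S', D, D'` -/
noncomputable def SS (q F G : ℝ → ℂ) (r : ℝ) : ℂ := (F r / q r + G r / conj (q r)) / 2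
noncomputable def DD (q F G : ℝ → ℂ) (r : ℝ) : ℂ := (F r / q r - G r / conj (q r)) / 2
noncomputable def SS1 (q q1 F F1 G G1 : ℝ → ℂ) (r : ℝ) : ℂ :=
  (quo1 q q1 F F1 r + quo1c q q1 G G1 r) / 2
noncomputable def DD1 (q q1 F F1 G G1 : ℝ → ℂ) (r : ℝ) : ℂ :=
  (quo1 q q1 F F1 r - quo1c q q1 G G1 r) / 2

theorem norm_half_add_le {a b c x y : ℝ} {z z' : ℂ} (h1 : c * ‖z‖ ≤ x) (h2 : c * ‖z'‖ ≤ y)
    (hc : 0 ≤ c) (hab : a = x + y) (hb : 0 ≤ a) (_ : b = 0) : c * ‖(z + z') / 2‖ ≤ a := by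
  rw [norm_div]
  have h3 : ‖z + z'‖ ≤ ‖z‖ + ‖z'‖ := norm_add_le _ _
  have h4 : ‖(2 : ℂ)‖ = 2 := by norm_num
  rw [h4]
  have h5 : c * ‖z + z'‖ ≤ x + y := by
    calc c * ‖z + z'‖ ≤ c * (‖z‖ + ‖z'‖) := mul_le_mul_of_nonneg_left h3 hc
      _ = c * ‖z‖ + c * ‖z'‖ := by ring
      _ ≤ _ := add_le_add h1 h2
  have h6 : c * (‖z + z'‖ / 2) = (c * ‖z + z'‖) / 2 := by ring
  rw [h6]
  linarith

theorem norm_SS (h0 : q r ≠ 0) : ‖q r‖ * ‖SS q F G r‖ ≤ ‖F r‖ + ‖G r‖ := by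
  have hq : 0 < ‖q r‖ := norm_pos_iff.2 h0
  unfold SS
  apply norm_half_add_le (b := 0) (x := ‖F r‖) (y := ‖G r‖) _ _ hq.le rfl (by positivity) rfl
  · rw [norm_div]; field_simp; exact le_refl _
  · rw [norm_div, Complex.norm_conj]; field_simp; exact le_refl _

theorem norm_DD (h0 : q r ≠ 0) : ‖q r‖ * ‖DD q F G r‖ ≤ ‖F r‖ + ‖G r‖ := by
  have hq : 0 < ‖q r‖ := norm_pos_iff.2 h0
  unfold DD
  rw [sub_eq_add_neg]
  apply norm_half_add_le (b := 0) (x := ‖F r‖) (y := ‖G r‖) _ _ hq.le rfl (by positivity) rfl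
  · rw [norm_div]; field_simp; exact le_refl _
  · rw [norm_neg, norm_div, Complex.norm_conj]; field_simp; exact le_refl _

theorem norm_quo1 (h0 : q r ≠ 0) : ‖q r‖ * ‖quo1 q q1 F F1 r‖ ≤ ‖F1 r‖ + ‖F r‖ * ‖q1 r / q r‖ := by
  have hq : 0 < ‖q r‖ := norm_pos_iff.2 h0
  unfold quo1
  rw [norm_div, mul_div_cancel₀ _ hq.ne']
  have e : F r / q r * q1 r = F r * (q1 r / q r) := by ring
  rw [e]
  refine (norm_sub_le _ _).trans ?_
  rw [norm_mul]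

theorem norm_quo1c (h0 : q r ≠ 0) :
    ‖q r‖ * ‖quo1c q q1 G G1 r‖ ≤ ‖G1 r‖ + ‖G r‖ * ‖q1 r / q r‖ := by
  have hq : 0 < ‖q r‖ := norm_pos_iff.2 h0
  unfold quo1c
  rw [norm_div, Complex.norm_conj, mul_div_cancel₀ _ hq.ne']
  have e : G r / conj (q r) * conj (q1 r) = G r * conj (q1 r / q r) := by
    rw [map_div₀]; ring
  rw [e]
  refine (norm_sub_le _ _).trans ?_
  rw [norm_mul, Complex.norm_conj]

theorem norm_SS1 (h0 : q r ≠ 0) : ‖q r‖ * ‖SS1 q q1 F F1 G G1 r‖ ≤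
    ‖F1 r‖ + ‖G1 r‖ + (‖F r‖ + ‖G r‖) * ‖q1 r / q r‖ := by
  unfold SS1
  apply norm_half_add_le (b := 0) (norm_quo1 h0) (norm_quo1c h0) (norm_nonneg _) _ (by positivity) rfl
  ring

theorem norm_DD1 (h0 : q r ≠ 0) : ‖q r‖ * ‖DD1 q q1 F F1 G G1 r‖ ≤
    ‖F1 r‖ + ‖G1 r‖ + (‖F r‖ + ‖G r‖) * ‖q1 r / q r‖ := by
  unfold DD1
  rw [sub_eq_add_neg]
  apply norm_half_add_le (b := 0) (norm_quo1 h0) (y := ‖G1 r‖ + ‖G r‖ * ‖q1 r / q r‖) _
    (norm_nonneg _) _ (by positivity) rfl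
  · rw [norm_neg]; exact norm_quo1c h0
  ring

/-- bound of the boundary functional -/
theorem abs_Bd_le {w b P : ℝ → ℝ} {kap n Q u u1 : ℝ} {lam : ℂ} {S S1 D D1 : ℝ → ℂ} {r : ℝ}
    (hr : 0 < r) (hQ : 0 ≤ Q) (hw : w r = Q ^ 2 * r ^ 11) (hk : 0 ≤ kap) (hn : 0 ≤ n)
    (hP : 0 ≤ P r)
    (hS : Q * ‖S r‖ ≤ u) (hD : Q * ‖D r‖ ≤ u) (hS1 : Q * ‖S1 r‖ ≤ u1) (hD1 : Q * ‖D1 r‖ ≤ u1) :
    |Bd w b P kap n lam S S1 D D1 r| ≤ r ^ 9 * (2 * ‖lam‖ * r ^ 2 * (u * u1) + |b r| * r ^ 2 * u1 ^ 2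
      + kap * |b r| * u ^ 2 + n * |b r| * (r ^ 2 * P r) * u ^ 2) := by
  have s0 : 0 ≤ Q * ‖S r‖ := by positivity
  have s1 : 0 ≤ Q * ‖S1 r‖ := by positivity
  have d0 : 0 ≤ Q * ‖D r‖ := by positivity
  have d1 : 0 ≤ Q * ‖D1 r‖ := by positivity
  have u0 : 0 ≤ u := s0.trans hS
  have u10 : 0 ≤ u1 := s1.trans hS1
  have hs2 : (Q * ‖S r‖) ^ 2 ≤ u ^ 2 := pow_le_pow_left₀ s0 hS 2
  have hd2 : (Q * ‖D r‖) ^ 2 ≤ u ^ 2 := pow_le_pow_left₀ d0 hD 2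
  have hs12 : (Q * ‖S1 r‖) ^ 2 ≤ u1 ^ 2 := pow_le_pow_left₀ s1 hS1 2
  have hd12 : (Q * ‖D1 r‖) ^ 2 ≤ u1 ^ 2 := pow_le_pow_left₀ d1 hD1 2
  have hss : (Q * ‖S1 r‖) * (Q * ‖S r‖) ≤ u1 * u := mul_le_mul hS1 hS s0 u10
  have hdd : (Q * ‖D1 r‖) * (Q * ‖D r‖) ≤ u1 * u := mul_le_mul hD1 hD d0 u10
  have hb : 0 ≤ |b r| := abs_nonneg _
  have t1 : |(conj lam * ((w r : ℂ) * (S1 r * conj (S r) + D1 r * conj (D r)))).re| ≤
      r ^ 9 * (2 * ‖lam‖ * r ^ 2 * (u * u1)) := by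
    refine (Complex.abs_re_le_norm _).trans ?_
    rw [norm_mul, norm_mul, Complex.norm_conj, Complex.norm_real, hw,
      Real.norm_of_nonneg (by positivity)]
    have e1 : ‖S1 r * conj (S r) + D1 r * conj (D r)‖ ≤ ‖S1 r‖ * ‖S r‖ + ‖D1 r‖ * ‖D r‖ := by
      refine (norm_add_le _ _).trans ?_
      rw [norm_mul, norm_mul, Complex.norm_conj, Complex.norm_conj]
    calc ‖lam‖ * (Q ^ 2 * r ^ 11 * ‖S1 r * conj (S r) + D1 r * conj (D r)‖)
        ≤ ‖lam‖ * (Q ^ 2 * r ^ 11 * (‖S1 r‖ * ‖S r‖ + ‖D1 r‖ * ‖D r‖)) := by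
          apply mul_le_mul_of_nonneg_left _ (norm_nonneg _)
          exact mul_le_mul_of_nonneg_left e1 (by positivity)
      _ = ‖lam‖ * r ^ 11 * ((Q * ‖S1 r‖) * (Q * ‖S r‖) + (Q * ‖D1 r‖) * (Q * ‖D r‖)) := by ring
      _ ≤ ‖lam‖ * r ^ 11 * (u1 * u + u1 * u) :=
          mul_le_mul_of_nonneg_left (add_le_add hss hdd) (by positivity)
      _ = _ := by ring
  have t2 : |w r * b r / 2 * (‖S1 r‖ ^ 2 + ‖D1 r‖ ^ 2)| ≤ r ^ 9 * (|b r| * r ^ 2 * u1 ^ 2) := by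
    rw [hw]
    have e : Q ^ 2 * r ^ 11 * b r / 2 * (‖S1 r‖ ^ 2 + ‖D1 r‖ ^ 2)
        = b r * (r ^ 11 / 2 * ((Q * ‖S1 r‖) ^ 2 + (Q * ‖D1 r‖) ^ 2)) := by ring
    rw [e, abs_mul, abs_of_nonneg (by positivity :
      0 ≤ r ^ 11 / 2 * ((Q * ‖S1 r‖) ^ 2 + (Q * ‖D1 r‖) ^ 2))]
    calc |b r| * (r ^ 11 / 2 * ((Q * ‖S1 r‖) ^ 2 + (Q * ‖D1 r‖) ^ 2))
        ≤ |b r| * (r ^ 11 / 2 * (u1 ^ 2 + u1 ^ 2)) := by
          apply mul_le_mul_of_nonneg_left _ hb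
          exact mul_le_mul_of_nonneg_left (add_le_add hs12 hd12) (by positivity)
      _ = _ := by ring
  have t3 : |kap * (w r * b r / (2 * r ^ 2)) * (‖S r‖ ^ 2 + ‖D r‖ ^ 2)| ≤
      r ^ 9 * (kap * |b r| * u ^ 2) := by
    rw [hw]
    have e : kap * (Q ^ 2 * r ^ 11 * b r / (2 * r ^ 2)) * (‖S r‖ ^ 2 + ‖D r‖ ^ 2)
        = b r * (kap * r ^ 9 / 2 * ((Q * ‖S r‖) ^ 2 + (Q * ‖D r‖) ^ 2)) := by
      field_simp
    rw [e, abs_mul, abs_of_nonneg (by positivity :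
      0 ≤ kap * r ^ 9 / 2 * ((Q * ‖S r‖) ^ 2 + (Q * ‖D r‖) ^ 2))]
    calc |b r| * (kap * r ^ 9 / 2 * ((Q * ‖S r‖) ^ 2 + (Q * ‖D r‖) ^ 2))
        ≤ |b r| * (kap * r ^ 9 / 2 * (u ^ 2 + u ^ 2)) := by
          apply mul_le_mul_of_nonneg_left _ hb
          exact mul_le_mul_of_nonneg_left (add_le_add hs2 hd2) (by positivity)
      _ = _ := by ring
  have t4 : |n * (w r * b r * P r / 2) * ‖S r‖ ^ 2| ≤
      r ^ 9 * (n * |b r| * (r ^ 2 * P r) * u ^ 2) := by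
    rw [hw]
    have e : n * (Q ^ 2 * r ^ 11 * b r * P r / 2) * ‖S r‖ ^ 2
        = b r * (n * r ^ 11 * P r / 2 * (Q * ‖S r‖) ^ 2) := by ring
    rw [e, abs_mul, abs_of_nonneg (by positivity :
      0 ≤ n * r ^ 11 * P r / 2 * (Q * ‖S r‖) ^ 2)]
    calc |b r| * (n * r ^ 11 * P r / 2 * (Q * ‖S r‖) ^ 2)
        ≤ |b r| * (n * r ^ 11 * P r * u ^ 2) := by
          apply mul_le_mul_of_nonneg_left _ hb
          have : 0 ≤ n * r ^ 11 * P r := by positivity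
          nlinarith [mul_le_mul_of_nonneg_left hs2 this, mul_nonneg this (sq_nonneg u)]
      _ = _ := by ring
  unfold Bd
  have tri : ∀ a b c d : ℝ, |a + b - c - d| ≤ |a| + |b| + |c| + |d| := by
    intro a b c d
    have h1 := abs_sub (a + b - c) d
    have h2 := abs_sub (a + b) c
    have h3 := abs_add_le a b
    linarith
  refine (tri _ _ _ _).trans ?_
  calc _ ≤ r ^ 9 * (2 * ‖lam‖ * r ^ 2 * (u * u1)) + r ^ 9 * (|b r| * r ^ 2 * u1 ^ 2)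
        + r ^ 9 * (kap * |b r| * u ^ 2) + r ^ 9 * (n * |b r| * (r ^ 2 * P r) * u ^ 2) :=
        add_le_add (add_le_add (add_le_add t1 t2) t3) t4
    _ = _ := by ring

end Alg

set_option maxHeartbeats 4000000 in
/-- **R0, radial form**: mode pairs with `Re lam > 4 + A⁴ (11 + 2C)` vanish. -/
theorem R0_core {n : ℕ} {q q1 : ℝ → ℂ} {om A C R1 e1 dl1 : ℝ}
    (h : Prof n q q1 om A C R1 e1 dl1) {lam : ℂ} {kap : ℝ} (hkap : 0 ≤ kap)
    {F G : ℕ → ℝ → ℂ} {M : ℝ} (hM : 0 ≤ M)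
    (hdF : ∀ j, j < 20 → ∀ s : ℝ, 0 < s → HasDerivAt (F j) (F (j + 1) s) s)
    (hdG : ∀ j, j < 20 → ∀ s : ℝ, 0 < s → HasDerivAt (G j) (G (j + 1) s) s)
    (hbF : ∀ j, j ≤ 20 → ∀ s : ℝ, 0 < s → ‖F j s‖ ≤ M)
    (hbG : ∀ j, j ≤ 20 → ∀ s : ℝ, 0 < s → ‖G j s‖ ≤ M)
    (heF : ∀ r : ℝ, 0 < r → I * (F 2 r + 11 / r * F 1 r - kap / r ^ 2 * F 0 r) - r / 2 * F 1 r
      + (I * om - ((1 / (n : ℝ) : ℝ) : ℂ)) * F 0 r
      - I * ((1 + ((n : ℝ) : ℂ) / 2) * ((‖q r‖ ^ n : ℝ) : ℂ) * F 0 r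
        + ((n : ℝ) : ℂ) / 2 * ((‖q r‖ ^ n : ℝ) : ℂ) * (q r / conj (q r)) * G 0 r) = lam * F 0 r)
    (heG : ∀ r : ℝ, 0 < r → -I * (G 2 r + 11 / r * G 1 r - kap / r ^ 2 * G 0 r) - r / 2 * G 1 r
      + (-I * om - ((1 / (n : ℝ) : ℝ) : ℂ)) * G 0 r
      + I * ((1 + ((n : ℝ) : ℂ) / 2) * ((‖q r‖ ^ n : ℝ) : ℂ) * G 0 r
        + ((n : ℝ) : ℂ) / 2 * ((‖q r‖ ^ n : ℝ) : ℂ) * (conj (q r) / q r) * F 0 r) = lam * G 0 r)
    (hlam : 4 + A ^ 4 * (11 + 2 * C) < lam.re) :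
    ∀ r : ℝ, 0 < r → F 0 r = 0 ∧ G 0 r = 0 := by
  have hn := h.npos
  have hA := h.hA
  have hC := h.hC
  set P : ℝ → ℝ := fun r => ‖q r‖ ^ n with hPdef
  set S := SS q (F 0) (G 0) with hS
  set D := DD q (F 0) (G 0) with hD
  set S1 := SS1 q q1 (F 0) (F 1) (G 0) (G 1) with hS1
  set D1 := DD1 q q1 (F 0) (F 1) (G 0) (G 1) with hD1
  have hP0 : ∀ r, 0 < r → 0 < P r := fun r hr => by
    have : 0 < ‖q r‖ := norm_pos_iff.2 (h.ne r hr)
    simp only [hPdef]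
    positivity
  -- pressure bound `r² P ≤ A^n`, `P ≤ A^n`
  have hPA : ∀ r, 0 < r → r ^ 2 * P r ≤ A ^ n ∧ P r ≤ A ^ n := by
    intro r hr
    have h1 := h.P_le hr
    have h2 := (hP0 r hr).le
    simp only [hPdef] at h2 ⊢
    constructor
    · have : r ^ 2 ≤ (1 + r) ^ 2 := pow_le_pow_left₀ hr.le (by linarith) 2
      nlinarith
    · have : 1 ≤ (1 + r) ^ 2 := one_le_pow₀ (by linarith)
      nlinarith
  -- decay
  have hlam3 : 3 < lam.re := by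
    have : 0 ≤ A ^ 4 * (11 + 2 * C) := by positivity
    linarith
  set K : ℝ := 11 + kap + (1 + n) * A ^ n with hK
  have hK0 : 0 ≤ K := by positivity
  have hpot : ∀ r : ℝ, 1 ≤ r → ‖(1 + ((n : ℝ) : ℂ) / 2) * ((P r : ℝ) : ℂ)‖ ≤ (1 + n) * A ^ n / r ^ 2 ∧
      ∀ z : ℂ, ‖z‖ = 1 → ‖((n : ℝ) : ℂ) / 2 * ((P r : ℝ) : ℂ) * z‖ ≤ (1 + n) * A ^ n / r ^ 2 := by
    intro r hr
    have hr0 : 0 < r := by linarith
    have h1 := (hPA r hr0).1
    have h2 := (hP0 r hr0).le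
    have hPr : P r ≤ A ^ n / r ^ 2 := by
      rw [le_div_iff₀ (by positivity)]; linarith
    constructor
    · rw [norm_mul, Complex.norm_real, Real.norm_of_nonneg h2]
      have e : ‖1 + ((n : ℝ) : ℂ) / 2‖ ≤ 1 + n := by
        refine (norm_add_le _ _).trans ?_
        have h2' : ‖(2 : ℂ)‖ = 2 := by norm_num
        have h1' : ‖(1 : ℂ)‖ = 1 := by norm_num
        rw [norm_div, Complex.norm_real, Real.norm_of_nonneg hn.le, h2', h1']
        linarith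
      calc ‖1 + ((n : ℝ) : ℂ) / 2‖ * P r ≤ (1 + n) * (A ^ n / r ^ 2) :=
            mul_le_mul e hPr h2 (by positivity)
        _ = _ := by ring
    · intro z hz
      rw [norm_mul, norm_mul, hz, mul_one, Complex.norm_real, Real.norm_of_nonneg h2, norm_div,
        Complex.norm_real, Real.norm_of_nonneg hn.le]
      calc (n : ℝ) / ‖(2 : ℂ)‖ * P r ≤ (1 + n) * (A ^ n / r ^ 2) := by
            apply mul_le_mul _ hPr h2 (by positivity)
            have : ‖(2 : ℂ)‖ = 2 := by norm_num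
            rw [this]
            linarith
        _ = _ := by ring
  have hphase : ∀ r : ℝ, 0 < r → ‖q r / conj (q r)‖ = 1 ∧ ‖conj (q r) / q r‖ = 1 := by
    intro r hr
    have : 0 < ‖q r‖ := norm_pos_iff.2 (h.ne r hr)
    rw [norm_div, norm_div, Complex.norm_conj]
    exact ⟨div_self this.ne', div_self this.ne'⟩
  have hEF : ∀ r : ℝ, 1 ≤ r → ‖(r / 2 : ℂ) * F 1 r + (lam + ((1 / (n : ℝ) : ℝ) : ℂ) - I * om) * F 0 r‖ ≤
      K * (‖F 2 r‖ + ‖F 1 r‖ / r + (‖F 0 r‖ + ‖G 0 r‖) / r ^ 2) := by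
    intro r hr
    have hr0 : 0 < r := by linarith
    obtain ⟨p1, p2⟩ := hpot r hr
    have p2 := p2 _ (hphase r hr0).1
    have e : (r / 2 : ℂ) * F 1 r + (lam + ((1 / (n : ℝ) : ℝ) : ℂ) - I * om) * F 0 r
        = I * (F 2 r + 11 / r * F 1 r - kap / r ^ 2 * F 0 r)
          - I * ((1 + ((n : ℝ) : ℂ) / 2) * ((P r : ℝ) : ℂ) * F 0 r
            + ((n : ℝ) : ℂ) / 2 * ((P r : ℝ) : ℂ) * (q r / conj (q r)) * G 0 r) := by
      linear_combination -(heF r hr0)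
    rw [e]
    refine (norm_sub_le _ _).trans ?_
    rw [norm_mul, norm_mul, Complex.norm_I, one_mul, one_mul]
    have q1' : ‖F 2 r + 11 / r * F 1 r - kap / r ^ 2 * F 0 r‖ ≤
        ‖F 2 r‖ + 11 * (‖F 1 r‖ / r) + kap * (‖F 0 r‖ / r ^ 2) := by
      refine (norm_sub_le _ _).trans ?_
      have a1 := norm_add_le (F 2 r) (11 / r * F 1 r)
      have a2 : ‖(11 / r * F 1 r : ℂ)‖ = 11 * (‖F 1 r‖ / r) := by
        rw [norm_mul, norm_div, Complex.norm_real, Real.norm_of_nonneg hr0.le]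
        norm_num
        ring
      have a3 : ‖(kap / r ^ 2 * F 0 r : ℂ)‖ = kap * (‖F 0 r‖ / r ^ 2) := by
        rw [norm_mul, norm_div, norm_pow, Complex.norm_real, Complex.norm_real,
          Real.norm_of_nonneg hr0.le, Real.norm_of_nonneg hkap]
        ring
      rw [a3]
      linarith
    have q2' : ‖(1 + ((n : ℝ) : ℂ) / 2) * ((P r : ℝ) : ℂ) * F 0 r
            + ((n : ℝ) : ℂ) / 2 * ((P r : ℝ) : ℂ) * (q r / conj (q r)) * G 0 r‖ ≤
        (1 + n) * A ^ n * ((‖F 0 r‖ + ‖G 0 r‖) / r ^ 2) := by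
      refine (norm_add_le _ _).trans ?_
      rw [norm_mul _ (F 0 r), norm_mul _ (G 0 r)]
      calc _ ≤ (1 + n) * A ^ n / r ^ 2 * ‖F 0 r‖ + (1 + n) * A ^ n / r ^ 2 * ‖G 0 r‖ :=
            add_le_add (mul_le_mul_of_nonneg_right p1 (norm_nonneg _))
              (mul_le_mul_of_nonneg_right p2 (norm_nonneg _))
        _ = _ := by ring
    have z1 : 0 ≤ ‖F 2 r‖ := norm_nonneg _
    have z2 : 0 ≤ ‖F 1 r‖ / r := by positivity
    have z3 : 0 ≤ ‖F 0 r‖ / r ^ 2 := by positivity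
    have z4 : 0 ≤ ‖G 0 r‖ / r ^ 2 := by positivity
    have z5 : 0 ≤ (1 + (n : ℝ)) * A ^ n := by positivity
    have z6 : (‖F 0 r‖ + ‖G 0 r‖) / r ^ 2 = ‖F 0 r‖ / r ^ 2 + ‖G 0 r‖ / r ^ 2 := by ring
    rw [z6] at q2' ⊢
    rw [hK]
    nlinarith [mul_nonneg hkap z1, mul_nonneg hkap z2, mul_nonneg hkap z4, mul_nonneg z5 z1,
      mul_nonneg z5 z2]
  have hEG : ∀ r : ℝ, 1 ≤ r → ‖(r / 2 : ℂ) * G 1 r + (lam + ((1 / (n : ℝ) : ℝ) : ℂ) + I * om) * G 0 r‖ ≤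
      K * (‖G 2 r‖ + ‖G 1 r‖ / r + (‖G 0 r‖ + ‖F 0 r‖) / r ^ 2) := by
    intro r hr
    have hr0 : 0 < r := by linarith
    obtain ⟨p1, p2⟩ := hpot r hr
    have p2 := p2 _ (hphase r hr0).2
    have e : (r / 2 : ℂ) * G 1 r + (lam + ((1 / (n : ℝ) : ℝ) : ℂ) + I * om) * G 0 r
        = -I * (G 2 r + 11 / r * G 1 r - kap / r ^ 2 * G 0 r)
          + I * ((1 + ((n : ℝ) : ℂ) / 2) * ((P r : ℝ) : ℂ) * G 0 r
            + ((n : ℝ) : ℂ) / 2 * ((P r : ℝ) : ℂ) * (conj (q r) / q r) * F 0 r) := by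
      linear_combination -(heG r hr0)
    rw [e]
    refine (norm_add_le _ _).trans ?_
    rw [norm_mul, norm_mul, norm_neg, Complex.norm_I, one_mul, one_mul]
    have q1' : ‖G 2 r + 11 / r * G 1 r - kap / r ^ 2 * G 0 r‖ ≤
        ‖G 2 r‖ + 11 * (‖G 1 r‖ / r) + kap * (‖G 0 r‖ / r ^ 2) := by
      refine (norm_sub_le _ _).trans ?_
      have a1 := norm_add_le (G 2 r) (11 / r * G 1 r)
      have a2 : ‖(11 / r * G 1 r : ℂ)‖ = 11 * (‖G 1 r‖ / r) := by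
        rw [norm_mul, norm_div, Complex.norm_real, Real.norm_of_nonneg hr0.le]
        norm_num
        ring
      have a3 : ‖(kap / r ^ 2 * G 0 r : ℂ)‖ = kap * (‖G 0 r‖ / r ^ 2) := by
        rw [norm_mul, norm_div, norm_pow, Complex.norm_real, Complex.norm_real,
          Real.norm_of_nonneg hr0.le, Real.norm_of_nonneg hkap]
        ring
      rw [a3]
      linarith
    have q2' : ‖(1 + ((n : ℝ) : ℂ) / 2) * ((P r : ℝ) : ℂ) * G 0 r
            + ((n : ℝ) : ℂ) / 2 * ((P r : ℝ) : ℂ) * (conj (q r) / q r) * F 0 r‖ ≤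
        (1 + n) * A ^ n * ((‖G 0 r‖ + ‖F 0 r‖) / r ^ 2) := by
      refine (norm_add_le _ _).trans ?_
      rw [norm_mul _ (G 0 r), norm_mul _ (F 0 r)]
      calc _ ≤ (1 + n) * A ^ n / r ^ 2 * ‖G 0 r‖ + (1 + n) * A ^ n / r ^ 2 * ‖F 0 r‖ :=
            add_le_add (mul_le_mul_of_nonneg_right p1 (norm_nonneg _))
              (mul_le_mul_of_nonneg_right p2 (norm_nonneg _))
        _ = _ := by ring
    have z1 : 0 ≤ ‖G 2 r‖ := norm_nonneg _
    have z2 : 0 ≤ ‖G 1 r‖ / r := by positivity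
    have z3 : 0 ≤ ‖G 0 r‖ / r ^ 2 := by positivity
    have z4 : 0 ≤ ‖F 0 r‖ / r ^ 2 := by positivity
    have z5 : 0 ≤ (1 + (n : ℝ)) * A ^ n := by positivity
    have z6 : (‖G 0 r‖ + ‖F 0 r‖) / r ^ 2 = ‖G 0 r‖ / r ^ 2 + ‖F 0 r‖ / r ^ 2 := by ring
    rw [z6] at q2' ⊢
    rw [hK]
    nlinarith [mul_nonneg hkap z1, mul_nonneg hkap z2, mul_nonneg hkap z4, mul_nonneg z5 z1,
      mul_nonneg z5 z2]
  have hre1 : (lam + ((1 / (n : ℝ) : ℝ) : ℂ) - I * om).re = lam.re + 1 / n := by simp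
  have hre2 : (lam + ((1 / (n : ℝ) : ℝ) : ℂ) + I * om).re = lam.re + 1 / n := by simp
  have hinv : 0 < 1 / (n : ℝ) := by positivity
  have hdk := pair' (F := F) (G := G) (mu := lam + ((1 / (n : ℝ) : ℝ) : ℂ) - I * om)
    (nu := lam + ((1 / (n : ℝ) : ℝ) : ℂ) + I * om) hK0 hM
    (fun j hj s hs => hdF j hj s (by linarith)) (fun j hj s hs => hdG j hj s (by linarith))
    (fun j hj s hs => hbF j hj s (by linarith)) (fun j hj s hs => hbG j hj s (by linarith))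
    hEF hEG 12 (by norm_num) (by rw [hre1]; push_cast; linarith) (by rw [hre2]; push_cast; linarith)
  obtain ⟨⟨c0, hc0, kF0⟩, ⟨c1, hc1, kF1⟩, ⟨d0, hd0, kG0⟩, ⟨d1, hd1, kG1⟩⟩ := hdk
  have hpow6 : ∀ r : ℝ, 0 < r → r ^ (-(((12 : ℕ) : ℝ) / 2)) = (r⁻¹) ^ 6 := by
    intro r hr
    have : (-(((12 : ℕ) : ℝ) / 2)) = -((6 : ℕ) : ℝ) := by push_cast; norm_num
    rw [this, Real.rpow_neg hr.le, Real.rpow_natCast, inv_pow]
  have hpow7 : ∀ r : ℝ, 0 < r → r ^ (-(1 + ((12 : ℕ) : ℝ) / 2)) = (r⁻¹) ^ 7 := by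
    intro r hr
    have : (-(1 + ((12 : ℕ) : ℝ) / 2)) = -((7 : ℕ) : ℝ) := by push_cast; norm_num
    rw [this, Real.rpow_neg hr.le, Real.rpow_natCast, inv_pow]
  set c : ℝ := c0 + d0 + c1 + d1 + (c0 + d0) * C with hc
  have hcn : 0 ≤ c := by positivity
  -- u, u1 bounds at infinity
  have hu : ∀ r : ℝ, 1 ≤ r → ‖F 0 r‖ + ‖G 0 r‖ ≤ c * (r⁻¹) ^ 6 := by
    intro r hr
    have hr0 : 0 < r := by linarith
    have a1 := kF0 r hr
    have a2 := kG0 r hr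
    rw [hpow6 r hr0] at a1 a2
    have : (c0 + d0) * (r⁻¹) ^ 6 ≤ c * (r⁻¹) ^ 6 := by
      apply mul_le_mul_of_nonneg_right _ (by positivity)
      have : 0 ≤ (c0 + d0) * C := by positivity
      linarith
    linarith
  have hu1 : ∀ r : ℝ, 1 ≤ r → ‖F 1 r‖ + ‖G 1 r‖ + (‖F 0 r‖ + ‖G 0 r‖) * ‖q1 r / q r‖ ≤
      c * (r⁻¹) ^ 7 := by
    intro r hr
    have hr0 : 0 < r := by linarith
    have a1 := kF0 r hr
    have a2 := kG0 r hr
    have a3 := kF1 r hr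
    have a4 := kG1 r hr
    rw [hpow6 r hr0] at a1 a2
    rw [hpow7 r hr0] at a3 a4
    have a5 : ‖q1 r / q r‖ ≤ C * r⁻¹ := by
      have := h.ratio_le hr0
      rw [← div_eq_mul_inv, le_div_iff₀ hr0]
      exact this
    have a6 : (‖F 0 r‖ + ‖G 0 r‖) * ‖q1 r / q r‖ ≤ ((c0 + d0) * (r⁻¹) ^ 6) * (C * r⁻¹) :=
      mul_le_mul (by linarith) a5 (norm_nonneg _) (by positivity)
    have a7 : ((c0 + d0) * (r⁻¹) ^ 6) * (C * r⁻¹) = (c0 + d0) * C * (r⁻¹) ^ 7 := by ring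
    have a8 : c * (r⁻¹) ^ 7 = c0 * (r⁻¹) ^ 7 + d0 * (r⁻¹) ^ 7 + c1 * (r⁻¹) ^ 7 + d1 * (r⁻¹) ^ 7
        + (c0 + d0) * C * (r⁻¹) ^ 7 := by rw [hc]; ring
    have a9 : 0 ≤ c0 * (r⁻¹) ^ 7 := by positivity
    have a10 : 0 ≤ d0 * (r⁻¹) ^ 7 := by positivity
    linarith
  -- bounds of Bd
  have hwdef : ∀ r, w q r = ‖q r‖ ^ 2 * r ^ 11 := fun r => rfl
  have hBdle : ∀ r, 0 < r → ∀ u u1 : ℝ, ‖F 0 r‖ + ‖G 0 r‖ ≤ u →
      ‖F 1 r‖ + ‖G 1 r‖ + (‖F 0 r‖ + ‖G 0 r‖) * ‖q1 r / q r‖ ≤ u1 →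
      |Bd (w q) (b q q1) P kap n lam S S1 D D1 r| ≤ r ^ 9 * (2 * ‖lam‖ * r ^ 2 * (u * u1)
        + |b q q1 r| * r ^ 2 * u1 ^ 2 + kap * |b q q1 r| * u ^ 2
        + n * |b q q1 r| * (r ^ 2 * P r) * u ^ 2) := by
    intro r hr u u1 h1 h2
    have h0 := h.ne r hr
    exact abs_Bd_le hr (norm_nonneg (q r)) (hwdef r) hkap hn.le (hP0 r hr).le
      ((norm_SS h0).trans h1) ((norm_DD h0).trans h1) ((norm_SS1 h0).trans h2)
      ((norm_DD1 h0).trans h2)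
  have hHle : ∀ r, 0 < r → ∀ u : ℝ, ‖F 0 r‖ + ‖G 0 r‖ ≤ u →
      r ^ 10 * gg n r * ‖S r‖ ^ 2 ≤ A ^ 2 * (r ^ 10 * u ^ 2) := by
    intro r hr u h1
    have h0 := h.ne r hr
    have hw := h.w_lo hr
    have hs := (norm_SS (F := F 0) (G := G 0) h0).trans h1
    have hs2 : (‖q r‖ * ‖S r‖) ^ 2 ≤ u ^ 2 := pow_le_pow_left₀ (by positivity) hs 2
    have e1 : r ^ 11 * gg n r ≤ A ^ 2 * (‖q r‖ ^ 2 * r ^ 11) := by
      have := mul_le_mul_of_nonneg_left hw (show 0 ≤ A ^ 2 by positivity)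
      rwa [← mul_assoc, mul_inv_cancel₀ (by positivity), one_mul, hwdef] at this
    have e2 : r ^ 10 * gg n r ≤ A ^ 2 * (‖q r‖ ^ 2 * r ^ 10) := by
      have e3 : r * (r ^ 10 * gg n r) ≤ r * (A ^ 2 * (‖q r‖ ^ 2 * r ^ 10)) := by
        calc r * (r ^ 10 * gg n r) = r ^ 11 * gg n r := by ring
          _ ≤ A ^ 2 * (‖q r‖ ^ 2 * r ^ 11) := e1
          _ = _ := by ring
      exact le_of_mul_le_mul_left e3 hr
    calc r ^ 10 * gg n r * ‖S r‖ ^ 2 ≤ A ^ 2 * (‖q r‖ ^ 2 * r ^ 10) * ‖S r‖ ^ 2 :=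
          mul_le_mul_of_nonneg_right e2 (by positivity)
      _ = A ^ 2 * (r ^ 10 * (‖q r‖ * ‖S r‖) ^ 2) := by ring
      _ ≤ A ^ 2 * (r ^ 10 * u ^ 2) := by
          apply mul_le_mul_of_nonneg_left _ (by positivity)
          exact mul_le_mul_of_nonneg_left hs2 (by positivity)
  -- near zero
  set K0 : ℝ := 2 * ‖lam‖ * (2 * M * (2 * M + 2 * M * C)) + (2 * C + 1) * (2 * M + 2 * M * C) ^ 2
    + kap * (2 * C + 1) * (2 * M) ^ 2 + n * (2 * C + 1) * A ^ n * (2 * M) ^ 2 with hK0def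
  have hK00 : 0 ≤ K0 := by positivity
  have hz0 : ∀ r : ℝ, 0 < r → r ≤ 1 → |Bd (w q) (b q q1) P kap n lam S S1 D D1 r| ≤ K0 * r := by
    intro r hr hr1
    have a1 : ‖F 0 r‖ + ‖G 0 r‖ ≤ 2 * M := by
      have := hbF 0 (by norm_num) r hr
      have := hbG 0 (by norm_num) r hr
      linarith
    have a2 : ‖F 1 r‖ + ‖G 1 r‖ + (‖F 0 r‖ + ‖G 0 r‖) * ‖q1 r / q r‖ ≤ 2 * M + 2 * M * C := by
      have b1 := hbF 1 (by norm_num) r hr
      have b2 := hbG 1 (by norm_num) r hr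
      have b3 : (‖F 0 r‖ + ‖G 0 r‖) * ‖q1 r / q r‖ ≤ 2 * M * C :=
        mul_le_mul a1 (h.ratio_le' hr) (norm_nonneg _) (by positivity)
      linarith
    refine (hBdle r hr _ _ a1 a2).trans ?_
    have hb : |b q q1 r| ≤ 2 * C + 1 := by
      have := h.abs_b_le hr
      linarith
    have hb0 : 0 ≤ |b q q1 r| := abs_nonneg _
    have hr2 : r ^ 2 ≤ 1 := pow_le_one₀ hr.le hr1
    have hPr := (hPA r hr).1
    have hP00 : 0 ≤ r ^ 2 * P r := by have := hP0 r hr; positivity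
    have m1 : 2 * ‖lam‖ * r ^ 2 * (2 * M * (2 * M + 2 * M * C)) ≤
        2 * ‖lam‖ * (2 * M * (2 * M + 2 * M * C)) := by
      have : 0 ≤ 2 * ‖lam‖ * (2 * M * (2 * M + 2 * M * C)) := by positivity
      nlinarith
    have m2 : |b q q1 r| * r ^ 2 * (2 * M + 2 * M * C) ^ 2 ≤ (2 * C + 1) * (2 * M + 2 * M * C) ^ 2 := by
      apply mul_le_mul_of_nonneg_right _ (by positivity)
      calc |b q q1 r| * r ^ 2 ≤ (2 * C + 1) * 1 := mul_le_mul hb hr2 (by positivity) (by positivity)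
        _ = _ := mul_one _
    have m3 : kap * |b q q1 r| * (2 * M) ^ 2 ≤ kap * (2 * C + 1) * (2 * M) ^ 2 := by
      apply mul_le_mul_of_nonneg_right _ (by positivity)
      exact mul_le_mul_of_nonneg_left hb hkap
    have m4 : n * |b q q1 r| * (r ^ 2 * P r) * (2 * M) ^ 2 ≤ n * (2 * C + 1) * A ^ n * (2 * M) ^ 2 := by
      apply mul_le_mul_of_nonneg_right _ (by positivity)
      apply mul_le_mul _ hPr hP00 (by positivity)
      exact mul_le_mul_of_nonneg_left hb hn.le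
    have hr9 : r ^ 9 ≤ r := by
      calc r ^ 9 = r ^ 8 * r := by ring
        _ ≤ 1 * r := mul_le_mul_of_nonneg_right (pow_le_one₀ hr.le hr1) hr.le
        _ = r := one_mul _
    calc r ^ 9 * _ ≤ r ^ 9 * K0 := mul_le_mul_of_nonneg_left (by rw [hK0def]; linarith) (by positivity)
      _ ≤ r * K0 := mul_le_mul_of_nonneg_right hr9 hK00
      _ = K0 * r := mul_comm _ _
  -- near infinity
  set Ki : ℝ := 2 * ‖lam‖ * c ^ 2 + (2 * C + 1) * c ^ 2 + kap * (2 * C + 1) * c ^ 2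
    + n * (2 * C + 1) * A ^ n * c ^ 2 with hKidef
  have hzi : ∀ r : ℝ, 1 ≤ r → |Bd (w q) (b q q1) P kap n lam S S1 D D1 r| ≤ Ki * r⁻¹ := by
    intro r hr
    have hr0 : 0 < r := by linarith
    refine (hBdle r hr0 _ _ (hu r hr) (hu1 r hr)).trans ?_
    have hb : |b q q1 r| ≤ (2 * C + 1) * r := by
      have := h.abs_b_le hr0
      nlinarith
    have hb0 : 0 ≤ |b q q1 r| := abs_nonneg _
    have hPr := (hPA r hr0).1
    have hP00 : 0 ≤ r ^ 2 * P r := by have := hP0 r hr0; positivity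
    set s : ℝ := r⁻¹ with hs
    have hs0 : 0 < s := inv_pos.2 hr0
    have hs1 : s ≤ 1 := inv_le_one_of_one_le₀ hr
    have hrs : r * s = 1 := mul_inv_cancel₀ hr0.ne'
    have m1 : 2 * ‖lam‖ * r ^ 2 * (c * s ^ 6 * (c * s ^ 7)) = 2 * ‖lam‖ * c ^ 2 * s ^ 11 := by
      calc 2 * ‖lam‖ * r ^ 2 * (c * s ^ 6 * (c * s ^ 7))
          = 2 * ‖lam‖ * c ^ 2 * s ^ 11 * (r * s) ^ 2 := by ring
        _ = _ := by rw [hrs]; ring
    have m2 : |b q q1 r| * r ^ 2 * (c * s ^ 7) ^ 2 ≤ (2 * C + 1) * c ^ 2 * s ^ 11 := by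
      calc |b q q1 r| * r ^ 2 * (c * s ^ 7) ^ 2 ≤ ((2 * C + 1) * r) * r ^ 2 * (c * s ^ 7) ^ 2 := by
            apply mul_le_mul_of_nonneg_right _ (by positivity)
            exact mul_le_mul_of_nonneg_right hb (by positivity)
        _ = (2 * C + 1) * c ^ 2 * s ^ 11 * (r * s) ^ 3 := by ring
        _ = _ := by rw [hrs]; ring
    have m3 : kap * |b q q1 r| * (c * s ^ 6) ^ 2 ≤ kap * (2 * C + 1) * c ^ 2 * s ^ 11 := by
      calc kap * |b q q1 r| * (c * s ^ 6) ^ 2 ≤ kap * ((2 * C + 1) * r) * (c * s ^ 6) ^ 2 := by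
            apply mul_le_mul_of_nonneg_right _ (by positivity)
            exact mul_le_mul_of_nonneg_left hb hkap
        _ = kap * (2 * C + 1) * c ^ 2 * s ^ 11 * (r * s) := by ring
        _ = _ := by rw [hrs]; ring
    have m4 : n * |b q q1 r| * (r ^ 2 * P r) * (c * s ^ 6) ^ 2 ≤
        n * (2 * C + 1) * A ^ n * c ^ 2 * s ^ 11 := by
      calc n * |b q q1 r| * (r ^ 2 * P r) * (c * s ^ 6) ^ 2
          ≤ n * ((2 * C + 1) * r) * A ^ n * (c * s ^ 6) ^ 2 := by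
            apply mul_le_mul_of_nonneg_right _ (by positivity)
            apply mul_le_mul _ hPr hP00 (by positivity)
            exact mul_le_mul_of_nonneg_left hb hn.le
        _ = n * (2 * C + 1) * A ^ n * c ^ 2 * s ^ 11 * (r * s) := by ring
        _ = _ := by rw [hrs]; ring
    calc r ^ 9 * _ ≤ r ^ 9 * (Ki * s ^ 11) := by
          apply mul_le_mul_of_nonneg_left _ (by positivity)
          rw [hKidef]
          linarith
      _ = Ki * s * (s * (r * s) ^ 9) := by ring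
      _ = Ki * s * s := by rw [hrs]; ring
      _ ≤ Ki * s * 1 := mul_le_mul_of_nonneg_left hs1 (by positivity)
      _ = _ := mul_one _
  have hHz0 : ∀ r : ℝ, 0 < r → r ≤ 1 → |r ^ 10 * gg n r * ‖S r‖ ^ 2| ≤ A ^ 2 * (2 * M) ^ 2 * r := by
    intro r hr hr1
    have hg := gg_pos n hr
    rw [abs_of_nonneg (by positivity)]
    have a1 : ‖F 0 r‖ + ‖G 0 r‖ ≤ 2 * M := by
      have := hbF 0 (by norm_num) r hr
      have := hbG 0 (by norm_num) r hr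
      linarith
    refine (hHle r hr _ a1).trans ?_
    have hr10 : r ^ 10 ≤ r := by
      calc r ^ 10 = r ^ 9 * r := by ring
        _ ≤ 1 * r := mul_le_mul_of_nonneg_right (pow_le_one₀ hr.le hr1) hr.le
        _ = r := one_mul _
    calc A ^ 2 * (r ^ 10 * (2 * M) ^ 2) = A ^ 2 * (2 * M) ^ 2 * r ^ 10 := by ring
      _ ≤ A ^ 2 * (2 * M) ^ 2 * r := mul_le_mul_of_nonneg_left hr10 (by positivity)
  have hHzi : ∀ r : ℝ, 1 ≤ r → |r ^ 10 * gg n r * ‖S r‖ ^ 2| ≤ A ^ 2 * c ^ 2 * r⁻¹ := by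
    intro r hr
    have hr0 : 0 < r := by linarith
    have hg := gg_pos n hr0
    rw [abs_of_nonneg (by positivity)]
    refine (hHle r hr0 _ (hu r hr)).trans ?_
    set s : ℝ := r⁻¹ with hs
    have hs0 : 0 < s := inv_pos.2 hr0
    have hs1 : s ≤ 1 := inv_le_one_of_one_le₀ hr
    have hrs : r * s = 1 := mul_inv_cancel₀ hr0.ne'
    calc A ^ 2 * (r ^ 10 * (c * s ^ 6) ^ 2) = A ^ 2 * c ^ 2 * s * (s * (r * s) ^ 10) := by ring
      _ = A ^ 2 * c ^ 2 * s * s := by rw [hrs]; ring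
      _ ≤ A ^ 2 * c ^ 2 * s * 1 := mul_le_mul_of_nonneg_left hs1 (by positivity)
      _ = _ := mul_one _
  -- limits
  have lim0 : ∀ (f : ℝ → ℝ) (K : ℝ), (∀ r : ℝ, 0 < r → r ≤ 1 → |f r| ≤ K * r) →
      Tendsto f (𝓝[>] 0) (𝓝 0) := by
    intro f K hf
    have hK : Tendsto (fun r : ℝ => K * r) (𝓝[>] 0) (𝓝 0) := by
      have : Tendsto (fun r : ℝ => K * r) (𝓝 0) (𝓝 (K * 0)) := (continuous_const.mul continuous_id).tendsto 0
      rw [mul_zero] at this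
      exact this.mono_left nhdsWithin_le_nhds
    apply squeeze_zero_norm' _ hK
    have : Set.Ioc (0 : ℝ) 1 ∈ 𝓝[>] (0 : ℝ) := Ioc_mem_nhdsGT one_pos
    filter_upwards [this] with r hr
    rw [Real.norm_eq_abs]
    exact hf r hr.1 hr.2
  have limi : ∀ (f : ℝ → ℝ) (K : ℝ), (∀ r : ℝ, 1 ≤ r → |f r| ≤ K * r⁻¹) →
      Tendsto f atTop (𝓝 0) := by
    intro f K hf
    have hK : Tendsto (fun r : ℝ => K * r⁻¹) atTop (𝓝 0) := by
      simpa using tendsto_inv_atTop_zero.const_mul K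
    apply squeeze_zero_norm' _ hK
    filter_upwards [eventually_ge_atTop (1 : ℝ)] with r hr
    rw [Real.norm_eq_abs]
    exact hf r hr
  -- the system
  have hsys : ∀ r, 0 < r → Sys (w q) (b q q1) P (rho q q1) kap n (1 / (n : ℝ)) lam S S1 D D1 0 0 r := by
    intro r hr
    have := sys_of_eqs (a := 0) (c := 0) (P := P) (kap := kap) (n := n) (om := om)
      (eps := 1 / (n : ℝ)) (lam := lam)
      hr.ne' (h.ne r hr) (h.dq r hr) (h.dq1 r hr) (hdF 0 (by norm_num) r hr)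
      (hdF 1 (by norm_num) r hr) (hdG 0 (by norm_num) r hr) (hdG 1 (by norm_num) r hr)
      (by rw [add_zero]; exact heF r hr) (by rw [add_zero]; exact heG r hr)
    simp only [zero_div, add_zero, sub_zero] at this
    exact this
  -- b bounds
  have heps0 : 0 ≤ 1 / (n : ℝ) := by positivity
  have heps : 1 / (n : ℝ) ≤ 3 := by
    rw [div_le_iff₀ hn]
    have : (2 : ℝ) ≤ n := by exact_mod_cast h.two_le
    linarith
  have hwb0 : Tendsto (fun r => w q r * b q q1 r) (𝓝[>] 0) (𝓝 0) := by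
    apply lim0 _ (A ^ 2 * (2 * C + 1))
    intro r hr hr1
    have h1 := h.w_hi hr
    have hg := gg_pos n hr
    have hg1 := gg_le n hr
    have hw0 : 0 ≤ w q r := by rw [hwdef]; positivity
    rw [abs_mul, abs_of_nonneg hw0]
    have hb : |b q q1 r| ≤ 2 * C + 1 := by
      have := h.abs_b_le hr
      linarith
    have hr11 : r ^ 11 * gg n r ≤ r := by
      calc r ^ 11 * gg n r ≤ r ^ 11 * 1 := mul_le_mul_of_nonneg_left hg1 (by positivity)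
        _ = r ^ 10 * r := by ring
        _ ≤ 1 * r := mul_le_mul_of_nonneg_right (pow_le_one₀ hr.le hr1) hr.le
        _ = r := one_mul _
    calc w q r * |b q q1 r| ≤ (A ^ 2 * r) * (2 * C + 1) := by
          apply mul_le_mul _ hb (abs_nonneg _) (by positivity)
          exact h1.trans (mul_le_mul_of_nonneg_left hr11 (by positivity))
      _ = _ := by ring
  have hbb := b_bounds (w := w q) (b := b q q1) (g := gg n) (g1 := gg1 n) hA heps0 heps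
    (fun r hr => gg_pos n hr) (fun r hr => gg_der n hr) (fun r hr => gg1_ge h.two_le hr)
    (fun r hr => gg_le n hr) (fun r hr => h.w_lo hr) (fun r hr => h.w_hi hr)
    (fun r hr => (hsys r hr).hwb) hwb0
  set dl : ℝ := (n : ℝ) ^ 2 * C * A ^ 4 * dl1 with hdl
  have hdl0 : 0 ≤ dl := by have := h.hdl; positivity
  have hfin := abstract_bound (w := w q) (b := b q q1) (P := P) (rho := rho q q1)
    (P1 := fun r => (n : ℝ) * rho q q1 r * ‖q r‖ ^ n) (g := gg n) (g1 := gg1 n) (kap := kap)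
    (n := n) (eps := 1 / (n : ℝ)) (A := A) (B0 := A ^ 4) (B := C) (dl := dl) (lam := lam)
    (S := S) (S1 := S1) (D := D) (D1 := D1) hA heps0 heps hn hkap (by positivity) hC hdl0
    (by
      have := h.small2
      calc dl * A ^ 4 = (n : ℝ) ^ 2 * C * A ^ 8 * dl1 := by rw [hdl]; ring
        _ ≤ 1 := this)
    (fun r hr => gg_pos n hr) (fun r hr => gg_der n hr) (fun r hr => gg1_ge h.two_le hr)
    (fun r hr => h.w_lo hr) (fun r hr => h.w_hi hr) hsys (fun r hr => h.dP hr) hP0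
    (fun r hr => (hbb r hr).1) (fun r hr => (hbb r hr).2) (fun r hr => h.rho_le hr)
    (by
      intro r hr
      have hb0 := (hbb r hr).1
      have hb1 := (hbb r hr).2
      have hPr := (hP0 r hr).le
      have e : (n : ℝ) * ((n : ℝ) * rho q q1 r * ‖q r‖ ^ n * b q q1 r)
          = ((n : ℝ) * rho q q1 r * b q q1 r) * (n * P r) := by simp only [hPdef]; ring
      rw [e]
      have hnP : 0 ≤ (n : ℝ) * P r := by positivity
      rcases le_total r R1 with hle | hge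
      · have h1 : (n : ℝ) * rho q q1 r ≤ e1 := h.core r hr hle
        have h2 : (n : ℝ) * rho q q1 r * b q q1 r ≤ 1 := by
          calc (n : ℝ) * rho q q1 r * b q q1 r ≤ e1 * b q q1 r :=
                mul_le_mul_of_nonneg_right h1 hb0
            _ ≤ e1 * (A ^ 4 * R1) := by
                apply mul_le_mul_of_nonneg_left _ h.he1
                exact hb1.trans (mul_le_mul_of_nonneg_left hle (by positivity))
            _ = e1 * A ^ 4 * R1 := by ring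
            _ ≤ 1 := h.small1
        have h3 : 0 ≤ dl / r ^ 2 := by positivity
        have h4 := mul_le_mul_of_nonneg_right h2 hnP
        linarith
      · have h1 : rho q q1 r * b q q1 r ≤ C * A ^ 4 := by
          have k1 : rho q q1 r ≤ ‖q1 r / q r‖ := Complex.re_le_norm _
          calc rho q q1 r * b q q1 r ≤ ‖q1 r / q r‖ * b q q1 r :=
                mul_le_mul_of_nonneg_right k1 hb0
            _ ≤ ‖q1 r / q r‖ * (A ^ 4 * r) := mul_le_mul_of_nonneg_left hb1 (norm_nonneg _)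
            _ = (‖q1 r / q r‖ * r) * A ^ 4 := by ring
            _ ≤ C * A ^ 4 := mul_le_mul_of_nonneg_right (h.ratio_le hr) (by positivity)
        have h2 : P r ≤ dl1 / r ^ 2 := h.far r hge
        have h5 : ((n : ℝ) * rho q q1 r * b q q1 r) * (n * P r) ≤ dl / r ^ 2 := by
          calc ((n : ℝ) * rho q q1 r * b q q1 r) * (n * P r)
              = (n : ℝ) ^ 2 * ((rho q q1 r * b q q1 r) * P r) := by ring
            _ ≤ (n : ℝ) ^ 2 * ((C * A ^ 4) * (dl1 / r ^ 2)) := by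
                apply mul_le_mul_of_nonneg_left _ (by positivity)
                exact mul_le_mul h1 h2 hPr (by positivity)
            _ = dl / r ^ 2 := by rw [hdl]; ring
        linarith)
    hlam (lim0 _ _ hz0) (limi _ _ hzi) (lim0 _ _ hHz0) (limi _ _ hHzi)
  intro r hr
  obtain ⟨hs, hd⟩ := hfin r hr
  have h0 := h.ne r hr
  have hc0' : conj (q r) ≠ 0 := by simpa using h0
  simp only [hS, hD, SS, DD] at hs hd
  have e1 : F 0 r / q r = 0 := by linear_combination hs + hd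
  have e2 : G 0 r / conj (q r) = 0 := by linear_combination hs - hd
  exact ⟨(div_eq_zero_iff.1 e1).resolve_right h0, (div_eq_zero_iff.1 e2).resolve_right hc0'⟩

end Crest.Agent.R086.CH
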