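import Crest.Agent.R086.CInst
import Crest.Agent.R086.CH2

/-!
Row 86 (S0114), Part C, node R0 (helper392): the coefficient hypotheses of `CH.abstract_bound` for the
profiles of `BData`.
-/

set_option autoImplicit false

open MeasureTheory Complex ComplexConjugate Set Filter Topology
open scoped ContDiff

namespace Crest.Agent.R086.CHCoef

open CCore CInst

/-- comparison weight `(1+r)^(-4/n)` -/
noncomputable def gf (n : ℕ) (r : ℝ) : ℝ := (1 + r) ^ (-(4 : ℝ) / n)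
/-- its derivative -/
noncomputable def gf1 (n : ℕ) (r : ℝ) : ℝ := (-(4 : ℝ) / n) * (1 + r) ^ (-(4 : ℝ) / n - 1)

/-- the coefficient hypotheses of `CH.abstract_bound` -/
structure Coef {n : ℕ} (P : Profile n) (A Bc dl : ℝ) : Prop where
  q_ne : ∀ r, P.q r ≠ 0
  n1 : (1 : ℝ) ≤ n
  g0 : ∀ r, 0 < r → 0 < gf n r
  g_der : ∀ r, 0 < r → HasDerivAt (gf n) (gf1 n r) r
  g1_lo : ∀ r, 0 < r → -2 * gf n r ≤ r * gf1 n r
  g_le : ∀ r, 0 < r → gf n r ≤ 1
  w_lo : ∀ r, 0 < r → (A ^ 2)⁻¹ * (r ^ 11 * gf n r) ≤ wf P r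
  w_hi : ∀ r, 0 < r → wf P r ≤ A ^ 2 * (r ^ 11 * gf n r)
  P_der : ∀ r, 0 < r → HasDerivAt (Pf P) (P1f P r) r
  P_pos : ∀ r, 0 < r → 0 < Pf P r
  b_lo : ∀ r, 0 < r → 0 ≤ bf P r
  b_hi : ∀ r, 0 < r → bf P r ≤ A ^ 4 * r
  rho_hi : ∀ r, 0 < r → r * rhof P r ≤ Bc
  Pb : ∀ r, 0 < r → (n : ℝ) * (P1f P r * bf P r) ≤ n * Pf P r + dl / r ^ 2

theorem gf_pos (n : ℕ) {r : ℝ} (hr : 0 < r) : 0 < gf n r := Real.rpow_pos_of_pos (by linarith) _

theorem gf_der (n : ℕ) {r : ℝ} (hr : 0 < r) : HasDerivAt (gf n) (gf1 n r) r := by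
  have h : HasDerivAt (fun r : ℝ => 1 + r) 1 r := by simpa using (hasDerivAt_id r).const_add 1
  have h2 := h.rpow_const (p := -(4 : ℝ) / n) (Or.inl (by linarith : (1 + r) ≠ 0))
  refine h2.congr_deriv ?_
  unfold gf1
  ring

theorem gf1_lo {n : ℕ} (hn : 2 ≤ n) {r : ℝ} (hr : 0 < r) : -2 * gf n r ≤ r * gf1 n r := by
  have hn' : (2 : ℝ) ≤ n := by exact_mod_cast hn
  have h1 : (0 : ℝ) < 1 + r := by linarith
  have e : (1 + r) ^ (-(4 : ℝ) / n) = (1 + r) ^ (-(4 : ℝ) / n - 1) * (1 + r) := by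
    rw [← Real.rpow_add_one h1.ne', sub_add_cancel]
  unfold gf gf1
  rw [e]
  set x := (1 + r) ^ (-(4 : ℝ) / n - 1) with hx
  have hx0 : 0 < x := Real.rpow_pos_of_pos h1 _
  have h4 : 4 / (n : ℝ) ≤ 2 := by
    rw [div_le_iff₀ (by linarith)]
    linarith
  have e2 : -(4 : ℝ) / n = -(4 / n) := by ring
  rw [e2]
  have h5 : 4 / (n : ℝ) * (r * x) ≤ 2 * (r * x) := mul_le_mul_of_nonneg_right h4 (by positivity)
  nlinarith

theorem gf_le (n : ℕ) {r : ℝ} (hr : 0 < r) : gf n r ≤ 1 := by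
  unfold gf
  apply Real.rpow_le_one_of_one_le_of_nonpos (by linarith)
  have : (0 : ℝ) ≤ n := by positivity
  have h : (0 : ℝ) ≤ 4 / n := by positivity
  have e2 : -(4 : ℝ) / n = -(4 / n) := by ring
  linarith

/-- `gf = ((1+r)^(2/n))^(-2)` -/
theorem gf_eq (n : ℕ) {r : ℝ} (hr : 0 < r) : ((1 + r) ^ ((2 : ℝ) / n)) ^ 2 * gf n r = 1 := by
  have h1 : (0 : ℝ) < 1 + r := by linarith
  unfold gf
  rw [← Real.rpow_natCast, ← Real.rpow_mul h1.le, ← Real.rpow_add h1]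
  have : (2 : ℝ) / n * (2 : ℕ) + -(4 : ℝ) / n = 0 := by push_cast; ring
  rw [this, Real.rpow_zero]

theorem w_bounds {n : ℕ} (P : Profile n) {A r : ℝ} (hA : 0 < A) (hr : 0 < r)
    (h1 : 1 / A ≤ ‖P.q r‖ * (1 + r) ^ ((2 : ℝ) / n))
    (h2 : ‖P.q r‖ * (1 + r) ^ ((2 : ℝ) / n) ≤ A) :
    (A ^ 2)⁻¹ * (r ^ 11 * gf n r) ≤ wf P r ∧ wf P r ≤ A ^ 2 * (r ^ 11 * gf n r) := by
  have hg := gf_eq n hr
  have hg0 := gf_pos n hr
  set y := (1 + r) ^ ((2 : ℝ) / n) with hy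
  have hy0 : 0 < y := Real.rpow_pos_of_pos (by linarith) _
  have e : wf P r = (‖P.q r‖ * y) ^ 2 * (r ^ 11 * gf n r) := by
    unfold wf CCore.w
    calc ‖P.q r‖ ^ 2 * r ^ 11 = ‖P.q r‖ ^ 2 * r ^ 11 * (y ^ 2 * gf n r) := by rw [hg, mul_one]
      _ = _ := by ring
  rw [e]
  have h0 : 0 ≤ r ^ 11 * gf n r := by positivity
  constructor
  · apply mul_le_mul_of_nonneg_right _ h0
    have : (1 / A) ^ 2 ≤ (‖P.q r‖ * y) ^ 2 := pow_le_pow_left₀ (by positivity) h1 2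
    rwa [one_div, inv_pow] at this
  · apply mul_le_mul_of_nonneg_right _ h0
    exact pow_le_pow_left₀ (by positivity) h2 2

theorem wb_tendsto {n : ℕ} (P : Profile n) (h0 : ∀ r, P.q r ≠ 0) :
    Tendsto (fun r => wf P r * bf P r) (𝓝[>] 0) (𝓝 0) := by
  have h1 : Continuous (fun r => wf P r * bf P r) := by
    have := c_b P (s := univ) (fun r _ => h0 r)
    exact (c_w P).mul (continuousOn_univ.1 this)
  have h2 : Tendsto (fun r => wf P r * bf P r) (𝓝 0) (𝓝 (wf P 0 * bf P 0)) := h1.tendsto 0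
  have h3 : wf P 0 * bf P 0 = 0 := by
    unfold wf CCore.w
    simp
  rw [h3] at h2
  exact h2.mono_left nhdsWithin_le_nhds

theorem exp_small {c K : ℝ} (hc : 0 < c) (dl : ℝ) (hdl : 0 < dl) :
    ∀ᶠ n : ℕ in atTop, (n : ℝ) ^ 2 * K * Real.exp (-c * n) ≤ dl := by
  have h1 : Tendsto (fun x : ℝ => x ^ 2 * Real.exp (-x)) atTop (𝓝 0) :=
    Real.tendsto_pow_mul_exp_neg_atTop_nhds_zero 2
  have h2 : Tendsto (fun n : ℕ => c * (n : ℝ)) atTop atTop :=
    tendsto_natCast_atTop_atTop.const_mul_atTop hc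
  have h3 := (h1.comp h2).const_mul (K / c ^ 2)
  rw [mul_zero] at h3
  have h4 := h3.eventually (Iio_mem_nhds hdl)
  filter_upwards [h4] with n hn
  have e : (n : ℝ) ^ 2 * K * Real.exp (-c * n)
      = K / c ^ 2 * ((fun x : ℝ => x ^ 2 * Real.exp (-x)) ∘ fun n : ℕ => c * (n : ℝ)) n := by
    simp only [Function.comp_apply]
    rw [neg_mul]
    field_simp
  rw [e]
  exact le_of_lt hn

/-- **the coefficient half of R0**. -/
theorem coef {om0 R : ℝ} {U : ℝ → ℂ} (L : LimitProfile om0 R U) (B : BData om0 R U) :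
    ∃ A Bc dl : ℝ, 0 < A ∧ 0 ≤ Bc ∧ 0 ≤ dl ∧ dl * A ^ 4 ≤ 1 ∧
      ∀ᶠ j in atTop, Coef (B.P j) A Bc dl := by
  obtain ⟨A, hA, hdec⟩ := B.decay2
  obtain ⟨C, hC⟩ := B.q_der
  obtain ⟨del0, hdel0, hlog⟩ := B.logder
  have hR : 0 < R := by have := L.R_lo; linarith
  obtain ⟨c, hc, htail⟩ := B.pow_tail (R + del0) (by linarith)
  set C' : ℝ := max C 0 with hC'
  have hC'0 : 0 ≤ C' := le_max_right _ _
  set dl : ℝ := (A ^ 4)⁻¹ with hdl
  have hdlp : 0 < dl := by positivity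
  set e : ℝ := (A ^ 4 * (R + del0))⁻¹ with he
  have hRd : 0 < R + del0 := by linarith
  have hep : 0 < e := by positivity
  have hsm := B.nn_tendsto.eventually (exp_small (K := C' * A ^ 4) hc dl hdlp)
  refine ⟨A, C', dl, hA, hC'0, hdlp.le, ?_, ?_⟩
  · rw [hdl, inv_mul_cancel₀ (by positivity)]
  filter_upwards [hdec, hC, hlog e hep, htail, hsm] with j hj1 hj2 hj3 hj4 hj5
  have hq : ∀ r, (B.P j).q r ≠ 0 := B.q_ne j
  have hn2 : 2 ≤ B.nn j := (B.P j).two_le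
  have hn2' : (2 : ℝ) ≤ (B.nn j : ℝ) := by exact_mod_cast hn2
  have hn0 : (0 : ℝ) < (B.nn j : ℝ) := by linarith
  have hwb := fun r (hr : 0 < r) => w_bounds (B.P j) hA hr (hj1 r hr.le).1 (hj1 r hr.le).2
  have hbb : ∀ r, 0 < r → 0 ≤ bf (B.P j) r ∧ bf (B.P j) r ≤ A ^ 4 * r := by
    refine CH.b_bounds (eps := 1 / (B.nn j : ℝ)) hA (by positivity) ?_
      (fun r hr => gf_pos (B.nn j) hr) (fun r hr => gf_der (B.nn j) hr)
      (fun r hr => gf1_lo hn2 hr) (fun r hr => gf_le (B.nn j) hr)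
      (fun r hr => (hwb r hr).1) (fun r hr => (hwb r hr).2) ?_ (wb_tendsto (B.P j) hq)
    · rw [div_le_iff₀ hn0]
      linarith
    · intro r hr
      exact hasDerivAt_wb (hd_q (B.P j) r) hr.ne' (q_ode (B.P j) hr)
  have hrat : ∀ r, 0 < r → r * rhof (B.P j) r ≤ C' := by
    intro r hr
    have h0 := norm_pos_iff.2 (hq r)
    have h1 := (hj2 r hr.le).1
    have h2 : ‖deriv (B.P j).q r / (B.P j).q r‖ ≤ C' * (r / (1 + r ^ 2)) := by
      rw [norm_div, div_le_iff₀ h0]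
      refine h1.trans ?_
      apply mul_le_mul_of_nonneg_right _ (norm_nonneg _)
      exact mul_le_mul_of_nonneg_right (le_max_left _ _) (by positivity)
    have h3 : rhof (B.P j) r ≤ C' * (r / (1 + r ^ 2)) :=
      (Complex.re_le_norm _).trans h2
    have h4 : r * rhof (B.P j) r ≤ r * (C' * (r / (1 + r ^ 2))) :=
      mul_le_mul_of_nonneg_left h3 hr.le
    refine h4.trans ?_
    have e1 : r * (C' * (r / (1 + r ^ 2))) = C' * (r ^ 2 / (1 + r ^ 2)) := by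
      field_simp
    rw [e1]
    have h5 : r ^ 2 / (1 + r ^ 2) ≤ 1 := by
      rw [div_le_one (by positivity)]
      linarith
    calc C' * (r ^ 2 / (1 + r ^ 2)) ≤ C' * 1 := mul_le_mul_of_nonneg_left h5 hC'0
      _ = C' := mul_one _
  refine
  { q_ne := hq
    n1 := by linarith
    g0 := fun r hr => gf_pos _ hr
    g_der := fun r hr => gf_der _ hr
    g1_lo := fun r hr => gf1_lo hn2 hr
    g_le := fun r hr => gf_le _ hr
    w_lo := fun r hr => (hwb r hr).1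
    w_hi := fun r hr => (hwb r hr).2
    P_der := fun r hr => hP (B.P j) (hq r)
    P_pos := fun r hr => pow_pos (norm_pos_iff.2 (hq r)) _
    b_lo := fun r hr => (hbb r hr).1
    b_hi := fun r hr => (hbb r hr).2
    rho_hi := hrat
    Pb := ?_ }
  intro r hr
  have hb0 := (hbb r hr).1
  have hb1 := (hbb r hr).2
  have hPp : 0 < Pf (B.P j) r := pow_pos (norm_pos_iff.2 (hq r)) _
  have e0 : (B.nn j : ℝ) * (P1f (B.P j) r * bf (B.P j) r)
      = (B.nn j * Pf (B.P j) r) * ((B.nn j * rhof (B.P j) r) * bf (B.P j) r) := by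
    unfold P1f Pf
    ring
  rw [e0]
  have hnP : 0 < (B.nn j : ℝ) * Pf (B.P j) r := mul_pos hn0 hPp
  rcases le_or_gt r (R + del0) with hrR | hrR
  · have h1 := hj3 r ⟨hr.le, hrR⟩
    have h2 : (B.nn j : ℝ) * rhof (B.P j) r ≤ e := h1
    have h3 : ((B.nn j : ℝ) * rhof (B.P j) r) * bf (B.P j) r ≤ 1 := by
      calc ((B.nn j : ℝ) * rhof (B.P j) r) * bf (B.P j) r ≤ e * bf (B.P j) r :=
            mul_le_mul_of_nonneg_right h2 hb0
        _ ≤ e * (A ^ 4 * (R + del0)) := by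
            apply mul_le_mul_of_nonneg_left _ hep.le
            exact hb1.trans (mul_le_mul_of_nonneg_left hrR (by positivity))
        _ = 1 := by rw [he]; exact inv_mul_cancel₀ (by positivity)
    have h4 := mul_le_mul_of_nonneg_left h3 hnP.le
    have h5 : 0 ≤ dl / r ^ 2 := by positivity
    linarith
  · -- far region
    have h1 : ((B.nn j : ℝ) * rhof (B.P j) r) * bf (B.P j) r ≤ B.nn j * (C' * A ^ 4) := by
      have h2 : rhof (B.P j) r * bf (B.P j) r ≤ C' * A ^ 4 := by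
        have e1 : rhof (B.P j) r * bf (B.P j) r = (r * rhof (B.P j) r) * (bf (B.P j) r / r) := by
          field_simp
        rw [e1]
        have e2 : 0 ≤ bf (B.P j) r / r := div_nonneg hb0 hr.le
        have e3 : bf (B.P j) r / r ≤ A ^ 4 := by rw [div_le_iff₀ hr]; exact hb1
        calc (r * rhof (B.P j) r) * (bf (B.P j) r / r) ≤ C' * (bf (B.P j) r / r) :=
              mul_le_mul_of_nonneg_right (hrat r hr) e2
          _ ≤ C' * A ^ 4 := mul_le_mul_of_nonneg_left e3 hC'0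
      calc ((B.nn j : ℝ) * rhof (B.P j) r) * bf (B.P j) r
          = B.nn j * (rhof (B.P j) r * bf (B.P j) r) := by ring
        _ ≤ _ := mul_le_mul_of_nonneg_left h2 hn0.le
    have h3 : ((B.nn j : ℝ) * Pf (B.P j) r) * (((B.nn j : ℝ) * rhof (B.P j) r) * bf (B.P j) r)
        ≤ ((B.nn j : ℝ) * Pf (B.P j) r) * (B.nn j * (C' * A ^ 4)) :=
      mul_le_mul_of_nonneg_left h1 hnP.le
    have h4 : Pf (B.P j) r ≤ Real.exp (-c * B.nn j) / r ^ 2 := hj4 r hrR.le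
    have h5 : ((B.nn j : ℝ) * Pf (B.P j) r) * (B.nn j * (C' * A ^ 4)) ≤ dl / r ^ 2 := by
      have h6 : ((B.nn j : ℝ) * Pf (B.P j) r) * (B.nn j * (C' * A ^ 4))
          = ((B.nn j : ℝ) ^ 2 * (C' * A ^ 4)) * Pf (B.P j) r := by ring
      rw [h6]
      have h7 : ((B.nn j : ℝ) ^ 2 * (C' * A ^ 4)) * Pf (B.P j) r
          ≤ ((B.nn j : ℝ) ^ 2 * (C' * A ^ 4)) * (Real.exp (-c * B.nn j) / r ^ 2) :=
        mul_le_mul_of_nonneg_left h4 (by positivity)
      refine h7.trans ?_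
      rw [← mul_div_assoc]
      exact div_le_div_of_nonneg_right hj5 (by positivity)
    linarith

end Crest.Agent.R086.CHCoef
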