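import Mathlib

/-!
Row 86 (S0114), Part D, node DF = D6: abstract spectral gap for a strongly continuous semigroup
`S` with `S t0 = A + K`, `‖A‖ < 1`, `K` compact, modulo a finite-dimensional invariant subspace.
(helper544)
-/

set_option autoImplicit false

open MeasureTheory Set Filter Topology
open scoped ENNReal NNReal

namespace Crest.Agent.R086.DF

variable {X : Type*} [NormedAddCommGroup X] [NormedSpace ℂ X]

/-- strongly continuous one-parameter semigroup of bounded operators -/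
structure Semi (S : ℝ → X →L[ℂ] X) : Prop where
  zero : S 0 = 1
  add : ∀ s t : ℝ, 0 ≤ s → 0 ≤ t → S (s + t) = S s * S t
  cont : ∀ x : X, ContinuousOn (fun t => S t x) (Set.Ici 0)

/-! ### powers of an operator whose spectrum lies in the open unit disc -/

theorem pow_bound [CompleteSpace X] (T : X →L[ℂ] X)
    (h : ∀ μ : ℂ, 1 ≤ ‖μ‖ → μ ∈ resolventSet ℂ T) :
    ∃ C ρ : ℝ, 0 ≤ C ∧ 0 < ρ ∧ ρ < 1 ∧ ∀ n : ℕ, ‖T ^ n‖ ≤ C * ρ ^ n := by
  rcases subsingleton_or_nontrivial X with hX | hX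
  · refine ⟨0, 1 / 2, le_rfl, by norm_num, by norm_num, fun n => ?_⟩
    have : T ^ n = 0 := Subsingleton.elim _ _
    rw [this]; simp
  have hlt : spectralRadius ℂ T < (1 : ℝ≥0) := by
    apply spectrum.spectralRadius_lt_of_forall_lt
    intro z hz
    by_contra hcon
    rw [not_lt] at hcon
    exact hz (h z (by exact_mod_cast hcon))
  obtain ⟨ρ, h1, h2⟩ := ENNReal.lt_iff_exists_nnreal_btwn.1 hlt
  have h2' : ρ < 1 := by exact_mod_cast h2
  have hev := (spectrum.pow_nnnorm_pow_one_div_tendsto_nhds_spectralRadius T).eventually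
    (gt_mem_nhds h1)
  obtain ⟨N, hN⟩ := (hev.and (eventually_ge_atTop 1)).exists_forall_of_atTop
  have hρ0 : 0 < ρ := by
    by_contra hcon
    have : ρ = 0 := by simpa using hcon
    rw [this] at h1
    simp at h1
  have hbig : ∀ n, N ≤ n → ‖T ^ n‖ ≤ (ρ : ℝ) ^ n := by
    intro n hn
    obtain ⟨ha, hb⟩ := hN n hn
    have hn0 : (n : ℝ) ≠ 0 := by
      have : (1 : ℝ) ≤ n := by exact_mod_cast hb
      linarith
    have h3 : ((‖T ^ n‖₊ : ℝ≥0∞) ^ (1 / n : ℝ)) ^ (n : ℝ) ≤ (ρ : ℝ≥0∞) ^ (n : ℝ) :=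
      ENNReal.rpow_le_rpow ha.le (by positivity)
    rw [← ENNReal.rpow_mul, one_div, inv_mul_cancel₀ hn0, ENNReal.rpow_one,
      ENNReal.rpow_natCast] at h3
    have h4 : ‖T ^ n‖₊ ≤ ρ ^ n := by exact_mod_cast h3
    exact_mod_cast h4
  refine ⟨1 + ∑ n ∈ Finset.range N, ‖T ^ n‖ / (ρ : ℝ) ^ n, ρ, by positivity, by exact_mod_cast hρ0,
    by exact_mod_cast h2', fun n => ?_⟩
  have hρn : (0 : ℝ) < (ρ : ℝ) ^ n := by positivity
  rcases lt_or_ge n N with hn | hn
  · have h5 : ‖T ^ n‖ / (ρ : ℝ) ^ n ≤ ∑ n ∈ Finset.range N, ‖T ^ n‖ / (ρ : ℝ) ^ n :=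
      Finset.single_le_sum (f := fun n => ‖T ^ n‖ / (ρ : ℝ) ^ n) (fun i _ => by positivity)
        (Finset.mem_range.2 hn)
    have h6 : ‖T ^ n‖ = (‖T ^ n‖ / (ρ : ℝ) ^ n) * (ρ : ℝ) ^ n := by field_simp
    rw [h6]
    gcongr
    linarith
  · have h5 : (0 : ℝ) ≤ ∑ n ∈ Finset.range N, ‖T ^ n‖ / (ρ : ℝ) ^ n :=
      Finset.sum_nonneg (fun i _ => by positivity)
    nlinarith [hbig n hn]

/-! ### Fredholm alternative for `A + K` -/

theorem mem_resolvent_of_no_eigenvector [CompleteSpace X] (A K : X →L[ℂ] X) (hA : ‖A‖ < 1)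
    (hK : IsCompactOperator K) (μ : ℂ) (hμ : 1 ≤ ‖μ‖)
    (hno : ∀ v : X, A v + K v = μ • v → v = 0) : μ ∈ resolventSet ℂ (A + K) := by
  have hu : IsUnit (algebraMap ℂ (X →L[ℂ] X) μ - A) := by
    have : μ ∈ resolventSet ℂ A := by
      apply spectrum.mem_resolventSet_of_norm_lt_mul
      calc ‖A‖ * ‖(1 : X →L[ℂ] X)‖ ≤ ‖A‖ * 1 := by
            gcongr
            exact ContinuousLinearMap.norm_id_le
        _ = ‖A‖ := mul_one _
        _ < 1 := hA
        _ ≤ ‖μ‖ := hμ
    exact this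
  obtain ⟨u, hu⟩ := hu
  set R : X →L[ℂ] X := ((u⁻¹ : (X →L[ℂ] X)ˣ) : X →L[ℂ] X) with hR
  have hC : IsCompactOperator (R * K : X →L[ℂ] X) := by
    have := hK.clm_comp R
    exact this
  have h1 : (1 : ℂ) ∈ resolventSet ℂ (R * K) := by
    rcases hC.hasEigenvalue_or_mem_resolventSet (μ := 1) one_ne_zero with h | h
    · exfalso
      obtain ⟨v, hv⟩ := h.exists_hasEigenvector
      have hv1 : R (K v) = v := by simpa using hv.apply_eq_smul
      have hv2 : (u : X →L[ℂ] X) (R (K v)) = K v := by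
        have : ((u : X →L[ℂ] X) * R) (K v) = K v := by
          rw [hR, Units.mul_inv]; rfl
        exact this
      rw [hv1, hu] at hv2
      apply hv.2
      apply hno v
      have hv3 : μ • v - A v = K v := by
        simpa [Algebra.algebraMap_eq_smul_one] using hv2
      rw [← hv3]; abel
    · exact h
  have h2 : IsUnit ((1 : X →L[ℂ] X) - R * K) := by
    have := h1
    rw [spectrum.mem_resolventSet_iff] at this
    simpa using this
  rw [spectrum.mem_resolventSet_iff]
  have h3 : algebraMap ℂ (X →L[ℂ] X) μ - (A + K) = (u : X →L[ℂ] X) * (1 - R * K) := by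
    rw [mul_sub, mul_one, ← mul_assoc, hR, Units.mul_inv, one_mul, hu]
    abel
  rw [h3]
  exact u.isUnit.mul h2

/-! ### elementary facts about the semigroup -/

section semi

variable {S : ℝ → X →L[ℂ] X}

theorem Semi.cont_max (hS : Semi S) (v : X) : Continuous (fun s : ℝ => S (max s 0) v) := by
  have h := hS.cont v
  exact h.comp_continuous (continuous_id.max continuous_const) (fun s => Set.mem_Ici.2 (le_max_right _ _))

theorem Semi.add_apply (hS : Semi S) {s t : ℝ} (hs : 0 ≤ s) (ht : 0 ≤ t) (v : X) :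
    S (s + t) v = S s (S t v) := by
  rw [hS.add s t hs ht]; rfl

theorem Semi.comm_apply (hS : Semi S) {s t : ℝ} (hs : 0 ≤ s) (ht : 0 ≤ t) (v : X) :
    S s (S t v) = S t (S s v) := by
  rw [← hS.add_apply hs ht, ← hS.add_apply ht hs, add_comm]

theorem Semi.bdd [CompleteSpace X] (hS : Semi S) (t0 : ℝ) :
    ∃ M : ℝ, 0 ≤ M ∧ ∀ t, 0 ≤ t → t ≤ t0 → ‖S t‖ ≤ M := by
  have h : ∀ x : X, ∃ C, ∀ i : Set.Icc (0 : ℝ) t0, ‖S i x‖ ≤ C := by
    intro x
    have hc : ContinuousOn (fun t => ‖S t x‖) (Set.Icc 0 t0) :=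
      ((hS.cont x).mono (fun t ht => ht.1)).norm
    obtain ⟨C, hC⟩ := (isCompact_Icc.image_of_continuousOn hc).bddAbove
    exact ⟨C, fun i => hC ⟨i, i.2, rfl⟩⟩
  obtain ⟨C', hC'⟩ := banach_steinhaus (g := fun i : Set.Icc (0 : ℝ) t0 => S i) h
  refine ⟨max C' 0, le_max_right _ _, fun t h0 h1 => (hC' ⟨t, h0, h1⟩).trans (le_max_left _ _)⟩


/-- `G t = ∫_0^t S s v ds` translated: `S t (G h) = G (t+h) - G t`. -/
theorem Semi.apply_integral [CompleteSpace X] (hS : Semi S) (v : X) {t h : ℝ} (ht : 0 ≤ t)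
    (hh : 0 ≤ h) :
    S t (∫ s in (0 : ℝ)..h, S (max s 0) v) = ∫ s in t..(t + h), S (max s 0) v := by
  rw [← ContinuousLinearMap.intervalIntegral_comp_comm _
    ((hS.cont_max v).intervalIntegrable _ _)]
  have h1 : ∫ s in (0 : ℝ)..h, S t (S (max s 0) v) = ∫ s in (0 : ℝ)..h, S (max (s + t) 0) v := by
    apply intervalIntegral.integral_congr
    intro s hs
    rw [Set.uIcc_of_le hh] at hs
    have hs0 : 0 ≤ s := hs.1
    simp only
    rw [max_eq_left hs0, max_eq_left (by linarith), ← hS.add_apply ht hs0, add_comm]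
  rw [h1, intervalIntegral.integral_comp_add_right (fun s => S (max s 0) v)]
  congr 1
  · ring
  · ring

/-- averaged vectors are in the domain of the generator -/
theorem Semi.hasDeriv_avg [CompleteSpace X] (hS : Semi S) (v : X) {h : ℝ} (hh : 0 ≤ h) :
    HasDerivWithinAt (fun t => S t (∫ s in (0 : ℝ)..h, S (max s 0) v)) (S h v - v)
      (Set.Ici 0) 0 := by
  have hc := hS.cont_max v
  have hG : ∀ t : ℝ, HasDerivAt (fun t => ∫ s in (0 : ℝ)..t, S (max s 0) v) (S (max t 0) v) t :=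
    fun t => intervalIntegral.integral_hasDerivAt_right (hc.intervalIntegrable _ _)
      hc.aestronglyMeasurable.stronglyMeasurableAtFilter hc.continuousAt
  have h1 : HasDerivAt (fun t => (∫ s in (0 : ℝ)..(t + h), S (max s 0) v) -
      ∫ s in (0 : ℝ)..t, S (max s 0) v) (S h v - v) 0 := by
    have ha : HasDerivAt (fun t => ∫ s in (0 : ℝ)..(t + h), S (max s 0) v)
        (S (max (0 + h) 0) v) 0 := by
      have := (hG (0 + h)).comp_add_const (0 : ℝ) h
      simpa using this
    have hb := hG 0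
    have := ha.fun_sub hb
    simpa [hS.zero, max_eq_left hh] using this
  refine (h1.hasDerivWithinAt (s := Set.Ici 0)).congr (fun t ht => ?_) ?_
  · rw [hS.apply_integral v ht hh]
    rw [intervalIntegral.integral_interval_sub_left (hc.intervalIntegrable _ _)
      (hc.intervalIntegrable _ _)]
  · rw [hS.apply_integral v le_rfl hh]
    rw [intervalIntegral.integral_interval_sub_left (hc.intervalIntegrable _ _)
      (hc.intervalIntegrable _ _)]


/-- **Fourier trick.** If `S t0 g ≡ μ g` modulo `ker Q`, `Q g ≠ 0`, `|μ| ≥ 1`, there is an eigenvector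
modulo `ker Q` of the whole semigroup. `Q` is any bounded operator whose kernel is invariant. -/
theorem Semi.exists_eigen [CompleteSpace X] (hS : Semi S) (Q : X →L[ℂ] X)
    (hQ : ∀ t, 0 ≤ t → ∀ x, Q x = 0 → Q (S t x) = 0) {t0 : ℝ} (ht0 : 0 < t0) (g : X)
    (hg : Q g ≠ 0) (μ : ℂ) (hμ : 1 ≤ ‖μ‖) (hgμ : Q (S t0 g) = μ • Q g) :
    ∃ lam : ℂ, 0 ≤ lam.re ∧ ∃ x : X, Q x ≠ 0 ∧
      ∀ t, 0 ≤ t → Q (S t x) = Complex.exp (lam * t) • Q x := by
  have hμ0 : μ ≠ 0 := by
    intro h; rw [h] at hμ; simp at hμ; linarith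
  -- the exponents
  set lam : ℤ → ℂ := fun n => Complex.log μ / t0 + 2 * Real.pi * Complex.I * n / t0 with hlam
  have ht0c : (t0 : ℂ) ≠ 0 := by exact_mod_cast ht0.ne'
  have hexp : ∀ n, Complex.exp (lam n * t0) = μ := by
    intro n
    have : lam n * t0 = Complex.log μ + n * (2 * Real.pi * Complex.I) := by
      simp only [hlam]; field_simp
    rw [this, Complex.exp_add, Complex.exp_log hμ0, Complex.exp_int_mul_two_pi_mul_I, mul_one]
  have hre : ∀ n, 0 ≤ (lam n).re := by
    intro n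
    have h1 : (lam n).re = Real.log ‖μ‖ / t0 := by
      simp only [hlam]
      rw [Complex.add_re]
      have h2 : (2 * (Real.pi : ℂ) * Complex.I * n / t0).re = 0 := by
        have : 2 * (Real.pi : ℂ) * Complex.I * n / t0 = ((2 * Real.pi * n / t0 : ℝ) : ℂ) * Complex.I := by
          push_cast; ring
        rw [this]; simp
      rw [h2, add_zero, Complex.div_ofReal_re, Complex.log_re]
    rw [h1]
    exact div_nonneg (Real.log_nonneg hμ) ht0.le
  set h : ℤ → ℝ → X := fun n s => Complex.exp (-lam n * s) • S (max s 0) g with hh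
  have hcont : ∀ n, Continuous (h n) := by
    intro n
    apply Continuous.smul _ (hS.cont_max g)
    fun_prop
  have hint : ∀ n a b, IntervalIntegrable (h n) volume a b := fun n a b =>
    (hcont n).intervalIntegrable a b
  set x : ℤ → X := fun n => ∫ s in (0 : ℝ)..t0, h n s with hx
  -- some `Q (x n)` is nonzero
  have hne : ∃ n, Q (x n) ≠ 0 := by
    by_contra hall
    push Not at hall
    obtain ⟨f, hf⟩ := SeparatingDual.exists_ne_zero (R := ℂ) hg
    set φ : ℝ → ℂ := fun s => Complex.exp (-lam 0 * s) * f (Q (S (max s 0) g)) with hφ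
    have hφc : Continuous φ := by
      apply Continuous.mul (by fun_prop)
      exact (f.continuous.comp Q.continuous).comp (hS.cont_max g)
    have hmem : MemLp φ 2 (volume.restrict (Ioc 0 t0)) := by
      obtain ⟨C, hC⟩ := (isCompact_Icc (a := (0 : ℝ)) (b := t0)).exists_bound_of_continuousOn
        hφc.continuousOn
      apply MemLp.of_bound hφc.aestronglyMeasurable C
      rw [ae_restrict_iff' measurableSet_Ioc]
      exact ae_of_all _ (fun s hs => hC s (Ioc_subset_Icc_self hs))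
    have hcoef : ∀ n : ℤ, fourierCoeffOn ht0 φ n = 0 := by
      intro n
      rw [fourierCoeffOn_eq_integral]
      have h1 : ∫ s in (0 : ℝ)..t0, fourier (-n) (s : AddCircle (t0 - 0)) • φ s = f (Q (x n)) := by
        have h2 : f (Q (x n)) = ∫ s in (0 : ℝ)..t0, f (Q (h n s)) := by
          have := ContinuousLinearMap.intervalIntegral_comp_comm (f.comp Q) (hint n 0 t0)
          exact this.symm
        rw [h2]
        apply intervalIntegral.integral_congr
        intro s _
        simp only [hh, hφ, map_smul, smul_eq_mul]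
        rw [fourier_coe_apply, ← mul_assoc, ← Complex.exp_add]
        congr 2
        simp only [hlam]
        push_cast
        ring
      rw [h1, hall n]
      simp
    have hP := hasSum_sq_fourierCoeffOn ht0 hmem
    simp only [hcoef, norm_zero, ne_eq, OfNat.ofNat_ne_zero, not_false_eq_true, zero_pow] at hP
    have h0 : (t0 - 0)⁻¹ • ∫ s in (0 : ℝ)..t0, ‖φ s‖ ^ 2 = 0 := hP.unique hasSum_zero
    have hpos : 0 < ∫ s in (0 : ℝ)..t0, ‖φ s‖ ^ 2 := by
      apply intervalIntegral.integral_pos ht0 (by fun_prop) (fun s _ => by positivity)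
      refine ⟨0, ⟨le_rfl, ht0.le⟩, ?_⟩
      have : φ 0 = f (Q g) := by
        simp [hφ, hS.zero]
      rw [this]
      positivity
    rw [sub_zero, smul_eq_mul] at h0
    have : 0 < t0⁻¹ * ∫ s in (0 : ℝ)..t0, ‖φ s‖ ^ 2 := by positivity
    linarith
  obtain ⟨n, hn⟩ := hne
  refine ⟨lam n, hre n, x n, hn, fun t ht => ?_⟩
  -- compute `S t (x n)`
  have e1 : S t (x n) = Complex.exp (lam n * t) • ∫ s in t..(t0 + t), h n s := by
    simp only [hx]
    rw [← ContinuousLinearMap.intervalIntegral_comp_comm _ (hint n 0 t0)]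
    have h1 : ∫ s in (0 : ℝ)..t0, S t (h n s) =
        ∫ s in (0 : ℝ)..t0, Complex.exp (lam n * t) • h n (s + t) := by
      apply intervalIntegral.integral_congr
      intro s hs
      rw [Set.uIcc_of_le ht0.le] at hs
      have hs0 : 0 ≤ s := hs.1
      simp only [hh, map_smul]
      rw [max_eq_left hs0, max_eq_left (by linarith), ← hS.add_apply ht hs0, add_comm t s,
        smul_smul, ← Complex.exp_add]
      congr 2
      push_cast
      ring
    rw [h1, intervalIntegral.integral_smul, intervalIntegral.integral_comp_add_right (h n),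
      zero_add]
  rw [e1, map_smul]
  congr 1
  have hc' : Continuous (fun s : ℝ => h n (s + t0)) :=
    (hcont n).comp (continuous_id.add continuous_const)
  have e2 : ∫ s in t..(t0 + t), h n s = x n + ∫ s in (0 : ℝ)..t, (h n (s + t0) - h n s) := by
    rw [intervalIntegral.integral_sub (hc'.intervalIntegrable _ _)
      (hint n _ _), intervalIntegral.integral_comp_add_right (h n)]
    simp only [hx]
    have h1 := intervalIntegral.integral_add_adjacent_intervals (hint n 0 t) (hint n t (t0 + t))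
    have h2 := intervalIntegral.integral_add_adjacent_intervals (hint n 0 t0) (hint n t0 (t0 + t))
    have h3 : ∫ s in t..(t0 + t), h n s = (∫ s in (0 : ℝ)..(t0 + t), h n s) -
        ∫ s in (0 : ℝ)..t, h n s := by rw [← h1]; abel
    rw [h3, ← h2, zero_add, add_comm t t0]
    abel
  rw [e2, map_add]
  have e3 : Q (∫ s in (0 : ℝ)..t, (h n (s + t0) - h n s)) = 0 := by
    have hc2 : Continuous (fun s : ℝ => h n (s + t0) - h n s) := hc'.sub (hcont n)
    rw [← ContinuousLinearMap.intervalIntegral_comp_comm _ (hc2.intervalIntegrable _ _)]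
    have : ∫ s in (0 : ℝ)..t, Q (h n (s + t0) - h n s) = ∫ s in (0 : ℝ)..t, (0 : X) := by
      apply intervalIntegral.integral_congr
      intro s hs
      rw [Set.uIcc_of_le ht] at hs
      have hs0 : 0 ≤ s := hs.1
      have h4 : h n (s + t0) - h n s =
          (Complex.exp (-lam n * s) * (Complex.exp (lam n * t0))⁻¹) •
            S s (S t0 g - μ • g) := by
        simp only [hh]
        rw [max_eq_left hs0, max_eq_left (by linarith), hS.add_apply hs0 ht0.le, map_sub, map_smul,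
          smul_sub, smul_smul, hexp n, mul_assoc, inv_mul_cancel₀ hμ0, mul_one]
        congr 2
        rw [← hexp n, ← Complex.exp_neg, ← Complex.exp_add]
        congr 1
        push_cast
        ring
      simp only [h4, map_smul]
      rw [hQ s hs0 _ (by rw [map_sub, map_smul, hgμ, sub_self]), smul_zero]
    rw [this]; simp
  rw [e3, add_zero]


/-- integrals of functions with values in a finite-dimensional subspace -/
theorem integral_mem [CompleteSpace X] (F : Submodule ℂ X) [FiniteDimensional ℂ F] (f : ℝ → X)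
    (hf : Continuous f) (a b : ℝ) (h : ∀ s ∈ Set.uIcc a b, f s ∈ F) : ∫ s in a..b, f s ∈ F := by
  obtain ⟨P, hP⟩ := Submodule.ClosedComplemented.of_finiteDimensional F
  have h1 : ∫ s in a..b, f s = (F.subtypeL.comp P) (∫ s in a..b, f s) := by
    rw [← ContinuousLinearMap.intervalIntegral_comp_comm _ (hf.intervalIntegrable _ _)]
    apply intervalIntegral.integral_congr
    intro s hs
    have := hP ⟨f s, h s hs⟩
    simp only [ContinuousLinearMap.comp_apply, Submodule.subtypeL_apply]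
    exact (congrArg Subtype.val this).symm
  rw [h1]
  simp

/-- An eigenvector modulo a finite-dimensional invariant subspace is in the domain of the
generator. -/
theorem Semi.deriv_of_eigen [CompleteSpace X] (hS : Semi S) (E : Submodule ℂ X)
    [FiniteDimensional ℂ E] (hE : ∀ t, 0 ≤ t → ∀ x ∈ E, S t x ∈ E) (x : X) (lam : ℂ)
    (hx : ∀ t, 0 ≤ t → S t x - Complex.exp (lam * t) • x ∈ E) :
    ∃ y : X, HasDerivWithinAt (fun t => S t x) y (Set.Ici 0) 0 ∧ y - lam • x ∈ E := by
  set F : Submodule ℂ X := E ⊔ Submodule.span ℂ {x} with hF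
  have : FiniteDimensional ℂ F := Submodule.finiteDimensional_sup _ _
  have hxF : x ∈ F := Submodule.mem_sup_right (Submodule.mem_span_singleton_self x)
  have hEF : E ≤ F := le_sup_left
  have hFS : ∀ t, 0 ≤ t → ∀ v ∈ F, S t v ∈ F := by
    intro t ht v hv
    rw [hF, Submodule.mem_sup] at hv
    obtain ⟨e, he, w, hw, rfl⟩ := hv
    obtain ⟨c, rfl⟩ := Submodule.mem_span_singleton.1 hw
    rw [map_add, map_smul]
    refine F.add_mem (hEF (hE t ht e he)) (F.smul_mem c ?_)
    have : S t x = (S t x - Complex.exp (lam * t) • x) + Complex.exp (lam * t) • x := by abel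
    rw [this]
    exact F.add_mem (hEF (hx t ht)) (F.smul_mem _ hxF)
  -- the domain inside `F`
  let D : Submodule ℂ X :=
    { carrier := {v | v ∈ F ∧ ∃ y : X, HasDerivWithinAt (fun t => S t v) y (Set.Ici 0) 0}
      add_mem' := by
        rintro a b ⟨ha, ya, hya⟩ ⟨hb, yb, hyb⟩
        refine ⟨F.add_mem ha hb, ya + yb, ?_⟩
        simpa only [map_add] using hya.fun_add hyb
      zero_mem' := ⟨F.zero_mem, 0, by simpa using hasDerivWithinAt_const (c := (0 : X)) (0 : ℝ) (Set.Ici (0 : ℝ))⟩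
      smul_mem' := by
        rintro c a ⟨ha, ya, hya⟩
        refine ⟨F.smul_mem c ha, c • ya, ?_⟩
        simpa only [map_smul] using hya.fun_const_smul c }
  have hDF : D ≤ F := fun v hv => hv.1
  have : FiniteDimensional ℂ D := Submodule.finiteDimensional_of_le hDF
  have hDc : IsClosed (D : Set X) := D.closed_of_finiteDimensional
  have hFc : IsClosed (F : Set X) := F.closed_of_finiteDimensional
  -- averaged vectors
  have hxD : x ∈ D := by
    have hc := hS.cont_max x
    have hint : ∀ h : ℝ, 0 ≤ h → (∫ s in (0 : ℝ)..h, S (max s 0) x) ∈ F := by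
      intro h hh
      apply integral_mem F _ hc
      intro s _
      exact hFS _ (le_max_right _ _) x hxF
    have hmem : ∀ h : ℝ, 0 < h → ((h : ℂ)⁻¹ • ∫ s in (0 : ℝ)..h, S (max s 0) x) ∈ D := by
      intro h hh
      apply D.smul_mem
      exact ⟨hint h hh.le, _, hS.hasDeriv_avg x hh.le⟩
    have hlim : Tendsto (fun h : ℝ => ((h : ℂ)⁻¹ • ∫ s in (0 : ℝ)..h, S (max s 0) x))
        (𝓝[>] 0) (𝓝 x) := by
      have hG : HasDerivAt (fun t => ∫ s in (0 : ℝ)..t, S (max s 0) x) (S (max 0 0) x) 0 :=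
        intervalIntegral.integral_hasDerivAt_right (hc.intervalIntegrable _ _)
          hc.aestronglyMeasurable.stronglyMeasurableAtFilter hc.continuousAt
      have h1 := hG.tendsto_slope_zero_right
      simp only [zero_add, intervalIntegral.integral_same, sub_zero, max_self, hS.zero] at h1
      refine h1.congr (fun h => ?_)
      rw [← Complex.ofReal_inv]
      exact (Complex.coe_smul _ _).symm
    exact hDc.mem_of_tendsto hlim (eventually_nhdsWithin_of_forall (fun h hh => hmem h hh))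
  obtain ⟨-, y, hy⟩ := hxD
  refine ⟨y, hy, ?_⟩
  -- `y - lam x` is a limit of elements of `E`
  have hEc : IsClosed (E : Set X) := E.closed_of_finiteDimensional
  have h1 : HasDerivWithinAt (fun t : ℝ => Complex.exp (lam * t) • x) (lam • x) (Set.Ici 0) 0 := by
    have h2 : HasDerivAt (fun t : ℝ => Complex.exp (lam * t)) lam 0 := by
      have h3 : HasDerivAt (fun t : ℝ => lam * (t : ℂ)) lam 0 := by
        simpa using (Complex.ofRealCLM.hasDerivAt (x := (0 : ℝ))).const_mul lam
      have := h3.cexp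
      simpa using this
    exact (h2.smul_const x).hasDerivWithinAt
  have h2 := hy.fun_sub h1
  have h3 := hasDerivWithinAt_iff_tendsto_slope.1 h2
  have hne : Set.Ici (0 : ℝ) \ {0} = Set.Ioi 0 := by ext z; simp [lt_iff_le_and_ne, eq_comm]
  rw [hne] at h3
  refine hEc.mem_of_tendsto h3 ?_
  refine eventually_nhdsWithin_of_forall (fun t ht => ?_)
  have ht0 : (0 : ℝ) ≤ t := le_of_lt ht
  rw [slope_def_module]
  have h4 : ((t - 0)⁻¹ : ℝ) • ((S t x - Complex.exp (lam * t) • x) -
      (S 0 x - Complex.exp (lam * (0 : ℝ)) • x)) =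
      (((t - 0)⁻¹ : ℝ) : ℂ) • (S t x - Complex.exp (lam * t) • x) := by
    rw [Complex.coe_smul]
    simp [hS.zero]
  rw [h4]
  exact E.smul_mem _ (hx t ht0)


/-- **Spectral gap modulo a finite-dimensional invariant subspace** (node DF). -/
theorem gap [CompleteSpace X] (hS : Semi S) (E : Submodule ℂ X) [FiniteDimensional ℂ E]
    (hE : ∀ t, 0 ≤ t → ∀ x ∈ E, S t x ∈ E) {t0 : ℝ} (ht0 : 0 < t0) (A K : X →L[ℂ] X)
    (h : S t0 = A + K) (hA : ‖A‖ < 1) (hK : IsCompactOperator K)
    (hspec : ∀ lam : ℂ, 0 ≤ lam.re → ∀ x y : X,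
      HasDerivWithinAt (fun t => S t x) y (Set.Ici 0) 0 → y - lam • x ∈ E → x ∈ E)
    (P0 : X →L[ℂ] X) (hP : ∀ x, P0 x ∈ E) (hPE : ∀ x ∈ E, P0 x = x) :
    ∃ C δ : ℝ, 0 ≤ C ∧ 0 < δ ∧
      ∀ t, 0 ≤ t → ∀ x, ‖S t x - P0 (S t x)‖ ≤ C * Real.exp (-δ * t) * ‖x‖ := by
  set Q : X →L[ℂ] X := 1 - P0 with hQdef
  have hQa : ∀ x, Q x = x - P0 x := fun x => rfl
  have hQ0 : ∀ x, Q x = 0 ↔ x ∈ E := by
    intro x
    rw [hQa, sub_eq_zero]
    constructor
    · intro hx; rw [hx]; exact hP x
    · intro hx; exact (hPE x hx).symm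
  have hQP : ∀ x, Q (P0 x) = 0 := fun x => (hQ0 _).2 (hP x)
  have hPQ : ∀ x, P0 (Q x) = 0 := by
    intro x; rw [hQa, map_sub, hPE _ (hP x), sub_self]
  have hQQ : ∀ x, Q (Q x) = Q x := by
    intro x; rw [hQa (Q x), hPQ, sub_zero]
  have hQS : ∀ t, 0 ≤ t → ∀ x, Q x = 0 → Q (S t x) = 0 := fun t ht x hx =>
    (hQ0 _).2 (hE t ht x ((hQ0 x).1 hx))
  -- compactness of `P0`
  have hP0c : IsCompactOperator P0 := by
    let P1 : X →L[ℂ] E := P0.codRestrict E hP
    have := FiniteDimensional.proper ℂ E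
    have h1 : IsCompactOperator (E.subtypeL : E →L[ℂ] X) :=
      isCompactOperator_of_locallyCompactSpace_rng E.subtypeL
    exact h1.comp_clm P1
  -- the compressed operator
  set T : X →L[ℂ] X := Q * S t0 * Q with hT
  set K' : X →L[ℂ] X := Q * K * Q - P0 * A * Q - A * P0 with hK'
  have hTA : T = A + K' := by
    rw [hT, hK', h, hQdef]
    noncomm_ring
  have hK'c : IsCompactOperator K' := by
    have h1 : IsCompactOperator (Q * K * Q : X →L[ℂ] X) := (hK.clm_comp Q).comp_clm Q
    have h2 : IsCompactOperator (P0 * A * Q : X →L[ℂ] X) := hP0c.comp_clm (A * Q)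
    have h3 : IsCompactOperator (A * P0 : X →L[ℂ] X) := hP0c.clm_comp A
    exact (h1.sub h2).sub h3
  have hres : ∀ μ : ℂ, 1 ≤ ‖μ‖ → μ ∈ resolventSet ℂ T := by
    intro μ hμ
    have hμ0 : μ ≠ 0 := by
      intro h; rw [h] at hμ; simp at hμ; linarith
    rw [hTA]
    refine mem_resolvent_of_no_eigenvector A K' hA hK'c μ hμ (fun v hv => ?_)
    by_contra hv0
    have hTv : T v = μ • v := by rw [hTA]; exact hv
    have hTv' : T v = Q (S t0 (Q v)) := rfl
    have hvQ : Q v = v := by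
      have h1 : Q (T v) = T v := by rw [hTv', hQQ]
      rw [hTv, map_smul] at h1
      exact smul_right_injective X hμ0 h1
    rw [hTv', hvQ] at hTv
    have hQv : Q v ≠ 0 := by rwa [hvQ]
    obtain ⟨lam, hlam, x, hx0, hx⟩ := hS.exists_eigen Q hQS ht0 v hQv μ hμ (by rw [hTv, hvQ])
    obtain ⟨y, hy, hyE⟩ := hS.deriv_of_eigen E hE x lam (fun t ht => by
      rw [← hQ0, map_sub, map_smul, hx t ht, sub_self])
    exact hx0 ((hQ0 x).2 (hspec lam hlam x y hy hyE))
  obtain ⟨C, ρ, hC, hρ, hρ1, hpow⟩ := pow_bound T hres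
  obtain ⟨M, hM, hSM⟩ := hS.bdd t0
  -- powers
  have hQSP : ∀ t, 0 ≤ t → ∀ x, Q (S t x) = Q (S t (Q x)) := by
    intro t ht x
    have h1 : Q (S t (P0 x)) = 0 := (hQ0 _).2 (hE t ht _ (hP x))
    rw [hQa x, map_sub, map_sub, h1, sub_zero]
  have hk : ∀ k : ℕ, ∀ x, Q (S (k * t0) x) = (T ^ k) (Q x) := by
    intro k
    induction k with
    | zero => intro x; simp [hS.zero]
    | succ k ih =>
      intro x
      have h1 : ((k + 1 : ℕ) : ℝ) * t0 = t0 + k * t0 := by push_cast; ring
      rw [h1, hS.add_apply ht0.le (by positivity), hQSP _ ht0.le, pow_succ']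
      have h2 : (T * T ^ k) (Q x) = T ((T ^ k) (Q x)) := rfl
      rw [h2, ← ih x]
      have h3 : T (Q (S (k * t0) x)) = Q (S t0 (Q (Q (S (k * t0) x)))) := rfl
      rw [h3, hQQ]
  refine ⟨C * ρ⁻¹ * ‖Q‖ * M, -Real.log ρ / t0, by positivity,
    div_pos (neg_pos.2 (Real.log_neg hρ hρ1)) ht0, fun t ht x => ?_⟩
  set k : ℕ := ⌊t / t0⌋₊ with hkdef
  have hk1 : (k : ℝ) ≤ t / t0 := Nat.floor_le (by positivity)
  have hk2 : t / t0 < k + 1 := Nat.lt_floor_add_one _
  have hk1' : (k : ℝ) * t0 ≤ t := by rwa [le_div_iff₀ ht0] at hk1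
  have hk2' : t < (k + 1) * t0 := by rwa [div_lt_iff₀ ht0] at hk2
  set r : ℝ := t - k * t0 with hr
  have hr0 : 0 ≤ r := by rw [hr]; linarith
  have hr1 : r ≤ t0 := by rw [hr]; linarith
  have ht' : t = k * t0 + r := by rw [hr]; ring
  have h1 : S t x - P0 (S t x) = (T ^ k) (Q (S r x)) := by
    rw [← hk, ← hS.add_apply (by positivity) hr0, ← ht', hQa]
  rw [h1]
  have h2 : ‖(T ^ k) (Q (S r x))‖ ≤ (C * ρ ^ k) * (‖Q‖ * (M * ‖x‖)) := by
    refine ((T ^ k).le_opNorm _).trans ?_
    gcongr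
    · exact hpow k
    · refine (Q.le_opNorm _).trans ?_
      gcongr
      exact ((S r).le_opNorm _).trans (by gcongr; exact hSM r hr0 hr1)
  refine h2.trans ?_
  have h3 : ρ ^ k ≤ ρ⁻¹ * Real.exp (-(-Real.log ρ / t0) * t) := by
    have h4 : ρ⁻¹ * Real.exp (-(-Real.log ρ / t0) * t) = Real.exp (Real.log ρ * (t / t0 - 1)) := by
      nth_rewrite 1 [← Real.exp_log hρ]
      rw [← Real.exp_neg, ← Real.exp_add]
      congr 1
      field_simp
      ring
    rw [h4]
    have h5 : ρ ^ k = Real.exp (Real.log ρ * k) := by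
      rw [← Real.rpow_natCast, Real.rpow_def_of_pos hρ]
    rw [h5]
    apply Real.exp_le_exp.2
    have h6 : Real.log ρ < 0 := Real.log_neg hρ hρ1
    nlinarith
  calc (C * ρ ^ k) * (‖Q‖ * (M * ‖x‖))
      ≤ (C * (ρ⁻¹ * Real.exp (-(-Real.log ρ / t0) * t))) * (‖Q‖ * (M * ‖x‖)) := by gcongr
    _ = C * ρ⁻¹ * ‖Q‖ * M * Real.exp (-(-Real.log ρ / t0) * t) * ‖x‖ := by ring

end semi

end Crest.Agent.R086.DF
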