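import Crest.Agent.R086.DLIface
import Crest.Agent.R086.DF

set_option autoImplicit false

open MeasureTheory Complex Set Function
open scoped ContDiff

namespace Crest.Agent.R086.DL

/-- 544's gap theorem as a Prop (frozen statement 12449) -/
def GapStmt : Prop := ∀ (X : Type) [NormedAddCommGroup X] [NormedSpace ℂ X] [CompleteSpace X]
  (S : ℝ → X →L[ℂ] X), S 0 = 1 → (∀ s t, 0 ≤ s → 0 ≤ t → S (s + t) = S s * S t) →
  (∀ x, ContinuousOn (fun t => S t x) (Ici 0)) →
  ∀ (E : Submodule ℂ X) [FiniteDimensional ℂ E], (∀ t, 0 ≤ t → ∀ x ∈ E, S t x ∈ E) →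
  ∀ (t0 : ℝ), 0 < t0 → ∀ (A K : X →L[ℂ] X), S t0 = A + K → ‖A‖ < 1 → IsCompactOperator K →
  (∀ lam : ℂ, 0 ≤ lam.re → ∀ x y, HasDerivWithinAt (fun t => S t x) y (Ici 0) 0 →
    y - lam • x ∈ E → x ∈ E) →
  ∀ P0 : X →L[ℂ] X, (∀ x, P0 x ∈ E) → (∀ x ∈ E, P0 x = x) →
  ∃ C δ : ℝ, 0 < δ ∧ ∀ t, 0 ≤ t → ∀ x, ‖S t x - P0 (S t x)‖ ≤ C * Real.exp (-δ * t) * ‖x‖

theorem gapStmt : GapStmt := by
  intro X _ _ _ S h0 hadd hcont E _ hE t0 ht0 A K hAK hA hK hspec P0 hP0 hP1
  obtain ⟨C, δ, _, hδ, h⟩ := DF.gap (S := S) ⟨h0, hadd, hcont⟩ E hE ht0 A K hAK hA hK hspec P0 hP0 hP1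
  exact ⟨C, δ, hδ, h⟩

/-! ### measure facts -/

lemma wt_pos (N : ℕ) (ξ : R12) : 0 < wt N ξ := by unfold wt; positivity

lemma wt_cont (N : ℕ) : Continuous (wt N) := by unfold wt; fun_prop

lemma ae_muN_iff (N : ℕ) {p : R12 → Prop} : (∀ᵐ x ∂(muN N), p x) ↔ ∀ᵐ x ∂(volume : Measure R12), p x := by
  unfold muN
  rw [ae_withDensity_iff (by have := wt_cont N; fun_prop)]
  constructor
  · intro h
    filter_upwards [h] with x hx
    apply hx
    simp [ENNReal.ofReal_eq_zero, wt_pos N x]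
  · intro h
    filter_upwards [h] with x hx _ using hx

lemma integrable_muN_iff (N : ℕ) {a : R12 → ℂ} :
    Integrable a (muN N) ↔ Integrable (fun ξ => (wt N ξ) • a ξ) volume := by
  unfold muN
  rw [integrable_withDensity_iff_integrable_smul₀']
  · apply integrable_congr
    filter_upwards with ξ
    rw [ENNReal.toReal_ofReal (wt_pos N ξ).le]
  · have := wt_cont N; fun_prop
  · filter_upwards with ξ using ENNReal.ofReal_lt_top


lemma mp_neg (N : ℕ) : MeasurePreserving (Neg.neg : R12 → R12) (muN N) (muN N) := by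
  refine ⟨measurable_neg, ?_⟩
  ext s hs
  rw [Measure.map_apply measurable_neg hs]
  unfold muN
  rw [withDensity_apply _ hs, withDensity_apply _ (measurable_neg hs)]
  have h := (Measure.measurePreserving_neg (volume : Measure R12)).setLIntegral_comp_preimage hs
    (f := fun ξ => ENNReal.ofReal (wt N ξ)) (by have := wt_cont N; fun_prop)
  rw [← h]
  apply setLIntegral_congr_fun (measurable_neg hs)
  intro ξ _
  simp [wt]

/-- conjugation on densities -/
noncomputable def J (N : ℕ) : XN N → XN N :=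
  fun a => star (Lp.compMeasurePreserving Neg.neg (mp_neg N) a)

lemma J_coe {N : ℕ} (a : XN N) :
    ((J N a : XN N) : R12 → ℂ) =ᵐ[muN N] fun z => (starRingEnd ℂ) ((a : R12 → ℂ) (-z)) := by
  unfold J
  refine (Lp.coeFn_star _).trans ?_
  filter_upwards [Lp.coeFn_compMeasurePreserving a (mp_neg N)] with z hz
  simp only [Pi.star_apply]
  rw [hz]
  rfl

lemma J_norm {N : ℕ} (a : XN N) : ‖J N a‖ = ‖a‖ := by
  have h1 : ‖J N a‖ = ‖Lp.compMeasurePreserving Neg.neg (mp_neg N) a‖ := by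
    unfold J
    rw [Lp.norm_def, Lp.norm_def]
    congr 1
    apply eLpNorm_congr_norm_ae
    filter_upwards [Lp.coeFn_star (Lp.compMeasurePreserving Neg.neg (mp_neg N) a)] with z hz
    rw [hz]
    simp
  rw [h1, Lp.norm_compMeasurePreserving]

lemma J_sub {N : ℕ} (a b : XN N) : J N (a - b) = J N a - J N b := by
  apply Lp.ext
  have h1 : ∀ᵐ z ∂(muN N), ((a - b : XN N) : R12 → ℂ) (-z) = (a : R12 → ℂ) (-z) - (b : R12 → ℂ) (-z) :=
    (mp_neg N).quasiMeasurePreserving.ae (Lp.coeFn_sub a b)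
  filter_upwards [J_coe (a - b), J_coe a, J_coe b, Lp.coeFn_sub (J N a) (J N b), h1] with z h2 h3 h4 h5 h6
  rw [h2, h5, Pi.sub_apply, h3, h4, h6, map_sub]

lemma J_add {N : ℕ} (a b : XN N) : J N (a + b) = J N a + J N b := by
  apply Lp.ext
  have h1 : ∀ᵐ z ∂(muN N), ((a + b : XN N) : R12 → ℂ) (-z) = (a : R12 → ℂ) (-z) + (b : R12 → ℂ) (-z) :=
    (mp_neg N).quasiMeasurePreserving.ae (Lp.coeFn_add a b)
  filter_upwards [J_coe (a + b), J_coe a, J_coe b, Lp.coeFn_add (J N a) (J N b), h1] with z h2 h3 h4 h5 h6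
  rw [h2, h5, Pi.add_apply, h3, h4, h6, map_add]

lemma J_smul {N : ℕ} (c : ℂ) (a : XN N) : J N (c • a) = (starRingEnd ℂ) c • J N a := by
  apply Lp.ext
  have h1 : ∀ᵐ z ∂(muN N), ((c • a : XN N) : R12 → ℂ) (-z) = c • (a : R12 → ℂ) (-z) :=
    (mp_neg N).quasiMeasurePreserving.ae (Lp.coeFn_smul c a)
  filter_upwards [J_coe (c • a), J_coe a, Lp.coeFn_smul ((starRingEnd ℂ) c) (J N a), h1] with z h2 h3 h4 h5
  rw [h2, h4, Pi.smul_apply, h3, h5]
  simp [smul_eq_mul]

lemma J_sum {N : ℕ} {ι : Type*} (s : Finset ι) (f : ι → XN N) :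
    J N (∑ i ∈ s, f i) = ∑ i ∈ s, J N (f i) := by
  classical
  have h0 : J N 0 = 0 := by have := J_sub (N := N) 0 0; simpa using this
  induction s using Finset.induction_on with
  | empty => simp [h0]
  | insert a s ha ih => rw [Finset.sum_insert ha, J_add, ih, Finset.sum_insert ha]

lemma J_J {N : ℕ} (a : XN N) : J N (J N a) = a := by
  apply Lp.ext
  have h1 : ∀ᵐ z ∂(muN N), ((J N a : XN N) : R12 → ℂ) (-z) = (starRingEnd ℂ) ((a : R12 → ℂ) (- -z)) :=
    (mp_neg N).quasiMeasurePreserving.ae (J_coe a)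
  filter_upwards [J_coe (J N a), h1] with z h2 h3
  rw [h2, h3]
  simp

lemma isReal_iff {N : ℕ} (x : XX N) : IsReal x ↔ x.2 = J N x.1 := by
  unfold IsReal
  rw [← ae_muN_iff N]
  constructor
  · intro h
    apply Lp.ext
    filter_upwards [h, J_coe x.1] with z h1 h2
    rw [h1, h2]
  · intro h
    rw [h]
    exact J_coe x.1

lemma real_avg {N : ℕ} {ι : Type*} [Fintype ι] (m : ι → XX N) (hm : ∀ i, IsReal (m i)) (z : XX N)
    (hz : IsReal z) (c : ι → ℂ) :
    ‖z - ∑ i, (((c i).re : ℝ) : ℂ) • m i‖ ≤ ‖z - ∑ i, c i • m i‖ := by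
  have hz' := (isReal_iff z).1 hz
  have hm' : ∀ i, (m i).2 = J N (m i).1 := fun i => (isReal_iff _).1 (hm i)
  set w := z - ∑ i, c i • m i with hw
  have f1 : ∀ d : ι → ℂ, (∑ i, d i • m i).1 = ∑ i, d i • (m i).1 := fun d => by
    rw [Prod.fst_sum]; rfl
  have f2 : ∀ d : ι → ℂ, (∑ i, d i • m i).2 = ∑ i, d i • (m i).2 := fun d => by
    rw [Prod.snd_sum]; rfl
  have w1 : w.1 = z.1 - ∑ i, c i • (m i).1 := by rw [hw, Prod.fst_sub, f1]
  have w2 : w.2 = z.2 - ∑ i, c i • (m i).2 := by rw [hw, Prod.snd_sub, f2]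
  have Jw2 : J N w.2 = z.1 - ∑ i, (starRingEnd ℂ) (c i) • (m i).1 := by
    rw [w2, J_sub, J_sum, hz', J_J]
    congr 1
    apply Finset.sum_congr rfl
    intro i _
    rw [J_smul, hm' i, J_J]
  have Jw1 : J N w.1 = z.2 - ∑ i, (starRingEnd ℂ) (c i) • (m i).2 := by
    rw [w1, J_sub, J_sum, ← hz']
    congr 1
    apply Finset.sum_congr rfl
    intro i _
    rw [J_smul, hm' i]
  have hre : ∀ i, (((c i).re : ℝ) : ℂ) = (1/2 : ℂ) * (c i + (starRingEnd ℂ) (c i)) := by
    intro i
    rw [Complex.add_conj]; push_cast; ring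
  have g1 : (z - ∑ i, (((c i).re : ℝ) : ℂ) • m i).1 = (1/2 : ℂ) • (w.1 + J N w.2) := by
    rw [Prod.fst_sub, f1, Jw2, w1]
    have : ∑ i, (((c i).re : ℝ) : ℂ) • (m i).1 = (1/2 : ℂ) • (∑ i, c i • (m i).1 + ∑ i, (starRingEnd ℂ) (c i) • (m i).1) := by
      rw [← Finset.sum_add_distrib, Finset.smul_sum]
      apply Finset.sum_congr rfl
      intro i _
      rw [hre i, ← add_smul, smul_smul]
    rw [this]
    module
  have g2 : (z - ∑ i, (((c i).re : ℝ) : ℂ) • m i).2 = (1/2 : ℂ) • (w.2 + J N w.1) := by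
    rw [Prod.snd_sub, f2, Jw1, w2]
    have : ∑ i, (((c i).re : ℝ) : ℂ) • (m i).2 = (1/2 : ℂ) • (∑ i, c i • (m i).2 + ∑ i, (starRingEnd ℂ) (c i) • (m i).2) := by
      rw [← Finset.sum_add_distrib, Finset.smul_sum]
      apply Finset.sum_congr rfl
      intro i _
      rw [hre i, ← add_smul, smul_smul]
    rw [this]
    module
  have n1 : ‖w.1‖ ≤ ‖w‖ := norm_fst_le w
  have n2 : ‖w.2‖ ≤ ‖w‖ := norm_snd_le w
  rw [Prod.norm_def]
  apply max_le
  · rw [g1, norm_smul]
    have := norm_add_le w.1 (J N w.2)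
    rw [J_norm] at this
    have h2 : ‖(1/2 : ℂ)‖ = 1/2 := by norm_num
    rw [h2]; linarith
  · rw [g2, norm_smul]
    have := norm_add_le w.2 (J N w.1)
    rw [J_norm] at this
    have h2 : ‖(1/2 : ℂ)‖ = 1/2 := by norm_num
    rw [h2]; linarith

/-- continuous dual functionals of a finite linearly independent family -/
lemma dual_fun {X : Type*} [NormedAddCommGroup X] [NormedSpace ℂ X] {ι : Type*} [Fintype ι]
    (m : ι → X) (hm : LinearIndependent ℂ m) :
    ∃ φ : ι → (X →L[ℂ] ℂ), ∀ x ∈ Submodule.span ℂ (range m), ∑ i, φ i x • m i = x := by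
  classical
  let E := Submodule.span ℂ (range m)
  let b := Module.Basis.span hm
  haveI : FiniteDimensional ℂ E := FiniteDimensional.span_of_finite ℂ (finite_range m)
  have hex : ∀ i, ∃ g : X →L[ℂ] ℂ, ∀ x : E, g x = b.coord i x := by
    intro i
    obtain ⟨g, hg, _⟩ := exists_extension_norm_eq E (LinearMap.toContinuousLinearMap (b.coord i))
    exact ⟨g, fun x => by rw [hg x]; rfl⟩
  choose φ hφ using hex
  refine ⟨φ, fun x hx => ?_⟩
  have h1 : ∑ i, (b.repr ⟨x, hx⟩) i • b i = ⟨x, hx⟩ := b.sum_repr _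
  have h2 := congrArg (fun y : E => (y : X)) h1
  simp only [Submodule.coe_sum, Submodule.coe_smul] at h2
  rw [← h2]
  apply Finset.sum_congr rfl
  intro i _
  rw [h2]
  have h3 : φ i x = (b.repr ⟨x, hx⟩) i := hφ i ⟨x, hx⟩
  have h4 : ((b i : E) : X) = m i := congrArg Subtype.val (Module.Basis.span_apply hm i)
  rw [h3, h4]

lemma rep_ft {N : ℕ} {a f : R12 → ℂ} (h : Rep N a f) : f = ft a := by
  ext y; exact h.2 y

lemma inX_ft {N M : ℕ} (h : M ≤ N) (x : XN N) : InX M (ft x) := by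
  refine ⟨x, ?_, fun y => rfl⟩
  have h1 : Integrable (x : R12 → ℂ) (muN N) := L1.integrable_coeFn x
  rw [integrable_muN_iff] at h1
  have hm : AEStronglyMeasurable (x : R12 → ℂ) volume := by
    have h1 : AEStronglyMeasurable (fun ξ => (wt N ξ)⁻¹ • (wt N ξ • (x : R12 → ℂ) ξ)) volume :=
      (((wt_cont N).measurable).inv.aestronglyMeasurable).smul h1.aestronglyMeasurable
    refine h1.congr (Filter.Eventually.of_forall fun ξ => ?_)
    simp only [smul_smul, inv_mul_cancel₀ (wt_pos N ξ).ne', one_smul]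
  refine h1.mono ?_ (Filter.Eventually.of_forall fun ξ => ?_)
  · apply AEStronglyMeasurable.mul _ hm
    apply Continuous.aestronglyMeasurable
    fun_prop
  · rw [norm_mul, norm_smul]
    have e1 : ‖(((1 + ‖ξ‖) ^ M : ℝ) : ℂ)‖ = (1 + ‖ξ‖) ^ M := by
      rw [Complex.norm_real, Real.norm_of_nonneg (by positivity)]
    rw [e1, Real.norm_of_nonneg (wt_pos N ξ).le]
    unfold wt
    gcongr
    linarith [norm_nonneg ξ]

lemma ft_congr {a b : R12 → ℂ} (h : a =ᵐ[volume] b) : ft a = ft b := by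
  ext y
  unfold ft
  apply integral_congr_ae
  filter_upwards [h] with ξ hξ
  rw [hξ]

/-- injectivity of the synthesis on `XX N` (Fourier uniqueness) -/
def FtInjStmt : Prop := ∀ (N : ℕ) (a b : XN N), ft a = ft b → a = b

lemma ft_int {N : ℕ} (a : XN N) (y : R12) :
    Integrable (fun ξ : R12 => exp (I * ((inner ℝ ξ y : ℝ) : ℂ)) * (a : R12 → ℂ) ξ) := by
  obtain ⟨_, h1, _⟩ := inX_ft (Nat.zero_le N) a
  have h0 : Integrable (a : R12 → ℂ) volume := by
    have h1 : Integrable (a : R12 → ℂ) (muN N) := L1.integrable_coeFn a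
    rw [integrable_muN_iff] at h1
    have hm : AEStronglyMeasurable (a : R12 → ℂ) volume := by
      have h1 : AEStronglyMeasurable (fun ξ => (wt N ξ)⁻¹ • (wt N ξ • (a : R12 → ℂ) ξ)) volume :=
        (((wt_cont N).measurable).inv.aestronglyMeasurable).smul h1.aestronglyMeasurable
      refine h1.congr (Filter.Eventually.of_forall fun ξ => ?_)
      simp only [smul_smul, inv_mul_cancel₀ (wt_pos N ξ).ne', one_smul]
    refine h1.mono hm (Filter.Eventually.of_forall fun ξ => ?_)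
    rw [norm_smul, Real.norm_of_nonneg (wt_pos N ξ).le]
    have : 1 ≤ wt N ξ := one_le_pow₀ (by linarith [norm_nonneg ξ])
    nlinarith [norm_nonneg ((a : R12 → ℂ) ξ)]
  refine h0.bdd_mul (c := 1) (by apply Continuous.aestronglyMeasurable; fun_prop) ?_
  refine Filter.Eventually.of_forall fun ξ => ?_
  rw [Complex.norm_exp]
  simp

lemma ft_add {N : ℕ} (a b : XN N) (y : R12) : ft (a + b : XN N) y = ft a y + ft b y := by
  rw [show ft (a + b : XN N) = ft (fun ξ => (a : R12 → ℂ) ξ + (b : R12 → ℂ) ξ) from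
    ft_congr ((ae_muN_iff N).1 (Lp.coeFn_add a b))]
  unfold ft
  rw [← integral_add (ft_int a y) (ft_int b y)]
  congr 1
  ext ξ
  ring

lemma ft_smul {N : ℕ} (c : ℂ) (a : XN N) (y : R12) : ft (c • a : XN N) y = c * ft a y := by
  rw [show ft (c • a : XN N) = ft (fun ξ => c * (a : R12 → ℂ) ξ) from
    ft_congr ((ae_muN_iff N).1 (Lp.coeFn_smul c a))]
  unfold ft
  rw [← MeasureTheory.integral_const_mul]
  congr 1
  ext ξ
  ring

lemma ft_zero {N : ℕ} (y : R12) : ft (0 : XN N) y = 0 := by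
  have := ft_smul (N := N) 0 0 y
  simpa using this

lemma ft_sum {N : ℕ} {ι : Type*} (s : Finset ι) (f : ι → XN N) (y : R12) :
    ft (∑ i ∈ s, f i : XN N) y = ∑ i ∈ s, ft (f i) y := by
  classical
  induction s using Finset.induction_on with
  | empty => rw [Finset.sum_empty, Finset.sum_empty]; exact ft_zero y
  | insert a s ha ih => rw [Finset.sum_insert ha, ft_add, ih, Finset.sum_insert ha]

lemma xn_int {N : ℕ} (a : XN N) : Integrable (a : R12 → ℂ) volume := by
  have h1 : Integrable (a : R12 → ℂ) (muN N) := L1.integrable_coeFn a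
  rw [integrable_muN_iff] at h1
  have hm : AEStronglyMeasurable (a : R12 → ℂ) volume := by
    have h1 : AEStronglyMeasurable (fun ξ => (wt N ξ)⁻¹ • (wt N ξ • (a : R12 → ℂ) ξ)) volume :=
      (((wt_cont N).measurable).inv.aestronglyMeasurable).smul h1.aestronglyMeasurable
    refine h1.congr (Filter.Eventually.of_forall fun ξ => ?_)
    simp only [smul_smul, inv_mul_cancel₀ (wt_pos N ξ).ne', one_smul]
  refine h1.mono hm (Filter.Eventually.of_forall fun ξ => ?_)
  rw [norm_smul, Real.norm_of_nonneg (wt_pos N ξ).le]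
  have : 1 ≤ wt N ξ := one_le_pow₀ (by linarith [norm_nonneg ξ])
  nlinarith [norm_nonneg ((a : R12 → ℂ) ξ)]

/-- a real integrable function with zero Fourier transform vanishes a.e. -/
lemma real_zero {u : R12 → ℝ} (hu : Integrable u volume)
    (h : ∀ y : R12, ∫ ξ : R12, exp (((inner ℝ ξ y : ℝ) : ℂ) * I) * (u ξ : ℂ) = 0) :
    u =ᵐ[volume] 0 := by
  have hp : Integrable (fun ξ => max (u ξ) 0) volume := hu.pos_part
  have hn : Integrable (fun ξ => max (-u ξ) 0) volume := hu.neg_part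
  let μ1 : Measure R12 := volume.withDensity fun ξ => ENNReal.ofReal (max (u ξ) 0)
  let μ2 : Measure R12 := volume.withDensity fun ξ => ENNReal.ofReal (max (-u ξ) 0)
  haveI : IsFiniteMeasure μ1 := isFiniteMeasure_withDensity_ofReal hp.2
  haveI : IsFiniteMeasure μ2 := isFiniteMeasure_withDensity_ofReal hn.2
  have hcf : charFun μ1 = charFun μ2 := by
    ext y
    rw [charFun_apply, charFun_apply]
    have e1 : ∫ x, exp (((inner ℝ x y : ℝ) : ℂ) * I) ∂μ1
        = ∫ x, exp (((inner ℝ x y : ℝ) : ℂ) * I) * ((max (u x) 0 : ℝ) : ℂ) := by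
      rw [integral_withDensity_eq_integral_toReal_smul₀ hp.1.aemeasurable.ennreal_ofReal
        (Filter.Eventually.of_forall fun ξ => ENNReal.ofReal_lt_top)]
      apply integral_congr_ae
      filter_upwards with x
      rw [ENNReal.toReal_ofReal (le_max_right _ _), Complex.real_smul, mul_comm]
    have e2 : ∫ x, exp (((inner ℝ x y : ℝ) : ℂ) * I) ∂μ2
        = ∫ x, exp (((inner ℝ x y : ℝ) : ℂ) * I) * ((max (-u x) 0 : ℝ) : ℂ) := by
      rw [integral_withDensity_eq_integral_toReal_smul₀ hn.1.aemeasurable.ennreal_ofReal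
        (Filter.Eventually.of_forall fun ξ => ENNReal.ofReal_lt_top)]
      apply integral_congr_ae
      filter_upwards with x
      rw [ENNReal.toReal_ofReal (le_max_right _ _), Complex.real_smul, mul_comm]
    rw [e1, e2, ← sub_eq_zero, ← integral_sub]
    · rw [← h y]
      apply integral_congr_ae
      filter_upwards with x
      rw [← mul_sub, ← Complex.ofReal_sub]
      congr 2
      rcases le_total 0 (u x) with h | h
      · rw [max_eq_left h, max_eq_right (by linarith)]; ring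
      · rw [max_eq_right h, max_eq_left (by linarith)]; ring
    · refine (hp.ofReal (𝕜 := ℂ)).bdd_mul (c := 1) (by apply Continuous.aestronglyMeasurable; fun_prop) ?_
      refine Filter.Eventually.of_forall fun ξ => ?_
      rw [Complex.norm_exp]; simp
    · refine (hn.ofReal (𝕜 := ℂ)).bdd_mul (c := 1) (by apply Continuous.aestronglyMeasurable; fun_prop) ?_
      refine Filter.Eventually.of_forall fun ξ => ?_
      rw [Complex.norm_exp]; simp
  have hμ : μ1 = μ2 := Measure.ext_of_charFun hcf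
  have hd := (withDensity_eq_iff hp.1.aemeasurable.ennreal_ofReal hn.1.aemeasurable.ennreal_ofReal
    (by
      have h5 := (hasFiniteIntegral_iff_ofReal (f := fun ξ => max (u ξ) 0) (μ := volume)
        (Filter.Eventually.of_forall fun _ => le_max_right _ _)).1 hp.2
      exact h5.ne)).1 hμ
  filter_upwards [hd] with x hx
  have h3 := (ENNReal.ofReal_eq_ofReal_iff (le_max_right _ _) (le_max_right _ _)).1 hx
  simp only [Pi.zero_apply]
  rcases le_total 0 (u x) with h | h
  · rw [max_eq_left h, max_eq_right (by linarith)] at h3; exact h3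
  · rw [max_eq_right h, max_eq_left (by linarith)] at h3; linarith

lemma ft_zero_ae {a : R12 → ℂ} (ha : Integrable a volume) (h : ∀ y, ft a y = 0) : a =ᵐ[volume] 0 := by
  have hconj : ∀ y, ∫ ξ : R12, exp (((inner ℝ ξ y : ℝ) : ℂ) * I) * (starRingEnd ℂ) (a ξ) = 0 := by
    intro y
    have h1 := h (-y)
    unfold ft at h1
    have h2 := congrArg (starRingEnd ℂ) h1
    rw [← integral_conj, map_zero] at h2
    rw [← h2]
    apply integral_congr_ae
    filter_upwards with ξ
    rw [map_mul, ← Complex.exp_conj]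
    simp only [map_mul, Complex.conj_I, Complex.conj_ofReal, inner_neg_right, Complex.ofReal_neg,
      map_neg]
    ring_nf
  have hself : ∀ y, ∫ ξ : R12, exp (((inner ℝ ξ y : ℝ) : ℂ) * I) * a ξ = 0 := by
    intro y
    rw [← h y]
    unfold ft
    apply integral_congr_ae
    filter_upwards with ξ
    rw [mul_comm I]
  have hb : ∀ (b : R12 → ℂ), Integrable b volume → ∀ y, Integrable (fun ξ : R12 => exp (((inner ℝ ξ y : ℝ) : ℂ) * I) * b ξ) := by
    intro b hb y
    refine hb.bdd_mul (c := 1) (by apply Continuous.aestronglyMeasurable; fun_prop) ?_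
    refine Filter.Eventually.of_forall fun ξ => ?_
    rw [Complex.norm_exp]; simp
  have hac : Integrable (fun ξ => (starRingEnd ℂ) (a ξ)) volume := by
    refine ha.congr' (Complex.continuous_conj.comp_aestronglyMeasurable ha.1) ?_
    filter_upwards with ξ
    simp
  have hre := real_zero (u := fun ξ => (a ξ).re) ha.re (fun y => by
    have := congrArg₂ (· + ·) (hself y) (hconj y)
    simp only [add_zero] at this
    rw [← integral_add (hb a ha y) (hb _ hac y)] at this
    have h2 : ∫ ξ : R12, exp (((inner ℝ ξ y : ℝ) : ℂ) * I) * (((a ξ).re : ℝ) : ℂ)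
        = (1/2 : ℂ) * ∫ ξ : R12, (exp (((inner ℝ ξ y : ℝ) : ℂ) * I) * a ξ + exp (((inner ℝ ξ y : ℝ) : ℂ) * I) * (starRingEnd ℂ) (a ξ)) := by
      rw [← MeasureTheory.integral_const_mul]
      apply integral_congr_ae
      filter_upwards with ξ
      rw [← mul_add, Complex.add_conj]
      push_cast; ring
    rw [h2, this, mul_zero])
  have him := real_zero (u := fun ξ => (a ξ).im) ha.im (fun y => by
    have := congrArg₂ (· - ·) (hself y) (hconj y)
    simp only [sub_zero] at this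
    rw [← integral_sub (hb a ha y) (hb _ hac y)] at this
    have h2 : ∫ ξ : R12, exp (((inner ℝ ξ y : ℝ) : ℂ) * I) * (((a ξ).im : ℝ) : ℂ)
        = (-I/2 : ℂ) * ∫ ξ : R12, (exp (((inner ℝ ξ y : ℝ) : ℂ) * I) * a ξ - exp (((inner ℝ ξ y : ℝ) : ℂ) * I) * (starRingEnd ℂ) (a ξ)) := by
      rw [← MeasureTheory.integral_const_mul]
      apply integral_congr_ae
      filter_upwards with ξ
      rw [← mul_sub, Complex.sub_conj]
      push_cast
      linear_combination (exp (((inner ℝ ξ y : ℝ) : ℂ) * I) * ((a ξ).im : ℂ)) * Complex.I_sq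
    rw [h2, this, mul_zero])
  filter_upwards [hre, him] with ξ h1 h2
  apply Complex.ext
  · simpa using h1
  · simpa using h2

theorem ftInj : FtInjStmt := by
  intro N a b hab
  rw [← sub_eq_zero]
  apply Lp.ext
  rw [Filter.EventuallyEq, ae_muN_iff N]
  have h0 := ft_zero_ae (xn_int (a - b)) (fun y => by
    have e : a - b = a + (-1 : ℂ) • b := by module
    rw [e, ft_add, ft_smul, hab]; ring)
  have h1 := (ae_muN_iff N).1 (Lp.coeFn_zero ℂ 1 (muN N))
  filter_upwards [h0, h1] with x h2 h3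
  rw [h2, h3]

/-- ASSEMBLY of LINStmt. -/
theorem lin_of (hDE : DEStmt) (hMode : ModeStmt) (hGen : GenStmt)
    : LINStmt := by
  have hgap := gapStmt
  have hinj := ftInj
  intro n P T hP
  obtain ⟨N1, hN1⟩ := hDE n P T
  refine ⟨max N1 N0, fun N hN D κ hκ => ?_⟩
  have hN1' : N1 ≤ N := le_trans (le_max_left _ _) hN
  have hN0' : N0 ≤ N := le_trans (le_max_right _ _) hN
  have hN2 : 2 ≤ N := le_trans (by norm_num [N0]) hN0'
  obtain ⟨t0, ht0, A, K, hAK, hA, hK⟩ := hN1 N hN1' D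
  obtain ⟨hS, hreal, hSreal, hind⟩ := hMode n P T N D
  have hli : LinearIndependent ℂ D.mode := by
    rw [Fintype.linearIndependent_iff]
    intro c hc i
    exact congrFun (hind c hc) i
  obtain ⟨φ, hφ⟩ := dual_fun D.mode hli
  let E := Submodule.span ℂ (range D.mode)
  haveI : FiniteDimensional ℂ E := FiniteDimensional.span_of_finite ℂ (finite_range D.mode)
  let P0 : XX N →L[ℂ] XX N := ∑ i, (φ i).smulRight (D.mode i)
  have hP0 : ∀ x, P0 x = ∑ i, φ i x • D.mode i := by
    intro x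
    simp [P0, ContinuousLinearMap.sum_apply]
  have hinv : ∀ t, 0 ≤ t → ∀ x ∈ E, D.S t x ∈ E := by
    intro t ht x hx
    induction hx using Submodule.span_induction with
    | mem x hx =>
      obtain ⟨i, rfl⟩ := hx
      rw [hS t ht i]
      exact E.smul_mem _ (Submodule.subset_span ⟨i, rfl⟩)
    | zero => rw [map_zero]; exact E.zero_mem
    | add x y _ _ h1 h2 => rw [map_add]; exact E.add_mem h1 h2
    | smul c x _ h => rw [map_smul]; exact E.smul_mem c h
  have hmode1 : ∀ i, ft (D.mode i).1 = P.mode1 i := fun i => by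
    rw [ft_congr (D.mode_fst i)]; exact (rep_ft (T.rep_m1 i N)).symm
  have hmode2 : ∀ i, ft (D.mode i).2 = P.mode2 i := fun i => by
    rw [ft_congr (D.mode_snd i)]; exact (rep_ft (T.rep_m2 i N)).symm
  have hmem : ∀ x : XX N, P.InE (ft x.1) (ft x.2) → x ∈ E := by
    intro x hx
    obtain ⟨c, hc1, hc2⟩ := hx
    have : x = ∑ i, c i • D.mode i := by
      apply Prod.ext
      · apply hinj N
        rw [Prod.fst_sum]
        ext y
        rw [ft_sum, hc1 y]
        apply Finset.sum_congr rfl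
        intro i _
        rw [Prod.smul_fst, ft_smul, hmode1]
      · apply hinj N
        rw [Prod.snd_sum]
        ext y
        rw [ft_sum, hc2 y]
        apply Finset.sum_congr rfl
        intro i _
        rw [Prod.smul_snd, ft_smul, hmode2]
    rw [this]
    exact E.sum_mem fun i _ => E.smul_mem _ (Submodule.subset_span ⟨i, rfl⟩)
  have hmem' : ∀ x : XX N, x ∈ E → P.InE (ft x.1) (ft x.2) := by
    intro x hx
    refine ⟨fun i => φ i x, ?_, ?_⟩
    · intro y
      conv_lhs => rw [← hφ x hx]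
      rw [Prod.fst_sum, ft_sum]
      apply Finset.sum_congr rfl
      intro i _
      rw [Prod.smul_fst, ft_smul, hmode1]
    · intro y
      conv_lhs => rw [← hφ x hx]
      rw [Prod.snd_sum, ft_sum]
      apply Finset.sum_congr rfl
      intro i _
      rw [Prod.smul_snd, ft_smul, hmode2]
  have hspec : ∀ lam : ℂ, 0 ≤ lam.re → ∀ x y, HasDerivWithinAt (fun t => D.S t x) y (Ici 0) 0 →
      y - lam • x ∈ E → x ∈ E := by
    intro lam hlam x y hxy hyE
    obtain ⟨g1, g2⟩ := hGen n P T N hN2 D x y hxy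
    apply hmem
    apply hP lam hlam _ _ (inX_ft hN0' x.1) (inX_ft hN0' x.2)
    obtain ⟨c, hc1, hc2⟩ := hmem' _ hyE
    refine ⟨c, fun p => ?_, fun p => ?_⟩
    · rw [← hc1 p]
      show P.gen1 (ft x.1) (ft x.2) p - lam * ft x.1 p = _
      rw [← g1 p]
      have h1 : (y - lam • x).1 = y.1 + (-lam) • x.1 := by
        rw [Prod.fst_sub, Prod.smul_fst]; module
      rw [h1, ft_add, ft_smul]; ring
    · rw [← hc2 p]
      show P.gen2 (ft x.1) (ft x.2) p - lam * ft x.2 p = _
      rw [← g2 p]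
      have h1 : (y - lam • x).2 = y.2 + (-lam) • x.2 := by
        rw [Prod.snd_sub, Prod.smul_snd]; module
      rw [h1, ft_add, ft_smul]; ring
  obtain ⟨C, δ, hδ, hCδ⟩ := hgap (XX N) D.S D.S_zero D.S_add D.S_cont E hinv t0 ht0 A K hAK hA hK
    hspec P0 (fun x => by
      rw [hP0]; exact E.sum_mem fun i _ => E.smul_mem _ (Submodule.subset_span ⟨i, rfl⟩))
    (fun x hx => by rw [hP0]; exact hφ x hx)
  -- choose s0
  have hlim : Filter.Tendsto (fun s : ℝ => C * Real.exp (-δ * s)) Filter.atTop (nhds (C * 0)) := by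
    apply Filter.Tendsto.const_mul
    apply Real.tendsto_exp_atBot.comp
    exact Filter.tendsto_id.const_mul_atTop_of_neg (by linarith)
  rw [mul_zero] at hlim
  have hev : ∀ᶠ s in Filter.atTop, C * Real.exp (-δ * s) < κ := hlim.eventually (gt_mem_nhds hκ)
  obtain ⟨s1, hs1⟩ := Filter.eventually_atTop.1 hev
  refine ⟨max s1 1, by positivity, fun s hs => ?_⟩
  have hs0 : 0 ≤ s := le_trans (by positivity) hs
  refine ⟨∑ i, ‖φ i‖ * ‖D.S s‖, fun x hx => ⟨fun i => (φ i (D.S s x)).re, fun i => ?_, ?_⟩⟩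
  · calc |(φ i (D.S s x)).re| ≤ ‖φ i (D.S s x)‖ := Complex.abs_re_le_norm _
      _ ≤ ‖φ i‖ * ‖D.S s x‖ := (φ i).le_opNorm _
      _ ≤ ‖φ i‖ * (‖D.S s‖ * ‖x‖) := by gcongr; exact (D.S s).le_opNorm _
      _ = (‖φ i‖ * ‖D.S s‖) * ‖x‖ := by ring
      _ ≤ (∑ i, ‖φ i‖ * ‖D.S s‖) * ‖x‖ := by
        gcongr
        exact Finset.single_le_sum (f := fun i => ‖φ i‖ * ‖D.S s‖) (fun j _ => by positivity) (Finset.mem_univ i)
  · calc ‖D.S s x - ∑ i, (((φ i (D.S s x)).re : ℝ) : ℂ) • D.mode i‖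
        ≤ ‖D.S s x - ∑ i, (φ i (D.S s x)) • D.mode i‖ :=
          real_avg D.mode hreal _ (hSreal s hs0 x hx) _
      _ = ‖D.S s x - P0 (D.S s x)‖ := by rw [hP0]
      _ ≤ C * Real.exp (-δ * s) * ‖x‖ := hCδ s hs0 x
      _ ≤ κ * ‖x‖ := by
        gcongr
        exact (hs1 s (le_trans (le_max_left _ _) hs)).le

end Crest.Agent.R086.DL
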