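import Crest.Agent.R086.BCIface
import Crest.Agent.R086.DLLin
import Crest.Agent.R086.DCcv

/-!
Row 86, Part C, regime (R1) (helper590): no eigenpair with `|lam|` polynomially large in `n`.

`V · R(mu)` is small on the Wiener algebra `X_0`, by one integration by parts in time with the
shifted symbol `B = A + √|mu|`.
-/

set_option autoImplicit false

open MeasureTheory Complex Set Filter
open scoped ContDiff Topology

namespace Crest.Agent.R086.CHF

open Crest.Agent.R086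

/-! ### scalar part -/

/-- `w = r² e^{-t}` -/
noncomputable def ww (r t : ℝ) : ℝ := r ^ 2 * Real.exp (-t)

/-- symbol `A = mu + i σ w` -/
noncomputable def AA (σ : ℝ) (mu : ℂ) (r t : ℝ) : ℂ := mu + I * ((σ * ww r t : ℝ) : ℂ)

/-- shifted symbol `B = A + M` -/
noncomputable def BB (σ : ℝ) (mu : ℂ) (M r t : ℝ) : ℂ := AA σ mu r t + (M : ℂ)

/-- phase `exp (- mu t - i σ r² (1 - e^{-t}))` -/
noncomputable def ph (σ : ℝ) (mu : ℂ) (r t : ℝ) : ℂ :=
  exp (-(mu * (t : ℂ)) - I * ((σ * (r ^ 2 * (1 - Real.exp (-t))) : ℝ) : ℂ))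

/-- `exp (i c e^{-t/2})` -/
noncomputable def EE (c t : ℝ) : ℂ := exp (I * ((Real.exp (-t / 2) * c : ℝ) : ℂ))

lemma norm_ph (σ : ℝ) (mu : ℂ) (r t : ℝ) : ‖ph σ mu r t‖ = Real.exp (-mu.re * t) := by
  unfold ph
  rw [Complex.norm_exp]
  congr 1
  simp only [Complex.sub_re, Complex.neg_re, Complex.mul_re, Complex.I_re, Complex.I_im,
    Complex.ofReal_re, Complex.ofReal_im]
  ring

lemma norm_EE (c t : ℝ) : ‖EE c t‖ = 1 := by
  unfold EE
  rw [Complex.norm_exp]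
  simp only [Complex.mul_re, Complex.I_re, Complex.I_im,
    Complex.ofReal_re, Complex.ofReal_im]
  simp

lemma ww_nonneg (r t : ℝ) : 0 ≤ ww r t := by unfold ww; positivity

lemma hasDerivAt_ww (r t : ℝ) : HasDerivAt (ww r) (-ww r t) t := by
  have h : HasDerivAt (fun t : ℝ => Real.exp (-t)) (Real.exp (-t) * (-1)) t :=
    (hasDerivAt_neg t).exp
  have h2 : HasDerivAt (ww r) (r ^ 2 * (Real.exp (-t) * (-1))) t := h.const_mul (r ^ 2)
  refine h2.congr_deriv ?_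
  unfold ww
  ring

lemma hasDerivAt_BB (σ : ℝ) (mu : ℂ) (M r t : ℝ) :
    HasDerivAt (BB σ mu M r) (-(I * ((σ * ww r t : ℝ) : ℂ))) t := by
  have h1 := ((hasDerivAt_ww r t).const_mul σ).ofReal_comp
  have h2 : HasDerivAt (BB σ mu M r) (I * ((σ * -ww r t : ℝ) : ℂ)) t :=
    ((h1.const_mul I).const_add mu).add_const (M : ℂ)
  refine h2.congr_deriv ?_
  push_cast
  ring

lemma hasDerivAt_ph (σ : ℝ) (mu : ℂ) (r t : ℝ) :
    HasDerivAt (ph σ mu r) (-(AA σ mu r t) * ph σ mu r t) t := by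
  have h : HasDerivAt (fun t : ℝ => Real.exp (-t)) (Real.exp (-t) * (-1)) t :=
    (hasDerivAt_neg t).exp
  have h1 := ((((h.const_sub 1).const_mul (r ^ 2)).const_mul σ).ofReal_comp).const_mul I
  have h2 : HasDerivAt (fun t : ℝ => -(mu * (t : ℂ))) (-(mu * 1)) t :=
    ((Complex.ofRealCLM.hasDerivAt (x := t)).const_mul mu).neg
  have h3 : HasDerivAt (ph σ mu r) (ph σ mu r t *
      (-(mu * 1) - I * ((σ * (r ^ 2 * -(Real.exp (-t) * (-1))) : ℝ) : ℂ))) t := (h2.sub h1).cexp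
  refine h3.congr_deriv ?_
  unfold AA ww
  push_cast
  ring

lemma hasDerivAt_EE (c t : ℝ) :
    HasDerivAt (EE c) (-(I / 2) * ((Real.exp (-t / 2) * c : ℝ) : ℂ) * EE c t) t := by
  have h0 : HasDerivAt (fun t : ℝ => -t / 2) (-1 / 2) t := (hasDerivAt_neg t).div_const 2
  have h1 : HasDerivAt (EE c) (EE c t * (I * ((Real.exp (-t / 2) * (-1 / 2) * c : ℝ) : ℂ))) t :=
    ((h0.exp.mul_const c).ofReal_comp.const_mul I).cexp
  refine h1.congr_deriv ?_
  push_cast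
  ring

lemma norm_AA_le_BB {σ : ℝ} {mu : ℂ} {M r t : ℝ} (hmu : 0 ≤ mu.re) (hM : 0 ≤ M) :
    ‖AA σ mu r t‖ ≤ ‖BB σ mu M r t‖ := by
  have e1 : (AA σ mu r t).re = mu.re := by simp [AA]
  have h1 : (BB σ mu M r t).re = (AA σ mu r t).re + M := by simp [BB]
  have h2 : (BB σ mu M r t).im = (AA σ mu r t).im := by simp [BB]
  rw [Complex.norm_def, Complex.norm_def]
  apply Real.sqrt_le_sqrt
  rw [Complex.normSq_apply, Complex.normSq_apply, h1, h2, e1]
  nlinarith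

lemma M_le_BB {σ : ℝ} {mu : ℂ} {M r t : ℝ} (hmu : 0 ≤ mu.re) :
    M ≤ ‖BB σ mu M r t‖ := by
  have h1 : (BB σ mu M r t).re = mu.re + M := by simp [BB, AA]
  calc M ≤ (BB σ mu M r t).re := by rw [h1]; linarith
    _ ≤ _ := Complex.re_le_norm _

lemma sub_le_AA {σ : ℝ} (hσ : |σ| = 1) {mu : ℂ} {r t : ℝ} :
    ‖mu‖ - ww r t ≤ ‖AA σ mu r t‖ := by
  unfold AA
  have h := norm_sub_le_norm_add mu (I * ((σ * ww r t : ℝ) : ℂ))
  have e : ‖I * ((σ * ww r t : ℝ) : ℂ)‖ = ww r t := by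
    rw [norm_mul, Complex.norm_I, one_mul, Complex.norm_real, Real.norm_eq_abs, abs_mul, hσ, one_mul,
      abs_of_nonneg (ww_nonneg r t)]
  rw [e] at h
  exact h

lemma sub_le_AA' {σ : ℝ} (hσ : |σ| = 1) {mu : ℂ} {r t : ℝ} :
    ww r t - ‖mu‖ ≤ ‖AA σ mu r t‖ := by
  unfold AA
  have h := norm_sub_le_norm_add (I * ((σ * ww r t : ℝ) : ℂ)) mu
  have e : ‖I * ((σ * ww r t : ℝ) : ℂ)‖ = ww r t := by
    rw [norm_mul, Complex.norm_I, one_mul, Complex.norm_real, Real.norm_eq_abs, abs_mul, hσ, one_mul,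
      abs_of_nonneg (ww_nonneg r t)]
  rw [e, add_comm] at h
  exact h

/-- arctan density -/
noncomputable def gg (M s r t : ℝ) : ℝ := ww r t / (M ^ 2 + (s + ww r t) ^ 2)

lemma gg_nonneg (M s r t : ℝ) : 0 ≤ gg M s r t := by
  unfold gg
  exact div_nonneg (ww_nonneg r t) (by positivity)

lemma hasDerivAt_gg {M : ℝ} (hM : 0 < M) (s r t : ℝ) :
    HasDerivAt (fun t => -(1 / M) * Real.arctan ((s + ww r t) / M)) (gg M s r t) t := by
  have h1 : HasDerivAt (fun t => (s + ww r t) / M) ((-ww r t) / M) t :=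
    ((hasDerivAt_ww r t).const_add s).div_const M
  have h2 := h1.arctan.const_mul (-(1 / M))
  refine h2.congr_deriv ?_
  unfold gg
  have : M ^ 2 + (s + ww r t) ^ 2 ≠ 0 := by positivity
  have h3 : 1 + ((s + ww r t) / M) ^ 2 ≠ 0 := by positivity
  field_simp

lemma tendsto_ww (r : ℝ) : Tendsto (ww r) atTop (𝓝 0) := by
  unfold ww
  have h : Tendsto (fun t : ℝ => Real.exp (-t)) atTop (𝓝 0) := Real.tendsto_exp_neg_atTop_nhds_zero
  simpa using h.const_mul (r ^ 2)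

lemma tendsto_gg {M : ℝ} (s r : ℝ) :
    Tendsto (fun t => -(1 / M) * Real.arctan ((s + ww r t) / M)) atTop
      (𝓝 (-(1 / M) * Real.arctan ((s + 0) / M))) := by
  have h1 : Tendsto (fun t => (s + ww r t) / M) atTop (𝓝 ((s + 0) / M)) :=
    ((tendsto_ww r).const_add s).div_const M
  exact ((Real.continuous_arctan.tendsto _).comp h1).const_mul _

lemma int_gg {M : ℝ} (hM : 0 < M) (s r : ℝ) : IntegrableOn (gg M s r) (Ioi 0) :=
  integrableOn_Ioi_deriv_of_nonneg' (fun t _ => hasDerivAt_gg hM s r t)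
    (fun t _ => gg_nonneg M s r t) (tendsto_gg s r)

lemma integral_gg_le {M : ℝ} (hM : 0 < M) (s r : ℝ) :
    ∫ t in Ioi (0 : ℝ), gg M s r t ≤ 4 / M := by
  rw [integral_Ioi_of_hasDerivAt_of_nonneg' (fun t _ => hasDerivAt_gg hM s r t)
    (fun t _ => gg_nonneg M s r t) (tendsto_gg s r)]
  have h1 := Real.arctan_lt_pi_div_two ((s + ww r 0) / M)
  have h2 := Real.neg_pi_div_two_lt_arctan ((s + 0) / M)
  have h3 := Real.pi_lt_four
  have : -(1 / M) * Real.arctan ((s + 0) / M) - -(1 / M) * Real.arctan ((s + ww r 0) / M)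
      = (1 / M) * (Real.arctan ((s + ww r 0) / M) - Real.arctan ((s + 0) / M)) := by ring
  rw [this, div_eq_mul_one_div 4 M, mul_comm 4]
  apply mul_le_mul_of_nonneg_left _ (by positivity)
  linarith

lemma ww_div_BB_le {σ : ℝ} (hσ : |σ| = 1) {mu : ℂ} {M r t : ℝ} (hmu : 0 ≤ mu.re) (hM : 0 < M) :
    ww r t / ‖BB σ mu M r t‖ ^ 2 ≤ gg M (σ * mu.im) r t := by
  unfold gg
  have hs : σ ^ 2 = 1 := by rw [← sq_abs, hσ]; norm_num
  have e : ‖BB σ mu M r t‖ ^ 2 = (mu.re + M) ^ 2 + (mu.im + σ * ww r t) ^ 2 := by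
    rw [Complex.sq_norm, Complex.normSq_apply]
    simp [BB, AA]
    ring
  have e2 : (σ * mu.im + ww r t) ^ 2 = (mu.im + σ * ww r t) ^ 2 := by
    have : (σ * mu.im + ww r t) ^ 2 - (mu.im + σ * ww r t) ^ 2
      = (σ ^ 2 - 1) * (mu.im ^ 2 - (ww r t) ^ 2) := by ring
    rw [hs] at this
    linarith
  rw [e, e2]
  apply div_le_div_of_nonneg_left (ww_nonneg r t) (by positivity)
  have : M ^ 2 ≤ (mu.re + M) ^ 2 := by nlinarith
  linarith

/-- `1/|B| ≤ 3/q³ + g/(2q)`, `q⁴ = |mu|`, `M = q²` -/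
lemma inv_BB_le {σ : ℝ} (hσ : |σ| = 1) {mu : ℂ} {q r t : ℝ} (hmu : 0 ≤ mu.re) (hq : 1 ≤ q)
    (hq4 : q ^ 4 = ‖mu‖) :
    1 / ‖BB σ mu (q ^ 2) r t‖ ≤ 3 / q ^ 3 + gg (q ^ 2) (σ * mu.im) r t / (2 * q) := by
  have hq0 : 0 < q := by linarith
  have hB : 0 < ‖BB σ mu (q ^ 2) r t‖ := lt_of_lt_of_le (by positivity : 0 < q ^ 2) (M_le_BB hmu)
  have hg := gg_nonneg (q ^ 2) (σ * mu.im) r t
  rcases le_or_gt (ww r t) (q ^ 4 / 2) with h | h
  · have h1 : q ^ 4 / 2 ≤ ‖BB σ mu (q ^ 2) r t‖ :=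
      le_trans (by have := sub_le_AA (r := r) (t := t) (mu := mu) hσ; rw [← hq4] at this; linarith)
        (norm_AA_le_BB hmu (by positivity))
    have h2 : 1 / ‖BB σ mu (q ^ 2) r t‖ ≤ 1 / (q ^ 4 / 2) :=
      one_div_le_one_div_of_le (by positivity) h1
    have h3 : 1 / (q ^ 4 / 2) ≤ 3 / q ^ 3 := by
      rw [div_le_div_iff₀ (by positivity) (by positivity)]
      have : q ^ 3 ≤ q ^ 4 := pow_le_pow_right₀ hq (by norm_num)
      have : 0 < q ^ 3 := by positivity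
      nlinarith
    have h4 : 0 ≤ gg (q ^ 2) (σ * mu.im) r t / (2 * q) := by positivity
    linarith
  · have h1 := ww_div_BB_le (r := r) (t := t) hσ hmu (by positivity : 0 < q ^ 2)
    have hw : 0 < ww r t := lt_trans (by positivity) h
    -- AM-GM
    have h2 : 1 / ‖BB σ mu (q ^ 2) r t‖ ≤
        ww r t / ‖BB σ mu (q ^ 2) r t‖ ^ 2 / (2 * q) + q / (2 * ww r t) := by
      have e : ww r t / ‖BB σ mu (q ^ 2) r t‖ ^ 2 / (2 * q) + q / (2 * ww r t)
          - 1 / ‖BB σ mu (q ^ 2) r t‖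
          = (ww r t / ‖BB σ mu (q ^ 2) r t‖ - q) ^ 2 / (2 * q * ww r t) := by
        field_simp
        ring
      have : 0 ≤ (ww r t / ‖BB σ mu (q ^ 2) r t‖ - q) ^ 2 / (2 * q * ww r t) := by positivity
      linarith
    have h3 : q / (2 * ww r t) ≤ 3 / q ^ 3 := by
      rw [div_le_div_iff₀ (by positivity) (by positivity)]
      nlinarith
    have h4 : ww r t / ‖BB σ mu (q ^ 2) r t‖ ^ 2 / (2 * q) ≤ gg (q ^ 2) (σ * mu.im) r t / (2 * q) := by
      apply div_le_div_of_nonneg_right h1 (by positivity)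
    linarith

/-- `√w/|B| ≤ 7/q + q g` -/
lemma sqrt_ww_BB_le {σ : ℝ} (hσ : |σ| = 1) {mu : ℂ} {q r t : ℝ} (hr : 0 ≤ r) (hmu : 0 ≤ mu.re)
    (hq : 1 ≤ q) (hq4 : q ^ 4 = ‖mu‖) :
    r * Real.exp (-t / 2) / ‖BB σ mu (q ^ 2) r t‖ ≤ 7 / q + q * gg (q ^ 2) (σ * mu.im) r t := by
  have hq0 : 0 < q := by linarith
  have hB : 0 < ‖BB σ mu (q ^ 2) r t‖ := lt_of_lt_of_le (by positivity : 0 < q ^ 2) (M_le_BB hmu)
  have hg := gg_nonneg (q ^ 2) (σ * mu.im) r t
  set u := r * Real.exp (-t / 2) with hu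
  have hu0 : 0 ≤ u := by positivity
  have hw : ww r t = u ^ 2 := by
    rw [hu, mul_pow, ← Real.exp_nat_mul]
    unfold ww
    congr 2
    push_cast
    ring
  rcases le_or_gt u (2 * q ^ 2) with h | h
  · have h1 := inv_BB_le (r := r) (t := t) hσ hmu hq hq4
    have h2 : u / ‖BB σ mu (q ^ 2) r t‖ ≤ 2 * q ^ 2 * (1 / ‖BB σ mu (q ^ 2) r t‖) := by
      rw [div_eq_mul_one_div]
      exact mul_le_mul_of_nonneg_right h (by positivity)
    have h3 : 2 * q ^ 2 * (1 / ‖BB σ mu (q ^ 2) r t‖) ≤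
        2 * q ^ 2 * (3 / q ^ 3 + gg (q ^ 2) (σ * mu.im) r t / (2 * q)) :=
      mul_le_mul_of_nonneg_left h1 (by positivity)
    have h4 : 2 * q ^ 2 * (3 / q ^ 3 + gg (q ^ 2) (σ * mu.im) r t / (2 * q))
        = 6 / q + q * gg (q ^ 2) (σ * mu.im) r t := by
      field_simp
      ring
    have h5 : 6 / q ≤ 7 / q := div_le_div_of_nonneg_right (by norm_num) hq0.le
    linarith
  · have h1 : 3 / 4 * u ^ 2 ≤ ‖BB σ mu (q ^ 2) r t‖ := by
      have := sub_le_AA' (r := r) (t := t) (mu := mu) hσ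
      have h2 := norm_AA_le_BB (σ := σ) (mu := mu) (M := q ^ 2) (r := r) (t := t) hmu (by positivity)
      rw [← hq4, hw] at this
      have h3 : 4 * q ^ 4 ≤ u ^ 2 := by nlinarith [sq_nonneg (u - 2 * q ^ 2), sq_nonneg q]
      linarith
    have hupos : 0 < u := lt_trans (by positivity) h
    have h2 : u / ‖BB σ mu (q ^ 2) r t‖ ≤ u / (3 / 4 * u ^ 2) :=
      div_le_div_of_nonneg_left hu0 (by positivity) h1
    have h3 : u / (3 / 4 * u ^ 2) ≤ 7 / q := by
      rw [div_le_div_iff₀ (by positivity) hq0]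
      nlinarith [mul_pos hupos hupos, mul_pos hupos hq0, mul_pos hq0 hq0]
    have h4 : 0 ≤ q * gg (q ^ 2) (σ * mu.im) r t := by positivity
    linarith

/-! ### kernels and integration by parts -/

noncomputable def K1 (σ : ℝ) (mu : ℂ) (M r t : ℝ) : ℂ :=
  -(I / 2) * ((Real.exp (-t / 2) : ℝ) : ℂ) * ph σ mu r t / BB σ mu M r t

noncomputable def K2 (σ : ℝ) (mu : ℂ) (M r t : ℝ) : ℂ :=
  ph σ mu r t * (I * ((σ * ww r t : ℝ) : ℂ) / BB σ mu M r t ^ 2 + (M : ℂ) / BB σ mu M r t)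

lemma BB_ne {σ : ℝ} {mu : ℂ} {M r t : ℝ} (hmu : 0 ≤ mu.re) (hM : 0 < M) : BB σ mu M r t ≠ 0 := by
  have := M_le_BB (σ := σ) (M := M) (r := r) (t := t) hmu
  intro h
  rw [h, norm_zero] at this
  linarith

lemma norm_K1_le {σ : ℝ} (hσ : |σ| = 1) {mu : ℂ} {q r t : ℝ} (hr : 0 ≤ r) (hmu : 0 ≤ mu.re)
    (hq : 1 ≤ q) (hq4 : q ^ 4 = ‖mu‖) :
    ‖K1 σ mu (q ^ 2) r t‖ * r ≤ Real.exp (-mu.re * t) *
      (4 / q + q / 2 * gg (q ^ 2) (σ * mu.im) r t) := by
  have hq0 : 0 < q := by linarith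
  unfold K1
  rw [norm_div, norm_mul, norm_mul, norm_ph, Complex.norm_real, Real.norm_of_nonneg (Real.exp_pos _).le,
    norm_neg, norm_div, Complex.norm_I]
  have h := sqrt_ww_BB_le (t := t) hσ hr hmu hq hq4
  have e : 1 / ‖(2 : ℂ)‖ * Real.exp (-t / 2) * Real.exp (-mu.re * t) / ‖BB σ mu (q ^ 2) r t‖ * r
      = Real.exp (-mu.re * t) * (1 / 2 * (r * Real.exp (-t / 2) / ‖BB σ mu (q ^ 2) r t‖)) := by
    norm_num
    ring
  rw [e]
  apply mul_le_mul_of_nonneg_left _ (Real.exp_pos _).le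
  have h5 : 7 / q / 2 ≤ 4 / q := by
    rw [div_div, div_le_div_iff₀ (by positivity) hq0]
    nlinarith
  linarith

lemma norm_K2_le {σ : ℝ} (hσ : |σ| = 1) {mu : ℂ} {q r t : ℝ} (hmu : 0 ≤ mu.re)
    (hq : 1 ≤ q) (hq4 : q ^ 4 = ‖mu‖) :
    ‖K2 σ mu (q ^ 2) r t‖ ≤ Real.exp (-mu.re * t) *
      (3 / q + 3 * q / 2 * gg (q ^ 2) (σ * mu.im) r t) := by
  have hq0 : 0 < q := by linarith
  have hg := gg_nonneg (q ^ 2) (σ * mu.im) r t
  unfold K2
  rw [norm_mul, norm_ph]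
  apply mul_le_mul_of_nonneg_left _ (Real.exp_pos _).le
  refine le_trans (norm_add_le _ _) ?_
  rw [norm_div, norm_div, norm_mul, Complex.norm_I, one_mul, Complex.norm_real, Complex.norm_real,
    norm_pow, Real.norm_eq_abs, abs_mul, hσ, one_mul, abs_of_nonneg (ww_nonneg r t),
    Real.norm_of_nonneg (by positivity)]
  have h1 := ww_div_BB_le (r := r) (t := t) hσ hmu (by positivity : 0 < q ^ 2)
  have h2 := inv_BB_le (r := r) (t := t) hσ hmu hq hq4
  have h3 : q ^ 2 / ‖BB σ mu (q ^ 2) r t‖ ≤ q ^ 2 * (3 / q ^ 3 + gg (q ^ 2) (σ * mu.im) r t / (2 * q)) := by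
    rw [div_eq_mul_one_div]
    exact mul_le_mul_of_nonneg_left h2 (by positivity)
  have h4 : q ^ 2 * (3 / q ^ 3 + gg (q ^ 2) (σ * mu.im) r t / (2 * q))
      = 3 / q + q / 2 * gg (q ^ 2) (σ * mu.im) r t := by
    field_simp
  have h5 : gg (q ^ 2) (σ * mu.im) r t ≤ q * gg (q ^ 2) (σ * mu.im) r t := by nlinarith
  linarith

lemma int_exp {κ : ℝ} (hκ : 0 < κ) : IntegrableOn (fun t : ℝ => Real.exp (-κ * t)) (Ioi 0) :=
  integrableOn_exp_mul_Ioi (by linarith) 0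

lemma integral_exp {κ : ℝ} (hκ : 0 < κ) : ∫ t in Ioi (0 : ℝ), Real.exp (-κ * t) = 1 / κ := by
  rw [integral_exp_mul_Ioi (by linarith) 0]
  simp

lemma int_env {κ : ℝ} (hκ : 0 < κ) {M : ℝ} (hM : 0 < M) (s r a b : ℝ) :
    IntegrableOn (fun t : ℝ => Real.exp (-κ * t) * (a + b * gg M s r t)) (Ioi 0) := by
  have h1 : IntegrableOn (fun t : ℝ => a * Real.exp (-κ * t)) (Ioi 0) := (int_exp hκ).const_mul a
  have h2 : IntegrableOn (fun t : ℝ => Real.exp (-κ * t) * (b * gg M s r t)) (Ioi 0) := by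
    refine Integrable.bdd_mul (c := 1) ((int_gg hM s r).const_mul b) (Continuous.aestronglyMeasurable (by fun_prop)) ?_
    refine (ae_restrict_mem measurableSet_Ioi).mono fun t ht => ?_
    rw [Real.norm_of_nonneg (Real.exp_pos _).le]
    apply Real.exp_le_one_iff.2
    have : (0 : ℝ) < t := ht
    nlinarith
  refine (h1.add h2).congr (Eventually.of_forall fun t => ?_)
  simp only [Pi.add_apply]
  ring

lemma integral_env_le {κ : ℝ} (hκ : 0 < κ) {M : ℝ} (hM : 0 < M) (s r : ℝ) {a b : ℝ} (hb : 0 ≤ b) :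
    ∫ t in Ioi (0 : ℝ), Real.exp (-κ * t) * (a + b * gg M s r t) ≤ a / κ + b * (4 / M) := by
  have h1 : IntegrableOn (fun t : ℝ => a * Real.exp (-κ * t) + b * gg M s r t) (Ioi 0) :=
    ((int_exp hκ).const_mul a).add ((int_gg hM s r).const_mul b)
  calc _ ≤ ∫ t in Ioi (0 : ℝ), (a * Real.exp (-κ * t) + b * gg M s r t) := by
        apply setIntegral_mono_on (int_env hκ hM s r a b) h1 measurableSet_Ioi
        intro t ht
        have ht0 : (0 : ℝ) < t := ht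
        have h2 : Real.exp (-κ * t) ≤ 1 := Real.exp_le_one_iff.2 (by nlinarith)
        have h3 : 0 ≤ b * gg M s r t := mul_nonneg hb (gg_nonneg M s r t)
        nlinarith
    _ = a * (1 / κ) + b * ∫ t in Ioi (0 : ℝ), gg M s r t := by
        rw [integral_add ((int_exp hκ).const_mul a) ((int_gg hM s r).const_mul b),
          MeasureTheory.integral_const_mul, MeasureTheory.integral_const_mul, integral_exp hκ]
    _ ≤ _ := by
        have := integral_gg_le hM s r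
        have := mul_le_mul_of_nonneg_left this hb
        rw [mul_one_div]
        linarith

lemma cont_ww : Continuous fun p : ℝ × ℝ => ww p.1 p.2 := by unfold ww; fun_prop
lemma cont_ph (σ : ℝ) (mu : ℂ) : Continuous fun p : ℝ × ℝ => ph σ mu p.1 p.2 := by
  unfold ph; fun_prop
lemma cont_BB (σ : ℝ) (mu : ℂ) (M : ℝ) : Continuous fun p : ℝ × ℝ => BB σ mu M p.1 p.2 := by
  have := cont_ww
  unfold BB AA
  fun_prop
lemma cont_K1 (σ : ℝ) {mu : ℂ} {M : ℝ} (hmu : 0 ≤ mu.re) (hM : 0 < M) :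
    Continuous fun p : ℝ × ℝ => K1 σ mu M p.1 p.2 := by
  have h1 := cont_ph σ mu
  have h2 := cont_BB σ mu M
  unfold K1
  refine Continuous.div (by fun_prop) h2 fun p => BB_ne hmu hM
lemma cont_K2 (σ : ℝ) {mu : ℂ} {M : ℝ} (hmu : 0 ≤ mu.re) (hM : 0 < M) :
    Continuous fun p : ℝ × ℝ => K2 σ mu M p.1 p.2 := by
  have h1 := cont_ph σ mu
  have h2 := cont_BB σ mu M
  have h3 := cont_ww
  unfold K2
  refine h1.mul ((Continuous.div (by fun_prop) (h2.pow 2) fun p => pow_ne_zero 2 (BB_ne hmu hM)).add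
    (Continuous.div (by fun_prop) h2 fun p => BB_ne hmu hM))

section
variable {σ : ℝ} (hσ : |σ| = 1) {mu : ℂ} {q r : ℝ} (hmu : 0 < mu.re) (hq : 1 ≤ q)
  (hq4 : q ^ 4 = ‖mu‖)
include hσ hmu hq hq4

lemma int_K2 : IntegrableOn (fun t => K2 σ mu (q ^ 2) r t) (Ioi 0) := by
  have hq0 : 0 < q := by linarith
  have hc : Continuous fun t : ℝ => K2 σ mu (q ^ 2) r t :=
    (cont_K2 σ hmu.le (by positivity)).comp (by fun_prop : Continuous fun t : ℝ => (r, t))
  refine Integrable.mono' (int_env hmu (M := q ^ 2) (by positivity) (σ * mu.im) r (3 / q) (3 * q / 2))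
    hc.aestronglyMeasurable ?_
  exact Eventually.of_forall fun t => norm_K2_le hσ hmu.le hq hq4

lemma int_K1 (hr : 0 ≤ r) : IntegrableOn (fun t => K1 σ mu (q ^ 2) r t * (r : ℂ)) (Ioi 0) := by
  have hq0 : 0 < q := by linarith
  have hc : Continuous fun t : ℝ => K1 σ mu (q ^ 2) r t * (r : ℂ) :=
    ((cont_K1 σ hmu.le (by positivity)).comp (by fun_prop : Continuous fun t : ℝ => (r, t))).mul
      continuous_const
  refine Integrable.mono' (int_env hmu (M := q ^ 2) (by positivity) (σ * mu.im) r (4 / q) (q / 2))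
    hc.aestronglyMeasurable ?_
  refine Eventually.of_forall fun t => ?_
  rw [norm_mul, Complex.norm_real, Real.norm_of_nonneg hr]
  exact norm_K1_le hσ hr hmu.le hq hq4

lemma integral_K2_le {nu : ℝ} (hnu : 1 ≤ nu * mu.re) :
    ∫ t in Ioi (0 : ℝ), ‖K2 σ mu (q ^ 2) r t‖ ≤ (3 * nu + 6) / q := by
  have hq0 : 0 < q := by linarith
  calc _ ≤ ∫ t in Ioi (0 : ℝ), Real.exp (-mu.re * t) *
        (3 / q + 3 * q / 2 * gg (q ^ 2) (σ * mu.im) r t) :=
        setIntegral_mono_on (int_K2 hσ hmu hq hq4).norm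
          (int_env hmu (M := q ^ 2) (by positivity) (σ * mu.im) r (3 / q) (3 * q / 2)) measurableSet_Ioi
          fun t _ => norm_K2_le hσ hmu.le hq hq4
    _ ≤ 3 / q / mu.re + 3 * q / 2 * (4 / q ^ 2) :=
        integral_env_le hmu (by positivity) _ _ (by positivity)
    _ ≤ _ := by
        have h1 : 1 / mu.re ≤ nu := by
          rw [div_le_iff₀ hmu]; exact hnu
        have h2 : 3 / q / mu.re = 3 / q * (1 / mu.re) := by ring
        have h3 : 3 / q * (1 / mu.re) ≤ 3 / q * nu := mul_le_mul_of_nonneg_left h1 (by positivity)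
        have h4 : 3 * q / 2 * (4 / q ^ 2) = 6 / q := by field_simp; norm_num
        rw [h2, h4]
        calc _ ≤ 3 / q * nu + 6 / q := by linarith
          _ = _ := by ring

lemma integral_K1_le (hr : 0 ≤ r) {nu : ℝ} (hnu : 1 ≤ nu * mu.re) :
    ∫ t in Ioi (0 : ℝ), ‖K1 σ mu (q ^ 2) r t‖ * r ≤ (4 * nu + 2) / q := by
  have hq0 : 0 < q := by linarith
  have hi : IntegrableOn (fun t => ‖K1 σ mu (q ^ 2) r t‖ * r) (Ioi 0) := by
    refine (int_K1 hσ hmu hq hq4 hr).norm.congr (Eventually.of_forall fun t => ?_)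
    simp only
    rw [norm_mul, Complex.norm_real, Real.norm_of_nonneg hr]
  calc _ ≤ ∫ t in Ioi (0 : ℝ), Real.exp (-mu.re * t) *
        (4 / q + q / 2 * gg (q ^ 2) (σ * mu.im) r t) :=
        setIntegral_mono_on hi
          (int_env hmu (M := q ^ 2) (by positivity) (σ * mu.im) r (4 / q) (q / 2)) measurableSet_Ioi
          fun t _ => norm_K1_le hσ hr hmu.le hq hq4
    _ ≤ 4 / q / mu.re + q / 2 * (4 / q ^ 2) :=
        integral_env_le hmu (by positivity) _ _ (by positivity)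
    _ ≤ _ := by
        have h1 : 1 / mu.re ≤ nu := by
          rw [div_le_iff₀ hmu]; exact hnu
        have h2 : 4 / q / mu.re = 4 / q * (1 / mu.re) := by ring
        have h3 : 4 / q * (1 / mu.re) ≤ 4 / q * nu := mul_le_mul_of_nonneg_left h1 (by positivity)
        have h4 : q / 2 * (4 / q ^ 2) = 2 / q := by field_simp; norm_num
        rw [h2, h4]
        calc _ ≤ 4 / q * nu + 2 / q := by linarith
          _ = _ := by ring

end

lemma cont_ph1 (σ : ℝ) (mu : ℂ) (r : ℝ) : Continuous (ph σ mu r) := by unfold ph; fun_prop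
lemma cont_EE (c : ℝ) : Continuous (EE c) := by unfold EE; fun_prop
lemma cont_BB1 (σ : ℝ) (mu : ℂ) (M r : ℝ) : Continuous (BB σ mu M r) := by
  unfold BB AA ww
  fun_prop

lemma int_phEE (σ : ℝ) {mu : ℂ} (r c : ℝ) (hmu : 0 < mu.re) :
    IntegrableOn (fun t => ph σ mu r t * EE c t) (Ioi 0) := by
  refine Integrable.mono' (int_exp hmu) ((cont_ph1 σ mu r).mul (cont_EE c)).aestronglyMeasurable
    (Eventually.of_forall fun t => ?_)
  rw [norm_mul, norm_ph, norm_EE, mul_one]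

lemma hasDerivAt_Psi (σ : ℝ) {mu : ℂ} {M : ℝ} (r c t : ℝ) (hmu : 0 ≤ mu.re) (hM : 0 < M) :
    HasDerivAt (fun t => -(ph σ mu r t * EE c t / BB σ mu M r t))
      (ph σ mu r t * EE c t - (K1 σ mu M r t * (c : ℂ) * EE c t + K2 σ mu M r t * EE c t)) t := by
  have hB : BB σ mu M r t ≠ 0 := BB_ne hmu hM
  have h := (((hasDerivAt_ph σ mu r t).mul (hasDerivAt_EE c t)).div (hasDerivAt_BB σ mu M r t) hB).neg
  refine h.congr_deriv ?_
  have hA : AA σ mu r t = BB σ mu M r t - M := by unfold BB; ring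
  unfold K1 K2
  rw [hA]
  simp only [Pi.mul_apply]
  generalize BB σ mu M r t = B at *
  generalize ph σ mu r t = p at *
  generalize EE c t = e at *
  push_cast
  field_simp
  ring

/-- INTEGRATION BY PARTS -/
lemma ibp {σ : ℝ} (hσ : |σ| = 1) {mu : ℂ} {q r : ℝ} (hmu : 0 < mu.re) (hq : 1 ≤ q)
    (hq4 : q ^ 4 = ‖mu‖) (hr : 0 ≤ r) {c C : ℝ} (hc : |c| ≤ r * C) :
    ∫ t in Ioi (0 : ℝ), ph σ mu r t * EE c t =
      EE c 0 / BB σ mu (q ^ 2) r 0 +
      ∫ t in Ioi (0 : ℝ), (K1 σ mu (q ^ 2) r t * (c : ℂ) * EE c t + K2 σ mu (q ^ 2) r t * EE c t) := by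
  have hq0 : 0 < q := by linarith
  have hM : 0 < q ^ 2 := by positivity
  have i1 : IntegrableOn (fun t => K1 σ mu (q ^ 2) r t * (c : ℂ) * EE c t) (Ioi 0) := by
    have hcont : Continuous fun t : ℝ => K1 σ mu (q ^ 2) r t * (c : ℂ) * EE c t :=
      (((cont_K1 σ hmu.le hM).comp (by fun_prop : Continuous fun t : ℝ => (r, t))).mul
        continuous_const).mul (cont_EE c)
    refine Integrable.mono' ((int_K1 hσ hmu hq hq4 hr).norm.mul_const C) hcont.aestronglyMeasurable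
      (Eventually.of_forall fun t => ?_)
    rw [norm_mul, norm_mul, norm_EE, mul_one, norm_mul, Complex.norm_real, Complex.norm_real,
      Real.norm_of_nonneg hr, Real.norm_eq_abs, mul_assoc]
    exact mul_le_mul_of_nonneg_left hc (norm_nonneg _)
  have i2 : IntegrableOn (fun t => K2 σ mu (q ^ 2) r t * EE c t) (Ioi 0) := by
    have hcont : Continuous fun t : ℝ => K2 σ mu (q ^ 2) r t * EE c t :=
      ((cont_K2 σ hmu.le hM).comp (by fun_prop : Continuous fun t : ℝ => (r, t))).mul (cont_EE c)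
    refine Integrable.mono' (int_K2 (r := r) hσ hmu hq hq4).norm hcont.aestronglyMeasurable
      (Eventually.of_forall fun t => ?_)
    rw [norm_mul, norm_EE, mul_one]
  have i3 := int_phEE σ r c hmu
  have ht : Tendsto (fun t => -(ph σ mu r t * EE c t / BB σ mu (q ^ 2) r t)) atTop (𝓝 0) := by
    have h0 : Tendsto (fun t : ℝ => Real.exp (-mu.re * t) * (1 / q ^ 2)) atTop (𝓝 (0 * (1 / q ^ 2))) := by
      refine Tendsto.mul_const _ ?_
      refine Real.tendsto_exp_atBot.comp ?_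
      exact tendsto_id.const_mul_atTop_of_neg (by linarith)
    rw [zero_mul] at h0
    refine squeeze_zero_norm (fun t => ?_) h0
    rw [norm_neg, norm_div, norm_mul, norm_ph, norm_EE, mul_one, div_eq_mul_one_div]
    exact mul_le_mul_of_nonneg_left (one_div_le_one_div_of_le hM (M_le_BB hmu.le)) (Real.exp_pos _).le
  have h := integral_Ioi_of_hasDerivAt_of_tendsto' (a := 0)
    (fun t _ => hasDerivAt_Psi σ r c t hmu.le hM) (i3.sub (i1.add i2)) ht
  have e := integral_sub i3 (i1.add i2)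
  simp only [Pi.add_apply] at e
  rw [e] at h
  have hp : ph σ mu r 0 = 1 := by
    unfold ph
    simp
  rw [hp, one_mul] at h
  have := sub_eq_iff_eq_add.1 h
  rw [this]
  ring

/-! ### superposition of translates -/

lemma superpose {Ω : Type*} [MeasurableSpace Ω] (ν : Measure Ω) [SFinite ν] {m : Ω → ℂ}
    (hm : Integrable m ν) {τ : Ω → R12} (hτ : Measurable τ) {w : R12 → ℂ} (hw : Integrable w) :
    ∃ c : R12 → ℂ, Integrable c ∧
      (∀ y, ∫ o, m o * (exp (I * ((inner ℝ (τ o) y : ℝ) : ℂ)) * ft w y) ∂ν = ft c y) ∧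
      ∫ ξ, ‖c ξ‖ ≤ (∫ o, ‖m o‖ ∂ν) * ∫ ξ, ‖w ξ‖ := by
  have hmp : MeasurePreserving (fun p : Ω × R12 => (p.1, p.2 - τ p.1))
      (ν.prod (volume : Measure R12)) (ν.prod (volume : Measure R12)) := by
    refine MeasurePreserving.skew_product (f := fun o : Ω => o) (g := fun (o : Ω) (ξ : R12) => ξ - τ o)
      (MeasurePreserving.id ν) ?_ ?_
    · exact measurable_snd.sub (hτ.comp measurable_fst)
    · exact Eventually.of_forall fun o => (measurePreserving_sub_right volume (τ o)).map_eq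
  have hF0 : Integrable (fun p : Ω × R12 => m p.1 * w p.2) (ν.prod volume) := hm.mul_prod hw
  have hF : Integrable (fun p : Ω × R12 => m p.1 * w (p.2 - τ p.1)) (ν.prod volume) :=
    hmp.integrable_comp_of_integrable hF0
  refine ⟨fun ξ => ∫ o, m o * w (ξ - τ o) ∂ν, hF.integral_prod_right, fun y => ?_, ?_⟩
  · unfold ft
    have hG : Integrable (fun p : Ω × R12 => exp (I * ((inner ℝ p.2 y : ℝ) : ℂ)) *
        (m p.1 * w (p.2 - τ p.1))) (ν.prod volume) := by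
      have hms : Measurable (fun p : Ω × R12 => exp (I * ((inner ℝ p.2 y : ℝ) : ℂ))) :=
        (Continuous.measurable (by fun_prop :
          Continuous fun ξ : R12 => exp (I * ((inner ℝ ξ y : ℝ) : ℂ)))).comp measurable_snd
      refine hF.bdd_mul (c := 1) hms.aestronglyMeasurable ?_
      refine Eventually.of_forall fun p => ?_
      rw [Complex.norm_exp]
      simp
    have h1 := integral_integral_swap (f := fun (o : Ω) (ξ : R12) =>
      exp (I * ((inner ℝ ξ y : ℝ) : ℂ)) * (m o * w (ξ - τ o))) hG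
    calc _ = ∫ o, (∫ ξ : R12, exp (I * ((inner ℝ ξ y : ℝ) : ℂ)) * (m o * w (ξ - τ o))) ∂ν := by
          refine integral_congr_ae (Eventually.of_forall fun o => ?_)
          simp only
          rw [← MeasureTheory.integral_const_mul, ← MeasureTheory.integral_const_mul,
            ← integral_sub_right_eq_self _ (τ o)]
          refine integral_congr_ae (Eventually.of_forall fun ξ => ?_)
          simp only [inner_sub_left]
          have : exp (I * ((inner ℝ ξ y : ℝ) : ℂ)) = exp (I * ((inner ℝ (τ o) y : ℝ) : ℂ)) *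
              exp (I * ((inner ℝ ξ y - inner ℝ (τ o) y : ℝ) : ℂ)) := by
            rw [← Complex.exp_add]
            congr 1
            push_cast
            ring
          rw [this]
          ring
      _ = ∫ ξ : R12, (∫ o, exp (I * ((inner ℝ ξ y : ℝ) : ℂ)) * (m o * w (ξ - τ o)) ∂ν) := h1
      _ = _ := by
          refine integral_congr_ae (Eventually.of_forall fun ξ => ?_)
          simp only
          rw [MeasureTheory.integral_const_mul]
  · calc ∫ ξ : R12, ‖∫ o, m o * w (ξ - τ o) ∂ν‖ ≤ ∫ ξ : R12, (∫ o, ‖m o * w (ξ - τ o)‖ ∂ν) := by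
          refine integral_mono_ae hF.integral_prod_right.norm hF.norm.integral_prod_right ?_
          exact Eventually.of_forall fun ξ => norm_integral_le_integral_norm _
      _ = ∫ o, (∫ ξ : R12, ‖m o * w (ξ - τ o)‖) ∂ν := by
          exact (integral_integral_swap (f := fun (o : Ω) (ξ : R12) => ‖m o * w (ξ - τ o)‖) hF.norm).symm
      _ = ∫ o, (‖m o‖ * ∫ ξ : R12, ‖w ξ‖) ∂ν := by
          refine integral_congr_ae (Eventually.of_forall fun o => ?_)
          simp only [norm_mul]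
          rw [MeasureTheory.integral_const_mul, integral_sub_right_eq_self (fun ξ => ‖w ξ‖) (τ o)]
      _ = _ := by rw [MeasureTheory.integral_mul_const]
      _ ≤ _ := le_rfl

/-! ### the smallness estimate for `V R(mu)` -/

/-- time representation of `f = R(mu) h`, `b` the density of `h` -/
def RepT (σ : ℝ) (mu : ℂ) (b f : R12 → ℂ) : Prop :=
  ∀ y : R12, f y = ∫ η : R12, b η * ∫ t in Ioi (0 : ℝ), ph σ mu ‖η‖ t * EE (inner ℝ η y) t

/-- the measure `dη dt` on `R12 × (0,∞)` -/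
noncomputable abbrev nn : Measure (R12 × ℝ) := (volume : Measure R12).prod (volume.restrict (Ioi 0))

lemma prod_bound {b : R12 → ℂ} (hb : Integrable b) {K : R12 → ℝ → ℂ}
    (hK : Continuous fun p : R12 × ℝ => K p.1 p.2) (hi : ∀ η, IntegrableOn (K η) (Ioi 0)) {β : ℝ}
    (hβ : ∀ η, ∫ t in Ioi (0 : ℝ), ‖K η t‖ ≤ β) :
    Integrable (fun p : R12 × ℝ => b p.1 * K p.1 p.2) nn ∧
      ∫ p, ‖b p.1 * K p.1 p.2‖ ∂nn ≤ β * ∫ η, ‖b η‖ := by
  have hm : AEStronglyMeasurable (fun p : R12 × ℝ => b p.1 * K p.1 p.2) nn :=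
    hb.1.comp_fst.mul hK.aestronglyMeasurable
  have e : ∀ η, ∫ t in Ioi (0 : ℝ), ‖b η * K η t‖ = ‖b η‖ * ∫ t in Ioi (0 : ℝ), ‖K η t‖ := by
    intro η
    simp only [norm_mul]
    rw [MeasureTheory.integral_const_mul]
  have h2 : Integrable (fun η => ∫ t in Ioi (0 : ℝ), ‖b η * K η t‖) := by
    refine Integrable.mono' (hb.norm.const_mul β) hm.norm.integral_prod_right' ?_
    refine Eventually.of_forall fun η => ?_
    rw [e, Real.norm_of_nonneg (mul_nonneg (norm_nonneg _) (integral_nonneg fun _ => norm_nonneg _)),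
      mul_comm β]
    exact mul_le_mul_of_nonneg_left (hβ η) (norm_nonneg _)
  have hI : Integrable (fun p : R12 × ℝ => b p.1 * K p.1 p.2) nn := by
    rw [integrable_prod_iff hm]
    exact ⟨Eventually.of_forall fun η => (hi η).const_mul (b η), h2⟩
  refine ⟨hI, ?_⟩
  rw [integral_prod _ hI.norm, ← MeasureTheory.integral_const_mul]
  refine integral_mono_ae h2 (hb.norm.const_mul β) (Eventually.of_forall fun η => ?_)
  simp only
  rw [e, mul_comm β]
  exact mul_le_mul_of_nonneg_left (hβ η) (norm_nonneg _)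

lemma abs_inner_le (η y : R12) : |inner ℝ η y| ≤ ‖η‖ * ‖y‖ := abs_real_inner_le_norm η y

section
variable {σ : ℝ} (hσ : |σ| = 1) {mu : ℂ} {q nu : ℝ} (hmu : 0 < mu.re) (hq : 1 ≤ q)
  (hq4 : q ^ 4 = ‖mu‖) (hnu : 1 ≤ nu * mu.re) {b : R12 → ℂ} (hb : Integrable b)
include hσ hmu hq hq4 hnu hb

omit hσ hq4 hnu in
lemma T0 {v : R12 → ℂ} (hv : Integrable v) : ∃ c : R12 → ℂ, Integrable c ∧
      (∀ y : R12, ∫ η : R12, (BB σ mu (q ^ 2) ‖η‖ 0)⁻¹ * b η *
        (exp (I * ((inner ℝ η y : ℝ) : ℂ)) * ft v y) = ft c y) ∧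
      ∫ ξ, ‖c ξ‖ ≤ (1 / q ^ 2 * ∫ η, ‖b η‖) * ∫ ξ, ‖v ξ‖ := by
  have hq0 : 0 < q := by linarith
  have hM : 0 < q ^ 2 := by positivity
  have cB0 : Continuous fun η : R12 => BB σ mu (q ^ 2) ‖η‖ 0 := by
    have h := cont_BB σ mu (q ^ 2)
    fun_prop
  have B0ne : ∀ η : R12, BB σ mu (q ^ 2) ‖η‖ 0 ≠ 0 := fun η => BB_ne hmu.le hM
  have hm0 : Integrable (fun η : R12 => (BB σ mu (q ^ 2) ‖η‖ 0)⁻¹ * b η) := by
    refine hb.bdd_mul (c := 1 / q ^ 2) (cB0.inv₀ B0ne).aestronglyMeasurable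
      (Eventually.of_forall fun η => ?_)
    rw [norm_inv, ← one_div]
    exact one_div_le_one_div_of_le hM (M_le_BB hmu.le)
  have hm0' : ∫ η : R12, ‖(BB σ mu (q ^ 2) ‖η‖ 0)⁻¹ * b η‖ ≤ 1 / q ^ 2 * ∫ η, ‖b η‖ := by
    rw [← MeasureTheory.integral_const_mul]
    refine integral_mono_ae hm0.norm (hb.norm.const_mul _) (Eventually.of_forall fun η => ?_)
    simp only
    rw [norm_mul, norm_inv, ← one_div]
    exact mul_le_mul_of_nonneg_right (one_div_le_one_div_of_le hM (M_le_BB hmu.le)) (norm_nonneg _)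
  obtain ⟨c0, ic0, fc0, nc0⟩ := superpose volume hm0 measurable_id hv
  exact ⟨c0, ic0, fc0, nc0.trans (mul_le_mul_of_nonneg_right hm0' (integral_nonneg fun _ => norm_nonneg _))⟩

omit hσ hmu hq hq4 hnu hb in
lemma measurable_tau : Measurable fun p : R12 × ℝ => Real.exp (-p.2 / 2) • p.1 :=
  Continuous.measurable (by fun_prop)

lemma T2 {v : R12 → ℂ} (hv : Integrable v) :
    Integrable (fun p : R12 × ℝ => b p.1 * K2 σ mu (q ^ 2) ‖p.1‖ p.2) nn ∧
    ∃ c : R12 → ℂ, Integrable c ∧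
      (∀ y : R12, ∫ p, b p.1 * K2 σ mu (q ^ 2) ‖p.1‖ p.2 *
        (exp (I * ((inner ℝ (Real.exp (-p.2 / 2) • p.1) y : ℝ) : ℂ)) * ft v y) ∂nn = ft c y) ∧
      ∫ ξ, ‖c ξ‖ ≤ ((3 * nu + 6) / q * ∫ η, ‖b η‖) * ∫ ξ, ‖v ξ‖ := by
  have hq0 : 0 < q := by linarith
  have hM : 0 < q ^ 2 := by positivity
  have hc : Continuous fun p : R12 × ℝ => K2 σ mu (q ^ 2) ‖p.1‖ p.2 := by
    have h := cont_K2 σ hmu.le hM
    fun_prop
  have hK2 := prod_bound hb (K := fun η t => K2 σ mu (q ^ 2) ‖η‖ t) hc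
    (fun η => int_K2 hσ hmu hq hq4) (fun η => integral_K2_le hσ hmu hq hq4 hnu)
  obtain ⟨c2, ic2, fc2, nc2⟩ := superpose nn hK2.1 measurable_tau hv
  exact ⟨hK2.1, c2, ic2, fc2, nc2.trans (mul_le_mul_of_nonneg_right hK2.2
    (integral_nonneg fun _ => norm_nonneg _))⟩

lemma T1 {v : R12 → ℂ} (hv : Integrable v) (i : Fin 12) :
    Integrable (fun p : R12 × ℝ => b p.1 * (K1 σ mu (q ^ 2) ‖p.1‖ p.2 * ((p.1 i : ℝ) : ℂ))) nn ∧
    ∃ c : R12 → ℂ, Integrable c ∧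
      (∀ y : R12, ∫ p, b p.1 * (K1 σ mu (q ^ 2) ‖p.1‖ p.2 * ((p.1 i : ℝ) : ℂ)) *
        (exp (I * ((inner ℝ (Real.exp (-p.2 / 2) • p.1) y : ℝ) : ℂ)) * ft v y) ∂nn = ft c y) ∧
      ∫ ξ, ‖c ξ‖ ≤ ((4 * nu + 2) / q * ∫ η, ‖b η‖) * ∫ ξ, ‖v ξ‖ := by
  have hq0 : 0 < q := by linarith
  have hM : 0 < q ^ 2 := by positivity
  have hle : ∀ (η : R12) (t : ℝ), ‖K1 σ mu (q ^ 2) ‖η‖ t * ((η i : ℝ) : ℂ)‖ ≤
      ‖K1 σ mu (q ^ 2) ‖η‖ t‖ * ‖η‖ := by
    intro η t
    rw [norm_mul, Complex.norm_real]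
    exact mul_le_mul_of_nonneg_left (PiLp.norm_apply_le η i) (norm_nonneg _)
  have hc1 : Continuous fun p : R12 × ℝ => K1 σ mu (q ^ 2) ‖p.1‖ p.2 := by
    have h := cont_K1 σ hmu.le hM
    fun_prop
  have hc2 : Continuous fun p : R12 × ℝ => K1 σ mu (q ^ 2) ‖p.1‖ p.2 * ((p.1 i : ℝ) : ℂ) := by
    fun_prop
  have hint : ∀ η : R12, IntegrableOn (fun t => ‖K1 σ mu (q ^ 2) ‖η‖ t‖ * ‖η‖) (Ioi 0) := by
    intro η
    refine (int_K1 hσ hmu hq hq4 (norm_nonneg η)).norm.congr (Eventually.of_forall fun t => ?_)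
    simp only
    rw [norm_mul, Complex.norm_real, norm_norm]
  have hint2 : ∀ η : R12, IntegrableOn (fun t => K1 σ mu (q ^ 2) ‖η‖ t * ((η i : ℝ) : ℂ)) (Ioi 0) := by
    intro η
    have hc3 : Continuous fun t : ℝ => K1 σ mu (q ^ 2) ‖η‖ t * ((η i : ℝ) : ℂ) := by
      have h := cont_K1 σ hmu.le hM
      fun_prop
    exact Integrable.mono' (hint η) hc3.aestronglyMeasurable (Eventually.of_forall fun t => hle η t)
  have hK1 := prod_bound hb (K := fun η t => K1 σ mu (q ^ 2) ‖η‖ t * ((η i : ℝ) : ℂ)) hc2 hint2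
    (β := (4 * nu + 2) / q) (fun η => le_trans
      (setIntegral_mono_on (hint2 η).norm (hint η) measurableSet_Ioi fun t _ => hle η t)
      (integral_K1_le hσ hmu hq hq4 (norm_nonneg η) hnu))
  obtain ⟨c2, ic2, fc2, nc2⟩ := superpose nn hK1.1 measurable_tau hv
  exact ⟨hK1.1, c2, ic2, fc2, nc2.trans (mul_le_mul_of_nonneg_right hK1.2
    (integral_nonneg fun _ => norm_nonneg _))⟩

end

lemma int_ch {a : R12 → ℂ} (ha : Integrable a) (y : R12) :
    Integrable (fun ξ : R12 => exp (I * ((inner ℝ ξ y : ℝ) : ℂ)) * a ξ) := by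
  refine ha.bdd_mul (c := 1) (Continuous.aestronglyMeasurable (by fun_prop))
    (Eventually.of_forall fun ξ => ?_)
  rw [Complex.norm_exp]
  simp

lemma ft_add' {a b : R12 → ℂ} (ha : Integrable a) (hb : Integrable b) (y : R12) :
    ft (fun ξ => a ξ + b ξ) y = ft a y + ft b y := by
  unfold ft
  rw [← integral_add (int_ch ha y) (int_ch hb y)]
  refine integral_congr_ae (Eventually.of_forall fun ξ => ?_)
  simp only
  ring

lemma ft_const_mul' (k : ℂ) (a : R12 → ℂ) (y : R12) :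
    ft (fun ξ => k * a ξ) y = k * ft a y := by
  unfold ft
  rw [← MeasureTheory.integral_const_mul]
  refine integral_congr_ae (Eventually.of_forall fun ξ => ?_)
  simp only
  ring

lemma ft_sum' {ι : Type*} (s : Finset ι) {a : ι → R12 → ℂ} (ha : ∀ i ∈ s, Integrable (a i)) (y : R12) :
    ft (fun ξ => ∑ i ∈ s, a i ξ) y = ∑ i ∈ s, ft (a i) y := by
  unfold ft
  rw [← integral_finsetSum s (fun i hi => int_ch (ha i hi) y)]
  refine integral_congr_ae (Eventually.of_forall fun ξ => ?_)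
  simp only
  rw [Finset.mul_sum]

lemma int_bdd_exp {m : R12 × ℝ → ℂ} (hm : Integrable m nn) (y : R12) (k : ℂ) :
    Integrable (fun p : R12 × ℝ => m p *
      (exp (I * ((inner ℝ (Real.exp (-p.2 / 2) • p.1) y : ℝ) : ℂ)) * k)) nn := by
  have h1 : Integrable (fun p : R12 × ℝ =>
      exp (I * ((inner ℝ (Real.exp (-p.2 / 2) • p.1) y : ℝ) : ℂ)) * m p) nn := by
    refine hm.bdd_mul (c := 1) (Continuous.aestronglyMeasurable (by fun_prop))
      (Eventually.of_forall fun p => ?_)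
    rw [Complex.norm_exp]
    simp
  refine (h1.mul_const k).congr (Eventually.of_forall fun p => ?_)
  simp only
  ring

/-- pointwise (in `η`) identity -/
lemma est_id {σ : ℝ} (hσ : |σ| = 1) {mu : ℂ} {q : ℝ} (hmu : 0 < mu.re) (hq : 1 ≤ q)
    (hq4 : q ^ 4 = ‖mu‖) (β V : ℂ) (W : Fin 12 → ℂ) (η y : R12)
    (hW : ∀ i, ((y i : ℝ) : ℂ) * V = W i) :
    V * (β * ∫ t in Ioi (0 : ℝ), ph σ mu ‖η‖ t * EE (inner ℝ η y) t) =
      (BB σ mu (q ^ 2) ‖η‖ 0)⁻¹ * β * (exp (I * ((inner ℝ η y : ℝ) : ℂ)) * V) +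
      ∫ t in Ioi (0 : ℝ), ((∑ i, β * (K1 σ mu (q ^ 2) ‖η‖ t * ((η i : ℝ) : ℂ)) *
          (exp (I * ((inner ℝ (Real.exp (-t / 2) • η) y : ℝ) : ℂ)) * W i)) +
        β * K2 σ mu (q ^ 2) ‖η‖ t * (exp (I * ((inner ℝ (Real.exp (-t / 2) • η) y : ℝ) : ℂ)) * V)) := by
  rw [ibp hσ hmu hq hq4 (norm_nonneg η) (abs_inner_le η y)]
  have e0 : EE (inner ℝ η y) 0 = exp (I * ((inner ℝ η y : ℝ) : ℂ)) := by
    unfold EE
    simp
  have e1 : ∀ t : ℝ, exp (I * ((inner ℝ (Real.exp (-t / 2) • η) y : ℝ) : ℂ)) = EE (inner ℝ η y) t := by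
    intro t
    unfold EE
    rw [real_inner_smul_left]
  have e2 : ((inner ℝ η y : ℝ) : ℂ) = ∑ i, ((η i : ℝ) : ℂ) * ((y i : ℝ) : ℂ) := by
    rw [PiLp.inner_apply]
    push_cast
    refine Finset.sum_congr rfl fun i _ => ?_
    simp [mul_comm]
  rw [e0, mul_add, mul_add, ← MeasureTheory.integral_const_mul, ← MeasureTheory.integral_const_mul]
  congr 1
  · ring
  · refine integral_congr_ae (Eventually.of_forall fun t => ?_)
    simp only [e1]
    rw [mul_add, mul_add]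
    congr 1
    · rw [e2]
      simp only [← hW]
      rw [Finset.mul_sum, Finset.sum_mul, Finset.mul_sum, Finset.mul_sum]
      refine Finset.sum_congr rfl fun i _ => ?_
      ring
    · ring

theorem est {σ : ℝ} (hσ : |σ| = 1) {mu : ℂ} {q nu : ℝ} (hmu : 0 < mu.re) (hq : 1 ≤ q)
    (hq4 : q ^ 4 = ‖mu‖) (hnu : 1 ≤ nu * mu.re) {b f : R12 → ℂ} (hb : Integrable b)
    (hf : RepT σ mu b f) {V v : R12 → ℂ} {w : Fin 12 → R12 → ℂ} (hv : Integrable v)
    (hw : ∀ i, Integrable (w i)) (hV : ∀ y, V y = ft v y)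
    (hW : ∀ i, ∀ y : R12, ((y i : ℝ) : ℂ) * V y = ft (w i) y) :
    ∃ c : R12 → ℂ, Integrable c ∧ (∀ y, V y * f y = ft c y) ∧
      ∫ ξ, ‖c ξ‖ ≤ (∫ ξ, ‖b ξ‖) * ((1 / q ^ 2 + (3 * nu + 6) / q) * (∫ ξ, ‖v ξ‖) +
        (4 * nu + 2) / q * ∑ i, ∫ ξ, ‖w i ξ‖) := by
  obtain ⟨c0, ic0, fc0, nc0⟩ := T0 (σ := σ) hmu hq hb hv
  obtain ⟨i2, c2, ic2, fc2, nc2⟩ := T2 hσ hmu hq hq4 hnu hb hv
  have hT1 := fun i => T1 hσ hmu hq hq4 hnu hb (hw i) i
  have i1 := fun i => (hT1 i).1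
  choose c1 ic1 fc1 nc1 using fun i => (hT1 i).2
  have isum : Integrable (fun ξ => ∑ i, c1 i ξ) := integrable_finsetSum _ fun i _ => ic1 i
  have i12 : Integrable (fun ξ => ∑ i, c1 i ξ + c2 ξ) := isum.add ic2
  have i012 : Integrable (fun ξ => c0 ξ + (∑ i, c1 i ξ + c2 ξ)) := ic0.add i12
  refine ⟨fun ξ => c0 ξ + (∑ i, c1 i ξ + c2 ξ), i012, fun y => ?_, ?_⟩
  · rw [ft_add' ic0 i12, ft_add' isum ic2, ft_sum' _ (fun i _ => ic1 i), ← fc0 y, ← fc2 y]
    simp only [← fc1 _ y]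
    have j1 : ∀ i, Integrable (fun p : R12 × ℝ => b p.1 * (K1 σ mu (q ^ 2) ‖p.1‖ p.2 * ((p.1 i : ℝ) : ℂ)) *
        (exp (I * ((inner ℝ (Real.exp (-p.2 / 2) • p.1) y : ℝ) : ℂ)) * ft (w i) y)) nn :=
      fun i => int_bdd_exp (i1 i) y _
    have j2 : Integrable (fun p : R12 × ℝ => b p.1 * K2 σ mu (q ^ 2) ‖p.1‖ p.2 *
        (exp (I * ((inner ℝ (Real.exp (-p.2 / 2) • p.1) y : ℝ) : ℂ)) * ft v y)) nn :=
      int_bdd_exp i2 y _
    have j3 : Integrable (fun p : R12 × ℝ => ∑ i, b p.1 * (K1 σ mu (q ^ 2) ‖p.1‖ p.2 * ((p.1 i : ℝ) : ℂ)) *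
        (exp (I * ((inner ℝ (Real.exp (-p.2 / 2) • p.1) y : ℝ) : ℂ)) * ft (w i) y)) nn :=
      integrable_finsetSum _ fun i _ => j1 i
    have j0 : Integrable (fun η : R12 => (BB σ mu (q ^ 2) ‖η‖ 0)⁻¹ * b η *
        (exp (I * ((inner ℝ η y : ℝ) : ℂ)) * ft v y)) := by
      have hM : 0 < q ^ 2 := by positivity
      have cB0 : Continuous fun η : R12 => (BB σ mu (q ^ 2) ‖η‖ 0)⁻¹ *
          exp (I * ((inner ℝ η y : ℝ) : ℂ)) := by
        have h := cont_BB σ mu (q ^ 2)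
        refine Continuous.mul (Continuous.inv₀ (by fun_prop) fun η => BB_ne hmu.le hM) (by fun_prop)
      have h1 : Integrable (fun η : R12 => ((BB σ mu (q ^ 2) ‖η‖ 0)⁻¹ *
          exp (I * ((inner ℝ η y : ℝ) : ℂ))) * b η) := by
        refine hb.bdd_mul (c := 1 / q ^ 2) cB0.aestronglyMeasurable (Eventually.of_forall fun η => ?_)
        rw [norm_mul, norm_inv, ← one_div]
        have : ‖exp (I * ((inner ℝ η y : ℝ) : ℂ))‖ = 1 := by
          rw [Complex.norm_exp]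
          simp
        rw [this, mul_one]
        exact one_div_le_one_div_of_le hM (M_le_BB hmu.le)
      refine (h1.mul_const (ft v y)).congr (Eventually.of_forall fun η => ?_)
      simp only
      ring
    have j32 : Integrable (fun p : R12 × ℝ => (∑ i, b p.1 * (K1 σ mu (q ^ 2) ‖p.1‖ p.2 * ((p.1 i : ℝ) : ℂ)) *
        (exp (I * ((inner ℝ (Real.exp (-p.2 / 2) • p.1) y : ℝ) : ℂ)) * ft (w i) y)) +
        b p.1 * K2 σ mu (q ^ 2) ‖p.1‖ p.2 *
        (exp (I * ((inner ℝ (Real.exp (-p.2 / 2) • p.1) y : ℝ) : ℂ)) * ft v y)) nn := j3.add j2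
    rw [← integral_finsetSum _ (fun i _ => j1 i), ← integral_add j3 j2]
    rw [integral_prod _ j32, hf y, ← MeasureTheory.integral_const_mul]
    have j4 := j32.integral_prod_left
    rw [← integral_add j0 j4]
    refine integral_congr_ae (Eventually.of_forall fun η => ?_)
    have := est_id hσ hmu hq hq4 (b η) (V y) (fun i => ft (w i) y) η y (fun i => hW i y)
    simp only [Pi.add_apply]
    rw [this, hV y]
  · have hb0 : 0 ≤ ∫ η, ‖b η‖ := integral_nonneg fun _ => norm_nonneg _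
    calc ∫ ξ, ‖c0 ξ + (∑ i, c1 i ξ + c2 ξ)‖ ≤ ∫ ξ, (‖c0 ξ‖ + (∑ i, ‖c1 i ξ‖ + ‖c2 ξ‖)) := by
          refine integral_mono_ae i012.norm (ic0.norm.add
            ((integrable_finsetSum _ fun i _ => (ic1 i).norm).add ic2.norm))
            (Eventually.of_forall fun ξ => ?_)
          simp only
          refine (norm_add_le _ _).trans (add_le_add le_rfl ((norm_add_le _ _).trans
            (add_le_add (norm_sum_le _ _) le_rfl)))
      _ = (∫ ξ, ‖c0 ξ‖) + ((∑ i, ∫ ξ, ‖c1 i ξ‖) + ∫ ξ, ‖c2 ξ‖) := by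
          have k1 : Integrable (fun ξ => ∑ i, ‖c1 i ξ‖) := integrable_finsetSum _ fun i _ => (ic1 i).norm
          have k2 : Integrable (fun ξ => ∑ i, ‖c1 i ξ‖ + ‖c2 ξ‖) := k1.add ic2.norm
          rw [integral_add ic0.norm k2, integral_add k1 ic2.norm,
            integral_finsetSum _ (fun i _ => (ic1 i).norm)]
      _ ≤ (1 / q ^ 2 * ∫ η, ‖b η‖) * (∫ ξ, ‖v ξ‖) +
          (∑ i, ((4 * nu + 2) / q * ∫ η, ‖b η‖) * (∫ ξ, ‖w i ξ‖) +
            ((3 * nu + 6) / q * ∫ η, ‖b η‖) * ∫ ξ, ‖v ξ‖) :=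
          add_le_add nc0 (add_le_add (Finset.sum_le_sum fun i _ => nc1 i) nc2)
      _ = _ := by
          rw [← Finset.mul_sum]
          ring

end Crest.Agent.R086.CHF
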