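import Crest.Agent.R086.DGen

/-! Row 86 (helper718): uniqueness of densities, and the spectral hypothesis of the gap theorem
from `SpecGood`. -/

set_option autoImplicit false

open MeasureTheory Complex Set Filter
open scoped ContDiff Topology FourierTransform SchwartzMap

namespace Crest.Agent.R086.DSpec

open Crest.Agent.R086 Crest.Agent.R086.DGen

lemma ft_schwartz (g : 𝓢(R12, ℂ)) (ξ : R12) :
    ft (g : R12 → ℂ) ξ = (𝓕⁻ (g : R12 → ℂ)) ((2 * Real.pi)⁻¹ • ξ) := by
  rw [Real.fourierInv_eq']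
  unfold ft
  refine integral_congr_ae (Eventually.of_forall fun v => ?_)
  simp only [smul_eq_mul]
  congr 2
  rw [inner_smul_right]
  have : (Real.pi : ℂ) ≠ 0 := by exact_mod_cast Real.pi_ne_zero
  push_cast
  field_simp

/-- every test function is `ft` of a Schwartz function -/
lemma exists_ft {φ : R12 → ℝ} (hφ : ContDiff ℝ ∞ φ) (hc : HasCompactSupport φ) :
    ∃ g : 𝓢(R12, ℂ), ∀ ξ, ft (g : R12 → ℂ) ξ = (φ ξ : ℂ) := by
  have hpi : (2 * Real.pi) ≠ 0 := by positivity
  have h1 : HasCompactSupport fun w : R12 => ((φ ((2 * Real.pi) • w) : ℝ) : ℂ) := by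
    have := (hc.comp_homeomorph (Homeomorph.smulOfNeZero (2 * Real.pi) hpi))
    exact this.comp_left (g := fun x : ℝ => (x : ℂ)) (by simp)
  have h2 : ContDiff ℝ ∞ fun w : R12 => ((φ ((2 * Real.pi) • w) : ℝ) : ℂ) :=
    Complex.ofRealCLM.contDiff.comp (hφ.comp (contDiff_const_smul _))
  refine ⟨𝓕 (h1.toSchwartzMap h2), fun ξ => ?_⟩
  rw [ft_schwartz, ← SchwartzMap.fourierInv_coe, FourierTransform.fourierInv_fourier_eq]
  simp only [HasCompactSupport.toSchwartzMap_toFun]
  rw [smul_smul, mul_inv_cancel₀ hpi, one_smul]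

/-- uniqueness of densities -/
lemma ft_eq_zero {a : R12 → ℂ} (ha : Integrable a) (h : ∀ p, ft a p = 0) :
    a =ᵐ[volume] fun _ => 0 := by
  refine ae_eq_zero_of_integral_contDiff_smul_eq_zero ha.locallyIntegrable fun φ hφ hc => ?_
  obtain ⟨g, hg⟩ := exists_ft hφ hc
  have key := VectorFourier.integral_fourierIntegral_smul_eq_flip (e := Real.fourierChar)
    (μ := (volume : Measure R12)) (ν := (volume : Measure R12)) (L := LL.toLinearMap₁₂)
    (f := a) (g := (g : R12 → ℂ)) Real.continuous_fourierChar LL.continuous₂ ha g.integrable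
  have hflip : LL.toLinearMap₁₂.flip = LL.toLinearMap₁₂ := by
    ext x y
    show LL y x = LL x y
    rw [LL_apply, LL_apply, real_inner_comm]
  rw [hflip, ← ft_eq, ← ft_eq] at key
  simp only [h, hg, smul_eq_mul, zero_mul, integral_zero] at key
  rw [key]
  refine integral_congr_ae (Eventually.of_forall fun x => ?_)
  simp only [Complex.real_smul]
  ring

lemma XN_eq_of_ft {N : ℕ} {a b : XN N} (h : ∀ p, ft a p = ft b p) : a = b := by
  have h1 : ∀ p, ft (a - b : XN N) p = 0 := by
    intro p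
    have : ev N p (a - b) = ev N p a - ev N p b := map_sub _ _ _
    simp only [ev_apply] at this
    rw [this, h p, sub_self]
  have h2 := ft_eq_zero (integrable_XN (a - b)) h1
  have hac : muN N ≪ (volume : Measure R12) := withDensity_absolutelyContinuous _ _
  have h3 : ((a - b : XN N) : R12 → ℂ) =ᵐ[muN N] fun _ => 0 := hac.ae_le h2
  have h4 : a - b = 0 := by
    refine Lp.ext (h3.trans ?_)
    exact (Lp.coeFn_zero ℂ 1 (muN N)).symm
  exact sub_eq_zero.1 h4

lemma inX_of {N M : ℕ} (h : M ≤ N) (a : XN N) : InX M (ft a) := by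
  obtain ⟨h1, hm⟩ := wint a
  refine ⟨a, ?_, fun y => rfl⟩
  refine h1.mono ((Continuous.aestronglyMeasurable (by fun_prop)).mul hm)
    (Eventually.of_forall fun ξ => ?_)
  rw [norm_mul, Complex.norm_real, Real.norm_of_nonneg (by positivity),
    Real.norm_of_nonneg (by unfold wt; positivity)]
  exact mul_le_mul_of_nonneg_right
    (pow_le_pow_right₀ (by linarith [norm_nonneg ξ]) h) (norm_nonneg _)

section
variable {n : ℕ} {P : Profile n} {T : Pot P} {N : ℕ} (D : LinData P T N)

lemma ft_mode_fst (i : MI) (p : R12) : ft (D.mode i).1 p = P.mode1 i p := by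
  rw [ft_congr (D.mode_fst i) p]; exact ft_rep (T.rep_m1 i 0) p

lemma ft_mode_snd (i : MI) (p : R12) : ft (D.mode i).2 p = P.mode2 i p := by
  rw [ft_congr (D.mode_snd i) p]; exact ft_rep (T.rep_m2 i 0) p

lemma ft_sum_fst (c : MI → ℂ) (p : R12) :
    ft (∑ i, c i • D.mode i).1 p = ∑ i, c i * P.mode1 i p := by
  have h := map_sum ((ev N p).comp (ContinuousLinearMap.fst ℂ (XN N) (XN N)))
    (fun i => c i • D.mode i) Finset.univ
  simp only [ContinuousLinearMap.comp_apply, ContinuousLinearMap.coe_fst', ev_apply] at h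
  rw [h]
  refine Finset.sum_congr rfl fun i _ => ?_
  rw [Prod.smul_fst, ft_smul_XN, ft_mode_fst]

lemma ft_sum_snd (c : MI → ℂ) (p : R12) :
    ft (∑ i, c i • D.mode i).2 p = ∑ i, c i * P.mode2 i p := by
  have h := map_sum ((ev N p).comp (ContinuousLinearMap.snd ℂ (XN N) (XN N)))
    (fun i => c i • D.mode i) Finset.univ
  simp only [ContinuousLinearMap.comp_apply, ContinuousLinearMap.coe_snd', ev_apply] at h
  rw [h]
  refine Finset.sum_congr rfl fun i _ => ?_
  rw [Prod.smul_snd, ft_smul_XN, ft_mode_snd]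

/-- The spectral hypothesis of the gap theorem from `SpecGood`. -/
theorem hspec (hN : N0 ≤ N) (hP : P.SpecGood N0) :
    ∀ lam : ℂ, 0 ≤ lam.re → ∀ x y : XX N,
      HasDerivWithinAt (fun t => D.S t x) y (Set.Ici 0) 0 →
      y - lam • x ∈ Submodule.span ℂ (Set.range D.mode) →
      x ∈ Submodule.span ℂ (Set.range D.mode) := by
  intro lam hlam x y hd hE
  obtain ⟨g1, g2⟩ := genStmt n P T N (le_trans (by norm_num [N0]) hN) D x y hd
  obtain ⟨c, hc⟩ := (Submodule.mem_span_range_iff_exists_fun ℂ).1 hE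
  have hInE : P.InE (fun p => P.gen1 (ft x.1) (ft x.2) p - lam * ft x.1 p)
      (fun p => P.gen2 (ft x.1) (ft x.2) p - lam * ft x.2 p) := by
    refine ⟨c, fun p => ?_, fun p => ?_⟩
    · show P.gen1 (ft x.1) (ft x.2) p - lam * ft x.1 p = _
      rw [← ft_sum_fst D c p, hc, ← g1 p]
      have : ev N p (y - lam • x).1 = ev N p y.1 - lam * ev N p x.1 := by
        rw [Prod.fst_sub, map_sub, Prod.smul_fst, map_smul, smul_eq_mul]
      simpa only [ev_apply] using this.symm
    · show P.gen2 (ft x.1) (ft x.2) p - lam * ft x.2 p = _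
      rw [← ft_sum_snd D c p, hc, ← g2 p]
      have : ev N p (y - lam • x).2 = ev N p y.2 - lam * ev N p x.2 := by
        rw [Prod.snd_sub, map_sub, Prod.smul_snd, map_smul, smul_eq_mul]
      simpa only [ev_apply] using this.symm
  obtain ⟨d, hd1, hd2⟩ := hP lam hlam (ft x.1) (ft x.2) (inX_of hN x.1) (inX_of hN x.2) hInE
  refine (Submodule.mem_span_range_iff_exists_fun ℂ).2 ⟨d, ?_⟩
  refine Prod.ext (XN_eq_of_ft fun p => ?_) (XN_eq_of_ft fun p => ?_)
  · rw [ft_sum_fst, hd1 p]
  · rw [ft_sum_snd, hd2 p]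

end

end Crest.Agent.R086.DSpec
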