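import Crest.Agent.R086.BCIface
import Crest.Agent.R086.CRegDefs
import Crest.Agent.R086.DSpec
import Crest.Agent.R086.DCcv

/-!
Row 86: algebra of `Rep`, `InX` and `XBd` (helper384): sum, scalar, product, conjugation, monotonicity,
uniqueness of the density.
-/

set_option autoImplicit false

open MeasureTheory Complex Set Filter
open scoped ContDiff Topology

namespace Crest.Agent.R086.XA

open Crest.Agent.R086.CReg

theorem cont_w (N : ℕ) : Continuous fun ξ : R12 => (((1 + ‖ξ‖) ^ N : ℝ) : ℂ) := by fun_prop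

theorem w_pos (N : ℕ) (ξ : R12) : (0 : ℝ) < (1 + ‖ξ‖) ^ N := by positivity

theorem aesm {N : ℕ} {a f : R12 → ℂ} (h : Rep N a f) : AEStronglyMeasurable a volume := by
  have h1 : AEStronglyMeasurable (fun ξ : R12 => ((((1 + ‖ξ‖) ^ N : ℝ) : ℂ))⁻¹ *
      ((((1 + ‖ξ‖) ^ N : ℝ) : ℂ) * a ξ)) volume :=
    (Continuous.aestronglyMeasurable (by
      refine Continuous.inv₀ (by fun_prop) fun ξ => ?_
      exact_mod_cast (w_pos N ξ).ne')).mul h.1.1
  refine h1.congr (Eventually.of_forall fun ξ => ?_)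
  simp only
  rw [← mul_assoc, inv_mul_cancel₀, one_mul]
  exact_mod_cast (w_pos N ξ).ne'

theorem int_norm {N : ℕ} {a f : R12 → ℂ} (h : Rep N a f) :
    Integrable fun ξ : R12 => (1 + ‖ξ‖) ^ N * ‖a ξ‖ := by
  refine h.1.norm.congr (Eventually.of_forall fun ξ => ?_)
  simp only
  rw [norm_mul, Complex.norm_real, Real.norm_of_nonneg (w_pos N ξ).le]

theorem xn_nonneg (N : ℕ) (a : R12 → ℂ) : 0 ≤ xn N a :=
  integral_nonneg fun ξ => mul_nonneg (w_pos N ξ).le (norm_nonneg _)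

theorem integrable_of {N : ℕ} {a f : R12 → ℂ} (h : Rep N a f) : Integrable a := by
  refine (int_norm h).mono (aesm h) (Eventually.of_forall fun ξ => ?_)
  rw [Real.norm_of_nonneg (mul_nonneg (w_pos N ξ).le (norm_nonneg _))]
  have : (1 : ℝ) ≤ (1 + ‖ξ‖) ^ N := one_le_pow₀ (by linarith [norm_nonneg ξ])
  nlinarith [norm_nonneg (a ξ)]

theorem rep_mono {M N : ℕ} (hMN : M ≤ N) {a f : R12 → ℂ} (h : Rep N a f) : Rep M a f := by
  refine ⟨(int_norm h).mono ((cont_w M).aestronglyMeasurable.mul (aesm h))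
    (Eventually.of_forall fun ξ => ?_), h.2⟩
  rw [norm_mul, Complex.norm_real, Real.norm_of_nonneg (w_pos M ξ).le,
    Real.norm_of_nonneg (mul_nonneg (w_pos N ξ).le (norm_nonneg _))]
  exact mul_le_mul_of_nonneg_right (pow_le_pow_right₀ (by linarith [norm_nonneg ξ]) hMN)
    (norm_nonneg _)

theorem xn_mono {M N : ℕ} (hMN : M ≤ N) {a f : R12 → ℂ} (h : Rep N a f) : xn M a ≤ xn N a := by
  refine integral_mono (int_norm (rep_mono hMN h)) (int_norm h) fun ξ => ?_
  exact mul_le_mul_of_nonneg_right (pow_le_pow_right₀ (by linarith [norm_nonneg ξ]) hMN)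
    (norm_nonneg _)

theorem ft_of {N : ℕ} {a f : R12 → ℂ} (h : Rep N a f) : f = ft a := funext h.2

theorem rep_add {N : ℕ} {a b f g : R12 → ℂ} (h : Rep N a f) (h' : Rep N b g) :
    Rep N (fun ξ => a ξ + b ξ) (fun y => f y + g y) := by
  refine ⟨(h.1.add h'.1).congr (Eventually.of_forall fun ξ => ?_), fun y => ?_⟩
  · simp only [Pi.add_apply]; ring
  · show f y + g y = _
    rw [h.2 y, h'.2 y, ← integral_add (DGen.integrable_ftterm (integrable_of h) y)
      (DGen.integrable_ftterm (integrable_of h') y)]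
    refine integral_congr_ae (Eventually.of_forall fun ξ => ?_)
    simp only; ring

theorem rep_const_mul {N : ℕ} {a f : R12 → ℂ} (c : ℂ) (h : Rep N a f) :
    Rep N (fun ξ => c * a ξ) (fun y => c * f y) := by
  refine ⟨(h.1.const_mul c).congr (Eventually.of_forall fun ξ => ?_), fun y => ?_⟩
  · simp only; ring
  · show c * f y = _
    rw [h.2 y, ← integral_const_mul]
    refine integral_congr_ae (Eventually.of_forall fun ξ => ?_)
    simp only; ring

theorem xn_add_le {N : ℕ} {a b f g : R12 → ℂ} (h : Rep N a f) (h' : Rep N b g) :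
    xn N (fun ξ => a ξ + b ξ) ≤ xn N a + xn N b := by
  unfold xn
  rw [← integral_add (int_norm h) (int_norm h')]
  refine integral_mono (int_norm (rep_add h h')) ((int_norm h).add (int_norm h')) fun ξ => ?_
  simp only
  rw [← mul_add]
  exact mul_le_mul_of_nonneg_left (norm_add_le _ _) (w_pos N ξ).le

theorem xn_const_mul (N : ℕ) (a : R12 → ℂ) (c : ℂ) : xn N (fun ξ => c * a ξ) = ‖c‖ * xn N a := by
  unfold xn
  rw [← integral_const_mul]
  refine integral_congr_ae (Eventually.of_forall fun ξ => ?_)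
  simp only [norm_mul]; ring

theorem rep_mul {N : ℕ} {a b f g : R12 → ℂ} (h : Rep N a f) (h' : Rep N b g) :
    Rep N (cv a b) (fun y => f y * g y) := by
  have h1 := Wie.GInt.cv (gint_of_integrable h.1) (gint_of_integrable h'.1)
  refine ⟨?_, fun y => ?_⟩
  · rw [cv_eq_wie]
    refine Integrable.congr h1 (Eventually.of_forall fun ξ => ?_)
    simp only [Wie.wtV_apply, Wie.wt, Complex.real_smul]
  · have := DGen.ft_cv (integrable_of h) (integrable_of h') y
    show f y * g y = _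
    rw [h.2 y, h'.2 y]
    exact this.symm

theorem xn_mul_le {N : ℕ} {a b f g : R12 → ℂ} (h : Rep N a f) (h' : Rep N b g) :
    xn N (cv a b) ≤ xn N a * xn N b := by
  have h1 := Wie.integral_norm_cv_le (gint_of_integrable h.1) (gint_of_integrable h'.1)
  rw [cv_eq_wie]
  exact h1

theorem rep_conj {N : ℕ} {a f : R12 → ℂ} (h : Rep N a f) :
    Rep N (fun ξ => starRingEnd ℂ (a (-ξ))) (fun y => starRingEnd ℂ (f y)) := by
  constructor
  · have h1 : Integrable fun ξ : R12 =>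
        starRingEnd ℂ ((((1 + ‖-ξ‖) ^ N : ℝ) : ℂ) * a (-ξ)) := by
      have h2 := h.1.comp_neg
      exact (Complex.conjLIE.toContinuousLinearEquiv.toContinuousLinearMap.integrable_comp h2)
    refine h1.congr (Eventually.of_forall fun ξ => ?_)
    simp only [map_mul, Complex.conj_ofReal, norm_neg]
  · intro y
    show starRingEnd ℂ (f y) = _
    rw [h.2 y, ← integral_conj, ← integral_neg_eq_self]
    refine integral_congr_ae (Eventually.of_forall fun ξ => ?_)
    simp only [map_mul]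
    rw [← Complex.exp_conj]
    simp only [map_mul, Complex.conj_I, Complex.conj_ofReal, inner_neg_left]
    congr 2
    push_cast; ring

theorem xn_conj (N : ℕ) (a : R12 → ℂ) : xn N (fun ξ => starRingEnd ℂ (a (-ξ))) = xn N a := by
  unfold xn
  rw [← integral_neg_eq_self]
  refine integral_congr_ae (Eventually.of_forall fun ξ => ?_)
  simp

theorem rep_unique {M N : ℕ} {a b f : R12 → ℂ} (h : Rep N a f) (h' : Rep M b f) :
    a =ᵐ[volume] b := by
  have h1 : Integrable fun ξ => a ξ + (-1) * b ξ :=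
    (integrable_of h).add ((integrable_of h').const_mul (-1))
  have h2 := DSpec.ft_eq_zero h1 (fun p => by
    have h3 := rep_add (rep_mono (Nat.zero_le _) h)
      (rep_const_mul (-1) (rep_mono (Nat.zero_le _) h'))
    have h4 := h3.2 p
    unfold ft
    rw [← h4]; ring)
  filter_upwards [h2] with ξ hξ
  linear_combination hξ

theorem xn_congr {N : ℕ} {a b : R12 → ℂ} (h : a =ᵐ[volume] b) : xn N a = xn N b := by
  refine integral_congr_ae ?_
  filter_upwards [h] with ξ hξ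
  simp only [hξ]

/-! ### `XBd` -/

theorem xbd_inX {N : ℕ} {f : R12 → ℂ} {A : ℝ} (h : XBd N f A) : InX N f := by
  obtain ⟨a, ha, -⟩ := h; exact ⟨a, ha⟩

theorem xbd_mono {M N : ℕ} (hMN : M ≤ N) {f : R12 → ℂ} {A : ℝ} (h : XBd N f A) : XBd M f A := by
  obtain ⟨a, ha, hA⟩ := h
  exact ⟨a, rep_mono hMN ha, (xn_mono hMN ha).trans hA⟩

theorem xbd_le {N : ℕ} {f : R12 → ℂ} {A B : ℝ} (hAB : A ≤ B) (h : XBd N f A) : XBd N f B := by
  obtain ⟨a, ha, hA⟩ := h
  exact ⟨a, ha, hA.trans hAB⟩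

theorem xbd_nonneg {N : ℕ} {f : R12 → ℂ} {A : ℝ} (h : XBd N f A) : 0 ≤ A := by
  obtain ⟨a, _, hA⟩ := h
  exact (xn_nonneg N a).trans hA

theorem xbd_add {N : ℕ} {f g : R12 → ℂ} {A B : ℝ} (h : XBd N f A) (h' : XBd N g B) :
    XBd N (fun y => f y + g y) (A + B) := by
  obtain ⟨a, ha, hA⟩ := h
  obtain ⟨b, hb, hB⟩ := h'
  exact ⟨_, rep_add ha hb, (xn_add_le ha hb).trans (add_le_add hA hB)⟩

theorem xbd_const_mul {N : ℕ} {f : R12 → ℂ} {A : ℝ} (c : ℂ) (h : XBd N f A) :
    XBd N (fun y => c * f y) (‖c‖ * A) := by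
  obtain ⟨a, ha, hA⟩ := h
  refine ⟨_, rep_const_mul c ha, ?_⟩
  have := xn_const_mul N a c
  unfold xn at this
  rw [this]
  exact mul_le_mul_of_nonneg_left hA (norm_nonneg _)

theorem xbd_mul {N : ℕ} {f g : R12 → ℂ} {A B : ℝ} (h : XBd N f A) (h' : XBd N g B) :
    XBd N (fun y => f y * g y) (A * B) := by
  obtain ⟨a, ha, hA⟩ := h
  obtain ⟨b, hb, hB⟩ := h'
  exact ⟨_, rep_mul ha hb, (xn_mul_le ha hb).trans
    (mul_le_mul hA hB (xn_nonneg N b) ((xn_nonneg N a).trans hA))⟩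

theorem xbd_conj {N : ℕ} {f : R12 → ℂ} {A : ℝ} (h : XBd N f A) :
    XBd N (fun y => starRingEnd ℂ (f y)) A := by
  obtain ⟨a, ha, hA⟩ := h
  exact ⟨_, rep_conj ha, (xn_conj N a).le.trans hA⟩

theorem xbd_zero (N : ℕ) : XBd N (fun _ => 0) 0 :=
  ⟨fun _ => 0, ⟨by simp, fun y => by simp⟩, by simp⟩

/-- the bound can be taken for any density -/
theorem xbd_any {M N : ℕ} {f a : R12 → ℂ} {A : ℝ} (h : XBd N f A) (ha : Rep M a f) : xn N a ≤ A := by
  obtain ⟨b, hb, hA⟩ := h
  rw [xn_congr (rep_unique ha hb)]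
  exact hA

theorem inX_of_xn {N : ℕ} {f : R12 → ℂ} (h : InX N f) : ∃ A : ℝ, XBd N f A := by
  obtain ⟨a, ha⟩ := h
  exact ⟨_, a, ha, le_rfl⟩

theorem inX_mono {M N : ℕ} (hMN : M ≤ N) {f : R12 → ℂ} (h : InX N f) : InX M f := by
  obtain ⟨a, ha⟩ := h; exact ⟨a, rep_mono hMN ha⟩

theorem inX_add {N : ℕ} {f g : R12 → ℂ} (h : InX N f) (h' : InX N g) :
    InX N (fun y => f y + g y) := by
  obtain ⟨a, ha⟩ := h; obtain ⟨b, hb⟩ := h'; exact ⟨_, rep_add ha hb⟩

theorem inX_const_mul {N : ℕ} {f : R12 → ℂ} (c : ℂ) (h : InX N f) : InX N (fun y => c * f y) := by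
  obtain ⟨a, ha⟩ := h; exact ⟨_, rep_const_mul c ha⟩

theorem inX_mul {N : ℕ} {f g : R12 → ℂ} (h : InX N f) (h' : InX N g) :
    InX N (fun y => f y * g y) := by
  obtain ⟨a, ha⟩ := h; obtain ⟨b, hb⟩ := h'; exact ⟨_, rep_mul ha hb⟩

theorem inX_conj {N : ℕ} {f : R12 → ℂ} (h : InX N f) :
    InX N (fun y => starRingEnd ℂ (f y)) := by
  obtain ⟨a, ha⟩ := h; exact ⟨_, rep_conj ha⟩

end Crest.Agent.R086.XA
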