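import Crest.Agent.R086.CHF
import Crest.Agent.R086.XBd

/-!
Row 86, Part C, regime (R1) (helper590), second file: no eigenpair with `|lam| ≥ (1000 n B)^4`.
Input: `RepStmt` (time representation of the resolvent, 246/470).
-/

set_option autoImplicit false

open MeasureTheory Complex Set Filter
open scoped ContDiff Topology

namespace Crest.Agent.R086.CHF

open Crest.Agent.R086 Crest.Agent.R086.CReg

/-- time representation of the resolvent -/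
def RepStmt : Prop := ∀ σ : ℝ, |σ| = 1 → ∀ mu : ℂ, 0 < mu.re → ∀ f h a b : R12 → ℂ,
  Rep 2 a f → Rep 2 b h →
  (∀ y, (σ : ℂ) * I * lap f y - (1 / 2) * eul f y - mu * f y = - h y) → RepT σ mu b f

lemma xn_zero (a : R12 → ℂ) : xn 0 a = ∫ ξ, ‖a ξ‖ := by
  unfold xn
  simp

theorem est3 {σ : ℝ} (hσ : |σ| = 1) {mu : ℂ} {Q nu B : ℝ} (hmu : 0 < mu.re) (hQ : 1 ≤ Q)
    (hQ4 : Q ^ 4 ≤ ‖mu‖) (hnu0 : 0 ≤ nu) (hnu : 1 ≤ nu * mu.re) {b f : R12 → ℂ} (hb : Integrable b)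
    (hf : RepT σ mu b f) {V : R12 → ℂ} (hV : XBd 0 V B)
    (hW : ∀ i : Fin 12, XBd 0 (fun y => ((y i : ℝ) : ℂ) * V y) B) :
    XBd 0 (fun y => V y * f y) (((4 * nu + 7) / Q * (13 * B)) * xn 0 b) := by
  set q : ℝ := Real.sqrt (Real.sqrt ‖mu‖) with hqdef
  have hq4 : q ^ 4 = ‖mu‖ := by
    have : q ^ 4 = (q ^ 2) ^ 2 := by ring
    rw [this, hqdef, Real.sq_sqrt (Real.sqrt_nonneg _), Real.sq_sqrt (norm_nonneg _)]
  have hq0' : 0 ≤ q := Real.sqrt_nonneg _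
  have hQq : Q ≤ q := by
    rw [← hq4] at hQ4
    exact le_of_pow_le_pow_left₀ (by norm_num) hq0' hQ4
  have hq : 1 ≤ q := hQ.trans hQq
  have hq0 : 0 < q := by linarith
  have hQ0 : 0 < Q := by linarith
  obtain ⟨v, hv, hvB⟩ := hV
  choose w hw hwB using hW
  obtain ⟨c, ic, fc, nc⟩ := est hσ hmu hq hq4 hnu hb hf (XA.integrable_of hv)
    (fun i => XA.integrable_of (hw i)) (fun y => hv.2 y) (fun i y => (hw i).2 y)
  refine ⟨c, ⟨by simpa using ic, fun y => fc y⟩, ?_⟩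
  have hvB' : ∫ ξ, ‖v ξ‖ ≤ B := by simpa using hvB
  have hwB' : ∀ i, ∫ ξ, ‖w i ξ‖ ≤ B := fun i => by simpa using hwB i
  have hB0 : 0 ≤ B := (integral_nonneg fun _ => norm_nonneg _).trans hvB'
  have hsum : ∑ i, ∫ ξ, ‖w i ξ‖ ≤ 12 * B := by
    calc _ ≤ ∑ _i : Fin 12, B := Finset.sum_le_sum fun i _ => hwB' i
      _ = 12 * B := by simp
  have hb0 : 0 ≤ ∫ ξ, ‖b ξ‖ := integral_nonneg fun _ => norm_nonneg _
  rw [xn_zero]
  have h1 : 1 / q ^ 2 + (3 * nu + 6) / q ≤ (4 * nu + 7) / Q := by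
    have h2 : 1 / q ^ 2 ≤ 1 / q := one_div_le_one_div_of_le hq0 (by nlinarith)
    have h3 : 1 / q + (3 * nu + 6) / q = (3 * nu + 7) / q := by ring
    have h4 : (3 * nu + 7) / q ≤ (4 * nu + 7) / q := div_le_div_of_nonneg_right (by linarith) hq0.le
    have h5 : (4 * nu + 7) / q ≤ (4 * nu + 7) / Q :=
      div_le_div_of_nonneg_left (by linarith) hQ0 hQq
    linarith
  have h6 : (4 * nu + 2) / q ≤ (4 * nu + 7) / Q := by
    have h4 : (4 * nu + 2) / q ≤ (4 * nu + 7) / q := div_le_div_of_nonneg_right (by linarith) hq0.le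
    have h5 : (4 * nu + 7) / q ≤ (4 * nu + 7) / Q :=
      div_le_div_of_nonneg_left (by linarith) hQ0 hQq
    linarith
  have h7 : 0 ≤ (4 * nu + 7) / Q := by positivity
  have h8 : (1 / q ^ 2 + (3 * nu + 6) / q) * (∫ ξ, ‖v ξ‖) ≤ (4 * nu + 7) / Q * B :=
    mul_le_mul h1 hvB' (integral_nonneg fun _ => norm_nonneg _) h7
  have h9 : (4 * nu + 2) / q * ∑ i, ∫ ξ, ‖w i ξ‖ ≤ (4 * nu + 7) / Q * (12 * B) :=
    mul_le_mul h6 hsum (Finset.sum_nonneg fun i _ => integral_nonneg fun _ => norm_nonneg _) h7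
  calc ∫ ξ, (1 + ‖ξ‖) ^ 0 * ‖c ξ‖ = ∫ ξ, ‖c ξ‖ := by simp
    _ ≤ _ := nc
    _ ≤ (∫ ξ, ‖b ξ‖) * ((4 * nu + 7) / Q * B + (4 * nu + 7) / Q * (12 * B)) :=
        mul_le_mul_of_nonneg_left (by linarith) hb0
    _ = _ := by ring

lemma zero_of_xn {σ : ℝ} {mu : ℂ} {b f : R12 → ℂ} (hb : Integrable b) (hf : RepT σ mu b f)
    (h0 : xn 0 b = 0) (y : R12) : f y = 0 := by
  rw [xn_zero] at h0
  have h1 : (fun ξ => ‖b ξ‖) =ᵐ[volume] 0 :=
    (integral_eq_zero_iff_of_nonneg (fun _ => norm_nonneg _) hb.norm).1 h0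
  rw [hf y]
  rw [integral_eq_zero_of_ae]
  filter_upwards [h1] with ξ hξ
  have : b ξ = 0 := norm_eq_zero.1 hξ
  rw [this, zero_mul]
  rfl

/-- **(R1)**: no eigenpair with `|lam| ≥ (1000 n B)^4`. -/
theorem hf (hRep : RepStmt) {n : ℕ} (P : Profile n) {B : ℝ} (hB : 1 ≤ B)
    (hV1 : XBd 0 P.V1 B) (hV2 : XBd 0 P.V2 B) (hV3 : XBd 0 P.V2c B)
    (hW1 : ∀ i : Fin 12, XBd 0 (fun y => ((y i : ℝ) : ℂ) * P.V1 y) B)
    (hW2 : ∀ i : Fin 12, XBd 0 (fun y => ((y i : ℝ) : ℂ) * P.V2 y) B)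
    (hW3 : ∀ i : Fin 12, XBd 0 (fun y => ((y i : ℝ) : ℂ) * P.V2c y) B)
    (hX1 : InX 2 P.V1) (hX2 : InX 2 P.V2) (hX3 : InX 2 P.V2c) (hom : |P.om| ≤ 1)
    {lam : ℂ} (hre : 0 ≤ lam.re) (hbig : (1000 * n * B) ^ 4 ≤ ‖lam‖) {f g : R12 → ℂ}
    (hf : InX 2 f) (hg : InX 2 g) (e1 : ∀ y, P.gen1 f g y = lam * f y)
    (e2 : ∀ y, P.gen2 f g y = lam * g y) : (∀ y, f y = 0) ∧ ∀ y, g y = 0 := by
  have hn2 : (2 : ℝ) ≤ n := by exact_mod_cast P.two_le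
  have hn0 : (0 : ℝ) < n := by linarith
  have hnC : (n : ℂ) ≠ 0 := by exact_mod_cast hn0.ne'
  obtain ⟨b1, hb1⟩ := XA.inX_const_mul (-I) (XA.inX_add (XA.inX_mul hX1 hf) (XA.inX_mul hX2 hg))
  obtain ⟨b2, hb2⟩ := XA.inX_const_mul I (XA.inX_add (XA.inX_mul hX1 hg) (XA.inX_mul hX3 hf))
  obtain ⟨a1, ha1⟩ := hf
  obtain ⟨a2, ha2⟩ := hg
  set mu1 : ℂ := lam + 1 / n - I * P.om with hmu1
  set mu2 : ℂ := lam + 1 / n + I * P.om with hmu2
  have hinv : ((1 : ℂ) / n).re = 1 / (n : ℝ) := by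
    have : ((1 : ℂ) / n) = ((1 / (n : ℝ) : ℝ) : ℂ) := by push_cast; ring
    rw [this, Complex.ofReal_re]
  have hre1 : mu1.re = lam.re + 1 / n := by
    rw [hmu1, Complex.sub_re, Complex.add_re, hinv]
    simp
  have hre2 : mu2.re = lam.re + 1 / n := by
    rw [hmu2, Complex.add_re, Complex.add_re, hinv]
    simp
  have hp1 : 0 < mu1.re := by rw [hre1]; positivity
  have hp2 : 0 < mu2.re := by rw [hre2]; positivity
  have hnu1 : 1 ≤ (n : ℝ) * mu1.re := by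
    rw [hre1, mul_add, mul_one_div_cancel hn0.ne']
    nlinarith
  have hnu2 : 1 ≤ (n : ℝ) * mu2.re := by
    rw [hre2, mul_add, mul_one_div_cancel hn0.ne']
    nlinarith
  have r1 : RepT 1 mu1 b1 f := by
    refine hRep 1 (by norm_num) mu1 hp1 f _ a1 b1 ha1 hb1 fun y => ?_
    have := e1 y
    unfold Profile.gen1 at this
    simp only [Complex.ofReal_one]
    rw [hmu1]
    linear_combination this
  have r2 : RepT (-1) mu2 b2 g := by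
    refine hRep (-1) (by norm_num) mu2 hp2 g _ a2 b2 ha2 hb2 fun y => ?_
    have := e2 y
    unfold Profile.gen2 at this
    simp only [Complex.ofReal_neg, Complex.ofReal_one]
    rw [hmu2]
    linear_combination this
  -- the size of mu
  set Q : ℝ := 500 * n * B with hQdef
  have hnB : 1 ≤ n * B := by nlinarith
  have hQ1 : 1 ≤ Q := by rw [hQdef]; nlinarith
  have hQ4 : Q ^ 4 + 2 ≤ ‖lam‖ := by
    have : (1000 * n * B) ^ 4 = 16 * Q ^ 4 := by rw [hQdef]; ring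
    rw [this] at hbig
    have h1 : 1 ≤ Q ^ 4 := one_le_pow₀ hQ1
    linarith
  have hsmall : ‖(1 : ℂ) / n‖ ≤ 1 := by
    rw [norm_div, norm_one, Complex.norm_natCast, div_le_one hn0]
    linarith
  have hIom : ‖I * (P.om : ℂ)‖ ≤ 1 := by
    rw [norm_mul, Complex.norm_I, one_mul, Complex.norm_real]
    exact hom
  have hq1 : Q ^ 4 ≤ ‖mu1‖ := by
    have : lam = mu1 - 1 / n + I * P.om := by rw [hmu1]; ring
    have h2 : ‖lam‖ ≤ ‖mu1‖ + 1 + 1 := by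
      calc ‖lam‖ = ‖mu1 - 1 / n + I * P.om‖ := by rw [← this]
        _ ≤ ‖mu1 - 1 / n‖ + ‖I * (P.om : ℂ)‖ := norm_add_le _ _
        _ ≤ ‖mu1‖ + ‖(1 : ℂ) / n‖ + ‖I * (P.om : ℂ)‖ := add_le_add (norm_sub_le _ _) le_rfl
        _ ≤ _ := by linarith
    linarith
  have hq2 : Q ^ 4 ≤ ‖mu2‖ := by
    have : lam = mu2 - 1 / n - I * P.om := by rw [hmu2]; ring
    have h2 : ‖lam‖ ≤ ‖mu2‖ + 1 + 1 := by
      calc ‖lam‖ = ‖mu2 - 1 / n - I * P.om‖ := by rw [← this]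
        _ ≤ ‖mu2 - 1 / n‖ + ‖I * (P.om : ℂ)‖ := norm_sub_le _ _
        _ ≤ ‖mu2‖ + ‖(1 : ℂ) / n‖ + ‖I * (P.om : ℂ)‖ := add_le_add (norm_sub_le _ _) le_rfl
        _ ≤ _ := by linarith
    linarith
  set δ : ℝ := (4 * n + 7) / Q * (13 * B) with hδ
  have hδ1 : δ ≤ 1 / 4 := by
    have hQ0 : 0 < Q := by linarith
    rw [hδ, div_mul_eq_mul_div, div_le_iff₀ hQ0, hQdef]
    nlinarith
  have ib1 : Integrable b1 := XA.integrable_of hb1
  have ib2 : Integrable b2 := XA.integrable_of hb2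
  have k1 := est3 (σ := 1) (by norm_num) hp1 hQ1 hq1 hn0.le hnu1 ib1 r1 hV1 hW1
  have k2 := est3 (σ := -1) (by norm_num) hp2 hQ1 hq2 hn0.le hnu2 ib2 r2 hV2 hW2
  have k3 := est3 (σ := -1) (by norm_num) hp2 hQ1 hq2 hn0.le hnu2 ib2 r2 hV1 hW1
  have k4 := est3 (σ := 1) (by norm_num) hp1 hQ1 hq1 hn0.le hnu1 ib1 r1 hV3 hW3
  rw [← hδ] at k1 k2 k3 k4
  have m1 : xn 0 b1 ≤ δ * xn 0 b1 + δ * xn 0 b2 := by
    have := XA.xbd_any (XA.xbd_const_mul (-I) (XA.xbd_add k1 k2)) hb1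
    simpa using this
  have m2 : xn 0 b2 ≤ δ * xn 0 b2 + δ * xn 0 b1 := by
    have := XA.xbd_any (XA.xbd_const_mul I (XA.xbd_add k3 k4)) hb2
    simpa using this
  have p1 := XA.xn_nonneg 0 b1
  have p2 := XA.xn_nonneg 0 b2
  have z1 : xn 0 b1 = 0 := by nlinarith
  have z2 : xn 0 b2 = 0 := by nlinarith
  exact ⟨zero_of_xn ib1 r1 z1, zero_of_xn ib2 r2 z2⟩

end Crest.Agent.R086.CHF
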