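import Crest.Agent.R086.ResSyn
import Crest.Agent.R086.DSpec

/-!
Row 86, node RepT (helper246): the representation
`f y = ∫ η, b η * ∫ t>0, e^{-μ t - i sg |η|²(1-e^{-t})} e^{i e^{-t/2} ⟨η,y⟩}`
of a solution `f = ft a` of `sg i Δ f - ½ y·∇ f - μ f = - ft b` (`Re μ > 0`); contains the uniqueness
of the resolvent equation.
-/

set_option autoImplicit false

open MeasureTheory Complex Set Filter
open scoped ContDiff Topology

namespace Crest.Agent.R086.RepT

open Crest.Agent.R086.Res (ch norm_ch continuous_ch_left continuous_ch)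

theorem finrank_R12 : Module.finrank ℝ R12 = 12 := by simp [R12]

/-- scaled density -/
noncomputable def Ds (σ : ℝ) (c : R12 → ℂ) (ξ : R12) : ℂ :=
  ((Real.exp (-(12 * σ)) : ℝ) : ℂ) * c (Real.exp (-σ) • ξ)

theorem qmp_exp (ν : Measure ℝ) [SFinite ν] :
    Measure.QuasiMeasurePreserving (fun p : ℝ × R12 => Real.exp (-p.1) • p.2)
      (ν.prod (volume : Measure R12)) (volume : Measure R12) := by
  have hm : Measurable (fun p : ℝ × R12 => Real.exp (-p.1) • p.2) := by fun_prop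
  refine ⟨hm, Measure.AbsolutelyContinuous.mk fun A hA h0 => ?_⟩
  rw [Measure.map_apply hm hA, Measure.measure_prod_null (hm hA)]
  refine Eventually.of_forall fun s => ?_
  have hs0 : Real.exp (-s) ≠ 0 := (Real.exp_pos _).ne'
  have h1 : (Prod.mk s ⁻¹' ((fun p : ℝ × R12 => Real.exp (-p.1) • p.2) ⁻¹' A))
      = (fun ξ : R12 => Real.exp (-s) • ξ) ⁻¹' A := rfl
  simp only [h1, Pi.zero_apply]
  rw [Measure.addHaar_preimage_smul _ hs0, h0, mul_zero]

theorem integrable_Ds {c : R12 → ℂ} (hc : Integrable c) (σ : ℝ) : Integrable (Ds σ c) := by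
  unfold Ds
  exact (Integrable.comp_smul (μ := (volume : Measure R12)) hc (Real.exp_pos (-σ)).ne').const_mul _

theorem exp_aux (σ : ℝ) : ((Real.exp (-σ) ^ 12)⁻¹ : ℝ) * Real.exp (-(12 * σ)) = 1 := by
  have h1 : Real.exp (-σ) ^ 12 = Real.exp (-(12 * σ)) := by
    rw [← Real.exp_nat_mul]; congr 1; push_cast; ring
  rw [h1]
  exact inv_mul_cancel₀ (Real.exp_pos _).ne'

theorem integral_Ds_mul (c φ : R12 → ℂ) (σ : ℝ) :
    ∫ ξ, Ds σ c ξ * φ ξ = ∫ ξ, c ξ * φ (Real.exp σ • ξ) := by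
  have h := Measure.integral_comp_smul_of_nonneg (volume : Measure R12)
    (fun η => ((Real.exp (-(12 * σ)) : ℝ) : ℂ) * (c η * φ (Real.exp σ • η))) (Real.exp (-σ))
    (hR := (Real.exp_pos _).le)
  rw [finrank_R12] at h
  have h1 : ∀ ξ : R12, Real.exp σ • (Real.exp (-σ) • ξ) = ξ := fun ξ => by
    rw [smul_smul, ← Real.exp_add]; simp
  simp only [h1] at h
  calc ∫ ξ, Ds σ c ξ * φ ξ
      = ∫ ξ, ((Real.exp (-(12 * σ)) : ℝ) : ℂ) * (c (Real.exp (-σ) • ξ) * φ ξ) := by
        refine integral_congr_ae (Eventually.of_forall fun ξ => ?_)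
        simp only [Ds]; ring
    _ = _ := by
        rw [h, integral_const_mul, real_smul, ← mul_assoc, ← ofReal_mul, exp_aux, ofReal_one,
          one_mul]

theorem integral_norm_Ds (c : R12 → ℂ) (σ : ℝ) : ∫ ξ, ‖Ds σ c ξ‖ = ∫ ξ, ‖c ξ‖ := by
  have h := Measure.integral_comp_smul_of_nonneg (volume : Measure R12)
    (fun η => ‖((Real.exp (-(12 * σ)) : ℝ) : ℂ) * c η‖) (Real.exp (-σ))
    (hR := (Real.exp_pos _).le)
  rw [finrank_R12] at h
  unfold Ds
  rw [h]
  simp only [norm_mul, norm_real, Real.norm_of_nonneg (Real.exp_pos _).le]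
  rw [integral_const_mul, smul_eq_mul, ← mul_assoc, exp_aux, one_mul]

theorem aesm_Ds {c : R12 → ℂ} (hc : Integrable c) (ν : Measure ℝ) [SFinite ν] :
    AEStronglyMeasurable (fun p : ℝ × R12 => Ds p.1 c p.2) (ν.prod volume) := by
  have h1 : AEStronglyMeasurable (fun p : ℝ × R12 => c (Real.exp (-p.1) • p.2)) (ν.prod volume) :=
    hc.1.comp_quasiMeasurePreserving (qmp_exp ν)
  have h2 : Continuous fun p : ℝ × R12 => ((Real.exp (-(12 * p.1)) : ℝ) : ℂ) := by fun_prop
  exact h2.aestronglyMeasurable.mul h1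

theorem integrable_joint {c : R12 → ℂ} (hc : Integrable c) (ν : Measure ℝ) [IsFiniteMeasure ν] :
    Integrable (fun p : ℝ × R12 => Ds p.1 c p.2) (ν.prod volume) := by
  have hm := aesm_Ds hc ν
  rw [integrable_prod_iff hm]
  refine ⟨Eventually.of_forall fun σ => integrable_Ds hc σ, ?_⟩
  simp only [integral_norm_Ds]
  exact integrable_const _

theorem integrable_joint_mul {c φ : R12 → ℂ} (hc : Integrable c) (hφ : Continuous φ)
    (hb : ∀ ξ, ‖φ ξ‖ ≤ 1) (ν : Measure ℝ) [IsFiniteMeasure ν] :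
    Integrable (fun p : ℝ × R12 => Ds p.1 c p.2 * φ p.2) (ν.prod volume) := by
  have hj := integrable_joint hc ν
  refine hj.mono (hj.1.mul (hφ.comp continuous_snd).aestronglyMeasurable)
    (Eventually.of_forall fun p => ?_)
  rw [norm_mul]
  exact mul_le_of_le_one_right (norm_nonneg _) (hb _)

theorem integrable_mul_bdd {c φ : R12 → ℂ} (hc : Integrable c) (hφ : Continuous φ)
    (hb : ∀ ξ, ‖φ ξ‖ ≤ 1) : Integrable fun ξ => c ξ * φ ξ := by
  refine hc.mono (hc.1.mul hφ.aestronglyMeasurable) (Eventually.of_forall fun ξ => ?_)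
  rw [norm_mul]
  exact mul_le_of_le_one_right (norm_nonneg _) (hb _)

/-- the difference density -/
noncomputable def dd (a c : R12 → ℂ) (s : ℝ) (ξ : R12) : ℂ :=
  Ds s a ξ - a ξ - ∫ σ in Ioc 0 s, Ds σ c ξ

theorem integrable_dd {a c : R12 → ℂ} (ha : Integrable a) (hc : Integrable c) (s : ℝ) :
    Integrable (dd a c s) := by
  unfold dd
  exact ((integrable_Ds ha s).sub ha).sub
    (integrable_joint hc (volume.restrict (Ioc 0 s))).integral_prod_right

theorem int_dd {a c φ : R12 → ℂ} (ha : Integrable a) (hc : Integrable c) (hφ : Continuous φ)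
    (hb : ∀ ξ, ‖φ ξ‖ ≤ 1) (s : ℝ) :
    ∫ ξ, dd a c s ξ * φ ξ = (∫ ξ, a ξ * φ (Real.exp s • ξ)) - (∫ ξ, a ξ * φ ξ)
      - ∫ σ in Ioc 0 s, ∫ ξ, c ξ * φ (Real.exp σ • ξ) := by
  have h1 := integrable_mul_bdd (integrable_Ds ha s) hφ hb
  have h2 := integrable_mul_bdd ha hφ hb
  have hj := integrable_joint_mul hc hφ hb (volume.restrict (Ioc 0 s))
  have h3 : Integrable fun ξ => (∫ σ in Ioc 0 s, Ds σ c ξ) * φ ξ := by
    refine hj.integral_prod_right.congr (Eventually.of_forall fun ξ => ?_)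
    simp only
    rw [integral_mul_const]
  calc ∫ ξ, dd a c s ξ * φ ξ
      = ∫ ξ, (Ds s a ξ * φ ξ - a ξ * φ ξ - (∫ σ in Ioc 0 s, Ds σ c ξ) * φ ξ) := by
        refine integral_congr_ae (Eventually.of_forall fun ξ => ?_)
        simp only [dd]; ring
    _ = (∫ ξ, Ds s a ξ * φ ξ) - (∫ ξ, a ξ * φ ξ)
        - ∫ ξ, (∫ σ in Ioc 0 s, Ds σ c ξ) * φ ξ := by
        have e1 := integral_sub (h1.sub h2) h3
        simp only [Pi.sub_apply] at e1
        rw [e1, integral_sub h1 h2]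
    _ = _ := by
        rw [integral_Ds_mul]
        congr 1
        calc ∫ ξ, (∫ σ in Ioc 0 s, Ds σ c ξ) * φ ξ
            = ∫ ξ, ∫ σ in Ioc 0 s, Ds σ c ξ * φ ξ := by
              refine integral_congr_ae (Eventually.of_forall fun ξ => ?_)
              simp only
              rw [integral_mul_const]
          _ = ∫ σ in Ioc 0 s, ∫ ξ, Ds σ c ξ * φ ξ :=
              integral_integral_swap (μ := (volume : Measure R12)) (ν := volume.restrict (Ioc 0 s))
                (f := fun ξ σ => Ds σ c ξ * φ ξ) hj.swap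
          _ = _ := by simp only [integral_Ds_mul]

theorem continuous_pair {X : Type*} [TopologicalSpace X] [FirstCountableTopology X] {c : R12 → ℂ}
    (hc : Integrable c) {φ : X → R12 → ℂ}
    (hφ : Continuous (Function.uncurry φ)) (hb : ∀ x ξ, ‖φ x ξ‖ ≤ 1) :
    Continuous fun x => ∫ ξ, c ξ * φ x ξ := by
  refine continuous_of_dominated (bound := fun ξ => ‖c ξ‖) ?_ ?_ hc.norm ?_
  · intro x
    exact hc.1.mul (hφ.comp (by fun_prop : Continuous fun ξ : R12 => (x, ξ))).aestronglyMeasurable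
  · intro x
    refine Eventually.of_forall fun ξ => ?_
    rw [norm_mul]
    exact mul_le_of_le_one_right (norm_nonneg _) (hb _ _)
  · refine Eventually.of_forall fun ξ => ?_
    exact continuous_const.mul (hφ.comp (by fun_prop : Continuous fun x : X => (x, ξ)))

theorem ft_eq_mul (a : R12 → ℂ) (y : R12) : ft a y = ∫ ξ, a ξ * ch ξ y := by
  unfold ft ch
  refine integral_congr_ae (Eventually.of_forall fun ξ => ?_)
  simp only
  ring

theorem continuous_ft {c : R12 → ℂ} (hc : Integrable c) : Continuous (ft c) := by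
  have h1 : ft c = fun y => ∫ ξ, c ξ * ch ξ y := funext (ft_eq_mul c)
  rw [h1]
  refine continuous_pair hc (φ := fun y ξ => ch ξ y) ?_ fun y ξ => (norm_ch ξ y).le
  exact continuous_ch.comp (by fun_prop : Continuous fun p : R12 × R12 => (p.2, p.1))

/-- the weak form of `ft c = eul (ft a)` -/
theorem weak_eul {a c : R12 → ℂ} (ha : Integrable a) (ha1 : Integrable fun ξ => ‖ξ‖ * ‖a ξ‖)
    (hc : Integrable c) (h : ∀ y, ft c y = eul (ft a) y) {φ : R12 → ℂ} (hφ : Continuous φ)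
    (hb : ∀ ξ, ‖φ ξ‖ ≤ 1) {s : ℝ} (hs : 0 ≤ s) :
    (∫ ξ, a ξ * φ (Real.exp s • ξ)) - (∫ ξ, a ξ * φ ξ)
      = ∫ σ in (0 : ℝ)..s, ∫ ξ, c ξ * φ (Real.exp σ • ξ) := by
  have hzero : ∀ y, ft (dd a c s) y = 0 := by
    intro y
    rw [ft_eq_mul, int_dd ha hc (continuous_ch_left y) (fun ξ => (norm_ch ξ y).le) s]
    have hch : ∀ (r : ℝ) (ξ : R12), ch (r • ξ) y = ch ξ (r • y) := fun r ξ => by
      unfold ch
      rw [inner_smul_left, inner_smul_right]
      simp
    simp only [hch, ← ft_eq_mul]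
    have hd : ∀ σ : ℝ, HasDerivAt (fun σ : ℝ => ft a (Real.exp σ • y)) (ft c (Real.exp σ • y)) σ := by
      intro σ
      have h1 := Res.hasFDerivAt_ft ha ha1 (Real.exp σ • y)
      have h2 : HasDerivAt (fun σ : ℝ => Real.exp σ • y) (Real.exp σ • y) σ :=
        (Real.hasDerivAt_exp σ).smul_const y
      have h3 := h1.comp_hasDerivAt σ h2
      have h4 : ft c (Real.exp σ • y) = (∫ ξ, ch ξ (Real.exp σ • y) • Res.dc a ξ) (Real.exp σ • y) := by
        rw [h]
        unfold eul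
        rw [h1.fderiv]
      rw [h4]
      exact h3
    have hcont : Continuous fun σ : ℝ => ft c (Real.exp σ • y) :=
      (continuous_ft hc).comp (by fun_prop)
    have h5 := intervalIntegral.integral_eq_sub_of_hasDerivAt (a := 0) (b := s)
      (fun σ _ => hd σ) (hcont.intervalIntegrable _ _)
    rw [intervalIntegral.integral_of_le hs] at h5
    rw [h5]
    simp
  have h1 := DSpec.ft_eq_zero (integrable_dd ha hc s) hzero
  have h2 := int_dd ha hc hφ hb s
  have h3 : ∫ ξ, dd a c s ξ * φ ξ = 0 := by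
    rw [integral_congr_ae (g := fun _ => (0 : ℂ))]
    · simp
    · filter_upwards [h1] with ξ hξ
      rw [hξ, zero_mul]
  rw [h3] at h2
  rw [intervalIntegral.integral_of_le hs]
  exact (sub_eq_zero.1 h2.symm)

/-! ### oscillating functions -/

/-- `e^{i(α|ξ|² + ρ⟨ξ,y⟩)}` -/
noncomputable def os (α ρ : ℝ) (y ξ : R12) : ℂ :=
  exp (I * ((α * ‖ξ‖ ^ 2 + ρ * inner ℝ ξ y : ℝ) : ℂ))

theorem norm_os (α ρ : ℝ) (y ξ : R12) : ‖os α ρ y ξ‖ = 1 := by
  unfold os
  rw [mul_comm]
  exact norm_exp_ofReal_mul_I _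

theorem continuous_os (y : R12) : Continuous fun p : (ℝ × ℝ) × R12 => os p.1.1 p.1.2 y p.2 := by
  unfold os
  fun_prop

theorem continuous_os_left (α ρ : ℝ) (y : R12) : Continuous (os α ρ y) := by
  unfold os
  fun_prop

theorem os_smul (α ρ : ℝ) (y ξ : R12) (s : ℝ) :
    os α ρ y (Real.exp s • ξ) = os (α * Real.exp (2 * s)) (ρ * Real.exp s) y ξ := by
  unfold os
  congr 2
  rw [norm_smul, Real.norm_of_nonneg (Real.exp_pos _).le, inner_smul_left]
  have h : Real.exp (2 * s) = Real.exp s ^ 2 := by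
    rw [← Real.exp_nat_mul]; norm_num
  rw [h]
  push_cast
  simp
  ring

theorem hasDerivAt_os {α ρ : ℝ → ℝ} {α' ρ' t : ℝ} (hα : HasDerivAt α α' t)
    (hρ : HasDerivAt ρ ρ' t) (y ξ : R12) :
    HasDerivAt (fun t => os (α t) (ρ t) y ξ)
      (I * ((α' * ‖ξ‖ ^ 2 + ρ' * inner ℝ ξ y : ℝ) : ℂ) * os (α t) (ρ t) y ξ) t := by
  unfold os
  have h1 : HasDerivAt (fun t => α t * ‖ξ‖ ^ 2 + ρ t * inner ℝ ξ y)
      (α' * ‖ξ‖ ^ 2 + ρ' * inner ℝ ξ y) t := (hα.mul_const _).add (hρ.mul_const _)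
  have h2 := (h1.ofReal_comp.const_mul I).cexp
  convert! h2 using 1
  ring

/-- differentiation under the integral -/
theorem hasDerivAt_osc {a : R12 → ℂ} (h0 : Integrable a) (h1 : Integrable fun ξ => ‖ξ‖ * ‖a ξ‖)
    (h2 : Integrable fun ξ => ‖ξ‖ ^ 2 * ‖a ξ‖) {α ρ α' ρ' : ℝ → ℝ}
    (hα : ∀ t, HasDerivAt α (α' t) t) (hρ : ∀ t, HasDerivAt ρ (ρ' t) t)
    (cα : Continuous α') (cρ : Continuous ρ') (y : R12) (t0 : ℝ) :
    HasDerivAt (fun t => ∫ ξ, a ξ * os (α t) (ρ t) y ξ)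
      (∫ ξ, a ξ * (I * ((α' t0 * ‖ξ‖ ^ 2 + ρ' t0 * inner ℝ ξ y : ℝ) : ℂ) * os (α t0) (ρ t0) y ξ))
      t0 := by
  obtain ⟨A, hA⟩ := (isCompact_closedBall t0 1).exists_bound_of_continuousOn
    (f := α') cα.continuousOn
  obtain ⟨B, hB⟩ := (isCompact_closedBall t0 1).exists_bound_of_continuousOn
    (f := ρ') cρ.continuousOn
  have hint : ∀ t, AEStronglyMeasurable (fun ξ => a ξ * os (α t) (ρ t) y ξ) volume := fun t =>
    h0.1.mul (continuous_os_left _ _ y).aestronglyMeasurable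
  refine (hasDerivAt_integral_of_dominated_loc_of_deriv_le (μ := (volume : Measure R12))
    (F := fun t ξ => a ξ * os (α t) (ρ t) y ξ)
    (F' := fun t ξ => a ξ * (I * ((α' t * ‖ξ‖ ^ 2 + ρ' t * inner ℝ ξ y : ℝ) : ℂ) *
      os (α t) (ρ t) y ξ)) (bound := fun ξ => A * (‖ξ‖ ^ 2 * ‖a ξ‖) + (B * ‖y‖) * (‖ξ‖ * ‖a ξ‖))
    (Metric.ball_mem_nhds t0 one_pos) (Eventually.of_forall hint) ?_ ?_ ?_ ?_ ?_).2
  · refine h0.mono (hint t0) (Eventually.of_forall fun ξ => ?_)
    rw [norm_mul, norm_os, mul_one]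
  · refine h0.1.mul (Continuous.aestronglyMeasurable ?_)
    have := continuous_os_left (α t0) (ρ t0) y
    fun_prop
  · refine Eventually.of_forall fun ξ t ht => ?_
    have ht' : t ∈ Metric.closedBall t0 1 := Metric.ball_subset_closedBall ht
    have e1 := hA t ht'
    have e2 := hB t ht'
    rw [norm_mul, norm_mul, norm_mul, norm_I, norm_os, one_mul, mul_one, norm_real,
      Real.norm_eq_abs]
    rw [Real.norm_eq_abs] at e1 e2
    have e3 := abs_real_inner_le_norm ξ y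
    have e4 : |α' t * ‖ξ‖ ^ 2 + ρ' t * inner ℝ ξ y| ≤ A * ‖ξ‖ ^ 2 + B * (‖ξ‖ * ‖y‖) := by
      refine (abs_add_le _ _).trans ?_
      rw [abs_mul, abs_mul, abs_of_nonneg (sq_nonneg ‖ξ‖)]
      have : 0 ≤ B := (abs_nonneg _).trans e2
      gcongr
    calc ‖a ξ‖ * |α' t * ‖ξ‖ ^ 2 + ρ' t * inner ℝ ξ y|
        ≤ ‖a ξ‖ * (A * ‖ξ‖ ^ 2 + B * (‖ξ‖ * ‖y‖)) := by gcongr
      _ = _ := by ring
  · exact (h2.const_mul A).add (h1.const_mul (B * ‖y‖))
  · refine Eventually.of_forall fun ξ t _ => ?_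
    exact (hasDerivAt_os (hα t) (hρ t) y ξ).const_mul (a ξ)

/-- infinitesimal weak form -/
theorem weak_inf {a c : R12 → ℂ} (h0 : Integrable a) (h1 : Integrable fun ξ => ‖ξ‖ * ‖a ξ‖)
    (h2 : Integrable fun ξ => ‖ξ‖ ^ 2 * ‖a ξ‖) (hc : Integrable c)
    (h : ∀ y, ft c y = eul (ft a) y) (α ρ : ℝ) (y : R12) :
    ∫ ξ, c ξ * os α ρ y ξ
      = ∫ ξ, a ξ * (I * ((2 * α * ‖ξ‖ ^ 2 + ρ * inner ℝ ξ y : ℝ) : ℂ) * os α ρ y ξ) := by
  have hd := hasDerivAt_osc h0 h1 h2 (α := fun s => α * Real.exp (2 * s))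
    (ρ := fun s => ρ * Real.exp s) (α' := fun s => α * (2 * Real.exp (2 * s)))
    (ρ' := fun s => ρ * Real.exp s)
    (fun t => by
      have := (((hasDerivAt_id t).const_mul 2).exp).const_mul α
      convert! this using 1
      simp only [id]; ring)
    (fun t => (Real.hasDerivAt_exp t).const_mul ρ) (by fun_prop) (by fun_prop) y 0
  set Ψ : ℝ → ℂ := fun σ => ∫ ξ, c ξ * os α ρ y (Real.exp σ • ξ) with hΨ
  have hΨc : Continuous Ψ := by
    refine continuous_pair hc (φ := fun σ ξ => os α ρ y (Real.exp σ • ξ)) ?_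
      (fun σ ξ => (norm_os _ _ _ _).le)
    exact (continuous_os_left α ρ y).comp (by fun_prop : Continuous fun p : ℝ × R12 =>
      Real.exp p.1 • p.2)
  have hw : ∀ s, 0 ≤ s → (∫ ξ, a ξ * os (α * Real.exp (2 * s)) (ρ * Real.exp s) y ξ)
      = (∫ ξ, a ξ * os α ρ y ξ) + ∫ σ in (0 : ℝ)..s, Ψ σ := by
    intro s hs
    have := weak_eul h0 h1 hc h (continuous_os_left α ρ y) (fun ξ => (norm_os _ _ _ _).le) hs
    simp only [os_smul] at this
    simp only [hΨ, os_smul]
    rw [← this]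
    ring
  have hd2 : HasDerivAt (fun s => (∫ ξ, a ξ * os α ρ y ξ) + ∫ σ in (0 : ℝ)..s, Ψ σ) (Ψ 0) 0 :=
    (intervalIntegral.integral_hasDerivAt_right (hΨc.intervalIntegrable _ _)
      (hΨc.stronglyMeasurableAtFilter _ _) hΨc.continuousAt).const_add _
  have hd3 : HasDerivWithinAt (fun t => ∫ ξ, a ξ * os (α * Real.exp (2 * t)) (ρ * Real.exp t) y ξ)
      (Ψ 0) (Ici 0) 0 :=
    hd2.hasDerivWithinAt.congr (fun s hs => hw s hs) (hw 0 le_rfl)
  have hu := (uniqueDiffWithinAt_Ici (0 : ℝ)).eq_deriv _ hd.hasDerivWithinAt hd3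
  have e1 : Ψ 0 = ∫ ξ, c ξ * os α ρ y ξ := by simp [hΨ]
  rw [← e1, ← hu]
  simp only [mul_zero, Real.exp_zero, mul_one]
  refine integral_congr_ae (Eventually.of_forall fun ξ => ?_)
  simp only
  congr 4
  ring

/-- RepT -/
theorem repT {a b : R12 → ℂ} (h0 : Integrable a) (h2 : Integrable fun ξ => ‖ξ‖ ^ 2 * ‖a ξ‖)
    (hb : Integrable b) {sg : ℝ} {μ : ℂ} (hμ : 0 < μ.re)
    (heq : ∀ y, (sg : ℂ) * I * lap (ft a) y - (1 / 2) * eul (ft a) y - μ * ft a y = - ft b y)
    (y : R12) :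
    ft a y = ∫ η, b η * ∫ t in Ioi (0 : ℝ),
      exp (-(μ * t) - I * ((sg * (‖η‖ ^ 2 * (1 - Real.exp (-t))) : ℝ) : ℂ)) *
        exp (I * ((Real.exp (-t / 2) * inner ℝ η y : ℝ) : ℂ)) := by
  have h1 : Integrable fun ξ => ‖ξ‖ * ‖a ξ‖ := by
    refine (h0.norm.add h2).mono (continuous_norm.aestronglyMeasurable.mul h0.1.norm)
      (Eventually.of_forall fun ξ => ?_)
    simp only [Pi.add_apply]
    rw [Real.norm_of_nonneg (by positivity), Real.norm_of_nonneg (by positivity)]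
    nlinarith [norm_nonneg (a ξ), norm_nonneg ξ,
      mul_nonneg (sq_nonneg (‖ξ‖ - 1 / 2)) (norm_nonneg (a ξ))]
  -- the density of the Euler field
  have hsq : Integrable fun ξ : R12 => ((‖ξ‖ ^ 2 : ℝ) : ℂ) * a ξ := by
    refine h2.mono ((by fun_prop : Continuous fun ξ : R12 => ((‖ξ‖ ^ 2 : ℝ) : ℂ))
      |>.aestronglyMeasurable.mul h0.1) (Eventually.of_forall fun ξ => ?_)
    rw [norm_mul, norm_real, norm_mul, norm_norm]
  set c : R12 → ℂ := fun ξ => 2 * (b ξ - μ * a ξ - I * sg * (((‖ξ‖ ^ 2 : ℝ) : ℂ) * a ξ)) with hcdef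
  have hc : Integrable c := ((hb.sub (h0.const_mul μ)).sub (hsq.const_mul (I * sg))).const_mul 2
  have hce : ∀ y, ft c y = eul (ft a) y := by
    intro y
    have e1 : ft c y = 2 * (ft b y - μ * ft a y - I * sg * ft (fun ξ => ((‖ξ‖ ^ 2 : ℝ) : ℂ) * a ξ) y) := by
      simp only [ft_eq_mul]
      have j1 := integrable_mul_bdd hb (continuous_ch_left y) (fun ξ => (norm_ch ξ y).le)
      have j2 := integrable_mul_bdd h0 (continuous_ch_left y) (fun ξ => (norm_ch ξ y).le)
      have j3 := integrable_mul_bdd hsq (continuous_ch_left y) (fun ξ => (norm_ch ξ y).le)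
      rw [← integral_const_mul μ, ← integral_const_mul (I * sg), ← integral_sub j1 (j2.const_mul μ)]
      have e2 := integral_sub (j1.sub (j2.const_mul μ)) (j3.const_mul (I * sg))
      simp only [Pi.sub_apply] at e2
      rw [← e2, ← integral_const_mul]
      refine integral_congr_ae (Eventually.of_forall fun ξ => ?_)
      simp only [hcdef]
      ring
    have e3 : ft (fun ξ => ((‖ξ‖ ^ 2 : ℝ) : ℂ) * a ξ) y = - lap (ft a) y := by
      rw [Res.lap_ft h0 h1 h2, ft_eq_mul, ← integral_neg]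
      refine integral_congr_ae (Eventually.of_forall fun ξ => ?_)
      simp only
      push_cast
      ring
    rw [e1, e3]
    linear_combination 2 * heq y
  -- the curve
  set al : ℝ → ℝ := fun t => -(sg * (1 - Real.exp (-t))) with hal
  set rh : ℝ → ℝ := fun t => Real.exp (-t / 2) with hrh
  have hdal : ∀ t, HasDerivAt al (-(sg * Real.exp (-t))) t := fun t => by
    have h3 : HasDerivAt (fun t : ℝ => Real.exp (-t)) (-Real.exp (-t)) t := by
      simpa using (hasDerivAt_neg t).exp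
    have := ((h3.const_sub 1).const_mul sg).neg
    convert! this using 1
    ring
  have hdrh : ∀ t, HasDerivAt rh (-(1 / 2) * Real.exp (-t / 2)) t := fun t => by
    have h3 : HasDerivAt (fun t : ℝ => -t / 2) (-1 / 2) t := (hasDerivAt_neg t).div_const 2
    have := h3.exp
    convert! this using 1
    ring
  have hJ : ∀ t, HasDerivAt (fun t => ∫ ξ, a ξ * os (al t) (rh t) y ξ)
      (∫ ξ, a ξ * (I * ((-(sg * Real.exp (-t)) * ‖ξ‖ ^ 2 + -(1 / 2) * Real.exp (-t / 2) *
        inner ℝ ξ y : ℝ) : ℂ) * os (al t) (rh t) y ξ)) t := fun t =>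
    hasDerivAt_osc h0 h1 h2 hdal hdrh (by fun_prop) (by fun_prop) y t
  -- b-relation
  have hbr : ∀ t, (∫ ξ, a ξ * (I * ((-(sg * Real.exp (-t)) * ‖ξ‖ ^ 2 + -(1 / 2) *
      Real.exp (-t / 2) * inner ℝ ξ y : ℝ) : ℂ) * os (al t) (rh t) y ξ))
      = μ * (∫ ξ, a ξ * os (al t) (rh t) y ξ) - ∫ ξ, b ξ * os (al t) (rh t) y ξ := by
    intro t
    have hw := weak_inf h0 h1 h2 hc hce (al t) (rh t) y
    have hosc := continuous_os_left (al t) (rh t) y
    have hosn : ∀ ξ, ‖os (al t) (rh t) y ξ‖ ≤ 1 := fun ξ => (norm_os _ _ _ _).le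
    have j1 := integrable_mul_bdd hb hosc hosn
    have j2 := integrable_mul_bdd h0 hosc hosn
    have j3 := integrable_mul_bdd hsq hosc hosn
    have jin : Integrable fun ξ => a ξ * (((inner ℝ ξ y : ℝ) : ℂ) * os (al t) (rh t) y ξ) := by
      refine (h1.const_mul ‖y‖).mono (h0.1.mul (Continuous.aestronglyMeasurable (by fun_prop)))
        (Eventually.of_forall fun ξ => ?_)
      rw [norm_mul, norm_mul, norm_os, norm_real, Real.norm_eq_abs, mul_one, norm_mul, norm_mul,
        norm_norm, norm_norm, norm_norm]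
      have := abs_real_inner_le_norm ξ y
      nlinarith [norm_nonneg (a ξ)]
    -- expand everything in the three integrals
    have k1 : ∫ ξ, c ξ * os (al t) (rh t) y ξ = 2 * ((∫ ξ, b ξ * os (al t) (rh t) y ξ)
        - μ * (∫ ξ, a ξ * os (al t) (rh t) y ξ)
        - I * sg * ∫ ξ, ((‖ξ‖ ^ 2 : ℝ) : ℂ) * a ξ * os (al t) (rh t) y ξ) := by
      rw [← integral_const_mul μ, ← integral_const_mul (I * sg), ← integral_sub j1 (j2.const_mul μ)]
      have e2 := integral_sub (j1.sub (j2.const_mul μ)) (j3.const_mul (I * sg))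
      simp only [Pi.sub_apply] at e2
      rw [← e2, ← integral_const_mul]
      refine integral_congr_ae (Eventually.of_forall fun ξ => ?_)
      simp only [hcdef]
      ring
    have k2 : ∀ A B : ℝ, ∫ ξ, a ξ * (I * ((A * ‖ξ‖ ^ 2 + B * inner ℝ ξ y : ℝ) : ℂ) *
        os (al t) (rh t) y ξ) = I * A * (∫ ξ, ((‖ξ‖ ^ 2 : ℝ) : ℂ) * a ξ * os (al t) (rh t) y ξ)
        + I * B * ∫ ξ, a ξ * (((inner ℝ ξ y : ℝ) : ℂ) * os (al t) (rh t) y ξ) := by
      intro A B
      rw [← integral_const_mul, ← integral_const_mul, ← integral_add (j3.const_mul _)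
        (jin.const_mul _)]
      refine integral_congr_ae (Eventually.of_forall fun ξ => ?_)
      simp only
      push_cast
      ring
    rw [k2] at hw
    rw [k1] at hw
    rw [k2]
    have hal' : ((al t : ℝ) : ℂ) = -(sg * (1 - ((Real.exp (-t) : ℝ) : ℂ))) := by
      simp [hal]
    push_cast at hw ⊢
    rw [hal'] at hw
    have hrh' : ((rh t : ℝ) : ℂ) = ((Real.exp (-t / 2) : ℝ) : ℂ) := rfl
    rw [hrh'] at hw
    push_cast at hw
    linear_combination (1 / 2 : ℂ) * hw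
  -- F
  have hF : ∀ t : ℝ, HasDerivAt (fun t : ℝ => exp (-(μ * t)) * ∫ ξ, a ξ * os (al t) (rh t) y ξ)
      (-(exp (-(μ * t)) * ∫ ξ, b ξ * os (al t) (rh t) y ξ)) t := by
    intro t
    have e1 : HasDerivAt (fun t : ℝ => exp (-(μ * t))) (-μ * exp (-(μ * t))) t := by
      have h3 : HasDerivAt (fun t : ℝ => (t : ℂ)) 1 t := (hasDerivAt_id t).ofReal_comp
      have := ((h3.const_mul μ).neg).cexp
      convert! this using 1
      simp only [Pi.neg_apply]
      ring
    have e2 := e1.mul (hJ t)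
    rw [hbr t] at e2
    convert! e2 using 1
    ring
  have hnexp : ∀ t : ℝ, ‖exp (-(μ * t))‖ = Real.exp (-(μ.re * t)) := fun t => by
    rw [norm_exp]; simp
  have hbnd : ∀ (g : R12 → ℂ) (t : ℝ), ‖∫ ξ, g ξ * os (al t) (rh t) y ξ‖ ≤ ∫ ξ, ‖g ξ‖ := by
    intro g t
    refine (norm_integral_le_integral_norm _).trans (le_of_eq ?_)
    refine integral_congr_ae (Eventually.of_forall fun ξ => ?_)
    simp only [norm_mul, norm_os, mul_one]
  have hexpint : IntegrableOn (fun t : ℝ => Real.exp (-(μ.re * t))) (Ioi 0) := by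
    have h4 : (fun t : ℝ => Real.exp (-(μ.re * t))) = fun t => Real.exp (-μ.re * t) := by
      funext t; ring_nf
    rw [h4]
    exact integrableOn_exp_mul_Ioi (by linarith) 0
  have hcurve : Continuous fun t : ℝ => ((al t, rh t) : ℝ × ℝ) := by
    have c1 : Continuous al := by rw [hal]; fun_prop
    have c2 : Continuous rh := by rw [hrh]; fun_prop
    exact c1.prodMk c2
  have hposc : Continuous fun p : ℝ × R12 => os (al p.1) (rh p.1) y p.2 :=
    (continuous_os y).comp (by fun_prop : Continuous fun p : ℝ × R12 => ((al p.1, rh p.1), p.2))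
  have hcb : Continuous fun t => ∫ ξ, b ξ * os (al t) (rh t) y ξ :=
    continuous_pair hb (φ := fun t ξ => os (al t) (rh t) y ξ) hposc
      (fun t ξ => (norm_os _ _ _ _).le)
  have hFint : IntegrableOn (fun t : ℝ => -(exp (-(μ * t)) * ∫ ξ, b ξ * os (al t) (rh t) y ξ))
      (Ioi 0) := by
    refine (hexpint.mul_const (∫ ξ, ‖b ξ‖)).mono ?_ (Eventually.of_forall fun t => ?_)
    · exact (Continuous.aestronglyMeasurable (by fun_prop))
    · rw [norm_neg, norm_mul, hnexp, Real.norm_of_nonneg (mul_nonneg (Real.exp_pos _).le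
        (integral_nonneg fun _ => norm_nonneg _))]
      exact mul_le_mul_of_nonneg_left (hbnd b t) (Real.exp_pos _).le
  have hlim : Tendsto (fun t : ℝ => exp (-(μ * t)) * ∫ ξ, a ξ * os (al t) (rh t) y ξ) atTop
      (𝓝 0) := by
    rw [tendsto_zero_iff_norm_tendsto_zero]
    have h5 : Tendsto (fun t : ℝ => Real.exp (-(μ.re * t)) * ∫ ξ, ‖a ξ‖) atTop (𝓝 0) := by
      have h6 : Tendsto (fun t : ℝ => μ.re * t) atTop atTop := tendsto_id.const_mul_atTop hμ
      have h7 := (Real.tendsto_exp_neg_atTop_nhds_zero.comp h6).mul_const (∫ ξ, ‖a ξ‖)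
      rw [zero_mul] at h7
      exact h7
    refine squeeze_zero (fun t => norm_nonneg _) (fun t => ?_) h5
    rw [norm_mul, hnexp]
    exact mul_le_mul_of_nonneg_left (hbnd a t) (Real.exp_pos _).le
  have hfin := integral_Ioi_of_hasDerivAt_of_tendsto' (a := (0 : ℝ)) (m := 0)
    (fun t _ => hF t) hFint hlim
  have hF0 : exp (-(μ * ((0 : ℝ) : ℂ))) * ∫ ξ, a ξ * os (al 0) (rh 0) y ξ = ft a y := by
    rw [ft_eq_mul]
    simp [hal, hrh, os, ch]
  rw [hF0, zero_sub, integral_neg, neg_inj] at hfin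
  rw [← hfin]
  -- Fubini
  have hprod : Integrable (fun p : R12 × ℝ => b p.1 * (exp (-(μ * p.2)) * os (al p.2) (rh p.2) y p.1))
      ((volume : Measure R12).prod (volume.restrict (Ioi 0))) := by
    have h8 : Integrable (fun p : R12 × ℝ => b p.1 * ((Real.exp (-(μ.re * p.2)) : ℝ) : ℂ))
      ((volume : Measure R12).prod (volume.restrict (Ioi 0))) := hb.mul_prod hexpint.ofReal
    refine h8.mono ?_ (Eventually.of_forall fun p => ?_)
    · refine (hb.1.comp_fst).mul (Continuous.aestronglyMeasurable ?_)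
      have : Continuous fun p : R12 × ℝ => os (al p.2) (rh p.2) y p.1 :=
        hposc.comp (by fun_prop : Continuous fun p : R12 × ℝ => (p.2, p.1))
      fun_prop
    · rw [norm_mul, norm_mul, norm_mul, norm_os, hnexp, mul_one, norm_real,
        Real.norm_of_nonneg (Real.exp_pos _).le]
  calc ∫ t in Ioi (0 : ℝ), exp (-(μ * t)) * ∫ ξ, b ξ * os (al t) (rh t) y ξ
      = ∫ t in Ioi (0 : ℝ), ∫ ξ, b ξ * (exp (-(μ * t)) * os (al t) (rh t) y ξ) := by
        refine integral_congr_ae (Eventually.of_forall fun t => ?_)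
        simp only
        rw [← integral_const_mul]
        refine integral_congr_ae (Eventually.of_forall fun ξ => ?_)
        simp only
        ring
    _ = ∫ ξ, ∫ t in Ioi (0 : ℝ), b ξ * (exp (-(μ * t)) * os (al t) (rh t) y ξ) :=
        integral_integral_swap (μ := volume.restrict (Ioi (0 : ℝ))) (ν := (volume : Measure R12))
          (f := fun t ξ => b ξ * (exp (-(μ * t)) * os (al t) (rh t) y ξ)) hprod.swap
    _ = _ := by
        refine integral_congr_ae (Eventually.of_forall fun ξ => ?_)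
        simp only
        rw [integral_const_mul]
        congr 1
        refine integral_congr_ae (Eventually.of_forall fun t => ?_)
        simp only [os, hal, hrh]
        rw [← exp_add, ← exp_add]
        congr 1
        push_cast
        ring

end Crest.Agent.R086.RepT
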