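import Crest.Agent.R086.CHF2
import Crest.Agent.R086.RepT

/-!
Row 86, Part C, regime (R1) (helper590), third file: `RepStmt` from helper246's `repT`, hence `hf` without hypotheses.
-/

set_option autoImplicit false

open MeasureTheory Complex Set Filter
open scoped ContDiff Topology

namespace Crest.Agent.R086.CHF

open Crest.Agent.R086 Crest.Agent.R086.CReg

theorem repStmt : RepStmt := by
  intro σ _ mu hmu f h a b ha hb heq
  have h2 : Integrable fun ξ : R12 => ‖ξ‖ ^ 2 * ‖a ξ‖ :=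
    DGen.moments (N := 2) (by simpa [wt] using XA.int_norm ha) (XA.aesm ha) 2 le_rfl
  have hf : f = ft a := XA.ft_of ha
  have hh : h = ft b := XA.ft_of hb
  intro y
  have := RepT.repT (XA.integrable_of ha) h2 (XA.integrable_of hb) hmu
    (sg := σ) (by intro y; rw [← hf, ← hh]; exact heq y) y
  rw [hf, this]
  rfl

/-- **(R1)**: no eigenpair with `|lam| ≥ (1000 n B)^4`, unconditional. -/
theorem hf' {n : ℕ} (P : Profile n) {B : ℝ} (hB : 1 ≤ B)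
    (hV1 : XBd 0 P.V1 B) (hV2 : XBd 0 P.V2 B) (hV3 : XBd 0 P.V2c B)
    (hW1 : ∀ i : Fin 12, XBd 0 (fun y => ((y i : ℝ) : ℂ) * P.V1 y) B)
    (hW2 : ∀ i : Fin 12, XBd 0 (fun y => ((y i : ℝ) : ℂ) * P.V2 y) B)
    (hW3 : ∀ i : Fin 12, XBd 0 (fun y => ((y i : ℝ) : ℂ) * P.V2c y) B)
    (hX1 : InX 2 P.V1) (hX2 : InX 2 P.V2) (hX3 : InX 2 P.V2c) (hom : |P.om| ≤ 1)
    {lam : ℂ} (hre : 0 ≤ lam.re) (hbig : (1000 * n * B) ^ 4 ≤ ‖lam‖) {f g : R12 → ℂ}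
    (hf : InX 2 f) (hg : InX 2 g) (e1 : ∀ y, P.gen1 f g y = lam * f y)
    (e2 : ∀ y, P.gen2 f g y = lam * g y) : (∀ y, f y = 0) ∧ ∀ y, g y = 0 :=
  CHF.hf repStmt P hB hV1 hV2 hV3 hW1 hW2 hW3 hX1 hX2 hX3 hom hre hbig hf hg e1 e2

end Crest.Agent.R086.CHF
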