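import Crest.Agent.R086.C2Bd

/-!
Row 86 (S0114), Part C, CASE III: the finite-dimensional part (boundary algebra and closing),
helper851.  Everything is stated for real and complex numbers (values at `r = rb`).
-/

set_option autoImplicit false

open Complex ComplexConjugate

namespace Crest.Agent.R086.CIII

open Crest.Agent.R086.C2

/-- the closing lemma on real numbers -/
theorem close_red {A : ℝ} (hA : 1 ≤ A) {K x y N k se : ℝ} (hK : 0 ≤ K) (hx : 0 ≤ x) (hy : 0 ≤ y)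
    (hk : 25 * A ^ 3 ≤ k) (hse : 0 ≤ se) (hse2 : 16 * A ^ 2 * se ≤ 1)
    (ha : K + k * y ≤ A * (k ^ 2 * x + y + se * (K + k * (x + y))))
    (hb : k * x ≤ A * (y / k + N + se / k * (K + k * (x + y))))
    (hd : k ^ 2 * N ≤ A * (K + k * (x + y))) : K = 0 ∧ x = 0 ∧ y = 0 := by
  have hA0 : 0 < A := by linarith
  have hA2 : 1 ≤ A ^ 2 := one_le_pow₀ hA
  have hA3 : 1 ≤ A ^ 3 := one_le_pow₀ hA
  have hAA3 : A ≤ A ^ 3 := by
    calc A = A ^ 1 := (pow_one A).symm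
      _ ≤ A ^ 3 := pow_le_pow_right₀ hA (by norm_num)
  have hk1 : 1 ≤ k := by linarith
  have hk0 : 0 < k := by linarith
  have h4A : 4 * A ≤ k := by linarith
  have hAse : A * se ≤ 1 / 4 := by
    have : A * se ≤ A ^ 2 * se := by
      refine mul_le_mul_of_nonneg_right ?_ hse
      nlinarith
    linarith
  set Y := K + k * (x + y) with hY
  have hY0 : 0 ≤ Y := by positivity
  have e1 : A * (se * Y) ≤ 1 / 4 * Y := by
    rw [← mul_assoc]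
    exact mul_le_mul_of_nonneg_right hAse hY0
  have e2 : A * y ≤ k * y / 4 := by
    have : 4 * A * y ≤ k * y := mul_le_mul_of_nonneg_right h4A hy
    linarith
  have e3 : k * x ≤ A * (k ^ 2 * x) := by
    have h1 : k * x ≤ k ^ 2 * x := mul_le_mul_of_nonneg_right (by nlinarith) hx
    have h2 : k ^ 2 * x ≤ A * (k ^ 2 * x) := le_mul_of_one_le_left (by positivity) hA
    linarith
  have e4 : 3 / 4 * K + 1 / 2 * (k * y) ≤ 5 / 4 * (A * (k ^ 2 * x)) := by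
    have h1 : A * (k ^ 2 * x + y + se * Y) = A * (k ^ 2 * x) + A * y + A * (se * Y) := by ring
    rw [h1] at ha
    have h2 : Y = K + k * x + k * y := by rw [hY]; ring
    rw [h2] at e1
    linarith
  have hky : 0 ≤ k * y := by positivity
  have hX0 : 0 ≤ A * (k ^ 2 * x) := by positivity
  have e5 : k * y ≤ 5 / 2 * (A * (k ^ 2 * x)) := by linarith
  have e6 : K ≤ 5 / 3 * (A * (k ^ 2 * x)) := by linarith
  have e7 : Y ≤ 8 * (A * (k ^ 2 * x)) := by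
    have h2 : Y = K + k * x + k * y := by rw [hY]; ring
    rw [h2]; linarith
  -- consequences
  have f1 : y / k ≤ 5 / 2 * (A * x) := by
    rw [div_le_iff₀ hk0]
    have h1 : k * y ≤ k * (5 / 2 * (A * (k * x))) := by
      refine e5.trans (le_of_eq ?_); ring
    have h2 := le_of_mul_le_mul_left h1 hk0
    linarith
  have f2 : N ≤ 8 * (A ^ 2 * x) := by
    have h1 : k ^ 2 * N ≤ k ^ 2 * (8 * (A ^ 2 * x)) := by
      refine hd.trans ?_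
      calc A * Y ≤ A * (8 * (A * (k ^ 2 * x))) := mul_le_mul_of_nonneg_left e7 hA0.le
        _ = k ^ 2 * (8 * (A ^ 2 * x)) := by ring
    exact le_of_mul_le_mul_left h1 (by positivity)
  have f3 : se / k * Y ≤ 8 * (A * (se * (k * x))) := by
    calc se / k * Y ≤ se / k * (8 * (A * (k ^ 2 * x))) :=
          mul_le_mul_of_nonneg_left e7 (by positivity)
      _ = 8 * (A * (se * (k * x))) := by field_simp
  have f4 : k * x ≤ 12 * (A ^ 3 * x) + 1 / 2 * (k * x) := by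
    have h1 : A * (y / k + N + se / k * Y) ≤
        A * (5 / 2 * (A * x) + 8 * (A ^ 2 * x) + 8 * (A * (se * (k * x)))) :=
      mul_le_mul_of_nonneg_left (by linarith) hA0.le
    have h2 : A * (5 / 2 * (A * x) + 8 * (A ^ 2 * x) + 8 * (A * (se * (k * x)))) =
        5 / 2 * (A ^ 2 * x) + 8 * (A ^ 3 * x) + (16 * A ^ 2 * se) * (k * x) / 2 := by ring
    have h3 : A ^ 2 * x ≤ A ^ 3 * x :=
      mul_le_mul_of_nonneg_right (pow_le_pow_right₀ hA (by norm_num)) hx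
    have h4 : (16 * A ^ 2 * se) * (k * x) ≤ 1 * (k * x) :=
      mul_le_mul_of_nonneg_right hse2 (by positivity)
    have h5 : 0 ≤ A ^ 3 * x := by positivity
    rw [h2] at h1
    linarith
  have f5 : 25 * (A ^ 3 * x) ≤ k * x := by
    have := mul_le_mul_of_nonneg_right hk hx
    linarith
  have hx0 : x = 0 := by
    by_contra hne
    have hxp : 0 < x := lt_of_le_of_ne hx (Ne.symm hne)
    have : 0 < A ^ 3 * x := by positivity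
    linarith
  subst hx0
  have h1 : A * (k ^ 2 * 0) = 0 := by ring
  rw [h1] at e5 e6
  have hK0 : K = 0 := by linarith
  have hy0 : y = 0 := by
    have h2 : k * y = 0 := by linarith
    rcases mul_eq_zero.1 h2 with h3 | h3
    · exact absurd h3 hk0.ne'
    · exact h3
  exact ⟨hK0, rfl, hy0⟩

/-- Young's inequality with a weight -/
theorem cross_le {w a b t X E : ℝ} (ht : 0 < t) (hw : 0 ≤ w)
    (hX : w * a ^ 2 ≤ X) (hE : w * b ^ 2 ≤ t ^ 2 * E) : w * (a * b) ≤ t * (X + E) / 2 := by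
  have h1 : 0 ≤ w * (t * a - b) ^ 2 := by positivity
  have h2 : w * (t * a - b) ^ 2 = t ^ 2 * (w * a ^ 2) - 2 * t * (w * (a * b)) + w * b ^ 2 := by ring
  rw [h2] at h1
  have h3 : t ^ 2 * (w * a ^ 2) ≤ t ^ 2 * X := mul_le_mul_of_nonneg_left hX (by positivity)
  have h4 : t * (2 * (w * (a * b))) ≤ t * (t * (X + E)) := by nlinarith
  have h5 := le_of_mul_le_mul_left h4 ht
  linarith

/-- the virial boundary form in the channels `u = s + d`, `v = s - d` -/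
theorem bv_eq (s s1 d d1 : ℂ) (w m R2 Lam k n P : ℝ) :
    (1 / 2) * (m * w * (‖s1‖ ^ 2 + ‖d1‖ ^ 2) - Lam * (m * w / R2) * (‖s‖ ^ 2 + ‖d‖ ^ 2)
      - n * (m * w * P) * ‖s‖ ^ 2 - 2 * (-k ^ 2) * (m * w) * (d * conj s).re)
      + 6 * (w * (conj s * s1 + conj d * d1).re)
    = w * (3 * (conj (s + d) * (s1 + d1)).re + m / 4 * ‖s1 + d1‖ ^ 2
        - m / 4 * (Lam / R2 - k ^ 2) * ‖s + d‖ ^ 2)
      + w * (3 * (conj (s - d) * (s1 - d1)).re + m / 4 * ‖s1 - d1‖ ^ 2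
        - m / 4 * (Lam / R2 + k ^ 2) * ‖s - d‖ ^ 2)
      - (1 / 2) * (n * (m * w * P) * ‖s‖ ^ 2) := by
  have h1 := bd_re s d s1 d1
  have h2 := bd_sq s d
  have h3 := bd_sq s1 d1
  have h4 : (d * conj s).re = (‖s + d‖ ^ 2 - ‖s - d‖ ^ 2) / 4 := by
    rw [← bd_cross s d, mul_comm]
  rw [h1, h4, h3, h2]
  ring

/-- size of the zeroth order coefficient -/
theorem const_le {C0 m a0 b : ℝ} (hC0 : 1 ≤ C0) (_hm0 : 0 ≤ m) (hm : m ≤ C0 ^ 2)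
    (ha0 : |a0| ≤ 7 * C0) (hb : |b| ≤ C0 ^ 2) :
    m / 4 * (a0 ^ 2 + b ^ 2 / 4) - 3 * a0 ≤ 34 * C0 ^ 6 := by
  have hC : 0 < C0 := by linarith
  have e1 : a0 ^ 2 ≤ (7 * C0) ^ 2 := by
    rw [← sq_abs a0]; exact pow_le_pow_left₀ (abs_nonneg _) ha0 2
  have e2 : b ^ 2 ≤ (C0 ^ 2) ^ 2 := by
    rw [← sq_abs b]; exact pow_le_pow_left₀ (abs_nonneg _) hb 2
  have p46 : C0 ^ 4 ≤ C0 ^ 6 := pow_le_pow_right₀ hC0 (by norm_num)
  have p16 : C0 ≤ C0 ^ 6 := by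
    calc C0 = C0 ^ 1 := (pow_one _).symm
      _ ≤ C0 ^ 6 := pow_le_pow_right₀ hC0 (by norm_num)
  have e3 : m / 4 * (a0 ^ 2 + b ^ 2 / 4) ≤ C0 ^ 2 / 4 * ((7 * C0) ^ 2 + (C0 ^ 2) ^ 2 / 4) := by
    refine mul_le_mul (by linarith) (by linarith) (by positivity) (by positivity)
  have e4 : C0 ^ 2 / 4 * ((7 * C0) ^ 2 + (C0 ^ 2) ^ 2 / 4) = 49 / 4 * C0 ^ 4 + C0 ^ 6 / 16 := by
    ring
  have e5 := neg_abs_le a0
  rw [e4] at e3
  have p0 : 0 < C0 ^ 6 := by positivity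
  linarith

/-- coefficient of the propagating channel -/
theorem coef_u {C0 k m a0 b Lr : ℝ} {h : ℂ} (hC0 : 1 ≤ C0) (hk : 1 ≤ k) (hm0 : 0 ≤ m)
    (hm : m ≤ C0 ^ 2) (ha0 : |a0| ≤ 7 * C0) (hb : |b| ≤ C0 ^ 2) (h1 : 0 ≤ 3 - m * a0 / 2)
    (h2 : 3 - m * a0 / 2 ≤ C0 / 4) (hh : ‖h‖ ≤ C0 * k) (hL : -Lr ≤ k ^ 2) :
    (3 - m * a0 / 2) * h.re + m / 4 * (‖h‖ ^ 2 - Lr) - m * b / 4 * h.im
      + (m / 4 * (a0 ^ 2 + b ^ 2 / 4) - 3 * a0) ≤ 35 * C0 ^ 6 * k ^ 2 := by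
  have hC : 0 < C0 := by linarith
  have hk0 : 0 < k := by linarith
  have hkk : k ≤ k ^ 2 := by nlinarith
  have hcst := const_le hC0 hm0 hm ha0 hb
  have hre : h.re ≤ C0 * k := (Complex.re_le_norm h).trans hh
  have him : |h.im| ≤ C0 * k := (Complex.abs_im_le_norm h).trans hh
  have t1 : (3 - m * a0 / 2) * h.re ≤ C0 / 4 * (C0 * k) := by
    calc (3 - m * a0 / 2) * h.re ≤ (3 - m * a0 / 2) * (C0 * k) :=
          mul_le_mul_of_nonneg_left hre h1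
      _ ≤ C0 / 4 * (C0 * k) := mul_le_mul_of_nonneg_right h2 (by positivity)
  have t2 : m / 4 * (‖h‖ ^ 2 - Lr) ≤ C0 ^ 2 / 4 * ((C0 * k) ^ 2 + k ^ 2) := by
    have h3 : ‖h‖ ^ 2 ≤ (C0 * k) ^ 2 := pow_le_pow_left₀ (norm_nonneg _) hh 2
    calc m / 4 * (‖h‖ ^ 2 - Lr) ≤ m / 4 * ((C0 * k) ^ 2 + k ^ 2) :=
          mul_le_mul_of_nonneg_left (by linarith) (by positivity)
      _ ≤ C0 ^ 2 / 4 * ((C0 * k) ^ 2 + k ^ 2) :=
          mul_le_mul_of_nonneg_right (by linarith) (by positivity)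
  have t3 : -(m * b / 4 * h.im) ≤ C0 ^ 2 * C0 ^ 2 / 4 * (C0 * k) := by
    have h3 : |m * b / 4 * h.im| ≤ C0 ^ 2 * C0 ^ 2 / 4 * (C0 * k) := by
      rw [abs_mul, abs_div, abs_mul, abs_of_nonneg hm0, abs_of_pos (by norm_num : (0:ℝ) < 4)]
      refine mul_le_mul ?_ him (abs_nonneg _) (by positivity)
      exact div_le_div_of_nonneg_right (mul_le_mul hm hb (abs_nonneg _) (by positivity))
        (by norm_num)
    exact (neg_le_abs _).trans h3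
  have p2 : C0 ^ 2 ≤ C0 ^ 6 := pow_le_pow_right₀ hC0 (by norm_num)
  have p4 : C0 ^ 4 ≤ C0 ^ 6 := pow_le_pow_right₀ hC0 (by norm_num)
  have p5 : C0 ^ 5 ≤ C0 ^ 6 := pow_le_pow_right₀ hC0 (by norm_num)
  have q1 : C0 / 4 * (C0 * k) ≤ 1 / 4 * (C0 ^ 6 * k ^ 2) := by
    have : C0 ^ 2 * k ≤ C0 ^ 6 * k ^ 2 := mul_le_mul p2 hkk hk0.le (by positivity)
    calc C0 / 4 * (C0 * k) = 1 / 4 * (C0 ^ 2 * k) := by ring
      _ ≤ _ := by linarith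
  have q2 : C0 ^ 2 / 4 * ((C0 * k) ^ 2 + k ^ 2) ≤ 1 / 2 * (C0 ^ 6 * k ^ 2) := by
    have e1 : C0 ^ 4 * k ^ 2 ≤ C0 ^ 6 * k ^ 2 := mul_le_mul_of_nonneg_right p4 (by positivity)
    have e2 : C0 ^ 2 * k ^ 2 ≤ C0 ^ 6 * k ^ 2 := mul_le_mul_of_nonneg_right p2 (by positivity)
    calc C0 ^ 2 / 4 * ((C0 * k) ^ 2 + k ^ 2) = 1 / 4 * (C0 ^ 4 * k ^ 2) + 1 / 4 * (C0 ^ 2 * k ^ 2) := by
          ring
      _ ≤ _ := by linarith
  have q3 : C0 ^ 2 * C0 ^ 2 / 4 * (C0 * k) ≤ 1 / 4 * (C0 ^ 6 * k ^ 2) := by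
    have : C0 ^ 5 * k ≤ C0 ^ 6 * k ^ 2 := mul_le_mul p5 hkk hk0.le (by positivity)
    calc C0 ^ 2 * C0 ^ 2 / 4 * (C0 * k) = 1 / 4 * (C0 ^ 5 * k) := by ring
      _ ≤ _ := by linarith
  have q4 : 34 * C0 ^ 6 ≤ 34 * (C0 ^ 6 * k ^ 2) := by
    have : C0 ^ 6 * 1 ≤ C0 ^ 6 * k ^ 2 :=
      mul_le_mul_of_nonneg_left (by nlinarith) (by positivity)
    linarith
  linarith

/-- coefficient of the evanescent channel -/
theorem coef_v {C0 k m a0 b Lr : ℝ} {h : ℂ} (hC0 : 1 ≤ C0) (hk : 1 ≤ k) (hm0 : 0 ≤ m)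
    (hm : m ≤ C0 ^ 2) (ha0 : |a0| ≤ 7 * C0) (hb : |b| ≤ C0 ^ 2)
    (h1 : 1 / (4 * C0) ≤ 3 - m * a0 / 2)
    (hre : h.re ≤ -k / C0) (hsq : ‖h‖ ^ 2 ≤ Lr + C0) (him : |h.im| ≤ C0 / k) :
    (3 - m * a0 / 2) * h.re + m / 4 * (‖h‖ ^ 2 - Lr) - m * b / 4 * h.im
      + (m / 4 * (a0 ^ 2 + b ^ 2 / 4) - 3 * a0) ≤ -(k / (4 * C0 ^ 2)) + 35 * C0 ^ 6 := by
  have hC : 0 < C0 := by linarith
  have hk0 : 0 < k := by linarith
  have hcst := const_le hC0 hm0 hm ha0 hb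
  have t1 : (3 - m * a0 / 2) * h.re ≤ -(k / (4 * C0 ^ 2)) := by
    have h3 : (3 - m * a0 / 2) * h.re ≤ (3 - m * a0 / 2) * (-k / C0) :=
      mul_le_mul_of_nonneg_left hre (le_trans (by positivity) h1)
    have h4 : 1 / (4 * C0) * (k / C0) ≤ (3 - m * a0 / 2) * (k / C0) :=
      mul_le_mul_of_nonneg_right h1 (by positivity)
    have e : 1 / (4 * C0) * (k / C0) = k / (4 * C0 ^ 2) := by field_simp
    rw [e] at h4
    have e2 : (3 - m * a0 / 2) * (-k / C0) = -((3 - m * a0 / 2) * (k / C0)) := by ring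
    rw [e2] at h3
    linarith
  have t2 : m / 4 * (‖h‖ ^ 2 - Lr) ≤ C0 ^ 2 / 4 * C0 := by
    calc m / 4 * (‖h‖ ^ 2 - Lr) ≤ m / 4 * C0 :=
          mul_le_mul_of_nonneg_left (by linarith) (by positivity)
      _ ≤ C0 ^ 2 / 4 * C0 := mul_le_mul_of_nonneg_right (by linarith) (by positivity)
  have him2 : |h.im| ≤ C0 := by
    refine him.trans ?_
    rw [div_le_iff₀ hk0]
    nlinarith
  have t3 : -(m * b / 4 * h.im) ≤ C0 ^ 2 * C0 ^ 2 / 4 * C0 := by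
    have h3 : |m * b / 4 * h.im| ≤ C0 ^ 2 * C0 ^ 2 / 4 * C0 := by
      rw [abs_mul, abs_div, abs_mul, abs_of_nonneg hm0, abs_of_pos (by norm_num : (0:ℝ) < 4)]
      refine mul_le_mul ?_ him2 (abs_nonneg _) (by positivity)
      exact div_le_div_of_nonneg_right (mul_le_mul hm hb (abs_nonneg _) (by positivity))
        (by norm_num)
    exact (neg_le_abs _).trans h3
  have p3 : C0 ^ 3 ≤ C0 ^ 6 := pow_le_pow_right₀ hC0 (by norm_num)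
  have p5 : C0 ^ 5 ≤ C0 ^ 6 := pow_le_pow_right₀ hC0 (by norm_num)
  have q2 : C0 ^ 2 / 4 * C0 = 1 / 4 * C0 ^ 3 := by ring
  have q3 : C0 ^ 2 * C0 ^ 2 / 4 * C0 = 1 / 4 * C0 ^ 5 := by ring
  have p0 : 0 < C0 ^ 6 := by positivity
  linarith

/-- the error in the boundary relation -/
theorem err_le {w Cw dl k c A0 Z e2 sg : ℝ} (hw0 : 0 ≤ w) (hw : w ≤ Cw) (hk : 0 < k)
    (hdl0 : 0 ≤ dl) (hA0 : 0 ≤ A0) (hZ : 0 ≤ Z)
    (hdl : dl * k ^ 2 ≤ c) (hc : c * (A0 * Cw) ≤ sg ^ 2) (he : e2 ≤ dl * (A0 * Z)) :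
    w * e2 ≤ (sg / k) ^ 2 * Z := by
  have hCw : 0 ≤ Cw := hw0.trans hw
  have h1 : w * e2 ≤ Cw * (dl * (A0 * Z)) :=
    (mul_le_mul_of_nonneg_left he hw0).trans (mul_le_mul_of_nonneg_right hw (by positivity))
  refine h1.trans ?_
  rw [div_pow, div_mul_eq_mul_div, le_div_iff₀ (by positivity)]
  calc Cw * (dl * (A0 * Z)) * k ^ 2 = (dl * k ^ 2) * (A0 * Cw) * Z := by ring
    _ ≤ c * (A0 * Cw) * Z := by gcongr
    _ ≤ sg ^ 2 * Z := by gcongr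

/-- the error terms of one channel -/
theorem er_le {C0 k m w sg Z : ℝ} (hC0 : 1 ≤ C0) (hk : 1 ≤ k) (hm0 : 0 ≤ m) (hm : m ≤ C0 ^ 2)
    (hsg0 : 0 ≤ sg) (hsg1 : sg ≤ 1) (hZ : 0 ≤ Z) (H : ℂ) (a e : ℝ) (hH : ‖H‖ ≤ 9 * C0 ^ 2 * k)
    (h3 : w * (a * e) ≤ sg / k * Z) (h4 : w * e ^ 2 ≤ (sg / k) ^ 2 * Z)
    (h5 : 0 ≤ w * (a * e)) :
    w * ((3 + m / 2 * ‖H‖) * (a * e) + m / 4 * e ^ 2) ≤ 10 * C0 ^ 4 * (sg * Z) := by
  have hC : 0 < C0 := by linarith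
  have hk0 : 0 < k := by linarith
  have e1 : 3 + m / 2 * ‖H‖ ≤ 9 * C0 ^ 4 * k := by
    have h6 : m / 2 * ‖H‖ ≤ C0 ^ 2 / 2 * (9 * C0 ^ 2 * k) :=
      mul_le_mul (by linarith) hH (norm_nonneg _) (by positivity)
    have h7 : 1 ≤ C0 ^ 4 := one_le_pow₀ hC0
    have h8 : (1 : ℝ) * 1 ≤ C0 ^ 4 * k := mul_le_mul h7 hk (by norm_num) (by positivity)
    have h9 : C0 ^ 2 / 2 * (9 * C0 ^ 2 * k) = 9 / 2 * (C0 ^ 4 * k) := by ring
    rw [h9] at h6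
    linarith
  have e2 : (3 + m / 2 * ‖H‖) * (w * (a * e)) ≤ 9 * C0 ^ 4 * (sg * Z) := by
    calc (3 + m / 2 * ‖H‖) * (w * (a * e)) ≤ 9 * C0 ^ 4 * k * (w * (a * e)) :=
          mul_le_mul_of_nonneg_right e1 h5
      _ ≤ 9 * C0 ^ 4 * k * (sg / k * Z) := mul_le_mul_of_nonneg_left h3 (by positivity)
      _ = 9 * C0 ^ 4 * (sg * Z) := by field_simp
  have e3 : m / 4 * (w * e ^ 2) ≤ C0 ^ 4 * (sg * Z) := by
    have h6 : (sg / k) ^ 2 ≤ sg := by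
      have h7 : sg / k ≤ sg := div_le_self hsg0 hk
      have h8 : 0 ≤ sg / k := by positivity
      calc (sg / k) ^ 2 ≤ sg ^ 2 := pow_le_pow_left₀ h8 h7 2
        _ ≤ sg := by nlinarith
    have h9 : C0 ^ 2 / 4 ≤ C0 ^ 4 := by
      have : C0 ^ 2 ≤ C0 ^ 4 := pow_le_pow_right₀ hC0 (by norm_num)
      have : 0 ≤ C0 ^ 2 := by positivity
      linarith
    calc m / 4 * (w * e ^ 2) ≤ m / 4 * ((sg / k) ^ 2 * Z) :=
          mul_le_mul_of_nonneg_left h4 (by positivity)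
      _ ≤ C0 ^ 4 * (sg * Z) :=
          mul_le_mul (by linarith) (mul_le_mul_of_nonneg_right h6 hZ) (by positivity)
            (by positivity)
  have e4 : w * ((3 + m / 2 * ‖H‖) * (a * e) + m / 4 * e ^ 2) =
      (3 + m / 2 * ‖H‖) * (w * (a * e)) + m / 4 * (w * e ^ 2) := by ring
  rw [e4]
  linarith

theorem nH_le {C0 k a0 b : ℝ} {h : ℂ} (hC0 : 1 ≤ C0) (hk : 1 ≤ k) (ha0 : |a0| ≤ 7 * C0)
    (hb : |b| ≤ C0 ^ 2) (hh : ‖h‖ ≤ C0 * k) :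
    ‖h - a0 - I * (b / 2 : ℝ)‖ ≤ 9 * C0 ^ 2 * k := by
  have hC : 0 < C0 := by linarith
  have hk0 : 0 < k := by linarith
  have h3 := H_norm_le h a0 b
  have e1 : C0 ≤ C0 ^ 2 := by nlinarith
  have e2 : C0 * k ≤ C0 ^ 2 * k := mul_le_mul_of_nonneg_right e1 hk0.le
  have e3 : C0 ≤ C0 ^ 2 * k := e1.trans (le_mul_of_one_le_right (by positivity) hk)
  have e4 : C0 ^ 2 ≤ C0 ^ 2 * k := le_mul_of_one_le_right (by positivity) hk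
  linarith

/-- the whole virial boundary form -/
theorem bv_le {C0 k m a0 b R2 Lam n P w sg Z : ℝ} {h1 h2 s s1 d d1 eu ev : ℂ}
    (hC0 : 1 ≤ C0) (hk : 1 ≤ k) (hm0 : 0 ≤ m) (hm : m ≤ C0 ^ 2)
    (ha0 : |a0| ≤ 7 * C0) (hb : |b| ≤ C0 ^ 2) (hlo : 1 / (4 * C0) ≤ 3 - m * a0 / 2)
    (hhi : 3 - m * a0 / 2 ≤ C0 / 4) (hw : 0 ≤ w) (hn : 0 ≤ n) (hP : 0 ≤ P)
    (hLam : 0 ≤ Lam / R2) (hh1 : ‖h1‖ ≤ C0 * k) (hh2 : ‖h2‖ ≤ C0 * k)
    (hre : h2.re ≤ -k / C0) (hsq : ‖h2‖ ^ 2 ≤ Lam / R2 + k ^ 2 + C0) (him : |h2.im| ≤ C0 / k)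
    (hsg0 : 0 ≤ sg) (hsg1 : sg ≤ 1) (hZ : 0 ≤ Z)
    (hu : s1 + d1 = (h1 - a0 - I * (b / 2 : ℝ)) * (s + d) + eu)
    (hv : s1 - d1 = (conj h2 - a0 + I * (b / 2 : ℝ)) * (s - d) + ev)
    (cu : w * (‖s + d‖ * ‖eu‖) ≤ sg / k * Z) (cv : w * (‖s - d‖ * ‖ev‖) ≤ sg / k * Z)
    (su : w * ‖eu‖ ^ 2 ≤ (sg / k) ^ 2 * Z) (sv : w * ‖ev‖ ^ 2 ≤ (sg / k) ^ 2 * Z) :
    (1 / 2) * (m * w * (‖s1‖ ^ 2 + ‖d1‖ ^ 2) - Lam * (m * w / R2) * (‖s‖ ^ 2 + ‖d‖ ^ 2)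
      - n * (m * w * P) * ‖s‖ ^ 2 - 2 * (-k ^ 2) * (m * w) * (d * conj s).re)
      + 6 * (w * (conj s * s1 + conj d * d1).re)
    ≤ 35 * C0 ^ 6 * (k ^ 2 * (w * ‖s + d‖ ^ 2))
      + (-(k / (4 * C0 ^ 2)) + 35 * C0 ^ 6) * (w * ‖s - d‖ ^ 2) + 20 * C0 ^ 4 * (sg * Z) := by
  have hC : 0 < C0 := by linarith
  have hk0 : 0 < k := by linarith
  rw [bv_eq]
  have nHU := nH_le hC0 hk ha0 hb hh1
  have nHV := nH_le hC0 hk ha0 hb hh2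
  have ch1 := chan_le (Lr := Lam / R2 - k ^ 2) hm0 hu
  have ch2 := chan_le_v (Lr := Lam / R2 + k ^ 2) hm0 hv
  have k1 := coef_u (Lr := Lam / R2 - k ^ 2) hC0 hk hm0 hm ha0 hb
    (le_trans (by positivity) hlo) hhi hh1 (by linarith)
  have k2 := coef_v (Lr := Lam / R2 + k ^ 2) hC0 hk hm0 hm ha0 hb hlo hre hsq him
  have w1 := mul_le_mul_of_nonneg_left ch1 hw
  have w2 := mul_le_mul_of_nonneg_left ch2 hw
  have j1 := mul_le_mul_of_nonneg_right k1 (show 0 ≤ w * ‖s + d‖ ^ 2 by positivity)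
  have j2 := mul_le_mul_of_nonneg_right k2 (show 0 ≤ w * ‖s - d‖ ^ 2 by positivity)
  have r1 := er_le hC0 hk hm0 hm hsg0 hsg1 hZ _ ‖s + d‖ ‖eu‖ nHU cu su (by positivity)
  have r2 := er_le hC0 hk hm0 hm hsg0 hsg1 hZ _ ‖s - d‖ ‖ev‖ nHV cv sv (by positivity)
  have hPn : 0 ≤ (1 / 2) * (n * (m * w * P) * ‖s‖ ^ 2) := by positivity
  have g1 : ∀ (X q E1 E2 : ℝ), w * (X * q ^ 2 + E1 + E2) = X * (w * q ^ 2) + w * (E1 + E2) := by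
    intro X q E1 E2; ring
  rw [g1] at w1 w2
  have g2 : 35 * C0 ^ 6 * k ^ 2 * (w * ‖s + d‖ ^ 2) =
      35 * C0 ^ 6 * (k ^ 2 * (w * ‖s + d‖ ^ 2)) := by ring
  rw [g2] at j1
  have fin : ∀ {a b c a' b' c' e e' p : ℝ}, a ≤ a' + e → b ≤ b' + e' → a' ≤ c → b' ≤ c' →
      e ≤ p → e' ≤ p → ∀ q, 0 ≤ q → a + b - q ≤ c + c' + (p + p) := by
    intro a b c a' b' c' e e' p q1 q2 q3 q4 q5 q6 q q7
    linarith
  refine (fin w1 w2 j1 j2 r1 r2 _ hPn).trans (le_of_eq ?_)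
  ring

/-- the charge identity in the channels -/
theorem flux_le {C0 A0 k a0 b w ga Nr sg Z : ℝ} {h1 h2 s s1 d d1 eu ev : ℂ}
    (hC0 : 1 ≤ C0) (hA0 : 1 ≤ A0) (hk : 1 ≤ k) (hw : 0 ≤ w)
    (him1 : k / C0 ≤ h1.im) (him : |h2.im| ≤ C0 / k)
    (hu : s1 + d1 = (h1 - a0 - I * (b / 2 : ℝ)) * (s + d) + eu)
    (hv : s1 - d1 = (conj h2 - a0 + I * (b / 2 : ℝ)) * (s - d) + ev)
    (cu : w * (‖s + d‖ * ‖eu‖) ≤ sg / k * Z) (cv : w * (‖s - d‖ * ‖ev‖) ≤ sg / k * Z)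
    (hch : w * (conj s * s1 + conj d * d1).im + w * b * (conj s * d).re = ga * Nr)
    (hga : |ga| ≤ A0) :
    k * (w * ‖s + d‖ ^ 2) ≤ 2 * A0 * C0 ^ 2 *
      ((w * ‖s - d‖ ^ 2) / k + |Nr| + sg / k * Z) := by
  have hC : 0 < C0 := by linarith
  have hk0 : 0 < k := by linarith
  have hA : 0 < A0 := by linarith
  have f1 := flux_u hu
  have f2 := flux_v hv
  have f3 := bd_im s d s1 d1
  have f4 := bd_cross s d
  rw [f3, f4, f1, f2] at hch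
  have g1 : |(conj (s + d) * eu).im| ≤ ‖s + d‖ * ‖eu‖ := im_mul_le _ _
  have g2 : |(conj (s - d) * ev).im| ≤ ‖s - d‖ * ‖ev‖ := im_mul_le _ _
  have g1' := mul_le_mul_of_nonneg_left ((neg_le_abs _).trans g1) hw
  have g2' := mul_le_mul_of_nonneg_left ((neg_le_abs _).trans g2) hw
  set x := w * ‖s + d‖ ^ 2 with hx
  set y := w * ‖s - d‖ ^ 2 with hy
  have hx0 : 0 ≤ x := by positivity
  have hy0 : 0 ≤ y := by positivity
  have key : h1.im * x = h2.im * y + 2 * (ga * Nr) - w * (conj (s + d) * eu).im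
      - w * (conj (s - d) * ev).im := by
    rw [hx, hy]
    linear_combination 2 * hch
  have t1 : k / C0 * x ≤ h1.im * x := mul_le_mul_of_nonneg_right him1 hx0
  have t2 : h2.im * y ≤ C0 / k * y :=
    mul_le_mul_of_nonneg_right ((le_abs_self _).trans him) hy0
  have t3 : ga * Nr ≤ A0 * |Nr| := by
    calc ga * Nr ≤ |ga * Nr| := le_abs_self _
      _ = |ga| * |Nr| := abs_mul _ _
      _ ≤ A0 * |Nr| := mul_le_mul_of_nonneg_right hga (abs_nonneg _)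
  have t4 : k / C0 * x ≤ C0 / k * y + 2 * (A0 * |Nr|) + 2 * (sg / k * Z) := by
    have fin : ∀ {a b c c' d e e' f g g' h : ℝ}, a ≤ b → b = c + 2 * d - e - f → c ≤ c' → d ≤ g →
        -e ≤ g' → g' ≤ h → -f ≤ e' → e' ≤ h → a ≤ c' + 2 * g + 2 * h := by
      intro a b c c' d e e' f g g' h q1 q2 q3 q4 q5 q6 q7 q8
      linarith
    have g1'' : -(w * (conj (s + d) * eu).im) ≤ w * (‖s + d‖ * ‖eu‖) := by
      rw [← mul_neg]; exact g1'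
    have g2'' : -(w * (conj (s - d) * ev).im) ≤ w * (‖s - d‖ * ‖ev‖) := by
      rw [← mul_neg]; exact g2'
    exact fin t1 key t2 t3 g1'' cu g2'' cv
  have t5 : k * x = C0 * (k / C0 * x) := by field_simp
  rw [t5]
  have t6 := mul_le_mul_of_nonneg_left t4 hC.le
  refine t6.trans ?_
  have hZ0 : 0 ≤ sg / k * Z := le_trans (by positivity) cu
  have hCC : C0 ≤ C0 ^ 2 := le_self_pow₀ hC0 (by norm_num)
  have hAC : C0 ^ 2 ≤ A0 * C0 ^ 2 := le_mul_of_one_le_left (by positivity) hA0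
  have c1 : C0 * (C0 / k * y) ≤ 2 * A0 * C0 ^ 2 * (y / k) := by
    have h3 : C0 * (C0 / k * y) = C0 ^ 2 * (y / k) := by ring
    rw [h3]
    refine mul_le_mul_of_nonneg_right ?_ (by positivity)
    have : 0 ≤ A0 * C0 ^ 2 := by positivity
    linarith
  have c2 : C0 * (2 * (A0 * |Nr|)) ≤ 2 * A0 * C0 ^ 2 * |Nr| := by
    have h3 : C0 * (2 * (A0 * |Nr|)) = 2 * A0 * C0 * |Nr| := by ring
    rw [h3]
    exact mul_le_mul_of_nonneg_right (mul_le_mul_of_nonneg_left hCC (by positivity))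
      (abs_nonneg _)
  have c3 : C0 * (2 * (sg / k * Z)) ≤ 2 * A0 * C0 ^ 2 * (sg / k * Z) := by
    have h3 : C0 * (2 * (sg / k * Z)) = 2 * C0 * (sg / k * Z) := by ring
    rw [h3]
    refine mul_le_mul_of_nonneg_right ?_ hZ0
    have : 2 * A0 * C0 ^ 2 = 2 * (A0 * C0 ^ 2) := by ring
    rw [this]
    linarith
  have e : C0 * (C0 / k * y + 2 * (A0 * |Nr|) + 2 * (sg / k * Z)) =
      C0 * (C0 / k * y) + C0 * (2 * (A0 * |Nr|)) + C0 * (2 * (sg / k * Z)) := by ring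
  rw [e]
  refine (add_le_add (add_le_add c1 c2) c3).trans (le_of_eq ?_)
  ring

/-- size of the derivatives at the boundary -/
theorem der_le {C0 k a0 b w sg Z : ℝ} {h1 h2 s s1 d d1 eu ev : ℂ}
    (hC0 : 1 ≤ C0) (hk : 1 ≤ k) (ha0 : |a0| ≤ 7 * C0) (hb : |b| ≤ C0 ^ 2) (hw : 0 ≤ w)
    (hh1 : ‖h1‖ ≤ C0 * k) (hh2 : ‖h2‖ ≤ C0 * k)
    (hsg0 : 0 ≤ sg) (hsg1 : sg ≤ 1) (hZ : 0 ≤ Z)
    (hu : s1 + d1 = (h1 - a0 - I * (b / 2 : ℝ)) * (s + d) + eu)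
    (hv : s1 - d1 = (conj h2 - a0 + I * (b / 2 : ℝ)) * (s - d) + ev)
    (su : w * ‖eu‖ ^ 2 ≤ (sg / k) ^ 2 * Z) (sv : w * ‖ev‖ ^ 2 ≤ (sg / k) ^ 2 * Z) :
    w * (‖s1‖ ^ 2 + ‖d1‖ ^ 2) ≤
      (9 * C0 ^ 2) ^ 2 * k ^ 2 * (w * ‖s + d‖ ^ 2 + w * ‖s - d‖ ^ 2) + 2 * Z := by
  have hC : 0 < C0 := by linarith
  have hk0 : 0 < k := by linarith
  have nHU := nH_le hC0 hk ha0 hb hh1
  have nHV := nH_le hC0 hk ha0 hb hh2
  have ecj : conj h2 - a0 + I * (b / 2 : ℝ) = conj (h2 - a0 - I * (b / 2 : ℝ)) := by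
    simp only [map_sub, map_mul, Complex.conj_ofReal, Complex.conj_I]
    ring
  have key : ∀ (H q e r : ℂ), ‖H‖ ≤ 9 * C0 ^ 2 * k → r = H * q + e →
      w * ‖e‖ ^ 2 ≤ (sg / k) ^ 2 * Z →
      w * ‖r‖ ^ 2 ≤ 2 * ((9 * C0 ^ 2) ^ 2 * k ^ 2 * (w * ‖q‖ ^ 2)) + 2 * Z := by
    intro H q e r hH hr he
    have n1 : ‖r‖ ≤ ‖H‖ * ‖q‖ + ‖e‖ := by
      rw [hr]; exact (norm_add_le _ _).trans_eq (by rw [norm_mul])
    have n2 : ‖r‖ ^ 2 ≤ 2 * (‖H‖ ^ 2 * ‖q‖ ^ 2) + 2 * ‖e‖ ^ 2 := by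
      have h3 : ‖r‖ ^ 2 ≤ (‖H‖ * ‖q‖ + ‖e‖) ^ 2 := pow_le_pow_left₀ (norm_nonneg _) n1 2
      have h4 : 0 ≤ (‖H‖ * ‖q‖ - ‖e‖) ^ 2 := sq_nonneg _
      have h5 : (‖H‖ * ‖q‖ + ‖e‖) ^ 2 + (‖H‖ * ‖q‖ - ‖e‖) ^ 2 =
          2 * (‖H‖ ^ 2 * ‖q‖ ^ 2) + 2 * ‖e‖ ^ 2 := by ring
      linarith
    have n3 : ‖H‖ ^ 2 ≤ (9 * C0 ^ 2 * k) ^ 2 := pow_le_pow_left₀ (norm_nonneg _) hH 2
    have n4 : ‖H‖ ^ 2 * (w * ‖q‖ ^ 2) ≤ (9 * C0 ^ 2 * k) ^ 2 * (w * ‖q‖ ^ 2) :=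
      mul_le_mul_of_nonneg_right n3 (by positivity)
    have n5 : (sg / k) ^ 2 * Z ≤ Z := by
      have h3 : sg / k ≤ 1 := (div_le_self hsg0 hk).trans hsg1
      have h4 : 0 ≤ sg / k := by positivity
      have h5 : (sg / k) ^ 2 ≤ 1 := pow_le_one₀ h4 h3
      calc (sg / k) ^ 2 * Z ≤ 1 * Z := mul_le_mul_of_nonneg_right h5 hZ
        _ = Z := one_mul _
    have n6 := mul_le_mul_of_nonneg_left n2 hw
    have n7 : w * (2 * (‖H‖ ^ 2 * ‖q‖ ^ 2) + 2 * ‖e‖ ^ 2) =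
        2 * (‖H‖ ^ 2 * (w * ‖q‖ ^ 2)) + 2 * (w * ‖e‖ ^ 2) := by ring
    have n8 : (9 * C0 ^ 2 * k) ^ 2 * (w * ‖q‖ ^ 2) =
        (9 * C0 ^ 2) ^ 2 * k ^ 2 * (w * ‖q‖ ^ 2) := by ring
    rw [n7] at n6
    rw [n8] at n4
    linarith
  have k1 := key _ _ _ _ nHU hu su
  have k2 := key _ _ _ _ (by rw [ecj, RCLike.norm_conj]; exact nHV) hv sv
  rw [bd_sq s1 d1]
  have e : w * ((‖s1 + d1‖ ^ 2 + ‖s1 - d1‖ ^ 2) / 2) =
      (w * ‖s1 + d1‖ ^ 2 + w * ‖s1 - d1‖ ^ 2) / 2 := by ring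
  rw [e]
  have e2 : (9 * C0 ^ 2) ^ 2 * k ^ 2 * (w * ‖s + d‖ ^ 2 + w * ‖s - d‖ ^ 2) =
    (9 * C0 ^ 2) ^ 2 * k ^ 2 * (w * ‖s + d‖ ^ 2) + (9 * C0 ^ 2) ^ 2 * k ^ 2 * (w * ‖s - d‖ ^ 2) := by
    ring
  rw [e2]
  linarith

/-- products of a value and a derivative -/
theorem prod_le {w k H K z a b1 : ℝ} (hw : 0 ≤ w) (hk : 1 ≤ k) (hK : 0 ≤ K) (hz : 0 ≤ z)
    (h1 : w * a ^ 2 ≤ z) (h2 : w * b1 ^ 2 ≤ H ^ 2 * k ^ 2 * z + 2 * (K + z)) :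
    w * (a * b1) ≤ (2 + H ^ 2) * (K + k * z) := by
  have hk0 : 0 < k := by linarith
  have h3 : w * b1 ^ 2 ≤ k ^ 2 * (H ^ 2 * z + 2 * (K + z) / k) := by
    have e : k ^ 2 * (H ^ 2 * z + 2 * (K + z) / k) = H ^ 2 * k ^ 2 * z + k * (2 * (K + z)) := by
      field_simp
    rw [e]
    have : 2 * (K + z) ≤ k * (2 * (K + z)) := le_mul_of_one_le_left (by positivity) hk
    linarith
  have h4 := cross_le hk0 hw h1 h3
  have e : k * (z + (H ^ 2 * z + 2 * (K + z) / k)) / 2 =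
      k * z / 2 + H ^ 2 * (k * z) / 2 + (K + z) := by
    field_simp
    ring
  rw [e] at h4
  have h5 : z ≤ k * z := le_mul_of_one_le_left hz hk
  have h6 : 0 ≤ H ^ 2 * K := by positivity
  have h7 : 0 ≤ H ^ 2 * (k * z) := by positivity
  have h8 : (2 + H ^ 2) * (K + k * z) = 2 * K + 2 * (k * z) + H ^ 2 * K + H ^ 2 * (k * z) := by ring
  rw [h8]
  linarith

/-- the intermediate estimates -/
theorem mid {A0 A1 k K z NS T Pot N X1 X2 X3 Bq : ℝ} (hA0 : 1 ≤ A0) (hA1 : 0 ≤ A1) (hk : 1 ≤ k)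
    (hK : 0 ≤ K) (hz : 0 ≤ z) (hNS0 : 0 ≤ NS) (hBq : Bq ≤ z)
    (h1 : X1 ≤ A1 * (K + k * z)) (h2 : X2 ≤ 2 * A1 * (K + k * z)) (h3 : X3 ≤ A1 * (K + k * z))
    (hNS : k ^ 2 * NS ≤ A0 * (K + X1)) (hT : T ≤ A0 * (k * NS + (K + Bq) / k))
    (hP : Pot ≤ K + X2 + A0 * (Bq + T)) (hN : k ^ 2 * N ≤ K + X3 + A0 * (Bq + T)) :
    NS ≤ A0 * (1 + A1) * (K + k * z) ∧
    T ≤ A0 * (A0 * (1 + A1) + 1) * ((K + k * z) / k) ∧
    Pot ≤ (1 + 2 * A1 + A0 + A0 * (A0 * (A0 * (1 + A1) + 1))) * (K + k * z) ∧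
    k ^ 2 * N ≤ (1 + 2 * A1 + A0 + A0 * (A0 * (A0 * (1 + A1) + 1))) * (K + k * z) := by
  have hk0 : 0 < k := by linarith
  have hA : 0 < A0 := by linarith
  set Y := K + k * z with hY
  have hzk : z ≤ k * z := le_mul_of_one_le_left hz hk
  have hY0 : 0 ≤ Y := by positivity
  have hKY : K ≤ Y := by rw [hY]; have : 0 ≤ k * z := by positivity
                         linarith
  have hzY : z ≤ Y := by rw [hY]; linarith
  have n1 : k ^ 2 * NS ≤ A0 * (1 + A1) * Y := by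
    refine hNS.trans ?_
    calc A0 * (K + X1) ≤ A0 * (Y + A1 * Y) := mul_le_mul_of_nonneg_left (by linarith) hA.le
      _ = A0 * (1 + A1) * Y := by ring
  have n2 : NS ≤ A0 * (1 + A1) * Y := by
    refine le_trans ?_ n1
    exact le_mul_of_one_le_left hNS0 (one_le_pow₀ hk)
  have n3 : k * NS ≤ A0 * (1 + A1) * (Y / k) := by
    have e : k * NS = (k ^ 2 * NS) / k := by field_simp
    rw [e]
    calc k ^ 2 * NS / k ≤ A0 * (1 + A1) * Y / k := div_le_div_of_nonneg_right n1 hk0.le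
      _ = _ := by ring
  have n4 : (K + Bq) / k ≤ Y / k := by
    refine div_le_div_of_nonneg_right ?_ hk0.le
    rw [hY]; linarith
  have n5 : T ≤ A0 * (A0 * (1 + A1) + 1) * (Y / k) := by
    refine hT.trans ?_
    calc A0 * (k * NS + (K + Bq) / k) ≤ A0 * (A0 * (1 + A1) * (Y / k) + Y / k) :=
          mul_le_mul_of_nonneg_left (by linarith) hA.le
      _ = _ := by ring
  have n6 : T ≤ A0 * (A0 * (1 + A1) + 1) * Y := by
    refine n5.trans (mul_le_mul_of_nonneg_left (div_le_self hY0 hk) (by positivity))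
  have n7 : A0 * (Bq + T) ≤ A0 * Y + A0 * (A0 * (A0 * (1 + A1) + 1)) * Y := by
    calc A0 * (Bq + T) ≤ A0 * (Y + A0 * (A0 * (1 + A1) + 1) * Y) :=
          mul_le_mul_of_nonneg_left (by linarith) hA.le
      _ = _ := by ring
  have hA1Y : 0 ≤ A1 * Y := by positivity
  have n8 : (1 + 2 * A1 + A0 + A0 * (A0 * (A0 * (1 + A1) + 1))) * Y =
      Y + 2 * (A1 * Y) + A0 * Y + A0 * (A0 * (A0 * (1 + A1) + 1)) * Y := by ring
  refine ⟨n2, n5, ?_, ?_⟩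
  · rw [n8]; linarith
  · rw [n8]; linarith

/-- the main inequality (a) -/
theorem top_le {C0 A0 A2 A3 A4 k K x y e sg T Pot NS BV Bq : ℝ} (hC0 : 1 ≤ C0) (hA0 : 1 ≤ A0)
    (hA2 : 0 ≤ A2) (hA3 : 0 ≤ A3) (hA4 : 0 ≤ A4)
    (hk : 1 ≤ k) (hK : 0 ≤ K) (hx : 0 ≤ x) (hy : 0 ≤ y) (he : 0 ≤ e) (hsg : 0 ≤ sg)
    (hBq : Bq ≤ x + y)
    (hNS : NS ≤ A4 * (K + k * (x + y))) (hT : T ≤ A2 * ((K + k * (x + y)) / k))
    (hP : Pot ≤ A3 * (K + k * (x + y)))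
    (hBV : BV ≤ 35 * C0 ^ 6 * (k ^ 2 * x) + (-(k / (4 * C0 ^ 2)) + 35 * C0 ^ 6) * y
      + 20 * C0 ^ 4 * (sg * (K + (x + y))))
    (hV : K / A0 ≤ BV + A0 * (Bq + T) + A0 * e * (Pot + NS)) :
    K + k * y ≤ 4 * A0 * C0 ^ 2 * (35 * C0 ^ 6 + 20 * C0 ^ 4 + A0 + A0 * A2 + A0 * (A3 + A4)) *
      (k ^ 2 * x + y + (sg + 1 / k + e) * (K + k * (x + y))) := by
  have hC : 0 < C0 := by linarith
  have hA : 0 < A0 := by linarith
  have hk0 : 0 < k := by linarith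
  set Y := K + k * (x + y) with hY
  have hY0 : 0 ≤ Y := by positivity
  have hZY : K + (x + y) ≤ Y := by
    have : x + y ≤ k * (x + y) := le_mul_of_one_le_left (by positivity) hk
    rw [hY]; linarith
  have hxk : x ≤ k ^ 2 * x := le_mul_of_one_le_left hx (one_le_pow₀ hk)
  have a1 : A0 * (Bq + T) ≤ A0 * (k ^ 2 * x + y) + A0 * A2 * (1 / k * Y) := by
    calc A0 * (Bq + T) ≤ A0 * ((k ^ 2 * x + y) + A2 * (Y / k)) :=
          mul_le_mul_of_nonneg_left (by linarith) hA.le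
      _ = _ := by ring
  have a2 : A0 * e * (Pot + NS) ≤ A0 * (A3 + A4) * (e * Y) := by
    calc A0 * e * (Pot + NS) ≤ A0 * e * (A3 * Y + A4 * Y) :=
          mul_le_mul_of_nonneg_left (by linarith) (by positivity)
      _ = _ := by ring
  have a3 : 20 * C0 ^ 4 * (sg * (K + (x + y))) ≤ 20 * C0 ^ 4 * (sg * Y) := by gcongr
  have a4 : K / A0 + k / (4 * C0 ^ 2) * y ≤ 35 * C0 ^ 6 * (k ^ 2 * x + y) + 20 * C0 ^ 4 * (sg * Y)
      + (A0 * (k ^ 2 * x + y) + A0 * A2 * (1 / k * Y)) + A0 * (A3 + A4) * (e * Y) := by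
    have e1 : (-(k / (4 * C0 ^ 2)) + 35 * C0 ^ 6) * y = -(k / (4 * C0 ^ 2) * y) + 35 * C0 ^ 6 * y := by
      ring
    rw [e1] at hBV
    have e2 : 35 * C0 ^ 6 * (k ^ 2 * x + y) = 35 * C0 ^ 6 * (k ^ 2 * x) + 35 * C0 ^ 6 * y := by ring
    rw [e2]
    linarith
  have a5 : K + k * y ≤ 4 * A0 * C0 ^ 2 * (K / A0 + k / (4 * C0 ^ 2) * y) := by
    have e1 : 4 * A0 * C0 ^ 2 * (K / A0 + k / (4 * C0 ^ 2) * y) = 4 * C0 ^ 2 * K + A0 * (k * y) := by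
      field_simp
    rw [e1]
    have e2 : k * y ≤ A0 * (k * y) := le_mul_of_one_le_left (by positivity) hA0
    have e3 : K ≤ 4 * C0 ^ 2 * K := by
      have : 1 ≤ C0 ^ 2 := one_le_pow₀ hC0
      exact le_mul_of_one_le_left hK (by linarith)
    linarith
  refine a5.trans ?_
  rw [mul_assoc (4 * A0 * C0 ^ 2)]
  refine mul_le_mul_of_nonneg_left (a4.trans ?_) (by positivity)
  set p := k ^ 2 * x + y with hp
  have hp0 : 0 ≤ p := by positivity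
  set q1 := sg * Y with hq1
  set q2 := 1 / k * Y with hq2
  set q3 := e * Y with hq3
  have hq1' : 0 ≤ q1 := by positivity
  have hq2' : 0 ≤ q2 := by positivity
  have hq3' : 0 ≤ q3 := by positivity
  have e5 : (35 * C0 ^ 6 + 20 * C0 ^ 4 + A0 + A0 * A2 + A0 * (A3 + A4)) *
      (p + (sg + 1 / k + e) * Y) =
      (35 * C0 ^ 6 * p + 20 * C0 ^ 4 * q1 + (A0 * p + A0 * A2 * q2) + A0 * (A3 + A4) * q3)
      + (20 * C0 ^ 4 * p + A0 * A2 * p + A0 * (A3 + A4) * p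
        + (35 * C0 ^ 6 + A0 + A0 * A2 + A0 * (A3 + A4)) * q1
        + (35 * C0 ^ 6 + 20 * C0 ^ 4 + A0 + A0 * (A3 + A4)) * q2
        + (35 * C0 ^ 6 + 20 * C0 ^ 4 + A0 + A0 * A2) * q3) := by
    rw [hq1, hq2, hq3]; ring
  rw [e5]
  have e6 : 0 ≤ 20 * C0 ^ 4 * p + A0 * A2 * p + A0 * (A3 + A4) * p
        + (35 * C0 ^ 6 + A0 + A0 * A2 + A0 * (A3 + A4)) * q1
        + (35 * C0 ^ 6 + 20 * C0 ^ 4 + A0 + A0 * (A3 + A4)) * q2
        + (35 * C0 ^ 6 + 20 * C0 ^ 4 + A0 + A0 * A2) * q3 := by positivity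
  linarith

set_option maxHeartbeats 4000000 in
/-- **CASE III, finite dimensional part.** -/
theorem close {C0 A0 : ℝ} (hC0 : 1 ≤ C0) (hA0 : 1 ≤ A0) : ∃ M c : ℝ, 0 < M ∧ 0 < c ∧
    ∀ (K Pot L NS T Nr ga w m b rho P Lam n e k dl R : ℝ) (h1 h2 s s1 d d1 : ℂ),
    0 ≤ K → 0 ≤ T → 0 ≤ NS → 0 ≤ Lam → 0 ≤ n → 0 ≤ e → 0 ≤ dl → 0 ≤ P → 1 ≤ R → R ≤ C0 →
    R ^ 11 / C0 ≤ w → w ≤ C0 * R ^ 11 → |b| ≤ C0 * R → |rho| ≤ C0 → R / C0 ≤ m → m ≤ C0 * R →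
    1 / C0 ≤ 12 - m * (11 / R + 2 * rho) → 12 - m * (11 / R + 2 * rho) ≤ C0 → M ≤ k →
    Lam ≤ C0 * k ^ 2 → e ≤ c → k / C0 ≤ h1.im → ‖h1‖ ≤ C0 * k → h2.re ≤ -k / C0 →
    ‖h2‖ ≤ C0 * k → ‖h2‖ ^ 2 ≤ Lam / R ^ 2 + k ^ 2 + C0 → |h2.im| ≤ C0 / k → dl * k ^ 2 ≤ c →
    ‖(s1 + d1) - (h1 - ((11 / R + 2 * rho) / 2 : ℝ) - I * (b / 2 : ℝ)) * (s + d)‖ ^ 2 ≤ dl * L →
    ‖(s1 - d1) - (conj h2 - ((11 / R + 2 * rho) / 2 : ℝ) + I * (b / 2 : ℝ)) * (s - d)‖ ^ 2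
      ≤ dl * L →
    L ≤ A0 * (K + w * (‖s‖ ^ 2 + ‖d‖ ^ 2)) →
    k ^ 2 * NS ≤ A0 * (K + w * (‖s‖ * ‖d1‖)) →
    T ≤ A0 * (k * NS + (K + w * (‖s‖ ^ 2 + ‖d‖ ^ 2)) / k) →
    K / A0 ≤ (1 / 2) * (m * w * (‖s1‖ ^ 2 + ‖d1‖ ^ 2)
      - Lam * (m * w / R ^ 2) * (‖s‖ ^ 2 + ‖d‖ ^ 2)
      - n * (m * w * P) * ‖s‖ ^ 2 - 2 * (-k ^ 2) * (m * w) * (d * conj s).re)
      + 6 * (w * (conj s * s1 + conj d * d1).re) + A0 * (w * (‖s‖ ^ 2 + ‖d‖ ^ 2) + T)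
      + A0 * e * (Pot + NS) →
    Pot ≤ K + w * |(conj s * s1 - conj d * d1).re| + A0 * (w * (‖s‖ ^ 2 + ‖d‖ ^ 2) + T) →
    w * (conj s * s1 + conj d * d1).im + w * b * (conj s * d).re = ga * Nr → |ga| ≤ A0 →
    k ^ 2 * |Nr| ≤ K + w * |(conj d * d1).re| + A0 * (w * (‖s‖ ^ 2 + ‖d‖ ^ 2) + T) →
    K = 0 ∧ s = 0 ∧ d = 0 := by
  have hC : 0 < C0 := by linarith
  have hA : 0 < A0 := by linarith
  obtain ⟨A1, hA1d⟩ : ∃ A1 : ℝ, A1 = 2 + (9 * C0 ^ 2) ^ 2 := ⟨_, rfl⟩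
  obtain ⟨A2, hA2d⟩ : ∃ A2 : ℝ, A2 = A0 * (A0 * (1 + A1) + 1) := ⟨_, rfl⟩
  obtain ⟨A3, hA3d⟩ : ∃ A3 : ℝ, A3 = 1 + 2 * A1 + A0 + A0 * A2 := ⟨_, rfl⟩
  obtain ⟨A4, hA4d⟩ : ∃ A4 : ℝ, A4 = A0 * (1 + A1) := ⟨_, rfl⟩
  have hA1 : 0 ≤ A1 := by rw [hA1d]; positivity
  have hA2 : 0 ≤ A2 := by rw [hA2d]; positivity
  have hA3 : 0 ≤ A3 := by rw [hA3d]; positivity
  have hA4 : 0 ≤ A4 := by rw [hA4d]; positivity
  obtain ⟨B, hBd⟩ : ∃ B : ℝ, B = 4 * A0 * C0 ^ 2 * (35 * C0 ^ 6 + 20 * C0 ^ 4 + A0 + A0 * A2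
    + A0 * (A3 + A4)) := ⟨_, rfl⟩
  have hB : 0 ≤ B := by rw [hBd]; positivity
  obtain ⟨A, hAd⟩ : ∃ A : ℝ, A = B + A3 + 2 * A0 * C0 ^ 2 + 1 := ⟨_, rfl⟩
  have hA1' : 1 ≤ A := by
    rw [hAd]
    have : 0 ≤ 2 * A0 * C0 ^ 2 := by positivity
    linarith
  have hAp : 0 < A := by linarith
  obtain ⟨sg, hsgd⟩ : ∃ sg : ℝ, sg = 1 / (48 * A ^ 2) := ⟨_, rfl⟩
  have hsg : 0 < sg := by rw [hsgd]; positivity
  have hsg1 : sg ≤ 1 := by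
    rw [hsgd, div_le_one (by positivity)]
    have : 1 ≤ A ^ 2 := one_le_pow₀ hA1'
    linarith
  have h16 : 16 * A ^ 2 * sg = 1 / 3 := by
    rw [hsgd]; field_simp; norm_num
  refine ⟨max (25 * A ^ 3) (48 * A ^ 2), min sg (sg ^ 2 / (A0 * C0 ^ 12)), by positivity,
    by positivity, ?_⟩
  intro K Pot L NS T Nr ga w m b rho P Lam n e k dl R h1 h2 s s1 d d1 hK hT0 hNS0 hLam hn he hdl hP
    hR1 hRC hwlo hwhi hb hrho hmlo hmhi hm1 hm2 hMk hLk hec him1 hh1 hre hh2 hsq him hdlk relF relG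
    hL hNS hT hV hPot hch hga hE2
  have hR0 : 0 < R := by linarith
  have hk1 : 25 * A ^ 3 ≤ k := (le_max_left _ _).trans hMk
  have hk2 : 48 * A ^ 2 ≤ k := (le_max_right _ _).trans hMk
  have hk : 1 ≤ k := by
    have : 1 ≤ A ^ 3 := one_le_pow₀ hA1'
    linarith
  have hk0 : 0 < k := by linarith
  have he1 : e ≤ sg := hec.trans (min_le_left _ _)
  have hkinv : 1 / k ≤ sg := by
    rw [hsgd]
    exact one_div_le_one_div_of_le (by positivity) hk2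
  -- elementary facts
  have hw0 : 0 < w := lt_of_lt_of_le (by positivity) hwlo
  have hR11 : R ^ 11 ≤ C0 ^ 11 := pow_le_pow_left₀ hR0.le hRC 11
  have hw12 : w ≤ C0 ^ 12 := by
    calc w ≤ C0 * R ^ 11 := hwhi
      _ ≤ C0 * C0 ^ 11 := mul_le_mul_of_nonneg_left hR11 hC.le
      _ = C0 ^ 12 := by ring
  have hm0 : 0 ≤ m := le_trans (by positivity) hmlo
  have hCR : C0 * R ≤ C0 ^ 2 := by nlinarith
  have hm2' : m ≤ C0 ^ 2 := hmhi.trans hCR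
  have hb2 : |b| ≤ C0 ^ 2 := hb.trans hCR
  obtain ⟨a0, ha0d⟩ : ∃ a0 : ℝ, a0 = (11 / R + 2 * rho) / 2 := ⟨_, rfl⟩
  have ha0 : |a0| ≤ 7 * C0 := by
    have e1 : 11 / R ≤ 11 := div_le_self (by norm_num) hR1
    have e2 : 0 ≤ 11 / R := by positivity
    have e3 := abs_le.1 hrho
    rw [ha0d, abs_le]
    constructor <;> linarith [e3.1, e3.2]
  have ha1 : 3 - m * a0 / 2 = (12 - m * (11 / R + 2 * rho)) / 4 := by rw [ha0d]; ring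
  have hlo : 1 / (4 * C0) ≤ 3 - m * a0 / 2 := by
    rw [ha1]
    have : 1 / (4 * C0) = 1 / C0 / 4 := by field_simp
    rw [this]; linarith
  have hhi : 3 - m * a0 / 2 ≤ C0 / 4 := by rw [ha1]; linarith
  rw [← ha0d] at relF relG
  obtain ⟨eu, heu⟩ : ∃ eu : ℂ, eu = (s1 + d1) - (h1 - (a0 : ℂ) - I * (b / 2 : ℝ)) * (s + d) :=
    ⟨_, rfl⟩
  obtain ⟨ev, hev⟩ : ∃ ev : ℂ, ev = (s1 - d1) - (conj h2 - (a0 : ℂ) + I * (b / 2 : ℝ)) * (s - d) :=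
    ⟨_, rfl⟩
  rw [← heu] at relF
  rw [← hev] at relG
  have hu : s1 + d1 = (h1 - (a0 : ℂ) - I * (b / 2 : ℝ)) * (s + d) + eu := by rw [heu]; ring
  have hv : s1 - d1 = (conj h2 - (a0 : ℂ) + I * (b / 2 : ℝ)) * (s - d) + ev := by rw [hev]; ring
  obtain ⟨x, hx⟩ : ∃ x : ℝ, x = w * ‖s + d‖ ^ 2 := ⟨_, rfl⟩
  obtain ⟨y, hy⟩ : ∃ y : ℝ, y = w * ‖s - d‖ ^ 2 := ⟨_, rfl⟩
  have hx0 : 0 ≤ x := by rw [hx]; positivity
  have hy0 : 0 ≤ y := by rw [hy]; positivity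
  have hBq : w * (‖s‖ ^ 2 + ‖d‖ ^ 2) = (x + y) / 2 := by rw [bd_sq s d, hx, hy]; ring
  have hBq2 : w * (‖s‖ ^ 2 + ‖d‖ ^ 2) ≤ x + y := by rw [hBq]; linarith
  have hws : w * ‖s‖ ^ 2 ≤ x + y := by
    have : 0 ≤ w * ‖d‖ ^ 2 := by positivity
    have e1 : w * (‖s‖ ^ 2 + ‖d‖ ^ 2) = w * ‖s‖ ^ 2 + w * ‖d‖ ^ 2 := by ring
    linarith
  have hwd : w * ‖d‖ ^ 2 ≤ x + y := by
    have : 0 ≤ w * ‖s‖ ^ 2 := by positivity
    have e1 : w * (‖s‖ ^ 2 + ‖d‖ ^ 2) = w * ‖s‖ ^ 2 + w * ‖d‖ ^ 2 := by ring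
    linarith
  have hZ : 0 ≤ K + (x + y) := by positivity
  have hLZ : L ≤ A0 * (K + (x + y)) :=
    hL.trans (mul_le_mul_of_nonneg_left (by linarith) hA.le)
  have hdlL : dl * L ≤ dl * (A0 * (K + (x + y))) := mul_le_mul_of_nonneg_left hLZ hdl
  have hcc : min sg (sg ^ 2 / (A0 * C0 ^ 12)) * (A0 * C0 ^ 12) ≤ sg ^ 2 := by
    rw [← le_div_iff₀ (by positivity)]
    exact min_le_right _ _
  have su : w * ‖eu‖ ^ 2 ≤ (sg / k) ^ 2 * (K + (x + y)) :=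
    err_le hw0.le hw12 hk0 hdl hA.le hZ hdlk hcc (relF.trans hdlL)
  have sv : w * ‖ev‖ ^ 2 ≤ (sg / k) ^ 2 * (K + (x + y)) :=
    err_le hw0.le hw12 hk0 hdl hA.le hZ hdlk hcc (relG.trans hdlL)
  have hsk : 0 < sg / k := by positivity
  have cu : w * (‖s + d‖ * ‖eu‖) ≤ sg / k * (K + (x + y)) := by
    have h3 := cross_le hsk hw0.le (le_of_eq hx.symm) su
    refine h3.trans ?_
    rw [mul_div_assoc]
    exact mul_le_mul_of_nonneg_left (by linarith) hsk.le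
  have cv : w * (‖s - d‖ * ‖ev‖) ≤ sg / k * (K + (x + y)) := by
    have h3 := cross_le hsk hw0.le (le_of_eq hy.symm) sv
    refine h3.trans ?_
    rw [mul_div_assoc]
    exact mul_le_mul_of_nonneg_left (by linarith) hsk.le
  -- derivatives
  have hder := der_le hC0 hk ha0 hb2 hw0.le hh1 hh2 hsg.le hsg1 hZ hu hv su sv
  rw [← hx, ← hy] at hder
  have hs1 : w * ‖s1‖ ^ 2 ≤ (9 * C0 ^ 2) ^ 2 * k ^ 2 * (x + y) + 2 * (K + (x + y)) := by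
    have : 0 ≤ w * ‖d1‖ ^ 2 := by positivity
    have e1 : w * (‖s1‖ ^ 2 + ‖d1‖ ^ 2) = w * ‖s1‖ ^ 2 + w * ‖d1‖ ^ 2 := by ring
    linarith
  have hd1 : w * ‖d1‖ ^ 2 ≤ (9 * C0 ^ 2) ^ 2 * k ^ 2 * (x + y) + 2 * (K + (x + y)) := by
    have : 0 ≤ w * ‖s1‖ ^ 2 := by positivity
    have e1 : w * (‖s1‖ ^ 2 + ‖d1‖ ^ 2) = w * ‖s1‖ ^ 2 + w * ‖d1‖ ^ 2 := by ring
    linarith
  have hxy : 0 ≤ x + y := by positivity
  have p1 := prod_le hw0.le hk hK hxy hws hd1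
  have p2 := prod_le hw0.le hk hK hxy hws hs1
  have p3 := prod_le hw0.le hk hK hxy hwd hd1
  rw [← hA1d] at p1 p2 p3
  have x2 : w * |(conj s * s1 - conj d * d1).re| ≤ 2 * A1 * (K + k * (x + y)) := by
    have e1 : |(conj s * s1 - conj d * d1).re| ≤ ‖s‖ * ‖s1‖ + ‖d‖ * ‖d1‖ := by
      rw [Complex.sub_re]
      exact (abs_sub _ _).trans (add_le_add (re_mul_le _ _) (re_mul_le _ _))
    have e2 := mul_le_mul_of_nonneg_left e1 hw0.le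
    have e3 : w * (‖s‖ * ‖s1‖ + ‖d‖ * ‖d1‖) = w * (‖s‖ * ‖s1‖) + w * (‖d‖ * ‖d1‖) := by ring
    have e4 : 2 * A1 * (K + k * (x + y)) = A1 * (K + k * (x + y)) + A1 * (K + k * (x + y)) := by
      ring
    rw [e4]
    rw [e3] at e2
    linarith
  have x3 : w * |(conj d * d1).re| ≤ A1 * (K + k * (x + y)) :=
    (mul_le_mul_of_nonneg_left (re_mul_le d d1) hw0.le).trans p3
  obtain ⟨m1, m2, m3, m4⟩ := mid hA0 hA1 hk hK hxy hNS0 hBq2 p1 x2 x3 hNS hT hPot hE2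
  rw [← hA4d] at m1
  rw [← hA2d] at m2 m3 m4
  rw [← hA3d] at m3 m4
  -- boundary form
  have hLR : 0 ≤ Lam / R ^ 2 := by positivity
  have hBV := bv_le (n := n) (P := P) hC0 hk hm0 hm2' ha0 hb2 hlo hhi hw0.le hn hP hLR hh1 hh2 hre
    hsq him hsg.le hsg1 hZ hu hv cu cv su sv
  rw [← hx, ← hy] at hBV
  have ha := top_le hC0 hA0 hA2 hA3 hA4 hk hK hx0 hy0 he hsg.le hBq2 m1 m2 m3 hBV hV
  rw [← hBd] at ha
  have hfl := flux_le hC0 hA0 hk hw0.le him1 him hu hv cu cv hch hga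
  rw [← hx, ← hy] at hfl
  -- closing
  obtain ⟨se, hse⟩ : ∃ se : ℝ, se = sg + 1 / k + e := ⟨_, rfl⟩
  rw [← hse] at ha
  have hse0 : 0 ≤ se := by rw [hse]; positivity
  have hse1 : 16 * A ^ 2 * se ≤ 1 := by
    have h3 : se ≤ 3 * sg := by rw [hse]; linarith
    calc 16 * A ^ 2 * se ≤ 16 * A ^ 2 * (3 * sg) := mul_le_mul_of_nonneg_left h3 (by positivity)
      _ = 3 * (16 * A ^ 2 * sg) := by ring
      _ = 1 := by rw [h16]; norm_num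
  have hsgse : sg ≤ se := by
    rw [hse]
    have : 0 ≤ 1 / k := by positivity
    linarith
  have hY0 : 0 ≤ K + k * (x + y) := by positivity
  have hC2 : 0 ≤ 2 * A0 * C0 ^ 2 := by positivity
  have ha' : K + k * y ≤ A * (k ^ 2 * x + y + se * (K + k * (x + y))) := by
    refine ha.trans (mul_le_mul_of_nonneg_right ?_ (by positivity))
    rw [hAd]; linarith
  have hb' : k * x ≤ A * (y / k + |Nr| + se / k * (K + k * (x + y))) := by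
    refine hfl.trans ?_
    have h3 : 2 * A0 * C0 ^ 2 ≤ A := by rw [hAd]; linarith
    have h4 : sg / k * (K + (x + y)) ≤ se / k * (K + k * (x + y)) := by
      refine mul_le_mul (div_le_div_of_nonneg_right hsgse hk0.le) ?_ hZ (by positivity)
      have : x + y ≤ k * (x + y) := le_mul_of_one_le_left hxy hk
      linarith
    have h5 : 0 ≤ |Nr| := abs_nonneg _
    have h6 : 0 ≤ y / k := by positivity
    have h7 : 0 ≤ sg / k * (K + (x + y)) := by positivity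
    exact mul_le_mul h3 (by linarith) (by positivity) hAp.le
  have hd' : k ^ 2 * |Nr| ≤ A * (K + k * (x + y)) := by
    refine m4.trans (mul_le_mul_of_nonneg_right ?_ hY0)
    rw [hAd]; linarith
  obtain ⟨r1, r2, r3⟩ := close_red hA1' hK hx0 hy0 hk1 hse0 hse1 ha' hb' hd'
  have hsd : s + d = 0 := by
    have h3 : w * ‖s + d‖ ^ 2 = 0 := by rw [← hx]; exact r2
    rcases mul_eq_zero.1 h3 with h4 | h4
    · exact absurd h4 hw0.ne'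
    · exact norm_eq_zero.1 (pow_eq_zero_iff (by norm_num) |>.1 h4)
  have hsd2 : s - d = 0 := by
    have h3 : w * ‖s - d‖ ^ 2 = 0 := by rw [← hy]; exact r3
    rcases mul_eq_zero.1 h3 with h4 | h4
    · exact absurd h4 hw0.ne'
    · exact norm_eq_zero.1 (pow_eq_zero_iff (by norm_num) |>.1 h4)
  refine ⟨r1, ?_, ?_⟩
  · have h3 : (2 : ℂ) * s = (s + d) + (s - d) := by ring
    rw [hsd, hsd2, add_zero] at h3
    rcases mul_eq_zero.1 h3 with h4 | h4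
    · norm_num at h4
    · exact h4
  · have h3 : (2 : ℂ) * d = (s + d) - (s - d) := by ring
    rw [hsd, hsd2, sub_zero] at h3
    rcases mul_eq_zero.1 h3 with h4 | h4
    · norm_num at h4
    · exact h4

end Crest.Agent.R086.CIII
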