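import Crest.Agent.R086.Sph1
import Crest.Agent.R086.SH1

/-!
Row 86, spherical harmonics (helper545): completeness on `ℝ^d`, in terms of helper475's `Harm`.
-/

set_option autoImplicit false

open MeasureTheory

namespace Crest.Agent.R086.SH

variable {d : ℕ}

lemma plap_eq (p : MvPolynomial (Fin d) ℝ) : Sph.plap p = plap p := rfl

/-- COMPLETENESS on `ℝ^d`: if all coefficients
`∫_S f(r w) p(w) dσ(w)` (`r > 0`, `p` harmonic homogeneous) vanish then `f = 0`. -/
theorem eq_zero_of_coef [NeZero d] (f : EuclideanSpace ℝ (Fin d) → ℂ) (hf : Continuous f)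
    (h : ∀ (l : ℕ) (p : MvPolynomial (Fin d) ℝ), Sph.Harm l p → ∀ r : ℝ, 0 < r →
      ∫ w : Metric.sphere (0 : EuclideanSpace ℝ (Fin d)) 1,
        f (r • (w : EuclideanSpace ℝ (Fin d))) *
          ((MvPolynomial.eval (fun i => (w : EuclideanSpace ℝ (Fin d)) i) p : ℝ) : ℂ)
          ∂((volume : Measure (EuclideanSpace ℝ (Fin d))).toSphere) = 0) :
    ∀ y, f y = 0 := by
  -- away from the origin
  have h1 : ∀ y, y ≠ 0 → f y = 0 := by
    intro y hy
    have hn : 0 < ‖y‖ := norm_pos_iff.mpr hy
    have h2 := complete_complex (d := d) (fun w => f (‖y‖ • (w : EuclideanSpace ℝ (Fin d))))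
      (hf.comp (by fun_prop))
      (fun l p hp hl => h l p ⟨hp, hl⟩ ‖y‖ hn)
    have h3 := h2 ⟨(‖y‖)⁻¹ • y, by
      rw [mem_sphere_zero_iff_norm, norm_smul, norm_inv, norm_norm, inv_mul_cancel₀ hn.ne']⟩
    simpa [smul_smul, mul_inv_cancel₀ hn.ne'] using h3
  intro y
  by_cases hy : y = 0
  · subst hy
    -- density of the complement of the origin
    have : Nontrivial (EuclideanSpace ℝ (Fin d)) := by
      refine ⟨⟨EuclideanSpace.single 0 1, 0, ?_⟩⟩
      intro h0
      have := congrArg (fun v : EuclideanSpace ℝ (Fin d) => v 0) h0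
      simp at this
    have hd : Dense ({0}ᶜ : Set (EuclideanSpace ℝ (Fin d))) := dense_compl_singleton 0
    have hcl : IsClosed {z : EuclideanSpace ℝ (Fin d) | f z = 0} :=
      isClosed_eq hf continuous_const
    have hsub : (Set.univ : Set (EuclideanSpace ℝ (Fin d))) ⊆ {z | f z = 0} := by
      rw [← hd.closure_eq]
      exact closure_minimal (fun z hz => h1 z hz) hcl
    exact hsub (Set.mem_univ 0)
  · exact h1 y hy

/-- If two continuous functions have the same coefficients they are equal. -/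
theorem eq_of_coef [NeZero d] (f g : EuclideanSpace ℝ (Fin d) → ℂ) (hf : Continuous f)
    (hg : Continuous g)
    (h : ∀ (l : ℕ) (p : MvPolynomial (Fin d) ℝ), Sph.Harm l p → ∀ r : ℝ, 0 < r →
      ∫ w : Metric.sphere (0 : EuclideanSpace ℝ (Fin d)) 1,
        f (r • (w : EuclideanSpace ℝ (Fin d))) *
          ((MvPolynomial.eval (fun i => (w : EuclideanSpace ℝ (Fin d)) i) p : ℝ) : ℂ)
          ∂((volume : Measure (EuclideanSpace ℝ (Fin d))).toSphere) =
      ∫ w : Metric.sphere (0 : EuclideanSpace ℝ (Fin d)) 1,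
        g (r • (w : EuclideanSpace ℝ (Fin d))) *
          ((MvPolynomial.eval (fun i => (w : EuclideanSpace ℝ (Fin d)) i) p : ℝ) : ℂ)
          ∂((volume : Measure (EuclideanSpace ℝ (Fin d))).toSphere)) :
    f = g := by
  have hint : ∀ (k : EuclideanSpace ℝ (Fin d) → ℂ) (_ : Continuous k)
      (p : MvPolynomial (Fin d) ℝ) (r : ℝ),
      Integrable (fun w : Metric.sphere (0 : EuclideanSpace ℝ (Fin d)) 1 =>
        k (r • (w : EuclideanSpace ℝ (Fin d))) *
          ((MvPolynomial.eval (fun i => (w : EuclideanSpace ℝ (Fin d)) i) p : ℝ) : ℂ))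
        ((volume : Measure (EuclideanSpace ℝ (Fin d))).toSphere) := by
    intro k hk p r
    have c1 : Continuous fun w : Metric.sphere (0 : EuclideanSpace ℝ (Fin d)) 1 =>
        k (r • (w : EuclideanSpace ℝ (Fin d))) := hk.comp (by fun_prop)
    have c2 : Continuous fun w : Metric.sphere (0 : EuclideanSpace ℝ (Fin d)) 1 =>
        ((MvPolynomial.eval (fun i => (w : EuclideanSpace ℝ (Fin d)) i) p : ℝ) : ℂ) :=
      Complex.continuous_ofReal.comp ((continuous_pfun p).comp continuous_subtype_val)
    exact (c1.mul c2).integrable_of_hasCompactSupport (HasCompactSupport.of_compactSpace _)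
  have h0 := eq_zero_of_coef (fun y => f y - g y) (hf.sub hg) (fun l p hp r hr => by
    have := h l p hp r hr
    simp only [sub_mul]
    rw [integral_sub (hint f hf p r) (hint g hg p r), this, sub_self])
  funext y
  exact sub_eq_zero.mp (h0 y)

end Crest.Agent.R086.SH
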