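import Crest.Agent.R086.SHDefs
import Crest.Agent.R086.SphComp
import Crest.Agent.R202.SphDiv

/-!
Row 86, spherical harmonics (helper851): FUNK-HECKE for plane waves, and
`InX N f → InX N (modeFn H (comp H f))`.
-/

set_option autoImplicit false

open MeasureTheory Complex Set
open scoped ContDiff

namespace Crest.Agent.R086.SHF

open Crest.Agent.R086.SH (pfun)

noncomputable section

/-! ### integrals of polynomials over the sphere -/

lemma integrable_sph {E : Type*} [NormedAddCommGroup E] {g : S11 → E} (hg : Continuous g) :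
    Integrable g sig :=
  hg.integrable_of_hasCompactSupport (HasCompactSupport.of_compactSpace _)

lemma continuous_pfun_sph (F : MvPolynomial (Fin 12) ℝ) :
    Continuous fun z : S11 => pfun F (z : R12) :=
  (SH.continuous_pfun F).comp continuous_subtype_val

/-- divergence theorem on the sphere for homogeneous polynomials -/
lemma star {F : MvPolynomial (Fin 12) ℝ} {d : ℕ} (hF : F.IsHomogeneous d) (i : Fin 12) :
    ((d : ℝ) + 11) * ∫ z : S11, pfun F z * (z : R12) i ∂sig =
      ∫ z : S11, pfun (MvPolynomial.pderiv i F) z ∂sig := by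
  have h := R202.SphDiv.flux_deriv (n := 12) (by norm_num)
    (fun j => if j = i then pfun F else fun _ => 0) (fun j => by
      by_cases hj : j = i
      · simp only [hj, if_true]
        exact ((SH.contDiff_pfun F).of_le le_top).contDiffOn
      · simp only [hj, if_false]
        exact contDiffOn_const) (r := 1) one_pos
  have e1 : ∀ ρ : ℝ, (ρ ^ (12 - 1) * ∫ z : R202.SphDiv.Sph 12,
      ∑ j, (if j = i then pfun F else fun _ => 0) (ρ • (z : R12)) * (z : R12) j
        ∂(R202.SphDiv.sig 12)) = ρ ^ (d + 11) * ∫ z : S11, pfun F z * (z : R12) i ∂sig := by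
    intro ρ
    have e2 : (fun z : S11 => ∑ j, (if j = i then pfun F else fun _ => 0) (ρ • (z : R12)) *
        (z : R12) j) = fun z : S11 => ρ ^ d * (pfun F z * (z : R12) i) := by
      funext z
      rw [Finset.sum_eq_single i]
      · simp only [if_true]
        rw [SH.pfun_smul_of_hom hF]; ring
      · intro j _ hj
        simp [hj]
      · intro hi; exact absurd (Finset.mem_univ i) hi
    change (ρ ^ (12 - 1) * ∫ z : S11, ∑ j, (if j = i then pfun F else fun _ => 0) (ρ • (z : R12)) *
        (z : R12) j ∂sig) = _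
    rw [e2, integral_const_mul]
    ring
  have e3 : R202.SphDiv.dv (fun j => if j = i then pfun F else fun _ => 0) =
      fun x : R12 => pfun (MvPolynomial.pderiv i F) x := by
    funext x
    unfold R202.SphDiv.dv
    rw [Finset.sum_eq_single i]
    · simp only [if_true]
      exact SH.fderiv_pfun_single F x i
    · intro j _ hj
      simp only [hj, if_false]
      simp [Crest.GeometryTopology.CoordMetric.pderiv]
    · intro hi; exact absurd (Finset.mem_univ i) hi
  simp only [e1] at h
  have h2 := (hasDerivAt_pow (d + 11) (1 : ℝ)).mul_const (∫ z : S11, pfun F z * (z : R12) i ∂sig)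
  have h3 := h.unique h2
  rw [e3] at h3
  simp only [one_pow, one_mul, mul_one, one_smul] at h3
  change (∫ z : S11, pfun (MvPolynomial.pderiv i F) z ∂sig) = _ at h3
  rw [h3]
  push_cast
  ring

/-- the linear form `⟨v, ·⟩` -/
def lin (v : R12) : MvPolynomial (Fin 12) ℝ := ∑ i, MvPolynomial.C (v i) * MvPolynomial.X i

lemma pfun_lin (v x : R12) : pfun (lin v) x = ∑ i, v i * x i := by
  simp [pfun, lin]

lemma pfun_lin_inner (v x : R12) : pfun (lin v) x = inner ℝ v x := by
  rw [pfun_lin, PiLp.inner_apply]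
  refine Finset.sum_congr rfl fun i _ => ?_
  simp [mul_comm]

lemma lin_hom (v : R12) : (lin v).IsHomogeneous 1 := by
  unfold lin
  refine MvPolynomial.IsHomogeneous.sum _ _ _ fun i _ => ?_
  have := (MvPolynomial.isHomogeneous_C (Fin 12) (v i)).mul (MvPolynomial.isHomogeneous_X ℝ i)
  simpa using this

lemma pderiv_lin (v : R12) (i : Fin 12) :
    MvPolynomial.pderiv i (lin v) = MvPolynomial.C (v i) := by
  unfold lin
  rw [map_sum, Finset.sum_eq_single i]
  · simp
  · intro j _ hj
    rw [MvPolynomial.pderiv_mul, MvPolynomial.pderiv_X_of_ne hj]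
    simp
  · intro hi; exact absurd (Finset.mem_univ i) hi

/-- directional derivative `∑ v_i ∂_i p` -/
def dd (v : R12) (p : MvPolynomial (Fin 12) ℝ) : MvPolynomial (Fin 12) ℝ :=
  ∑ i, MvPolynomial.C (v i) * MvPolynomial.pderiv i p

lemma pderiv_comm (i j : Fin 12) (p : MvPolynomial (Fin 12) ℝ) :
    MvPolynomial.pderiv i (MvPolynomial.pderiv j p) =
      MvPolynomial.pderiv j (MvPolynomial.pderiv i p) := by
  have h : ⁅MvPolynomial.pderiv (R := ℝ) i, MvPolynomial.pderiv (R := ℝ) j⁆ = 0 := by
    apply MvPolynomial.derivation_ext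
    intro k
    rw [Derivation.commutator_apply]
    by_cases h1 : j = k
    · subst h1
      by_cases h2 : i = j
      · subst h2; simp
      · rw [MvPolynomial.pderiv_X_self, MvPolynomial.pderiv_X_of_ne (Ne.symm h2)]; simp
    · by_cases h2 : i = k
      · subst h2
        rw [MvPolynomial.pderiv_X_self, MvPolynomial.pderiv_X_of_ne (Ne.symm h1)]; simp
      · rw [MvPolynomial.pderiv_X_of_ne (Ne.symm h1), MvPolynomial.pderiv_X_of_ne (Ne.symm h2)]
        simp
  have h2 := congrArg (fun D => D p) h
  simp only [Derivation.commutator_apply, Derivation.coe_zero, Pi.zero_apply] at h2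
  exact sub_eq_zero.mp h2

lemma dd_hom {l : ℕ} {p : MvPolynomial (Fin 12) ℝ} (hp : p.IsHomogeneous l) (v : R12) :
    (dd v p).IsHomogeneous (l - 1) := by
  unfold dd
  refine MvPolynomial.IsHomogeneous.sum _ _ _ fun i _ => ?_
  have := (MvPolynomial.isHomogeneous_C (Fin 12) (v i)).mul (hp.pderiv (i := i))
  simpa using this

lemma dd_harm {p : MvPolynomial (Fin 12) ℝ} (hp : Sph.plap p = 0) (v : R12) :
    Sph.plap (dd v p) = 0 := by
  have h1 : Sph.plap (dd v p) = dd v (Sph.plap p) := by
    unfold Sph.plap dd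
    simp only [map_sum, MvPolynomial.pderiv_mul, MvPolynomial.pderiv_C, zero_mul, zero_add,
      Finset.mul_sum]
    rw [Finset.sum_comm]
    refine Finset.sum_congr rfl fun i _ => Finset.sum_congr rfl fun j _ => ?_
    rw [pderiv_comm j i p, pderiv_comm j i]
  rw [h1, hp]
  unfold dd
  simp

lemma pfun_dd (v : R12) (p : MvPolynomial (Fin 12) ℝ) (x : R12) :
    pfun (dd v p) x = ∑ i, v i * pfun (MvPolynomial.pderiv i p) x := by
  simp [pfun, dd]

lemma euler {l : ℕ} {p : MvPolynomial (Fin 12) ℝ} (hp : p.IsHomogeneous l) (x : R12) :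
    ∑ i, x i * pfun (MvPolynomial.pderiv i p) x = l * pfun p x := by
  have h := hp.sum_X_mul_pderiv
  have h2 := congrArg (fun q => pfun q x) h
  simp only [pfun, map_sum, map_mul, MvPolynomial.eval_X, nsmul_eq_mul, map_natCast] at h2
  exact h2

/-- the mean of a harmonic polynomial of positive degree vanishes -/
lemma mean_zero {l : ℕ} (hl : l ≠ 0) {p : MvPolynomial (Fin 12) ℝ} (hp : p.IsHomogeneous l)
    (hh : Sph.plap p = 0) : ∫ z : S11, pfun p z ∂sig = 0 := by
  have h1 : (l : ℝ) * ∫ z : S11, pfun p z ∂sig =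
      ∑ i, ∫ z : S11, pfun (MvPolynomial.pderiv i p) z * (z : R12) i ∂sig := by
    rw [← integral_const_mul, ← integral_finsetSum]
    · refine integral_congr_ae (Filter.Eventually.of_forall fun z => ?_)
      simp only
      rw [← euler hp]
      exact Finset.sum_congr rfl fun i _ => mul_comm _ _
    · intro i _
      refine integrable_sph ((continuous_pfun_sph _).mul ?_)
      fun_prop
  have h2 : ∀ i, ∫ z : S11, pfun (MvPolynomial.pderiv i p) z * (z : R12) i ∂sig =
      (((l - 1 : ℕ) : ℝ) + 11)⁻¹ *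
        ∫ z : S11, pfun (MvPolynomial.pderiv i (MvPolynomial.pderiv i p)) z ∂sig := by
    intro i
    have h3 := star (hp.pderiv (i := i)) i
    have h4 : (((l - 1 : ℕ) : ℝ) + 11) ≠ 0 := by positivity
    rw [← h3, ← mul_assoc, inv_mul_cancel₀ h4, one_mul]
  have h3 : ∑ i, ∫ z : S11, pfun (MvPolynomial.pderiv i p) z * (z : R12) i ∂sig = 0 := by
    rw [Finset.sum_congr rfl fun i _ => h2 i, ← Finset.mul_sum, ← integral_finsetSum]
    · have h5 : (fun z : S11 => ∑ i, pfun (MvPolynomial.pderiv i (MvPolynomial.pderiv i p)) z) =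
          fun z : S11 => pfun (Sph.plap p) z := by
        funext z
        unfold Sph.plap
        rw [SH.pfun_sum]
      rw [h5, hh]
      simp [pfun]
    · intro i _
      exact integrable_sph (continuous_pfun_sph _)
  rw [h3] at h1
  have h4 : (l : ℝ) ≠ 0 := by exact_mod_cast hl
  exact (mul_eq_zero.mp h1).resolve_left h4

/-- the universal moments: `∫_S ⟨v,z⟩^k p(z) dσ = cf k l * p(v)` for unit `v`. -/
def cf : ℕ → ℕ → ℝ
  | 0, 0 => (sig univ).toReal
  | 0, _ + 1 => 0
  | 1, l => ((l : ℝ) * cf 0 (l - 1)) / (1 + l + 10)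
  | k + 2, l => (((k : ℝ) + 1) * cf k l + l * cf (k + 1) (l - 1)) / ((k : ℝ) + 2 + l + 10)

lemma step {l k : ℕ} {p : MvPolynomial (Fin 12) ℝ} (hp : p.IsHomogeneous l) (v : R12) :
    ((k : ℝ) + 1 + l + 10) * ∫ z : S11, pfun (lin v) z ^ (k + 1) * pfun p z ∂sig =
      (k : ℝ) * ‖v‖ ^ 2 * (∫ z : S11, pfun (lin v) z ^ (k - 1) * pfun p z ∂sig) +
        ∫ z : S11, pfun (lin v) z ^ k * pfun (dd v p) z ∂sig := by
  have hF : (lin v ^ k * p).IsHomogeneous (k + l) := by
    have := ((lin_hom v).pow k).mul hp
    simpa using this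
  have hci : ∀ i : Fin 12, Continuous fun z : S11 => (z : R12) i := fun i => by fun_prop
  have h1 : (∫ z : S11, pfun (lin v) z ^ (k + 1) * pfun p z ∂sig) =
      ∑ i, v i * ∫ z : S11, pfun (lin v ^ k * p) z * (z : R12) i ∂sig := by
    simp_rw [← integral_const_mul]
    rw [← integral_finsetSum]
    · refine integral_congr_ae (Filter.Eventually.of_forall fun z => ?_)
      simp only
      have h2 : pfun (lin v) (z : R12) ^ (k + 1) = pfun (lin v) (z : R12) ^ k * ∑ i, v i * (z : R12) i := by
        rw [pow_succ, ← pfun_lin]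
      rw [h2, Finset.mul_sum, Finset.sum_mul]
      refine Finset.sum_congr rfl fun i _ => ?_
      simp only [pfun, map_mul, map_pow]
      ring
    · intro i _
      exact integrable_sph (continuous_const.mul ((continuous_pfun_sph _).mul (hci i)))
  have h2 : ∀ i : Fin 12, (((k + l : ℕ) : ℝ) + 11) * (v i * ∫ z : S11, pfun (lin v ^ k * p) z *
      (z : R12) i ∂sig) = v i * ∫ z : S11, pfun (MvPolynomial.pderiv i (lin v ^ k * p)) z ∂sig := by
    intro i
    rw [← star hF i]; ring
  have h3 : ((k : ℝ) + 1 + l + 10) = (((k + l : ℕ) : ℝ) + 11) := by push_cast; ring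
  rw [h1, h3, Finset.mul_sum, Finset.sum_congr rfl fun i _ => h2 i]
  simp_rw [← integral_const_mul]
  rw [← integral_finsetSum, ← integral_add]
  · refine integral_congr_ae (Filter.Eventually.of_forall fun z => ?_)
    simp only
    have h4 : ∀ i : Fin 12, pfun (MvPolynomial.pderiv i (lin v ^ k * p)) (z : R12) =
        (k : ℝ) * pfun (lin v) (z : R12) ^ (k - 1) * v i * pfun p z +
          pfun (lin v) (z : R12) ^ k * pfun (MvPolynomial.pderiv i p) z := by
      intro i
      rw [MvPolynomial.pderiv_mul, MvPolynomial.pderiv_pow, pderiv_lin]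
      simp only [pfun, map_add, map_mul, map_pow, map_natCast, MvPolynomial.eval_C]
    have h5 : ‖v‖ ^ 2 = ∑ i, v i ^ 2 := by simp [EuclideanSpace.norm_sq_eq]
    rw [pfun_dd, h5, Finset.mul_sum, Finset.mul_sum, Finset.sum_mul, ← Finset.sum_add_distrib]
    refine Finset.sum_congr rfl fun i _ => ?_
    rw [h4 i]
    ring
  · exact integrable_sph (continuous_const.mul
      (((continuous_pfun_sph _).pow _).mul (continuous_pfun_sph _)))
  · exact integrable_sph (((continuous_pfun_sph _).pow _).mul (continuous_pfun_sph _))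
  · intro i _
    exact integrable_sph (continuous_const.mul (continuous_pfun_sph _))

/-- MOMENTS -/
theorem moments (k : ℕ) : ∀ (l : ℕ) (p : MvPolynomial (Fin 12) ℝ), p.IsHomogeneous l →
    Sph.plap p = 0 → ∀ v : R12, ‖v‖ = 1 →
    ∫ z : S11, pfun (lin v) z ^ k * pfun p z ∂sig = cf k l * pfun p v := by
  induction k using Nat.strong_induction_on with
  | _ k ih =>
    intro l p hp hh v hv
    match k, ih with
    | 0, _ =>
      simp only [pow_zero, one_mul]
      match l, hp with
      | 0, hp =>
        have h1 : ∃ c : ℝ, p = MvPolynomial.C c := by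
          rw [← MvPolynomial.totalDegree_zero_iff_isHomogeneous] at hp
          exact ⟨_, MvPolynomial.totalDegree_eq_zero_iff_eq_C.mp hp⟩
        obtain ⟨c, rfl⟩ := h1
        simp only [pfun, MvPolynomial.eval_C, cf]
        rw [integral_const, smul_eq_mul, Measure.real]
      | l + 1, hp =>
        rw [mean_zero (Nat.succ_ne_zero l) hp hh]
        simp [cf]
    | 1, ih =>
      have h1 := step (k := 0) hp v
      simp only [Nat.cast_zero, zero_mul, zero_add] at h1
      have h2 := ih 0 (by norm_num) (l - 1) (dd v p) (dd_hom hp v) (dd_harm hh v) v hv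
      have h3 : pfun (dd v p) v = l * pfun p v := by rw [pfun_dd, euler hp]
      rw [h2, h3] at h1
      have h4 : (1 + (l : ℝ) + 10) ≠ 0 := by positivity
      unfold cf
      rw [div_mul_eq_mul_div, eq_div_iff h4, mul_comm, h1]
      ring
    | k + 2, ih =>
      have h1 := step (k := k + 1) hp v
      have h2 := ih (k + 1) (by omega) (l - 1) (dd v p) (dd_hom hp v) (dd_harm hh v) v hv
      have h3 : pfun (dd v p) v = l * pfun p v := by rw [pfun_dd, euler hp]
      have h5 := ih k (by omega) l p hp hh v hv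
      simp only [Nat.add_sub_cancel] at h1
      rw [h2, h3, h5, hv] at h1
      have h4 : ((k : ℝ) + 2 + l + 10) ≠ 0 := by positivity
      unfold cf
      rw [div_mul_eq_mul_div, eq_div_iff h4, mul_comm]
      push_cast at h1
      have h6 : ((k : ℝ) + 2 + l + 10) = (k : ℝ) + 1 + 1 + l + 10 := by ring
      rw [h6, show k + 2 = k + 1 + 1 from rfl, h1]
      ring

/-! ### Funk–Hecke for plane waves -/

/-- the Bessel-type function -/
def jl (l : ℕ) (ρ : ℝ) : ℂ := ∑' k : ℕ, (I * ρ) ^ k / (k.factorial : ℂ) * ((cf k l : ℝ) : ℂ)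

theorem funk {l : ℕ} {H : R12 → ℝ} (hH : SHarm l H) {v : R12} (hv : ‖v‖ = 1) (ρ : ℝ) :
    ∫ z : S11, ((H z : ℝ) : ℂ) * cexp (I * ((ρ * inner ℝ v (z : R12) : ℝ) : ℂ)) ∂sig =
      jl l ρ * ((H v : ℝ) : ℂ) := by
  obtain ⟨p, hp, hpH⟩ := hH.poly
  have hHp : H = pfun p := by funext y; exact hpH y
  have hh : Sph.plap p = 0 := by
    apply MvPolynomial.funext
    intro x
    have h1 := hH.harm (WithLp.toLp 2 x)
    rw [hHp] at h1
    have h2 := SH.lap_pfun p (WithLp.toLp 2 x)
    have h3 : pfun (SH.plap p) (WithLp.toLp 2 x) = 0 := by rw [← h2]; exact h1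
    have h4 : (MvPolynomial.eval (fun i => (WithLp.toLp 2 x : R12) i)) (Sph.plap p) = 0 := h3
    simpa using h4
  subst hHp
  -- series
  have hcont : ∀ k : ℕ, Continuous fun z : S11 =>
      (I * ρ) ^ k / (k.factorial : ℂ) * ((pfun (lin v) z ^ k * pfun p z : ℝ) : ℂ) := by
    intro k
    refine continuous_const.mul (Complex.continuous_ofReal.comp ?_)
    exact ((continuous_pfun_sph _).pow _).mul (continuous_pfun_sph _)
  obtain ⟨C, hC⟩ : ∃ C : ℝ, ∀ z : S11, ‖pfun p (z : R12)‖ ≤ C := by
    obtain ⟨C, hC⟩ := isCompact_univ.exists_bound_of_continuousOn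
      (f := fun z : S11 => pfun p (z : R12)) (continuous_pfun_sph p).continuousOn
    exact ⟨C, fun z => hC z (mem_univ z)⟩
  have hlin : ∀ z : S11, |pfun (lin v) (z : R12)| ≤ 1 := by
    intro z
    rw [pfun_lin_inner]
    have h1 := abs_real_inner_le_norm v (z : R12)
    have h2 : ‖(z : R12)‖ = 1 := by simp
    rw [hv, h2] at h1
    simpa using h1
  have hbd : ∀ (k : ℕ) (z : S11), ‖(I * ρ) ^ k / (k.factorial : ℂ) *
      ((pfun (lin v) z ^ k * pfun p z : ℝ) : ℂ)‖ ≤ |ρ| ^ k / k.factorial * C := by
    intro k z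
    rw [norm_mul, norm_div, norm_pow, norm_mul, norm_I, one_mul, Complex.norm_real,
      Complex.norm_real, Complex.norm_natCast, Real.norm_eq_abs]
    refine mul_le_mul_of_nonneg_left ?_ (by positivity)
    rw [norm_mul, norm_pow, Real.norm_eq_abs]
    calc |pfun (lin v) (z : R12)| ^ k * ‖pfun p (z : R12)‖ ≤ 1 ^ k * ‖pfun p (z : R12)‖ := by
          gcongr
          exact hlin z
      _ = ‖pfun p (z : R12)‖ := by simp
      _ ≤ C := hC z
  have hsum : HasSum (fun k : ℕ => ∫ z : S11, (I * ρ) ^ k / (k.factorial : ℂ) *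
      ((pfun (lin v) z ^ k * pfun p z : ℝ) : ℂ) ∂sig)
      (∫ z : S11, ∑' k : ℕ, (I * ρ) ^ k / (k.factorial : ℂ) *
      ((pfun (lin v) z ^ k * pfun p z : ℝ) : ℂ) ∂sig) := by
    refine hasSum_integral_of_summable_integral_norm (fun k => integrable_sph (hcont k)) ?_
    refine Summable.of_nonneg_of_le (fun k => integral_nonneg fun z => norm_nonneg _)
      (fun k => ?_) (((Real.summable_pow_div_factorial |ρ|).mul_right C).mul_right (sig.real univ))
    calc ∫ z : S11, ‖(I * ρ) ^ k / (k.factorial : ℂ) *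
          ((pfun (lin v) z ^ k * pfun p z : ℝ) : ℂ)‖ ∂sig
        ≤ ∫ _ : S11, |ρ| ^ k / k.factorial * C ∂sig :=
          integral_mono (integrable_sph (hcont k)).norm (integrable_const _) fun z => hbd k z
      _ = |ρ| ^ k / k.factorial * C * sig.real univ := by
          rw [integral_const, smul_eq_mul]; ring
  have e1 : ∀ z : S11, ∑' k : ℕ, (I * ρ) ^ k / (k.factorial : ℂ) *
      ((pfun (lin v) z ^ k * pfun p z : ℝ) : ℂ) =
      ((pfun p z : ℝ) : ℂ) * cexp (I * ((ρ * inner ℝ v (z : R12) : ℝ) : ℂ)) := by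
    intro z
    rw [Complex.exp_eq_exp_ℂ, NormedSpace.exp_eq_tsum_div, ← tsum_mul_left]
    refine tsum_congr fun k => ?_
    rw [pfun_lin_inner]
    push_cast
    ring
  have e2 : ∀ k : ℕ, ∫ z : S11, (I * ρ) ^ k / (k.factorial : ℂ) *
      ((pfun (lin v) z ^ k * pfun p z : ℝ) : ℂ) ∂sig =
      (I * ρ) ^ k / (k.factorial : ℂ) * ((cf k l : ℝ) : ℂ) * ((pfun p v : ℝ) : ℂ) := by
    intro k
    rw [integral_const_mul, integral_complex_ofReal, moments k l p hp hh v hv]
    push_cast
    ring
  have h1 := hsum.tsum_eq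
  simp_rw [e1, e2] at h1
  rw [← h1, tsum_mul_right]
  rfl

/-- direction of a vector (`0` for `0`) -/
def dir (y : R12) : R12 := ‖y‖⁻¹ • y

lemma norm_dir {y : R12} (hy : y ≠ 0) : ‖dir y‖ = 1 := by
  unfold dir
  rw [norm_smul, norm_inv, norm_norm, inv_mul_cancel₀ (norm_ne_zero_iff.2 hy)]

lemma mean {l : ℕ} {H : R12 → ℝ} (hH : SHarm l H) :
    ∫ z : S11, ((H z : ℝ) : ℂ) ∂sig = jl l 0 * ((H 0 : ℝ) : ℂ) := by
  obtain ⟨p, hp, hpH⟩ := hH.poly
  have hHp : H = pfun p := by funext y; exact hpH y
  have hv : ‖(ei 0 : R12)‖ = 1 := by simp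
  have h1 := funk hH hv 0
  simp only [zero_mul, Complex.ofReal_zero, mul_zero, Complex.exp_zero, mul_one] at h1
  rw [h1]
  rcases Nat.eq_zero_or_pos l with hl | hl
  · subst hl
    have h2 : ∃ c : ℝ, p = MvPolynomial.C c := by
      rw [← MvPolynomial.totalDegree_zero_iff_isHomogeneous] at hp
      exact ⟨_, MvPolynomial.totalDegree_eq_zero_iff_eq_C.mp hp⟩
    obtain ⟨c, rfl⟩ := h2
    have h3 : ∀ y, H y = c := fun y => by rw [hHp]; simp [pfun]
    rw [h3, h3]
  · have h0 : H 0 = 0 := by
      have h2 := SH.pfun_smul_of_hom hp 0 (0 : R12)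
      rw [zero_smul, zero_pow hl.ne', zero_mul] at h2
      rw [hHp]; exact h2
    have hh : Sph.plap p = 0 := by
      apply MvPolynomial.funext
      intro x
      have h1 := hH.harm (WithLp.toLp 2 x)
      rw [hHp] at h1
      have h2 := SH.lap_pfun p (WithLp.toLp 2 x)
      have h3 : pfun (SH.plap p) (WithLp.toLp 2 x) = 0 := by rw [← h2]; exact h1
      have h4 : (MvPolynomial.eval (fun i => (WithLp.toLp 2 x : R12) i)) (Sph.plap p) = 0 := h3
      simpa using h4
    have h4 := mean_zero hl.ne' hp hh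
    have h5 : ∫ z : S11, ((H z : ℝ) : ℂ) ∂sig = 0 := by
      rw [integral_complex_ofReal, hHp, h4]; simp
    rw [← h1, h5, h0]; simp

/-- FUNK–HECKE for all vectors: `∫_S H(z) e^{i⟨z, t y⟩} dσ = j_l(t|y|) H(y/|y|)`. -/
theorem funk' {l : ℕ} {H : R12 → ℝ} (hH : SHarm l H) (t : ℝ) (y : R12) :
    ∫ z : S11, ((H z : ℝ) : ℂ) * cexp (I * ((inner ℝ (z : R12) (t • y) : ℝ) : ℂ)) ∂sig =
      jl l (t * ‖y‖) * ((H (dir y) : ℝ) : ℂ) := by
  by_cases hy : y = 0
  · subst hy
    have h1 := mean hH
    simp only [dir, smul_zero, inner_zero_right, Complex.ofReal_zero, mul_zero, Complex.exp_zero,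
      mul_one, norm_zero]
    exact h1
  · rw [← funk hH (norm_dir hy)]
    refine integral_congr_ae (Filter.Eventually.of_forall fun z => ?_)
    simp only
    congr 4
    unfold dir
    rw [inner_smul_right, inner_smul_left, real_inner_comm]
    have h1 : ‖y‖ ≠ 0 := norm_ne_zero_iff.2 hy
    simp only [conj_trivial]
    field_simp

/-! ### polar coordinates -/

/-- the radial measure `r^11 dr` -/
abbrev rad : Measure (Ioi (0 : ℝ)) := Measure.volumeIoiPow 11

lemma dim12 : Module.finrank ℝ R12 - 1 = 11 := by simp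

variable {E : Type*} [NormedAddCommGroup E]

/-- polar coordinates -/
def toP (f : R12 → E) (p : S11 × Ioi (0 : ℝ)) : E := f ((p.2 : ℝ) • (p.1 : R12))

lemma mpres : MeasurePreserving (homeomorphUnitSphereProd R12)
    ((volume : Measure R12).comap (↑)) (sig.prod rad) := by
  have h := (volume : Measure R12).measurePreserving_homeomorphUnitSphereProd
  rw [dim12] at h
  exact h

omit [NormedAddCommGroup E] in
lemma toP_comp (f : R12 → E) (x : ({0}ᶜ : Set R12)) :
    toP f (homeomorphUnitSphereProd R12 x) = f x := by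
  simp only [toP, homeomorphUnitSphereProd_apply_snd_coe, homeomorphUnitSphereProd_apply_fst_coe]
  have hx : ‖(x : R12)‖ ≠ 0 := norm_ne_zero_iff.2 x.2
  rw [smul_smul, mul_inv_cancel₀ hx, one_smul]

theorem integrable_toP {f : R12 → E} : Integrable (toP f) (sig.prod rad) ↔ Integrable f := by
  have hemb : MeasurableEmbedding (homeomorphUnitSphereProd R12) :=
    Homeomorph.measurableEmbedding _
  have h2 : (fun x : ({0}ᶜ : Set R12) => f x) = toP f ∘ (homeomorphUnitSphereProd R12) := by
    funext x
    exact (toP_comp f x).symm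
  rw [← mpres.integrable_comp_emb hemb, ← h2]
  have h3 := (integrableOn_iff_comap_subtypeVal (μ := (volume : Measure R12))
        (measurableSet_singleton (0 : R12)).compl (f := f))
  have h4 : IntegrableOn f ({0}ᶜ : Set R12) ↔ Integrable f := by
    rw [IntegrableOn, restrict_compl_singleton]
  rw [← h4, h3]
  rfl

theorem integral_toP [NormedSpace ℝ E] (f : R12 → E) :
    ∫ x, f x = ∫ p, toP f p ∂(sig.prod rad) := by
  have hemb : MeasurableEmbedding (homeomorphUnitSphereProd R12) :=
    Homeomorph.measurableEmbedding _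
  calc ∫ x, f x = ∫ x : ({0}ᶜ : Set R12), f x ∂((volume : Measure R12).comap (↑)) := by
        rw [integral_subtype_comap (measurableSet_singleton _).compl f,
          restrict_compl_singleton]
    _ = ∫ x : ({0}ᶜ : Set R12), toP f (homeomorphUnitSphereProd R12 x)
          ∂((volume : Measure R12).comap (↑)) := by
        refine integral_congr_ae (Filter.Eventually.of_forall fun x => (toP_comp f x).symm)
    _ = ∫ p, toP f p ∂(sig.prod rad) := mpres.integral_comp hemb (toP f)

lemma norm_smul_sph {r : ℝ} (hr : 0 < r) (z : S11) : ‖r • (z : R12)‖ = r := by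
  rw [norm_smul, Real.norm_eq_abs, abs_of_pos hr]; simp

lemma toP_modeFn (H : R12 → ℝ) (A : ℝ → ℂ) (p : S11 × Ioi (0 : ℝ)) :
    toP (modeFn H A) p = ((H p.1 : ℝ) : ℂ) * A p.2 := by
  have hr : (0 : ℝ) < p.2 := p.2.2
  unfold toP modeFn
  rw [norm_smul_sph hr, smul_smul, inv_mul_cancel₀ hr.ne', one_smul]

lemma exists_bd {l : ℕ} {H : R12 → ℝ} (hH : SHarm l H) :
    (Continuous fun z : S11 => ((H z : ℝ) : ℂ)) ∧ ∃ C : ℝ, ∀ z : S11, ‖((H z : ℝ) : ℂ)‖ ≤ C := by
  obtain ⟨p, hp, hpH⟩ := hH.poly
  have hHp : H = pfun p := by funext y; exact hpH y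
  have hc : Continuous fun z : S11 => ((H z : ℝ) : ℂ) := by
    rw [hHp]
    exact Complex.continuous_ofReal.comp (continuous_pfun_sph p)
  obtain ⟨C, hC⟩ := isCompact_univ.exists_bound_of_continuousOn hc.continuousOn
  exact ⟨hc, C, fun z => hC z (mem_univ z)⟩

/-- THE DENSITY of the single-mode part. -/
theorem rep_modeFn {N l : ℕ} {H : R12 → ℝ} (hH : SHarm l H) {a f : R12 → ℂ} (h : Rep N a f) :
    Rep N (modeFn H (comp H a)) (modeFn H (comp H f)) := by
  obtain ⟨hc, C, hC⟩ := exists_bd hH
  obtain ⟨hint, hf⟩ := h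
  set b : R12 → ℂ := fun ξ => (((1 + ‖ξ‖) ^ N : ℝ) : ℂ) * a ξ with hb
  -- integrability in polar coordinates
  have hbP : Integrable (toP b) (sig.prod rad) := integrable_toP.2 hint
  have hHb : Integrable (fun p : S11 × Ioi (0 : ℝ) => ((H p.1 : ℝ) : ℂ) * toP b p)
      (sig.prod rad) := by
    refine hbP.bdd_mul (c := C) ?_ (Filter.Eventually.of_forall fun p => hC p.1)
    exact (hc.comp continuous_fst).aestronglyMeasurable
  have hA := hHb.integral_prod_right
  have hAe : (fun r : Ioi (0 : ℝ) => ∫ z : S11, ((H z : ℝ) : ℂ) * toP b (z, r) ∂sig) =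
      fun r : Ioi (0 : ℝ) => (((1 + (r : ℝ)) ^ N : ℝ) : ℂ) * comp H a r := by
    funext r
    have hr : (0 : ℝ) < r := r.2
    unfold comp
    rw [← integral_const_mul]
    refine integral_congr_ae (Filter.Eventually.of_forall fun z => ?_)
    simp only [toP, hb]
    rw [norm_smul_sph hr]
    ring
  have hA' : Integrable (fun r : Ioi (0 : ℝ) => (((1 + (r : ℝ)) ^ N : ℝ) : ℂ) * comp H a r) rad := by
    rw [← hAe]; exact hA
  have hHint : Integrable (fun z : S11 => ((H z : ℝ) : ℂ)) sig := integrable_sph hc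
  refine ⟨?_, ?_⟩
  · rw [← integrable_toP]
    refine (hHint.mul_prod hA').congr (Filter.Eventually.of_forall fun p => ?_)
    have hr : (0 : ℝ) < p.2 := p.2.2
    simp only
    have h1 : toP (fun ξ : R12 => (((1 + ‖ξ‖) ^ N : ℝ) : ℂ) * modeFn H (comp H a) ξ) p =
        (((1 + (p.2 : ℝ)) ^ N : ℝ) : ℂ) * toP (modeFn H (comp H a)) p := by
      unfold toP
      change (((1 + ‖(p.2 : ℝ) • (p.1 : R12)‖) ^ N : ℝ) : ℂ) * _ = _
      rw [norm_smul_sph hr]
    rw [h1, toP_modeFn]
    ring
  · intro y
    -- integrability of `a`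
    have haint : Integrable a := by
      have h1 : a = fun ξ : R12 => ((((1 + ‖ξ‖) ^ N)⁻¹ : ℝ) : ℂ) * b ξ := by
        funext ξ
        have h2 : (0 : ℝ) < (1 + ‖ξ‖) ^ N := by positivity
        simp only [hb]
        rw [← mul_assoc, ← Complex.ofReal_mul, inv_mul_cancel₀ h2.ne', Complex.ofReal_one, one_mul]
      rw [h1]
      refine hint.bdd_mul (c := 1) ?_ (Filter.Eventually.of_forall fun ξ => ?_)
      · refine Continuous.aestronglyMeasurable ?_
        refine Complex.continuous_ofReal.comp (Continuous.inv₀ (by fun_prop) fun ξ => ?_)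
        positivity
      · rw [Complex.norm_real, Real.norm_eq_abs, abs_of_nonneg (by positivity)]
        refine inv_le_one_of_one_le₀ (one_le_pow₀ ?_)
        have := norm_nonneg ξ
        linarith
    set Ψ : R12 → ℂ := fun ξ => ∫ z : S11, ((H z : ℝ) : ℂ) *
      cexp (I * ((inner ℝ (z : R12) (‖y‖ • ξ) : ℝ) : ℂ)) ∂sig with hΨ
    -- left side
    have hL : comp H f ‖y‖ = ∫ ξ, a ξ * Ψ ξ := by
      unfold comp
      have h1 : ∀ z : S11, ((H z : ℝ) : ℂ) * f (‖y‖ • (z : R12)) =
          ∫ ξ : R12, ((H z : ℝ) : ℂ) * (cexp (I * ((inner ℝ ξ (‖y‖ • (z : R12)) : ℝ) : ℂ)) * a ξ) := by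
        intro z
        rw [hf, integral_const_mul]
      simp_rw [h1]
      rw [integral_integral_swap]
      · refine integral_congr_ae (Filter.Eventually.of_forall fun ξ => ?_)
        simp only [hΨ]
        rw [← integral_const_mul]
        refine integral_congr_ae (Filter.Eventually.of_forall fun z => ?_)
        simp only
        have h2 : inner ℝ ξ (‖y‖ • (z : R12)) = inner ℝ (z : R12) (‖y‖ • ξ) := by
          rw [inner_smul_right, inner_smul_right, real_inner_comm]
        rw [h2]; ring
      · have h3 : Integrable (fun q : S11 × R12 => ((H q.1 : ℝ) : ℂ) * a q.2) (sig.prod volume) :=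
          hHint.mul_prod haint
        have h4 : (Function.uncurry fun (z : S11) (ξ : R12) => ((H z : ℝ) : ℂ) *
            (cexp (I * ((inner ℝ ξ (‖y‖ • (z : R12)) : ℝ) : ℂ)) * a ξ)) =
            fun q : S11 × R12 => cexp (I * ((inner ℝ q.2 (‖y‖ • (q.1 : R12)) : ℝ) : ℂ)) *
              (((H q.1 : ℝ) : ℂ) * a q.2) := by
          funext q
          simp only [Function.uncurry]
          ring
        rw [h4]
        refine h3.bdd_mul (c := 1) ?_ (Filter.Eventually.of_forall fun q => ?_)
        · refine Continuous.aestronglyMeasurable ?_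
          refine Complex.continuous_exp.comp (continuous_const.mul (Complex.continuous_ofReal.comp ?_))
          fun_prop
        · rw [mul_comm, Complex.norm_exp_ofReal_mul_I]
    have hL2 : comp H f ‖y‖ = ∫ r : Ioi (0 : ℝ), jl l (‖y‖ * r) * comp H a r ∂rad := by
      have hΨc : Continuous Ψ := by
        refine continuous_of_dominated (bound := fun _ => C) (fun ξ => ?_) (fun ξ => ?_)
          (integrable_const _) (Filter.Eventually.of_forall fun z => ?_)
        · refine Continuous.aestronglyMeasurable (hc.mul (Complex.continuous_exp.comp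
            (continuous_const.mul (Complex.continuous_ofReal.comp ?_))))
          fun_prop
        · refine Filter.Eventually.of_forall fun z => ?_
          rw [norm_mul, mul_comm I, Complex.norm_exp_ofReal_mul_I, mul_one]
          exact hC z
        · refine continuous_const.mul (Complex.continuous_exp.comp
            (continuous_const.mul (Complex.continuous_ofReal.comp ?_)))
          fun_prop
      have hΨb : ∀ ξ, ‖Ψ ξ‖ ≤ C * sig.real univ := by
        intro ξ
        refine norm_integral_le_of_norm_le_const (Filter.Eventually.of_forall fun z => ?_)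
        rw [norm_mul, mul_comm I, Complex.norm_exp_ofReal_mul_I, mul_one]
        exact hC z
      have haΨ : Integrable (fun ξ => a ξ * Ψ ξ) :=
        haint.mul_bdd (c := C * sig.real univ) hΨc.aestronglyMeasurable
          (Filter.Eventually.of_forall hΨb)
      rw [hL, integral_toP, integral_prod_symm _ (integrable_toP.2 haΨ)]
      refine integral_congr_ae (Filter.Eventually.of_forall fun r => ?_)
      have hr : (0 : ℝ) < r := r.2
      simp only
      unfold comp
      rw [← integral_const_mul]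
      refine integral_congr_ae (Filter.Eventually.of_forall fun z => ?_)
      simp only [toP, hΨ]
      have h5 := funk' hH (‖y‖ * (r : ℝ)) (z : R12)
      have hz : ‖(z : R12)‖ = 1 := by simp
      have hz0 : dir (z : R12) = z := by unfold dir; rw [hz]; simp
      rw [hz, mul_one, hz0] at h5
      rw [smul_smul, h5]
      ring
    -- right side
    have hR : ∫ ξ : R12, cexp (I * ((inner ℝ ξ y : ℝ) : ℂ)) * modeFn H (comp H a) ξ =
        ((H (dir y) : ℝ) : ℂ) * ∫ r : Ioi (0 : ℝ), jl l (‖y‖ * r) * comp H a r ∂rad := by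
      have h0 : Integrable (fun ξ : R12 => cexp (I * ((inner ℝ ξ y : ℝ) : ℂ)) *
          modeFn H (comp H a) ξ) := by
        have hAA : Integrable (fun r : Ioi (0 : ℝ) => comp H a r) rad := by
          have h1 : (fun r : Ioi (0 : ℝ) => comp H a r) = fun r : Ioi (0 : ℝ) =>
              ((((1 + (r : ℝ)) ^ N)⁻¹ : ℝ) : ℂ) * ((((1 + (r : ℝ)) ^ N : ℝ) : ℂ) * comp H a r) := by
            funext r
            have hr : (0 : ℝ) < r := r.2
            have h2 : (0 : ℝ) < (1 + (r : ℝ)) ^ N := by positivity
            rw [← mul_assoc, ← Complex.ofReal_mul, inv_mul_cancel₀ h2.ne', Complex.ofReal_one,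
              one_mul]
          rw [h1]
          refine hA'.bdd_mul (c := 1) ?_ (Filter.Eventually.of_forall fun r => ?_)
          · refine Continuous.aestronglyMeasurable ?_
            refine Complex.continuous_ofReal.comp (Continuous.inv₀ (by fun_prop) fun r => ?_)
            have hr : (0 : ℝ) < r := r.2
            positivity
          · have hr : (0 : ℝ) < r := r.2
            rw [Complex.norm_real, Real.norm_eq_abs, abs_of_nonneg (by positivity)]
            refine inv_le_one_of_one_le₀ (one_le_pow₀ ?_)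
            linarith
        have h1 : Integrable (modeFn H (comp H a)) := by
          rw [← integrable_toP]
          refine (hHint.mul_prod hAA).congr (Filter.Eventually.of_forall fun p => ?_)
          rw [toP_modeFn]
        refine h1.bdd_mul (c := 1) ?_ (Filter.Eventually.of_forall fun ξ => ?_)
        · refine Continuous.aestronglyMeasurable (Complex.continuous_exp.comp
            (continuous_const.mul (Complex.continuous_ofReal.comp ?_)))
          fun_prop
        · rw [mul_comm, Complex.norm_exp_ofReal_mul_I]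
      rw [integral_toP, integral_prod_symm _ (integrable_toP.2 h0), ← integral_const_mul]
      refine integral_congr_ae (Filter.Eventually.of_forall fun r => ?_)
      have hr : (0 : ℝ) < r := r.2
      simp only
      have h5 := funk' hH (r : ℝ) y
      have h6 : ((H (dir y) : ℝ) : ℂ) * (jl l (‖y‖ * r) * comp H a r) =
          (jl l ((r : ℝ) * ‖y‖) * ((H (dir y) : ℝ) : ℂ)) * comp H a r := by
        rw [mul_comm ‖y‖]; ring
      rw [h6, ← h5, ← integral_mul_const]
      refine integral_congr_ae (Filter.Eventually.of_forall fun z => ?_)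
      simp only
      have h7 : toP (fun ξ : R12 => cexp (I * ((inner ℝ ξ y : ℝ) : ℂ)) * modeFn H (comp H a) ξ)
          (z, r) = cexp (I * ((inner ℝ ((r : ℝ) • (z : R12)) y : ℝ) : ℂ)) *
            toP (modeFn H (comp H a)) (z, r) := rfl
      rw [h7, toP_modeFn, inner_smul_left, inner_smul_right]
      simp only [conj_trivial]
      ring
    rw [hR, ← hL2]
    rfl

/-- single-mode parts of functions in `X_N` are in `X_N`. -/
theorem inX_modeFn {N l : ℕ} {H : R12 → ℝ} (hH : SHarm l H) {f : R12 → ℂ} (h : InX N f) :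
    InX N (modeFn H (comp H f)) := by
  obtain ⟨a, ha⟩ := h
  exact ⟨_, rep_modeFn hH ha⟩

end

end Crest.Agent.R086.SHF
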