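import Crest.Agent.R086.CMax
import Crest.Agent.R086.SHF

/-!
Row 86, Part C, regime (R2) (helper851): no eigenfunction of large degree `l`, given the a-priori
estimate (REG): global norm `≤ M *` local `L¹` norm.
-/

set_option autoImplicit false

open MeasureTheory Complex Set Filter Topology
open scoped ContDiff

namespace Crest.Agent.R086.CMax

open Crest.Agent.R086.SHF

noncomputable section

/-- total mass of the sphere -/
def sg0 : ℝ := sig.real univ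

lemma sg0_nonneg : 0 ≤ sg0 := measureReal_nonneg

/-- `|F(b)|² ≤ σ X²` if `|F(|y|)H(y/|y|)| ≤ X` and `∫ H² = 1`. -/
lemma sq_le_of_sup {l : ℕ} {H : R12 → ℝ} (hH : SHarm l H) (hn : (∫ w : S11, (H w) ^ 2 ∂sig) = 1)
    {F : ℝ → ℂ} {X : ℝ} (hX : ∀ y, ‖modeFn H F y‖ ≤ X) {b : ℝ} (hb : 0 < b) :
    ‖F b‖ ^ 2 ≤ sg0 * X ^ 2 := by
  have hc : Continuous fun w : S11 => H w := by
    obtain ⟨hc, -⟩ := exists_bd hH
    have h2 : (fun w : S11 => H w) = fun w : S11 => (((H w : ℝ) : ℂ)).re := by funext w; simp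
    rw [h2]; exact Complex.continuous_re.comp hc
  have h1 : ‖F b‖ ^ 2 = ∫ w : S11, (H w) ^ 2 * ‖F b‖ ^ 2 ∂sig := by
    rw [integral_mul_const, hn, one_mul]
  have h2 : ∫ w : S11, (H w) ^ 2 * ‖F b‖ ^ 2 ∂sig ≤ ∫ _ : S11, X ^ 2 ∂sig := by
    refine integral_mono ((integrable_sph (hc.pow 2)).mul_const _) (integrable_const _) fun w => ?_
    have h3 := hX (b • (w : R12))
    have h4 : modeFn H F (b • (w : R12)) = ((H w : ℝ) : ℂ) * F b := by
      have := toP_modeFn H F (w, ⟨b, hb⟩)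
      exact this
    rw [h4, norm_mul, Complex.norm_real, Real.norm_eq_abs] at h3
    have h5 : 0 ≤ |H w| * ‖F b‖ := by positivity
    calc (H w) ^ 2 * ‖F b‖ ^ 2 = (|H w| * ‖F b‖) ^ 2 := by rw [mul_pow, sq_abs]
      _ ≤ X ^ 2 := by gcongr
  rw [h1]
  refine h2.trans (le_of_eq ?_)
  rw [integral_const, smul_eq_mul]
  rfl

/-- `∫_S |H| ≤ 1 + σ` -/
lemma l1_H {l : ℕ} {H : R12 → ℝ} (hH : SHarm l H) (hn : (∫ w : S11, (H w) ^ 2 ∂sig) = 1) :
    ∫ w : S11, |H w| ∂sig ≤ 1 + sg0 := by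
  have hc : Continuous fun w : S11 => H w := by
    obtain ⟨hc, -⟩ := exists_bd hH
    have h2 : (fun w : S11 => H w) = fun w : S11 => (((H w : ℝ) : ℂ)).re := by funext w; simp
    rw [h2]; exact Complex.continuous_re.comp hc
  have h2 : ∫ w : S11, |H w| ∂sig ≤ ∫ w : S11, ((H w) ^ 2 + 1) ∂sig := by
    refine integral_mono (integrable_sph hc.abs)
      ((integrable_sph (hc.pow 2)).add (integrable_const _)) fun w => ?_
    simp only
    nlinarith [sq_nonneg (|H w| - 1), sq_abs (H w), abs_nonneg (H w)]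
  have h3 : ∫ w : S11, ((H w) ^ 2 + 1) ∂sig = (∫ w : S11, (H w) ^ 2 ∂sig) + ∫ _ : S11, (1 : ℝ) ∂sig :=
    integral_add (integrable_sph (hc.pow 2)) (integrable_const _)
  rw [h3, hn, integral_const, smul_eq_mul, mul_one] at h2
  exact h2

/-- volume constant -/
def vc : ℝ := 9 ^ 12 / 12

lemma rad_Iio : (rad {r : Ioi (0 : ℝ) | (r : ℝ) < 9}).toReal = vc := by
  have h := Measure.volumeIoiPow_apply_Iio 11 ⟨(9 : ℝ), by norm_num⟩
  have h1 : {r : Ioi (0 : ℝ) | (r : ℝ) < 9} = Iio ⟨(9 : ℝ), by norm_num⟩ := by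
    ext r; simp [← Subtype.coe_lt_coe]
  rw [h1, h, ENNReal.toReal_ofReal (by norm_num)]
  unfold vc
  norm_num

/-- the local `L¹` norm of a single mode function -/
lemma local_L1 {l : ℕ} {H : R12 → ℝ} (hH : SHarm l H) (hn : (∫ w : S11, (H w) ^ 2 ∂sig) = 1)
    {F : ℝ → ℂ} {Y : ℝ} (hY : ∀ r : ℝ, 0 < r → r ≤ 8 → ‖F r‖ ≤ Y) :
    ∫ y in Metric.closedBall (0 : R12) 8, ‖modeFn H F y‖ ≤ (1 + sg0) * (vc * Y) := by
  have hc : Continuous fun w : S11 => |H w| := by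
    obtain ⟨hc, -⟩ := exists_bd hH
    have h2 : (fun w : S11 => |H w|) = fun w : S11 => ‖(((H w : ℝ) : ℂ))‖ := by
      funext w; rw [Complex.norm_real, Real.norm_eq_abs]
    rw [h2]; exact hc.norm
  have hY0 : 0 ≤ Y := (norm_nonneg _).trans (hY 1 one_pos (by norm_num))
  rw [← integral_indicator Metric.isClosed_closedBall.measurableSet, integral_toP]
  have e1 : ∀ p : S11 × Ioi (0 : ℝ), toP ((Metric.closedBall (0 : R12) 8).indicator
      fun y => ‖modeFn H F y‖) p = |H p.1| * (if (p.2 : ℝ) ≤ 8 then ‖F p.2‖ else 0) := by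
    intro p
    have hr : (0 : ℝ) < p.2 := p.2.2
    change (Metric.closedBall (0 : R12) 8).indicator (fun y => ‖modeFn H F y‖)
      ((p.2 : ℝ) • (p.1 : R12)) = _
    have h4 : modeFn H F ((p.2 : ℝ) • (p.1 : R12)) = ((H p.1 : ℝ) : ℂ) * F p.2 := toP_modeFn H F p
    by_cases h : (p.2 : ℝ) ≤ 8
    · rw [indicator_of_mem (by rw [mem_closedBall_zero_iff, norm_smul_sph hr]; exact h), if_pos h,
        h4, norm_mul, Complex.norm_real, Real.norm_eq_abs]
    · rw [indicator_of_notMem (by rw [mem_closedBall_zero_iff, norm_smul_sph hr]; exact h),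
        if_neg h, mul_zero]
  simp_rw [e1]
  rw [integral_prod_mul (fun z : S11 => |H z|)
    (fun r : Ioi (0 : ℝ) => if (r : ℝ) ≤ 8 then ‖F r‖ else 0)]
  have hI1 : 0 ≤ ∫ w : S11, |H w| ∂sig := integral_nonneg fun w => abs_nonneg _
  have hms : MeasurableSet {r : Ioi (0 : ℝ) | (r : ℝ) < 9} :=
    measurableSet_lt measurable_subtype_coe measurable_const
  have hI2 : ∫ r : Ioi (0 : ℝ), (if (r : ℝ) ≤ 8 then ‖F r‖ else 0) ∂rad ≤ vc * Y := by
    have hle : ∀ r : Ioi (0 : ℝ), (if (r : ℝ) ≤ 8 then ‖F r‖ else 0) ≤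
        {r : Ioi (0 : ℝ) | (r : ℝ) < 9}.indicator (fun _ => Y) r := by
      intro r
      have hr : (0 : ℝ) < r := r.2
      by_cases h : (r : ℝ) ≤ 8
      · rw [if_pos h, indicator_of_mem (by show (r : ℝ) < 9; linarith)]
        exact hY _ hr h
      · rw [if_neg h]
        exact indicator_nonneg (fun _ _ => hY0) r
    have hfin : rad {r : Ioi (0 : ℝ) | (r : ℝ) < 9} < ⊤ := by
      have h := Measure.volumeIoiPow_apply_Iio 11 ⟨(9 : ℝ), by norm_num⟩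
      have h1 : {r : Ioi (0 : ℝ) | (r : ℝ) < 9} = Iio ⟨(9 : ℝ), by norm_num⟩ := by
        ext r; simp [← Subtype.coe_lt_coe]
      rw [h1, h]
      exact ENNReal.ofReal_lt_top
    have hint : Integrable ({r : Ioi (0 : ℝ) | (r : ℝ) < 9}.indicator fun _ => Y) rad :=
      (integrable_indicator_iff hms).2 (integrableOn_const hfin.ne)
    have h5 := integral_mono_of_nonneg (μ := rad) (Eventually.of_forall fun r => by
      by_cases h : ((r : Ioi (0 : ℝ)) : ℝ) ≤ 8 <;> simp [h]) hint (Eventually.of_forall hle)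
    refine h5.trans (le_of_eq ?_)
    rw [integral_indicator hms, setIntegral_const, smul_eq_mul, Measure.real, rad_Iio]
  have hI20 : 0 ≤ ∫ r : Ioi (0 : ℝ), (if (r : ℝ) ≤ 8 then ‖F r‖ else 0) ∂rad :=
    integral_nonneg fun r => by
      by_cases h : (r : ℝ) ≤ 8 <;> simp [h]
  exact mul_le_mul (l1_H hH hn) hI2 hI20 (by have := sg0_nonneg; linarith)

/-- absolute constant -/
def CL : ℝ := 2 * ((1 + sg0) * (vc * (1 + 2 * sg0)))

lemma CL_nonneg : 0 ≤ CL := by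
  have := sg0_nonneg
  unfold CL vc
  positivity

/-- (R2b) core: a mode of large degree violates (REG). -/
theorem no_large_mode {n : ℕ} (P : Profile n) {l : ℕ} (hl : 1 ≤ l) {H : R12 → ℝ}
    (hH : SHarm l H) (hn : (∫ w : S11, (H w) ^ 2 ∂sig) = 1) {F G : ℝ → ℂ} (hF : ContDiff ℝ 2 F)
    (hG : ContDiff ℝ 2 G) {lam : ℂ} {C0 M X : ℝ}
    (hC0 : ∀ r ∈ Icc (0 : ℝ) 16, ‖P.q r‖ ^ n ≤ C0)
    (h1 : ∀ r : ℝ, 0 < r → P.rgen1 l F G r = lam * F r)
    (h2 : ∀ r : ℝ, 0 < r → P.rgen2 l F G r = lam * G r)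
    (hbig : (16 : ℝ) ^ 2 / 8 + 2 * KK n P.om lam C0 + n * C0 ≤ (l : ℝ) * (l + 10) / (16 : ℝ) ^ 2)
    (hX : ∀ y, ‖modeFn H F y‖ ≤ X ∧ ‖modeFn H G y‖ ≤ X) (hM : 0 ≤ M)
    (hReg : X ≤ M * ((∫ y in Metric.closedBall (0 : R12) 8, ‖modeFn H F y‖) +
      ∫ y in Metric.closedBall (0 : R12) 8, ‖modeFn H G y‖))
    (hsmall : M * CL * Real.sqrt ((1 / 2) ^ l) < 1) :
    ∀ r : ℝ, 0 < r → F r = 0 ∧ G r = 0 := by
  have hX0 : 0 ≤ X := (norm_nonneg _).trans (hX 0).1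
  have hs := sg0_nonneg
  have hdec := mode_decay P hl hF hG (b := 16) (by norm_num) hC0 h1 h2 hbig
  have hFb := sq_le_of_sup hH hn (fun y => (hX y).1) (b := 16) (by norm_num)
  have hGb := sq_le_of_sup hH hn (fun y => (hX y).2) (b := 16) (by norm_num)
  set t : ℝ := Real.sqrt ((1 / 2) ^ l) with ht
  have ht0 : 0 ≤ t := Real.sqrt_nonneg _
  have ht2 : t ^ 2 = (1 / 2) ^ l := Real.sq_sqrt (by positivity)
  -- pointwise bound on (0,8]
  have hpt : ∀ r : ℝ, 0 < r → r ≤ 8 → ‖F r‖ ^ 2 + ‖G r‖ ^ 2 ≤ ((1 + 2 * sg0) * X * t) ^ 2 := by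
    intro r hr hr8
    have h3 := hdec r ⟨hr.le, by linarith⟩
    have h4 : (r / 16) ^ l ≤ (1 / 2 : ℝ) ^ l := by
      apply pow_le_pow_left₀ (by positivity)
      linarith
    have h5 : ‖F 16‖ ^ 2 + ‖G 16‖ ^ 2 ≤ 2 * sg0 * X ^ 2 := by linarith
    have h6 : (‖F 16‖ ^ 2 + ‖G 16‖ ^ 2) * (r / 16) ^ l ≤ 2 * sg0 * X ^ 2 * (1 / 2) ^ l := by
      gcongr
    have h7 : ((1 + 2 * sg0) * X * t) ^ 2 = (1 + 2 * sg0) ^ 2 * X ^ 2 * (1 / 2) ^ l := by
      rw [mul_pow, mul_pow, ht2]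
    rw [h7]
    have h8 : 2 * sg0 ≤ (1 + 2 * sg0) ^ 2 := by nlinarith
    have h9 : 2 * sg0 * (X ^ 2 * (1 / 2) ^ l) ≤ (1 + 2 * sg0) ^ 2 * (X ^ 2 * (1 / 2) ^ l) :=
      mul_le_mul_of_nonneg_right h8 (by positivity)
    linarith
  have hYnn : 0 ≤ (1 + 2 * sg0) * X * t := by positivity
  have hYF : ∀ r : ℝ, 0 < r → r ≤ 8 → ‖F r‖ ≤ (1 + 2 * sg0) * X * t := by
    intro r hr hr8
    have := hpt r hr hr8
    refine abs_le_of_sq_le_sq' ?_ hYnn |>.2
    nlinarith [sq_nonneg ‖G r‖]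
  have hYG : ∀ r : ℝ, 0 < r → r ≤ 8 → ‖G r‖ ≤ (1 + 2 * sg0) * X * t := by
    intro r hr hr8
    have := hpt r hr hr8
    refine abs_le_of_sq_le_sq' ?_ hYnn |>.2
    nlinarith [sq_nonneg ‖F r‖]
  have hLF := local_L1 hH hn hYF
  have hLG := local_L1 hH hn hYG
  have h3 : X ≤ M * CL * t * X := by
    refine hReg.trans ?_
    have h4 := mul_le_mul_of_nonneg_left (add_le_add hLF hLG) hM
    refine h4.trans (le_of_eq ?_)
    unfold CL
    ring
  have hX00 : X = 0 := by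
    by_contra hne
    have hpos : 0 < X := lt_of_le_of_ne hX0 (Ne.symm hne)
    have h4 : M * CL * t * X < 1 * X := mul_lt_mul_of_pos_right hsmall hpos
    linarith
  intro r hr
  have hFr := sq_le_of_sup hH hn (fun y => (hX y).1) hr
  have hGr := sq_le_of_sup hH hn (fun y => (hX y).2) hr
  rw [hX00] at hFr hGr
  simp only [ne_eq, OfNat.ofNat_ne_zero, not_false_eq_true, zero_pow, mul_zero] at hFr hGr
  constructor
  · have : ‖F r‖ ^ 2 = 0 := le_antisymm hFr (by positivity)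
    simpa using this
  · have : ‖G r‖ ^ 2 = 0 := le_antisymm hGr (by positivity)
    simpa using this

end

end Crest.Agent.R086.CMax
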