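import Crest.Agent.R086.SHDefs

/-!
Row 86, Part C, regime (R2) (helper851): maximum principle for a single mode of large degree.
-/

set_option autoImplicit false

open Complex Set Filter Topology
open scoped ContDiff

namespace Crest.Agent.R086.CMax

noncomputable section

/-- one-dimensional maximum principle -/
theorem max_principle {Lam : ℝ} (hLam : 0 < Lam) {b : ℝ} {u u1 u2 : ℝ → ℝ}
    (hc : ContinuousOn u (Icc 0 b))
    (d1 : ∀ r ∈ Ioo 0 b, HasDerivAt u (u1 r) r) (d2 : ∀ r ∈ Ioo 0 b, HasDerivAt u1 (u2 r) r)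
    (hineq : ∀ r ∈ Ioo 0 b, Lam / r ^ 2 * u r ≤ u2 r + 11 / r * u1 r)
    (h0 : u 0 ≤ 0) (hb : u b ≤ 0) : ∀ r ∈ Icc 0 b, u r ≤ 0 := by
  intro r hr
  by_contra hcon
  push Not at hcon
  obtain ⟨s, hs, hmax⟩ := isCompact_Icc.exists_isMaxOn ⟨r, hr⟩ hc
  have hsr : u r ≤ u s := hmax hr
  have hs0 : 0 < u s := lt_of_lt_of_le hcon hsr
  have hsI : s ∈ Ioo 0 b := by
    refine ⟨lt_of_le_of_ne hs.1 fun h => ?_, lt_of_le_of_ne hs.2 fun h => ?_⟩
    · rw [← h] at hs0; linarith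
    · rw [h] at hs0; linarith
  have hnh : Ioo 0 b ∈ 𝓝 s := isOpen_Ioo.mem_nhds hsI
  have hlm : IsLocalMax u s := by
    filter_upwards [hnh] with x hx
    exact hmax (Ioo_subset_Icc_self hx)
  have hu1 : u1 s = 0 := hlm.hasDerivAt_eq_zero (d1 s hsI)
  have hu2 : 0 < u2 s := by
    have h1 := hineq s hsI
    rw [hu1, mul_zero, add_zero] at h1
    have h2 : 0 < Lam / s ^ 2 * u s := mul_pos (div_pos hLam (pow_pos hsI.1 2)) hs0
    linarith
  -- second derivative test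
  have hde : deriv u =ᶠ[𝓝 s] u1 := by
    filter_upwards [hnh] with x hx
    exact (d1 x hx).deriv
  have hd2 : deriv (deriv u) s = u2 s := by
    rw [hde.deriv_eq]; exact (d2 s hsI).deriv
  have hmin : IsLocalMin u s := by
    refine isLocalMin_of_deriv_deriv_pos (by rw [hd2]; exact hu2) ?_
      (d1 s hsI).continuousAt
    rw [(d1 s hsI).deriv]; exact hu1
  have hconst : ∀ᶠ x in 𝓝 s, u x = u s := by
    filter_upwards [hmin, hlm] with x h1 h2
    exact le_antisymm h2 h1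
  have h3 : deriv u =ᶠ[𝓝 s] fun _ => 0 := by
    have h4 : u =ᶠ[𝓝 s] fun _ => u s := hconst
    have h5 := h4.deriv
    simpa using h5
  have h6 : deriv (deriv u) s = 0 := by
    rw [h3.deriv_eq]; simp
  rw [hd2] at h6
  linarith

/-- comparison with `r^l` -/
theorem compare {l : ℕ} (hl : 1 ≤ l) {b : ℝ} (hb : 0 < b) {h h1 h2 : ℝ → ℝ}
    (hc : ContinuousOn h (Icc 0 b))
    (d1 : ∀ r ∈ Ioo 0 b, HasDerivAt h (h1 r) r) (d2 : ∀ r ∈ Ioo 0 b, HasDerivAt h1 (h2 r) r)
    (hineq : ∀ r ∈ Ioo 0 b, ((l : ℝ) * (l + 10)) / r ^ 2 * h r ≤ h2 r + 11 / r * h1 r)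
    (h0 : h 0 ≤ 0) : ∀ r ∈ Icc 0 b, h r ≤ h b * (r / b) ^ l := by
  obtain ⟨m, rfl⟩ : ∃ m, l = m + 1 := ⟨l - 1, by omega⟩
  have hLam : (0 : ℝ) < ((m + 1 : ℕ) : ℝ) * (((m + 1 : ℕ) : ℝ) + 10) := by positivity
  set c : ℝ := h b / b ^ (m + 1) with hcdef
  have key := max_principle hLam (b := b) (u := fun r => h r - c * r ^ (m + 1))
    (u1 := fun r => h1 r - c * ((m + 1 : ℕ) * r ^ m))
    (u2 := fun r => h2 r - c * ((m + 1 : ℕ) * (m * r ^ (m - 1)))) ?_ ?_ ?_ ?_ ?_ ?_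
  · intro r hr
    have := key r hr
    have h3 : h b * (r / b) ^ (m + 1) = c * r ^ (m + 1) := by
      rw [hcdef, div_pow]; field_simp
    rw [h3]; linarith
  · exact hc.sub (by fun_prop)
  · intro r hr
    have h3 := (hasDerivAt_pow (m + 1) r).const_mul c
    simp only [Nat.add_sub_cancel] at h3
    exact (d1 r hr).sub h3
  · intro r hr
    have h3 := ((hasDerivAt_pow m r).const_mul (((m + 1 : ℕ) : ℝ))).const_mul c
    exact (d2 r hr).sub h3
  · intro r hr
    have hr0 : 0 < r := hr.1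
    have h4 := hineq r hr
    have h5 : ((m + 1 : ℕ) : ℝ) * (((m + 1 : ℕ) : ℝ) + 10) / r ^ 2 * (c * r ^ (m + 1)) =
        c * ((m + 1 : ℕ) * (m * r ^ (m - 1))) + 11 / r * (c * ((m + 1 : ℕ) * r ^ m)) := by
      rcases Nat.eq_zero_or_pos m with hm | hm
      · subst hm; field_simp; push_cast; ring
      · obtain ⟨k, rfl⟩ : ∃ k, m = k + 1 := ⟨m - 1, by omega⟩
        simp only [Nat.add_sub_cancel]
        field_simp
        push_cast
        ring
    rw [mul_sub, h5]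
    have h6 : h2 r - c * ((m + 1 : ℕ) * (m * r ^ (m - 1))) +
        11 / r * (h1 r - c * ((m + 1 : ℕ) * r ^ m)) = (h2 r + 11 / r * h1 r) -
        (c * ((m + 1 : ℕ) * (m * r ^ (m - 1))) + 11 / r * (c * ((m + 1 : ℕ) * r ^ m))) := by ring
    rw [h6]
    linarith
  · simp only [ne_eq, Nat.add_eq_zero_iff, one_ne_zero, and_false, not_false_eq_true, zero_pow,
      mul_zero, sub_zero]
    exact h0
  · have h3 : c * b ^ (m + 1) = h b := by rw [hcdef]; field_simp
    rw [h3]; simp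

/-- the elementary inequality behind the comparison (two complex functions) -/
theorem ineq_aux {F G F1 G1 AF AG EF EG : ℂ} {r K1 K2 L : ℝ} (hr : 0 ≤ r)
    (hK2 : 0 ≤ K2)
    (hF : AF = -(I / 2 * r * F1) + EF) (hG : AG = I / 2 * r * G1 + EG)
    (hEF : ‖EF‖ ≤ K1 * ‖F‖ + K2 * ‖G‖) (hEG : ‖EG‖ ≤ K1 * ‖G‖ + K2 * ‖F‖)
    (hL : r ^ 2 / 8 + 2 * K1 + 2 * K2 ≤ L) :
    0 ≤ 2 * ‖F1‖ ^ 2 + 2 * ‖G1‖ ^ 2 + 2 * inner ℝ F AF + 2 * inner ℝ G AG +
      L * (‖F‖ ^ 2 + ‖G‖ ^ 2) := by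
  have h1 : -(‖F‖ * (r / 2 * ‖F1‖ + (K1 * ‖F‖ + K2 * ‖G‖))) ≤ inner ℝ F AF := by
    have h2 := abs_real_inner_le_norm F AF
    have h3 : ‖AF‖ ≤ r / 2 * ‖F1‖ + (K1 * ‖F‖ + K2 * ‖G‖) := by
      rw [hF]
      refine (norm_add_le _ _).trans (add_le_add ?_ hEF)
      rw [norm_neg, norm_mul, norm_mul, norm_div, norm_I, Complex.norm_real, Real.norm_eq_abs,
        abs_of_nonneg hr, Complex.norm_ofNat]
      apply le_of_eq; ring
    have h4 := mul_le_mul_of_nonneg_left h3 (norm_nonneg F)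
    have h5 := neg_abs_le (inner ℝ F AF)
    linarith
  have h2 : -(‖G‖ * (r / 2 * ‖G1‖ + (K1 * ‖G‖ + K2 * ‖F‖))) ≤ inner ℝ G AG := by
    have h2 := abs_real_inner_le_norm G AG
    have h3 : ‖AG‖ ≤ r / 2 * ‖G1‖ + (K1 * ‖G‖ + K2 * ‖F‖) := by
      rw [hG]
      refine (norm_add_le _ _).trans (add_le_add ?_ hEG)
      rw [norm_mul, norm_mul, norm_div, norm_I, Complex.norm_real, Real.norm_eq_abs,
        abs_of_nonneg hr, Complex.norm_ofNat]
      apply le_of_eq; ring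
    have h4 := mul_le_mul_of_nonneg_left h3 (norm_nonneg G)
    have h5 := neg_abs_le (inner ℝ G AG)
    linarith
  have hF0 := norm_nonneg F
  have hG0 := norm_nonneg G
  have e1 : 0 ≤ 2 * ‖F1‖ ^ 2 - r * (‖F‖ * ‖F1‖) + r ^ 2 / 8 * ‖F‖ ^ 2 := by
    nlinarith [sq_nonneg (2 * ‖F1‖ - r / 2 * ‖F‖)]
  have e2 : 0 ≤ 2 * ‖G1‖ ^ 2 - r * (‖G‖ * ‖G1‖) + r ^ 2 / 8 * ‖G‖ ^ 2 := by
    nlinarith [sq_nonneg (2 * ‖G1‖ - r / 2 * ‖G‖)]
  have e3 : 2 * K2 * (2 * (‖F‖ * ‖G‖)) ≤ 2 * K2 * (‖F‖ ^ 2 + ‖G‖ ^ 2) := by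
    have : 2 * (‖F‖ * ‖G‖) ≤ ‖F‖ ^ 2 + ‖G‖ ^ 2 := by nlinarith [sq_nonneg (‖F‖ - ‖G‖)]
    exact mul_le_mul_of_nonneg_left this (by positivity)
  have e4 : (r ^ 2 / 8 + 2 * K1 + 2 * K2) * (‖F‖ ^ 2 + ‖G‖ ^ 2) ≤ L * (‖F‖ ^ 2 + ‖G‖ ^ 2) :=
    mul_le_mul_of_nonneg_right hL (by positivity)
  nlinarith

variable {n : ℕ} (P : Profile n)

lemma norm_rV1 (r : ℝ) : ‖P.rV1 r‖ = (1 + (n : ℝ) / 2) * ‖P.q r‖ ^ n := by
  unfold Profile.rV1
  rw [norm_mul, Complex.norm_real, Real.norm_eq_abs, abs_of_nonneg (by positivity)]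
  congr 1
  have : (1 + (n : ℂ) / 2) = ((1 + (n : ℝ) / 2 : ℝ) : ℂ) := by push_cast; ring
  rw [this, Complex.norm_real, Real.norm_eq_abs, abs_of_nonneg (by positivity)]

lemma norm_rV2 (r : ℝ) : ‖P.rV2 r‖ = ((n : ℝ) / 2) * ‖P.q r‖ ^ n := by
  unfold Profile.rV2
  have h2 := P.two_le
  rw [norm_mul, norm_mul, Complex.norm_real, Real.norm_eq_abs, abs_of_nonneg (by positivity),
    norm_pow, norm_div, Complex.norm_natCast, Complex.norm_ofNat, mul_assoc, ← pow_add,
    Nat.sub_add_cancel h2]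

lemma norm_rV2c (r : ℝ) : ‖P.rV2c r‖ = ((n : ℝ) / 2) * ‖P.q r‖ ^ n := by
  unfold Profile.rV2c
  have h2 := P.two_le
  rw [norm_mul, norm_mul, Complex.norm_real, Real.norm_eq_abs, abs_of_nonneg (by positivity),
    norm_pow, norm_div, Complex.norm_natCast, Complex.norm_ofNat, RCLike.norm_conj, mul_assoc,
    ← pow_add, Nat.sub_add_cancel h2]

/-- the constant -/
def KK (n : ℕ) (om : ℝ) (lam : ℂ) (C0 : ℝ) : ℝ := ‖lam‖ + |om| + 1 / n + (1 + (n : ℝ) / 2) * C0

theorem rlap_eq1 {l : ℕ} {F G : ℝ → ℂ} {lam : ℂ} {r : ℝ}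
    (h : P.rgen1 l F G r = lam * F r) :
    rlap l F r = -(I / 2 * r * deriv F r) +
      (-(I * (lam + 1 / n - I * P.om) * F r) + P.rV1 r * F r + P.rV2 r * G r) := by
  unfold Profile.rgen1 at h
  have h1 : I * rlap l F r = (1 / 2) * ((r : ℂ) * deriv F r) + (lam + 1 / n - I * P.om) * F r
    + I * (P.rV1 r * F r + P.rV2 r * G r) := by
    linear_combination h
  have h2 : rlap l F r = -I * (I * rlap l F r) := by
    rw [← mul_assoc, neg_mul, I_mul_I]; ring
  rw [h2, h1]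
  ring_nf
  simp only [I_sq]
  ring

theorem rlap_eq2 {l : ℕ} {F G : ℝ → ℂ} {lam : ℂ} {r : ℝ}
    (h : P.rgen2 l F G r = lam * G r) :
    rlap l G r = I / 2 * r * deriv G r +
      (I * (lam + 1 / n + I * P.om) * G r + P.rV1 r * G r + P.rV2c r * F r) := by
  unfold Profile.rgen2 at h
  have h1 : -I * rlap l G r = (1 / 2) * ((r : ℂ) * deriv G r) + (lam + 1 / n + I * P.om) * G r
    - I * (P.rV1 r * G r + P.rV2c r * F r) := by
    linear_combination h
  have h2 : rlap l G r = I * (-I * rlap l G r) := by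
    rw [← mul_assoc, mul_neg, I_mul_I]; ring
  rw [h2, h1]
  ring_nf
  simp only [I_sq]
  ring

/-- value at the origin -/
theorem zero_at_origin {l : ℕ} (hl : 1 ≤ l) {F : ℝ → ℂ} (hF : ContDiff ℝ 2 F) {A : ℝ → ℂ}
    (hA : Continuous A) (h : ∀ r : ℝ, 0 < r → rlap l F r = A r) : F 0 = 0 := by
  have hc2 : Continuous (deriv (deriv F)) := by
    have h1 : ContDiff ℝ 1 (deriv F) := hF.deriv'
    exact h1.continuous_deriv le_rfl
  have hc1 : Continuous (deriv F) := hF.continuous_deriv (by norm_num)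
  have hc0 : Continuous F := hF.continuous
  -- multiply by r^2
  have h1 : ∀ r : ℝ, 0 < r → (r : ℂ) ^ 2 * deriv (deriv F) r + 11 * r * deriv F r -
      (l : ℂ) * (l + 10) * F r = (r : ℂ) ^ 2 * A r := by
    intro r hr
    have h2 := h r hr
    unfold rlap at h2
    have hr' : (r : ℂ) ≠ 0 := by exact_mod_cast hr.ne'
    rw [← h2]
    field_simp
  have hL : Continuous fun r : ℝ => (r : ℂ) ^ 2 * deriv (deriv F) r + 11 * r * deriv F r -
      (l : ℂ) * (l + 10) * F r := by fun_prop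
  have hR : Continuous fun r : ℝ => (r : ℂ) ^ 2 * A r := by fun_prop
  have h3 : (0 : ℝ) ∈ closure (Ioi (0 : ℝ)) := by simp
  have h4 : ∀ r ∈ closure (Ioi (0 : ℝ)), (r : ℂ) ^ 2 * deriv (deriv F) r + 11 * r * deriv F r -
      (l : ℂ) * (l + 10) * F r = (r : ℂ) ^ 2 * A r := by
    intro r hr
    exact closure_minimal (s := Ioi (0 : ℝ))
      (t := {r : ℝ | (r : ℂ) ^ 2 * deriv (deriv F) r + 11 * r * deriv F r -
        (l : ℂ) * (l + 10) * F r = (r : ℂ) ^ 2 * A r})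
      (fun x hx => h1 x hx) (isClosed_eq hL hR) hr
  have h5 := h4 0 h3
  simp only [Complex.ofReal_zero, ne_eq, OfNat.ofNat_ne_zero, not_false_eq_true, zero_pow,
    zero_mul, mul_zero, zero_add, add_zero, zero_sub, neg_eq_zero, mul_eq_zero] at h5
  have h6 : (l : ℂ) ≠ 0 := by exact_mod_cast (by omega : l ≠ 0)
  have h7 : ((l : ℂ) + 10) ≠ 0 := by
    have : ((l : ℂ) + 10) = ((l + 10 : ℕ) : ℂ) := by push_cast; ring
    rw [this]; exact_mod_cast (by omega : l + 10 ≠ 0)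
  tauto

/-- (R2a) DECAY OF A SINGLE MODE OF LARGE DEGREE TOWARDS THE ORIGIN. -/
theorem mode_decay {l : ℕ} (hl : 1 ≤ l) {F G : ℝ → ℂ} (hF : ContDiff ℝ 2 F)
    (hG : ContDiff ℝ 2 G) {lam : ℂ} {b C0 : ℝ} (hb : 0 < b)
    (hC0 : ∀ r ∈ Icc (0 : ℝ) b, ‖P.q r‖ ^ n ≤ C0)
    (h1 : ∀ r : ℝ, 0 < r → P.rgen1 l F G r = lam * F r)
    (h2 : ∀ r : ℝ, 0 < r → P.rgen2 l F G r = lam * G r)
    (hbig : b ^ 2 / 8 + 2 * KK n P.om lam C0 + n * C0 ≤ (l : ℝ) * (l + 10) / b ^ 2) :
    ∀ r ∈ Icc (0 : ℝ) b, ‖F r‖ ^ 2 + ‖G r‖ ^ 2 ≤ (‖F b‖ ^ 2 + ‖G b‖ ^ 2) * (r / b) ^ l := by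
  have hC0' : 0 ≤ C0 := le_trans (by positivity) (hC0 0 ⟨le_rfl, hb.le⟩)
  have hF1 : ContDiff ℝ 1 (deriv F) := hF.deriv'
  have hG1 : ContDiff ℝ 1 (deriv G) := hG.deriv'
  have dF : ∀ r, HasDerivAt F (deriv F r) r := fun r =>
    (hF.differentiable (by norm_num) r).hasDerivAt
  have dG : ∀ r, HasDerivAt G (deriv G r) r := fun r =>
    (hG.differentiable (by norm_num) r).hasDerivAt
  have dF1 : ∀ r, HasDerivAt (deriv F) (deriv (deriv F) r) r := fun r =>
    (hF1.differentiable (by norm_num) r).hasDerivAt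
  have dG1 : ∀ r, HasDerivAt (deriv G) (deriv (deriv G) r) r := fun r =>
    (hG1.differentiable (by norm_num) r).hasDerivAt
  have hqc : Continuous P.q := by
    unfold Profile.q
    exact P.smooth.continuous.comp (by fun_prop)
  have hV1 : Continuous P.rV1 := by
    unfold Profile.rV1
    exact continuous_const.mul (Complex.continuous_ofReal.comp (hqc.norm.pow n))
  have hV2 : Continuous P.rV2 := by
    unfold Profile.rV2
    exact (continuous_const.mul (Complex.continuous_ofReal.comp (hqc.norm.pow _))).mul (hqc.pow 2)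
  have hV2c : Continuous P.rV2c := by
    unfold Profile.rV2c
    exact (continuous_const.mul (Complex.continuous_ofReal.comp (hqc.norm.pow _))).mul
      ((Complex.continuous_conj.comp hqc).pow 2)
  have e1 := fun r (hr : 0 < r) => rlap_eq1 P (h1 r hr)
  have e2 := fun r (hr : 0 < r) => rlap_eq2 P (h2 r hr)
  have hF0 : F 0 = 0 := by
    refine zero_at_origin hl hF (A := fun r => -(I / 2 * r * deriv F r) +
      (-(I * (lam + 1 / n - I * P.om) * F r) + P.rV1 r * F r + P.rV2 r * G r)) ?_ e1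
    have := hF.continuous
    have := hG.continuous
    have := hF1.continuous
    fun_prop
  have hG0 : G 0 = 0 := by
    refine zero_at_origin hl hG (A := fun r => I / 2 * r * deriv G r +
      (I * (lam + 1 / n + I * P.om) * G r + P.rV1 r * G r + P.rV2c r * F r)) ?_ e2
    have := hF.continuous
    have := hG.continuous
    have := hG1.continuous
    fun_prop
  refine compare hl hb (h := fun r => ‖F r‖ ^ 2 + ‖G r‖ ^ 2)
    (h1 := fun r => 2 * inner ℝ (F r) (deriv F r) + 2 * inner ℝ (G r) (deriv G r))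
    (h2 := fun r => 2 * (inner ℝ (F r) (deriv (deriv F) r) + inner ℝ (deriv F r) (deriv F r)) +
      2 * (inner ℝ (G r) (deriv (deriv G) r) + inner ℝ (deriv G r) (deriv G r)))
    ?_ ?_ ?_ ?_ ?_
  · have := hF.continuous
    have := hG.continuous
    exact (by fun_prop : Continuous fun r => ‖F r‖ ^ 2 + ‖G r‖ ^ 2).continuousOn
  · intro r _
    exact (dF r).norm_sq.add (dG r).norm_sq
  · intro r _
    exact (((dF r).inner ℝ (dF1 r)).const_mul 2).add (((dG r).inner ℝ (dG1 r)).const_mul 2)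
  · intro r hr
    have hr0 : 0 < r := hr.1
    have hr' : (r : ℂ) ≠ 0 := by exact_mod_cast hr0.ne'
    have hq : ‖P.q r‖ ^ n ≤ C0 := hC0 r ⟨hr0.le, hr.2.le⟩
    have hq0 : 0 ≤ ‖P.q r‖ ^ n := by positivity
    have hK1 : 0 ≤ KK n P.om lam C0 := by unfold KK; positivity
    have hK2 : 0 ≤ (n : ℝ) / 2 * C0 := by positivity
    have hn1 : ‖(1 / (n : ℂ))‖ = 1 / n := by rw [norm_div, norm_one, Complex.norm_natCast]
    have hEF : ‖-(I * (lam + 1 / n - I * P.om) * F r) + P.rV1 r * F r + P.rV2 r * G r‖ ≤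
        KK n P.om lam C0 * ‖F r‖ + (n : ℝ) / 2 * C0 * ‖G r‖ := by
      refine (norm_add_le _ _).trans (add_le_add ((norm_add_le _ _).trans ?_) ?_)
      · rw [norm_neg, norm_mul, norm_mul, norm_I, one_mul, norm_mul, norm_rV1, KK, ← add_mul]
        refine mul_le_mul_of_nonneg_right (add_le_add ?_ ?_) (norm_nonneg _)
        · refine (norm_sub_le _ _).trans ?_
          have := norm_add_le lam (1 / (n : ℂ))
          rw [hn1] at this
          rw [norm_mul, norm_I, one_mul, Complex.norm_real, Real.norm_eq_abs]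
          linarith
        · exact mul_le_mul_of_nonneg_left hq (by positivity)
      · rw [norm_mul, norm_rV2]
        exact mul_le_mul_of_nonneg_right (mul_le_mul_of_nonneg_left hq (by positivity))
          (norm_nonneg _)
    have hEG : ‖I * (lam + 1 / n + I * P.om) * G r + P.rV1 r * G r + P.rV2c r * F r‖ ≤
        KK n P.om lam C0 * ‖G r‖ + (n : ℝ) / 2 * C0 * ‖F r‖ := by
      refine (norm_add_le _ _).trans (add_le_add ((norm_add_le _ _).trans ?_) ?_)
      · rw [norm_mul, norm_mul, norm_I, one_mul, norm_mul, norm_rV1, KK, ← add_mul]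
        refine mul_le_mul_of_nonneg_right (add_le_add ?_ ?_) (norm_nonneg _)
        · refine (norm_add_le _ _).trans ?_
          have := norm_add_le lam (1 / (n : ℂ))
          rw [hn1] at this
          rw [norm_mul, norm_I, one_mul, Complex.norm_real, Real.norm_eq_abs]
          linarith
        · exact mul_le_mul_of_nonneg_left hq (by positivity)
      · rw [norm_mul, norm_rV2c]
        exact mul_le_mul_of_nonneg_right (mul_le_mul_of_nonneg_left hq (by positivity))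
          (norm_nonneg _)
    have hL : r ^ 2 / 8 + 2 * KK n P.om lam C0 + 2 * ((n : ℝ) / 2 * C0) ≤
        (l : ℝ) * (l + 10) / r ^ 2 := by
      have h3 : r ^ 2 ≤ b ^ 2 := by
        have := hr.2.le
        gcongr
      have h4 : (l : ℝ) * (l + 10) / b ^ 2 ≤ (l : ℝ) * (l + 10) / r ^ 2 := by
        gcongr
      nlinarith
    have key := ineq_aux (F := F r) (G := G r) (F1 := deriv F r) (G1 := deriv G r) hr0.le hK2
      (e1 r hr0) (e2 r hr0) hEF hEG hL
    have i1 : inner ℝ (F r) (rlap l F r) = inner ℝ (F r) (deriv (deriv F) r) +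
        11 / r * inner ℝ (F r) (deriv F r) - (l : ℝ) * (l + 10) / r ^ 2 * ‖F r‖ ^ 2 := by
      have : rlap l F r = deriv (deriv F) r + ((11 / r : ℝ)) • deriv F r -
          ((l : ℝ) * (l + 10) / r ^ 2 : ℝ) • F r := by
        unfold rlap
        rw [Complex.real_smul, Complex.real_smul]
        push_cast
        ring
      rw [this, inner_sub_right, inner_add_right, inner_smul_right, inner_smul_right,
        real_inner_self_eq_norm_sq]
    have i2 : inner ℝ (G r) (rlap l G r) = inner ℝ (G r) (deriv (deriv G) r) +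
        11 / r * inner ℝ (G r) (deriv G r) - (l : ℝ) * (l + 10) / r ^ 2 * ‖G r‖ ^ 2 := by
      have : rlap l G r = deriv (deriv G) r + ((11 / r : ℝ)) • deriv G r -
          ((l : ℝ) * (l + 10) / r ^ 2 : ℝ) • G r := by
        unfold rlap
        rw [Complex.real_smul, Complex.real_smul]
        push_cast
        ring
      rw [this, inner_sub_right, inner_add_right, inner_smul_right, inner_smul_right,
        real_inner_self_eq_norm_sq]
    rw [i1, i2] at key
    rw [real_inner_self_eq_norm_sq, real_inner_self_eq_norm_sq]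
    nlinarith
  · simp [hF0, hG0]

end

end Crest.Agent.R086.CMax
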