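import Mathlib

/-!
Row 86, part A (helper507): complex rationals with kernel-checkable norm bounds.
-/
set_option autoImplicit false
open Complex
open scoped ComplexConjugate

namespace Crest.Agent.R086

/-- complex rational number -/
structure CQ where
  x : ℚ
  y : ℚ

namespace CQ

def add (a b : CQ) : CQ := ⟨a.x + b.x, a.y + b.y⟩
def sub (a b : CQ) : CQ := ⟨a.x - b.x, a.y - b.y⟩
def mul (a b : CQ) : CQ := ⟨a.x * b.x - a.y * b.y, a.x * b.y + a.y * b.x⟩
def cj (a : CQ) : CQ := ⟨a.x, -a.y⟩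
def sm (r : ℚ) (a : CQ) : CQ := ⟨r * a.x, r * a.y⟩
def one : CQ := ⟨1, 0⟩
def re (r : ℚ) : CQ := ⟨r, 0⟩
def n2 (a : CQ) : ℚ := a.x * a.x + a.y * a.y
/-- `‖a‖ ≤ n` checked by squares -/
def le (a : CQ) (n : ℚ) : Bool := decide (0 ≤ n) && decide (a.n2 ≤ n * n)

noncomputable def toC (a : CQ) : ℂ := ⟨(a.x : ℝ), (a.y : ℝ)⟩

@[simp] theorem toC_re (a : CQ) : a.toC.re = a.x := rfl
@[simp] theorem toC_im (a : CQ) : a.toC.im = a.y := rfl

theorem toC_add (a b : CQ) : (a.add b).toC = a.toC + b.toC := by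
  apply Complex.ext <;> simp [add]
theorem toC_sub (a b : CQ) : (a.sub b).toC = a.toC - b.toC := by
  apply Complex.ext <;> simp [sub]
theorem toC_mul (a b : CQ) : (a.mul b).toC = a.toC * b.toC := by
  apply Complex.ext <;> simp [mul]
theorem toC_cj (a : CQ) : (a.cj).toC = conj a.toC := by
  apply Complex.ext <;> simp [cj]
theorem toC_sm (r : ℚ) (a : CQ) : (sm r a).toC = ((r : ℝ) : ℂ) * a.toC := by
  apply Complex.ext <;> simp [sm]
theorem toC_one : one.toC = 1 := by
  apply Complex.ext <;> simp [one]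
theorem toC_rea (r : ℚ) : (re r).toC = ((r : ℝ) : ℂ) := by
  apply Complex.ext <;> simp [re]

theorem normSq_toC (a : CQ) : ‖a.toC‖ ^ 2 = (a.n2 : ℝ) := by
  rw [← Complex.normSq_eq_norm_sq, normSq_apply]
  simp [n2]

theorem norm_le {a : CQ} {n : ℚ} (h : a.le n = true) : ‖a.toC‖ ≤ (n : ℝ) := by
  simp only [le, Bool.and_eq_true, decide_eq_true_eq] at h
  have h1 : (0 : ℝ) ≤ n := by exact_mod_cast h.1
  apply le_of_sq_le_sq _ h1
  rw [normSq_toC]
  have := h.2
  rw [sq]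
  exact_mod_cast this

end CQ

end Crest.Agent.R086
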