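import Crest.Agent.R086.CLarge
import Crest.Agent.R086.CLift
import Crest.Agent.R086.CRegDefs

/-!
Row 86, Part C, regime (R2) (helper851): for `|lam| ≤ n^K1` there is no single-mode eigenfunction of
degree `l ≥ n^K2` (n large), given (REG).
-/

set_option autoImplicit false

open MeasureTheory Complex Set Filter Topology
open scoped ContDiff

namespace Crest.Agent.R086.CMax

open Crest.Agent.R086.CReg

noncomputable section

lemma Rep.anti {M N : ℕ} (hMN : M ≤ N) {a f : R12 → ℂ} (h : Rep N a f) : Rep M a f := by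
  refine ⟨?_, h.2⟩
  have h1 : (fun ξ : R12 => (((1 + ‖ξ‖) ^ M : ℝ) : ℂ) * a ξ) = fun ξ : R12 =>
      ((((1 + ‖ξ‖) ^ (N - M))⁻¹ : ℝ) : ℂ) * ((((1 + ‖ξ‖) ^ N : ℝ) : ℂ) * a ξ) := by
    funext ξ
    have h2 : (0 : ℝ) < 1 + ‖ξ‖ := by positivity
    rw [← mul_assoc, ← Complex.ofReal_mul]
    congr 2
    rw [eq_inv_mul_iff_mul_eq₀ (by positivity), ← pow_add, Nat.sub_add_cancel hMN]
  rw [h1]
  refine h.1.bdd_mul (c := 1) ?_ (Eventually.of_forall fun ξ => ?_)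
  · refine Continuous.aestronglyMeasurable ?_
    refine Complex.continuous_ofReal.comp (Continuous.inv₀ (by fun_prop) fun ξ => ?_)
    positivity
  · rw [Complex.norm_real, Real.norm_eq_abs, abs_of_nonneg (by positivity)]
    refine inv_le_one_of_one_le₀ (one_le_pow₀ ?_)
    have := norm_nonneg ξ
    linarith

lemma norm_le_xn {N k : ℕ} (hk : k ≤ N) {a f : R12 → ℂ} (h : Rep N a f) (y : R12) :
    ‖f y‖ ≤ xn k a := by
  have hk' := (Rep.anti hk h).1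
  rw [h.2 y]
  refine (norm_integral_le_integral_norm _).trans ?_
  unfold xn
  have hint : Integrable fun ξ : R12 => (1 + ‖ξ‖) ^ k * ‖a ξ‖ := by
    refine hk'.norm.congr (Eventually.of_forall fun ξ => ?_)
    simp only
    rw [norm_mul, Complex.norm_real, Real.norm_eq_abs, abs_of_nonneg (by positivity)]
  refine integral_mono_of_nonneg (Eventually.of_forall fun ξ => norm_nonneg _) hint
    (Eventually.of_forall fun ξ => ?_)
  simp only
  rw [norm_mul, mul_comm I, Complex.norm_exp_ofReal_mul_I, one_mul]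
  have h1 : (1 : ℝ) ≤ (1 + ‖ξ‖) ^ k := one_le_pow₀ (by have := norm_nonneg ξ; linarith)
  nlinarith [norm_nonneg (a ξ)]

lemma xn_nonneg (N : ℕ) (a : R12 → ℂ) : 0 ≤ xn N a := by
  unfold xn
  exact integral_nonneg fun ξ => by positivity

/-- numerics: exponential beats polynomial -/
lemma ev_small (C : ℝ) (K1 K : ℕ) : ∀ᶠ n : ℕ in atTop,
    ((n : ℝ) * (1 + (n : ℝ) ^ K1)) ^ K * C * Real.sqrt ((1 / 2) ^ n) < 1 := by
  have hr : |Real.sqrt (1 / 2)| < 1 := by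
    rw [abs_of_nonneg (Real.sqrt_nonneg _), Real.sqrt_lt' one_pos]; norm_num
  have h1 := tendsto_pow_const_mul_const_pow_of_abs_lt_one ((1 + K1) * K) hr
  have h2 : Tendsto (fun n : ℕ => (2 : ℝ) ^ K * |C| * ((n : ℝ) ^ ((1 + K1) * K) * Real.sqrt (1 / 2) ^ n))
      atTop (𝓝 ((2 : ℝ) ^ K * |C| * 0)) := h1.const_mul _
  rw [mul_zero] at h2
  filter_upwards [h2.eventually_lt_const (show (0 : ℝ) < 1 by norm_num), eventually_ge_atTop 1]
    with n hn hn1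
  have hn1' : (1 : ℝ) ≤ n := by exact_mod_cast hn1
  have h3 : Real.sqrt ((1 / 2) ^ n) = Real.sqrt (1 / 2) ^ n := by
    rw [Real.sqrt_eq_iff_mul_self_eq (by positivity) (by positivity), ← mul_pow,
      Real.mul_self_sqrt (by norm_num)]
  have h4 : (n : ℝ) * (1 + (n : ℝ) ^ K1) ≤ 2 * (n : ℝ) ^ (1 + K1) := by
    have h5 : (1 : ℝ) ≤ (n : ℝ) ^ K1 := one_le_pow₀ hn1'
    rw [pow_add, pow_one]
    nlinarith
  rw [h3]
  have h6 : ((n : ℝ) * (1 + (n : ℝ) ^ K1)) ^ K ≤ (2 : ℝ) ^ K * (n : ℝ) ^ ((1 + K1) * K) := by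
    calc ((n : ℝ) * (1 + (n : ℝ) ^ K1)) ^ K ≤ (2 * (n : ℝ) ^ (1 + K1)) ^ K := by gcongr
      _ = _ := by rw [mul_pow, ← pow_mul]
  calc ((n : ℝ) * (1 + (n : ℝ) ^ K1)) ^ K * C * Real.sqrt (1 / 2) ^ n
      ≤ ((n : ℝ) * (1 + (n : ℝ) ^ K1)) ^ K * |C| * Real.sqrt (1 / 2) ^ n := by
        gcongr; exact le_abs_self C
    _ ≤ ((2 : ℝ) ^ K * (n : ℝ) ^ ((1 + K1) * K)) * |C| * Real.sqrt (1 / 2) ^ n := by gcongr
    _ = (2 : ℝ) ^ K * |C| * ((n : ℝ) ^ ((1 + K1) * K) * Real.sqrt (1 / 2) ^ n) := by ring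
    _ < 1 := hn

/-- numerics: the size condition of `mode_decay` -/
lemma ev_big (A C0 : ℝ) (K1 : ℕ) : ∀ᶠ n : ℕ in atTop,
    (16 : ℝ) ^ 2 / 8 + 2 * ((n : ℝ) ^ K1 + A + 1 + (1 + (n : ℝ) / 2) * C0) + n * C0 ≤
      (n : ℝ) ^ (K1 + 2) * (n : ℝ) ^ (K1 + 2) / (16 : ℝ) ^ 2 := by
  set D : ℝ := 32 + 2 + 2 * |A| + 2 + 2 * |C0| + |C0| + |C0| with hD
  filter_upwards [eventually_ge_atTop 1, eventually_ge_atTop (Nat.ceil (256 * D))] with n hn1 hn2
  have hn1' : (1 : ℝ) ≤ n := by exact_mod_cast hn1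
  have hn2' : 256 * D ≤ n := (Nat.le_ceil _).trans (by exact_mod_cast hn2)
  have hp : (1 : ℝ) ≤ (n : ℝ) ^ K1 := one_le_pow₀ hn1'
  have hDpos : 0 ≤ D := by positivity
  have e1 : (16 : ℝ) ^ 2 / 8 + 2 * ((n : ℝ) ^ K1 + A + 1 + (1 + (n : ℝ) / 2) * C0) + n * C0 ≤
      D * ((n : ℝ) ^ K1 * n) := by
    have h1 := le_abs_self A
    have h2 := le_abs_self C0
    have h3 : 0 ≤ |A| := abs_nonneg A
    have h4 : 0 ≤ |C0| := abs_nonneg C0
    have h5 : (1 : ℝ) ≤ (n : ℝ) ^ K1 * n := by nlinarith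
    have h6 : (n : ℝ) ≤ (n : ℝ) ^ K1 * n := by nlinarith
    have h7 : (n : ℝ) ^ K1 ≤ (n : ℝ) ^ K1 * n := by nlinarith
    have h8 : (n : ℝ) * C0 ≤ |C0| * ((n : ℝ) ^ K1 * n) := by nlinarith
    have h9 : A ≤ |A| * ((n : ℝ) ^ K1 * n) := by nlinarith
    have h10 : C0 ≤ |C0| * ((n : ℝ) ^ K1 * n) := by nlinarith
    rw [hD]
    nlinarith
  have e2 : D * ((n : ℝ) ^ K1 * n) ≤ (n : ℝ) ^ (K1 + 2) * (n : ℝ) ^ (K1 + 2) / (16 : ℝ) ^ 2 := by
    have h1 : (n : ℝ) ^ (K1 + 2) * (n : ℝ) ^ (K1 + 2) =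
        ((n : ℝ) ^ K1 * n) * (n * ((n : ℝ) ^ K1 * n ^ 2)) := by ring
    rw [h1, le_div_iff₀ (by norm_num)]
    have h2 : D * 16 ^ 2 ≤ n * ((n : ℝ) ^ K1 * n ^ 2) := by
      have h3 : (1 : ℝ) ≤ (n : ℝ) ^ K1 * n ^ 2 := by nlinarith [one_le_pow₀ hn1' (n := 2)]
      nlinarith
    calc D * ((n : ℝ) ^ K1 * n) * 16 ^ 2 = ((n : ℝ) ^ K1 * n) * (D * 16 ^ 2) := by ring
      _ ≤ ((n : ℝ) ^ K1 * n) * (n * ((n : ℝ) ^ K1 * n ^ 2)) := by gcongr
  exact e1.trans e2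

/-- REGIME (R2): no single-mode eigenfunction with `|lam| ≤ n^K1` and `l ≥ n^(K1+2)`, `n` large. -/
theorem regime2 {om0 R : ℝ} {U : ℝ → ℂ} (B : BData om0 R U) (hR : R < 8) (hreg : RegStmt B)
    (K1 : ℕ) : ∀ᶠ j in atTop, ∀ lam : ℂ, 0 ≤ lam.re → ‖lam‖ ≤ (B.nn j : ℝ) ^ K1 →
      ∀ (l : ℕ) (H : R12 → ℝ), SHarm l H → (∫ w : S11, (H w) ^ 2 ∂sig) = 1 →
      B.nn j ^ (K1 + 2) ≤ l → ∀ F G : ℝ → ℂ, ContDiff ℝ 2 F → ContDiff ℝ 2 G →
      InX 2 (modeFn H F) → InX 2 (modeFn H G) →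
      (∀ r : ℝ, 0 < r → (B.P j).rgen1 l F G r = lam * F r) →
      (∀ r : ℝ, 0 < r → (B.P j).rgen2 l F G r = lam * G r) →
      ∀ r : ℝ, 0 < r → F r = 0 ∧ G r = 0 := by
  obtain ⟨K, hK⟩ := hreg 8 hR
  obtain ⟨C0, hC0⟩ := B.pow_le
  have hom : ∀ᶠ j in atTop, |(B.P j).om| ≤ |om0| + 1 := by
    have h1 := (continuous_abs.tendsto om0).comp B.om_tendsto
    exact (h1.eventually_lt_const (show |om0| < |om0| + 1 by linarith)).mono fun j hj => hj.le
  filter_upwards [hK, hC0, hom, B.nn_tendsto.eventually (ev_small CL K1 K),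
    B.nn_tendsto.eventually (ev_big (|om0| + 1) C0 K1), B.nn_tendsto.eventually_ge_atTop 1]
    with j hKj hCj homj hsm hbg hn1
  intro lam hre hlam l H hH hn hl F G hF hG hXF hXG h1 h2
  set n := B.nn j with hndef
  have hn1' : (1 : ℝ) ≤ n := by exact_mod_cast hn1
  obtain ⟨a, ha⟩ := hXF
  obtain ⟨b, hb⟩ := hXG
  have hf2 : ContDiff ℝ 2 (modeFn H F) := by
    have := SH.InX.contDiff (N := 2) ⟨a, ha⟩
    exact_mod_cast this
  have hg2 : ContDiff ℝ 2 (modeFn H G) := by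
    have := SH.InX.contDiff (N := 2) ⟨b, hb⟩
    exact_mod_cast this
  obtain ⟨g1, g2⟩ := CLift.lift_eig (B.P j) hH (hF.of_le (by norm_num)) (hG.of_le (by norm_num))
    hf2 hg2 h1 h2
  have hz : Rep 1 (fun _ : R12 => (0 : ℂ)) (fun _ : R12 => (0 : ℂ)) := by
    refine ⟨by simp, fun y => by simp⟩
  have hreg1 := hKj lam 0 hre (modeFn H F) (modeFn H G) _ _ a b _ _ ha hb hz hz
    (fun y => by rw [g1 y]; ring) (fun y => by rw [g2 y]; ring)
  simp only [norm_zero, zero_mul, add_zero] at hreg1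
  -- the bound M
  have hl1 : 1 ≤ l := le_trans (Nat.one_le_pow _ _ hn1) hl
  have hln : n ≤ l := le_trans (by
    calc n = n ^ 1 := (pow_one n).symm
      _ ≤ n ^ (K1 + 2) := Nat.pow_le_pow_right hn1 (by omega)) hl
  set M : ℝ := ((n : ℝ) * (1 + (n : ℝ) ^ K1)) ^ K with hM
  have hM0 : 0 ≤ M := by positivity
  have hadd : ∫ y in Metric.closedBall (0 : R12) 8, (‖modeFn H F y‖ + ‖modeFn H G y‖) =
      (∫ y in Metric.closedBall (0 : R12) 8, ‖modeFn H F y‖) +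
        ∫ y in Metric.closedBall (0 : R12) 8, ‖modeFn H G y‖ := by
    refine integral_add ?_ ?_
    · exact hf2.continuous.norm.continuousOn.integrableOn_compact (isCompact_closedBall _ _)
    · exact hg2.continuous.norm.continuousOn.integrableOn_compact (isCompact_closedBall _ _)
  have hI0 : 0 ≤ (∫ y in Metric.closedBall (0 : R12) 8, ‖modeFn H F y‖) +
      ∫ y in Metric.closedBall (0 : R12) 8, ‖modeFn H G y‖ :=
    add_nonneg (integral_nonneg fun y => norm_nonneg _) (integral_nonneg fun y => norm_nonneg _)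
  rw [hadd] at hreg1
  have hRegF : xn 1 a + xn 1 b ≤ M * ((∫ y in Metric.closedBall (0 : R12) 8, ‖modeFn H F y‖) +
      ∫ y in Metric.closedBall (0 : R12) 8, ‖modeFn H G y‖) := by
    refine hreg1.trans (mul_le_mul_of_nonneg_right ?_ hI0)
    rw [hM]
    gcongr
  refine no_large_mode (B.P j) hl1 hH hn hF hG (lam := lam) (C0 := C0) (M := M)
    (X := xn 1 a + xn 1 b) (fun r hr => hCj r hr.1) h1 h2 ?_ ?_ hM0 hRegF ?_
  · have e1 : KK (B.nn j) (B.P j).om lam C0 ≤ (n : ℝ) ^ K1 + (|om0| + 1) + 1 +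
        (1 + (n : ℝ) / 2) * C0 := by
      unfold KK
      have h3 : 1 / ((B.nn j : ℕ) : ℝ) ≤ 1 := by
        rw [div_le_one (by linarith)]
        exact hn1'
      linarith
    have e2 : (n : ℝ) ^ (K1 + 2) * (n : ℝ) ^ (K1 + 2) / (16 : ℝ) ^ 2 ≤
        (l : ℝ) * (l + 10) / (16 : ℝ) ^ 2 := by
      have h3 : ((n : ℝ)) ^ (K1 + 2) ≤ (l : ℝ) := by exact_mod_cast hl
      have h4 : ((n : ℝ)) ^ (K1 + 2) ≤ (l : ℝ) + 10 := by linarith
      gcongr
    have e3 := hbg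
    linarith
  · intro y
    have f1 := norm_le_xn (k := 1) (by norm_num) ha y
    have f2 := norm_le_xn (k := 1) (by norm_num) hb y
    have f3 := xn_nonneg 1 a
    have f4 := xn_nonneg 1 b
    constructor <;> linarith
  · refine lt_of_le_of_lt ?_ hsm
    have hCL := CL_nonneg
    have h3 : Real.sqrt ((1 / 2) ^ l) ≤ Real.sqrt ((1 / 2) ^ n) := by
      apply Real.sqrt_le_sqrt
      exact pow_le_pow_of_le_one (by norm_num) (by norm_num) hln
    exact mul_le_mul_of_nonneg_left h3 (by positivity)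

end

end Crest.Agent.R086.CMax
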