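import Crest.Agent.R086.CInst
import Crest.Agent.R086.C2Int

/-!
Row 86 (S0114), Part C (helper310): `C2.Rad` from a profile and a source-free eigenpair.
-/

set_option autoImplicit false

open MeasureTheory Complex ComplexConjugate Set Filter Topology
open scoped ContDiff

namespace Crest.Agent.R086.CInst

open CCore

variable {n : ℕ} (P : Profile n)

/-- `∫₀¹ t¹¹ |q(r t)|² dt` -/
noncomputable def psi0 (r : ℝ) : ℝ := ∫ t in (0 : ℝ)..1, t ^ 11 * ‖P.q (r * t)‖ ^ 2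
/-- `psi = 12 r⁻¹ w⁻¹ ∫₀^r w`, continuous up to `0` -/
noncomputable def psif (r : ℝ) : ℝ := 12 * psi0 P r / ‖P.q r‖ ^ 2

theorem c_psi0 : Continuous (psi0 P) := by
  unfold psi0
  refine intervalIntegral.continuous_parametric_intervalIntegral_of_continuous' ?_ 0 1
  have := cq P
  fun_prop

theorem c_psi {s : Set ℝ} (h0 : ∀ r ∈ s, P.q r ≠ 0) : ContinuousOn (psif P) s := by
  unfold psif
  refine (continuous_const.mul (c_psi0 P)).continuousOn.div
    ((cq P).norm.pow 2).continuousOn fun r hr => ?_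
  have := norm_pos_iff.2 (h0 r hr)
  positivity

/-- `r¹² psi0 r = ∫₀^r w` -/
theorem psi0_eq (r : ℝ) : r ^ 12 * psi0 P r = ∫ s in (0 : ℝ)..r, ‖P.q s‖ ^ 2 * s ^ 11 := by
  rcases eq_or_ne r 0 with rfl | hr
  · simp
  unfold psi0
  have h := intervalIntegral.integral_comp_mul_left
    (fun s : ℝ => ‖P.q s‖ ^ 2 * s ^ 11) hr (a := 0) (b := 1)
  simp only [mul_zero, mul_one, smul_eq_mul] at h
  have e : (∫ x in (0 : ℝ)..1, ‖P.q (r * x)‖ ^ 2 * (r * x) ^ 11) =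
      r ^ 11 * ∫ t in (0 : ℝ)..1, t ^ 11 * ‖P.q (r * t)‖ ^ 2 := by
    rw [← intervalIntegral.integral_const_mul]
    congr 1
    funext t
    ring
  rw [e] at h
  have h2 : r * (r ^ 11 * ∫ t in (0 : ℝ)..1, t ^ 11 * ‖P.q (r * t)‖ ^ 2) =
      r * (r⁻¹ * ∫ x in (0 : ℝ)..r, ‖P.q x‖ ^ 2 * x ^ 11) := by rw [h]
  rw [← mul_assoc r r⁻¹, mul_inv_cancel₀ hr, one_mul] at h2
  rw [← h2]
  ring

theorem hpsi {r : ℝ} (h0 : ∀ᶠ s in 𝓝 r, P.q s ≠ 0) :
    HasDerivAt (fun r => r * psif P r * (‖P.q r‖ ^ 2 * r ^ 11)) (12 * (‖P.q r‖ ^ 2 * r ^ 11)) r := by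
  have hc : Continuous (fun s : ℝ => ‖P.q s‖ ^ 2 * s ^ 11) :=
    ((cq P).norm.pow 2).mul (continuous_pow 11)
  have h1 : HasDerivAt (fun r => 12 * ∫ s in (0 : ℝ)..r, ‖P.q s‖ ^ 2 * s ^ 11)
      (12 * (‖P.q r‖ ^ 2 * r ^ 11)) r :=
    (intervalIntegral.integral_hasDerivAt_right (hc.intervalIntegrable 0 r)
      (hc.stronglyMeasurableAtFilter _ _) hc.continuousAt).const_mul 12
  refine h1.congr_of_eventuallyEq ?_
  filter_upwards [h0] with s hs
  rw [← psi0_eq]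
  unfold psif
  have : ‖P.q s‖ ≠ 0 := by simpa using hs
  field_simp

/-- **`C2.Rad` from a profile.** -/
theorem rad {l : ℕ} {H : R12 → ℝ} {F G : ℝ → ℂ} {lam : ℂ} {R : ℝ} (hR : 0 < R)
    (h0 : ∀ r ∈ Icc 0 R, P.q r ≠ 0) (hE : P.Eig lam l H F G) :
    C2.Rad R n (1 / n) (kapf l) lam (fun r => ‖P.q r‖ ^ 2) (bf P) (Pf P) (P1f P) (rhof P) (psif P)
      (Sf P F G) (S1f P F G) (Df P F G) (D1f P F G) := by
  have hF : ContDiff ℝ 2 F := hE.mode.cF.of_le (by norm_num)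
  have hG : ContDiff ℝ 2 G := hE.mode.cG.of_le (by norm_num)
  exact
    { hR := hR
      sys := fun r hr => sys0 P hr.1 (h0 r ⟨hr.1.le, hr.2.le⟩) hF hG (hE.eq1 r hr.1)
        (hE.eq2 r hr.1)
      q2pos := fun r hr => by
        have := norm_pos_iff.2 (h0 r hr)
        positivity
      cq2 := ((cq P).norm.pow 2).continuousOn
      cb := c_b P h0
      cP := (c_P P).continuousOn
      cP1 := c_P1 P h0
      crq := c_rho P h0
      cpsi := c_psi P h0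
      cS := c_S P h0 hF hG
      cS1 := c_S1 P h0 hF hG
      cD := c_D P h0 hF hG
      cD1 := c_D1 P h0 hF hG
      hP := fun r hr => hP P (h0 r ⟨hr.1.le, hr.2.le⟩)
      hpsi := fun r hr => hpsi P
        ((cq P).continuousAt.eventually_ne (h0 r ⟨hr.1.le, hr.2.le⟩)) }

/-- `m = 12 ∫₀^r w / w = r psi` -/
theorem m_eq {r : ℝ} (hr : 0 < r) (h0 : P.q r ≠ 0) :
    12 * (∫ s in (0 : ℝ)..r, wf P s) / wf P r = r * psif P r := by
  unfold wf CCore.w psif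
  rw [← psi0_eq]
  have : ‖P.q r‖ ≠ 0 := by simpa using h0
  field_simp

end Crest.Agent.R086.CInst
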