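import Crest.Agent.R086.CRegDefs
import Crest.Agent.R086.DSpec
import Crest.Agent.R086.DCcv

/-!
Row 86, Part C3 (helper360): density calculus for REG.
-/

set_option autoImplicit false

open MeasureTheory Complex Set Filter Topology
open scoped ContDiff SchwartzMap FourierTransform

namespace Crest.Agent.R086.CReg

open Crest.Agent.R086

/-- weighted integrability of a density -/
def WInt (N : ℕ) (a : R12 → ℂ) : Prop :=
  Integrable (fun ξ : R12 => (((1 + ‖ξ‖) ^ N : ℝ) : ℂ) * a ξ)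

theorem xn_eq (N : ℕ) (a : R12 → ℂ) : xn N a = ∫ ξ : R12, Wie.wtV R12 N ξ * ‖a ξ‖ := rfl

theorem xn_nonneg (N : ℕ) (a : R12 → ℂ) : 0 ≤ xn N a :=
  integral_nonneg fun ξ => by positivity

theorem WInt.g {N : ℕ} {a : R12 → ℂ} (h : WInt N a) : Wie.GInt volume (Wie.wtV R12 N) a :=
  gint_of_integrable h

theorem WInt.of_g {N : ℕ} {a : R12 → ℂ} (h : Wie.GInt volume (Wie.wtV R12 N) a) : WInt N a := by
  refine Integrable.congr h (Eventually.of_forall fun ξ => ?_)
  simp only [Wie.wtV_apply, Wie.wt, Complex.real_smul]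

theorem WInt.int {N : ℕ} {a : R12 → ℂ} (h : WInt N a) : Integrable a := h.g.integrable

theorem WInt.norm_int {N : ℕ} {a : R12 → ℂ} (h : WInt N a) :
    Integrable (fun ξ : R12 => (1 + ‖ξ‖) ^ N * ‖a ξ‖) := h.g.norm_int

theorem WInt.mono {N M : ℕ} (hM : M ≤ N) {a : R12 → ℂ} (h : WInt N a) : WInt M a := by
  refine .of_g (h.g.of_le (C := 1) fun ξ => ?_)
  simp only [Wie.wtV_apply, Wie.wt, one_mul]
  exact pow_le_pow_right₀ (by linarith [norm_nonneg ξ]) hM

theorem Rep.wint {N : ℕ} {a f : R12 → ℂ} (h : Rep N a f) : WInt N a := h.1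

theorem Rep.mono {N M : ℕ} (hM : M ≤ N) {a f : R12 → ℂ} (h : Rep N a f) : Rep M a f :=
  ⟨(Rep.wint h).mono hM, h.2⟩

theorem xn_mono {N M : ℕ} (hM : M ≤ N) {a : R12 → ℂ} (h : WInt N a) : xn M a ≤ xn N a := by
  refine integral_mono (h.mono hM).norm_int h.norm_int fun ξ => ?_
  exact mul_le_mul_of_nonneg_right (pow_le_pow_right₀ (by linarith [norm_nonneg ξ]) hM)
    (norm_nonneg _)

theorem WInt.add {N : ℕ} {a b : R12 → ℂ} (ha : WInt N a) (hb : WInt N b) :
    WInt N (fun ξ => a ξ + b ξ) := .of_g (ha.g.add hb.g)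

theorem WInt.const_mul {N : ℕ} {a : R12 → ℂ} (c : ℂ) (ha : WInt N a) :
    WInt N (fun ξ => c * a ξ) := .of_g (ha.g.const_mul c)

theorem xn_add {N : ℕ} {a b : R12 → ℂ} (ha : WInt N a) (hb : WInt N b) :
    xn N (fun ξ => a ξ + b ξ) ≤ xn N a + xn N b := by
  rw [xn, xn, xn, ← integral_add ha.norm_int hb.norm_int]
  refine integral_mono (ha.add hb).norm_int (ha.norm_int.add hb.norm_int) fun ξ => ?_
  simp only
  rw [← mul_add]
  exact mul_le_mul_of_nonneg_left (norm_add_le _ _) (by positivity)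

theorem xn_const_mul {N : ℕ} (c : ℂ) (a : R12 → ℂ) :
    xn N (fun ξ => c * a ξ) = ‖c‖ * xn N a := by
  rw [xn, xn, ← integral_const_mul]
  refine integral_congr_ae (Eventually.of_forall fun ξ => ?_)
  simp only [norm_mul]; ring

theorem WInt.cv {N : ℕ} {v a : R12 → ℂ} (hv : WInt N v) (ha : WInt N a) : WInt N (cv v a) := by
  rw [cv_eq_wie]
  exact .of_g (hv.g.cv ha.g)

theorem xn_cv {N : ℕ} {v a : R12 → ℂ} (hv : WInt N v) (ha : WInt N a) :
    xn N (cv v a) ≤ xn N v * xn N a := by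
  rw [cv_eq_wie, xn_eq, xn_eq, xn_eq]
  exact Wie.integral_norm_cv_le hv.g ha.g

/-- localisation of the `L¹` norm of a bounded density -/
theorem xn_local {b : R12 → ℂ} (hb : WInt 1 b) {S La : ℝ} (hS : ∀ ξ, ‖b ξ‖ ≤ S) (hLa : 0 < La) :
    xn 0 b ≤ La ^ 12 * (volume (Metric.ball (0 : R12) 1)).toReal * S + xn 1 b / La := by
  have h0 := (hb.mono (Nat.zero_le 1)).norm_int
  have h1 := hb.norm_int
  have hS0 : 0 ≤ S := (norm_nonneg _).trans (hS 0)
  set B : Set R12 := Metric.closedBall 0 La with hB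
  have hvB : volume B = ENNReal.ofReal (La ^ 12) * volume (Metric.ball (0 : R12) 1) := by
    rw [hB, Measure.addHaar_closedBall _ _ hLa.le]
    congr 2
    simp [R12]
  have hfin : volume B ≠ ⊤ := measure_closedBall_lt_top.ne
  have hind : Integrable (B.indicator fun _ : R12 => S) :=
    (integrable_indicator_iff Metric.isClosed_closedBall.measurableSet).2
      (integrableOn_const hfin)
  have key : xn 0 b ≤ ∫ ξ : R12, (B.indicator (fun _ : R12 => S) ξ + (1 + ‖ξ‖) ^ 1 * ‖b ξ‖ / La) := by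
    refine integral_mono h0 (hind.add (h1.div_const La)) fun ξ => ?_
    simp only [pow_zero, one_mul, pow_one]
    by_cases hξ : ξ ∈ B
    · rw [indicator_of_mem hξ]
      have : 0 ≤ (1 + ‖ξ‖) * ‖b ξ‖ / La := by positivity
      linarith [hS ξ]
    · rw [indicator_of_notMem hξ, zero_add]
      have h3 : La ≤ ‖ξ‖ := by
        rw [hB, Metric.mem_closedBall, dist_zero_right, not_le] at hξ
        exact hξ.le
      rw [le_div_iff₀ hLa]
      nlinarith [norm_nonneg (b ξ)]
  refine key.trans (le_of_eq ?_)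
  rw [integral_add hind (h1.div_const La), integral_div, integral_indicator
    Metric.isClosed_closedBall.measurableSet, setIntegral_const, smul_eq_mul]
  congr 2
  rw [Measure.real, hvB, ENNReal.toReal_mul, ENNReal.toReal_ofReal (by positivity)]

theorem WInt.schwartz (N : ℕ) (w : 𝓢(R12, ℂ)) : WInt N (w : R12 → ℂ) := by
  refine .of_g ((Wie.gint_iff w.continuous.aestronglyMeasurable).2 ?_)
  have h1 : Integrable (fun ξ : R12 => ‖ξ‖ ^ N * ‖w ξ‖) := by
    simpa using w.integrable_pow_mul (volume : Measure R12) N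
  have h2 := (w.integrable (μ := (volume : Measure R12))).norm.const_mul ((2 : ℝ) ^ N)
  have h3 := h1.const_mul ((2 : ℝ) ^ N)
  refine (h3.add h2).mono' ((Wie.wtV R12 N).meas.aestronglyMeasurable.mul
    w.continuous.norm.aestronglyMeasurable) (Eventually.of_forall fun ξ => ?_)
  simp only [Wie.wtV_apply, Wie.wt, Pi.add_apply]
  rw [Real.norm_of_nonneg (by positivity), ← mul_assoc, ← add_mul, ← mul_add_one]
  refine mul_le_mul_of_nonneg_right ?_ (norm_nonneg _)
  by_cases hx : ‖ξ‖ ≤ 1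
  · have h4 : (1 + ‖ξ‖) ^ N ≤ 2 ^ N := pow_le_pow_left₀ (by positivity) (by linarith) N
    have h5 : (0 : ℝ) ≤ 2 ^ N * ‖ξ‖ ^ N := by positivity
    nlinarith
  · have hx' : 1 ≤ ‖ξ‖ := (not_le.1 hx).le
    have h4 : (1 + ‖ξ‖) ^ N ≤ (2 * ‖ξ‖) ^ N := pow_le_pow_left₀ (by positivity) (by linarith) N
    rw [mul_pow] at h4
    have h5 : (0 : ℝ) < 2 ^ N := by positivity
    nlinarith

/-- sup bound of `w * c` by the `L¹` norm of its transform -/
theorem sup_cv (w : 𝓢(R12, ℂ)) {c : R12 → ℂ} (hc : Integrable c)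
    (hi : Integrable (ft (cv (w : R12 → ℂ) c))) (ξ : R12) :
    ‖cv (w : R12 → ℂ) c ξ‖ ≤ ∫ y : R12, ‖ft (cv (w : R12 → ℂ) c) y‖ := by
  set h := cv (w : R12 → ℂ) c with hh
  have hint : Integrable h := DGen.integrable_cv w.integrable hc
  have hcont : Continuous h := by
    have hb : BddAbove (range fun x => ‖w x‖) := by
      obtain ⟨C, hC⟩ := w.decay 0 0
      refine ⟨C, ?_⟩
      rintro _ ⟨x, rfl⟩
      simpa using hC.2 x
    have := hb.continuous_convolution_right_of_integrable (μ := (volume : Measure R12))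
      (ContinuousLinearMap.mul ℂ ℂ) hc w.continuous
    refine this.congr fun x => ?_
    rw [hh, cv, convolution_def]
    refine integral_congr_ae (Eventually.of_forall fun t => ?_)
    simp [mul_comm]
  have hF : ∀ v : R12, 𝓕 h v = ft h ((-(2 * Real.pi)) • v) := by
    intro v
    rw [Real.fourier_eq']
    unfold ft
    refine integral_congr_ae (Eventually.of_forall fun x => ?_)
    simp only [smul_eq_mul, inner_smul_right]
    congr 2
    push_cast; ring
  have hpi : (-(2 * Real.pi)) ≠ 0 := by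
    have := Real.pi_pos
    exact (by linarith : (-(2 * Real.pi)) < 0).ne
  have hFi : Integrable (𝓕 h) := by
    have : (𝓕 h) = fun v => ft h ((-(2 * Real.pi)) • v) := funext hF
    rw [this]
    exact (integrable_comp_smul_iff volume _ hpi).2 hi
  have hinv := hint.fourierInv_fourier_eq hFi hcont.continuousAt (v := ξ)
  rw [← hinv, Real.fourierInv_eq']
  refine (norm_integral_le_integral_norm _).trans ?_
  have h1 : ∀ v : R12, ‖exp (↑(2 * Real.pi * inner ℝ v ξ) * I) • 𝓕 h v‖ = ‖ft h ((-(2 * Real.pi)) • v)‖ := by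
    intro v
    rw [norm_smul, Complex.norm_exp_ofReal_mul_I, one_mul, hF]
  simp only [h1]
  rw [Measure.integral_comp_smul volume (fun y => ‖ft h y‖)]
  have h2 : |((-(2 * Real.pi)) ^ Module.finrank ℝ R12)⁻¹| ≤ 1 := by
    rw [abs_inv, abs_pow, abs_neg, abs_of_pos (by positivity : (0:ℝ) < 2 * Real.pi)]
    refine inv_le_one_of_one_le₀ (one_le_pow₀ ?_)
    linarith [Real.pi_gt_three]
  have h3 : 0 ≤ ∫ y : R12, ‖ft h y‖ := integral_nonneg fun _ => norm_nonneg _
  rw [smul_eq_mul]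
  nlinarith

end Crest.Agent.R086.CReg
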