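import Crest.Agent.R086.CReg1

/-!
Row 86, Part C3 (helper360): one component of REG.
-/

set_option autoImplicit false

open MeasureTheory Complex Set Filter Topology
open scoped ContDiff SchwartzMap FourierTransform

namespace Crest.Agent.R086.CReg

open Crest.Agent.R086

theorem ft_continuous {a : R12 → ℂ} (ha : Integrable a) : Continuous (ft a) := by
  rw [DGen.ft_eq]
  exact VectorFourier.fourierIntegral_continuous Real.continuous_fourierChar
    DGen.LL.continuous₂ ha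

theorem norm_ft_le {a : R12 → ℂ} (y : R12) : ‖ft a y‖ ≤ xn 0 a := by
  unfold ft xn
  refine (norm_integral_le_integral_norm _).trans (le_of_eq ?_)
  refine integral_congr_ae (Eventually.of_forall fun ξ => ?_)
  simp only [norm_mul, pow_zero, one_mul]
  rw [mul_comm I, Complex.norm_exp_ofReal_mul_I, one_mul]

theorem norm_sgI {sg : ℝ} (hsg : sg = 1 ∨ sg = -1) : ‖-(sg : ℂ) * I‖ = 1 := by
  rcases hsg with rfl | rfl <;> simp

/-- volume of the unit ball of `R12` -/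
noncomputable def vB : ℝ := (volume (Metric.ball (0 : R12) 1)).toReal

theorem vB_nonneg : 0 ≤ vB := ENNReal.toReal_nonneg

theorem comp_est (hS : SmoStmt) {sg : ℝ} (hsg : sg = 1 ∨ sg = -1) {mu al : ℂ} (hmu : 0 < mu.re)
    {f g e a b c1 p q vp vq tp tq : R12 → ℂ} {χ : R12 → ℝ} {r1 M δ : ℝ}
    (ha : Rep 2 a f) (hb : Rep 2 b g) (hc1 : Rep 1 c1 e)
    (hvp : Rep 1 vp p) (hvq : Rep 1 vq q)
    (htp : Rep 1 tp (fun y => ((1 - χ y : ℝ) : ℂ) * p y))
    (htq : Rep 1 tq (fun y => ((1 - χ y : ℝ) : ℂ) * q y))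
    (hMp : xn 1 vp ≤ M) (hMq : xn 1 vq ≤ M) (hdp : xn 1 tp ≤ δ) (hdq : xn 1 tq ≤ δ)
    (w : 𝓢(R12, ℂ)) (hw : ∀ y, ft (w : R12 → ℂ) y = (χ y : ℂ))
    (hχ0 : ∀ y, 0 ≤ χ y) (hχ1 : ∀ y, χ y ≤ 1) (hχr : ∀ y, r1 ≤ ‖y‖ → χ y = 0)
    (heq : ∀ y, (sg : ℂ) * I * lap f y - (1 / 2) * eul f y - mu * f y
      = (sg : ℂ) * I * (p y * f y + q y * g y) + al * e y) :
    ∃ β : ℝ, 0 ≤ β ∧
      xn 0 a ≤ (β + (δ * (xn 0 a + xn 0 b) + ‖al‖ * xn 1 c1)) / mu.re ∧
      xn 1 a ≤ (2 / mu.re + 6 + ‖mu‖) * β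
        + (∫ ξ : R12, ‖fderiv ℝ (w : R12 → ℂ) ξ‖) * (M * (xn 0 a + xn 0 b))
        + (δ * (xn 1 a + xn 1 b) + ‖al‖ * xn 1 c1) / mu.re ∧
      ∀ La : ℝ, 0 < La → β ≤ La ^ 12 * vB * (M * ∫ y in Metric.closedBall (0 : R12) r1, (‖f y‖ + ‖g y‖))
        + xn 1 (w : R12 → ℂ) * (M * (xn 1 a + xn 1 b)) / La := by
  have wa2 : WInt 2 a := ha.1
  have wb2 : WInt 2 b := hb.1
  have wa1 := wa2.mono (M := 1) (by norm_num)
  have wb1 := wb2.mono (M := 1) (by norm_num)
  have wa0 := wa2.mono (M := 0) (by norm_num)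
  have wb0 := wb2.mono (M := 0) (by norm_num)
  have wvp : WInt 1 vp := hvp.1
  have wvq : WInt 1 vq := hvq.1
  have wtp : WInt 1 tp := htp.1
  have wtq : WInt 1 tq := htq.1
  have wc1 : WInt 1 c1 := hc1.1
  have wvp0 := wvp.mono (Nat.zero_le 1)
  have wvq0 := wvq.mono (Nat.zero_le 1)
  have wtp0 := wtp.mono (Nat.zero_le 1)
  have wtq0 := wtq.mono (Nat.zero_le 1)
  have wc10 := wc1.mono (Nat.zero_le 1)
  have hM0 : 0 ≤ M := (xn_nonneg 1 vp).trans hMp
  have hδ0 : 0 ≤ δ := (xn_nonneg 1 tp).trans hdp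
  have hMp0 : xn 0 vp ≤ M := (xn_mono (Nat.zero_le 1) wvp).trans hMp
  have hMq0 : xn 0 vq ≤ M := (xn_mono (Nat.zero_le 1) wvq).trans hMq
  have hdp0 : xn 0 tp ≤ δ := (xn_mono (Nat.zero_le 1) wtp).trans hdp
  have hdq0 : xn 0 tq ≤ δ := (xn_mono (Nat.zero_le 1) wtq).trans hdq
  have hc10 : xn 0 c1 ≤ xn 1 c1 := xn_mono (Nat.zero_le 1) wc1
  have na0 := xn_nonneg 0 a
  have nb0 := xn_nonneg 0 b
  have na1 := xn_nonneg 1 a
  have nb1 := xn_nonneg 1 b
  -- the densities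
  set κ : ℂ := -(sg : ℂ) * I with hκ
  have hκn : ‖κ‖ = 1 := norm_sgI hsg
  set c : R12 → ℂ := fun ξ => κ * (cv vp a ξ + cv vq b ξ) with hc
  set b' : R12 → ℂ := fun ξ => κ * (cv tp a ξ + cv tq b ξ) + (-al) * c1 ξ with hb'
  have wc1' : WInt 1 c := ((wvp.cv wa1).add (wvq.cv wb1)).const_mul κ
  have wc0' : WInt 0 c := ((wvp0.cv wa0).add (wvq0.cv wb0)).const_mul κ
  have wbt1 : WInt 1 (fun ξ => κ * (cv tp a ξ + cv tq b ξ)) :=
    ((wtp.cv wa1).add (wtq.cv wb1)).const_mul κ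
  have wbt0 : WInt 0 (fun ξ => κ * (cv tp a ξ + cv tq b ξ)) :=
    ((wtp0.cv wa0).add (wtq0.cv wb0)).const_mul κ
  have wbc1 : WInt 1 (fun ξ => (-al) * c1 ξ) := wc1.const_mul (-al)
  have wbc0 : WInt 0 (fun ξ => (-al) * c1 ξ) := wc10.const_mul (-al)
  have wb' : WInt 1 b' := wbt1.add wbc1
  -- norms
  have nc (N : ℕ) (hN : N ≤ 1) : xn N c ≤ M * (xn N a + xn N b) := by
    have w1 := wvp.mono hN
    have w2 := wvq.mono hN
    have w3 := wa1.mono hN
    have w4 := wb1.mono hN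
    have h1 := (xn_mono hN wvp).trans hMp
    have h2 := (xn_mono hN wvq).trans hMq
    rw [hc, xn_const_mul, hκn, one_mul]
    refine (xn_add (w1.cv w3) (w2.cv w4)).trans ?_
    have h3 := (xn_cv w1 w3).trans (mul_le_mul_of_nonneg_right h1 (xn_nonneg N a))
    have h4 := (xn_cv w2 w4).trans (mul_le_mul_of_nonneg_right h2 (xn_nonneg N b))
    linarith
  have nb' (N : ℕ) (hN : N ≤ 1) : xn N b' ≤ δ * (xn N a + xn N b) + ‖al‖ * xn 1 c1 := by
    have w1 := wtp.mono hN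
    have w2 := wtq.mono hN
    have w3 := wa1.mono hN
    have w4 := wb1.mono hN
    have h1 := (xn_mono hN wtp).trans hdp
    have h2 := (xn_mono hN wtq).trans hdq
    rw [hb']
    refine (xn_add (((w1.cv w3).add (w2.cv w4)).const_mul κ) (wbc1.mono hN)).trans ?_
    rw [xn_const_mul, xn_const_mul, hκn, one_mul, norm_neg]
    have h3 := (xn_cv w1 w3).trans (mul_le_mul_of_nonneg_right h1 (xn_nonneg N a))
    have h4 := (xn_cv w2 w4).trans (mul_le_mul_of_nonneg_right h2 (xn_nonneg N b))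
    have h5 := xn_add (w1.cv w3) (w2.cv w4)
    have h6 : ‖al‖ * xn N c1 ≤ ‖al‖ * xn 1 c1 :=
      mul_le_mul_of_nonneg_left (xn_mono hN wc1) (norm_nonneg _)
    linarith
  -- transforms
  have ftc : ∀ y, ft c y = κ * (p y * f y + q y * g y) := by
    intro y
    rw [hc, DGen.ft_comb (wvp0.cv wa0).int (wvq0.cv wb0).int, DGen.ft_cv wvp.int wa2.int,
      DGen.ft_cv wvq.int wb2.int, DGen.ft_rep hvp, DGen.ft_rep hvq, DGen.ft_rep ha, DGen.ft_rep hb]
  have ftb' : ∀ y, ft b' y = κ * (((1 - χ y : ℝ) : ℂ) * p y * f y + ((1 - χ y : ℝ) : ℂ) * q y * g y)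
      + (-al) * e y := by
    intro y
    have h1 : ft b' y = ft (fun ξ => κ * (cv tp a ξ + cv tq b ξ)) y + ft (fun ξ => (-al) * c1 ξ) y := by
      have := DGen.ft_comb wbt1.int wbc1.int 1 y
      simpa only [one_mul] using this
    have h2 : ft (fun ξ => (-al) * c1 ξ) y = (-al) * ft c1 y := by
      unfold ft
      rw [← integral_const_mul]
      refine integral_congr_ae (Eventually.of_forall fun ξ => ?_)
      simp only; ring
    rw [h1, h2, DGen.ft_comb (wtp0.cv wa0).int (wtq0.cv wb0).int, DGen.ft_cv wtp.int wa2.int,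
      DGen.ft_cv wtq.int wb2.int, DGen.ft_rep htp, DGen.ft_rep htq, DGen.ft_rep ha, DGen.ft_rep hb,
      DGen.ft_rep hc1]
  have ftwc : ∀ y, ft (cv (w : R12 → ℂ) c) y = (χ y : ℂ) * (κ * (p y * f y + q y * g y)) := by
    intro y
    rw [DGen.ft_cv w.integrable wc1'.int, hw, ftc]
  have hmain := hS sg hsg mu hmu f a c b' w ha wc1'.int wb' (by
    intro y
    rw [heq y, ftwc, ftb', hκ]
    push_cast
    ring)
  obtain ⟨hm0, hm1⟩ := hmain
  refine ⟨xn 0 (cv (w : R12 → ℂ) c), xn_nonneg _ _, ?_, ?_, ?_⟩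
  · refine hm0.trans ?_
    have := nb' 0 (by norm_num)
    gcongr
  · refine hm1.trans ?_
    have h1 := nb' 1 le_rfl
    have h2 := nc 0 (by norm_num)
    have h3 : 0 ≤ ∫ ξ : R12, ‖fderiv ℝ (w : R12 → ℂ) ξ‖ := integral_nonneg fun _ => norm_nonneg _
    gcongr
  · intro La hLa
    have ww : WInt 1 (w : R12 → ℂ) := WInt.schwartz 1 w
    have wwc : WInt 1 (cv (w : R12 → ℂ) c) := ww.cv wc1'
    -- integrability of the local function
    have hfc : Continuous f := by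
      have : f = ft a := funext fun y => (DGen.ft_rep ha y).symm
      rw [this]; exact ft_continuous wa2.int
    have hgc : Continuous g := by
      have : g = ft b := funext fun y => (DGen.ft_rep hb y).symm
      rw [this]; exact ft_continuous wb2.int
    have hFc : Continuous (ft (cv (w : R12 → ℂ) c)) := ft_continuous wwc.int
    have hpB : ∀ y, ‖p y‖ ≤ M := fun y => by
      rw [← DGen.ft_rep hvp y]; exact (norm_ft_le y).trans hMp0
    have hqB : ∀ y, ‖q y‖ ≤ M := fun y => by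
      rw [← DGen.ft_rep hvq y]; exact (norm_ft_le y).trans hMq0
    set B : Set R12 := Metric.closedBall 0 r1 with hB
    have hBm : MeasurableSet B := Metric.isClosed_closedBall.measurableSet
    have hBi : IntegrableOn (fun y => M * (‖f y‖ + ‖g y‖)) B :=
      (continuous_const.mul (hfc.norm.add hgc.norm)).continuousOn.integrableOn_compact
        (isCompact_closedBall _ _)
    have hbd : ∀ y, ‖ft (cv (w : R12 → ℂ) c) y‖ ≤ B.indicator (fun y => M * (‖f y‖ + ‖g y‖)) y := by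
      intro y
      rw [ftwc]
      by_cases hy : y ∈ B
      · rw [indicator_of_mem hy, norm_mul, norm_mul, hκn, one_mul, Complex.norm_real,
          Real.norm_of_nonneg (hχ0 y)]
        have h1 : ‖p y * f y + q y * g y‖ ≤ M * (‖f y‖ + ‖g y‖) := by
          refine (norm_add_le _ _).trans ?_
          rw [norm_mul, norm_mul, mul_add]
          have := hpB y
          have := hqB y
          gcongr
        have h2 : 0 ≤ ‖p y * f y + q y * g y‖ := norm_nonneg _
        nlinarith [hχ0 y, hχ1 y]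
      · rw [indicator_of_notMem hy]
        have : χ y = 0 := hχr y (by
          rw [hB, Metric.mem_closedBall, dist_zero_right, not_le] at hy
          exact hy.le)
        rw [this]; simp
    have hFi : Integrable (ft (cv (w : R12 → ℂ) c)) :=
      (hBi.integrable_indicator hBm).mono' hFc.aestronglyMeasurable (Eventually.of_forall hbd)
    have hsup : ∀ ξ, ‖cv (w : R12 → ℂ) c ξ‖ ≤ M * ∫ y in B, (‖f y‖ + ‖g y‖) := by
      intro ξ
      refine (sup_cv w wc1'.int hFi ξ).trans ?_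
      refine (integral_mono hFi.norm (hBi.integrable_indicator hBm) hbd).trans (le_of_eq ?_)
      rw [integral_indicator hBm, integral_const_mul]
    refine (xn_local wwc hsup hLa).trans ?_
    have h1 := nc 1 le_rfl
    have h2 : xn 1 (cv (w : R12 → ℂ) c) ≤ xn 1 (w : R12 → ℂ) * (M * (xn 1 a + xn 1 b)) :=
      (xn_cv ww wc1').trans (mul_le_mul_of_nonneg_left h1 (xn_nonneg _ _))
    have h3 : xn 1 (cv (w : R12 → ℂ) c) / La ≤ xn 1 (w : R12 → ℂ) * (M * (xn 1 a + xn 1 b)) / La := by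
      gcongr
    unfold vB
    linarith

end Crest.Agent.R086.CReg
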