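import Crest.Agent.R086.SHDefs
import Crest.Agent.R086.SphComp

/-!
Row 86, spherical harmonics (helper545): basic facts of `SHarm` and completeness in the form of the
frozen interface `SHDefs`.
-/

set_option autoImplicit false

open MeasureTheory Complex
open scoped ContDiff

namespace Crest.Agent.R086

open SH

/-- The polynomial behind a spherical harmonic is harmonic. -/
lemma SHarm.exists_harm {l : ℕ} {H : R12 → ℝ} (hH : SHarm l H) :
    ∃ p : MvPolynomial (Fin 12) ℝ, Sph.Harm l p ∧ H = pfun p := by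
  obtain ⟨⟨p, hp, hHp⟩, hl⟩ := hH
  have hfun : H = pfun p := funext hHp
  refine ⟨p, ⟨hp, ?_⟩, hfun⟩
  have h1 : ∀ y : R12, pfun (plap p) y = 0 := by
    intro y
    rw [← lap_pfun p y, ← hfun]
    exact hl y
  have h2 : plap p = 0 := by
    apply MvPolynomial.funext
    intro x
    have := h1 (WithLp.toLp 2 x)
    simpa [pfun] using this
  exact h2

lemma SHarm.of_harm {l : ℕ} {p : MvPolynomial (Fin 12) ℝ} (hp : Sph.Harm l p) :
    SHarm l (pfun p) := by
  refine ⟨⟨p, hp.hom, fun y => rfl⟩, fun y => ?_⟩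
  have h1 := lap_pfun p y
  have h2 : plap p = 0 := hp.harm
  rw [h2] at h1
  rw [h1]
  simp [pfun]

lemma SHarm.contDiff {l : ℕ} {H : R12 → ℝ} (hH : SHarm l H) : ContDiff ℝ ∞ H := by
  obtain ⟨p, _, rfl⟩ := hH.exists_harm
  exact (contDiff_pfun p).of_le (by simp)

lemma SHarm.continuous {l : ℕ} {H : R12 → ℝ} (hH : SHarm l H) : Continuous H :=
  hH.contDiff.continuous

lemma SHarm.map_smul {l : ℕ} {H : R12 → ℝ} (hH : SHarm l H) (t : ℝ) (y : R12) :
    H (t • y) = t ^ l * H y := by
  obtain ⟨p, hp, rfl⟩ := hH.exists_harm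
  exact pfun_smul_of_hom hp.hom t y

lemma SHarm.map_neg {l : ℕ} {H : R12 → ℝ} (hH : SHarm l H) (y : R12) :
    H (-y) = (-1) ^ l * H y := by
  have := hH.map_smul (-1) y
  simpa using this

lemma SHarm.add {l : ℕ} {H K : R12 → ℝ} (hH : SHarm l H) (hK : SHarm l K) :
    SHarm l (fun y => H y + K y) := by
  obtain ⟨p, hp, rfl⟩ := hH.exists_harm
  obtain ⟨q, hq, rfl⟩ := hK.exists_harm
  have h1 : (fun y => pfun p y + pfun q y) = pfun (p + q) := by funext y; simp
  rw [h1]
  refine SHarm.of_harm ⟨hp.hom.add hq.hom, ?_⟩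
  have a1 : plap p = 0 := hp.harm
  have a2 : plap q = 0 := hq.harm
  show plap (p + q) = 0
  rw [plap_add, a1, a2, add_zero]

lemma SHarm.const_mul {l : ℕ} {H : R12 → ℝ} (hH : SHarm l H) (c : ℝ) :
    SHarm l (fun y => c * H y) := by
  obtain ⟨p, hp, rfl⟩ := hH.exists_harm
  have h1 : (fun y => c * pfun p y) = pfun (c • p) := by funext y; simp [pfun]
  rw [h1]
  refine SHarm.of_harm ⟨?_, ?_⟩
  · rw [MvPolynomial.smul_eq_C_mul]
    simpa using (MvPolynomial.isHomogeneous_C (Fin 12) c).mul hp.hom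
  · have a1 : plap p = 0 := hp.harm
    show plap (c • p) = 0
    rw [plap_smul, a1, smul_zero]

lemma SHarm.zero (l : ℕ) : SHarm l (fun _ : R12 => (0 : ℝ)) := by
  have h1 : (fun _ : R12 => (0 : ℝ)) = pfun 0 := by funext y; simp [pfun]
  rw [h1]
  exact SHarm.of_harm ⟨MvPolynomial.isHomogeneous_zero _ _ _, by
    show plap 0 = 0
    simp [plap]⟩

/-- constants are harmonic of degree 0 -/
lemma SHarm.const (c : ℝ) : SHarm 0 (fun _ : R12 => c) := by
  have h1 : (fun _ : R12 => c) = pfun (MvPolynomial.C c) := by funext y; simp [pfun]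
  rw [h1]
  refine SHarm.of_harm ⟨MvPolynomial.isHomogeneous_C _ _, ?_⟩
  show plap (MvPolynomial.C c) = 0
  simp [plap]

/-- degree 0: constant -/
lemma SHarm.eq_const {H : R12 → ℝ} (hH : SHarm 0 H) (y : R12) : H y = H 0 := by
  have h := hH.map_smul 0 y
  simpa using h.symm

/-- coordinates are harmonic of degree 1 -/
lemma SHarm.coord (j : Fin 12) : SHarm 1 (fun y : R12 => y j) := by
  have h1 : (fun y : R12 => y j) = pfun (MvPolynomial.X j) := by funext y; simp [pfun]
  rw [h1]
  refine SHarm.of_harm ⟨MvPolynomial.isHomogeneous_X _ _, ?_⟩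
  show plap (MvPolynomial.X j) = 0
  unfold plap
  refine Finset.sum_eq_zero fun i _ => ?_
  by_cases hij : i = j
  · subst hij
    simp
  · rw [MvPolynomial.pderiv_X_of_ne (Ne.symm hij), map_zero]

/-- degree 1: linear -/
lemma SHarm.eq_linear {H : R12 → ℝ} (hH : SHarm 1 H) (y : R12) :
    H y = ∑ j : Fin 12, H (ei j) * y j := by
  obtain ⟨p, hp, rfl⟩ := hH.exists_harm
  -- homogeneous of degree one : span of X
  have hmem : p ∈ MvPolynomial.homogeneousSubmodule (Fin 12) ℝ 1 := hp.hom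
  rw [MvPolynomial.homogeneousSubmodule_one_eq_span_X] at hmem
  refine Submodule.span_induction (p := fun (q : MvPolynomial (Fin 12) ℝ) _ =>
    pfun q y = ∑ j : Fin 12, pfun q (ei j) * y j) ?_ ?_ ?_ ?_ hmem
  · rintro _ ⟨i, rfl⟩
    have h1 : ∀ z : R12, pfun (MvPolynomial.X i) z = z i := fun z => by simp [pfun]
    simp only [h1]
    rw [Finset.sum_eq_single i]
    · simp
    · intro j _ hj
      simp [hj.symm]
    · simp
  · simp [pfun]
  · intro q1 q2 _ _ e1 e2
    simp only [pfun_add, add_mul, Finset.sum_add_distrib]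
    rw [e1, e2]
  · intro c q _ e
    have h1 : ∀ z : R12, pfun (c • q) z = c * pfun q z := fun z => by simp [pfun]
    simp only [h1]
    rw [e, Finset.mul_sum]
    exact Finset.sum_congr rfl fun j _ => by ring

lemma SHarm.bdd {l : ℕ} {H : R12 → ℝ} (hH : SHarm l H) :
    ∃ M : ℝ, 0 ≤ M ∧ ∀ w : S11, |H w| ≤ M := by
  have hc : Continuous fun w : S11 => |H w| := (hH.continuous.comp continuous_subtype_val).abs
  obtain ⟨M, hM⟩ := (isCompact_range hc).bddAbove
  refine ⟨max M 0, le_max_right _ _, fun w => (hM ⟨w, rfl⟩).trans (le_max_left _ _)⟩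

/-- `H` vanishing in `L²` of the sphere vanishes. -/
lemma SHarm.eq_zero_of_integral_sq {l : ℕ} {H : R12 → ℝ} (hH : SHarm l H)
    (h0 : (∫ w : S11, (H w) ^ 2 ∂sig) = 0) : ∀ y, H y = 0 := by
  have hc : Continuous fun w : S11 => (H w) ^ 2 := (hH.continuous.comp continuous_subtype_val).pow 2
  have hi : Integrable (fun w : S11 => (H w) ^ 2) sig :=
    hc.integrable_of_hasCompactSupport (HasCompactSupport.of_compactSpace _)
  have h1 := (integral_eq_zero_iff_of_nonneg (f := fun w : S11 => (H w) ^ 2)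
    (fun w => sq_nonneg (H (w : R12))) hi).mp h0
  have h2 : (fun w : S11 => (H w) ^ 2) = 0 := (hc.ae_eq_iff_eq sig continuous_zero).mp h1
  have h3 : ∀ w : S11, H w = 0 := fun w => by
    have := congrFun h2 w
    simpa using this
  intro y
  by_cases hy : y = 0
  · subst hy
    have h4 := hH.map_smul 0 (ei 0)
    rw [zero_smul] at h4
    have h5 := h3 ⟨ei 0, by simp⟩
    simp only at h5
    rw [h4, h5, mul_zero]
  · have hn : 0 < ‖y‖ := norm_pos_iff.mpr hy
    have h4 := hH.map_smul ‖y‖ (‖y‖⁻¹ • y)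
    rw [smul_smul, mul_inv_cancel₀ hn.ne', one_smul] at h4
    have h5 := h3 ⟨‖y‖⁻¹ • y, by
      rw [mem_sphere_zero_iff_norm, norm_smul, norm_inv, norm_norm, inv_mul_cancel₀ hn.ne']⟩
    simp only at h5
    rw [h4, h5, mul_zero]

/-- COMPLETENESS. -/
theorem completeness (f : R12 → ℂ) (hf : Continuous f)
    (h : ∀ (l : ℕ) (H : R12 → ℝ), SHarm l H → ∀ r : ℝ, 0 < r → comp H f r = 0) : f = 0 := by
  funext y
  refine eq_zero_of_coef f hf (fun l p hp r hr => ?_) y
  have := h l (pfun p) (SHarm.of_harm hp) r hr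
  unfold comp at this
  rw [← this]
  refine integral_congr_ae (Filter.Eventually.of_forall fun w => ?_)
  simp only [pfun]
  ring

/-- `comp` is linear in `H`. -/
lemma comp_const_mul (c : ℝ) (H : R12 → ℝ) (f : R12 → ℂ) (r : ℝ) :
    comp (fun y => c * H y) f r = (c : ℂ) * comp H f r := by
  unfold comp
  rw [← integral_const_mul]
  refine integral_congr_ae (Filter.Eventually.of_forall fun w => ?_)
  simp only
  push_cast
  ring

/-- COMPLETENESS with normalised harmonics. -/
theorem completeness' (f : R12 → ℂ) (hf : Continuous f)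
    (h : ∀ (l : ℕ) (H : R12 → ℝ), SHarm l H → (∫ w : S11, (H w) ^ 2 ∂sig) = 1 →
      ∀ r : ℝ, 0 < r → comp H f r = 0) : f = 0 := by
  refine completeness f hf fun l H hH r hr => ?_
  by_cases h0 : (∫ w : S11, (H w) ^ 2 ∂sig) = 0
  · have h1 := hH.eq_zero_of_integral_sq h0
    unfold comp
    simp [h1]
  · have hpos : 0 < ∫ w : S11, (H w) ^ 2 ∂sig :=
      lt_of_le_of_ne (integral_nonneg fun w => sq_nonneg _) (Ne.symm h0)
    set A := ∫ w : S11, (H w) ^ 2 ∂sig with hA
    have hs : 0 < Real.sqrt A := Real.sqrt_pos.mpr hpos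
    have h1 := h l (fun y => (Real.sqrt A)⁻¹ * H y) (hH.const_mul _) (by
      have : (fun w : S11 => ((Real.sqrt A)⁻¹ * H w) ^ 2) = fun w : S11 => A⁻¹ * (H w) ^ 2 := by
        funext w
        rw [mul_pow, inv_pow, Real.sq_sqrt hpos.le]
      rw [this, integral_const_mul, ← hA, inv_mul_cancel₀ h0]) r hr
    rw [comp_const_mul] at h1
    have h2 : (((Real.sqrt A)⁻¹ : ℝ) : ℂ) ≠ 0 := by
      exact_mod_cast (inv_pos.mpr hs).ne'
    exact (mul_eq_zero.mp h1).resolve_left h2

/-- basic integrability on the sphere -/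
lemma integrable_sph {g : S11 → ℂ} (hg : Continuous g) : Integrable g sig :=
  hg.integrable_of_hasCompactSupport (HasCompactSupport.of_compactSpace _)

end Crest.Agent.R086
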