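import Crest.Agent.R086.SH2c
import Crest.Agent.R086.SH1b

/-!
Row 86, spherical harmonics, part 2 (helper475), in the terms of the frozen interface `SHDefs`:
`comp_lap`, `comp_eul`, smoothness of `comp H f`, parity, orthogonality, vanishing at `0`.
-/

set_option autoImplicit false

open MeasureTheory MvPolynomial Set
open scoped ContDiff Topology Pointwise

namespace Crest.Agent.R086

open Sph

/-! ### smooth homogeneous functions of low degree are orthogonal to harmonics -/

theorem lap_comp_smul {u : R12 → ℂ} (hu : ContDiff ℝ 2 u) (t : ℝ) (y : R12) :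
    lap (fun y => u (t • y)) y = (t : ℂ) ^ 2 * lap u (t • y) := by
  unfold lap
  rw [Finset.mul_sum]
  apply Finset.sum_congr rfl
  intro i _
  have h1 := (t • ContinuousLinearMap.id ℝ R12).iteratedFDeriv_comp_right hu y (i := 2) le_rfl
  have h2 : (u ∘ (t • ContinuousLinearMap.id ℝ R12 : R12 →L[ℝ] R12)) = fun y => u (t • y) := by
    ext z; simp
  rw [h2] at h1
  rw [h1]
  have h3 : ((iteratedFDeriv ℝ 2 u ((t • ContinuousLinearMap.id ℝ R12 : R12 →L[ℝ] R12) y)).compContinuousLinearMap
      fun _ => (t • ContinuousLinearMap.id ℝ R12 : R12 →L[ℝ] R12)) ![ei i, ei i]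
      = iteratedFDeriv ℝ 2 u (t • y) (fun k => t • (![ei i, ei i] k : R12)) := by
    rw [ContinuousMultilinearMap.compContinuousLinearMap_apply]
    simp
  rw [h3, ContinuousMultilinearMap.map_smul_univ]
  simp [pow_two]

theorem contDiff_lap {u : R12 → ℂ} (hu : ContDiff ℝ ∞ u) : ContDiff ℝ ∞ (lap u) := by
  unfold lap
  apply ContDiff.sum
  intro i _
  have h1 : ContDiff ℝ ∞ (iteratedFDeriv ℝ 2 u) := hu.iteratedFDeriv_right le_rfl
  exact (ContinuousMultilinearMap.apply ℝ (fun _ : Fin 2 => R12) ℂ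
    ![ei i, ei i]).contDiff.comp h1

/-- auxiliary: coefficient of a homogeneous function -/
theorem coef_homog {u : R12 → ℂ} {j : ℕ} (hh : ∀ (t : ℝ) (y : R12), u (t • y) = (t : ℂ) ^ j * u y)
    (p : MvPolynomial (Fin 12) ℝ) (r : ℝ) : coef u p r = (r : ℂ) ^ j * coef u p 1 := by
  unfold coef
  rw [← integral_const_mul]
  congr 1
  ext w
  rw [hh, one_smul]
  ring

theorem homog_orth_aux (l : ℕ) (p : MvPolynomial (Fin 12) ℝ) (hp : Harm l p) :
    ∀ (j : ℕ) (u : R12 → ℂ), ContDiff ℝ ∞ u →
      (∀ (t : ℝ) (y : R12), u (t • y) = (t : ℂ) ^ j * u y) → j < l → coef u p 1 = 0 := by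
  intro j
  induction j using Nat.strong_induction_on with
  | _ j ih =>
    intro u hu hh hjl
    have hu2 : ContDiff ℝ 2 u := hu.of_le (by norm_cast)
    -- coefficient of the Laplacian at 1 vanishes
    have hlap : coef (lap u) p 1 = 0 := by
      have hs : ∀ (t : ℝ) (y : R12), (t : ℂ) ^ 2 * lap u (t • y) = (t : ℂ) ^ j * lap u y := by
        intro t y
        rw [← lap_comp_smul hu2 t y]
        have h1 : (fun y => u (t • y)) = fun y => (t : ℂ) ^ j * u y := by
          ext y; rw [hh]
        rw [h1]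
        unfold lap
        rw [Finset.mul_sum]
        apply Finset.sum_congr rfl
        intro i _
        have h2 : (fun y => (t : ℂ) ^ j * u y) = ((t : ℂ) ^ j) • u := by
          ext y; simp
        rw [h2, iteratedFDeriv_const_smul_apply (hu2.contDiffAt)]
        simp
      rcases Nat.lt_or_ge j 2 with hj | hj
      · -- the Laplacian vanishes identically
        have h0 : ∀ y, lap u y = 0 := by
          intro y
          have hc : Continuous (fun t : ℝ => lap u (t • y)) :=
            (contDiff_lap hu).continuous.comp (by fun_prop)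
          -- for t ≠ 0 : t^(2-j) lap u (t y) = lap u y
          have h1 : ∀ t : ℝ, t ≠ 0 → (t : ℂ) ^ (2 - j) * lap u (t • y) = lap u y := by
            intro t ht
            have htc : (t : ℂ) ≠ 0 := by exact_mod_cast ht
            have h2 := hs t y
            have h3 : (t : ℂ) ^ 2 = (t : ℂ) ^ j * (t : ℂ) ^ (2 - j) := by
              rw [← pow_add]; congr 1; omega
            rw [h3, mul_assoc] at h2
            exact mul_left_cancel₀ (pow_ne_zero _ htc) h2
          have hc2 : Continuous (fun t : ℝ => (t : ℂ) ^ (2 - j) * lap u (t • y)) := by fun_prop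
          have h4 : Filter.Tendsto (fun t : ℝ => (t : ℂ) ^ (2 - j) * lap u (t • y)) (𝓝[≠] 0)
              (𝓝 ((((0 : ℝ) : ℂ)) ^ (2 - j) * lap u ((0 : ℝ) • y))) :=
            (hc2.tendsto 0).mono_left nhdsWithin_le_nhds
          have h5 : Filter.Tendsto (fun t : ℝ => (t : ℂ) ^ (2 - j) * lap u (t • y)) (𝓝[≠] 0)
              (𝓝 (lap u y)) := by
            apply tendsto_const_nhds.congr'
            filter_upwards [self_mem_nhdsWithin] with t ht
            exact (h1 t ht).symm
          have h6 := tendsto_nhds_unique h5 h4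
          rw [h6, Complex.ofReal_zero, zero_pow (by omega), zero_mul]
        unfold coef
        simp [h0]
      · -- induction
        have hh' : ∀ (t : ℝ) (y : R12), lap u (t • y) = (t : ℂ) ^ (j - 2) * lap u y := by
          have h1 : ∀ (t : ℝ) (y : R12), t ≠ 0 → lap u (t • y) = (t : ℂ) ^ (j - 2) * lap u y := by
            intro t y ht
            have htc : (t : ℂ) ≠ 0 := by exact_mod_cast ht
            have h2 := hs t y
            have h3 : (t : ℂ) ^ j = (t : ℂ) ^ 2 * (t : ℂ) ^ (j - 2) := by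
              rw [← pow_add]; congr 1; omega
            rw [h3, mul_assoc] at h2
            exact mul_left_cancel₀ (pow_ne_zero _ htc) h2
          intro t y
          by_cases ht : t = 0
          · subst ht
            have hc : Continuous (fun t : ℝ => lap u (t • y)) :=
              (contDiff_lap hu).continuous.comp (by fun_prop)
            have hc2 : Continuous (fun t : ℝ => (t : ℂ) ^ (j - 2) * lap u y) := by fun_prop
            have h4 := (hc.tendsto 0).mono_left (nhdsWithin_le_nhds (s := {0}ᶜ))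
            have h5 := (hc2.tendsto 0).mono_left (nhdsWithin_le_nhds (s := {0}ᶜ))
            have h6 : Filter.Tendsto (fun t : ℝ => lap u (t • y)) (𝓝[≠] 0)
                (𝓝 ((((0 : ℝ) : ℂ)) ^ (j - 2) * lap u y)) := by
              apply h5.congr'
              filter_upwards [self_mem_nhdsWithin] with t ht
              exact (h1 t y ht).symm
            exact tendsto_nhds_unique h4 h6
          · exact h1 t y ht
        exact ih (j - 2) (by omega) (lap u) (contDiff_lap hu) hh' (by omega)
    -- the radial equation at r = 1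
    have hF : coef u p = fun r : ℝ => (r : ℂ) ^ j * coef u p 1 := by
      ext r; exact coef_homog hh p r
    have hd1 : ∀ r, dcoef 1 u p r = (j : ℂ) * (r : ℂ) ^ (j - 1) * coef u p 1 := by
      intro r
      have h1 := hasDerivAt_coef (hu.of_le (by simp) : ContDiff ℝ 1 u) p r
      have hid : HasDerivAt (fun r : ℝ => (r : ℂ)) 1 r := Complex.ofRealCLM.hasDerivAt
      have h2 := (hid.fun_pow j).mul_const (coef u p 1)
      rw [hF] at h1
      have h3 := h1.unique h2
      rw [h3]
      ring
    have hd2 : dcoef 2 u p 1 = (j : ℂ) * (j - 1) * coef u p 1 := by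
      have h1 := hasDerivAt_dcoef (k := 2) (j := 1) (f := u) (by exact_mod_cast hu2) le_rfl p 1
      have hid : HasDerivAt (fun r : ℝ => (r : ℂ)) 1 (1 : ℝ) := Complex.ofRealCLM.hasDerivAt
      have h2 := ((hid.fun_pow (j - 1)).const_mul (j : ℂ)).mul_const (coef u p 1)
      have h4 : dcoef 1 u p = fun r : ℝ => (j : ℂ) * (r : ℂ) ^ (j - 1) * coef u p 1 := by
        ext r; exact hd1 r
      rw [h4] at h1
      have h3 := h1.unique h2
      rw [h3]
      rcases Nat.eq_zero_or_pos j with hj | hj
      · subst hj; simp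
      · have : ((j - 1 : ℕ) : ℂ) = (j : ℂ) - 1 := by
          rw [Nat.cast_sub hj]; simp
        simp [this]
    have h3 := coef_lap hu2 hp one_pos
    rw [hlap, hd2, hd1] at h3
    have h4 : ((l : ℂ) * (l + 10) - j * (j + 10)) * coef u p 1 = 0 := by
      simp only [Complex.ofReal_one, one_pow, mul_one, div_one] at h3
      linear_combination h3
    rcases mul_eq_zero.1 h4 with h5 | h5
    · exfalso
      have h6 : ((l * (l + 10) : ℕ) : ℂ) = ((j * (j + 10) : ℕ) : ℂ) := by
        push_cast
        linear_combination h5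
      have h7 : l * (l + 10) = j * (j + 10) := by exact_mod_cast h6
      nlinarith
    · exact h5

/-- **Orthogonality**: a smooth homogeneous function of degree `j < l` is orthogonal on the sphere to
harmonics of degree `l`. -/
theorem homog_orth {l : ℕ} {H : R12 → ℝ} (hH : SHarm l H) {j : ℕ} (hj : j < l) {u : R12 → ℂ}
    (hu : ContDiff ℝ ∞ u) (hh : ∀ (t : ℝ) (y : R12), u (t • y) = (t : ℂ) ^ j * u y) :
    ∫ w : S11, ((H w : ℝ) : ℂ) * u w ∂sig = 0 := by
  obtain ⟨p, hp, rfl⟩ := hH.exists_harm
  have h := homog_orth_aux l p hp j u hu hh hj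
  rw [← h]
  unfold coef
  congr 1
  ext w
  rw [one_smul, mul_comm]
  rfl

theorem SHarm.orth {l l' : ℕ} {H K : R12 → ℝ} (hH : SHarm l H) (hK : SHarm l' K) (hl : l ≠ l') :
    ∫ w : S11, H w * K w ∂sig = 0 := by
  -- it is enough to treat `l' < l`
  have key : ∀ {a b : ℕ} {A B : R12 → ℝ}, SHarm a A → SHarm b B → b < a →
      ∫ w : S11, A w * B w ∂sig = 0 := by
    intro a b A B hA hB hba
    have h1 := homog_orth hA hba (u := fun y => ((B y : ℝ) : ℂ))
      (Complex.ofRealCLM.contDiff.comp hB.contDiff)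
      (by intro t y; rw [hB.map_smul]; push_cast; ring)
    have h2 : ∫ w : S11, ((A w : ℝ) : ℂ) * ((B w : ℝ) : ℂ) ∂sig
        = ((∫ w : S11, A w * B w ∂sig : ℝ) : ℂ) := by
      rw [← integral_complex_ofReal]
      congr 1; ext w; push_cast; ring
    rw [h2] at h1
    exact_mod_cast h1
  rcases lt_or_gt_of_ne hl with h | h
  · have := key hK hH h
    rw [← this]
    congr 1; ext w; ring
  · exact key hH hK h

/-! ### the interface theorems -/

theorem comp_eq_coef (p : MvPolynomial (Fin 12) ℝ) (f : R12 → ℂ) : comp (SH.pfun p) f = coef f p := by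
  ext r
  unfold comp coef
  congr 1
  ext w
  rw [mul_comm]
  rfl

theorem comp_eul {l : ℕ} {H : R12 → ℝ} (hH : SHarm l H) {f : R12 → ℂ} (hf : ContDiff ℝ 1 f)
    (r : ℝ) : comp H (eul f) r = (r : ℂ) * deriv (comp H f) r := by
  obtain ⟨p, hp, rfl⟩ := hH.exists_harm
  rw [comp_eq_coef, comp_eq_coef, coef_eul, deriv_coef hf]

/-- **The Laplacian on spherical coefficients.** -/
theorem comp_lap {l : ℕ} {H : R12 → ℝ} (hH : SHarm l H) {f : R12 → ℂ} (hf : ContDiff ℝ 2 f)
    {r : ℝ} (hr : 0 < r) : comp H (lap f) r = rlap l (comp H f) r := by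
  obtain ⟨p, hp, rfl⟩ := hH.exists_harm
  rw [comp_eq_coef, comp_eq_coef, coef_lap hf hp hr]
  unfold rlap
  have h1 : deriv (coef f p) = dcoef 1 f p := deriv_coef (hf.of_le (by norm_num)) p
  have h2 : deriv (dcoef 1 f p) r = dcoef 2 f p r :=
    (hasDerivAt_dcoef (k := 2) (j := 1) (by exact_mod_cast hf) le_rfl p r).deriv
  rw [h1, h2]

theorem contDiff_comp {l : ℕ} {H : R12 → ℝ} (hH : SHarm l H) {f : R12 → ℂ} {k : ℕ}
    (hf : ContDiff ℝ k f) : ContDiff ℝ k (comp H f) := by
  obtain ⟨p, hp, rfl⟩ := hH.exists_harm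
  rw [comp_eq_coef]
  exact contDiff_coef hf p

theorem iteratedDeriv_comp {l : ℕ} {H : R12 → ℝ} (hH : SHarm l H) {f : R12 → ℂ} {k : ℕ}
    (hf : ContDiff ℝ k f) {j : ℕ} (hj : j ≤ k) (r : ℝ) :
    iteratedDeriv j (comp H f) r
      = ∫ w : S11, ((H w : ℝ) : ℂ) * iteratedFDeriv ℝ j f (r • (w : R12)) (fun _ => (w : R12)) ∂sig := by
  obtain ⟨p, hp, rfl⟩ := hH.exists_harm
  rw [comp_eq_coef, iteratedDeriv_coef hf p j hj]
  unfold dcoef
  congr 1
  ext w
  rw [mul_comm]
  rfl

/-- bound for the radial derivatives of a coefficient -/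
theorem norm_iteratedDeriv_comp_le {l : ℕ} {H : R12 → ℝ} (hH : SHarm l H) {f : R12 → ℂ} {k : ℕ}
    (hf : ContDiff ℝ k f) {j : ℕ} (hj : j ≤ k) {C r : ℝ}
    (hC : ∀ y : R12, ‖y‖ = |r| → ‖iteratedFDeriv ℝ j f y‖ ≤ C) :
    ‖iteratedDeriv j (comp H f) r‖ ≤ C * ∫ w : S11, |H w| ∂sig := by
  obtain ⟨p, hp, rfl⟩ := hH.exists_harm
  rw [comp_eq_coef, iteratedDeriv_coef hf p j hj]
  exact norm_dcoef_le hC p

/-- the surface measure is invariant under `w ↦ -w` -/
theorem measurePreserving_neg_sphere : MeasurePreserving (fun w : S11 => -w) sig sig := by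
  have hm : Measurable (fun w : S11 => -w) := by
    apply Measurable.subtype_mk
    exact measurable_subtype_coe.neg
  refine ⟨hm, ?_⟩
  ext s hs
  rw [Measure.map_apply hm hs]
  rw [Measure.toSphere_apply' _ (hm hs), Measure.toSphere_apply' _ hs]
  congr 1
  have h1 : (Ioo (0 : ℝ) 1 • (Subtype.val '' ((fun w : S11 => -w) ⁻¹' s)) : Set R12)
      = -(Ioo (0 : ℝ) 1 • (Subtype.val '' s)) := by
    ext x
    simp only [Set.mem_smul, Set.mem_neg, Set.mem_image, Set.mem_preimage]
    constructor
    · rintro ⟨t, ht, _, ⟨w, hw, rfl⟩, rfl⟩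
      exact ⟨t, ht, _, ⟨-w, hw, rfl⟩, by simp⟩
    · rintro ⟨t, ht, _, ⟨w, hw, rfl⟩, h⟩
      refine ⟨t, ht, _, ⟨-w, by simpa using hw, rfl⟩, ?_⟩
      have : x = -(-x) := (neg_neg x).symm
      rw [this, ← h]
      simp
  rw [h1, Measure.measure_neg]

/-- parity -/
theorem comp_neg_arg {l : ℕ} {H : R12 → ℝ} (hH : SHarm l H) (f : R12 → ℂ) (r : ℝ) :
    comp H f (-r) = (-1) ^ l * comp H f r := by
  unfold comp
  have hemb : MeasurableEmbedding (fun w : S11 => -w) := by
    have : MeasurableEmbedding (Homeomorph.neg S11) := (Homeomorph.neg S11).measurableEmbedding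
    exact this
  rw [← measurePreserving_neg_sphere.integral_comp hemb, ← integral_const_mul]
  congr 1
  ext w
  rw [coe_neg_sphere, hH.map_neg, neg_smul_neg]
  push_cast
  ring

/-- vanishing of the coefficient at `0` to order `l` -/
theorem iteratedDeriv_comp_zero {l : ℕ} {H : R12 → ℝ} (hH : SHarm l H) {f : R12 → ℂ} {k : ℕ}
    (hf : ContDiff ℝ k f) {j : ℕ} (hj : j ≤ k) (hjl : j < l) :
    iteratedDeriv j (comp H f) 0 = 0 := by
  rw [iteratedDeriv_comp hH hf hj]
  have h := homog_orth hH hjl (u := fun y => iteratedFDeriv ℝ j f 0 (fun _ => y))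
    (by
      have h1 : ContDiff ℝ ∞ (iteratedFDeriv ℝ j f 0 : (Fin j → R12) → ℂ) :=
        ContinuousMultilinearMap.contDiff _
      exact h1.comp (contDiff_pi.2 fun _ => contDiff_id))
    (by
      intro t y
      have := (iteratedFDeriv ℝ j f 0).map_smul_univ (fun _ => t) (fun _ => y)
      simpa using this)
  simpa using h

end Crest.Agent.R086
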