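import Crest.Agent.R086.SHMain
import Crest.Agent.R086.SH2
import Crest.Agent.R086.SHF

/-!
Row 86: `specGood_of_modeGood` (helper512; inputs by 545, 475, 851).
-/

set_option autoImplicit false

open MeasureTheory Complex
open scoped ContDiff

namespace Crest.Agent.R086

theorem SH.facts (N : ℕ) : SH.Facts N where
  comp_lap := fun _ _ _ hH hf _ hr => comp_lap hH hf hr
  comp_eul := fun _ _ _ hH hf r _ => comp_eul hH hf r
  contDiff := fun _ _ _ hH hf => contDiff_comp hH hf
  parity := fun _ _ f hH _ r => comp_neg_arg hH f r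
  orth := fun _ _ _ _ hH hK hl => SHarm.orth hH hK hl
  inX := fun _ _ _ hH hf => SHF.inX_modeFn hH hf

/-- REDUCTION: Part C only has to prove `P.ModeGood N0`. -/
theorem specGood_of_modeGood {n : ℕ} (P : Profile n) {N : ℕ} (hN : 2 ≤ N) (h : P.ModeGood N) :
    P.SpecGood N :=
  SH.specGood_of_modeGood_aux P (SH.facts N) hN h

end Crest.Agent.R086
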