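import Crest.Agent.R086.SymX
import Crest.Agent.R086.DLIface

/-! Row 86, node SYM S2 (helper148): symbol calculus and the Profile consequences; `PotStmt`. -/

set_option autoImplicit false
open MeasureTheory Complex Filter Topology
open scoped ContDiff

namespace Crest.Agent.R086

namespace Sym

variable {δ δ' : ℝ} {f g : R12 → ℂ}

lemma base_pos (y : R12) : 0 < 1 + ‖y‖ := by positivity

lemma exists_nonneg (hf : Sym δ f) (j : ℕ) : ∃ C : ℝ, 0 ≤ C ∧ ∀ y : R12,
    ‖iteratedFDeriv ℝ j f y‖ ≤ C * (1 + ‖y‖) ^ (-δ - j) := by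
  obtain ⟨C, hC⟩ := hf.2 j
  refine ⟨C, ?_, hC⟩
  have := hC 0
  simp only [norm_zero, add_zero, Real.one_rpow, mul_one] at this
  exact (norm_nonneg _).trans this

theorem mono (h : δ' ≤ δ) (hf : Sym δ f) : Sym δ' f := by
  refine ⟨hf.1, fun j => ?_⟩
  obtain ⟨C, hC0, hC⟩ := hf.exists_nonneg j
  refine ⟨C, fun y => (hC y).trans ?_⟩
  refine mul_le_mul_of_nonneg_left ?_ hC0
  exact Real.rpow_le_rpow_of_exponent_le (by linarith [norm_nonneg y]) (by linarith)

theorem congr (h : ∀ y, f y = g y) (hf : Sym δ f) : Sym δ g := by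
  have : f = g := funext h
  rwa [← this]

theorem mul (hf : Sym δ f) (hg : Sym δ' g) : Sym (δ + δ') (fun y => f y * g y) := by
  refine ⟨hf.1.mul hg.1, fun n => ?_⟩
  choose C hC0 hC using hf.exists_nonneg
  choose D hD0 hD using hg.exists_nonneg
  refine ⟨∑ i ∈ Finset.range (n + 1), (n.choose i : ℝ) * C i * D (n - i), fun y => ?_⟩
  refine (norm_iteratedFDeriv_mul_le hf.1 hg.1 y (by exact_mod_cast le_top)).trans ?_
  rw [Finset.sum_mul]
  refine Finset.sum_le_sum fun i hi => ?_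
  have hi' : i ≤ n := Nat.lt_succ_iff.1 (Finset.mem_range.1 hi)
  have e1 := hC i y
  have e2 := hD (n - i) y
  have e3 : (1 + ‖y‖) ^ (-δ - (i:ℝ)) * (1 + ‖y‖) ^ (-δ' - ((n - i : ℕ) : ℝ)) =
      (1 + ‖y‖) ^ (-(δ + δ') - (n:ℝ)) := by
    rw [← Real.rpow_add (base_pos y)]
    congr 1
    rw [Nat.cast_sub hi']
    ring
  have h1 := hC0 i
  have h2 := hD0 (n - i)
  calc (n.choose i : ℝ) * ‖iteratedFDeriv ℝ i f y‖ * ‖iteratedFDeriv ℝ (n - i) g y‖
      ≤ (n.choose i : ℝ) * (C i * (1 + ‖y‖) ^ (-δ - (i:ℝ))) *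
        (D (n - i) * (1 + ‖y‖) ^ (-δ' - ((n - i : ℕ) : ℝ))) := by gcongr
    _ = (n.choose i : ℝ) * C i * D (n - i) *
        ((1 + ‖y‖) ^ (-δ - (i:ℝ)) * (1 + ‖y‖) ^ (-δ' - ((n - i : ℕ) : ℝ))) := by ring
    _ = _ := by rw [e3]

theorem add (hf : Sym δ f) (hg : Sym δ g) : Sym δ (fun y => f y + g y) := by
  refine ⟨hf.1.add hg.1, fun n => ?_⟩
  obtain ⟨C, hC0, hC⟩ := hf.exists_nonneg n
  obtain ⟨D, hD0, hD⟩ := hg.exists_nonneg n
  refine ⟨C + D, fun y => ?_⟩
  have h1 : iteratedFDeriv ℝ n (fun y => f y + g y) y = iteratedFDeriv ℝ n f y + iteratedFDeriv ℝ n g y :=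
    iteratedFDeriv_add_apply (hf.1.contDiffAt.of_le (by exact_mod_cast le_top))
      (hg.1.contDiffAt.of_le (by exact_mod_cast le_top))
  rw [h1, add_mul]
  exact (norm_add_le _ _).trans (add_le_add (hC y) (hD y))

theorem const_mul (c : ℂ) (hf : Sym δ f) : Sym δ (fun y => c * f y) := by
  refine ⟨contDiff_const.mul hf.1, fun n => ?_⟩
  obtain ⟨C, hC0, hC⟩ := hf.exists_nonneg n
  refine ⟨‖c‖ * C, fun y => ?_⟩
  have h1 : (fun y => c * f y) = c • f := by
    funext y; simp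
  rw [h1, iteratedFDeriv_const_smul_apply (hf.1.contDiffAt.of_le (by exact_mod_cast le_top)), norm_smul,
    mul_assoc]
  exact mul_le_mul_of_nonneg_left (hC y) (norm_nonneg c)

theorem conj (hf : Sym δ f) : Sym δ (fun y => (starRingEnd ℂ) (f y)) := by
  refine ⟨Complex.conjCLE.contDiff.comp hf.1, fun n => ?_⟩
  obtain ⟨C, hC0, hC⟩ := hf.exists_nonneg n
  refine ⟨C, fun y => ?_⟩
  have h1 : (fun y => (starRingEnd ℂ) (f y)) = Complex.conjLIE ∘ f := rfl
  rw [h1, LinearIsometryEquiv.norm_iteratedFDeriv_comp_left]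
  exact hC y

theorem fderiv_apply (hf : Sym δ f) (v : R12) : Sym (δ + 1) (fun y => fderiv ℝ f y v) := by
  have hs : ContDiff ℝ ∞ (fderiv ℝ f) := hf.1.fderiv_right (by simp)
  refine ⟨hs.clm_apply contDiff_const, fun n => ?_⟩
  obtain ⟨C, hC0, hC⟩ := hf.exists_nonneg (n + 1)
  refine ⟨‖v‖ * C, fun y => ?_⟩
  refine (norm_iteratedFDeriv_clm_apply_const hs.contDiffAt (by exact_mod_cast le_top)).trans ?_
  rw [norm_iteratedFDeriv_fderiv, mul_assoc]
  refine mul_le_mul_of_nonneg_left ((hC y).trans (le_of_eq ?_)) (norm_nonneg v)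
  congr 2
  push_cast
  ring

theorem clm (L : R12 →L[ℝ] ℂ) : Sym (-1) (fun y => L y) := by
  refine ⟨L.contDiff, fun n => ?_⟩
  refine ⟨‖L‖, fun y => ?_⟩
  match n with
  | 0 =>
    rw [norm_iteratedFDeriv_zero]
    simp only [neg_neg, Nat.cast_zero, sub_zero, Real.rpow_one]
    refine (L.le_opNorm y).trans ?_
    have := norm_nonneg L
    nlinarith
  | 1 =>
    have h1 : ‖iteratedFDeriv ℝ 1 (fun y => L y) y‖ = ‖iteratedFDeriv ℝ 0 (fderiv ℝ (fun y => L y)) y‖ :=
      norm_iteratedFDeriv_fderiv.symm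
    rw [h1, norm_iteratedFDeriv_zero]
    have h2 : fderiv ℝ (fun y => L y) y = L := L.fderiv
    rw [h2]
    norm_num
  | (k + 2) =>
    have h1 : ‖iteratedFDeriv ℝ (k + 2) (fun y => L y) y‖ =
        ‖iteratedFDeriv ℝ (k + 1) (fderiv ℝ (fun y => L y)) y‖ :=
      norm_iteratedFDeriv_fderiv.symm
    have h2 : fderiv ℝ (fun y => L y) = fun _ => L := by
      funext z; exact L.fderiv
    rw [h1, h2, iteratedFDeriv_const_of_ne (by omega)]
    simp only [Pi.zero_apply, norm_zero]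
    have := base_pos y
    positivity

theorem coord (i : Fin 12) : Sym (-1) (fun y : R12 => ((y i : ℝ) : ℂ)) :=
  clm (Complex.ofRealCLM.comp (EuclideanSpace.proj i))

theorem zero : Sym δ (fun _ : R12 => (0 : ℂ)) := by
  refine ⟨contDiff_const, fun n => ⟨0, fun y => ?_⟩⟩
  rw [iteratedFDeriv_fun_zero]
  simp

theorem sum {ι : Type*} (s : Finset ι) (F : ι → R12 → ℂ) (h : ∀ i ∈ s, Sym δ (F i)) :
    Sym δ (fun y => ∑ i ∈ s, F i y) := by
  classical
  induction s using Finset.induction_on with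
  | empty => simpa using zero
  | insert a s ha ih =>
    have h1 := ih (fun i hi => h i (Finset.mem_insert_of_mem hi))
    have h2 := (h a (Finset.mem_insert_self a s)).add h1
    refine h2.congr (fun y => ?_)
    rw [Finset.sum_insert ha]

theorem one : Sym 0 (fun _ : R12 => (1 : ℂ)) := by
  refine ⟨contDiff_const, fun n => ⟨1, fun y => ?_⟩⟩
  rcases Nat.eq_zero_or_pos n with h | h
  · subst h
    rw [norm_iteratedFDeriv_zero]
    simp
  · rw [iteratedFDeriv_const_of_ne (by omega)]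
    simp only [Pi.zero_apply, norm_zero]
    have := base_pos y
    positivity

theorem pow (hf : Sym δ f) (k : ℕ) : Sym (k * δ) (fun y => f y ^ k) := by
  induction k with
  | zero => simpa using one
  | succ k ih =>
    have h1 := ih.mul hf
    have h2 : (k : ℝ) * δ + δ = ((k + 1 : ℕ) : ℝ) * δ := by push_cast; ring
    rw [h2] at h1
    exact h1.congr (fun y => by ring)

lemma sum_coord (y : R12) : y = ∑ i : Fin 12, (y i) • ei i := by
  have h := (EuclideanSpace.basisFun (Fin 12) ℝ).sum_repr y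
  simpa using h.symm

lemma eul_eq (f : R12 → ℂ) (y : R12) : eul f y = ∑ i : Fin 12, ((y i : ℝ) : ℂ) * fderiv ℝ f y (ei i) := by
  have h : fderiv ℝ f y y = fderiv ℝ f y (∑ i : Fin 12, (y i) • ei i) := by
    rw [← sum_coord y]
  show fderiv ℝ f y y = _
  rw [h, map_sum]
  refine Finset.sum_congr rfl fun i _ => ?_
  rw [map_smul, Complex.real_smul]

theorem eul (hf : Sym δ f) : Sym δ (eul f) := by
  have h1 : Sym δ (fun y => ∑ i : Fin 12, ((y i : ℝ) : ℂ) * fderiv ℝ f y (ei i)) := by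
    refine sum _ _ (fun i _ => ?_)
    have := (coord i).mul (hf.fderiv_apply (ei i))
    have h2 : -1 + (δ + 1) = δ := by ring
    rwa [h2] at this
  exact h1.congr (fun y => (eul_eq f y).symm)

end Sym

namespace Profile

variable {n : ℕ} (P : Profile n)

include P in
theorem n_pos : (0 : ℝ) < n := by
  have := P.two_le
  have : 0 < n := by omega
  exact_mod_cast this

/-- the profile is a symbol of order `-2/n` -/
theorem symQ : Sym (2 / n) P.Q := by
  refine ⟨P.smooth, fun j => ?_⟩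
  obtain ⟨C, hC⟩ := P.decay j
  refine ⟨C, fun y => (hC y).trans (le_of_eq ?_)⟩
  rw [neg_div]

theorem normpow_eq (k : ℕ) (y : R12) :
    ((‖P.Q y‖ ^ (2 * k) : ℝ) : ℂ) = (P.Q y * (starRingEnd ℂ) (P.Q y)) ^ k := by
  rw [Complex.mul_conj', pow_mul]
  push_cast
  rfl

theorem symNormPow (k : ℕ) : Sym (2 * k * (2 / n)) (fun y => ((‖P.Q y‖ ^ (2 * k) : ℝ) : ℂ)) := by
  have h1 := (P.symQ.mul P.symQ.conj).pow k
  have h2 : (k : ℝ) * (2 / n + 2 / n) = 2 * k * (2 / n) := by ring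
  rw [h2] at h1
  exact h1.congr (fun y => (P.normpow_eq k y).symm)

include P in
theorem half : ∃ k : ℕ, n = 2 * k ∧ 1 ≤ k := by
  obtain ⟨k, hk⟩ := P.neven
  have := P.two_le
  exact ⟨k, by omega, by omega⟩

theorem symV1 : Sym 2 P.V1 := by
  obtain ⟨k, hk, -⟩ := P.half
  have h1 := (P.symNormPow k).const_mul (1 + (n : ℂ) / 2)
  have hn := P.n_pos
  have h2 : 2 * (k : ℝ) * (2 / n) = 2 := by
    have : (n : ℝ) = 2 * k := by rw [hk]; push_cast; ring
    rw [← this]
    field_simp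
  rw [h2] at h1
  refine h1.congr (fun y => ?_)
  unfold V1
  rw [← hk]

theorem symV2 : Sym 2 P.V2 := by
  obtain ⟨k, hk, hk1⟩ := P.half
  have h1 := ((P.symNormPow (k - 1)).const_mul ((n : ℂ) / 2)).mul (P.symQ.pow 2)
  have hn := P.n_pos
  have h2 : 2 * ((k - 1 : ℕ) : ℝ) * (2 / n) + ((2 : ℕ) : ℝ) * (2 / n) = 2 := by
    have : (n : ℝ) = 2 * k := by rw [hk]; push_cast; ring
    rw [Nat.cast_sub hk1, this]
    have hk0 : (0:ℝ) < k := by
      have : 0 < k := hk1
      exact_mod_cast this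
    push_cast
    field_simp
    ring
  rw [h2] at h1
  refine h1.congr (fun y => ?_)
  unfold V2
  have : n - 2 = 2 * (k - 1) := by omega
  rw [this]

theorem symV2c : Sym 2 P.V2c := by
  obtain ⟨k, hk, hk1⟩ := P.half
  have h1 := P.symV2.conj
  refine h1.congr (fun y => ?_)
  unfold V2 V2c
  simp only [map_mul, map_pow, map_div₀, Complex.conj_ofReal, map_natCast]
  congr 2
  rw [map_ofNat]

theorem symMode1 (m : Option (Option (Fin 12))) : Sym (2 / n) (P.mode1 m) := by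
  have hn := P.n_pos
  match m with
  | none => exact (P.symQ.const_mul I)
  | some none =>
    exact (P.symQ.const_mul ((1 : ℂ) / n - I * P.om)).add (P.symQ.eul.const_mul (1 / 2))
  | some (some j) =>
    exact (P.symQ.fderiv_apply (ei j)).mono (by linarith)

theorem symMode2 (m : Option (Option (Fin 12))) : Sym (2 / n) (P.mode2 m) := (P.symMode1 m).conj

theorem symLap_fderiv (j : Fin 12) : Sym (2 / n + 1) (fun y => fderiv ℝ P.Q y (ei j)) :=
  P.symQ.fderiv_apply (ei j)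

/-- the nonlinearity at the profile -/
theorem symNN : Sym (2 / n + 2) (fun y => ((‖P.Q y‖ ^ n : ℝ) : ℂ) * P.Q y) := by
  obtain ⟨k, hk, -⟩ := P.half
  have h1 := (P.symNormPow k).mul P.symQ
  have hn := P.n_pos
  have h2 : 2 * (k : ℝ) * (2 / n) + 2 / n = 2 / n + 2 := by
    have : (n : ℝ) = 2 * k := by rw [hk]; push_cast; ring
    rw [← this]
    field_simp
    ring
  rw [h2] at h1
  refine h1.congr (fun y => ?_)
  rw [← hk]

include P in
theorem delta_pos : (0 : ℝ) < 2 / n := by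
  have := P.n_pos
  positivity

end Profile

/-- NODE Pot of `DLIface`. -/
theorem potStmt : PotStmt := by
  intro n P
  obtain ⟨v1, h1⟩ := P.symV1.exists_rep two_pos
  obtain ⟨v2, h2⟩ := P.symV2.exists_rep two_pos
  obtain ⟨v2c, h2c⟩ := P.symV2c.exists_rep two_pos
  choose m1 hm1 using fun i => Sym.exists_rep P.delta_pos (P.symMode1 i)
  choose m2 hm2 using fun i => Sym.exists_rep P.delta_pos (P.symMode2 i)
  exact ⟨⟨v1, v2, v2c, m1, m2, h1, h2, h2c, hm1, hm2⟩⟩

end Crest.Agent.R086
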