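import Crest.Agent.R086.CTopDefs
import Crest.Agent.R086.SHFinal
import Crest.Agent.R086.DMpde
import Crest.Agent.R086.SymCalc

/-!
Row 86, PART C: assembly `R0Stmt → R1Stmt → R2Stmt → R3Stmt → R4Stmt → PartC` (helper777).
-/

set_option autoImplicit false

open MeasureTheory Complex Set Filter Topology
open scoped ContDiff

namespace Crest.Agent.R086.CTop

open Crest.Agent.R086.SH

/-! ### `InX` is a vector space -/

theorem rep_int {N : ℕ} {a f : R12 → ℂ} (h : Rep N a f) : Integrable a := by
  have h1 := Rep.integrable_pow h (Nat.zero_le N)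
  simp only [pow_zero, one_mul] at h1
  exact (integrable_norm_iff (Rep.aestronglyMeasurable h)).mp h1

theorem rep_exp_int {N : ℕ} {a f : R12 → ℂ} (h : Rep N a f) (y : R12) :
    Integrable (fun ξ : R12 => exp (I * ((inner ℝ ξ y : ℝ) : ℂ)) * a ξ) := by
  refine (rep_int h).norm.mono' ?_ ?_
  · refine AEStronglyMeasurable.mul ?_ (Rep.aestronglyMeasurable h)
    exact (by fun_prop : Continuous fun ξ : R12 => exp (I * ((inner ℝ ξ y : ℝ) : ℂ))).aestronglyMeasurable
  · filter_upwards with ξ
    rw [norm_mul, mul_comm I, norm_exp_ofReal_mul_I, one_mul]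

theorem inX_add {N : ℕ} {f g : R12 → ℂ} (hf : InX N f) (hg : InX N g) :
    InX N (fun y => f y + g y) := by
  obtain ⟨a, ha⟩ := hf
  obtain ⟨b, hb⟩ := hg
  refine ⟨fun ξ => a ξ + b ξ, ?_, fun y => ?_⟩
  · refine (ha.1.add hb.1).congr ?_
    filter_upwards with ξ
    simp only [Pi.add_apply]; ring
  · show f y + g y = _
    rw [ha.2 y, hb.2 y, ← integral_add (rep_exp_int ha y) (rep_exp_int hb y)]
    congr 1; funext ξ; ring

theorem inX_smul {N : ℕ} {f : R12 → ℂ} (c : ℂ) (hf : InX N f) : InX N (fun y => c * f y) := by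
  obtain ⟨a, ha⟩ := hf
  refine ⟨fun ξ => c * a ξ, ?_, fun y => ?_⟩
  · refine (ha.1.const_mul c).congr ?_
    filter_upwards with ξ
    ring
  · show c * f y = _
    rw [ha.2 y, ← integral_const_mul]
    congr 1; funext ξ; ring

theorem modeFn_sub (H : R12 → ℝ) (F E : ℝ → ℂ) (c : ℂ) :
    modeFn H (fun r => F r - c * E r) = fun y => modeFn H F y + (-c) * modeFn H E y := by
  funext y; unfold modeFn; ring

/-! ### linearity of the radial generator -/

variable {n : ℕ} (P : Profile n)

theorem rlap_sub {l : ℕ} {F E : ℝ → ℂ} (hF : ContDiff ℝ 2 F) (hE : ContDiff ℝ 2 E) (c : ℂ) (r : ℝ) :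
    rlap l (fun r => F r - c * E r) r = rlap l F r - c * rlap l E r := by
  have dF : Differentiable ℝ F := hF.differentiable (by norm_num)
  have dE : Differentiable ℝ E := hE.differentiable (by norm_num)
  have h1 : deriv (fun r => F r - c * E r) = fun r => deriv F r - c * deriv E r := by
    funext x
    have := ((dF x).hasDerivAt).sub ((dE x).hasDerivAt.const_mul c)
    exact this.deriv
  have d2F : Differentiable ℝ (deriv F) := by
    have := hF.differentiable_iteratedDeriv 1 (by norm_num)
    simpa [iteratedDeriv_one] using this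
  have d2E : Differentiable ℝ (deriv E) := by
    have := hE.differentiable_iteratedDeriv 1 (by norm_num)
    simpa [iteratedDeriv_one] using this
  have h2 : deriv (deriv (fun r => F r - c * E r)) r = deriv (deriv F) r - c * deriv (deriv E) r := by
    rw [h1]
    exact (((d2F r).hasDerivAt).sub ((d2E r).hasDerivAt.const_mul c)).deriv
  unfold rlap
  rw [h2, h1]
  ring

theorem deriv_sub' {F E : ℝ → ℂ} (hF : ContDiff ℝ 2 F) (hE : ContDiff ℝ 2 E) (c : ℂ) (r : ℝ) :
    deriv (fun r => F r - c * E r) r = deriv F r - c * deriv E r := by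
  have dF : Differentiable ℝ F := hF.differentiable (by norm_num)
  have dE : Differentiable ℝ E := hE.differentiable (by norm_num)
  exact (((dF r).hasDerivAt).sub ((dE r).hasDerivAt.const_mul c)).deriv

theorem rgen1_sub {l : ℕ} {F G E1 E2 : ℝ → ℂ} (hF : ContDiff ℝ 2 F)
    (h1 : ContDiff ℝ 2 E1) (c : ℂ) (r : ℝ) :
    P.rgen1 l (fun r => F r - c * E1 r) (fun r => G r - c * E2 r) r =
      P.rgen1 l F G r - c * P.rgen1 l E1 E2 r := by
  unfold Profile.rgen1
  rw [rlap_sub hF h1, deriv_sub' hF h1]
  ring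

theorem rgen2_sub {l : ℕ} {F G E1 E2 : ℝ → ℂ} (hG : ContDiff ℝ 2 G)
    (h2 : ContDiff ℝ 2 E2) (c : ℂ) (r : ℝ) :
    P.rgen2 l (fun r => F r - c * E1 r) (fun r => G r - c * E2 r) r =
      P.rgen2 l F G r - c * P.rgen2 l E1 E2 r := by
  unfold Profile.rgen2
  rw [rlap_sub hG h2, deriv_sub' hG h2]
  ring

/-! ### the symmetry modes as mode pairs -/

/-- `comp H` of the symmetry mode number `m` -/
noncomputable def E1 (H : R12 → ℝ) (m : Option (Option (Fin 12))) (r : ℝ) : ℂ :=
  comp H (P.mode1 m) r
noncomputable def E2 (H : R12 → ℝ) (m : Option (Option (Fin 12))) (r : ℝ) : ℂ :=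
  comp H (P.mode2 m) r

theorem inX_mode1 (m : Option (Option (Fin 12))) (N : ℕ) : InX N (P.mode1 m) :=
  Sym.inX' P.delta_pos (P.symMode1 m) N

theorem inX_mode2 (m : Option (Option (Fin 12))) (N : ℕ) : InX N (P.mode2 m) :=
  Sym.inX' P.delta_pos (P.symMode2 m) N

section
variable {l : ℕ} {H : R12 → ℝ} (hH : SHarm l H)
include hH

theorem E1_cd (m : Option (Option (Fin 12))) (k : ℕ) : ContDiff ℝ k (E1 P H m) :=
  (SH.facts k).contDiff l H _ hH (contDiff_infty.mp (DM.smooth_mode1 P m) k)
theorem E2_cd (m : Option (Option (Fin 12))) (k : ℕ) : ContDiff ℝ k (E2 P H m) :=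
  (SH.facts k).contDiff l H _ hH (contDiff_infty.mp (DM.smooth_mode2 P m) k)
theorem E1_par (m : Option (Option (Fin 12))) (r : ℝ) : E1 P H m (-r) = (-1) ^ l * E1 P H m r :=
  (SH.facts 0).parity l H _ hH (DM.smooth_mode1 P m).continuous r
theorem E2_par (m : Option (Option (Fin 12))) (r : ℝ) : E2 P H m (-r) = (-1) ^ l * E2 P H m r :=
  (SH.facts 0).parity l H _ hH (DM.smooth_mode2 P m).continuous r
theorem E1_inX (m : Option (Option (Fin 12))) (N : ℕ) : InX N (modeFn H (E1 P H m)) :=
  (SH.facts N).inX l H _ hH (inX_mode1 P m N)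
theorem E2_inX (m : Option (Option (Fin 12))) (N : ℕ) : InX N (modeFn H (E2 P H m)) :=
  (SH.facts N).inX l H _ hH (inX_mode2 P m N)

theorem E_eq1 (m : Option (Option (Fin 12))) {r : ℝ} (hr : 0 < r) :
    P.rgen1 l (E1 P H m) (E2 P H m) r = (DM.ml m : ℂ) * E1 P H m r := by
  have s1 : ContDiff ℝ 2 (P.mode1 m) := contDiff_infty.mp (DM.smooth_mode1 P m) 2
  have s2 : ContDiff ℝ 2 (P.mode2 m) := contDiff_infty.mp (DM.smooth_mode2 P m) 2
  have h := comp_gen1 P hH.continuous s1 s2 hr
  have e : P.gen1 (P.mode1 m) (P.mode2 m) = fun y => (DM.ml m : ℂ) * P.mode1 m y :=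
    funext (DM.gen1_mode P m)
  rw [e, SH.comp_const_mul, (SH.facts 0).comp_lap l H _ hH s1 r hr,
    (SH.facts 0).comp_eul l H _ hH (s1.of_le (by norm_num)) r hr] at h
  exact h.symm

theorem E_eq2 (m : Option (Option (Fin 12))) {r : ℝ} (hr : 0 < r) :
    P.rgen2 l (E1 P H m) (E2 P H m) r = (DM.ml m : ℂ) * E2 P H m r := by
  have s1 : ContDiff ℝ 2 (P.mode1 m) := contDiff_infty.mp (DM.smooth_mode1 P m) 2
  have s2 : ContDiff ℝ 2 (P.mode2 m) := contDiff_infty.mp (DM.smooth_mode2 P m) 2
  have h := comp_gen2 P hH.continuous s1 s2 hr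
  have e : P.gen2 (P.mode1 m) (P.mode2 m) = fun y => (DM.ml m : ℂ) * P.mode2 m y :=
    funext (DM.gen2_mode P m)
  rw [e, SH.comp_const_mul, (SH.facts 0).comp_lap l H _ hH s2 r hr,
    (SH.facts 0).comp_eul l H _ hH (s2.of_le (by norm_num)) r hr] at h
  exact h.symm

end

/-- subtracting a multiple of a symmetry mode -/
theorem mode_sub {N l : ℕ} {H : R12 → ℝ} {F G : ℝ → ℂ} (hm : Profile.Mode N l H F G) (c : ℂ)
    (m : Option (Option (Fin 12))) :
    Profile.Mode N l H (fun r => F r - c * E1 P H m r) (fun r => G r - c * E2 P H m r) where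
  harm := hm.harm
  norm := hm.norm
  cF := hm.cF.sub (contDiff_const.mul (E1_cd P hm.harm m N))
  cG := hm.cG.sub (contDiff_const.mul (E2_cd P hm.harm m N))
  pF := fun r => by
    show F (-r) - c * E1 P H m (-r) = (-1) ^ l * (F r - c * E1 P H m r)
    rw [hm.pF, E1_par P hm.harm]; ring
  pG := fun r => by
    show G (-r) - c * E2 P H m (-r) = (-1) ^ l * (G r - c * E2 P H m r)
    rw [hm.pG, E2_par P hm.harm]; ring
  xF := by
    rw [modeFn_sub]
    exact inX_add hm.xF (inX_smul _ (E1_inX P hm.harm m N))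
  xG := by
    rw [modeFn_sub]
    exact inX_add hm.xG (inX_smul _ (E2_inX P hm.harm m N))

/-! ### values of the symmetry modes of degree 0 and 1 -/

theorem m0_ne {H : R12 → ℝ} (hH : SHarm 0 H) (hn : (∫ w : S11, (H w) ^ 2 ∂sig) = 1) : m0 H ≠ 0 := by
  have e : H = fun y => H 0 := by funext y; exact hH.eq_const y
  have h1 : (∫ w : S11, (H w) ^ 2 ∂sig) = H 0 ^ 2 * A0 := by
    unfold A0
    rw [← integral_const_mul]
    congr 1; funext w; rw [e]; ring
  have h2 : m0 H = (H 0 : ℂ) * A0 := by
    unfold m0 A0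
    rw [← integral_complex_ofReal, ← integral_const_mul]
    congr 1; funext w; rw [e]; simp
  rw [h2]
  have hA := A0_pos
  have h3 : H 0 ≠ 0 := by
    intro h0
    rw [h1, h0] at hn
    norm_num at hn
  exact mul_ne_zero (by exact_mod_cast h3) (by exact_mod_cast hA.ne')

theorem m1_ne {H : R12 → ℝ} (hH : SHarm 1 H) (hn : (∫ w : S11, (H w) ^ 2 ∂sig) = 1) :
    ∃ j, m1 H j ≠ 0 := by
  by_contra hcon
  push Not at hcon
  have hint : ∀ j : Fin 12, Integrable (fun w : S11 => H w * (w : R12) j) sig := by
    intro j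
    have hc : Continuous fun w : S11 => H w * (w : R12) j := by
      have h1 : Continuous fun w : S11 => H w := hH.continuous.comp continuous_subtype_val
      have h2 : Continuous fun w : S11 => (w : R12) j :=
        (SHarm.coord j).continuous.comp continuous_subtype_val
      exact h1.mul h2
    exact hc.integrable_of_hasCompactSupport (HasCompactSupport.of_compactSpace _)
  have h1 : (∫ w : S11, (H w) ^ 2 ∂sig) = ∑ j : Fin 12, H (ei j) * ∫ w : S11, H w * (w : R12) j ∂sig := by
    have e : (fun w : S11 => (H w) ^ 2) =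
        fun w : S11 => ∑ j : Fin 12, H (ei j) * (H w * (w : R12) j) := by
      funext w
      have := hH.eq_linear (w : R12)
      calc (H w) ^ 2 = H w * H w := by ring
        _ = H w * ∑ j : Fin 12, H (ei j) * (w : R12) j := by rw [← this]
        _ = _ := by rw [Finset.mul_sum]; exact Finset.sum_congr rfl fun j _ => by ring
    rw [e, integral_finsetSum _ (fun j _ => (hint j).const_mul _)]
    exact Finset.sum_congr rfl fun j _ => by rw [integral_const_mul]
  have h2 : ∀ j, (∫ w : S11, H w * (w : R12) j ∂sig) = 0 := by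
    intro j
    have := hcon j
    unfold m1 at this
    have e : (fun w : S11 => ((H w : ℝ) : ℂ) * (((w : R12) j : ℝ) : ℂ)) =
      fun w : S11 => ((H w * (w : R12) j : ℝ) : ℂ) := by funext w; push_cast; rfl
    rw [e, integral_complex_ofReal] at this
    exact_mod_cast this
  rw [hn] at h1
  simp only [h2, mul_zero, Finset.sum_const_zero] at h1
  exact one_ne_zero h1

/-- degree 0: normalised phase mode -/
theorem E1_phase (H : R12 → ℝ) {r : ℝ} (hr : 0 < r) : E1 P H none r = (I * P.q r) * m0 H :=
  comp_mode1_none P H hr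
theorem E2_phase (H : R12 → ℝ) {r : ℝ} (hr : 0 < r) :
    E2 P H none r = starRingEnd ℂ (I * P.q r) * m0 H := by
  unfold E2
  rw [comp_mode2, comp_mode1_none P H hr, map_mul, m0_conj]
theorem E1_time (H : R12 → ℝ) {r : ℝ} (hr : 0 < r) : E1 P H (some none) r = P.rtime r * m0 H :=
  comp_mode1_time P H hr
theorem E2_time (H : R12 → ℝ) {r : ℝ} (hr : 0 < r) :
    E2 P H (some none) r = starRingEnd ℂ (P.rtime r) * m0 H := by
  unfold E2
  rw [comp_mode2, comp_mode1_time P H hr, map_mul, m0_conj]
theorem E1_tr (H : R12 → ℝ) (j : Fin 12) {r : ℝ} (hr : 0 < r) :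
    E1 P H (some (some j)) r = deriv P.q r * m1 H j :=
  comp_mode1_tr P H j hr
theorem E2_tr (H : R12 → ℝ) (j : Fin 12) {r : ℝ} (hr : 0 < r) :
    E2 P H (some (some j)) r = starRingEnd ℂ (deriv P.q r) * m1 H j := by
  unfold E2
  rw [comp_mode2, comp_mode1_tr P H j hr, map_mul, m1_conj]

theorem inEr_zero {l : ℕ} {F G : ℝ → ℂ} (h : ∀ r, 0 < r → F r = 0 ∧ G r = 0) : P.InEr l F G := by
  refine ⟨fun _ => ⟨0, 0, fun r hr => ?_⟩, fun _ => ⟨0, fun r hr => ?_⟩, fun _ r hr => h r hr⟩
  · simp [(h r hr).1, (h r hr).2]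
  · simp [(h r hr).1, (h r hr).2]

/-- one profile: the source-free statement and the sourced statement for `lam` an eigenvalue of the
symmetry modes give `ModeGood`. -/
theorem modeGood_of
    (h : ∀ (lam : ℂ) (l : ℕ) (H : R12 → ℝ) (F G : ℝ → ℂ) (al : ℂ) (e1 e2 : ℝ → ℂ),
      0 ≤ lam.re → P.EigS lam l H F G al e1 e2 → P.InEr l F G) : P.ModeGood N0 := by
  intro lam hlam l H hH hnorm F G cF cG pF pG xF xG hE
  have hm : Profile.Mode N0 l H F G := ⟨hH, hnorm, cF, cG, pF, pG, xF, xG⟩
  have cF2 : ContDiff ℝ 2 F := cF.of_le (by norm_num [N0])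
  have cG2 : ContDiff ℝ 2 G := cG.of_le (by norm_num [N0])
  rcases Nat.lt_or_ge l 2 with hl | hl
  · interval_cases l
    · -- degree 0
      obtain ⟨a, b, hab⟩ := hE.1 rfl
      have h0 := m0_ne hH hnorm
      -- subtract c₀ phase + c₁ time
      have step : ∀ c0 c1 : ℂ, Profile.Mode N0 0 H
          (fun r => (F r - c0 / m0 H * E1 P H none r) - c1 / m0 H * E1 P H (some none) r)
          (fun r => (G r - c0 / m0 H * E2 P H none r) - c1 / m0 H * E2 P H (some none) r) :=
        fun c0 c1 => mode_sub P (mode_sub P hm (c0 / m0 H) none) (c1 / m0 H) (some none)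
      have eqs : ∀ c0 c1 : ℂ, ∀ r : ℝ, 0 < r →
          P.rgen1 0 (fun r => (F r - c0 / m0 H * E1 P H none r) - c1 / m0 H * E1 P H (some none) r)
            (fun r => (G r - c0 / m0 H * E2 P H none r) - c1 / m0 H * E2 P H (some none) r) r
            - lam * ((F r - c0 / m0 H * E1 P H none r) - c1 / m0 H * E1 P H (some none) r) =
            (a + lam * c0) * (I * P.q r) + (b - (1 - lam) * c1) * P.rtime r ∧
          P.rgen2 0 (fun r => (F r - c0 / m0 H * E1 P H none r) - c1 / m0 H * E1 P H (some none) r)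
            (fun r => (G r - c0 / m0 H * E2 P H none r) - c1 / m0 H * E2 P H (some none) r) r
            - lam * ((G r - c0 / m0 H * E2 P H none r) - c1 / m0 H * E2 P H (some none) r) =
            (a + lam * c0) * starRingEnd ℂ (I * P.q r) + (b - (1 - lam) * c1) * starRingEnd ℂ (P.rtime r) := by
        intro c0 c1 r hr
        have s1 := E1_cd P hH none 2
        have s2 := E2_cd P hH none 2
        have s3 := E1_cd P hH (some none) 2
        have s4 := E2_cd P hH (some none) 2
        have t1 : ContDiff ℝ 2 (fun r => F r - c0 / m0 H * E1 P H none r) :=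
          cF2.sub (contDiff_const.mul s1)
        have t2 : ContDiff ℝ 2 (fun r => G r - c0 / m0 H * E2 P H none r) :=
          cG2.sub (contDiff_const.mul s2)
        have u1 := (hab r hr).1
        have u2 := (hab r hr).2
        constructor
        · rw [rgen1_sub P t1 s3, rgen1_sub P cF2 s1, E_eq1 P hH none hr, E_eq1 P hH (some none) hr,
            E1_phase P H hr, E1_time P H hr]
          simp only [DM.ml]
          push_cast
          have := u1
          field_simp
          linear_combination u1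
        · rw [rgen2_sub P t2 s4, rgen2_sub P cG2 s2, E_eq2 P hH none hr, E_eq2 P hH (some none) hr,
            E2_phase P H hr, E2_time P H hr]
          simp only [DM.ml]
          push_cast
          field_simp
          linear_combination u2
      have back : ∀ c0 c1 : ℂ, P.InEr 0
          (fun r => (F r - c0 / m0 H * E1 P H none r) - c1 / m0 H * E1 P H (some none) r)
          (fun r => (G r - c0 / m0 H * E2 P H none r) - c1 / m0 H * E2 P H (some none) r) →
          P.InEr 0 F G := by
        intro c0 c1 hI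
        obtain ⟨x, y, hxy⟩ := hI.1 rfl
        refine ⟨fun _ => ⟨x + c0, y + c1, fun r hr => ?_⟩, fun h => absurd h (by norm_num),
          fun h => absurd h (by norm_num)⟩
        obtain ⟨v1, v2⟩ := hxy r hr
        simp only [E1_phase P H hr, E1_time P H hr] at v1
        simp only [E2_phase P H hr, E2_time P H hr] at v2
        have w1 : c0 / m0 H * (I * P.q r * m0 H) = c0 * (I * P.q r) := by field_simp
        have w2 : c1 / m0 H * (P.rtime r * m0 H) = c1 * P.rtime r := by field_simp
        have w3 : c0 / m0 H * (starRingEnd ℂ (I * P.q r) * m0 H) = c0 * starRingEnd ℂ (I * P.q r) := by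
          field_simp
        have w4 : c1 / m0 H * (starRingEnd ℂ (P.rtime r) * m0 H) = c1 * starRingEnd ℂ (P.rtime r) := by
          field_simp
        rw [w1, w2] at v1
        rw [w3, w4] at v2
        exact ⟨by linear_combination v1, by linear_combination v2⟩
      by_cases h1 : lam = 0
      · -- keep the phase source
        subst h1
        refine back 0 b (h 0 0 H _ _ a (fun r => I * P.q r) (fun r => starRingEnd ℂ (I * P.q r)) hlam
          ⟨step 0 b, Or.inr (Or.inl ⟨rfl, rfl, fun _ => rfl, fun _ => rfl⟩), fun r hr => ?_, fun r hr => ?_⟩)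
        · rw [(eqs 0 b r hr).1]; ring
        · rw [(eqs 0 b r hr).2]; ring
      · by_cases h2 : lam = 1
        · subst h2
          refine back (-a) 0 (h 1 0 H _ _ b P.rtime (fun r => starRingEnd ℂ (P.rtime r)) hlam
            ⟨step (-a) 0, Or.inr (Or.inr (Or.inl ⟨rfl, rfl, fun _ => rfl, fun _ => rfl⟩)),
              fun r hr => ?_, fun r hr => ?_⟩)
          · rw [(eqs (-a) 0 r hr).1]; ring
          · rw [(eqs (-a) 0 r hr).2]; ring
        · have h2' : (1 - lam) ≠ 0 := fun hh => h2 (by linear_combination -hh)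
          have z1 : a + lam * (-a / lam) = 0 := by field_simp; ring
          have z2 : b - (1 - lam) * (b / (1 - lam)) = 0 := by
            rw [mul_div_cancel₀ _ h2']; ring
          refine back (-a / lam) (b / (1 - lam)) (h lam 0 H _ _ 0 (fun _ => 0) (fun _ => 0) hlam
            ⟨step _ _, Or.inl rfl, fun r hr => ?_, fun r hr => ?_⟩)
          · rw [(eqs _ _ r hr).1, z1, z2]; ring
          · rw [(eqs _ _ r hr).2, z1, z2]; ring
    · -- degree 1
      obtain ⟨a, hab⟩ := hE.2.1 rfl
      obtain ⟨j, h0⟩ := m1_ne hH hnorm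
      have step : ∀ c0 : ℂ, Profile.Mode N0 1 H
          (fun r => F r - c0 / m1 H j * E1 P H (some (some j)) r)
          (fun r => G r - c0 / m1 H j * E2 P H (some (some j)) r) :=
        fun c0 => mode_sub P hm (c0 / m1 H j) (some (some j))
      have eqs : ∀ c0 : ℂ, ∀ r : ℝ, 0 < r →
          P.rgen1 1 (fun r => F r - c0 / m1 H j * E1 P H (some (some j)) r)
            (fun r => G r - c0 / m1 H j * E2 P H (some (some j)) r) r
            - lam * (F r - c0 / m1 H j * E1 P H (some (some j)) r) =
            (a - (1 / 2 - lam) * c0) * deriv P.q r ∧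
          P.rgen2 1 (fun r => F r - c0 / m1 H j * E1 P H (some (some j)) r)
            (fun r => G r - c0 / m1 H j * E2 P H (some (some j)) r) r
            - lam * (G r - c0 / m1 H j * E2 P H (some (some j)) r) =
            (a - (1 / 2 - lam) * c0) * starRingEnd ℂ (deriv P.q r) := by
        intro c0 r hr
        have s1 := E1_cd P hH (some (some j)) 2
        have s2 := E2_cd P hH (some (some j)) 2
        have u1 := (hab r hr).1
        have u2 := (hab r hr).2
        constructor
        · rw [rgen1_sub P cF2 s1, E_eq1 P hH _ hr, E1_tr P H j hr]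
          simp only [DM.ml]
          push_cast
          field_simp
          linear_combination 2 * u1
        · rw [rgen2_sub P cG2 s2, E_eq2 P hH _ hr, E2_tr P H j hr]
          simp only [DM.ml]
          push_cast
          field_simp
          linear_combination 2 * u2
      have back : ∀ c0 : ℂ, P.InEr 1
          (fun r => F r - c0 / m1 H j * E1 P H (some (some j)) r)
          (fun r => G r - c0 / m1 H j * E2 P H (some (some j)) r) → P.InEr 1 F G := by
        intro c0 hI
        obtain ⟨x, hxy⟩ := hI.2.1 rfl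
        refine ⟨fun h => absurd h (by norm_num), fun _ => ⟨x + c0, fun r hr => ?_⟩,
          fun h => absurd h (by norm_num)⟩
        obtain ⟨v1, v2⟩ := hxy r hr
        simp only [E1_tr P H j hr] at v1
        simp only [E2_tr P H j hr] at v2
        have w1 : c0 / m1 H j * (deriv P.q r * m1 H j) = c0 * deriv P.q r := by field_simp
        have w3 : c0 / m1 H j * (starRingEnd ℂ (deriv P.q r) * m1 H j) =
          c0 * starRingEnd ℂ (deriv P.q r) := by field_simp
        rw [w1] at v1
        rw [w3] at v2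
        exact ⟨by linear_combination v1, by linear_combination v2⟩
      by_cases h1 : lam = 1 / 2
      · subst h1
        refine back 0 (h (1 / 2) 1 H _ _ a (deriv P.q) (fun r => starRingEnd ℂ (deriv P.q r)) hlam
          ⟨step 0, Or.inr (Or.inr (Or.inr ⟨rfl, rfl, fun _ => rfl, fun _ => rfl⟩)),
            fun r hr => ?_, fun r hr => ?_⟩)
        · rw [(eqs 0 r hr).1]; ring
        · rw [(eqs 0 r hr).2]; ring
      · have h2' : (1 / 2 - lam) ≠ 0 := fun hh => h1 (by linear_combination -hh)
        have z2 : a - (1 / 2 - lam) * (a / (1 / 2 - lam)) = 0 := by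
          rw [mul_div_cancel₀ _ h2']; ring
        refine back (a / (1 / 2 - lam)) (h lam 1 H _ _ 0 (fun _ => 0) (fun _ => 0) hlam
          ⟨step _, Or.inl rfl, fun r hr => ?_, fun r hr => ?_⟩)
        · rw [(eqs _ r hr).1, z2]; ring
        · rw [(eqs _ r hr).2, z2]; ring
  · have hz := hE.2.2 hl
    refine h lam l H F G 0 (fun _ => 0) (fun _ => 0) hlam ⟨hm, Or.inl rfl, fun r hr => ?_, fun r hr => ?_⟩
    · have := (hz r hr).1
      simp only at this
      rw [this]; ring
    · have := (hz r hr).2
      simp only at this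
      rw [this]; ring

/-- **ASSEMBLY OF PART C.** -/
theorem partC_of (h0 : R0Stmt) (h1 : R1Stmt) (h2 : R2Stmt) (h3 : R3Stmt) (h4 : R4Stmt) : PartC := by
  intro D U hU B
  obtain ⟨C', hC'⟩ := h0 D.om D.R U hU B
  obtain ⟨K, hK⟩ := h1 D.om D.R U hU B
  obtain ⟨K2, hK2⟩ := h2 D.om D.R U hU B K
  obtain ⟨M0, hM0⟩ := h3 D.om D.R U hU B C' (max K K2)
  have h4' := h4 D U hU B (max M0 2)
  have hn1 : ∀ᶠ j in atTop, 1 ≤ B.nn j := B.nn_tendsto.eventually_ge_atTop 1
  filter_upwards [hC', hK, hK2, hM0, h4', hn1] with j a0 a1 a2 a3 a4 hn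
  have hn' : (1 : ℝ) ≤ (B.nn j : ℝ) := by exact_mod_cast hn
  apply modeGood_of
  intro lam l H F G al e1 e2 hlam hE
  by_cases hz : al = 0
  · subst hz
    have hEig : (B.P j).Eig lam l H F G := by
      refine ⟨hE.mode, fun r hr => ?_, fun r hr => ?_⟩
      · have := hE.eq1 r hr
        rw [zero_mul] at this
        exact sub_eq_zero.mp this
      · have := hE.eq2 r hr
        rw [zero_mul] at this
        exact sub_eq_zero.mp this
    by_cases hnz : NZ F G
    · have b0 := a0 lam l H F G hEig hlam hnz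
      have b1 := a1 lam l H F G hEig hlam hnz
      have b2 := a2 lam l H F G hEig hlam hnz b1
      have b3 := a3 lam l H F G hEig hlam hnz b0
        (b1.trans (pow_le_pow_right₀ hn' (le_max_left _ _)))
        (b2.trans (pow_le_pow_right₀ hn' (le_max_right _ _)))
      exact a4 lam l H F G 0 e1 e2 hlam (b3.trans (le_max_left _ _)) hE
    · unfold NZ at hnz
      push Not at hnz
      exact inEr_zero _ (fun r hr => hnz r hr)
  · have hsrc := hE.src.resolve_left hz
    refine a4 lam l H F G al e1 e2 hlam (le_trans ?_ (le_max_right _ _)) hE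
    rcases hsrc with ⟨hl, hs, _⟩ | ⟨hl, hs, _⟩ | ⟨hl, hs, _⟩
    · rw [hl, hs]; norm_num
    · rw [hl, hs]; norm_num
    · rw [hl, hs]; norm_num

end Crest.Agent.R086.CTop
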