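import Crest.Agent.R086.BCIface

/-!
Row 86 (S0114), Part C, node (CV), part 1 (helper702): elementary facts on the limit profile on `[0, 3.9]`.
-/

set_option autoImplicit false

open MeasureTheory Complex Set Filter Topology
open scoped ContDiff

namespace Crest.Agent.R086.CV

variable {om0 R : ℝ} {U : ℝ → ℂ}

theorem norm_U_le_one (hU : LimitProfile om0 R U) (r : ℝ) : ‖U r‖ ≤ 1 := by
  rcases le_or_gt r R with h | h
  · rw [hU.core r h]; simp
  · exact (hU.lt_one r h).le

theorem U_hasDerivAt (hU : LimitProfile om0 R U) (r : ℝ) : HasDerivAt U (deriv U r) r :=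
  (hU.c1.differentiable (by norm_num) r).hasDerivAt

theorem dU_continuous (hU : LimitProfile om0 R U) : Continuous (deriv U) :=
  hU.c1.continuous_deriv (by norm_num)

theorem dU_core (hU : LimitProfile om0 R U) {r : ℝ} (hr : r ≤ R) : deriv U r = 0 := by
  have h1 : ∀ s : ℝ, s < R → deriv U s = 0 := by
    intro s hs
    have : U =ᶠ[𝓝 s] fun _ => 1 := by
      filter_upwards [Iio_mem_nhds hs] with x hx
      exact hU.core x (le_of_lt hx)
    rw [this.deriv_eq]; simp
  rcases lt_or_eq_of_le hr with h | h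
  · exact h1 r h
  · rw [h]
    have hc := (dU_continuous hU).continuousAt (x := R)
    have ht : Tendsto (deriv U) (𝓝[<] R) (𝓝 (deriv U R)) := hc.tendsto.mono_left nhdsWithin_le_nhds
    have ht2 : Tendsto (deriv U) (𝓝[<] R) (𝓝 0) := by
      refine tendsto_const_nhds.congr' ?_
      filter_upwards [self_mem_nhdsWithin] with s hs
      exact (h1 s hs).symm
    exact tendsto_nhds_unique ht ht2

/-- real part of the logarithmic derivative is nonpositive -/
theorem re_U_dU (hU : LimitProfile om0 R U) (r : ℝ) : ((starRingEnd ℂ) (U r) * deriv U r).re ≤ 0 := by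
  rcases le_or_gt r R with h | h
  · rw [dU_core hU h]; simp
  · have hre : HasDerivAt (fun y => ‖U y‖ ^ 2) (2 * ((starRingEnd ℂ) (U r) * deriv U r).re) r := by
      have h1 := (U_hasDerivAt hU r).norm_sq
      refine h1.congr_deriv ?_
      rw [Complex.inner]
      congr 2
      ring
    have hanti : AntitoneOn (fun y => ‖U y‖ ^ 2) (Ici R) := by
      intro x hx y hy hxy
      rcases eq_or_lt_of_le hxy with he | hl
      · rw [he]
      · exact pow_le_pow_left₀ (norm_nonneg _) (hU.anti hx hy hl).le 2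
    have h2 : derivWithin (fun y => ‖U y‖ ^ 2) (Ici R) r ≤ 0 := hanti.derivWithin_nonpos
    have h3 : derivWithin (fun y => ‖U y‖ ^ 2) (Ici R) r = 2 * ((starRingEnd ℂ) (U r) * deriv U r).re := by
      rw [derivWithin_of_mem_nhds (Ici_mem_nhds h)]
      exact hre.deriv
    rw [h3] at h2
    linarith

/-- `|U'(r)| ≤ om0 (r - R^12/r^11)/12` -/
theorem norm_dU_le (hU : LimitProfile om0 R U) {r : ℝ} (hr : R ≤ r) :
    ‖deriv U r‖ ≤ om0 / 12 * (r - R ^ 12 / r ^ 11) := by
  have hR0 : 0 < R := lt_trans (by norm_num) hU.R_lo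
  have hr0 : 0 < r := hR0.trans_le hr
  have hom : 0 < om0 := lt_trans (by norm_num) hU.om_lo
  set E : ℝ → ℂ := fun s => cexp (I * ((s ^ 2 / 4 : ℝ) : ℂ)) with hE
  have hEn : ∀ s, ‖E s‖ = 1 := by
    intro s
    rw [hE]; simp only
    rw [mul_comm]; exact Complex.norm_exp_ofReal_mul_I _
  have hEd : ∀ s : ℝ, HasDerivAt E (E s * (I * (s / 2 : ℂ))) s := by
    intro s
    have h1 : HasDerivAt (fun r : ℝ => (r ^ 2 / 4 : ℝ)) (s / 2) s := by
      have := (hasDerivAt_pow 2 s).div_const 4
      refine this.congr_deriv ?_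
      push_cast; ring
    have h2 := (h1.ofReal_comp.const_mul I).cexp
    refine h2.congr_deriv ?_
    have e3 : E s = cexp (I * ((s ^ 2 / 4 : ℝ) : ℂ)) := rfl
    rw [e3]
    push_cast
    ring
  have hEc : Continuous E := by rw [hE]; fun_prop
  set Y : ℝ → ℂ := fun s => ((s ^ 11 : ℝ) : ℂ) * E s * deriv U s with hY
  have hYd : ∀ s ∈ Ioo R r, HasDerivAt Y (-(om0 : ℂ) * ((s ^ 11 : ℝ) : ℂ) * E s * U s) s := by
    intro s hs
    have hs0 : (s : ℂ) ≠ 0 := by exact_mod_cast (hR0.trans hs.1).ne'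
    have h1 := (((hasDerivAt_pow 11 s).ofReal_comp).mul (hEd s)).mul (hU.ode s hs.1)
    refine h1.congr_deriv ?_
    simp only [Pi.mul_apply]
    push_cast
    field_simp
    ring
  have hYc : ContinuousOn Y (Icc R r) := by
    have := dU_continuous hU
    rw [hY]
    exact (((by fun_prop : Continuous fun s : ℝ => ((s ^ 11 : ℝ) : ℂ)).mul hEc).mul this).continuousOn
  have hUc : Continuous U := hU.c1.continuous
  have hint : Continuous (fun s : ℝ => -(om0 : ℂ) * ((s ^ 11 : ℝ) : ℂ) * E s * U s) := by fun_prop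
  have e := intervalIntegral.integral_eq_sub_of_hasDerivAt_of_le hr hYc hYd (hint.intervalIntegrable _ _)
  have hYR : Y R = 0 := by rw [hY]; simp [dU_core hU le_rfl]
  rw [hYR, sub_zero] at e
  have hb : ‖Y r‖ ≤ ∫ s in R..r, om0 * s ^ 11 := by
    rw [← e]
    refine intervalIntegral.norm_integral_le_of_norm_le hr ?_ ?_
    · filter_upwards with s hs
      have hs0 : 0 < s := hR0.trans hs.1
      rw [norm_mul, norm_mul, norm_mul, norm_neg, hEn, mul_one, Complex.norm_real, Complex.norm_real,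
        Real.norm_of_nonneg hom.le, Real.norm_of_nonneg (by positivity)]
      exact mul_le_of_le_one_right (by positivity) (norm_U_le_one hU s)
    · exact (by fun_prop : Continuous fun s : ℝ => om0 * s ^ 11).intervalIntegrable _ _
  rw [intervalIntegral.integral_const_mul, integral_pow] at hb
  have hYn : ‖Y r‖ = r ^ 11 * ‖deriv U r‖ := by
    rw [hY]; simp only
    rw [norm_mul, norm_mul, hEn, mul_one, Complex.norm_real, Real.norm_of_nonneg (by positivity)]
  rw [hYn] at hb
  have hr11 : 0 < r ^ 11 := by positivity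
  have : ‖deriv U r‖ ≤ (om0 * ((r ^ (11 + 1) - R ^ (11 + 1)) / (11 + 1))) / r ^ 11 := by
    rw [le_div_iff₀ hr11, mul_comm]
    push_cast at hb
    exact hb
  refine this.trans (le_of_eq ?_)
  field_simp
  ring

/-- `|U| ≥ 0.96` on `(-∞, 3.9]` -/
theorem norm_U_ge (hU : LimitProfile om0 R U) {r : ℝ} (hr : r ≤ 39 / 10) : 96 / 100 ≤ ‖U r‖ := by
  have hR0 : 0 < R := lt_trans (by norm_num) hU.R_lo
  have hom : 0 < om0 := lt_trans (by norm_num) hU.om_lo
  rcases le_or_gt r R with h | h
  · rw [hU.core r h]; norm_num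
  have hr0 : 0 < r := hR0.trans h
  set Bf : ℝ → ℝ := fun s => om0 / 12 * (s ^ 2 / 2 + R ^ 12 / 10 * (s ^ 10)⁻¹) with hBf
  have hBd : ∀ s : ℝ, 0 < s → HasDerivAt Bf (om0 / 12 * (s - R ^ 12 / s ^ 11)) s := by
    intro s hs
    have h1 := (hasDerivAt_pow 2 s).div_const 2
    have h2 := ((hasDerivAt_pow 10 s).fun_inv (by positivity)).const_mul (R ^ 12 / 10)
    have h3 := (h1.add h2).const_mul (om0 / 12)
    refine h3.congr_deriv ?_
    push_cast
    field_simp
    ring
  have e := intervalIntegral.integral_eq_sub_of_hasDerivAt_of_le (a := R) (b := r) h.le (f := U)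
    (f' := deriv U) hU.c1.continuous.continuousOn (fun s _ => U_hasDerivAt hU s)
    ((dU_continuous hU).intervalIntegrable _ _)
  have hpos : ∀ s ∈ uIcc R r, 0 < s := by
    intro s hs
    rw [uIcc_of_le h.le] at hs
    exact hR0.trans_le hs.1
  have hBcont : ContinuousOn (fun s : ℝ => om0 / 12 * (s - R ^ 12 / s ^ 11)) (uIcc R r) := by
    refine ContinuousOn.mul continuousOn_const (ContinuousOn.sub continuousOn_id ?_)
    refine ContinuousOn.div continuousOn_const (by fun_prop) ?_
    intro s hs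
    have := hpos s hs
    positivity
  have hb : ‖U r - U R‖ ≤ Bf r - Bf R := by
    rw [← e, ← intervalIntegral.integral_eq_sub_of_hasDerivAt (fun s hs => hBd s (hpos s hs))
      hBcont.intervalIntegrable]
    refine intervalIntegral.norm_integral_le_of_norm_le h.le ?_ hBcont.intervalIntegrable
    filter_upwards with s hs
    exact norm_dU_le hU hs.1.le
  -- monotone in r: compare with r = 3.9
  have hmono : Bf r ≤ Bf (39 / 10) := by
    have hm : MonotoneOn Bf (Icc r (39 / 10)) := by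
      refine monotoneOn_of_deriv_nonneg (convex_Icc _ _) ?_ ?_ ?_
      · intro s hs
        exact (hBd s (hr0.trans_le hs.1)).continuousAt.continuousWithinAt
      · intro s hs
        rw [interior_Icc] at hs
        exact (hBd s (hr0.trans hs.1)).differentiableAt.differentiableWithinAt
      · intro s hs
        rw [interior_Icc] at hs
        have hs0 : 0 < s := hr0.trans hs.1
        rw [(hBd s hs0).deriv]
        refine mul_nonneg (by positivity) ?_
        rw [sub_nonneg, div_le_iff₀ (by positivity)]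
        calc R ^ 12 ≤ s ^ 12 := pow_le_pow_left₀ hR0.le (h.le.trans hs.1.le) 12
          _ = s * s ^ 11 := by ring
    exact hm ⟨le_rfl, hr⟩ ⟨hr, le_rfl⟩ hr
  have hnum : Bf (39 / 10) - Bf R ≤ 4 / 100 := by
    have hRl := hU.R_lo
    have hRh := hU.R_hi
    have hoh := hU.om_hi
    have hR2 : (328 / 100 : ℝ) ^ 2 ≤ R ^ 2 := pow_le_pow_left₀ (by norm_num) hRl.le 2
    have hR12 : R ^ 12 ≤ (330 / 100 : ℝ) ^ 12 := pow_le_pow_left₀ hR0.le hRh.le 12
    have e1 : Bf (39 / 10) - Bf R = om0 / 12 * (((39 / 10) ^ 2 - R ^ 2) / 2 + R ^ 12 * ((10 * (39 / 10) ^ 10)⁻¹) - R ^ 2 / 10) := by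
      rw [hBf]; simp only
      have : R ≠ 0 := hR0.ne'
      field_simp
      ring
    rw [e1]
    have e2 : ((39 / 10 : ℝ) ^ 2 - R ^ 2) / 2 + R ^ 12 * ((10 * (39 / 10) ^ 10)⁻¹) - R ^ 2 / 10 ≤ 14 / 10 := by
      have : R ^ 12 * ((10 * (39 / 10 : ℝ) ^ 10)⁻¹) ≤ (330 / 100 : ℝ) ^ 12 * ((10 * (39 / 10) ^ 10)⁻¹) :=
        mul_le_mul_of_nonneg_right hR12 (by positivity)
      have h3 : (330 / 100 : ℝ) ^ 12 * ((10 * (39 / 10) ^ 10)⁻¹) ≤ 21 / 100 := by norm_num
      linarith
    calc om0 / 12 * (((39 / 10) ^ 2 - R ^ 2) / 2 + R ^ 12 * ((10 * (39 / 10) ^ 10)⁻¹) - R ^ 2 / 10)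
        ≤ om0 / 12 * (14 / 10) := mul_le_mul_of_nonneg_left e2 (by positivity)
      _ ≤ 4 / 100 := by linarith
  have hUR : U R = 1 := hU.core R le_rfl
  have h5 : ‖U r - 1‖ ≤ 4 / 100 := by
    rw [← hUR]; linarith
  have h6 : ‖(1:ℂ)‖ ≤ ‖U r‖ + ‖U r - 1‖ := by
    have := norm_sub_le (U r) (U r - 1)
    simpa using this
  rw [norm_one] at h6
  linarith

end Crest.Agent.R086.CV
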