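import Crest.Agent.R086.SHBase

/-!
Row 86, spherical harmonics: components of the generator and of the modes (helper512).
-/

set_option autoImplicit false

open MeasureTheory Complex
open scoped ContDiff

namespace Crest.Agent.R086.SH

lemma norm_ei (i : Fin 12) : ‖ei i‖ = 1 := by simp [ei]

lemma norm_w (w : S11) : ‖(w : R12)‖ = 1 := by simp

lemma norm_smul_w {r : ℝ} (hr : 0 ≤ r) (w : S11) : ‖r • (w : R12)‖ = r := by
  rw [norm_smul, norm_w, mul_one, Real.norm_of_nonneg hr]

variable {n : ℕ} (P : Profile n)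

lemma Q_eq (y : R12) : P.Q y = P.q ‖y‖ := by
  obtain ⟨q0, hq0⟩ := P.radial
  unfold Profile.q
  rw [hq0, hq0, norm_smul, norm_ei, mul_one, norm_norm]

lemma Q_smul {r : ℝ} (hr : 0 ≤ r) (w : S11) : P.Q (r • (w : R12)) = P.q r := by
  rw [Q_eq, norm_smul_w hr]

lemma q_contDiff : ContDiff ℝ ∞ P.q := by
  unfold Profile.q
  exact P.smooth.comp (contDiff_id.smul contDiff_const)

lemma V1_smul {r : ℝ} (hr : 0 ≤ r) (w : S11) : P.V1 (r • (w : R12)) = P.rV1 r := by
  unfold Profile.V1 Profile.rV1; rw [Q_smul P hr]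
lemma V2_smul {r : ℝ} (hr : 0 ≤ r) (w : S11) : P.V2 (r • (w : R12)) = P.rV2 r := by
  unfold Profile.V2 Profile.rV2; rw [Q_smul P hr]
lemma V2c_smul {r : ℝ} (hr : 0 ≤ r) (w : S11) : P.V2c (r • (w : R12)) = P.rV2c r := by
  unfold Profile.V2c Profile.rV2c; rw [Q_smul P hr]

lemma V1_cont : Continuous P.V1 := by
  unfold Profile.V1
  have h := P.smooth.continuous
  fun_prop
lemma V2_cont : Continuous P.V2 := by
  unfold Profile.V2
  have h := P.smooth.continuous
  fun_prop
lemma V2c_cont : Continuous P.V2c := by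
  unfold Profile.V2c
  have h := P.smooth.continuous
  fun_prop

/-- derivative of the norm on `R12` away from zero -/
lemma hasFDerivAt_norm {y : R12} (hy : y ≠ 0) :
    HasFDerivAt (fun z : R12 => ‖z‖) (‖y‖⁻¹ • (innerSL ℝ y)) y := by
  have h1 : HasFDerivAt (fun z : R12 => ‖z‖ ^ 2) (2 • (innerSL ℝ y)) y :=
    (hasStrictFDerivAt_norm_sq y).hasFDerivAt
  have hn : ‖y‖ ≠ 0 := norm_ne_zero_iff.mpr hy
  have h2 := h1.sqrt (pow_ne_zero 2 hn)
  have h3 : (fun z : R12 => Real.sqrt (‖z‖ ^ 2)) = fun z => ‖z‖ := by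
    funext z; exact Real.sqrt_sq (norm_nonneg z)
  rw [h3] at h2
  convert! h2 using 1
  ext v
  rw [Real.sqrt_sq (norm_nonneg y)]
  simp only [_root_.smul_apply, nsmul_eq_mul, smul_eq_mul]
  field_simp
  simp
  

lemma fderiv_Q {y : R12} (hy : y ≠ 0) (v : R12) :
    fderiv ℝ P.Q y v = ((‖y‖⁻¹ * inner ℝ y v : ℝ) : ℂ) * deriv P.q ‖y‖ := by
  have h1 : P.Q = fun z => P.q ‖z‖ := funext (Q_eq P)
  have h2 : HasDerivAt P.q (deriv P.q ‖y‖) ‖y‖ :=
    ((q_contDiff P).differentiable (by norm_num) ‖y‖).hasDerivAt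
  have h3 := h2.hasFDerivAt.comp y (hasFDerivAt_norm hy)
  rw [h1]
  have h4 : fderiv ℝ (fun z => P.q ‖z‖) y = _ := h3.fderiv
  rw [h4]
  simp
  ring

lemma fderiv_Q_smul {r : ℝ} (hr : 0 < r) (w : S11) (v : R12) :
    fderiv ℝ P.Q (r • (w : R12)) v = ((inner ℝ (w : R12) v : ℝ) : ℂ) * deriv P.q r := by
  have hw : (w : R12) ≠ 0 := by
    intro h; have := norm_w w; rw [h] at this; simp at this
  rw [fderiv_Q P (smul_ne_zero hr.ne' hw), norm_smul_w hr.le, real_inner_smul_left]
  rw [← mul_assoc, inv_mul_cancel₀ hr.ne', one_mul]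

lemma eul_Q_smul {r : ℝ} (hr : 0 < r) (w : S11) :
    eul P.Q (r • (w : R12)) = (r : ℂ) * deriv P.q r := by
  unfold eul
  rw [fderiv_Q_smul P hr, real_inner_smul_right, real_inner_self_eq_norm_sq, norm_w]
  simp

lemma inner_ei (w : R12) (j : Fin 12) : inner ℝ w (ei j) = w j := by
  simp [ei, EuclideanSpace.inner_single_right]

/-- zeroth moment of `H` -/
noncomputable def m0 (H : R12 → ℝ) : ℂ := ∫ w : S11, ((H w : ℝ) : ℂ) ∂sig
/-- first moments of `H` -/
noncomputable def m1 (H : R12 → ℝ) (j : Fin 12) : ℂ :=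
  ∫ w : S11, ((H w : ℝ) : ℂ) * (((w : R12) j : ℝ) : ℂ) ∂sig

lemma comp_of_const {H : R12 → ℝ} {f : R12 → ℂ} {r : ℝ} {c : ℂ}
    (h : ∀ w : S11, f (r • (w : R12)) = c) : comp H f r = c * m0 H := by
  unfold comp m0
  rw [← integral_const_mul]
  congr 1; funext w; rw [h w, mul_comm]

lemma comp_mode1_none (H : R12 → ℝ) {r : ℝ} (hr : 0 < r) :
    comp H (P.mode1 none) r = (I * P.q r) * m0 H :=
  comp_of_const (fun w => by
    show I * P.Q (r • (w : R12)) = _
    rw [Q_smul P hr.le])

lemma comp_mode1_time (H : R12 → ℝ) {r : ℝ} (hr : 0 < r) :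
    comp H (P.mode1 (some none)) r = P.rtime r * m0 H :=
  comp_of_const (fun w => by
    show ((1 : ℂ) / n - I * P.om) * P.Q (r • (w : R12)) + (1 / 2) * eul P.Q (r • (w : R12)) = _
    rw [Q_smul P hr.le, eul_Q_smul P hr]; rfl)

lemma comp_mode1_tr (H : R12 → ℝ) (j : Fin 12) {r : ℝ} (hr : 0 < r) :
    comp H (P.mode1 (some (some j))) r = deriv P.q r * m1 H j := by
  unfold comp m1
  rw [← integral_const_mul]
  congr 1; funext w
  show ((H w : ℝ) : ℂ) * fderiv ℝ P.Q (r • (w : R12)) (ei j) = _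
  rw [fderiv_Q_smul P hr, inner_ei]; ring

lemma m0_conj (H : R12 → ℝ) : starRingEnd ℂ (m0 H) = m0 H := by
  unfold m0; rw [← integral_conj]; congr 1; funext w; simp
lemma m1_conj (H : R12 → ℝ) (j : Fin 12) : starRingEnd ℂ (m1 H j) = m1 H j := by
  unfold m1; rw [← integral_conj]; congr 1; funext w; simp

lemma comp_mode2 (H : R12 → ℝ) (m : Option (Option (Fin 12))) (r : ℝ) :
    comp H (P.mode2 m) r = starRingEnd ℂ (comp H (P.mode1 m) r) :=
  comp_conj H (P.mode1 m) r

lemma mode1_cont (m : Option (Option (Fin 12))) : Continuous (P.mode1 m) := by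
  have hQ := P.smooth.continuous
  have hd : Continuous (fderiv ℝ P.Q) := P.smooth.continuous_fderiv (by norm_num)
  rcases m with _ | _ | j
  · show Continuous fun y => I * P.Q y
    exact continuous_const.mul hQ
  · show Continuous fun y => ((1 : ℂ) / n - I * P.om) * P.Q y + (1 / 2) * eul P.Q y
    have : Continuous (eul P.Q) := by
      unfold eul
      exact hd.clm_apply continuous_id
    exact (continuous_const.mul hQ).add (continuous_const.mul this)
  · show Continuous fun y => fderiv ℝ P.Q y (ei j)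
    exact hd.clm_apply continuous_const

lemma mode2_cont (m : Option (Option (Fin 12))) : Continuous (P.mode2 m) :=
  Complex.continuous_conj.comp (mode1_cont P m)

/-! ### the generator -/

lemma lap_cont {f : R12 → ℂ} (hf : ContDiff ℝ 2 f) : Continuous (lap f) := by
  unfold lap
  refine continuous_finsetSum _ fun i _ => ?_
  have := hf.continuous_iteratedFDeriv (m := 2) (le_refl _)
  exact (ContinuousMultilinearMap.apply ℝ (fun _ : Fin 2 => R12) ℂ ![ei i, ei i]).continuous.comp this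

lemma eul_cont {f : R12 → ℂ} (hf : ContDiff ℝ 1 f) : Continuous (eul f) := by
  unfold eul
  exact (hf.continuous_fderiv (by norm_num)).clm_apply continuous_id

lemma gen1_cont {f g : R12 → ℂ} (hf : ContDiff ℝ 2 f) (hg : ContDiff ℝ 2 g) :
    Continuous (P.gen1 f g) := by
  have h1 := lap_cont hf
  have h2 := eul_cont (hf.of_le (by norm_num))
  have h3 := V1_cont P
  have h4 := V2_cont P
  have h5 := hf.continuous
  have h6 := hg.continuous
  unfold Profile.gen1
  fun_prop

lemma gen2_cont {f g : R12 → ℂ} (hf : ContDiff ℝ 2 f) (hg : ContDiff ℝ 2 g) :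
    Continuous (P.gen2 f g) := by
  have h1 := lap_cont hg
  have h2 := eul_cont (hg.of_le (by norm_num))
  have h3 := V1_cont P
  have h4 := V2c_cont P
  have h5 := hf.continuous
  have h6 := hg.continuous
  unfold Profile.gen2
  fun_prop

lemma comp_gen1 {H : R12 → ℝ} (hH : Continuous H) {f g : R12 → ℂ} (hf : ContDiff ℝ 2 f)
    (hg : ContDiff ℝ 2 g) {r : ℝ} (hr : 0 < r) :
    comp H (P.gen1 f g) r = I * comp H (lap f) r - (1 / 2) * comp H (eul f) r
      + (I * P.om - 1 / n) * comp H f r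
      - I * (P.rV1 r * comp H f r + P.rV2 r * comp H g r) := by
  have h1 := lap_cont hf
  have h2 := eul_cont (hf.of_le (by norm_num : (1 : ℕ∞ω) ≤ 2))
  have h3 := V1_cont P
  have h4 := V2_cont P
  have h5 := hf.continuous
  have h6 := hg.continuous
  have e : P.gen1 f g = fun y => (I * lap f y - (1 / 2) * eul f y + (I * P.om - 1 / n) * f y)
      - I * (P.V1 y * f y + P.V2 y * g y) := by funext y; rfl
  rw [e, comp_sub hH (by fun_prop) (by fun_prop), comp_add hH (by fun_prop) (by fun_prop),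
    comp_sub hH (by fun_prop) (by fun_prop), comp_const_mul, comp_const_mul, comp_const_mul,
    comp_const_mul, comp_add hH (by fun_prop) (by fun_prop),
    comp_radial_mul (fun w => V1_smul P hr.le w), comp_radial_mul (fun w => V2_smul P hr.le w)]

lemma comp_gen2 {H : R12 → ℝ} (hH : Continuous H) {f g : R12 → ℂ} (hf : ContDiff ℝ 2 f)
    (hg : ContDiff ℝ 2 g) {r : ℝ} (hr : 0 < r) :
    comp H (P.gen2 f g) r = -I * comp H (lap g) r - (1 / 2) * comp H (eul g) r
      + (-I * P.om - 1 / n) * comp H g r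
      + I * (P.rV1 r * comp H g r + P.rV2c r * comp H f r) := by
  have h1 := lap_cont hg
  have h2 := eul_cont (hg.of_le (by norm_num : (1 : ℕ∞ω) ≤ 2))
  have h3 := V1_cont P
  have h4 := V2c_cont P
  have h5 := hf.continuous
  have h6 := hg.continuous
  have e : P.gen2 f g = fun y => (-I * lap g y - (1 / 2) * eul g y + (-I * P.om - 1 / n) * g y)
      + I * (P.V1 y * g y + P.V2c y * f y) := by funext y; rfl
  rw [e, comp_add hH (by fun_prop) (by fun_prop), comp_add hH (by fun_prop) (by fun_prop),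
    comp_sub hH (by fun_prop) (by fun_prop), comp_const_mul, comp_const_mul, comp_const_mul,
    comp_const_mul, comp_add hH (by fun_prop) (by fun_prop),
    comp_radial_mul (fun w => V1_smul P hr.le w), comp_radial_mul (fun w => V2c_smul P hr.le w)]

end Crest.Agent.R086.SH
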