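import Crest.Agent.R086.BCIface
import Crest.Agent.R086.CExDefs
import Crest.Agent.R086.SHRad
import Crest.Agent.R086.CVLim

/-!
Row 86 (S0114), Part C, node (CV) (helper702): the coefficient bounds `CEx.Coef` for the profiles of
`BData` on `(0, rb]`, `rb ∈ [1, 3.9]`.
-/

set_option autoImplicit false

open MeasureTheory Complex Set Filter Topology
open scoped ContDiff

namespace Crest.Agent.R086.CV

/-- virial multiplier, `(m w)' = 12 w` -/
noncomputable def mq (q : ℝ → ℂ) (r : ℝ) : ℝ := 12 * (∫ s in (0:ℝ)..r, CCore.w q s) / CCore.w q r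

/-- `P' = n rho P` -/
noncomputable def P1q (q : ℝ → ℂ) (N : ℕ) (r : ℝ) : ℝ :=
  (N : ℝ) * CCore.rho q (deriv q) r * ‖q r‖ ^ N

section aux

variable {q : ℝ → ℂ}

theorem w_continuous (hq : Continuous q) : Continuous (CCore.w q) := by
  unfold CCore.w; fun_prop

theorem w_pos {r : ℝ} (hr : 0 < r) (h0 : q r ≠ 0) : 0 < CCore.w q r := by
  unfold CCore.w
  have := norm_pos_iff.mpr h0
  positivity

theorem w_lo {r : ℝ} (hr : 0 ≤ r) {a : ℝ} (ha : 0 ≤ a) (h : a ≤ ‖q r‖) : a ^ 2 * r ^ 11 ≤ CCore.w q r := by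
  unfold CCore.w
  have : a ^ 2 ≤ ‖q r‖ ^ 2 := pow_le_pow_left₀ ha h 2
  exact mul_le_mul_of_nonneg_right this (by positivity)

theorem w_hi {r : ℝ} (hr : 0 ≤ r) {a : ℝ} (h : ‖q r‖ ≤ a) : CCore.w q r ≤ a ^ 2 * r ^ 11 := by
  unfold CCore.w
  have : ‖q r‖ ^ 2 ≤ a ^ 2 := pow_le_pow_left₀ (norm_nonneg _) h 2
  exact mul_le_mul_of_nonneg_right this (by positivity)

theorem int_w_hi (hq : Continuous q) {r a : ℝ} (hr : 0 ≤ r) (h : ∀ s ∈ Icc 0 r, ‖q s‖ ≤ a) :
    ∫ s in (0:ℝ)..r, CCore.w q s ≤ a ^ 2 * (r ^ 12 / 12) := by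
  have h1 : ∫ s in (0:ℝ)..r, CCore.w q s ≤ ∫ s in (0:ℝ)..r, a ^ 2 * s ^ 11 := by
    refine intervalIntegral.integral_mono_on hr ((w_continuous hq).intervalIntegrable _ _)
      ((by fun_prop : Continuous fun s : ℝ => a ^ 2 * s ^ 11).intervalIntegrable _ _) ?_
    intro s hs
    exact w_hi hs.1 (h s hs)
  refine h1.trans (le_of_eq ?_)
  rw [intervalIntegral.integral_const_mul, integral_pow]
  norm_num

theorem int_w_lo (hq : Continuous q) {r a : ℝ} (hr : 0 ≤ r) (ha : 0 ≤ a)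
    (h : ∀ s ∈ Icc 0 r, a ≤ ‖q s‖) :
    a ^ 2 * (r ^ 12 / 12) ≤ ∫ s in (0:ℝ)..r, CCore.w q s := by
  have h1 : ∫ s in (0:ℝ)..r, a ^ 2 * s ^ 11 ≤ ∫ s in (0:ℝ)..r, CCore.w q s := by
    refine intervalIntegral.integral_mono_on hr
      ((by fun_prop : Continuous fun s : ℝ => a ^ 2 * s ^ 11).intervalIntegrable _ _)
      ((w_continuous hq).intervalIntegrable _ _) ?_
    intro s hs
    exact w_lo hs.1 ha (h s hs)
  refine le_trans (le_of_eq ?_) h1
  rw [intervalIntegral.integral_const_mul, integral_pow]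
  norm_num

/-- `m ≤ (a/c)² r` when `|q| ≤ a` on `[0,r]` and `c ≤ |q r|` -/
theorem mq_hi (hq : Continuous q) {r a c : ℝ} (hr : 0 < r) (hc : 0 < c)
    (h : ∀ s ∈ Icc 0 r, ‖q s‖ ≤ a) (h2 : c ≤ ‖q r‖) : mq q r ≤ (a ^ 2 / c ^ 2) * r := by
  have h0 : q r ≠ 0 := by rw [← norm_pos_iff]; linarith
  have hw := w_pos hr h0
  unfold mq
  rw [div_le_iff₀ hw]
  have h3 := int_w_hi hq hr.le h
  have h4 := w_lo hr.le hc.le h2
  have h5 : (a ^ 2 / c ^ 2) * r * (c ^ 2 * r ^ 11) ≤ (a ^ 2 / c ^ 2) * r * CCore.w q r :=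
    mul_le_mul_of_nonneg_left h4 (by positivity)
  have h6 : (a ^ 2 / c ^ 2) * r * (c ^ 2 * r ^ 11) = a ^ 2 * r ^ 12 := by
    field_simp
  rw [h6] at h5
  linarith

theorem mq_lo (hq : Continuous q) {r a c : ℝ} (hr : 0 < r) (hc : 0 ≤ c) (ha : 0 < a)
    (h : ∀ s ∈ Icc 0 r, c ≤ ‖q s‖) (h0 : q r ≠ 0) (h2 : ‖q r‖ ≤ a) : (c ^ 2 / a ^ 2) * r ≤ mq q r := by
  have hw := w_pos hr h0
  unfold mq
  rw [le_div_iff₀ hw]
  have h3 := int_w_lo hq hr.le hc h
  have h4 := w_hi hr.le h2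
  have h5 : (c ^ 2 / a ^ 2) * r * CCore.w q r ≤ (c ^ 2 / a ^ 2) * r * (a ^ 2 * r ^ 11) :=
    mul_le_mul_of_nonneg_left h4 (by positivity)
  have h6 : (c ^ 2 / a ^ 2) * r * (a ^ 2 * r ^ 11) = c ^ 2 * r ^ 12 := by
    field_simp
  rw [h6] at h5
  linarith

theorem mq_der (hq : ContDiff ℝ ∞ q) {r : ℝ} (hr : 0 < r) (h0 : q r ≠ 0) :
    HasDerivAt (mq q) (12 - mq q r * (11 / r + 2 * CCore.rho q (deriv q) r)) r := by
  have hqd : HasDerivAt q (deriv q r) r := (hq.differentiable (by norm_num) r).hasDerivAt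
  have hwc := w_continuous hq.continuous
  have h1 := (intervalIntegral.integral_hasDerivAt_right (hwc.intervalIntegrable 0 r)
    (hwc.stronglyMeasurableAtFilter _ _) hwc.continuousAt).const_mul 12
  have h2 := CCore.hasDerivAt_w (Q1 := deriv q) hqd hr.ne' h0
  have hw := w_pos hr h0
  have h3 := h1.div h2 hw.ne'
  refine h3.congr_deriv ?_
  unfold mq
  field_simp

theorem rho_abs_le {r C : ℝ} (h0 : q r ≠ 0) (h : ‖deriv q r‖ ≤ C * r * ‖q r‖) :
    |CCore.rho q (deriv q) r| ≤ C * r ∧ |(deriv q r / q r).im| ≤ C * r := by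
  have hn : ‖deriv q r / q r‖ ≤ C * r := by
    rw [norm_div, div_le_iff₀ (norm_pos_iff.mpr h0)]
    exact h
  exact ⟨(Complex.abs_re_le_norm _).trans hn, (Complex.abs_im_le_norm _).trans hn⟩

/-- `Coef` from pointwise facts on `(0, 3.9]`. -/
theorem coef_aux (hq : ContDiff ℝ ∞ q) {N : ℕ} (hN : 1 ≤ N) {C Cp e : ℝ} (hC : 1 ≤ C) (hCp : 1 ≤ Cp)
    (he : 0 ≤ e) (hlo : ∀ r ∈ Icc (0:ℝ) (39/10), 1 / 2 ≤ ‖q r‖)
    (hhi : ∀ r ∈ Icc (0:ℝ) (39/10), ‖q r‖ ≤ 2)
    (hder : ∀ r ∈ Icc (0:ℝ) (39/10), ‖deriv q r‖ ≤ C * r * ‖q r‖)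
    (hP : ∀ r ∈ Icc (0:ℝ) (39/10), ‖q r‖ ^ N ≤ Cp)
    (hP1 : ∀ r ∈ Ioc (0:ℝ) (39/10), (N : ℝ) * P1q q N r ≤ e * (N * ‖q r‖ ^ N) + e)
    (hm : ∀ r ∈ Ioc (0:ℝ) (39/10), 1 / 100 ≤ 12 - mq q r * (11 / r + 2 * CCore.rho q (deriv q) r))
    {rb : ℝ} (hrb : rb ∈ Icc (1:ℝ) (39/10)) :
    CEx.Coef (CCore.w q) (CCore.b q (deriv q)) (fun r => ‖q r‖ ^ N) (P1q q N)
      (CCore.rho q (deriv q)) (mq q) (100 + 500 * C + Cp) e N rb := by
  have hne : ∀ r ∈ Ioc 0 rb, q r ≠ 0 := by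
    intro r hr
    rw [← norm_pos_iff]
    have := hlo r ⟨hr.1.le, hr.2.trans hrb.2⟩
    linarith
  have hmem : ∀ r ∈ Ioc 0 rb, r ∈ Icc (0:ℝ) (39/10) := fun r hr => ⟨hr.1.le, hr.2.trans hrb.2⟩
  have hmem' : ∀ r ∈ Ioc 0 rb, r ∈ Ioc (0:ℝ) (39/10) := fun r hr => ⟨hr.1, hr.2.trans hrb.2⟩
  have hC0 : (100:ℝ) ≤ 100 + 500 * C + Cp := by linarith
  have hqc : Continuous q := hq.continuous
  have hdc : Continuous (deriv q) := (hq.of_le (by norm_num : (1 : WithTop ℕ∞) ≤ ∞)).continuous_deriv (by norm_num)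
  have hquoc : ContinuousOn (fun r => deriv q r / q r) (Ioc 0 rb) :=
    hdc.continuousOn.div hqc.continuousOn hne
  have hrhoc : ContinuousOn (CCore.rho q (deriv q)) (Ioc 0 rb) := by
    unfold CCore.rho
    exact Complex.continuous_re.comp_continuousOn hquoc
  have hNr : (1:ℝ) ≤ N := by exact_mod_cast hN
  have hr39 : ∀ r ∈ Ioc 0 rb, r ≤ 39/10 := fun r hr => hr.2.trans hrb.2
  have hmhi : ∀ r ∈ Ioc 0 rb, mq q r ≤ 16 * r := by
    intro r hr
    have := mq_hi (c := 1/2) (a := 2) hqc hr.1 (by norm_num)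
      (fun s hs => hhi s ⟨hs.1, hs.2.trans (hr39 r hr)⟩) (hlo r (hmem r hr))
    norm_num at this
    exact this
  have hmlo : ∀ r ∈ Ioc 0 rb, r / 16 ≤ mq q r := by
    intro r hr
    have := mq_lo (c := 1/2) (a := 2) hqc hr.1 (by norm_num) (by norm_num)
      (fun s hs => hlo s ⟨hs.1, hs.2.trans (hr39 r hr)⟩) (hne r hr) (hhi r (hmem r hr))
    norm_num at this
    linarith
  have hrho : ∀ r ∈ Ioc 0 rb, |CCore.rho q (deriv q) r| ≤ C * r ∧ |(deriv q r / q r).im| ≤ C * r :=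
    fun r hr => rho_abs_le (hne r hr) (hder r (hmem r hr))
  refine
  { C0_one := by linarith
    n_one := hNr
    e_nonneg := he
    rb_lo := hrb.1
    rb_hi := by linarith [hrb.2]
    wlo := ?_
    whi := ?_
    wcont := (w_continuous hqc).continuousOn
    bhi := ?_
    bcont := ?_
    rhohi := ?_
    rhocont := hrhoc
    P_nonneg := fun r _ => by positivity
    P_le := fun r hr => (hP r (hmem r hr)).trans (by linarith)
    P_der := ?_
    P1_cont := ?_
    P1_bd := ?_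
    P1_le := fun r hr => hP1 r (hmem' r hr)
    m_der := fun r hr => mq_der hq hr.1 (hne r hr)
    m_lo := ?_
    m_hi := ?_
    m1_lo := ?_
    m1_hi := ?_ }
  · intro r hr
    have h1 := w_lo (q := q) (a := 1/2) hr.1.le (by norm_num) (hlo r (hmem r hr))
    have h2 : r ^ 11 / (100 + 500 * C + Cp) ≤ (1/2) ^ 2 * r ^ 11 := by
      rw [div_le_iff₀ (by linarith)]
      have : 0 ≤ r ^ 11 := by have := hr.1; positivity
      nlinarith
    exact h2.trans h1
  · intro r hr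
    have h1 := w_hi (q := q) (a := 2) hr.1.le (hhi r (hmem r hr))
    refine h1.trans ?_
    have : 0 ≤ r ^ 11 := by have := hr.1; positivity
    nlinarith
  · intro r hr
    unfold CCore.b
    have h1 := (hrho r hr).2
    have hr0 := hr.1
    calc |2 * (deriv q r / q r).im + r / 2| ≤ |2 * (deriv q r / q r).im| + |r / 2| := abs_add_le _ _
      _ = 2 * |(deriv q r / q r).im| + r / 2 := by
          rw [abs_mul, abs_of_pos (show (0:ℝ) < 2 by norm_num), abs_of_pos (show 0 < r / 2 by positivity)]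
      _ ≤ 2 * (C * r) + r / 2 := by linarith
      _ ≤ _ := by nlinarith
  · unfold CCore.b
    refine ContinuousOn.add (continuousOn_const.mul (Complex.continuous_im.comp_continuousOn hquoc)) ?_
    fun_prop
  · intro r hr
    refine (hrho r hr).1.trans ?_
    have h1 : C * r ≤ C * (39/10) := mul_le_mul_of_nonneg_left (hr39 r hr) (by linarith)
    linarith
  · intro r hr
    have hqd : HasDerivAt q (deriv q r) r := (hq.differentiable (by norm_num) r).hasDerivAt
    have h0 := hne r hr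
    have hn0 : ‖q r‖ ≠ 0 := norm_ne_zero_iff.mpr h0
    -- derivative of the norm
    have h1 : HasDerivAt (fun x => ‖q x‖ ^ 2) (2 * (deriv q r * (starRingEnd ℂ) (q r)).re) r :=
      CCore.hasDerivAt_normSq (Q1 := deriv q) hqd
    have h2 : HasDerivAt (fun x => ‖q x‖) (CCore.rho q (deriv q) r * ‖q r‖) r := by
      have h3 := h1.sqrt (by positivity)
      have h4 : (fun x => Real.sqrt (‖q x‖ ^ 2)) = fun x => ‖q x‖ := by
        funext x; exact Real.sqrt_sq (norm_nonneg _)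
      rw [h4] at h3
      refine h3.congr_deriv ?_
      rw [Real.sqrt_sq (norm_nonneg _)]
      have h5 : (deriv q r * (starRingEnd ℂ) (q r)).re = ‖q r‖ ^ 2 * CCore.rho q (deriv q) r := by
        unfold CCore.rho
        rw [← Complex.normSq_eq_norm_sq]
        have hn : Complex.normSq (q r) ≠ 0 := by simpa [Complex.normSq_eq_zero] using h0
        rw [Complex.div_re]
        simp only [Complex.mul_re, Complex.conj_re, Complex.conj_im]
        field_simp
        ring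
      rw [h5]
      field_simp
    have h6 := h2.fun_pow N
    refine h6.congr_deriv ?_
    unfold P1q
    have h7 : ‖q r‖ ^ N = ‖q r‖ ^ (N - 1) * ‖q r‖ := by
      rw [← pow_succ]; congr 1; omega
    rw [h7]
    ring
  · unfold P1q
    exact (continuousOn_const.mul hrhoc).mul (by fun_prop)
  · refine ⟨N * (C * (39/10)) * Cp, fun r hr => ?_⟩
    unfold P1q
    have hr0 := hr.1
    have hc : C * r ≤ C * (39/10) := mul_le_mul_of_nonneg_left (hr39 r hr) (by linarith)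
    have hc0 : 0 ≤ C * (39/10) := by linarith
    rw [abs_mul, abs_mul, abs_of_nonneg (show (0:ℝ) ≤ N by linarith),
      abs_of_nonneg (show 0 ≤ ‖q r‖ ^ N by positivity)]
    refine mul_le_mul (mul_le_mul_of_nonneg_left ((hrho r hr).1.trans hc) (by linarith))
      (hP r (hmem r hr)) (by positivity) (mul_nonneg (by linarith) hc0)
  · intro r hr
    refine le_trans ?_ (hmlo r hr)
    have hr0 := hr.1
    rw [div_le_div_iff₀ (by linarith) (by norm_num)]
    nlinarith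
  · intro r hr
    refine (hmhi r hr).trans ?_
    have hr0 := hr.1
    nlinarith
  · intro r hr
    refine le_trans ?_ (hm r (hmem' r hr))
    rw [div_le_div_iff₀ (by linarith) (by norm_num)]
    linarith
  · intro r hr
    have hr0 := hr.1
    have h1 := hmlo r hr
    have h2 := hmhi r hr
    have hm0 : 0 ≤ mq q r := le_trans (by positivity) h1
    have h3 := (abs_le.mp (hrho r hr).1).1
    have h4 : 0 ≤ mq q r * (11 / r) := mul_nonneg hm0 (by positivity)
    have h5 : -(mq q r * (C * r)) ≤ mq q r * CCore.rho q (deriv q) r := by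
      have := mul_le_mul_of_nonneg_left h3 hm0
      linarith
    have h6 : mq q r * (C * r) ≤ (16 * r) * (C * r) := mul_le_mul_of_nonneg_right h2 (by positivity)
    have h7 : r * r ≤ 39/10 * (39/10) := mul_le_mul (hr39 r hr) (hr39 r hr) hr0.le (by norm_num)
    have h8 : (16 * r) * (C * r) ≤ 16 * C * (39/10 * (39/10)) := by
      have : (16 * r) * (C * r) = 16 * C * (r * r) := by ring
      rw [this]
      exact mul_le_mul_of_nonneg_left h7 (by linarith)
    have e1 : 12 - mq q r * (11 / r + 2 * CCore.rho q (deriv q) r)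
        = 12 - mq q r * (11 / r) - 2 * (mq q r * CCore.rho q (deriv q) r) := by ring
    rw [e1]
    nlinarith

/-- lower bound for `m'` -/
theorem m1_lo_aux (hq : Continuous q) {r : ℝ} (hr : r ∈ Ioc (0:ℝ) (39/10))
    (hhi : ∀ s ∈ Icc (0:ℝ) (39/10), ‖q s‖ ≤ 10001/10000)
    (hlo : 9599/10000 ≤ ‖q r‖)
    (hrho : CCore.rho q (deriv q) r ≤ 1/10000) :
    1 / 100 ≤ 12 - mq q r * (11 / r + 2 * CCore.rho q (deriv q) r) := by
  have h0 : q r ≠ 0 := by rw [← norm_pos_iff]; linarith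
  have hm := mq_hi (a := 10001/10000) (c := 9599/10000) hq hr.1 (by norm_num)
    (fun s hs => hhi s ⟨hs.1, hs.2.trans hr.2⟩) hlo
  have hw := w_pos hr.1 h0
  have hm0 : 0 ≤ mq q r := by
    unfold mq
    refine div_nonneg (mul_nonneg (by norm_num) ?_) hw.le
    refine intervalIntegral.integral_nonneg hr.1.le (fun s hs => ?_)
    unfold CCore.w
    have := hs.1
    positivity
  have hr0 := hr.1
  have h1 : mq q r * (11 / r + 2 * CCore.rho q (deriv q) r) ≤ mq q r * (11 / r + 2 * (1/10000)) :=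
    mul_le_mul_of_nonneg_left (by linarith) hm0
  have h2 : mq q r * (11 / r + 2 * (1/10000)) ≤
      ((10001/10000) ^ 2 / (9599/10000) ^ 2 * r) * (11 / r + 2 * (1/10000)) :=
    mul_le_mul_of_nonneg_right hm (by positivity)
  have h3 : ((10001/10000 : ℝ) ^ 2 / (9599/10000) ^ 2 * r) * (11 / r + 2 * (1/10000))
      = (10001/10000 : ℝ) ^ 2 / (9599/10000) ^ 2 * (11 + r * (2 * (1/10000))) := by
    field_simp
  rw [h3] at h2
  have h4 : (10001/10000 : ℝ) ^ 2 / (9599/10000) ^ 2 * (11 + r * (2 * (1/10000)))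
      ≤ (10001/10000 : ℝ) ^ 2 / (9599/10000) ^ 2 * (11 + (39/10) * (2 * (1/10000))) := by
    refine mul_le_mul_of_nonneg_left ?_ (by norm_num)
    have := hr.2
    linarith
  have h5 : (10001/10000 : ℝ) ^ 2 / (9599/10000) ^ 2 * (11 + (39/10) * (2 * (1/10000))) ≤ 1199 / 100 := by
    norm_num
  linarith

end aux

/-- `n² e^{-cn} → 0` -/
theorem n_sq_exp {c : ℝ} (hc : 0 < c) {nn : ℕ → ℕ} (hn : Tendsto nn atTop atTop) {e : ℝ} (he : 0 < e) :
    ∀ᶠ j in atTop, ((nn j : ℝ)) ^ 2 * Real.exp (-c * nn j) ≤ e := by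
  have h1 : Tendsto (fun x : ℝ => x ^ 2 * Real.exp (-c * x)) atTop (𝓝 0) := by
    have := Real.tendsto_pow_mul_exp_neg_atTop_nhds_zero 2
    have h2 := (this.comp (tendsto_id.const_mul_atTop hc)).const_mul ((c ^ 2)⁻¹)
    rw [mul_zero] at h2
    refine h2.congr (fun x => ?_)
    simp only [Function.comp, id]
    have : c ≠ 0 := hc.ne'
    field_simp
  have h2 : Tendsto (fun j => (nn j : ℝ)) atTop atTop := tendsto_natCast_atTop_atTop.comp hn
  have h3 := (h1.comp h2).eventually (Iio_mem_nhds he)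
  filter_upwards [h3] with j hj
  exact le_of_lt hj

/-- **(CV)**: the coefficient bounds for the profiles of `BData`. -/
theorem coef {om0 R : ℝ} {U : ℝ → ℂ} (hU : LimitProfile om0 R U) (B : BData om0 R U) :
    ∃ C0 : ℝ, 1 ≤ C0 ∧ ∀ e : ℝ, 0 < e → ∀ᶠ j in atTop, ∀ rb ∈ Icc (1:ℝ) (39/10),
      CEx.Coef (CCore.w (B.P j).q) (CCore.b (B.P j).q (deriv (B.P j).q))
        (fun r => ‖(B.P j).q r‖ ^ (B.nn j)) (P1q (B.P j).q (B.nn j))
        (CCore.rho (B.P j).q (deriv (B.P j).q)) (mq (B.P j).q) C0 e (B.nn j) rb := by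
  obtain ⟨C1, hC1⟩ := B.q_der
  obtain ⟨Cp1, hCp1⟩ := B.pow_le
  obtain ⟨del0, hdel0, hlog⟩ := B.logder
  obtain ⟨c, hc, htail⟩ := B.pow_tail (R + del0) (by linarith)
  set C : ℝ := max C1 1 with hCdef
  set Cp : ℝ := max Cp1 1 with hCpdef
  have hC : 1 ≤ C := le_max_right _ _
  have hCp : 1 ≤ Cp := le_max_right _ _
  refine ⟨100 + 500 * C + Cp, by linarith, fun e he => ?_⟩
  set eta : ℝ := 1 / (200000 * (8 * C + 1)) with heta
  have heta0 : 0 < eta := by rw [heta]; positivity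
  have heta1 : eta ≤ 1 / 10000 := by
    rw [heta]
    refine one_div_le_one_div_of_le (by norm_num) ?_
    nlinarith
  have hR1 : (1:ℝ) ≤ R := by have := hU.R_lo; linarith
  filter_upwards [hC1, hCp1, hlog e he, htail, B.q_lower, B.conv eta heta0, n_sq_exp hc B.nn_tendsto he,
    B.nn_tendsto.eventually_ge_atTop 1] with j h1 h2 h3 h4 h5 h6 h7 h8 rb hrb
  set q := (B.P j).q with hqdef
  have hq : ContDiff ℝ ∞ q := SH.q_contDiff (B.P j)
  have hsub : ∀ r ∈ Icc (0:ℝ) (39/10), r ∈ Icc (0:ℝ) 8 := fun r hr => ⟨hr.1, by linarith [hr.2]⟩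
  have hlo : ∀ r ∈ Icc (0:ℝ) (39/10), 1 / 2 ≤ ‖q r‖ := fun r hr => h5 r (hsub r hr)
  have hhi' : ∀ r ∈ Icc (0:ℝ) (39/10), ‖q r‖ ≤ 10001/10000 := by
    intro r hr
    have e1 := (h6 r (hsub r hr)).1
    have e2 := norm_U_le_one hU r
    have e3 := norm_add_le (U r) (q r - U r)
    rw [add_sub_cancel] at e3
    linarith
  have hlo' : ∀ r ∈ Icc (0:ℝ) (39/10), 9599/10000 ≤ ‖q r‖ := by
    intro r hr
    have e1 := (h6 r (hsub r hr)).1
    have e2 := norm_U_ge hU hr.2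
    have e3 := norm_add_le (q r) (U r - q r)
    rw [add_sub_cancel, norm_sub_rev] at e3
    linarith
  have hder : ∀ r ∈ Icc (0:ℝ) (39/10), ‖deriv q r‖ ≤ C * r * ‖q r‖ := by
    intro r hr
    refine (h1 r hr.1).1.trans ?_
    refine mul_le_mul_of_nonneg_right ?_ (norm_nonneg _)
    have e1 : r / (1 + r ^ 2) ≤ r := div_le_self hr.1 (by nlinarith [hr.1])
    calc C1 * (r / (1 + r ^ 2)) ≤ C * (r / (1 + r ^ 2)) :=
          mul_le_mul_of_nonneg_right (le_max_left _ _) (div_nonneg hr.1 (by positivity))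
      _ ≤ C * r := mul_le_mul_of_nonneg_left e1 (by linarith)
  have hrho : ∀ r ∈ Icc (0:ℝ) (39/10), CCore.rho q (deriv q) r ≤ 1/10000 := by
    intro r hr
    have hn : 1/2 ≤ ‖q r‖ := hlo r hr
    have h0 : q r ≠ 0 := by rw [← norm_pos_iff]; linarith
    have hns : 0 < Complex.normSq (q r) := Complex.normSq_pos.mpr h0
    have e0 : CCore.rho q (deriv q) r = ((starRingEnd ℂ) (q r) * deriv q r).re / Complex.normSq (q r) := by
      unfold CCore.rho
      rw [Complex.div_re]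
      simp only [Complex.mul_re, Complex.conj_re, Complex.conj_im]
      field_simp
      ring
    have e1 : ((starRingEnd ℂ) (q r) * deriv q r).re ≤ eta * (8 * C + 1) := by
      have f1 : (starRingEnd ℂ) (q r) * deriv q r = (starRingEnd ℂ) (U r) * deriv U r
          + ((starRingEnd ℂ) (q r - U r) * deriv q r + (starRingEnd ℂ) (U r) * (deriv q r - deriv U r)) := by
        rw [map_sub]; ring
      rw [f1, Complex.add_re]
      have f2 := re_U_dU hU r
      have f3 : ((starRingEnd ℂ) (q r - U r) * deriv q r + (starRingEnd ℂ) (U r) * (deriv q r - deriv U r)).re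
          ≤ eta * (8 * C + 1) := by
        refine (Complex.re_le_norm _).trans ((norm_add_le _ _).trans ?_)
        rw [norm_mul, norm_mul, RCLike.norm_conj, RCLike.norm_conj]
        have g1 := (h6 r (hsub r hr)).1
        have g2 := (h6 r (hsub r hr)).2
        have g3 := norm_U_le_one hU r
        have g4 : ‖deriv q r‖ ≤ 8 * C := by
          refine (hder r hr).trans ?_
          calc C * r * ‖q r‖ ≤ C * (39/10) * (10001/10000) :=
                mul_le_mul (mul_le_mul_of_nonneg_left hr.2 (by linarith)) (hhi' r hr) (norm_nonneg _)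
                  (by linarith)
            _ ≤ 8 * C := by linarith
        calc ‖q r - U r‖ * ‖deriv q r‖ + ‖U r‖ * ‖deriv q r - deriv U r‖
            ≤ eta * (8 * C) + 1 * eta :=
              add_le_add (mul_le_mul g1 g4 (norm_nonneg _) heta0.le)
                (mul_le_mul g3 g2 (norm_nonneg _) zero_le_one)
          _ = _ := by ring
      linarith
    have e2 : eta * (8 * C + 1) = 1 / 200000 := by
      rw [heta]
      have : (8 * C + 1) ≠ 0 := by positivity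
      field_simp
    have e3 : (1/4 : ℝ) ≤ Complex.normSq (q r) := by
      rw [Complex.normSq_eq_norm_sq]
      nlinarith
    rw [e0, div_le_iff₀ hns]
    rw [e2] at e1
    nlinarith
  refine coef_aux hq h8 hC hCp he.le hlo (fun r hr => (hhi' r hr).trans (by norm_num)) hder
    (fun r hr => (h2 r hr.1).trans (le_max_left _ _)) ?_ ?_ hrb
  · intro r hr
    have hN1 : (1:ℝ) ≤ (B.nn j : ℝ) := by exact_mod_cast h8
    have hPn : 0 ≤ ‖q r‖ ^ (B.nn j) := by positivity
    unfold P1q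
    rcases le_or_gt r (R + del0) with hc' | hc'
    · have f1 : (B.nn j : ℝ) * CCore.rho q (deriv q) r ≤ e := h3 r ⟨hr.1.le, hc'⟩
      have f2 : ((B.nn j : ℝ) * CCore.rho q (deriv q) r) * ((B.nn j : ℝ) * ‖q r‖ ^ (B.nn j))
          ≤ e * ((B.nn j : ℝ) * ‖q r‖ ^ (B.nn j)) :=
        mul_le_mul_of_nonneg_right f1 (by positivity)
      calc (B.nn j : ℝ) * ((B.nn j : ℝ) * CCore.rho q (deriv q) r * ‖q r‖ ^ (B.nn j))
          = ((B.nn j : ℝ) * CCore.rho q (deriv q) r) * ((B.nn j : ℝ) * ‖q r‖ ^ (B.nn j)) := by ring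
        _ ≤ e * ((B.nn j : ℝ) * ‖q r‖ ^ (B.nn j)) := f2
        _ ≤ _ := by linarith
    · have f1 := hrho r ⟨hr.1.le, hr.2⟩
      have f2 := h4 r hc'.le
      have f3 : (1:ℝ) ≤ r ^ 2 := by nlinarith
      have f4 : ‖q r‖ ^ (B.nn j) ≤ Real.exp (-c * B.nn j) :=
        f2.trans (div_le_self (Real.exp_pos _).le f3)
      have f5 : (B.nn j : ℝ) * ((B.nn j : ℝ) * CCore.rho q (deriv q) r * ‖q r‖ ^ (B.nn j))
          ≤ (B.nn j : ℝ) ^ 2 * Real.exp (-c * B.nn j) := by
        have g1 : CCore.rho q (deriv q) r * ‖q r‖ ^ (B.nn j) ≤ 1 * Real.exp (-c * B.nn j) := by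
          calc CCore.rho q (deriv q) r * ‖q r‖ ^ (B.nn j) ≤ 1 * ‖q r‖ ^ (B.nn j) :=
                mul_le_mul_of_nonneg_right (f1.trans (by norm_num)) hPn
            _ ≤ 1 * Real.exp (-c * B.nn j) := mul_le_mul_of_nonneg_left f4 zero_le_one
        calc (B.nn j : ℝ) * ((B.nn j : ℝ) * CCore.rho q (deriv q) r * ‖q r‖ ^ (B.nn j))
            = (B.nn j : ℝ) ^ 2 * (CCore.rho q (deriv q) r * ‖q r‖ ^ (B.nn j)) := by ring
          _ ≤ (B.nn j : ℝ) ^ 2 * (1 * Real.exp (-c * B.nn j)) :=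
              mul_le_mul_of_nonneg_left g1 (by positivity)
          _ = _ := by ring
      have f6 : 0 ≤ e * ((B.nn j : ℝ) * ‖q r‖ ^ (B.nn j)) := by positivity
      linarith
  · intro r hr
    exact m1_lo_aux hq.continuous hr hhi' (hlo' r ⟨hr.1.le, hr.2⟩) (hrho r ⟨hr.1.le, hr.2⟩)

end Crest.Agent.R086.CV
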