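import Crest.Agent.R086.CExId

/-!
Row 86 (S0114), Part C, regime (R3): `CEx.CaseII` (both channels evanescent) from the energy
identities (E1) + (E2) (helper868; plan of helper777).
-/

set_option autoImplicit false

open Complex MeasureTheory Set Filter Topology

namespace Crest.Agent.R086.CEx

open Crest.Agent.R086.CCore (BC SysOn)

local notation "conj" => starRingEnd ℂ

section Est

variable {w : ℝ → ℝ} {R : ℝ}

theorem L2_nonneg {f : ℝ → ℂ} (hR : 0 < R) (hw : ∀ r ∈ Ioc 0 R, 0 ≤ w r) : 0 ≤ L2 w f R := by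
  unfold L2
  rw [intervalIntegral.integral_of_le hR.le]
  refine setIntegral_nonneg measurableSet_Ioc fun r hr => ?_
  exact mul_nonneg (hw r hr) (by positivity)

/-- `Λ ∫ w|f|² + R² ∫ w|f'|² ≤ R² K_f` -/
theorem L2_le_KK {f f1 : ℝ → ℂ} {Lam : ℝ} (hR : 0 < R) (hL : 0 ≤ Lam)
    (hw : ∀ r ∈ Ioc 0 R, 0 ≤ w r) (bw : BC R w) (bw2 : BC R (fun r => w r / r ^ 2))
    (bf : BC R f) (bf1 : BC R f1) :
    Lam * L2 w f R + R ^ 2 * L2 w f1 R ≤ R ^ 2 * KK w Lam f f1 R := by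
  have i1 : IntervalIntegrable (fun r => w r * ‖f r‖ ^ 2) volume 0 R :=
    (bw.mulR bf.normSq).intble hR
  have i2 : IntervalIntegrable (fun r => w r * ‖f1 r‖ ^ 2) volume 0 R :=
    (bw.mulR bf1.normSq).intble hR
  have i3 : IntervalIntegrable (fun r => w r * (‖f1 r‖ ^ 2 + Lam / r ^ 2 * ‖f r‖ ^ 2)) volume 0 R :=
    (SysOn.bcK bw bw2 bf bf1 Lam).intble hR
  unfold L2 KK
  rw [← intervalIntegral.integral_const_mul, ← intervalIntegral.integral_const_mul,
    ← intervalIntegral.integral_const_mul,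
    ← intervalIntegral.integral_add (i1.const_mul _) (i2.const_mul _)]
  refine intervalIntegral.integral_mono_on_of_le_Ioo hR.le
    ((i1.const_mul _).add (i2.const_mul _)) (i3.const_mul _) fun r hr => ?_
  have hr0 := hr.1
  have hw0 := hw r ⟨hr.1, hr.2.le⟩
  have h1 : 1 ≤ R ^ 2 / r ^ 2 := by
    rw [one_le_div (by positivity)]
    exact pow_le_pow_left₀ hr0.le hr.2.le 2
  have h2 : 0 ≤ Lam * (w r * ‖f r‖ ^ 2) := by positivity
  have h3 := mul_le_mul_of_nonneg_right h1 h2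
  have e : R ^ 2 * (w r * (‖f1 r‖ ^ 2 + Lam / r ^ 2 * ‖f r‖ ^ 2)) =
      R ^ 2 / r ^ 2 * (Lam * (w r * ‖f r‖ ^ 2)) + R ^ 2 * (w r * ‖f1 r‖ ^ 2) := by
    field_simp
    ring
  rw [e]
  linarith

/-- Young's form of Cauchy–Schwarz -/
theorem young {g : ℝ → ℝ} {f h : ℝ → ℂ} {G t : ℝ} (hR : 0 < R)
    (hw : ∀ r ∈ Ioc 0 R, 0 ≤ w r) (bw : BC R w) (bg : BC R g) (bf : BC R f) (bh : BC R h)
    (hG : ∀ r ∈ Ioc 0 R, |g r| ≤ G) (ht : 0 < t) :
    ‖∫ r in (0 : ℝ)..R, ((w r * g r : ℝ) : ℂ) * (conj (f r) * h r)‖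
      ≤ G / 2 * (t * L2 w f R + t⁻¹ * L2 w h R) := by
  have i1 : IntervalIntegrable (fun r => w r * ‖f r‖ ^ 2) volume 0 R :=
    (bw.mulR bf.normSq).intble hR
  have i2 : IntervalIntegrable (fun r => w r * ‖h r‖ ^ 2) volume 0 R :=
    (bw.mulR bh.normSq).intble hR
  have i3 : IntervalIntegrable (fun r => ((w r * g r : ℝ) : ℂ) * (conj (f r) * h r)) volume 0 R :=
    ((bw.mulR bg).ofReal.mulC (bf.cj.mulC bh)).intble hR
  refine (intervalIntegral.norm_integral_le_integral_norm hR.le).trans ?_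
  unfold L2
  rw [← intervalIntegral.integral_const_mul, ← intervalIntegral.integral_const_mul,
    ← intervalIntegral.integral_add (i1.const_mul _) (i2.const_mul _),
    ← intervalIntegral.integral_const_mul]
  refine intervalIntegral.integral_mono_on_of_le_Ioo hR.le i3.norm
    (((i1.const_mul _).add (i2.const_mul _)).const_mul _) fun r hr => ?_
  have hr0 : r ∈ Ioc 0 R := ⟨hr.1, hr.2.le⟩
  have hw0 := hw r hr0
  have hg0 := hG r hr0
  have hG0 : 0 ≤ G := (abs_nonneg _).trans hg0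
  rw [norm_mul, norm_mul, RCLike.norm_conj, Complex.norm_real, Real.norm_eq_abs, abs_mul,
    abs_of_nonneg hw0]
  have hab : ‖f r‖ * ‖h r‖ ≤ (t * ‖f r‖ ^ 2 + t⁻¹ * ‖h r‖ ^ 2) / 2 := by
    have h3 : t⁻¹ * ((t * ‖f r‖ - ‖h r‖) ^ 2)
        = t * ‖f r‖ ^ 2 + t⁻¹ * ‖h r‖ ^ 2 - 2 * (‖f r‖ * ‖h r‖) := by
      field_simp
      ring
    have h4 : 0 ≤ t⁻¹ * ((t * ‖f r‖ - ‖h r‖) ^ 2) := by positivity
    linarith
  calc w r * |g r| * (‖f r‖ * ‖h r‖)
      ≤ w r * G * ((t * ‖f r‖ ^ 2 + t⁻¹ * ‖h r‖ ^ 2) / 2) := by gcongr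
    _ = G / 2 * (t * (w r * ‖f r‖ ^ 2) + t⁻¹ * (w r * ‖h r‖ ^ 2)) := by ring

/-- vanishing of the weighted norm -/
theorem zero_of_L2 {f : ℝ → ℂ} (hR : 0 < R) (hw : ∀ r ∈ Ioc 0 R, 0 < w r) (bw : BC R w)
    (bf : BC R f) (h : L2 w f R ≤ 0) : ∀ r ∈ Ioc 0 R, f r = 0 := by
  intro r hr
  by_contra hne
  have i1 : IntervalIntegrable (fun r => w r * ‖f r‖ ^ 2) volume 0 R :=
    (bw.mulR bf.normSq).intble hR
  have hsub : Icc (r / 2) r ⊆ Ioc 0 R := fun x hx =>
    ⟨lt_of_lt_of_le (half_pos hr.1) hx.1, hx.2.trans hr.2⟩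
  have hw0 : ∀ x ∈ Ioc 0 R, 0 ≤ w x * ‖f x‖ ^ 2 := fun x hx =>
    mul_nonneg (hw x hx).le (by positivity)
  have h1 : 0 < ∫ x in (r / 2)..r, w x * ‖f x‖ ^ 2 := by
    refine intervalIntegral.integral_pos (half_lt_self hr.1)
      ((bw.mulR bf.normSq).1.mono hsub)
      (fun x hx => hw0 x (hsub (Ioc_subset_Icc_self hx))) ⟨r, right_mem_Icc.2 (half_le_self hr.1.le), ?_⟩
    have := hw r hr
    have h2 : 0 < ‖f r‖ := norm_pos_iff.2 hne
    positivity
  have h2 : (∫ x in (r / 2)..r, w x * ‖f x‖ ^ 2) ≤ L2 w f R := by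
    unfold L2
    refine intervalIntegral.integral_mono_interval (half_pos hr.1).le (half_le_self hr.1.le) hr.2
      ?_ i1
    filter_upwards [ae_restrict_mem measurableSet_Ioc] with x hx
    exact hw0 x hx
  linarith

end Est

/-- real part of `conj z · z'` when `z' ≈ α z` -/
theorem re_bd {z z1 al : ℂ} {E : ℝ} (h : ‖z1 - al * z‖ ^ 2 ≤ E) :
    (conj z * z1).re ≤ (al.re + 1) * ‖z‖ ^ 2 + E / 4 := by
  set e := z1 - al * z with he
  have h1 : z1 = al * z + e := by rw [he]; ring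
  have h2 : (conj z * z1).re = al.re * ‖z‖ ^ 2 + (conj z * e).re := by
    rw [h1, mul_add, Complex.add_re]
    congr 1
    have : conj z * (al * z) = al * ((‖z‖ ^ 2 : ℝ) : ℂ) := by
      rw [← CCore.SysOn.cns z]
      ring
    rw [this, Complex.re_mul_ofReal]
  have h3 : (conj z * e).re ≤ ‖z‖ * ‖e‖ := by
    refine (Complex.re_le_norm _).trans ?_
    rw [norm_mul, RCLike.norm_conj]
  have h4 : ‖z‖ * ‖e‖ ≤ ‖z‖ ^ 2 + ‖e‖ ^ 2 / 4 := by nlinarith [sq_nonneg (‖z‖ - ‖e‖ / 2)]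
  rw [h2]
  linarith

theorem two_re (S S1 D D1 : ℂ) :
    2 * (conj S * S1 + conj D * D1).re =
      (conj (S + D) * (S1 + D1)).re + (conj (S - D) * (S1 - D1)).re := by
  simp only [map_add, map_sub, Complex.add_re, Complex.mul_re, Complex.sub_re, Complex.conj_re,
    Complex.conj_im, Complex.add_im, Complex.sub_im]
  ring

/-- the real-number core -/
theorem core {C0 eta s : ℝ} (hC : 1 ≤ C0) (he : 0 < eta) (hs1 : 4 * C0 ^ 3 ≤ eta * s)
    (hs2 : C0 ^ 14 ≤ eta * s ^ 2) (hs0 : 1 ≤ s) {K dl : ℝ} (hdl : dl ≤ 1)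
    (hK : 0 ≤ K)
    (h : K ≤ (1 - eta) * K + C0 ^ 3 / s * K + C0 ^ 14 * dl / (4 * s ^ 2) * K) : K ≤ 0 := by
  have h1 : C0 ^ 3 / s ≤ eta / 4 := by
    rw [div_le_div_iff₀ (by linarith) (by norm_num)]
    linarith
  have h2 : C0 ^ 14 * dl / (4 * s ^ 2) ≤ eta / 4 := by
    have h3 : 0 ≤ C0 ^ 14 := by positivity
    have h4 : C0 ^ 14 * dl ≤ C0 ^ 14 := mul_le_of_le_one_right h3 hdl
    rw [div_le_div_iff₀ (by positivity) (by norm_num)]
    linarith
  have h3 := mul_le_mul_of_nonneg_right h1 hK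
  have h4 := mul_le_mul_of_nonneg_right h2 hK
  have h5 : eta / 2 * K ≤ 0 := by linarith
  by_contra hcon
  push Not at hcon
  have : 0 < eta / 2 * K := by positivity
  linarith

/-- transport term -/
theorem transport {C0 s R x y1 Kx Ky Lam : ℝ} (hC : 1 ≤ C0) (hs : 0 < s) (hR : 0 < R)
    (hRC : R ≤ C0) (hss : s ^ 2 = Lam) (g1 : Lam * x ≤ R ^ 2 * Kx) (hKx : 0 ≤ Kx) (hKy : 0 ≤ Ky)
    (g4 : R ^ 2 * y1 ≤ R ^ 2 * Ky) :
    C0 * R / 2 * (s / R * x + (s / R)⁻¹ * y1) ≤ C0 ^ 3 / s / 2 * (Kx + Ky) := by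
  have hR2 : 0 < R ^ 2 := by positivity
  have g5 : y1 ≤ Ky := le_of_mul_le_mul_left g4 hR2
  have g6 : s / R * x ≤ R / s * Kx := by
    rw [← hss] at g1
    rw [div_mul_eq_mul_div, div_mul_eq_mul_div, div_le_div_iff₀ hR hs]
    nlinarith
  have g7 : (s / R)⁻¹ * y1 ≤ R / s * Ky := by
    rw [inv_div]
    exact mul_le_mul_of_nonneg_left g5 (by positivity)
  have g8 : 0 ≤ Kx + Ky := by positivity
  calc C0 * R / 2 * (s / R * x + (s / R)⁻¹ * y1)
      ≤ C0 * R / 2 * (R / s * Kx + R / s * Ky) := by gcongr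
    _ = C0 * R ^ 2 / s / 2 * (Kx + Ky) := by ring
    _ ≤ C0 * C0 ^ 2 / s / 2 * (Kx + Ky) := by gcongr
    _ = C0 ^ 3 / s / 2 * (Kx + Ky) := by ring

set_option maxHeartbeats 1600000 in
/-- **CASE II** -/
theorem caseII : CaseII := by
  intro C0 eta hC0 heta
  have C0p : 0 < C0 := by linarith
  -- lower bound of `s = √Λ`
  obtain ⟨s0, hs01, hs02, hs03, hs04⟩ : ∃ s0 : ℝ, 1 ≤ s0 ∧ 4 * C0 ^ 3 ≤ eta * s0 ∧
      C0 ^ 14 ≤ eta * s0 ∧ C0 * ((11 + 2 * C0) / 2 + 1) ≤ s0 := by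
    refine ⟨1 + 4 * C0 ^ 3 / eta + C0 ^ 14 / eta + C0 * ((11 + 2 * C0) / 2 + 1), ?_, ?_, ?_, ?_⟩
    · have : 0 ≤ 4 * C0 ^ 3 / eta + C0 ^ 14 / eta + C0 * ((11 + 2 * C0) / 2 + 1) := by positivity
      linarith
    · have e : 4 * C0 ^ 3 = eta * (4 * C0 ^ 3 / eta) := by field_simp
      rw [e]
      refine mul_le_mul_of_nonneg_left ?_ heta.le
      have : 0 ≤ C0 ^ 14 / eta + C0 * ((11 + 2 * C0) / 2 + 1) := by positivity
      have e2 : eta * (4 * C0 ^ 3 / eta) / eta = 4 * C0 ^ 3 / eta := by field_simp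
      rw [e2]
      linarith
    · have e : C0 ^ 14 = eta * (C0 ^ 14 / eta) := by field_simp
      have h1 : C0 ^ 14 / eta ≤ 1 + 4 * C0 ^ 3 / eta + C0 ^ 14 / eta
          + C0 * ((11 + 2 * C0) / 2 + 1) := by
        have : 0 ≤ 4 * C0 ^ 3 / eta + C0 * ((11 + 2 * C0) / 2 + 1) := by positivity
        linarith
      calc C0 ^ 14 = eta * (C0 ^ 14 / eta) := e
        _ ≤ _ := mul_le_mul_of_nonneg_left h1 heta.le
    · have : 0 ≤ 4 * C0 ^ 3 / eta + C0 ^ 14 / eta := by positivity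
      linarith
  refine ⟨s0 ^ 2, 1, by positivity, one_pos, ?_⟩
  intro w b P P1 rho m e n rb Lam eps lam h1 h2 S S1 D D1 dl hc hs hb hre hM hnu hh1 hh2 hdl
  obtain ⟨i1, i2, -, -, -, -⟩ := idStmt w b P P1 rho m C0 e n rb Lam eps lam S S1 D D1 hc hs
  have h := sysOn hc hs
  have hR := h.Rpos
  have hLam : 0 < Lam := lt_of_lt_of_le (by positivity) hM
  set s := Real.sqrt Lam with hsdef
  have hss : s ^ 2 = Lam := Real.sq_sqrt hLam.le
  have hs0s : s0 ≤ s := Real.le_sqrt_of_sq_le hM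
  have hs1 : 1 ≤ s := hs01.trans hs0s
  have hsp : 0 < s := by linarith
  have hw : ∀ r ∈ Ioc 0 rb, 0 < w r := fun r hr => by
    have h1 := hc.wlo r hr
    have h2 : 0 < r ^ 11 / C0 := div_pos (pow_pos hr.1 11) C0p
    linarith
  have hw0 : ∀ r ∈ Ioc 0 rb, 0 ≤ w r := fun r hr => (hw r hr).le
  have hrb : rb ∈ Ioc 0 rb := right_mem_Ioc.2 hR
  have bw := h.bcw
  have bw2 := h.bcwj 2 (by norm_num)
  -- the norms
  have qS := L2_le_KK (Lam := Lam) hR hLam.le hw0 bw bw2 h.bcS h.bcS1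
  have qD := L2_le_KK (Lam := Lam) hR hLam.le hw0 bw bw2 h.bcD h.bcD1
  have nS := L2_nonneg (f := S) hR hw0
  have nD := L2_nonneg (f := D) hR hw0
  have nS1 := L2_nonneg (f := S1) hR hw0
  have nD1 := L2_nonneg (f := D1) hR hw0
  set KS := KK w Lam S S1 rb with hKS
  set KD := KK w Lam D D1 rb with hKD
  set a := L2 w S rb with ha
  set d := L2 w D rb with hd
  set a1 := L2 w S1 rb with ha1
  set d1 := L2 w D1 rb with hd1
  have hR2 : 0 < rb ^ 2 := by positivity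
  have hKS0 : 0 ≤ KS := by
    have : 0 ≤ rb ^ 2 * KS := le_trans (by positivity) qS
    exact nonneg_of_mul_nonneg_right this hR2
  have hKD0 : 0 ≤ KD := by
    have : 0 ≤ rb ^ 2 * KD := le_trans (by positivity) qD
    exact nonneg_of_mul_nonneg_right this hR2
  have hrb2 : rb ^ 2 ≤ C0 ^ 2 := pow_le_pow_left₀ hR.le hc.rb_hi 2
  -- potential energy
  have hPot : 0 ≤ Pot w P n S rb := by
    unfold Pot
    rw [intervalIntegral.integral_of_le hR.le]
    refine setIntegral_nonneg measurableSet_Ioc fun r hr => ?_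
    have h1 := hw0 r hr
    have h2 := hc.P_nonneg r hr
    have h3 := hc.n_one
    positivity
  -- transport terms
  have hbr : ∀ r ∈ Ioc 0 rb, |b r| ≤ C0 * rb := fun r hr =>
    (hc.bhi r hr).trans (mul_le_mul_of_nonneg_left hr.2 C0p.le)
  have ht : 0 < s / rb := div_pos hsp hR
  have gS : Lam * a ≤ rb ^ 2 * KS := by
    have : 0 ≤ rb ^ 2 * a1 := by positivity
    linarith
  have gD : Lam * d ≤ rb ^ 2 * KD := by
    have : 0 ≤ rb ^ 2 * d1 := by positivity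
    linarith
  have gS1 : rb ^ 2 * a1 ≤ rb ^ 2 * KS := by
    have : 0 ≤ Lam * a := by positivity
    linarith
  have gD1 : rb ^ 2 * d1 ≤ rb ^ 2 * KD := by
    have : 0 ≤ Lam * d := by positivity
    linarith
  have A1 : ‖AA w b S D1 rb‖ ≤ C0 ^ 3 / s / 2 * (KS + KD) :=
    (young hR hw0 bw h.bcb h.bcS h.bcD1 hbr ht).trans
      (transport hC0 hsp hR hc.rb_hi hss gS hKS0 hKD0 gD1)
  have A2 : ‖AA w b D S1 rb‖ ≤ C0 ^ 3 / s / 2 * (KD + KS) :=
    (young hR hw0 bw h.bcb h.bcD h.bcS1 hbr ht).trans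
      (transport hC0 hsp hR hc.rb_hi hss gD hKD0 hKS0 gS1)
  -- the term with `lam`
  have hN : |(Nc w S D rb).re| ≤ 1 / 2 * (a + d) := by
    have h1 := young (g := fun _ => (1 : ℝ)) (f := S) (h := D) (G := 1) (t := 1) hR hw0 bw
      (BC.const 1) h.bcS h.bcD (fun r _ => by simp) one_pos
    have h2 : Nc w S D rb =
        ∫ r in (0 : ℝ)..rb, ((w r * (1 : ℝ) : ℝ) : ℂ) * (conj (S r) * D r) := by
      unfold Nc
      simp only [mul_one]
    rw [← h2] at h1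
    refine (Complex.abs_re_le_norm _).trans (h1.trans (le_of_eq ?_))
    rw [inv_one, one_mul, one_mul]
  have hlam : |lam.im * (Nc w S D rb).re| * 2 ≤ (1 - eta) * (KS + KD) := by
    have h1 : |lam.im| * (a + d) * rb ^ 2 ≤ (1 - eta) * (KS + KD) * rb ^ 2 := by
      have e1 : |lam.im| * (a + d) * rb ^ 2 = (|lam.im| * rb ^ 2) * (a + d) := by ring
      have e2 : (|lam.im| * rb ^ 2) * (a + d) ≤ (1 - eta) * Lam * (a + d) :=
        mul_le_mul_of_nonneg_right hnu (by positivity)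
      have e3 : 0 ≤ (1 - eta) := by
        have : 0 ≤ (1 - eta) * Lam := le_trans (by positivity) hnu
        exact nonneg_of_mul_nonneg_left this hLam
      have e4 : (1 - eta) * (Lam * a + Lam * d) ≤ (1 - eta) * (rb ^ 2 * KS + rb ^ 2 * KD) :=
        mul_le_mul_of_nonneg_left (add_le_add gS gD) e3
      rw [e1]
      calc _ ≤ (1 - eta) * Lam * (a + d) := e2
        _ = (1 - eta) * (Lam * a + Lam * d) := by ring
        _ ≤ _ := e4
        _ = _ := by ring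
    have h2 := le_of_mul_le_mul_right h1 hR2
    rw [abs_mul]
    have h3 := mul_le_mul_of_nonneg_left hN (abs_nonneg lam.im)
    linarith
  -- boundary terms
  have hwrb : w rb ≤ C0 ^ 12 := by
    have h1 := hc.whi rb hrb
    have h2 : rb ^ 11 ≤ C0 ^ 11 := pow_le_pow_left₀ hR.le hc.rb_hi 11
    calc w rb ≤ C0 * rb ^ 11 := h1
      _ ≤ C0 * C0 ^ 11 := mul_le_mul_of_nonneg_left h2 C0p.le
      _ = C0 ^ 12 := by ring
  have hwp := hw rb hrb
  have ha0 : |(11 / rb + 2 * rho rb) / 2| ≤ (11 + 2 * C0) / 2 := by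
    have h1 := hc.rhohi rb hrb
    have h2 : 11 / rb ≤ 11 := div_le_self (by norm_num) hc.rb_lo
    have h3 : 0 ≤ 11 / rb := by positivity
    have h4 := abs_le.1 h1
    rw [abs_le]
    constructor <;> linarith [h4.1, h4.2]
  have ha1 := (abs_le.1 ha0).1
  have bF := re_bd hb.relF
  have bG := re_bd hb.relG
  have hsC : s / C0 ≥ (11 + 2 * C0) / 2 + 1 := by
    rw [ge_iff_le, le_div_iff₀ C0p]
    linarith
  have eF : (h1 - (((11 / rb + 2 * rho rb) / 2 : ℝ) : ℂ) - I * ((b rb / 2 : ℝ) : ℂ)).re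
      = h1.re - (11 / rb + 2 * rho rb) / 2 := by
    rw [Complex.sub_re, Complex.sub_re, Complex.ofReal_re, Complex.re_mul_ofReal, Complex.I_re]
    ring
  have eG : (conj h2 - (((11 / rb + 2 * rho rb) / 2 : ℝ) : ℂ) + I * ((b rb / 2 : ℝ) : ℂ)).re
      = h2.re - (11 / rb + 2 * rho rb) / 2 := by
    rw [Complex.add_re, Complex.sub_re, Complex.ofReal_re, Complex.re_mul_ofReal, Complex.I_re,
      Complex.conj_re]
    ring
  rw [eF] at bF
  rw [eG] at bG
  have cF : (conj (S rb + D rb) * (S1 rb + D1 rb)).re ≤ dl * (a + d) / 4 := by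
    have h3 : (h1.re - (11 / rb + 2 * rho rb) / 2 + 1) * ‖S rb + D rb‖ ^ 2 ≤ 0 := by
      refine mul_nonpos_of_nonpos_of_nonneg ?_ (by positivity)
      have : -s / C0 = -(s / C0) := by ring
      linarith
    linarith
  have cG : (conj (S rb - D rb) * (S1 rb - D1 rb)).re ≤ dl * (a + d) / 4 := by
    have h3 : (h2.re - (11 / rb + 2 * rho rb) / 2 + 1) * ‖S rb - D rb‖ ^ 2 ≤ 0 := by
      refine mul_nonpos_of_nonpos_of_nonneg ?_ (by positivity)
      have : -s / C0 = -(s / C0) := by ring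
      linarith
    linarith
  have hBT : w rb * (conj (S rb) * S1 rb).re + w rb * (conj (D rb) * D1 rb).re ≤
      C0 ^ 14 * dl / (4 * s ^ 2) * (KS + KD) := by
    have e1 := two_re (S rb) (S1 rb) (D rb) (D1 rb)
    rw [Complex.add_re] at e1
    have e2 : (conj (S rb) * S1 rb).re + (conj (D rb) * D1 rb).re ≤ dl * (a + d) / 4 := by
      linarith
    have e3 : Lam * (a + d) ≤ C0 ^ 2 * (KS + KD) := by
      have : rb ^ 2 * (KS + KD) ≤ C0 ^ 2 * (KS + KD) :=
        mul_le_mul_of_nonneg_right hrb2 (by positivity)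
      linarith
    have e4 : a + d ≤ C0 ^ 2 * (KS + KD) / s ^ 2 := by
      rw [le_div_iff₀ (by positivity), hss]
      linarith
    have hdl0 := hb.dl_nonneg
    calc _ = w rb * ((conj (S rb) * S1 rb).re + (conj (D rb) * D1 rb).re) := by ring
      _ ≤ w rb * (dl * (a + d) / 4) := mul_le_mul_of_nonneg_left e2 hwp.le
      _ ≤ C0 ^ 12 * (dl * (a + d) / 4) := mul_le_mul_of_nonneg_right hwrb (by positivity)
      _ ≤ C0 ^ 12 * (dl * (C0 ^ 2 * (KS + KD) / s ^ 2) / 4) := by gcongr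
      _ = _ := by ring
  -- conclusion
  have hlam2 : (lam * Nc w S D rb).im + (lam * conj (Nc w S D rb)).im =
      2 * (lam.im * (Nc w S D rb).re) := by
    simp only [Complex.mul_im, Complex.conj_re, Complex.conj_im]
    ring
  have hK : KS + KD ≤ 0 := by
    refine core hC0 heta (s := s) ?_ ?_ hs1 hdl (by positivity) ?_
    · calc 4 * C0 ^ 3 ≤ eta * s0 := hs02
        _ ≤ eta * s := mul_le_mul_of_nonneg_left hs0s heta.le
    · have : s ≤ s ^ 2 := by nlinarith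
      calc C0 ^ 14 ≤ eta * s0 := hs03
        _ ≤ eta * s := mul_le_mul_of_nonneg_left hs0s heta.le
        _ ≤ eta * s ^ 2 := mul_le_mul_of_nonneg_left this heta.le
    · have j1 := (abs_le.1 ((Complex.abs_im_le_norm _).trans A1)).1
      have j2 := (abs_le.1 ((Complex.abs_im_le_norm _).trans A2)).1
      have j3 := neg_abs_le (lam.im * (Nc w S D rb).re)
      have j4 : C0 ^ 3 / s / 2 * (KS + KD) + C0 ^ 3 / s / 2 * (KD + KS)
          = C0 ^ 3 / s * (KS + KD) := by ring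
      linarith
  have ha0' : a ≤ 0 := by
    have h3 : Lam * a ≤ 0 := by
      have : rb ^ 2 * KS ≤ 0 := mul_nonpos_of_nonneg_of_nonpos hR2.le (by linarith)
      linarith
    by_contra hcon
    push Not at hcon
    have : 0 < Lam * a := by positivity
    linarith
  have hd0' : d ≤ 0 := by
    have h3 : Lam * d ≤ 0 := by
      have : rb ^ 2 * KD ≤ 0 := mul_nonpos_of_nonneg_of_nonpos hR2.le (by linarith)
      linarith
    by_contra hcon
    push Not at hcon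
    have : 0 < Lam * d := by positivity
    linarith
  intro r hr
  exact ⟨zero_of_L2 hR hw bw h.bcS ha0' r hr, zero_of_L2 hR hw bw h.bcD hd0' r hr⟩

end Crest.Agent.R086.CEx
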