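import Crest.Agent.R086.CaseIIIc
import Crest.Agent.R086.CIIIb

/-!
Row 86 (S0114), Part C: CASE III (153's integral part `CEx.III.caseIII_of` and 851's `CIII.close`).
-/

set_option autoImplicit false

namespace Crest.Agent.R086.CEx

theorem caseIII : CaseIII := III.caseIII_of (fun hC hA => CIII.close hC hA)

end Crest.Agent.R086.CEx
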