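import Crest.Agent.R086.CExId
import Crest.Agent.R086.C2Bd

/-!
Row 86 (S0114), Part C, regime (R3), CASE III: integral estimates (owner helper153).
-/

set_option autoImplicit false

open Complex ComplexConjugate MeasureTheory Set Filter Topology

namespace Crest.Agent.R086.CEx.III

open CCore CEx

section gen

variable {w : ℝ → ℝ} {f g : ℝ → ℂ} {R A t : ℝ}

theorem ii_mono {f g : ℝ → ℝ} (hR : 0 < R) (hf : BC R f) (hg : BC R g)
    (h : ∀ r ∈ Ioc 0 R, f r ≤ g r) :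
    ∫ r in (0 : ℝ)..R, f r ≤ ∫ r in (0 : ℝ)..R, g r := by
  rw [intervalIntegral.integral_of_le hR.le, intervalIntegral.integral_of_le hR.le]
  exact setIntegral_mono_on ((intervalIntegrable_iff_integrableOn_Ioc_of_le hR.le).1
    (hf.intble hR)) ((intervalIntegrable_iff_integrableOn_Ioc_of_le hR.le).1
    (hg.intble hR)) measurableSet_Ioc h

theorem ii_nonneg {f : ℝ → ℝ} (hR : 0 < R) (h : ∀ r ∈ Ioc 0 R, 0 ≤ f r) :
    0 ≤ ∫ r in (0 : ℝ)..R, f r := by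
  rw [intervalIntegral.integral_of_le hR.le]
  exact setIntegral_nonneg measurableSet_Ioc h

theorem L2_nonneg (hR : 0 < R) (hw : ∀ r ∈ Ioc 0 R, 0 ≤ w r) : 0 ≤ L2 w f R :=
  ii_nonneg hR fun r hr => mul_nonneg (hw r hr) (by positivity)

theorem L2_conj : L2 w (fun r => conj (f r)) R = L2 w f R := by
  unfold L2
  simp

theorem young (hR : 0 < R) (hw : BC R w) (hw0 : ∀ r ∈ Ioc 0 R, 0 ≤ w r) {F : ℝ → ℂ}
    (hF : ∀ r ∈ Ioc 0 R, ‖F r‖ ≤ A * (w r * (‖f r‖ * ‖g r‖))) (hA : 0 ≤ A)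
    (hf : BC R f) (hg : BC R g) (ht : 0 < t) :
    ‖∫ r in (0 : ℝ)..R, F r‖ ≤ A / 2 * (t * L2 w f R + t⁻¹ * L2 w g R) := by
  have b1 : BC R (fun r => w r * ‖f r‖ ^ 2) := hw.mulR hf.normSq
  have b2 : BC R (fun r => w r * ‖g r‖ ^ 2) := hw.mulR hg.normSq
  have b3 : BC R (fun r => A / 2 * (t * (w r * ‖f r‖ ^ 2) + t⁻¹ * (w r * ‖g r‖ ^ 2))) :=
    (BC.const (A / 2)).mulR (((BC.const t).mulR b1).add ((BC.const t⁻¹).mulR b2))
  have h1 : ‖∫ r in (0 : ℝ)..R, F r‖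
      ≤ ∫ r in (0 : ℝ)..R, A / 2 * (t * (w r * ‖f r‖ ^ 2) + t⁻¹ * (w r * ‖g r‖ ^ 2)) := by
    refine intervalIntegral.norm_integral_le_of_norm_le hR.le ?_ (b3.intble hR)
    refine ae_of_all _ fun r hr => ?_
    refine (hF r hr).trans ?_
    have hw1 := hw0 r hr
    have hab : ‖f r‖ * ‖g r‖ ≤ (t * ‖f r‖ ^ 2 + t⁻¹ * ‖g r‖ ^ 2) / 2 := by
      have h3 : t⁻¹ * ((t * ‖f r‖ - ‖g r‖) ^ 2)
          = t * ‖f r‖ ^ 2 + t⁻¹ * ‖g r‖ ^ 2 - 2 * (‖f r‖ * ‖g r‖) := by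
        field_simp
        ring
      have h4 : 0 ≤ t⁻¹ * ((t * ‖f r‖ - ‖g r‖) ^ 2) := by positivity
      linarith
    calc A * (w r * (‖f r‖ * ‖g r‖))
        ≤ A * (w r * ((t * ‖f r‖ ^ 2 + t⁻¹ * ‖g r‖ ^ 2) / 2)) := by gcongr
      _ = A / 2 * (t * (w r * ‖f r‖ ^ 2) + t⁻¹ * (w r * ‖g r‖ ^ 2)) := by ring
  refine h1.trans (le_of_eq ?_)
  rw [intervalIntegral.integral_const_mul, intervalIntegral.integral_add
    (((BC.const t).mulR b1).intble hR) (((BC.const t⁻¹).mulR b2).intble hR),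
    intervalIntegral.integral_const_mul, intervalIntegral.integral_const_mul]
  rfl

/-- zero integral of a nonnegative continuous function -/
theorem eq_zero_of_L2 (hR : 0 < R) (hw : BC R w) (hw0 : ∀ r ∈ Ioc 0 R, 0 < w r)
    (hf : BC R f) (h : L2 w f R ≤ 0) : ∀ r ∈ Ioc 0 R, f r = 0 := by
  have b1 : BC R (fun r => w r * ‖f r‖ ^ 2) := hw.mulR hf.normSq
  intro r hr
  by_contra hne
  have hpos : 0 < w r * ‖f r‖ ^ 2 := mul_pos (hw0 r hr) (by positivity)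
  -- on a small interval to the left of `r` the integrand is at least half of this value
  have hc := b1.1 r hr
  have hev : ∀ᶠ x in 𝓝[Ioc 0 R] r, w r * ‖f r‖ ^ 2 / 2 < w x * ‖f x‖ ^ 2 :=
    hc.eventually (lt_mem_nhds (by linarith))
  have hev2 : ∀ᶠ x in 𝓝[<] r, w r * ‖f r‖ ^ 2 / 2 < w x * ‖f x‖ ^ 2 := by
    have h1 : 𝓝[Ioo 0 r] r ≤ 𝓝[Ioc 0 R] r :=
      nhdsWithin_mono _ fun x hx => ⟨hx.1, hx.2.le.trans hr.2⟩
    rw [nhdsWithin_Ioo_eq_nhdsLT hr.1] at h1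
    exact h1 hev
  obtain ⟨a, ha, hab⟩ := (mem_nhdsLT_iff_exists_Ioo_subset' hr.1).1 hev2
  have ha0 : max a 0 < r := max_lt ha hr.1
  have hii := b1.intble hR
  have hsplit : ∫ x in (0 : ℝ)..R, w x * ‖f x‖ ^ 2
      = (∫ x in (0 : ℝ)..(max a 0), w x * ‖f x‖ ^ 2) + (∫ x in (max a 0)..r, w x * ‖f x‖ ^ 2)
        + ∫ x in r..R, w x * ‖f x‖ ^ 2 := by
    have m0 : (0 : ℝ) ≤ max a 0 := le_max_right _ _
    have i1 : IntervalIntegrable (fun x => w x * ‖f x‖ ^ 2) volume 0 (max a 0) :=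
      hii.mono_set (by
        rw [uIcc_of_le m0, uIcc_of_le hR.le]
        exact Icc_subset_Icc le_rfl (ha0.le.trans hr.2))
    have i2 : IntervalIntegrable (fun x => w x * ‖f x‖ ^ 2) volume (max a 0) r :=
      hii.mono_set (by
        rw [uIcc_of_le ha0.le, uIcc_of_le hR.le]
        exact Icc_subset_Icc m0 hr.2)
    have i3 : IntervalIntegrable (fun x => w x * ‖f x‖ ^ 2) volume r R :=
      hii.mono_set (by
        rw [uIcc_of_le hr.2, uIcc_of_le hR.le]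
        exact Icc_subset_Icc hr.1.le le_rfl)
    rw [intervalIntegral.integral_add_adjacent_intervals i1 i2,
      intervalIntegral.integral_add_adjacent_intervals (i1.trans i2) i3]
  have n1 : 0 ≤ ∫ x in (0 : ℝ)..(max a 0), w x * ‖f x‖ ^ 2 := by
    rw [intervalIntegral.integral_of_le (le_max_right _ _)]
    refine setIntegral_nonneg measurableSet_Ioc fun x hx => ?_
    have := hw0 x ⟨hx.1, hx.2.trans (ha0.le.trans hr.2)⟩
    positivity
  have n3 : 0 ≤ ∫ x in r..R, w x * ‖f x‖ ^ 2 := by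
    rw [intervalIntegral.integral_of_le hr.2]
    refine setIntegral_nonneg measurableSet_Ioc fun x hx => ?_
    have := hw0 x ⟨hr.1.trans hx.1, hx.2⟩
    positivity
  have n2 : (r - max a 0) * (w r * ‖f r‖ ^ 2 / 2) ≤ ∫ x in (max a 0)..r, w x * ‖f x‖ ^ 2 := by
    have e : ∫ x in (max a 0)..r, (w r * ‖f r‖ ^ 2 / 2) = (r - max a 0) * (w r * ‖f r‖ ^ 2 / 2) := by
      rw [intervalIntegral.integral_const, smul_eq_mul]
    rw [← e, intervalIntegral.integral_of_le ha0.le, intervalIntegral.integral_of_le ha0.le]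
    refine setIntegral_mono_on ?_ ?_ measurableSet_Ioc fun x hx => ?_
    · exact integrableOn_const (by simp)
    · refine ((intervalIntegrable_iff_integrableOn_Ioc_of_le hR.le).1 hii).mono_set ?_
      exact Ioc_subset_Ioc (le_max_right _ _) hr.2
    · rcases eq_or_lt_of_le hx.2 with h1 | h1
      · rw [h1]; linarith
      · exact (le_of_lt (hab ⟨(le_max_left _ _).trans_lt hx.1, h1⟩))
  have : 0 < (r - max a 0) * (w r * ‖f r‖ ^ 2 / 2) :=
    mul_pos (by linarith) (by linarith)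
  unfold L2 at h
  rw [hsplit] at h
  linarith

end gen

section poinc
variable {w m rho : ℝ → ℝ} {T T1 : ℝ → ℂ} {R A : ℝ}

/-- Poincaré from `(m w)' = 12 w`. -/
theorem poinc (hR : 0 < R) (hA : 0 < A)
    (hw : BC R w) (hw0 : ∀ r ∈ Ioc 0 R, 0 ≤ w r) (hwt : Tendsto w (𝓝[>] 0) (𝓝 0))
    (hm : BC R m) (hmA : ∀ r ∈ Ioc 0 R, |m r| ≤ A)
    (dm : ∀ r ∈ Ioc 0 R, HasDerivAt m (12 - m r * (11 / r + 2 * rho r)) r)
    (dw : ∀ r ∈ Ioc 0 R, HasDerivAt w (w r * (11 / r + 2 * rho r)) r)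
    (hT : BC R T) (hT1 : BC R T1) (dT : ∀ r ∈ Ioc 0 R, HasDerivAt T (T1 r) r) :
    6 * L2 w T R ≤ A * (w R * ‖T R‖ ^ 2) + A ^ 2 / 6 * L2 w T1 R := by
  have b1 : BC R (fun r => w r * ‖T r‖ ^ 2) := hw.mulR hT.normSq
  have b2 : BC R (fun r => (m r * w r) * (conj (T r) * T1 r).re) :=
    (hm.mulR hw).mulR (hT.cj.mulC hT1).re
  have b2c : BC R (fun r => ((m r * w r : ℝ) : ℂ) * (conj (T r) * T1 r)) :=
    (hm.mulR hw).ofReal.mulC (hT.cj.mulC hT1)
  have key := ftc0 (f := fun r => w r * (m r * ‖T r‖ ^ 2))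
    (f' := fun r => 12 * (w r * ‖T r‖ ^ 2) + 2 * ((m r * w r) * (conj (T r) * T1 r).re)) hR
    (fun r hr => by
      have h1 := (dw r hr).mul ((dm r hr).mul (dT r hr).norm_sq)
      refine h1.congr_deriv ?_
      rw [Complex.inner]
      have e : (T1 r * conj (T r)).re = (conj (T r) * T1 r).re := by rw [mul_comm]
      rw [e]
      simp only [Pi.mul_apply]
      ring)
    (((BC.const (12 : ℝ)).mulR b1).add ((BC.const (2 : ℝ)).mulR b2))
    (by
      have h2 := BC.tendsto_zero_mulR hR (hm.mulR hT.normSq) hwt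
      exact h2)
  have hre : ∫ r in (0 : ℝ)..R, (m r * w r) * (conj (T r) * T1 r).re
      = (∫ r in (0 : ℝ)..R, ((m r * w r : ℝ) : ℂ) * (conj (T r) * T1 r)).re := by
    have h3 := (Complex.reCLM.intervalIntegral_comp_comm (b2c.intble hR))
    simp only [Complex.reCLM_apply] at h3
    rw [← h3]
    congr 1
    funext r
    rw [Complex.re_ofReal_mul]
  rw [intervalIntegral.integral_add (((BC.const (12 : ℝ)).mulR b1).intble hR)
      (((BC.const (2 : ℝ)).mulR b2).intble hR),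
    intervalIntegral.integral_const_mul, intervalIntegral.integral_const_mul, hre] at key
  have hy := young (A := A) (t := 6 / A) (f := T) (g := T1)
    (F := fun r => ((m r * w r : ℝ) : ℂ) * (conj (T r) * T1 r)) hR hw hw0 (fun r hr => by
      rw [norm_mul, norm_mul, RCLike.norm_conj, Complex.norm_real, Real.norm_eq_abs, abs_mul,
        abs_of_nonneg (hw0 r hr)]
      have := hmA r hr
      have h0 := hw0 r hr
      calc |m r| * w r * (‖T r‖ * ‖T1 r‖) ≤ A * w r * (‖T r‖ * ‖T1 r‖) := by gcongr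
        _ = A * (w r * (‖T r‖ * ‖T1 r‖)) := by ring) hA.le hT hT1 (by positivity)
  have hre2 := neg_abs_le (∫ r in (0 : ℝ)..R, ((m r * w r : ℝ) : ℂ) * (conj (T r) * T1 r)).re
  have hre3 := Complex.abs_re_le_norm
    (∫ r in (0 : ℝ)..R, ((m r * w r : ℝ) : ℂ) * (conj (T r) * T1 r))
  have e1 : 2 * (A / 2 * (6 / A * L2 w T R + (6 / A)⁻¹ * L2 w T1 R))
      = 6 * L2 w T R + A ^ 2 / 6 * L2 w T1 R := by
    field_simp
  have hwR := hw0 R ⟨hR, le_rfl⟩
  have e2 : w R * (m R * ‖T R‖ ^ 2) ≤ A * (w R * ‖T R‖ ^ 2) := by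
    have := (le_abs_self _).trans (hmA R ⟨hR, le_rfl⟩)
    calc w R * (m R * ‖T R‖ ^ 2) = m R * (w R * ‖T R‖ ^ 2) := by ring
      _ ≤ _ := mul_le_mul_of_nonneg_right this (by positivity)
  have e3 : L2 w T R = ∫ r in (0 : ℝ)..R, w r * ‖T r‖ ^ 2 := rfl
  rw [← e3] at key
  linarith

end poinc

end Crest.Agent.R086.CEx.III
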