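import Crest.Agent.R086.CaseIIIa

/-!
Row 86 (S0114), Part C, regime (R3), CASE III: identity (b), virial lower bound (owner helper153).
-/

set_option autoImplicit false

open Complex ComplexConjugate MeasureTheory Set Filter Topology

namespace Crest.Agent.R086.CEx.III

open CCore CEx

theorem _root_.Crest.Agent.R086.CCore.BC.cgr {E : Type*} [NormedAddCommGroup E] {R : ℝ} {f g : ℝ → E} (hf : BC R f)
    (h : ∀ r ∈ Ioc 0 R, g r = f r) : BC R g := by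
  obtain ⟨cf, A, hA⟩ := hf
  exact ⟨cf.congr h, A, fun r hr => by rw [h r hr]; exact hA r hr⟩

section main

variable {w b P P1 rho m : ℝ → ℝ} {C0 e n rb Lam eps : ℝ} {lam : ℂ} {S S1 D D1 : ℝ → ℂ}

theorem wpos (hc : Coef w b P P1 rho m C0 e n rb) : ∀ r ∈ Ioc 0 rb, 0 < w r := fun r hr => by
  have h1 := hc.wlo r hr
  have h2 : 0 < r ^ 11 / C0 := div_pos (pow_pos hr.1 _) (lt_of_lt_of_le one_pos hc.C0_one)
  linarith

theorem rbpos (hc : Coef w b P P1 rho m C0 e n rb) : 0 < rb := lt_of_lt_of_le one_pos hc.rb_lo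

theorem m_nonneg (hc : Coef w b P P1 rho m C0 e n rb) : ∀ r ∈ Ioc 0 rb, 0 ≤ m r := fun r hr =>
  le_trans (div_nonneg hr.1.le (le_trans zero_le_one hc.C0_one)) (hc.m_lo r hr)

theorem m_le (hc : Coef w b P P1 rho m C0 e n rb) : ∀ r ∈ Ioc 0 rb, m r ≤ C0 ^ 2 := fun r hr => by
  have h1 := hc.m_hi r hr
  have h0 := hc.C0_one
  calc m r ≤ C0 * r := h1
    _ ≤ C0 * C0 := by
      have : r ≤ C0 := hr.2.trans hc.rb_hi
      nlinarith
    _ = C0 ^ 2 := by ring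

theorem b_le (hc : Coef w b P P1 rho m C0 e n rb) : ∀ r ∈ Ioc 0 rb, |b r| ≤ C0 ^ 2 :=
  fun r hr => by
  have h1 := hc.bhi r hr
  have h0 := hc.C0_one
  calc |b r| ≤ C0 * r := h1
    _ ≤ C0 * C0 := by
      have : r ≤ C0 := hr.2.trans hc.rb_hi
      nlinarith
    _ = C0 ^ 2 := by ring

theorem bcm (hc : Coef w b P P1 rho m C0 e n rb) : BC rb m :=
  ⟨fun r hr => (hc.m_der r hr).continuousAt.continuousWithinAt, C0 ^ 2, fun r hr => by
    rw [Real.norm_eq_abs, abs_of_nonneg (m_nonneg hc r hr)]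
    exact m_le hc r hr⟩

theorem w_le (hc : Coef w b P P1 rho m C0 e n rb) : w rb ≤ C0 ^ 12 := by
  have h1 := hc.whi rb ⟨rbpos hc, le_rfl⟩
  have h0 := hc.C0_one
  calc w rb ≤ C0 * rb ^ 11 := h1
    _ ≤ C0 * C0 ^ 11 := by
      have h2 : rb ^ 11 ≤ C0 ^ 11 := pow_le_pow_left₀ (rbpos hc).le hc.rb_hi 11
      exact mul_le_mul_of_nonneg_left h2 (by linarith)
    _ = C0 ^ 12 := by ring

theorem poincS (hc : Coef w b P P1 rho m C0 e n rb)
    (hs : Sol w b P rho Lam n eps lam S S1 D D1 rb) :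
    6 * L2 w S rb ≤ C0 ^ 2 * (w rb * ‖S rb‖ ^ 2) + (C0 ^ 2) ^ 2 / 6 * L2 w S1 rb := by
  have h := sysOn hc hs
  have h0 := hc.C0_one
  exact poinc h.Rpos (by positivity) h.bcw (fun r hr => (wpos hc r hr).le) h.w0 (bcm hc)
    (fun r hr => by rw [abs_of_nonneg (m_nonneg hc r hr)]; exact m_le hc r hr)
    hc.m_der (fun r hr => (hs.sys r hr).hw) h.bcS h.bcS1 (fun r hr => (hs.sys r hr).hS)

theorem poincD (hc : Coef w b P P1 rho m C0 e n rb)
    (hs : Sol w b P rho Lam n eps lam S S1 D D1 rb) :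
    6 * L2 w D rb ≤ C0 ^ 2 * (w rb * ‖D rb‖ ^ 2) + (C0 ^ 2) ^ 2 / 6 * L2 w D1 rb := by
  have h := sysOn hc hs
  have h0 := hc.C0_one
  exact poinc h.Rpos (by positivity) h.bcw (fun r hr => (wpos hc r hr).le) h.w0 (bcm hc)
    (fun r hr => by rw [abs_of_nonneg (m_nonneg hc r hr)]; exact m_le hc r hr)
    hc.m_der (fun r hr => (hs.sys r hr).hw) h.bcD h.bcD1 (fun r hr => (hs.sys r hr).hD)

theorem bKS (hc : Coef w b P P1 rho m C0 e n rb)
    (hs : Sol w b P rho Lam n eps lam S S1 D D1 rb) :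
    BC rb (fun r => w r * (‖S1 r‖ ^ 2 + Lam / r ^ 2 * ‖S r‖ ^ 2)) :=
  SysOn.bcK (sysOn hc hs).bcw ((sysOn hc hs).bcwj 2 (by norm_num)) (sysOn hc hs).bcS
    (sysOn hc hs).bcS1 Lam

theorem bKD (hc : Coef w b P P1 rho m C0 e n rb)
    (hs : Sol w b P rho Lam n eps lam S S1 D D1 rb) :
    BC rb (fun r => w r * (‖D1 r‖ ^ 2 + Lam / r ^ 2 * ‖D r‖ ^ 2)) :=
  SysOn.bcK (sysOn hc hs).bcw ((sysOn hc hs).bcwj 2 (by norm_num)) (sysOn hc hs).bcD
    (sysOn hc hs).bcD1 Lam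

theorem S1_le_KK (hc : Coef w b P P1 rho m C0 e n rb)
    (hs : Sol w b P rho Lam n eps lam S S1 D D1 rb) : L2 w S1 rb ≤ KK w Lam S S1 rb := by
  have h := sysOn hc hs
  refine ii_mono h.Rpos (h.bcw.mulR h.bcS1.normSq) (bKS hc hs) fun r hr => ?_
  have h1 := wpos hc r hr
  have h2 := hs.Lam_nonneg
  have h3 := hr.1
  have h4 : 0 ≤ Lam / r ^ 2 * ‖S r‖ ^ 2 := by positivity
  exact mul_le_mul_of_nonneg_left (by linarith) h1.le

theorem D1_le_KK (hc : Coef w b P P1 rho m C0 e n rb)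
    (hs : Sol w b P rho Lam n eps lam S S1 D D1 rb) : L2 w D1 rb ≤ KK w Lam D D1 rb := by
  have h := sysOn hc hs
  refine ii_mono h.Rpos (h.bcw.mulR h.bcD1.normSq) (bKD hc hs) fun r hr => ?_
  have h1 := wpos hc r hr
  have h2 := hs.Lam_nonneg
  have h3 := hr.1
  have h4 : 0 ≤ Lam / r ^ 2 * ‖D r‖ ^ 2 := by positivity
  exact mul_le_mul_of_nonneg_left (by linarith) h1.le

theorem KKS_nonneg (hc : Coef w b P P1 rho m C0 e n rb)
    (hs : Sol w b P rho Lam n eps lam S S1 D D1 rb) : 0 ≤ KK w Lam S S1 rb := by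
  have h := sysOn hc hs
  exact (L2_nonneg h.Rpos fun r hr => (wpos hc r hr).le).trans (S1_le_KK hc hs)

theorem KKD_nonneg (hc : Coef w b P P1 rho m C0 e n rb)
    (hs : Sol w b P rho Lam n eps lam S S1 D D1 rb) : 0 ≤ KK w Lam D D1 rb := by
  have h := sysOn hc hs
  exact (L2_nonneg h.Rpos fun r hr => (wpos hc r hr).le).trans (D1_le_KK hc hs)

theorem Pot_nonneg (hc : Coef w b P P1 rho m C0 e n rb) : 0 ≤ Pot w P n S rb := by
  refine ii_nonneg (rbpos hc) fun r hr => ?_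
  have h1 := wpos hc r hr
  have h2 := hc.P_nonneg r hr
  have h3 := hc.n_one
  have h4 : 0 ≤ n := by linarith
  positivity

/-- identity (b): the `D` equation tested with `conj S` -/
theorem idb (hc : Coef w b P P1 rho m C0 e n rb)
    (hs : Sol w b P rho Lam n eps lam S S1 D D1 rb) :
    (w rb : ℂ) * (conj (S rb) * D1 rb) =
      (∫ r in (0 : ℝ)..rb, ((w r : ℂ) * (conj (S1 r) * D1 r)
        + ((w r / r ^ 2 * Lam : ℝ) : ℂ) * (conj (S r) * D r)))
      - I * AA w b S S1 rb - I * lam * (L2 w S rb : ℂ) := by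
  have h := sysOn hc hs
  have hR := h.Rpos
  have b1 : BC rb (fun r => (w r : ℂ) * (conj (S1 r) * D1 r)) :=
    h.bcw.ofReal.mulC (h.bcS1.cj.mulC h.bcD1)
  have b2 : BC rb (fun r => ((w r / r ^ 2 * Lam : ℝ) : ℂ) * (conj (S r) * D r)) :=
    (((h.bcwj 2 (by norm_num)).mulR (BC.const Lam)).ofReal).mulC (h.bcS.cj.mulC h.bcD)
  have b3 : BC rb (fun r => ((w r * b r : ℝ) : ℂ) * (conj (S r) * S1 r)) :=
    (h.bcw.mulR h.bcb).ofReal.mulC (h.bcS.cj.mulC h.bcS1)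
  have b4 : BC rb (fun r => ((w r * ‖S r‖ ^ 2 : ℝ) : ℂ)) := (h.bcw.mulR h.bcS.normSq).ofReal
  have key := ftc0 (f := fun r => (w r : ℂ) * (conj (S r) * D1 r))
    (f' := fun r => (((w r : ℂ) * (conj (S1 r) * D1 r)
        + ((w r / r ^ 2 * Lam : ℝ) : ℂ) * (conj (S r) * D r))
      - I * (((w r * b r : ℝ) : ℂ) * (conj (S r) * S1 r)))
      - I * lam * ((w r * ‖S r‖ ^ 2 : ℝ) : ℂ)) hR
    (fun r hr => by
      have h1 := (h.sys r hr).hD1.mul (hasDerivAt_conj (h.sys r hr).hS)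
      have e : (fun r => (w r : ℂ) * (conj (S r) * D1 r)) =
          (fun r => ((w r : ℂ) * D1 r)) * (fun r => conj (S r)) := by
        funext x
        simp only [Pi.mul_apply]
        ring
      rw [e]
      refine h1.congr_deriv ?_
      rw [Complex.ofReal_mul (w r) (‖S r‖ ^ 2), ← SysOn.cns]
      push_cast
      ring)
    (((b1.add b2).sub ((BC.const I).mulC b3)).sub ((BC.const (I * lam)).mulC b4))
    (h.w0C (h.bcS.cj.mulC h.bcD1))
  rw [← key, intervalIntegral.integral_sub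
      (((b1.add b2).sub ((BC.const I).mulC b3)).intble hR)
      (((BC.const (I * lam)).mulC b4).intble hR),
    intervalIntegral.integral_sub ((b1.add b2).intble hR) (((BC.const I).mulC b3).intble hR),
    intervalIntegral.integral_const_mul, intervalIntegral.integral_const_mul,
    intervalIntegral.integral_ofReal]
  rfl

theorem idb_bd (hc : Coef w b P P1 rho m C0 e n rb)
    (hs : Sol w b P rho Lam n eps lam S S1 D D1 rb) {t : ℝ} (ht : 0 < t) :
    ‖lam‖ * L2 w S rb ≤ (KK w Lam S S1 rb + KK w Lam D D1 rb) / 2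
      + C0 ^ 2 / 2 * (t * L2 w S rb + t⁻¹ * KK w Lam S S1 rb)
      + w rb * (‖S rb‖ * ‖D1 rb‖) := by
  have h := sysOn hc hs
  have hR := h.Rpos
  have h0 := hc.C0_one
  have hL0 : 0 ≤ L2 w S rb := L2_nonneg hR fun r hr => (wpos hc r hr).le
  have h1 : ‖∫ r in (0 : ℝ)..rb, ((w r : ℂ) * (conj (S1 r) * D1 r)
        + ((w r / r ^ 2 * Lam : ℝ) : ℂ) * (conj (S r) * D r))‖
      ≤ (KK w Lam S S1 rb + KK w Lam D D1 rb) / 2 := by
    have e1 : (KK w Lam S S1 rb + KK w Lam D D1 rb) / 2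
        = ∫ r in (0 : ℝ)..rb, (w r * (‖S1 r‖ ^ 2 + Lam / r ^ 2 * ‖S r‖ ^ 2)
          + w r * (‖D1 r‖ ^ 2 + Lam / r ^ 2 * ‖D r‖ ^ 2)) / 2 := by
      rw [intervalIntegral.integral_div, intervalIntegral.integral_add
        ((bKS hc hs).intble hR) ((bKD hc hs).intble hR)]
      rfl
    rw [e1]
    refine intervalIntegral.norm_integral_le_of_norm_le hR.le ?_ ?_
    · refine ae_of_all _ fun r hr => ?_
      have hw := wpos hc r hr
      have hr0 := hr.1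
      have hL := hs.Lam_nonneg
      refine (norm_add_le _ _).trans ?_
      rw [norm_mul, norm_mul, norm_mul, norm_mul, RCLike.norm_conj, RCLike.norm_conj,
        Complex.norm_real, Complex.norm_real, Real.norm_eq_abs, Real.norm_eq_abs,
        abs_of_pos hw, abs_of_nonneg (by positivity : 0 ≤ w r / r ^ 2 * Lam)]
      have a1 : ‖S1 r‖ * ‖D1 r‖ ≤ (‖S1 r‖ ^ 2 + ‖D1 r‖ ^ 2) / 2 := by
        nlinarith [sq_nonneg (‖S1 r‖ - ‖D1 r‖)]
      have a2 : ‖S r‖ * ‖D r‖ ≤ (‖S r‖ ^ 2 + ‖D r‖ ^ 2) / 2 := by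
        nlinarith [sq_nonneg (‖S r‖ - ‖D r‖)]
      calc w r * (‖S1 r‖ * ‖D1 r‖) + w r / r ^ 2 * Lam * (‖S r‖ * ‖D r‖)
          ≤ w r * ((‖S1 r‖ ^ 2 + ‖D1 r‖ ^ 2) / 2)
            + w r / r ^ 2 * Lam * ((‖S r‖ ^ 2 + ‖D r‖ ^ 2) / 2) := by gcongr
        _ = _ := by ring
    · exact BC.intble (by
        have := (BC.const (1 / 2 : ℝ)).mulR ((bKS hc hs).add (bKD hc hs))
        refine this.cgr fun r _ => ?_
        ring) hR
  have h2 : ‖AA w b S S1 rb‖ ≤ C0 ^ 2 / 2 * (t * L2 w S rb + t⁻¹ * L2 w S1 rb) := by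
    unfold AA
    refine young hR h.bcw (fun r hr => (wpos hc r hr).le) (fun r hr => ?_) (by positivity)
      h.bcS h.bcS1 ht
    have hw := wpos hc r hr
    rw [norm_mul, norm_mul, RCLike.norm_conj, Complex.norm_real, Real.norm_eq_abs, abs_mul,
      abs_of_pos hw]
    have := b_le hc r hr
    calc w r * |b r| * (‖S r‖ * ‖S1 r‖) ≤ w r * C0 ^ 2 * (‖S r‖ * ‖S1 r‖) := by gcongr
      _ = _ := by ring
  have h3 := S1_le_KK hc hs
  have h4 : C0 ^ 2 / 2 * (t * L2 w S rb + t⁻¹ * L2 w S1 rb)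
      ≤ C0 ^ 2 / 2 * (t * L2 w S rb + t⁻¹ * KK w Lam S S1 rb) := by gcongr
  have hid := idb hc hs
  have h5 : I * lam * (L2 w S rb : ℂ) =
      (∫ r in (0 : ℝ)..rb, ((w r : ℂ) * (conj (S1 r) * D1 r)
        + ((w r / r ^ 2 * Lam : ℝ) : ℂ) * (conj (S r) * D r)))
      - I * AA w b S S1 rb - (w rb : ℂ) * (conj (S rb) * D1 rb) := by
    rw [hid]; ring
  have h6 : ‖I * lam * (L2 w S rb : ℂ)‖ = ‖lam‖ * L2 w S rb := by
    rw [norm_mul, norm_mul, Complex.norm_I, one_mul, Complex.norm_real, Real.norm_eq_abs,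
      abs_of_nonneg hL0]
  have h7 : ‖(w rb : ℂ) * (conj (S rb) * D1 rb)‖ = w rb * (‖S rb‖ * ‖D1 rb‖) := by
    rw [norm_mul, norm_mul, RCLike.norm_conj, Complex.norm_real, Real.norm_eq_abs,
      abs_of_pos (wpos hc rb ⟨hR, le_rfl⟩)]
  have h8 : ‖I * AA w b S S1 rb‖ = ‖AA w b S S1 rb‖ := by
    rw [norm_mul, Complex.norm_I, one_mul]
  rw [← h6, h5]
  refine (norm_sub_le _ _).trans ?_
  rw [h7]
  refine add_le_add ((norm_sub_le _ _).trans (add_le_add h1 ?_)) le_rfl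
  rw [h8]
  exact h2.trans h4

theorem bPot (hc : Coef w b P P1 rho m C0 e n rb)
    (hs : Sol w b P rho Lam n eps lam S S1 D D1 rb) :
    BC rb (fun r => n * P r * w r * ‖S r‖ ^ 2) :=
  (((BC.const n).mulR (sysOn hc hs).bcP).mulR (sysOn hc hs).bcw).mulR (sysOn hc hs).bcS.normSq

/-- lower bound of the virial form -/
theorem vir_ge (hc : Coef w b P P1 rho m C0 e n rb)
    (hs : Sol w b P rho Lam n eps lam S S1 D D1 rb) :
    (KK w Lam S S1 rb + KK w Lam D D1 rb) / C0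
      - e * C0 ^ 2 / 2 * (Pot w P n S rb + L2 w S rb) ≤ Vir w rho m P1 Lam n S S1 D D1 rb := by
  have h := sysOn hc hs
  have hR := h.Rpos
  have h0 := hc.C0_one
  have C0p : 0 < C0 := by linarith
  have he := hc.e_nonneg
  have cm' : ContinuousOn (fun r => 12 - m r * (11 / r + 2 * rho r)) (Ioc 0 rb) := by
    have h1 : ContinuousOn (fun r : ℝ => 11 / r) (Ioc 0 rb) :=
      continuousOn_const.div continuousOn_id (fun r hr => hr.1.ne')
    exact continuousOn_const.sub ((bcm hc).1.mul (h1.add (continuousOn_const.mul hc.rhocont)))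
  have bm' : BC rb (fun r => 12 - m r * (11 / r + 2 * rho r)) := ⟨cm', C0, fun r hr => by
    have h1 := hc.m1_lo r hr
    have h2 : 0 ≤ 12 - m r * (11 / r + 2 * rho r) := le_trans (by positivity) h1
    rw [Real.norm_eq_abs, abs_of_nonneg h2]
    exact hc.m1_hi r hr⟩
  have bI1 : BC rb (fun r => w r * ((12 - m r * (11 / r + 2 * rho r)) *
        (‖S1 r‖ ^ 2 + ‖D1 r‖ ^ 2) + Lam * (m r / r) / r ^ 2 * (‖S r‖ ^ 2 + ‖D r‖ ^ 2))) := by
    have b1 := (h.bcw.mulR bm').mulR (h.bcS1.normSq.add h.bcD1.normSq)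
    have b2 := (((BC.const Lam).mulR ((h.bcwj 3 (by norm_num)).mulR (bcm hc)))).mulR
      (h.bcS.normSq.add h.bcD.normSq)
    refine (b1.add b2).cgr fun r hr => ?_
    have := hr.1.ne'
    field_simp
  have e1 : (KK w Lam S S1 rb + KK w Lam D D1 rb) / C0
      = ∫ r in (0 : ℝ)..rb, (w r * (‖S1 r‖ ^ 2 + Lam / r ^ 2 * ‖S r‖ ^ 2)
        + w r * (‖D1 r‖ ^ 2 + Lam / r ^ 2 * ‖D r‖ ^ 2)) / C0 := by
    rw [intervalIntegral.integral_div, intervalIntegral.integral_add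
      ((bKS hc hs).intble hR) ((bKD hc hs).intble hR)]
    rfl
  have l1 : (KK w Lam S S1 rb + KK w Lam D D1 rb) / C0
      ≤ ∫ r in (0 : ℝ)..rb, w r * ((12 - m r * (11 / r + 2 * rho r)) *
        (‖S1 r‖ ^ 2 + ‖D1 r‖ ^ 2) + Lam * (m r / r) / r ^ 2 * (‖S r‖ ^ 2 + ‖D r‖ ^ 2)) := by
    rw [e1]
    refine ii_mono hR ?_ bI1 fun r hr => ?_
    · have := (BC.const (1 / C0 : ℝ)).mulR ((bKS hc hs).add (bKD hc hs))
      refine this.cgr fun r _ => ?_
      ring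
    · have hw := wpos hc r hr
      have hr0 := hr.1
      have hL := hs.Lam_nonneg
      have m1 := hc.m1_lo r hr
      have m2 : 1 / C0 ≤ m r / r := by
        rw [le_div_iff₀ hr0]
        have := hc.m_lo r hr
        calc 1 / C0 * r = r / C0 := by ring
          _ ≤ m r := this
      have q1 : 0 ≤ ‖S1 r‖ ^ 2 + ‖D1 r‖ ^ 2 := by positivity
      have q2 : 0 ≤ Lam / r ^ 2 * (‖S r‖ ^ 2 + ‖D r‖ ^ 2) := by positivity
      have q3 := mul_le_mul_of_nonneg_right m1 q1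
      have q4 := mul_le_mul_of_nonneg_right m2 q2
      have e2 : (w r * (‖S1 r‖ ^ 2 + Lam / r ^ 2 * ‖S r‖ ^ 2)
        + w r * (‖D1 r‖ ^ 2 + Lam / r ^ 2 * ‖D r‖ ^ 2)) / C0
          = w r * (1 / C0 * (‖S1 r‖ ^ 2 + ‖D1 r‖ ^ 2)
            + 1 / C0 * (Lam / r ^ 2 * (‖S r‖ ^ 2 + ‖D r‖ ^ 2))) := by ring
      rw [e2]
      refine mul_le_mul_of_nonneg_left ?_ hw.le
      have e3 : Lam * (m r / r) / r ^ 2 * (‖S r‖ ^ 2 + ‖D r‖ ^ 2)
          = m r / r * (Lam / r ^ 2 * (‖S r‖ ^ 2 + ‖D r‖ ^ 2)) := by ring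
      rw [e3]
      linarith
  have bP1 : BC rb P1 := ⟨hc.P1_cont, hc.P1_bd⟩
  have bI2 : BC rb (fun r => n * P1 r * (m r * w r) * ‖S r‖ ^ 2) :=
    (((BC.const n).mulR bP1).mulR ((bcm hc).mulR h.bcw)).mulR h.bcS.normSq
  have bL : BC rb (fun r => w r * ‖S r‖ ^ 2) := h.bcw.mulR h.bcS.normSq
  have l2 : (∫ r in (0 : ℝ)..rb, n * P1 r * (m r * w r) * ‖S r‖ ^ 2)
      ≤ e * C0 ^ 2 * (Pot w P n S rb + L2 w S rb) := by
    have e4 : e * C0 ^ 2 * (Pot w P n S rb + L2 w S rb)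
        = ∫ r in (0 : ℝ)..rb, e * C0 ^ 2 * (n * P r * w r * ‖S r‖ ^ 2 + w r * ‖S r‖ ^ 2) := by
      rw [intervalIntegral.integral_const_mul, intervalIntegral.integral_add
        ((bPot hc hs).intble hR) (bL.intble hR)]
      rfl
    rw [e4]
    refine ii_mono hR bI2 ((BC.const (e * C0 ^ 2)).mulR ((bPot hc hs).add bL)) fun r hr => ?_
    have hw := wpos hc r hr
    have hm0 := m_nonneg hc r hr
    have hm1 := m_le hc r hr
    have hP := hc.P1_le r hr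
    have hP0 := hc.P_nonneg r hr
    have hn := hc.n_one
    have hn0 : 0 ≤ n := by linarith
    have q1 : 0 ≤ w r * ‖S r‖ ^ 2 := by positivity
    have q2 : 0 ≤ e * (n * P r) + e := by positivity
    calc n * P1 r * (m r * w r) * ‖S r‖ ^ 2 = (n * P1 r) * (m r * (w r * ‖S r‖ ^ 2)) := by ring
      _ ≤ (e * (n * P r) + e) * (m r * (w r * ‖S r‖ ^ 2)) :=
          mul_le_mul_of_nonneg_right hP (by positivity)
      _ ≤ (e * (n * P r) + e) * (C0 ^ 2 * (w r * ‖S r‖ ^ 2)) :=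
          mul_le_mul_of_nonneg_left (mul_le_mul_of_nonneg_right hm1 q1) q2
      _ = _ := by ring
  unfold Vir
  have e5 : e * C0 ^ 2 / 2 * (Pot w P n S rb + L2 w S rb)
      = (1 / 2) * (e * C0 ^ 2 * (Pot w P n S rb + L2 w S rb)) := by ring
  rw [e5]
  linarith

end main

end Crest.Agent.R086.CEx.III
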