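import Crest.Agent.R086.CaseIIIb

/-!
Row 86 (S0114), Part C, regime (R3), CASE III: assembly from the finite dimensional closing lemma
(owner helper153; closing lemma: helper851).
-/

set_option autoImplicit false

open Complex ComplexConjugate MeasureTheory Set Filter Topology

namespace Crest.Agent.R086.CEx.III

open CCore CEx

/-- the closing lemma, interface helper851 / helper153 -/
def CloseStmt : Prop :=
  ∀ {C0 A0 : ℝ}, 1 ≤ C0 → 1 ≤ A0 → ∃ M c : ℝ, 0 < M ∧ 0 < c ∧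
  ∀ (K Pot L NS T Nr ga w m b rho P Lam n e k dl R : ℝ) (h1 h2 s s1 d d1 : ℂ),
    0 ≤ K → 0 ≤ T → 0 ≤ NS → 0 ≤ Lam → 0 ≤ n → 0 ≤ e → 0 ≤ dl → 0 ≤ P →
    1 ≤ R → R ≤ C0 → R ^ 11 / C0 ≤ w → w ≤ C0 * R ^ 11 → |b| ≤ C0 * R → |rho| ≤ C0 →
    R / C0 ≤ m → m ≤ C0 * R → 1 / C0 ≤ 12 - m * (11 / R + 2 * rho) →
    12 - m * (11 / R + 2 * rho) ≤ C0 → M ≤ k → Lam ≤ C0 * k ^ 2 → e ≤ c →
    k / C0 ≤ h1.im → ‖h1‖ ≤ C0 * k → h2.re ≤ -k / C0 → ‖h2‖ ≤ C0 * k →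
    ‖h2‖ ^ 2 ≤ Lam / R ^ 2 + k ^ 2 + C0 → |h2.im| ≤ C0 / k → dl * k ^ 2 ≤ c →
    ‖(s1 + d1) - (h1 - ((11 / R + 2 * rho) / 2 : ℝ) - I * (b / 2 : ℝ)) * (s + d)‖ ^ 2 ≤ dl * L →
    ‖(s1 - d1) - (conj h2 - ((11 / R + 2 * rho) / 2 : ℝ) + I * (b / 2 : ℝ)) * (s - d)‖ ^ 2
      ≤ dl * L →
    L ≤ A0 * (K + w * (‖s‖ ^ 2 + ‖d‖ ^ 2)) →
    k ^ 2 * NS ≤ A0 * (K + w * (‖s‖ * ‖d1‖)) →
    T ≤ A0 * (k * NS + (K + w * (‖s‖ ^ 2 + ‖d‖ ^ 2)) / k) →
    K / A0 ≤ (1 / 2) * (m * w * (‖s1‖ ^ 2 + ‖d1‖ ^ 2)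
        - Lam * (m * w / R ^ 2) * (‖s‖ ^ 2 + ‖d‖ ^ 2)
        - n * (m * w * P) * ‖s‖ ^ 2 - 2 * (-k ^ 2) * (m * w) * (d * conj s).re)
      + 6 * (w * (conj s * s1 + conj d * d1).re)
      + A0 * (w * (‖s‖ ^ 2 + ‖d‖ ^ 2) + T) + A0 * e * (Pot + NS) →
    Pot ≤ K + w * |(conj s * s1 - conj d * d1).re| + A0 * (w * (‖s‖ ^ 2 + ‖d‖ ^ 2) + T) →
    w * (conj s * s1 + conj d * d1).im + w * b * (conj s * d).re = ga * Nr →
    |ga| ≤ A0 →
    k ^ 2 * |Nr| ≤ K + w * |(conj d * d1).re| + A0 * (w * (‖s‖ ^ 2 + ‖d‖ ^ 2) + T) →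
    K = 0 ∧ s = 0 ∧ d = 0

theorem caseIII_of (hcl : CloseStmt) : CaseIII := by
  intro C0 hC0
  have hCp : 0 < C0 := by linarith
  have c2 : (1 : ℝ) ≤ C0 ^ 2 := one_le_pow₀ hC0
  have c3 : (1 : ℝ) ≤ C0 ^ 3 := one_le_pow₀ hC0
  have c4 : (1 : ℝ) ≤ C0 ^ 4 := one_le_pow₀ hC0
  have c6 : (1 : ℝ) ≤ C0 ^ 6 := one_le_pow₀ hC0
  have c16 : C0 ≤ C0 ^ 6 := by
    calc C0 = C0 ^ 1 := (pow_one C0).symm
      _ ≤ C0 ^ 6 := pow_le_pow_right₀ hC0 (by norm_num)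
  have c26 : C0 ^ 2 ≤ C0 ^ 6 := pow_le_pow_right₀ hC0 (by norm_num)
  have c36 : C0 ^ 3 ≤ C0 ^ 6 := pow_le_pow_right₀ hC0 (by norm_num)
  have c46 : C0 ^ 4 ≤ C0 ^ 6 := pow_le_pow_right₀ hC0 (by norm_num)
  set A0 : ℝ := 100 * C0 ^ 6 with hA0
  have A01 : 1 ≤ A0 := by linarith
  have A0p : 0 < A0 := by linarith
  obtain ⟨M, c, hM, hc, H⟩ := hcl hC0 A01
  refine ⟨max M 1, c, lt_of_lt_of_le hM (le_max_left _ _), hc, ?_⟩
  intro w b P P1 rho m e n rb Lam eps k lam h1 h2 S S1 D D1 dl hco hso hbd hre hk him hLam he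
    hh1 hh1n hh2 hh2n hh2s hh2i hdl
  have hMk : M ≤ k := (le_max_left _ _).trans hk
  have hk1 : 1 ≤ k := (le_max_right _ _).trans hk
  have hkp : 0 < k := by linarith
  have h := sysOn hco hso
  have hR := h.Rpos
  have hrb : rb ∈ Ioc 0 rb := ⟨hR, le_rfl⟩
  have hw0 : ∀ r ∈ Ioc 0 rb, 0 ≤ w r := fun r hr => (wpos hco r hr).le
  have hwR := wpos hco rb hrb
  obtain ⟨E1, E2, A12, Ch, V, X⟩ := idStmt w b P P1 rho m C0 e n rb Lam eps lam S S1 D D1 hco hso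
  set KS := KK w Lam S S1 rb with hKS
  set KD := KK w Lam D D1 rb with hKD
  have KS0 : 0 ≤ KS := KKS_nonneg hco hso
  have KD0 : 0 ≤ KD := KKD_nonneg hco hso
  set NS := L2 w S rb with hNS
  set ND := L2 w D rb with hND
  have NS0 : 0 ≤ NS := L2_nonneg hR hw0
  have ND0 : 0 ≤ ND := L2_nonneg hR hw0
  have NS1 : L2 w S1 rb ≤ KS := S1_le_KK hco hso
  have ND1 : L2 w D1 rb ≤ KD := D1_le_KK hco hso
  have ND10 : 0 ≤ L2 w D1 rb := L2_nonneg hR hw0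
  have NS10 : 0 ≤ L2 w S1 rb := L2_nonneg hR hw0
  set Bq := w rb * (‖S rb‖ ^ 2 + ‖D rb‖ ^ 2) with hBq
  have Bq0 : 0 ≤ Bq := by positivity
  have BS : w rb * ‖S rb‖ ^ 2 ≤ Bq := by
    rw [hBq]
    have : 0 ≤ w rb * ‖D rb‖ ^ 2 := by positivity
    linarith
  have BD : w rb * ‖D rb‖ ^ 2 ≤ Bq := by
    rw [hBq]
    have : 0 ≤ w rb * ‖S rb‖ ^ 2 := by positivity
    linarith
  have BSD : w rb * (‖S rb‖ * ‖D rb‖) ≤ Bq := by
    rw [hBq]
    refine mul_le_mul_of_nonneg_left ?_ hwR.le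
    nlinarith [sq_nonneg (‖S rb‖ - ‖D rb‖), sq_nonneg (‖S rb‖ + ‖D rb‖)]
  -- (L)
  have pS := poincS hco hso
  have pD := poincD hco hso
  have LS : NS ≤ C0 ^ 4 * (KS + w rb * ‖S rb‖ ^ 2) := by
    have e1 : (C0 ^ 2) ^ 2 / 6 * L2 w S1 rb ≤ C0 ^ 4 * KS := by
      have : (C0 ^ 2) ^ 2 / 6 * L2 w S1 rb ≤ (C0 ^ 2) ^ 2 * KS := by
        have h0 : (C0 ^ 2) ^ 2 / 6 ≤ (C0 ^ 2) ^ 2 := by
          have : 0 ≤ (C0 ^ 2) ^ 2 := by positivity
          linarith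
        exact mul_le_mul h0 NS1 NS10 (by positivity)
      calc _ ≤ (C0 ^ 2) ^ 2 * KS := this
        _ = C0 ^ 4 * KS := by ring
    have e2 : C0 ^ 2 * (w rb * ‖S rb‖ ^ 2) ≤ C0 ^ 4 * (w rb * ‖S rb‖ ^ 2) := by
      refine mul_le_mul_of_nonneg_right ?_ (by positivity)
      exact pow_le_pow_right₀ hC0 (by norm_num)
    have : 0 ≤ NS := NS0
    rw [mul_add]
    linarith
  have LD : ND ≤ C0 ^ 4 * (KD + w rb * ‖D rb‖ ^ 2) := by
    have e1 : (C0 ^ 2) ^ 2 / 6 * L2 w D1 rb ≤ C0 ^ 4 * KD := by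
      have : (C0 ^ 2) ^ 2 / 6 * L2 w D1 rb ≤ (C0 ^ 2) ^ 2 * KD := by
        have h0 : (C0 ^ 2) ^ 2 / 6 ≤ (C0 ^ 2) ^ 2 := by
          have : 0 ≤ (C0 ^ 2) ^ 2 := by positivity
          linarith
        exact mul_le_mul h0 ND1 ND10 (by positivity)
      calc _ ≤ (C0 ^ 2) ^ 2 * KD := this
        _ = C0 ^ 4 * KD := by ring
    have e2 : C0 ^ 2 * (w rb * ‖D rb‖ ^ 2) ≤ C0 ^ 4 * (w rb * ‖D rb‖ ^ 2) := by
      refine mul_le_mul_of_nonneg_right ?_ (by positivity)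
      exact pow_le_pow_right₀ hC0 (by norm_num)
    have : 0 ≤ ND := ND0
    rw [mul_add]
    linarith
  set K := KS + KD with hK
  have K0 : 0 ≤ K := by positivity
  have HL : NS + ND ≤ A0 * (K + Bq) := by
    have e1 : NS + ND ≤ C0 ^ 4 * (K + Bq) := by
      calc NS + ND ≤ C0 ^ 4 * (KS + w rb * ‖S rb‖ ^ 2) + C0 ^ 4 * (KD + w rb * ‖D rb‖ ^ 2) :=
            add_le_add LS LD
        _ = C0 ^ 4 * (K + Bq) := by rw [hK, hBq]; ring
    refine e1.trans (mul_le_mul_of_nonneg_right ?_ (by positivity))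
    linarith
  have LD2 : ND ≤ C0 ^ 4 * (K + Bq) := by
    refine LD.trans (mul_le_mul_of_nonneg_left ?_ (by positivity))
    linarith
  -- (NS)
  have hlam : k ^ 2 ≤ ‖lam‖ := by
    have h3 := Complex.abs_im_le_norm lam
    rw [him, abs_neg, abs_of_nonneg (by positivity)] at h3
    exact h3
  have hIB := idb_bd hco hso (t := k ^ 2 / C0 ^ 2) (by positivity)
  have HN : k ^ 2 * NS ≤ A0 * (K + w rb * (‖S rb‖ * ‖D1 rb‖)) := by
    have e1 : k ^ 2 * NS ≤ ‖lam‖ * NS := mul_le_mul_of_nonneg_right hlam NS0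
    have e2 : C0 ^ 2 / 2 * (k ^ 2 / C0 ^ 2 * NS + (k ^ 2 / C0 ^ 2)⁻¹ * KS)
        = k ^ 2 * NS / 2 + C0 ^ 4 / (2 * k ^ 2) * KS := by
      field_simp
    have e3 : C0 ^ 4 / (2 * k ^ 2) * KS ≤ C0 ^ 4 / 2 * K := by
      have h4 : C0 ^ 4 / (2 * k ^ 2) ≤ C0 ^ 4 / 2 := by
        apply div_le_div_of_nonneg_left (by positivity) (by norm_num)
        have : (1 : ℝ) ≤ k ^ 2 := one_le_pow₀ hk1
        linarith
      have h5 : KS ≤ K := by linarith
      exact mul_le_mul h4 h5 KS0 (by positivity)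
    rw [e2] at hIB
    have e4 : k ^ 2 * NS ≤ K + C0 ^ 4 * K + 2 * (w rb * (‖S rb‖ * ‖D1 rb‖)) := by
      linarith
    have e5 : 0 ≤ w rb * (‖S rb‖ * ‖D1 rb‖) := by positivity
    have e6 : K + C0 ^ 4 * K ≤ A0 * K := by
      have : K + C0 ^ 4 * K = (1 + C0 ^ 4) * K := by ring
      rw [this]
      exact mul_le_mul_of_nonneg_right (by linarith) K0
    have e7 : 2 * (w rb * (‖S rb‖ * ‖D1 rb‖)) ≤ A0 * (w rb * (‖S rb‖ * ‖D1 rb‖)) :=
      mul_le_mul_of_nonneg_right (by linarith) e5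
    rw [mul_add]
    linarith
  -- (T)
  set T := C0 ^ 2 * (k * NS + k⁻¹ * (ND + K)) with hT
  have T0 : 0 ≤ T := by positivity
  have HT : T ≤ A0 * (k * NS + (K + Bq) / k) := by
    have e1 : ND + K ≤ 2 * C0 ^ 4 * (K + Bq) := by
      have : K ≤ C0 ^ 4 * (K + Bq) := by nlinarith
      linarith
    have e2 : k⁻¹ * (ND + K) ≤ k⁻¹ * (2 * C0 ^ 4 * (K + Bq)) :=
      mul_le_mul_of_nonneg_left e1 (by positivity)
    calc T ≤ C0 ^ 2 * (k * NS + k⁻¹ * (2 * C0 ^ 4 * (K + Bq))) := by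
          rw [hT]
          gcongr
      _ = C0 ^ 2 * (k * NS) + 2 * C0 ^ 6 * ((K + Bq) / k) := by
          field_simp
      _ ≤ A0 * (k * NS) + A0 * ((K + Bq) / k) := by
          refine add_le_add ?_ ?_
          · exact mul_le_mul_of_nonneg_right (by linarith) (by positivity)
          · exact mul_le_mul_of_nonneg_right (by linarith) (by positivity)
      _ = _ := by ring
  have tN : ‖Nc w S D rb‖ ≤ T := by
    unfold Nc
    have h3 := young (A := 1) (t := k) (f := S) (g := D)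
      (F := fun r => (w r : ℂ) * (conj (S r) * D r)) hR h.bcw hw0 (fun r hr => by
        rw [norm_mul, norm_mul, RCLike.norm_conj, Complex.norm_real, Real.norm_eq_abs,
          abs_of_nonneg (hw0 r hr)]
        linarith) zero_le_one h.bcS h.bcD hkp
    refine h3.trans ?_
    rw [hT]
    have e1 : k⁻¹ * L2 w D rb ≤ k⁻¹ * (ND + K) :=
      mul_le_mul_of_nonneg_left (by linarith) (by positivity)
    have e2 : 0 ≤ k * NS + k⁻¹ * (ND + K) := by positivity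
    calc 1 / 2 * (k * L2 w S rb + k⁻¹ * L2 w D rb) ≤ 1 / 2 * (k * NS + k⁻¹ * (ND + K)) := by
          gcongr
      _ ≤ C0 ^ 2 * (k * NS + k⁻¹ * (ND + K)) := mul_le_mul_of_nonneg_right (by linarith) e2
  have tA : ‖AA w b S D1 rb‖ ≤ T := by
    unfold AA
    have h3 := young (A := C0 ^ 2) (t := k) (f := S) (g := D1)
      (F := fun r => ((w r * b r : ℝ) : ℂ) * (conj (S r) * D1 r)) hR h.bcw hw0 (fun r hr => by
        rw [norm_mul, norm_mul, RCLike.norm_conj, Complex.norm_real, Real.norm_eq_abs, abs_mul,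
          abs_of_nonneg (hw0 r hr)]
        have h4 := b_le hco r hr
        have h5 := hw0 r hr
        calc w r * |b r| * (‖S r‖ * ‖D1 r‖) ≤ w r * C0 ^ 2 * (‖S r‖ * ‖D1 r‖) := by gcongr
          _ = _ := by ring) (by positivity) h.bcS h.bcD1 hkp
    refine h3.trans ?_
    rw [hT]
    have e2 : 0 ≤ k * NS + k⁻¹ * (ND + K) := by positivity
    calc C0 ^ 2 / 2 * (k * L2 w S rb + k⁻¹ * L2 w D1 rb)
        ≤ C0 ^ 2 / 2 * (k * NS + k⁻¹ * (ND + K)) := by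
          gcongr
          linarith
      _ ≤ C0 ^ 2 * (k * NS + k⁻¹ * (ND + K)) := mul_le_mul_of_nonneg_right (by linarith) e2
  have tM : ‖∫ r in (0 : ℝ)..rb, ((m r * w r : ℝ) : ℂ) * (S r * conj (D1 r))‖ ≤ T := by
    have h3 := young (A := C0 ^ 2) (t := k) (f := S) (g := D1)
      (F := fun r => ((m r * w r : ℝ) : ℂ) * (S r * conj (D1 r))) hR h.bcw hw0 (fun r hr => by
        rw [norm_mul, norm_mul, RCLike.norm_conj, Complex.norm_real, Real.norm_eq_abs, abs_mul,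
          abs_of_nonneg (hw0 r hr), abs_of_nonneg (m_nonneg hco r hr)]
        have h4 := m_le hco r hr
        have h5 := hw0 r hr
        calc m r * w r * (‖S r‖ * ‖D1 r‖) ≤ C0 ^ 2 * w r * (‖S r‖ * ‖D1 r‖) := by gcongr
          _ = _ := by ring) (by positivity) h.bcS h.bcD1 hkp
    refine h3.trans ?_
    rw [hT]
    have e2 : 0 ≤ k * NS + k⁻¹ * (ND + K) := by positivity
    calc C0 ^ 2 / 2 * (k * L2 w S rb + k⁻¹ * L2 w D1 rb)
        ≤ C0 ^ 2 / 2 * (k * NS + k⁻¹ * (ND + K)) := by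
          gcongr
          linarith
      _ ≤ C0 ^ 2 * (k * NS + k⁻¹ * (ND + K)) := mul_le_mul_of_nonneg_right (by linarith) e2
  -- imaginary parts of the cross terms
  have iN : |(Nc w S D rb).im| ≤ T := (Complex.abs_im_le_norm _).trans tN
  have iA1 : |(AA w b S D1 rb).im| ≤ T := (Complex.abs_im_le_norm _).trans tA
  have iM := (Complex.abs_im_le_norm _).trans tM
  have cSD : |(conj (S rb) * D rb).im| ≤ ‖S rb‖ * ‖D rb‖ := C2.im_mul_le _ _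
  have iB : |w rb * b rb * (conj (S rb) * D rb).im| ≤ C0 ^ 2 * Bq := by
    rw [abs_mul, abs_mul, abs_of_pos hwR]
    have h4 := b_le hco rb hrb
    calc w rb * |b rb| * |(conj (S rb) * D rb).im|
        ≤ w rb * C0 ^ 2 * (‖S rb‖ * ‖D rb‖) := by gcongr
      _ = C0 ^ 2 * (w rb * (‖S rb‖ * ‖D rb‖)) := by ring
      _ ≤ C0 ^ 2 * Bq := mul_le_mul_of_nonneg_left BSD (by positivity)
  have iMB : |(m rb * w rb) * (conj (S rb) * D rb).im| ≤ C0 ^ 2 * Bq := by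
    rw [abs_mul, abs_mul, abs_of_pos hwR, abs_of_nonneg (m_nonneg hco rb hrb)]
    have h4 := m_le hco rb hrb
    calc m rb * w rb * |(conj (S rb) * D rb).im|
        ≤ C0 ^ 2 * w rb * (‖S rb‖ * ‖D rb‖) := by gcongr
      _ = C0 ^ 2 * (w rb * (‖S rb‖ * ‖D rb‖)) := by ring
      _ ≤ C0 ^ 2 * Bq := mul_le_mul_of_nonneg_left BSD (by positivity)
  have A12im : (AA w b S D1 rb).im - (AA w b D S1 rb).im
      = w rb * b rb * (conj (S rb) * D rb).im - (6 - 2 * eps) * (Nc w S D rb).im := by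
    have h3 := congrArg Complex.im A12
    rw [Complex.add_im, Complex.conj_im, Complex.sub_im, Complex.im_ofReal_mul] at h3
    have e1 : ((6 - 2 * (eps : ℂ)) * Nc w S D rb).im = (6 - 2 * eps) * (Nc w S D rb).im := by
      have : (6 - 2 * (eps : ℂ)) = ((6 - 2 * eps : ℝ) : ℂ) := by push_cast; ring
      rw [this, Complex.im_ofReal_mul]
    rw [e1] at h3
    linarith
  have heps0 := hso.eps_nonneg
  have heps1 := hso.eps_le
  have hN6 : |(6 - 2 * eps) * (Nc w S D rb).im| ≤ 6 * T := by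
    rw [abs_mul]
    refine mul_le_mul ?_ iN (abs_nonneg _) (by norm_num)
    rw [abs_le]
    constructor <;> linarith
  have iA2 : |(AA w b D S1 rb).im| ≤ 7 * T + C0 ^ 2 * Bq := by
    have e1 : (AA w b D S1 rb).im = (AA w b S D1 rb).im
        - w rb * b rb * (conj (S rb) * D rb).im + (6 - 2 * eps) * (Nc w S D rb).im := by linarith
    rw [e1]
    have h3 := abs_le.1 iA1
    have h4 := abs_le.1 iB
    have h5 := abs_le.1 hN6
    rw [abs_le]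
    constructor <;> linarith [h3.1, h3.2, h4.1, h4.2, h5.1, h5.2]
  have iX : |(Xm w m S S1 D D1 rb).im| ≤ 14 * T + C0 ^ 2 * Bq := by
    rw [X]
    have h3 := abs_le.1 iM
    have h4 := abs_le.1 iMB
    have h5 := abs_le.1 iN
    rw [abs_le]
    constructor <;> linarith [h3.1, h3.2, h4.1, h4.2, h5.1, h5.2]
  have hkap := abs_le.1 hre
  have hC0B : C0 ^ 2 * Bq ≤ C0 ^ 3 * Bq :=
    mul_le_mul_of_nonneg_right (pow_le_pow_right₀ hC0 (by norm_num)) Bq0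
  have hTC : T ≤ C0 * T := le_mul_of_one_le_left T0 hC0
  have hA0C : A0 * (Bq + T) = 100 * (C0 ^ 6 * Bq) + 100 * (C0 ^ 6 * T) := by rw [hA0]; ring
  have g1 : C0 ^ 3 * Bq ≤ C0 ^ 6 * Bq := mul_le_mul_of_nonneg_right c36 Bq0
  have g2 : C0 * T ≤ C0 ^ 6 * T := mul_le_mul_of_nonneg_right c16 T0
  have g3 : 0 ≤ C0 ^ 6 * T := by positivity
  have g4 : 0 ≤ C0 ^ 6 * Bq := by positivity
  have iKN : |lam.re * (Nc w S D rb).im| ≤ C0 * T := by
    rw [abs_mul]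
    exact mul_le_mul hre iN (abs_nonneg _) hCp.le
  have iKX : |lam.re * (Xm w m S S1 D D1 rb).im| ≤ 14 * (C0 * T) + C0 ^ 3 * Bq := by
    rw [abs_mul]
    calc |lam.re| * |(Xm w m S S1 D D1 rb).im| ≤ C0 * (14 * T + C0 ^ 2 * Bq) :=
          mul_le_mul hre iX (abs_nonneg _) hCp.le
      _ = _ := by ring
  have imN : (lam * Nc w S D rb).im = lam.re * (Nc w S D rb).im - k ^ 2 * (Nc w S D rb).re := by
    rw [Complex.mul_im, him]; ring
  have imN2 : (lam * conj (Nc w S D rb)).im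
      = -(lam.re * (Nc w S D rb).im) - k ^ 2 * (Nc w S D rb).re := by
    rw [Complex.mul_im, him, Complex.conj_im, Complex.conj_re]; ring
  -- (V)
  have hvir := vir_ge hco hso
  rw [V] at hvir
  have hPot0 : 0 ≤ Pot w P n S rb := Pot_nonneg hco
  have he0 := hco.e_nonneg
  have HV : K / A0 ≤ (1 / 2) * (m rb * w rb * (‖S1 rb‖ ^ 2 + ‖D1 rb‖ ^ 2)
        - Lam * (m rb * w rb / rb ^ 2) * (‖S rb‖ ^ 2 + ‖D rb‖ ^ 2)
        - n * (m rb * w rb * P rb) * ‖S rb‖ ^ 2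
        - 2 * (-k ^ 2) * (m rb * w rb) * (D rb * conj (S rb)).re)
      + 6 * (w rb * (conj (S rb) * S1 rb + conj (D rb) * D1 rb).re)
      + A0 * (Bq + T) + A0 * e * (Pot w P n S rb + NS) := by
    have e1 : Vb w m P Lam n lam S S1 D D1 rb
        = m rb * w rb * (‖S1 rb‖ ^ 2 + ‖D1 rb‖ ^ 2)
        - Lam * (m rb * w rb / rb ^ 2) * (‖S rb‖ ^ 2 + ‖D rb‖ ^ 2)
        - n * (m rb * w rb * P rb) * ‖S rb‖ ^ 2
        - 2 * (-k ^ 2) * (m rb * w rb) * (D rb * conj (S rb)).re := by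
      unfold Vb
      rw [him]
    rw [e1] at hvir
    have e2 : K / A0 ≤ K / C0 := div_le_div_of_nonneg_left K0 hCp (by linarith)
    have e3 : e * C0 ^ 2 / 2 * (Pot w P n S rb + NS) ≤ A0 * e * (Pot w P n S rb + NS) := by
      refine mul_le_mul_of_nonneg_right ?_ (by positivity)
      have : e * C0 ^ 2 ≤ e * A0 := mul_le_mul_of_nonneg_left (by linarith) he0
      have h8 : 0 ≤ e * C0 ^ 2 := by positivity
      linarith
    have e4 : (AA w b S D1 rb + AA w b D S1 rb).im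
        = (AA w b S D1 rb).im + (AA w b D S1 rb).im := Complex.add_im _ _
    rw [e4] at hvir
    have h3 := abs_le.1 iA1
    have h4 := abs_le.1 iA2
    have h5 := abs_le.1 iKX
    rw [hA0C]
    linarith [h3.1, h3.2, h4.1, h4.2, h5.1, h5.2]
  -- (P)
  have HP : Pot w P n S rb ≤ K + w rb * |(conj (S rb) * S1 rb - conj (D rb) * D1 rb).re|
      + A0 * (Bq + T) := by
    have e1 : w rb * (conj (S rb) * S1 rb - conj (D rb) * D1 rb).re
        ≤ w rb * |(conj (S rb) * S1 rb - conj (D rb) * D1 rb).re| :=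
      mul_le_mul_of_nonneg_left (le_abs_self _) hwR.le
    have e2 : w rb * (conj (S rb) * S1 rb - conj (D rb) * D1 rb).re
        = w rb * (conj (S rb) * S1 rb).re - w rb * (conj (D rb) * D1 rb).re := by
      rw [Complex.sub_re]; ring
    have h3 := abs_le.1 iA1
    have h4 := abs_le.1 iA2
    have h5 := abs_le.1 iKN
    rw [imN] at E1
    rw [imN2] at E2
    rw [hA0C]
    linarith [h3.1, h3.2, h4.1, h4.2, h5.1, h5.2]
  -- (Ch)
  have HC : w rb * (conj (S rb) * S1 rb + conj (D rb) * D1 rb).im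
      + w rb * b rb * (conj (S rb) * D rb).re = (6 - 2 * eps - 2 * lam.re) * (Nc w S D rb).re := Ch
  have Hga : |6 - 2 * eps - 2 * lam.re| ≤ A0 := by
    rw [abs_le]
    constructor <;> linarith [hkap.1, hkap.2]
  -- (E2)
  have HE : k ^ 2 * |(Nc w S D rb).re| ≤ K + w rb * |(conj (D rb) * D1 rb).re|
      + A0 * (Bq + T) := by
    have e1 : k ^ 2 * |(Nc w S D rb).re| = |k ^ 2 * (Nc w S D rb).re| := by
      rw [abs_mul, abs_of_nonneg (by positivity : (0 : ℝ) ≤ k ^ 2)]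
    have e2 : w rb * |(conj (D rb) * D1 rb).re| = |w rb * (conj (D rb) * D1 rb).re| := by
      rw [abs_mul, abs_of_pos hwR]
    rw [e1, e2]
    have e3 := le_abs_self (w rb * (conj (D rb) * D1 rb).re)
    have e4 := neg_abs_le (w rb * (conj (D rb) * D1 rb).re)
    have h4 := abs_le.1 iA2
    have h5 := abs_le.1 iKN
    rw [imN2] at E2
    rw [hA0C, abs_le]
    constructor <;> linarith [h4.1, h4.2, h5.1, h5.2]
  have hfin := H K (Pot w P n S rb) (NS + ND) NS T (Nc w S D rb).re (6 - 2 * eps - 2 * lam.re)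
    (w rb) (m rb) (b rb) (rho rb) (P rb) Lam n e k dl rb h1 h2 (S rb) (S1 rb) (D rb) (D1 rb)
    K0 T0 NS0 hso.Lam_nonneg (by linarith [hco.n_one]) he0 hbd.dl_nonneg (hco.P_nonneg rb hrb)
    hco.rb_lo hco.rb_hi (hco.wlo rb hrb) (hco.whi rb hrb) (hco.bhi rb hrb) (hco.rhohi rb hrb)
    (hco.m_lo rb hrb) (hco.m_hi rb hrb) (hco.m1_lo rb hrb) (hco.m1_hi rb hrb) hMk hLam he
    hh1 hh1n hh2 hh2n hh2s hh2i hdl hbd.relF hbd.relG HL HN HT HV HP HC Hga HE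
  obtain ⟨hKz, hSz, hDz⟩ := hfin
  have hBz : Bq = 0 := by rw [hBq, hSz, hDz]; simp
  rw [hKz, hBz] at HL
  simp only [add_zero, mul_zero] at HL
  have z1 : L2 w S rb ≤ 0 := by linarith
  have z2 : L2 w D rb ≤ 0 := by linarith
  intro r hr
  exact ⟨eq_zero_of_L2 hR h.bcw (wpos hco) h.bcS z1 r hr,
    eq_zero_of_L2 hR h.bcw (wpos hco) h.bcD z2 r hr⟩

end Crest.Agent.R086.CEx.III
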