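import Mathlib
import Crest.Agent.R086.JInt
import Crest.Agent.R086.JCx
import Crest.Agent.R086.JAs

/-!
Row 86, part A (helper507): Lemma P, Moebius recursion and Riccati equation for
`G a b rho = rho * J (a+1) (b-a-1) rho / J a (b-a-1) rho`.
-/
set_option autoImplicit false
open MeasureTheory Complex Set Filter Topology
open scoped ComplexConjugate

namespace Crest.Agent.R086.LemP

open Crest.Agent.R086.JInt

/-- real form of the sector bound -/
theorem J_bound (a c : ℂ) (rho0 : ℝ) (ha : 0 < a.re) (hr : 0 < rho0) :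
    ∃ K : ℝ, ∀ rho : ℝ, rho0 ≤ rho → ‖J a c rho‖ ≤ K * rho ^ (-a.re) := by
  obtain ⟨M, hM⟩ := exists_nat_ge c.re
  obtain ⟨K, hK0, hK⟩ := JCx.J_bound (x0 := a.re) (x1 := a.re) (r0 := rho0) (y := |c.im|)
    (cth := 1) M ha hr one_pos le_rfl
  refine ⟨K, fun rho hrho => ?_⟩
  have hpos : 0 < rho := by linarith
  have hn : ‖(rho : ℂ)‖ = rho := by rw [Complex.norm_real, Real.norm_of_nonneg hpos.le]
  have := hK a c (rho : ℂ) le_rfl le_rfl hM le_rfl (by rw [hn]; exact hrho)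
    (by rw [hn]; simp)
  rw [hn] at this
  exact this

theorem J_asymp (a c : ℂ) (ha : 0 < a.re) :
    Tendsto (fun rho : ℝ => (rho : ℂ) ^ a * J a c rho) atTop (𝓝 (Gamma a)) := by
  obtain ⟨M, hM⟩ := exists_nat_ge c.re
  obtain ⟨K, hK0, hK⟩ := JCx.J_asymp (x0 := a.re) (x1 := a.re) (r0 := 1) (y := |a.im| + ‖c‖)
    (cth := 1) M ha one_pos one_pos le_rfl
  rw [tendsto_iff_norm_sub_tendsto_zero]
  have hlim : Tendsto (fun rho : ℝ => K / rho) atTop (𝓝 0) := tendsto_const_nhds.div_atTop tendsto_id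
  refine squeeze_zero' (Eventually.of_forall fun _ => norm_nonneg _) ?_ hlim
  filter_upwards [eventually_ge_atTop (1 : ℝ)] with rho hrho
  have hpos : 0 < rho := by linarith
  have hn : ‖(rho : ℂ)‖ = rho := by rw [Complex.norm_real, Real.norm_of_nonneg hpos.le]
  have := hK a c (rho : ℂ) le_rfl le_rfl (by linarith [norm_nonneg c]) hM
    (by linarith [abs_nonneg a.im]) (by rw [hn]; exact hrho) (by rw [hn]; simp)
  rw [hn] at this
  exact this

/-- `G_a(b, rho) = rho J(a+1,c)/J(a,c)`, `c = b-a-1` (equals `-z U'/U` at `z = -i rho`). -/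
noncomputable def G (a b : ℂ) (ρ : ℝ) : ℂ := ρ * J (a + 1) (b - a - 1) ρ / J a (b - a - 1) ρ

theorem hasDerivAt_re {f : ℝ → ℂ} {f' : ℂ} {x : ℝ} (h : HasDerivAt f f' x) :
    HasDerivAt (fun y => (f y).re) f'.re x := by
  exact (Complex.reCLM.hasFDerivAt (x := f x)).comp_hasDerivAt x h

theorem hasDerivAt_im {f : ℝ → ℂ} {f' : ℂ} {x : ℝ} (h : HasDerivAt f f' x) :
    HasDerivAt (fun y => (f y).im) f'.im x := by
  exact (Complex.imCLM.hasFDerivAt (x := f x)).comp_hasDerivAt x h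

/-- the energy functional -/
noncomputable def S (a c : ℂ) (b x : ℝ) : ℝ :=
  x ^ b * (normSq (J a c x) / 2 - (J (a + 1) c x * conj (J a c x)).im)

theorem S_hasDerivAt (a c : ℂ) (b : ℝ) (hc : c = b - a - 1) (ha : 0 < a.re) {x : ℝ} (hx : 0 < x) :
    HasDerivAt (S a c b) (x ^ (b - 1) * ((b / 2 - a.re) * normSq (J a c x))) x := by
  have h0 := J_hasDerivAt (c := c) ha hx
  have ha1 : 0 < (a + 1).re := by simp; linarith
  have h1 := J_hasDerivAt (c := c) ha1 hx
  rw [show a + 1 + 1 = a + 2 by ring] at h1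
  have hib := J_ibp (c := c) ha hx
  have hcb : a + c + 1 = b := by rw [hc]; ring
  rw [hcb] at hib
  have hx' : (x : ℂ) ≠ 0 := by exact_mod_cast hx.ne'
  -- derivative of normSq and of the product
  have hre0 := hasDerivAt_re h0
  have him0 := hasDerivAt_im h0
  have hre1 := hasDerivAt_re h1
  have him1 := hasDerivAt_im h1
  have hpow := Real.hasDerivAt_rpow_const (x := x) (p := b) (Or.inl hx.ne')
  have hE : (fun y : ℝ => normSq (J a c y) / 2 - (J (a + 1) c y * conj (J a c y)).im)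
      = fun y : ℝ => ((J a c y).re * (J a c y).re + (J a c y).im * (J a c y).im) / 2
        - ((J (a+1) c y).im * (J a c y).re - (J (a+1) c y).re * (J a c y).im) := by
    funext y
    simp [normSq_apply, Complex.mul_im]
    ring
  have hD : HasDerivAt (fun y : ℝ => normSq (J a c y) / 2 - (J (a + 1) c y * conj (J a c y)).im)
      (((-(J (a+1) c x)).re * (J a c x).re + (J a c x).re * (-(J (a+1) c x)).re
        + ((-(J (a+1) c x)).im * (J a c x).im + (J a c x).im * (-(J (a+1) c x)).im)) / 2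
        - ((-(J (a+2) c x)).im * (J a c x).re + (J (a+1) c x).im * (-(J (a+1) c x)).re
          - ((-(J (a+2) c x)).re * (J a c x).im + (J (a+1) c x).re * (-(J (a+1) c x)).im))) x := by
    rw [hE]
    exact (((hre0.mul hre0).add (him0.mul him0)).div_const 2).sub
      ((him1.mul hre0).sub (hre1.mul him0))
  have hS := hpow.mul hD
  have hfun : S a c b = fun y : ℝ => y ^ b *
      (normSq (J a c y) / 2 - (J (a + 1) c y * conj (J a c y)).im) := rfl
  rw [hfun]
  refine HasDerivAt.congr_deriv hS ?_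
  -- algebra
  have hb : x ^ b = x ^ (b - 1) * x := by
    rw [← Real.rpow_add_one hx.ne']; ring_nf
  rw [hb]
  -- real and imaginary parts of the recursion
  have hre := congrArg Complex.re hib
  have him := congrArg Complex.im hib
  simp only [Complex.mul_re, Complex.mul_im, Complex.add_re, Complex.add_im, Complex.neg_re,
    Complex.neg_im, Complex.I_re, Complex.I_im, Complex.ofReal_re, Complex.ofReal_im] at hre him
  simp only [normSq_apply, Complex.mul_im, Complex.conj_re, Complex.conj_im, Complex.neg_re,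
    Complex.neg_im]
  linear_combination (x ^ (b-1)) * ((J a c x).re) * him - (x ^ (b-1)) * ((J a c x).im) * hre

theorem S_tendsto (a c : ℂ) (b : ℝ) (ha : 0 < a.re) (hab : b / 2 < a.re) :
    Tendsto (S a c b) atTop (𝓝 0) := by
  obtain ⟨K0, hK0⟩ := J_bound a c 1 ha one_pos
  have ha1 : 0 < (a + 1).re := by simp; linarith
  obtain ⟨K1, hK1⟩ := J_bound (a + 1) c 1 ha1 one_pos
  have hlim : Tendsto (fun x : ℝ => (K0 ^ 2 / 2 + K1 * K0) * x ^ (-(2 * a.re - b))) atTop (𝓝 0) := by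
    have := (tendsto_rpow_neg_atTop (y := 2 * a.re - b) (by linarith)).const_mul (K0 ^ 2 / 2 + K1 * K0)
    simpa using this
  refine squeeze_zero_norm' ?_ hlim
  filter_upwards [eventually_ge_atTop (1 : ℝ)] with x hx
  have hx0 : 0 < x := by linarith
  have h0 := hK0 x hx
  have h1 := hK1 x hx
  have hp0 : 0 < x ^ (-a.re) := Real.rpow_pos_of_pos hx0 _
  have hp1 : 0 < x ^ (-(a+1).re) := Real.rpow_pos_of_pos hx0 _
  have hle : x ^ (-(a+1).re) ≤ x ^ (-a.re) := by
    apply Real.rpow_le_rpow_of_exponent_le hx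
    simp
  have hK0' : 0 ≤ K0 := by
    have := (norm_nonneg _).trans h0
    exact nonneg_of_mul_nonneg_left this hp0
  have hK1' : 0 ≤ K1 := by
    have := (norm_nonneg _).trans h1
    exact nonneg_of_mul_nonneg_left this hp1
  have h1' : ‖J (a + 1) c x‖ ≤ K1 * x ^ (-a.re) := h1.trans (mul_le_mul_of_nonneg_left hle hK1')
  have hsq : normSq (J a c x) ≤ K0 ^ 2 * (x ^ (-a.re)) ^ 2 := by
    rw [Complex.normSq_eq_norm_sq, ← mul_pow]
    exact pow_le_pow_left₀ (norm_nonneg _) h0 2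
  have him : |(J (a + 1) c x * conj (J a c x)).im| ≤ K1 * K0 * (x ^ (-a.re)) ^ 2 := by
    calc |(J (a + 1) c x * conj (J a c x)).im| ≤ ‖J (a + 1) c x * conj (J a c x)‖ := Complex.abs_im_le_norm _
      _ = ‖J (a + 1) c x‖ * ‖J a c x‖ := by rw [norm_mul, Complex.norm_conj]
      _ ≤ (K1 * x ^ (-a.re)) * (K0 * x ^ (-a.re)) :=
          mul_le_mul h1' h0 (norm_nonneg _) ((norm_nonneg _).trans h1')
      _ = K1 * K0 * (x ^ (-a.re)) ^ 2 := by ring
  have hpow : x ^ b * (x ^ (-a.re)) ^ 2 = x ^ (-(2 * a.re - b)) := by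
    rw [← Real.rpow_natCast, ← Real.rpow_mul hx0.le, ← Real.rpow_add hx0]
    congr 1
    push_cast
    ring
  have hxb : 0 < x ^ b := Real.rpow_pos_of_pos hx0 _
  rw [Real.norm_eq_abs]
  unfold S
  rw [abs_mul, abs_of_pos hxb, ← hpow]
  have hn0 : 0 ≤ normSq (J a c x) := normSq_nonneg _
  have habs : |normSq (J a c x) / 2 - (J (a + 1) c x * conj (J a c x)).im|
      ≤ (K0 ^ 2 / 2 + K1 * K0) * (x ^ (-a.re)) ^ 2 := by
    calc _ ≤ |normSq (J a c x) / 2| + |(J (a + 1) c x * conj (J a c x)).im| := abs_sub _ _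
      _ ≤ _ := by
        rw [abs_of_nonneg (by positivity)]
        nlinarith
  calc x ^ b * |normSq (J a c x) / 2 - (J (a + 1) c x * conj (J a c x)).im|
      ≤ x ^ b * ((K0 ^ 2 / 2 + K1 * K0) * (x ^ (-a.re)) ^ 2) :=
        mul_le_mul_of_nonneg_left habs hxb.le
    _ = (K0 ^ 2 / 2 + K1 * K0) * (x ^ b * (x ^ (-a.re)) ^ 2) := by ring

theorem eventually_ne_zero (a c : ℂ) (ha : 0 < a.re) : ∀ᶠ x : ℝ in atTop, J a c x ≠ 0 := by
  have h := J_asymp a c ha
  have hG : Gamma a ≠ 0 := Complex.Gamma_ne_zero_of_re_pos ha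
  filter_upwards [h.eventually_ne hG] with x hx h0
  exact hx (by rw [h0, mul_zero])

theorem S_pos (a c : ℂ) (b : ℝ) (hc : c = b - a - 1) (ha : 0 < a.re) (hab : b / 2 < a.re)
    {ρ : ℝ} (hρ : 0 < ρ) : 0 < S a c b ρ := by
  have hder : ∀ x : ℝ, 0 < x →
      HasDerivAt (S a c b) (x ^ (b - 1) * ((b / 2 - a.re) * normSq (J a c x))) x :=
    fun x hx => S_hasDerivAt a c b hc ha hx
  have hanti : AntitoneOn (S a c b) (Ici ρ) := by
    apply antitoneOn_of_deriv_nonpos (convex_Ici ρ)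
    · intro x hx
      exact (hder x (lt_of_lt_of_le hρ hx)).continuousAt.continuousWithinAt
    · intro x hx
      rw [interior_Ici] at hx
      exact (hder x (hρ.trans hx)).differentiableAt.differentiableWithinAt
    · intro x hx
      rw [interior_Ici] at hx
      rw [(hder x (hρ.trans hx)).deriv]
      have h1 : 0 < x ^ (b - 1) := Real.rpow_pos_of_pos (hρ.trans hx) _
      have h2 : 0 ≤ normSq (J a c x) := normSq_nonneg _
      have h3 : b / 2 - a.re < 0 := by linarith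
      exact mul_nonpos_of_nonneg_of_nonpos h1.le (mul_nonpos_of_nonpos_of_nonneg h3.le h2)
  have hnn : ∀ x, ρ ≤ x → 0 ≤ S a c b x := by
    intro x hx
    refine le_of_tendsto (S_tendsto a c b ha hab) ?_
    filter_upwards [eventually_ge_atTop x] with y hy
    exact hanti hx (hx.trans hy) hy
  by_contra hcon
  push Not at hcon
  have hzero : ∀ x, ρ ≤ x → S a c b x = 0 := fun x hx =>
    le_antisymm ((hanti (le_refl ρ) hx hx).trans hcon) (hnn x hx)
  obtain ⟨x0, hx0J, hx0⟩ := ((eventually_ne_zero a c ha).and (eventually_gt_atTop ρ)).exists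
  have hd := hder x0 (hρ.trans hx0)
  have hd0 : HasDerivAt (S a c b) 0 x0 := by
    refine (hasDerivAt_const x0 (0 : ℝ)).congr_of_eventuallyEq ?_
    filter_upwards [Ioi_mem_nhds hx0] with y hy
    exact hzero y (le_of_lt hy)
  have := hd.unique hd0
  have h1 : 0 < x0 ^ (b - 1) := Real.rpow_pos_of_pos (hρ.trans hx0) _
  have h2 : 0 < normSq (J a c x0) := normSq_pos.mpr hx0J
  have h3 : b / 2 - a.re < 0 := by linarith
  nlinarith [mul_neg_of_neg_of_pos h3 h2, mul_pos h1 (neg_pos.mpr (mul_neg_of_neg_of_pos h3 h2))]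

/-- **LEMMA P**, nonvanishing. -/
theorem J_ne_zero (a : ℂ) (b : ℝ) (ha : 0 < a.re) (hab : b / 2 < a.re) {ρ : ℝ} (hρ : 0 < ρ) :
    J a (b - a - 1) ρ ≠ 0 := by
  intro h
  have := S_pos a (b - a - 1) b rfl ha hab hρ
  unfold S at this
  rw [h] at this
  simp at this

/-- **LEMMA P**: for `b` real, `Re a > b/2`, `Re a > 0`: `Im G_a < ρ/2`. -/
theorem G_im_lt (a : ℂ) (b : ℝ) (ha : 0 < a.re) (hab : b / 2 < a.re) {ρ : ℝ} (hρ : 0 < ρ) :
    (G a b ρ).im < ρ / 2 := by
  have h0 := J_ne_zero a b ha hab hρ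
  have hS := S_pos a (b - a - 1) b rfl ha hab hρ
  unfold S at hS
  have hp : 0 < ρ ^ b := Real.rpow_pos_of_pos hρ _
  have hn : 0 < normSq (J a (b - a - 1) ρ) := normSq_pos.mpr h0
  have hS' := (mul_pos_iff_of_pos_left hp).mp hS
  have hG : G a b ρ = ((ρ / normSq (J a (b - a - 1) ρ) : ℝ) : ℂ) *
      (J (a + 1) (b - a - 1) ρ * conj (J a (b - a - 1) ρ)) := by
    unfold G
    rw [div_eq_mul_inv, Complex.inv_def]
    push_cast
    ring
  rw [hG, Complex.im_ofReal_mul, div_mul_eq_mul_div, div_lt_iff₀ hn]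
  nlinarith

/-- contiguous relation from integration by parts. -/
theorem J_rec (a c : ℂ) {ρ : ℝ} (ha : 1 < a.re) (hρ : 0 < ρ) :
    (a - 1) * J (a - 1) (c + 1) ρ = ρ * J a (c + 1) ρ - I * (c + 1) * J a c ρ := by
  have ha1 : 0 < (a - 1).re := by simp; linarith
  have h1 := J_ibp (c := c) ha1 hρ
  have h2 := J_shift (c := c) ha1 hρ
  have h3 := J_shift (a := a) (c := c) (by linarith) hρ
  rw [show a - 1 + 2 = a + 1 by ring, show a - 1 + 1 = a by ring] at h1
  rw [show a - 1 + 1 = a by ring] at h2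
  have hI : I * I = -1 := I_mul_I
  linear_combination (a - 1) * h2 - (ρ : ℂ) * h3 - I * h1 + ((a - 1) * J (a - 1) c ρ - ρ * J a c ρ) * hI

/-- nonvanishing is propagated by the recursion. -/
theorem J_step (a b : ℂ) {ρ : ℝ} (ha : 1 < a.re) (hρ : 0 < ρ) (h0 : J a (b - a - 1) ρ ≠ 0) :
    (a - 1) * J (a - 1) (b - (a - 1) - 1) ρ
      = I * J a (b - a - 1) ρ * (G a b ρ - I * ρ + a - b) := by
  have h1 := J_rec a (b - a - 1) ha hρ
  have h3 := J_shift (a := a) (c := b - a - 1) (by linarith) hρ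
  rw [show b - (a - 1) - 1 = b - a - 1 + 1 by ring]
  have hG : G a b ρ * J a (b - a - 1) ρ = ρ * J (a + 1) (b - a - 1) ρ := by
    unfold G; field_simp
  have hI : I * I = -1 := I_mul_I
  rw [h1]
  linear_combination (ρ : ℂ) * h3 - I * hG + (ρ * J a (b - a - 1) ρ) * hI

theorem G_step (a b : ℂ) {ρ : ℝ} (ha : 1 < a.re) (hρ : 0 < ρ) (h0 : J a (b - a - 1) ρ ≠ 0)
    (hw : G a b ρ - I * ρ + a - b ≠ 0) :
    J (a - 1) (b - (a - 1) - 1) ρ ≠ 0 ∧
    G (a - 1) b ρ = (a - 1) * (G a b ρ - I * ρ) / (G a b ρ - I * ρ + a - b) := by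
  have h1 := J_step a b ha hρ h0
  have ha1 : a - 1 ≠ 0 := by
    intro h
    have := congrArg Complex.re h
    simp at this
    linarith
  have hne : J (a - 1) (b - (a - 1) - 1) ρ ≠ 0 := by
    intro h
    rw [h, mul_zero] at h1
    exact mul_ne_zero (mul_ne_zero I_ne_zero h0) hw h1.symm
  refine ⟨hne, ?_⟩
  have hI : I * I = -1 := I_mul_I
  have h3 := J_shift (a := a) (c := b - a - 1) (by linarith) hρ
  have hG : G a b ρ * J a (b - a - 1) ρ = ρ * J (a + 1) (b - a - 1) ρ := by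
    unfold G; field_simp
  have hnum : (ρ : ℂ) * J a (b - a - 1 + 1) ρ = I * J a (b - a - 1) ρ * (G a b ρ - I * ρ) := by
    linear_combination (ρ : ℂ) * h3 - I * hG + (ρ * J a (b - a - 1) ρ) * hI
  have hdef : G (a - 1) b ρ * J (a - 1) (b - (a - 1) - 1) ρ = ρ * J a (b - a - 1 + 1) ρ := by
    unfold G
    rw [show a - 1 + 1 = a by ring, show b - (a - 1) - 1 = b - a - 1 + 1 by ring] at *
    field_simp
  rw [eq_div_iff hw]
  have hA : I * J a (b - a - 1) ρ ≠ 0 := mul_ne_zero I_ne_zero h0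
  apply mul_left_cancel₀ hA
  linear_combination (-G (a - 1) b ρ) * h1 + (a - 1) * hdef + (a - 1) * hnum

/-- Riccati equation. -/
theorem G_riccati (a b : ℂ) {ρ : ℝ} (ha : 0 < a.re) (hρ : 0 < ρ) (h0 : J a (b - a - 1) ρ ≠ 0) :
    HasDerivAt (fun x : ℝ => G a b x)
      ((G a b ρ ^ 2 + (1 - b - I * ρ) * G a b ρ + I * a * ρ) / ρ) ρ := by
  have hJ0 := J_hasDerivAt (c := b - a - 1) ha hρ
  have hJ1 := J_hasDerivAt (a := a + 1) (c := b - a - 1) (by simp; linarith) hρ
  rw [show a + 1 + 1 = a + 2 by ring] at hJ1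
  have hib := J_ibp (c := b - a - 1) ha hρ
  have hid : HasDerivAt (fun x : ℝ => (x : ℂ)) 1 ρ := Complex.ofRealCLM.hasDerivAt
  have h := (hid.mul hJ1).div hJ0 h0
  refine HasDerivAt.congr_deriv h ?_
  have hρ' : (ρ : ℂ) ≠ 0 := by exact_mod_cast hρ.ne'
  simp only [Pi.mul_apply]
  unfold G
  field_simp
  linear_combination (-J a (b - a - 1) ρ) * hib

end Crest.Agent.R086.LemP
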