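import Mathlib
import Crest.Agent.R086.CQ
import Crest.Agent.R086.Disk
import Crest.Agent.R086.LemP

/-!
Row 86, part A (helper507): certified backward recursion for `G (a+k) b ρ`,
values and derivative in `a`.
-/
set_option autoImplicit false
open Complex Filter Topology
open scoped ComplexConjugate

namespace Crest.Agent.R086.Chain

open Crest.Agent.R086.JInt Crest.Agent.R086.LemP Crest.Agent.R086.Disk

/-- parameters: centre of `a`, the real number `b`, centre of `ρ`, radii. -/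
structure Par where
  a0 : CQ
  b : ℚ
  r0 : ℚ
  ha : ℚ
  hr : ℚ

structure St where
  c : CQ
  r : ℚ
  d : CQ
  s : ℚ

structure Ct where
  p : CQ
  n0 : ℚ
  rp : ℚ
  np : ℚ
  na : ℚ
  nb : ℚ
  n1 : ℚ
  n2 : ℚ
  n4 : ℚ
  nd : ℚ
  n3 : ℚ
  new : St

def alq (P : Par) (k : ℕ) : CQ := (P.a0.add (CQ.re k)).sub CQ.one
def beq (P : Par) (k : ℕ) : CQ := (P.a0.add (CQ.re k)).sub (CQ.re P.b)
def qq (P : Par) (k : ℕ) (o : St) : CQ := (o.c.sub ⟨0, P.r0⟩).add (beq P k)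
def t0 (P : Par) (o : St) : ℚ := o.r + P.ha + P.hr
def DD (P : Par) (k : ℕ) (o : St) : ℚ := (qq P k o).n2 - t0 P o * t0 P o
def e1 (P : Par) (t : Ct) : ℚ := P.ha * (t.np + t.rp) + t.nb * t.rp
def e2 (P : Par) (t : Ct) : ℚ := P.ha * (t.np + t.rp) + t.na * t.rp

/-- one step, values -/
def checkV (P : Par) (k : ℕ) (o : St) (t : Ct) : Bool :=
  decide (0 < DD P k o) && decide (0 ≤ o.r) && decide (0 ≤ P.ha) && decide (0 ≤ P.hr)
  && decide (1 + P.ha < P.a0.x + k)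
  && ((CQ.sm (DD P k o) t.p).sub (qq P k o).cj).le t.n0
  && decide (t.n0 + t0 P o ≤ t.rp * DD P k o)
  && t.p.le t.np && (alq P k).le t.na && (beq P k).le t.nb
  && (CQ.one.sub ((beq P k).mul t.p)).le t.n1
  && (((alq P k).mul (CQ.one.sub ((beq P k).mul t.p))).sub t.new.c).le t.n4
  && decide (t.n4 + P.ha * (t.n1 + e1 P t) + t.na * e1 P t ≤ t.new.r)

/-- one step, derivative -/
def checkD (P : Par) (k : ℕ) (o : St) (t : Ct) : Bool :=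
  (CQ.one.sub ((alq P k).mul t.p)).le t.n2 && o.d.le t.nd
  && (((((alq P k).mul ((beq P k).mul (t.p.mul t.p))).mul o.d).add
      ((CQ.one.sub ((beq P k).mul t.p)).mul (CQ.one.sub ((alq P k).mul t.p)))).sub t.new.d).le t.n3
  && decide (t.n3 + (e1 P t * (t.na * t.np + e2 P t) + t.nb * t.np * e2 P t) * (t.nd + o.s)
      + t.na * t.nb * t.np * t.np * o.s
      + (e1 P t * (t.n2 + e2 P t) + t.n1 * e2 P t) ≤ t.new.s)

def EncV (P : Par) (k : ℕ) (o : St) : Prop :=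
  ∀ a : ℂ, ‖a - P.a0.toC‖ ≤ P.ha → ∀ ρ : ℝ, 0 < ρ → |ρ - P.r0| ≤ P.hr →
    J (a + k) (P.b - (a + k) - 1) ρ ≠ 0 ∧ ‖G (a + k) P.b ρ - o.c.toC‖ ≤ o.r

def EncD (P : Par) (k : ℕ) (o : St) : Prop :=
  ∀ a : ℂ, ‖a - P.a0.toC‖ < P.ha → ∀ ρ : ℝ, 0 < ρ → |ρ - P.r0| ≤ P.hr →
    ∃ d : ℂ, HasDerivAt (fun a' : ℂ => G (a' + k) P.b ρ) d a ∧ ‖d - o.d.toC‖ ≤ o.s

section
variable {P : Par} {k : ℕ} {o : St} {t : Ct}

/-- consequences of the rational check at a point -/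
theorem check_geom (h : checkV P (k+1) o t = true) {a : ℂ} (ha : ‖a - P.a0.toC‖ ≤ P.ha) {ρ : ℝ}
    (hρ : |ρ - P.r0| ≤ P.hr) {g : ℂ} (hg : ‖g - o.c.toC‖ ≤ o.r) :
    g - I * ρ + (a + (k+1 : ℕ)) - P.b ≠ 0 ∧
    ‖(g - I * ρ + (a + (k+1 : ℕ)) - P.b)⁻¹ - t.p.toC‖ ≤ t.rp ∧
    ‖(a + (k+1 : ℕ) - 1) - (alq P (k+1)).toC‖ ≤ P.ha ∧
    ‖(a + (k+1 : ℕ) - P.b) - (beq P (k+1)).toC‖ ≤ P.ha := by
  simp only [checkV, Bool.and_eq_true, decide_eq_true_eq] at h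
  obtain ⟨⟨⟨⟨⟨⟨⟨⟨⟨⟨⟨⟨hD, hr⟩, hha⟩, hhr⟩, ha1⟩, hn0⟩, hrp⟩, hnp⟩, hna⟩, hnb⟩, hn1⟩, hn4⟩, hnew⟩ := h
  have hal : (a + (k+1 : ℕ) - 1) - (alq P (k+1)).toC = a - P.a0.toC := by
    simp only [alq, CQ.toC_sub, CQ.toC_add, CQ.toC_rea, CQ.toC_one]
    push_cast
    ring
  have hbe : (a + (k+1 : ℕ) - P.b) - (beq P (k+1)).toC = a - P.a0.toC := by
    simp only [beq, CQ.toC_sub, CQ.toC_add, CQ.toC_rea]
    push_cast
    ring
  have hz : (CQ.toC ⟨0, P.r0⟩) = I * (P.r0 : ℝ) := by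
    apply Complex.ext <;> simp [CQ.toC]
  have hq : ‖(g - I * ρ + (a + (k+1 : ℕ)) - P.b) - (qq P (k+1) o).toC‖ ≤ (t0 P o : ℝ) := by
    have e : (g - I * ρ + (a + (k+1 : ℕ)) - P.b) - (qq P (k+1) o).toC
        = (g - o.c.toC) + (a - P.a0.toC) - I * ((ρ - P.r0 : ℝ) : ℂ) := by
      simp only [qq, CQ.toC_add, CQ.toC_sub, hz, beq, CQ.toC_rea]
      push_cast
      ring
    rw [e]
    have hI : ‖I * ((ρ - P.r0 : ℝ) : ℂ)‖ ≤ P.hr := by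
      rw [norm_mul, Complex.norm_I, one_mul, Complex.norm_real]; exact hρ
    have := (norm_sub_le _ _).trans (add_le_add ((norm_add_le (g - o.c.toC) (a - P.a0.toC)).trans
      (add_le_add hg ha)) hI)
    simpa [t0] using this
  have hDR : (DD P (k+1) o : ℝ) = ‖(qq P (k+1) o).toC‖ ^ 2 - ((t0 P o : ℚ) : ℝ) ^ 2 := by
    rw [CQ.normSq_toC]
    simp only [DD]
    push_cast
    ring
  have h0 := CQ.norm_le hn0
  rw [CQ.toC_sub, CQ.toC_sm, CQ.toC_cj] at h0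
  have ht0 : (0 : ℝ) ≤ (t0 P o : ℝ) := by
    have : (0 : ℚ) ≤ t0 P o := by simp only [t0]; linarith
    exact_mod_cast this
  have hinv := inv_disk' (p := t.p.toC) (n0 := (t.n0 : ℝ)) (rp := (t.rp : ℝ)) (D := (DD P (k+1) o : ℝ))
    ht0 hq hDR (by exact_mod_cast hD) (by rw [mul_comm]; exact h0) (by exact_mod_cast hrp)
  exact ⟨hinv.1, hinv.2, by rw [hal]; exact ha, by rw [hbe]; exact ha⟩

theorem stepV (h : checkV P (k+1) o t = true) (hE : EncV P (k+1) o) : EncV P k t.new := by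
  intro a ha ρ hρ0 hρ
  obtain ⟨hJ, hg⟩ := hE a ha ρ hρ0 hρ
  obtain ⟨hq, hiq, hal, hbe⟩ := check_geom h ha hρ hg
  simp only [checkV, Bool.and_eq_true, decide_eq_true_eq] at h
  obtain ⟨⟨⟨⟨⟨⟨⟨⟨⟨⟨⟨⟨hD, hr⟩, hha⟩, hhr⟩, ha1⟩, hn0⟩, hrp⟩, hnp⟩, hna⟩, hnb⟩, hn1⟩, hn4⟩, hnew⟩ := h
  have hre : 1 < (a + (k+1 : ℕ)).re := by
    have h1 : |(a - P.a0.toC).re| ≤ P.ha := (Complex.abs_re_le_norm _).trans ha
    have h2 := (abs_le.mp h1).1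
    have h3 : ((1 : ℝ) + P.ha < P.a0.x + (k+1 : ℕ)) := by exact_mod_cast ha1
    simp only [Complex.sub_re, CQ.toC_re] at h2
    simp only [Complex.add_re, Complex.natCast_re]
    linarith
  have hstep := G_step (a + (k+1 : ℕ)) P.b hre hρ0 hJ (by
    simpa [sub_eq_add_neg, add_assoc] using hq)
  have hk : a + (k+1 : ℕ) - 1 = a + k := by push_cast; ring
  rw [hk] at hstep
  refine ⟨hstep.1, ?_⟩
  rw [hstep.2]
  have hX := step_val (c' := t.new.c.toC) (n4 := (t.n4 : ℝ)) (by exact_mod_cast hha) hal hbe hiq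
    (CQ.norm_le hnp) (CQ.norm_le hna) (CQ.norm_le hnb)
    (n1 := (t.n1 : ℝ)) (by have := CQ.norm_le hn1; rwa [CQ.toC_sub, CQ.toC_mul, CQ.toC_one] at this)
    (by have := CQ.norm_le hn4
        rwa [CQ.toC_sub, CQ.toC_mul, CQ.toC_sub, CQ.toC_mul, CQ.toC_one] at this)
  have hnew' : (t.n4 : ℝ) + P.ha * (t.n1 + (P.ha * (t.np + t.rp) + t.nb * t.rp))
      + t.na * (P.ha * (t.np + t.rp) + t.nb * t.rp) ≤ t.new.r := by
    simp only [e1] at hnew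
    exact_mod_cast hnew
  refine le_trans (le_of_eq ?_) (hX.trans hnew')
  congr 1
  rw [hk]
  have hq' : G (a + (k+1 : ℕ)) P.b ρ - I * ρ + (a + (k+1 : ℕ)) - P.b ≠ 0 := hq
  field_simp
  ring

/-- pointwise form of one step (value formula with the inverse). -/
theorem step_formula (h : checkV P (k+1) o t = true) (hE : EncV P (k+1) o) {a : ℂ}
    (ha : ‖a - P.a0.toC‖ ≤ P.ha) {ρ : ℝ} (hρ0 : 0 < ρ) (hρ : |ρ - P.r0| ≤ P.hr) :
    G (a + k) P.b ρ = (a + (k+1 : ℕ) - 1) * (1 - (a + (k+1 : ℕ) - P.b) *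
      (G (a + (k+1 : ℕ)) P.b ρ - I * ρ + (a + (k+1 : ℕ)) - P.b)⁻¹) := by
  obtain ⟨hJ, hg⟩ := hE a ha ρ hρ0 hρ
  obtain ⟨hq, hiq, hal, hbe⟩ := check_geom h ha hρ hg
  simp only [checkV, Bool.and_eq_true, decide_eq_true_eq] at h
  obtain ⟨⟨⟨⟨⟨⟨⟨⟨⟨⟨⟨⟨hD, hr⟩, hha⟩, hhr⟩, ha1⟩, hn0⟩, hrp⟩, hnp⟩, hna⟩, hnb⟩, hn1⟩, hn4⟩, hnew⟩ := h
  have hre : 1 < (a + (k+1 : ℕ)).re := by
    have h1 : |(a - P.a0.toC).re| ≤ P.ha := (Complex.abs_re_le_norm _).trans ha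
    have h2 := (abs_le.mp h1).1
    have h3 : ((1 : ℝ) + P.ha < P.a0.x + (k+1 : ℕ)) := by exact_mod_cast ha1
    simp only [Complex.sub_re, CQ.toC_re] at h2
    simp only [Complex.add_re, Complex.natCast_re]
    linarith
  have hstep := (G_step (a + (k+1 : ℕ)) P.b hre hρ0 hJ (by
    simpa [sub_eq_add_neg, add_assoc] using hq)).2
  have hk : a + (k+1 : ℕ) - 1 = a + k := by push_cast; ring
  rw [hk] at hstep
  rw [hstep, hk]
  field_simp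
  ring

theorem stepD (h : checkV P (k+1) o t = true) (h' : checkD P (k+1) o t = true)
    (hE : EncV P (k+1) o) (hED : EncD P (k+1) o) : EncD P k t.new := by
  intro a ha ρ hρ0 hρ
  obtain ⟨hJ, hg⟩ := hE a ha.le ρ hρ0 hρ
  obtain ⟨hq, hiq, hal, hbe⟩ := check_geom h ha.le hρ hg
  obtain ⟨d, hd, hds⟩ := hED a ha ρ hρ0 hρ
  have hV := h
  simp only [checkV, Bool.and_eq_true, decide_eq_true_eq] at h
  obtain ⟨⟨⟨⟨⟨⟨⟨⟨⟨⟨⟨⟨hD, hr⟩, hha⟩, hhr⟩, ha1⟩, hn0⟩, hrp⟩, hnp⟩, hna⟩, hnb⟩, hn1⟩, hn4⟩, hnew⟩ := h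
  simp only [checkD, Bool.and_eq_true, decide_eq_true_eq] at h'
  obtain ⟨⟨⟨hn2, hnd⟩, hn3⟩, hnewd⟩ := h'
  set Q : ℂ → ℂ := fun a' => G (a' + (k+1 : ℕ)) P.b ρ - I * ρ + (a' + (k+1 : ℕ)) - P.b with hQ
  have hQd : HasDerivAt Q (d + 1) a := by
    have h1 := ((hd.sub_const (I * (ρ : ℂ))).add ((hasDerivAt_id a).add_const ((k+1 : ℕ) : ℂ))).sub_const (P.b : ℂ)
    exact h1
  have hQa : Q a ≠ 0 := hq
  have hF : HasDerivAt (fun a' : ℂ => (a' + (k+1 : ℕ) - 1) * (1 - (a' + (k+1 : ℕ) - P.b) * (Q a')⁻¹))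
      ((((a + (k+1 : ℕ) - P.b) * (Q a)⁻¹) * ((a + (k+1 : ℕ) - 1) * (Q a)⁻¹)) * d
        + (1 - (a + (k+1 : ℕ) - P.b) * (Q a)⁻¹) * (1 - (a + (k+1 : ℕ) - 1) * (Q a)⁻¹)) a := by
    have hal' : HasDerivAt (fun a' : ℂ => a' + ((k+1 : ℕ) : ℂ) - 1) 1 a :=
      ((hasDerivAt_id a).add_const _).sub_const _
    have hbe' : HasDerivAt (fun a' : ℂ => a' + ((k+1 : ℕ) : ℂ) - P.b) 1 a :=
      ((hasDerivAt_id a).add_const _).sub_const _
    have hinv := hQd.inv hQa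
    have h1 := hal'.mul ((hbe'.mul hinv).const_sub 1)
    refine HasDerivAt.congr_deriv h1 ?_
    simp only [Pi.mul_apply, Pi.inv_apply]
    field_simp
    ring
  have hopen : ∀ᶠ a' in 𝓝 a, ‖a' - P.a0.toC‖ < P.ha := by
    have hc : Continuous (fun a' : ℂ => ‖a' - P.a0.toC‖) := by fun_prop
    exact hc.continuousAt.eventually_lt continuousAt_const ha
  have hG : HasDerivAt (fun a' : ℂ => G (a' + k) P.b ρ)
      ((((a + (k+1 : ℕ) - P.b) * (Q a)⁻¹) * ((a + (k+1 : ℕ) - 1) * (Q a)⁻¹)) * d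
        + (1 - (a + (k+1 : ℕ) - P.b) * (Q a)⁻¹) * (1 - (a + (k+1 : ℕ) - 1) * (Q a)⁻¹)) a := by
    refine hF.congr_of_eventuallyEq ?_
    filter_upwards [hopen] with a' ha'
    exact step_formula hV hE ha'.le hρ0 hρ
  refine ⟨_, hG, ?_⟩
  have hX := step_der (dc := o.d.toC) (dc' := t.new.d.toC) (n3 := (t.n3 : ℝ)) (nd := (t.nd : ℝ))
    (by exact_mod_cast hha) hal hbe hiq
    (CQ.norm_le hnp) (CQ.norm_le hna) (CQ.norm_le hnb)
    (n1 := (t.n1 : ℝ)) (by have := CQ.norm_le hn1; rwa [CQ.toC_sub, CQ.toC_mul, CQ.toC_one] at this)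
    (n2 := (t.n2 : ℝ)) (by have := CQ.norm_le hn2; rwa [CQ.toC_sub, CQ.toC_mul, CQ.toC_one] at this)
    hds (CQ.norm_le hnd)
    (by have := CQ.norm_le hn3
        simp only [CQ.toC_sub, CQ.toC_mul, CQ.toC_add, CQ.toC_one] at this
        convert this using 2
        ring)
  refine hX.trans ?_
  simp only [e1, e2] at hnewd
  exact_mod_cast hnewd

end

end Crest.Agent.R086.Chain
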