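import Mathlib

/-!
Row 86, module DC (helper758): abstract bounded perturbation of a strongly continuous semigroup.
`S0` is used only for `t ≥ 0`.
-/

set_option autoImplicit false

open MeasureTheory Set Filter Topology

namespace Crest.Agent.R086.DC

variable {X : Type*} [NormedAddCommGroup X] [NormedSpace ℂ X] [CompleteSpace X]

/-- strongly continuous semigroup with exponential bound `‖S t‖ ≤ exp (ω t)` -/
structure IsC0 (S : ℝ → X →L[ℂ] X) (ω : ℝ) : Prop where
  zero : S 0 = 1
  add : ∀ s t, 0 ≤ s → 0 ≤ t → S (s + t) = (S s).comp (S t)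
  cont : ∀ x, ContinuousOn (fun t => S t x) (Ici 0)
  bound : ∀ t, 0 ≤ t → ‖S t‖ ≤ Real.exp (ω * t)

variable {S0 : ℝ → X →L[ℂ] X} {ω : ℝ}

namespace IsC0

omit [CompleteSpace X] in
/-- joint continuity of `(t,x) ↦ S (max t 0) x`. -/
theorem joint (h : IsC0 S0 ω) : Continuous (fun p : ℝ × X => S0 (max p.1 0) p.2) := by
  rw [continuous_iff_continuousAt]
  rintro ⟨t0, x0⟩
  have h1 : Continuous (fun t : ℝ => S0 (max t 0) x0) := by
    have := (h.cont x0).comp_continuous (f := fun t : ℝ => max t 0) (by fun_prop)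
      (fun t => Set.mem_Ici.2 (le_max_right _ _))
    exact this
  rw [ContinuousAt, tendsto_iff_norm_sub_tendsto_zero]
  have hb : ∀ p : ℝ × X, ‖S0 (max p.1 0) p.2 - S0 (max t0 0) x0‖ ≤
      Real.exp (ω * max p.1 0) * ‖p.2 - x0‖ + ‖S0 (max p.1 0) x0 - S0 (max t0 0) x0‖ := by
    intro p
    have e : S0 (max p.1 0) p.2 - S0 (max t0 0) x0 =
        S0 (max p.1 0) (p.2 - x0) + (S0 (max p.1 0) x0 - S0 (max t0 0) x0) := by
      rw [map_sub]; abel
    rw [e]
    refine (norm_add_le _ _).trans (add_le_add ?_ le_rfl)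
    refine ((S0 (max p.1 0)).le_opNorm _).trans ?_
    exact mul_le_mul_of_nonneg_right (h.bound _ (le_max_right _ _)) (norm_nonneg _)
  have hc : Continuous (fun p : ℝ × X => Real.exp (ω * max p.1 0) * ‖p.2 - x0‖
      + ‖S0 (max p.1 0) x0 - S0 (max t0 0) x0‖) := by
    have h2 : Continuous (fun p : ℝ × X => S0 (max p.1 0) x0) := h1.comp continuous_fst
    have h3 : Continuous (fun p : ℝ × X => Real.exp (ω * max p.1 0) * ‖p.2 - x0‖) := by fun_prop
    exact h3.add (h2.sub continuous_const).norm
  refine squeeze_zero (fun p => norm_nonneg _) hb ?_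
  have := hc.tendsto (t0, x0)
  simpa using this

omit [CompleteSpace X] in
theorem joint_comp (h : IsC0 S0 ω) {α : Type*} [TopologicalSpace α] {f : α → ℝ} {g : α → X}
    (hf : Continuous f) (hg : Continuous g) :
    Continuous (fun a => S0 (max (f a) 0) (g a)) :=
  h.joint.comp (hf.prodMk hg)

omit [CompleteSpace X] in
theorem apply_add (h : IsC0 S0 ω) {s t : ℝ} (hs : 0 ≤ s) (ht : 0 ≤ t) (x : X) :
    S0 (s + t) x = S0 s (S0 t x) := by
  rw [h.add s t hs ht]; rfl

omit [CompleteSpace X] in
theorem norm_apply_le (h : IsC0 S0 ω) {t : ℝ} (ht : 0 ≤ t) (x : X) :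
    ‖S0 t x‖ ≤ Real.exp (ω * t) * ‖x‖ :=
  ((S0 t).le_opNorm x).trans (mul_le_mul_of_nonneg_right (h.bound t ht) (norm_nonneg _))

end IsC0

/-- Integral over `[0,∞)`-type bound used for the Volterra operator. -/
theorem int_exp_le {b t : ℝ} (hb : 0 ≤ b) :
    ∫ r in (0:ℝ)..t, Real.exp (-(b + 1) * (t - r)) ≤ 1 / (b + 1) := by
  have hb1 : 0 < b + 1 := by linarith
  have h1 : ∀ r ∈ uIcc 0 t, HasDerivAt (fun r => Real.exp (-(b + 1) * (t - r)) / (b + 1))
      (Real.exp (-(b + 1) * (t - r))) r := by
    intro r _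
    have h2 : HasDerivAt (fun r => -(b + 1) * (t - r)) (b + 1) r := by
      have := ((hasDerivAt_id r).const_sub t).const_mul (-(b + 1))
      simpa using this
    have h3 := (h2.exp).div_const (b + 1)
    have h4 : Real.exp (-(b + 1) * (t - r)) * (b + 1) / (b + 1) = Real.exp (-(b + 1) * (t - r)) := by
      rw [mul_div_assoc, div_self hb1.ne', mul_one]
    rwa [h4] at h3
  rw [intervalIntegral.integral_eq_sub_of_hasDerivAt h1 (by
    apply Continuous.intervalIntegrable; fun_prop)]
  have : 0 ≤ Real.exp (-(b + 1) * (t - 0)) / (b + 1) := by positivity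
  simp only [sub_self, mul_zero, Real.exp_zero]
  linarith

section Volterra

variable (h : IsC0 S0 ω) (B : X →L[ℂ] X)

omit [CompleteSpace X] in
/-- the integrand of the weighted Volterra operator -/
theorem volt_cont_integrand (h : IsC0 S0 ω) (B : X →L[ℂ] X) (lam : ℝ) {u : ℝ → X} (hu : Continuous u) :
    Continuous (Function.uncurry fun (t r : ℝ) =>
      Real.exp (-lam * (t - r)) • S0 (max (t - r) 0) (B (u r))) := by
  have h1 : Continuous (fun p : ℝ × ℝ => S0 (max (p.1 - p.2) 0) (B (u p.2))) :=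
    h.joint_comp (by fun_prop) (by fun_prop)
  have h2 : Continuous (fun p : ℝ × ℝ => Real.exp (-lam * (p.1 - p.2))) := by fun_prop
  exact h2.smul h1

omit [CompleteSpace X] in
theorem volt_cont (h : IsC0 S0 ω) (B : X →L[ℂ] X) (lam : ℝ) {u : ℝ → X} (hu : Continuous u) :
    Continuous (fun t : ℝ => ∫ r in (0:ℝ)..(max t 0),
      Real.exp (-lam * (max t 0 - r)) • S0 (max (max t 0 - r) 0) (B (u r))) := by
  have h1 : Continuous (fun t : ℝ => ∫ r in (0:ℝ)..t,
      Real.exp (-lam * (t - r)) • S0 (max (t - r) 0) (B (u r))) :=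
    intervalIntegral.continuous_parametric_intervalIntegral_of_continuous
      (volt_cont_integrand h B lam hu) continuous_id
  exact h1.comp (by fun_prop : Continuous (fun t : ℝ => max t 0))

omit [CompleteSpace X] in
theorem volt_bound (h : IsC0 S0 ω) (B : X →L[ℂ] X) {u : ℝ → X} {C : ℝ} (hu : ∀ r, ‖u r‖ ≤ C) (t : ℝ) :
    ‖∫ r in (0:ℝ)..(max t 0),
      Real.exp (-(ω + ‖B‖ + 1) * (max t 0 - r)) • S0 (max (max t 0 - r) 0) (B (u r))‖
      ≤ ‖B‖ / (‖B‖ + 1) * C := by
  set T := max t 0 with hT
  have hT0 : 0 ≤ T := le_max_right _ _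
  have hC : 0 ≤ C := (norm_nonneg _).trans (hu 0)
  have h1 : ‖∫ r in (0:ℝ)..T,
      Real.exp (-(ω + ‖B‖ + 1) * (T - r)) • S0 (max (T - r) 0) (B (u r))‖ ≤
      ∫ r in (0:ℝ)..T, Real.exp (-(‖B‖ + 1) * (T - r)) * (‖B‖ * C) := by
    apply intervalIntegral.norm_integral_le_of_norm_le hT0
    · filter_upwards with r hr
      have hr2 : 0 ≤ T - r := by have := hr.2; linarith
      rw [max_eq_left hr2, norm_smul, Real.norm_eq_abs, abs_of_pos (Real.exp_pos _)]
      have h2 : ‖S0 (T - r) (B (u r))‖ ≤ Real.exp (ω * (T - r)) * (‖B‖ * C) := by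
        refine (h.norm_apply_le hr2 _).trans ?_
        refine mul_le_mul_of_nonneg_left ?_ (Real.exp_pos _).le
        exact (B.le_opNorm _).trans (mul_le_mul_of_nonneg_left (hu r) (norm_nonneg _))
      calc Real.exp (-(ω + ‖B‖ + 1) * (T - r)) * ‖S0 (T - r) (B (u r))‖
          ≤ Real.exp (-(ω + ‖B‖ + 1) * (T - r)) * (Real.exp (ω * (T - r)) * (‖B‖ * C)) :=
            mul_le_mul_of_nonneg_left h2 (Real.exp_pos _).le
        _ = Real.exp (-(‖B‖ + 1) * (T - r)) * (‖B‖ * C) := by
            rw [← mul_assoc, ← Real.exp_add]; congr 2; ring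
    · apply Continuous.intervalIntegrable; fun_prop
  refine h1.trans ?_
  rw [intervalIntegral.integral_mul_const]
  calc (∫ r in (0:ℝ)..T, Real.exp (-(‖B‖ + 1) * (T - r))) * (‖B‖ * C)
      ≤ (1 / (‖B‖ + 1)) * (‖B‖ * C) :=
        mul_le_mul_of_nonneg_right (int_exp_le (norm_nonneg _)) (by positivity)
    _ = ‖B‖ / (‖B‖ + 1) * C := by ring

/-- weighted Volterra operator on bounded continuous functions -/
noncomputable def volt (h : IsC0 S0 ω) (B : X →L[ℂ] X) :
    BoundedContinuousFunction ℝ X →L[ℂ] BoundedContinuousFunction ℝ X :=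
  LinearMap.mkContinuous
    { toFun := fun u => BoundedContinuousFunction.ofNormedAddCommGroup
        (fun t : ℝ => ∫ r in (0:ℝ)..(max t 0),
          Real.exp (-(ω + ‖B‖ + 1) * (max t 0 - r)) • S0 (max (max t 0 - r) 0) (B (u r)))
        (volt_cont h B _ u.continuous) (‖B‖ / (‖B‖ + 1) * ‖u‖)
        (volt_bound h B (fun r => u.norm_coe_le_norm r))
      map_add' := by
        intro u v
        ext t
        simp only [BoundedContinuousFunction.coe_ofNormedAddCommGroup,
          BoundedContinuousFunction.coe_add, Pi.add_apply]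
        rw [← intervalIntegral.integral_add]
        · congr 1; ext r; simp
        · apply Continuous.intervalIntegrable
          exact (volt_cont_integrand h B (ω + ‖B‖ + 1) u.continuous).comp
            (continuous_const.prodMk continuous_id)
        · apply Continuous.intervalIntegrable
          exact (volt_cont_integrand h B (ω + ‖B‖ + 1) v.continuous).comp
            (continuous_const.prodMk continuous_id)
      map_smul' := by
        intro c u
        ext t
        simp only [BoundedContinuousFunction.coe_ofNormedAddCommGroup,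
          BoundedContinuousFunction.coe_smul, RingHom.id_apply]
        rw [← intervalIntegral.integral_smul]
        congr 1; ext r
        rw [map_smul, map_smul, smul_comm] }
    (‖B‖ / (‖B‖ + 1))
    (by
      intro u
      apply BoundedContinuousFunction.norm_ofNormedAddCommGroup_le
      · positivity
      · exact volt_bound h B (fun r => u.norm_coe_le_norm r))

omit [CompleteSpace X] in
theorem norm_volt_lt (h : IsC0 S0 ω) (B : X →L[ℂ] X) : ‖volt h B‖ < 1 := by
  refine (LinearMap.mkContinuous_norm_le _ (by positivity) _).trans_lt ?_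
  rw [div_lt_one (by positivity)]; linarith

end Volterra

section Pert

omit [CompleteSpace X] in
theorem orb_bound (h : IsC0 S0 ω) {b : ℝ} (hb : 0 ≤ b) (x : X) (t : ℝ) :
    ‖Real.exp (-(ω + b + 1) * max t 0) • S0 (max t 0) x‖ ≤ ‖x‖ := by
  have ht : 0 ≤ max t 0 := le_max_right _ _
  rw [norm_smul, Real.norm_eq_abs, abs_of_pos (Real.exp_pos _)]
  calc Real.exp (-(ω + b + 1) * max t 0) * ‖S0 (max t 0) x‖
      ≤ Real.exp (-(ω + b + 1) * max t 0) * (Real.exp (ω * max t 0) * ‖x‖) :=
        mul_le_mul_of_nonneg_left (h.norm_apply_le ht x) (Real.exp_pos _).le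
    _ = Real.exp (-(b + 1) * max t 0) * ‖x‖ := by
        rw [← mul_assoc, ← Real.exp_add]; congr 2; ring
    _ ≤ 1 * ‖x‖ := by
        refine mul_le_mul_of_nonneg_right ?_ (norm_nonneg _)
        apply Real.exp_le_one_iff.2
        have : 0 ≤ (b + 1) * max t 0 := by positivity
        linarith
    _ = ‖x‖ := one_mul _

/-- the free orbit as an element of the weighted space -/
noncomputable def orb (h : IsC0 S0 ω) (b : ℝ) (hb : 0 ≤ b) : X →L[ℂ] BoundedContinuousFunction ℝ X :=
  LinearMap.mkContinuous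
    { toFun := fun x => BoundedContinuousFunction.ofNormedAddCommGroup
        (fun t : ℝ => Real.exp (-(ω + b + 1) * max t 0) • S0 (max t 0) x)
        (by
          have h1 : Continuous (fun t : ℝ => S0 (max t 0) x) :=
            h.joint_comp continuous_id continuous_const
          have h2 : Continuous (fun t : ℝ => Real.exp (-(ω + b + 1) * max t 0)) := by fun_prop
          exact h2.smul h1) ‖x‖ (orb_bound h hb x)
      map_add' := by
        intro u v
        ext t
        simp
      map_smul' := by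
        intro c u
        ext t
        simp only [BoundedContinuousFunction.coe_ofNormedAddCommGroup,
          BoundedContinuousFunction.coe_smul, RingHom.id_apply]
        rw [map_smul, smul_comm] }
    1
    (by
      intro u
      rw [one_mul]
      apply BoundedContinuousFunction.norm_ofNormedAddCommGroup_le
      · positivity
      · exact orb_bound h hb u)

/-- inverse of `1 - volt` -/
noncomputable def res (h : IsC0 S0 ω) (B : X →L[ℂ] X) :
    BoundedContinuousFunction ℝ X →L[ℂ] BoundedContinuousFunction ℝ X :=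
  ((Units.oneSub (volt h B) (norm_volt_lt h B))⁻¹ :
    (BoundedContinuousFunction ℝ X →L[ℂ] BoundedContinuousFunction ℝ X)ˣ)

theorem res_spec (h : IsC0 S0 ω) (B : X →L[ℂ] X) (f : BoundedContinuousFunction ℝ X) :
    res h B f = f + volt h B (res h B f) := by
  have h1 : (1 - volt h B) * res h B = 1 := by
    have := (Units.oneSub (volt h B) (norm_volt_lt h B)).mul_inv
    exact this
  have h2 : (1 - volt h B) (res h B f) = f := by
    have := congrArg (fun L => L f) h1
    exact this
  have h3 : (1 - volt h B) (res h B f) = res h B f - volt h B (res h B f) := rfl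
  rw [h3] at h2
  exact sub_eq_iff_eq_add.1 h2

/-- the perturbed semigroup -/
noncomputable def pert (h : IsC0 S0 ω) (B : X →L[ℂ] X) (t : ℝ) : X →L[ℂ] X :=
  Real.exp ((ω + ‖B‖ + 1) * t) • ((BoundedContinuousFunction.evalCLM ℂ t).comp
    ((res h B).comp (orb h ‖B‖ (norm_nonneg _))))

theorem pert_apply (h : IsC0 S0 ω) (B : X →L[ℂ] X) (t : ℝ) (x : X) :
    pert h B t x = Real.exp ((ω + ‖B‖ + 1) * t) • (res h B (orb h ‖B‖ (norm_nonneg _) x)) t := rfl

theorem pert_continuous (h : IsC0 S0 ω) (B : X →L[ℂ] X) (x : X) :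
    Continuous (fun t => pert h B t x) := by
  simp only [pert_apply]
  have h1 : Continuous (fun t => (res h B (orb h ‖B‖ (norm_nonneg _) x)) t) :=
    (res h B (orb h ‖B‖ (norm_nonneg _) x)).continuous
  have h2 : Continuous (fun t : ℝ => Real.exp ((ω + ‖B‖ + 1) * t)) := by fun_prop
  exact h2.smul h1

/-- DUHAMEL, first form -/
theorem pert_duhamel (h : IsC0 S0 ω) (B : X →L[ℂ] X) {t : ℝ} (ht : 0 ≤ t) (x : X) :
    pert h B t x = S0 t x + ∫ r in (0:ℝ)..t, S0 (t - r) (B (pert h B r x)) := by
  set u := res h B (orb h ‖B‖ (norm_nonneg _) x) with hu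
  have h1 := res_spec h B (orb h ‖B‖ (norm_nonneg _) x)
  rw [← hu] at h1
  have h2 : u t = Real.exp (-(ω + ‖B‖ + 1) * max t 0) • S0 (max t 0) x +
      ∫ r in (0:ℝ)..(max t 0),
          Real.exp (-(ω + ‖B‖ + 1) * (max t 0 - r)) • S0 (max (max t 0 - r) 0) (B (u r)) :=
    congrArg (fun f : BoundedContinuousFunction ℝ X => f t) h1
  rw [max_eq_left ht] at h2
  rw [pert_apply, ← hu, h2, smul_add, smul_smul, ← Real.exp_add]
  have e1 : (ω + ‖B‖ + 1) * t + -(ω + ‖B‖ + 1) * t = 0 := by ring
  rw [e1, Real.exp_zero, one_smul, ← intervalIntegral.integral_smul]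
  congr 1
  apply intervalIntegral.integral_congr
  intro r hr
  rw [uIcc_of_le ht] at hr
  have hr2 : 0 ≤ t - r := by linarith [hr.2]
  simp only
  rw [max_eq_left hr2, pert_apply, ← hu, smul_smul, ← Real.exp_add]
  have e2 : (ω + ‖B‖ + 1) * t + -(ω + ‖B‖ + 1) * (t - r) = (ω + ‖B‖ + 1) * r := by ring
  rw [e2]
  rw [ContinuousLinearMap.map_smul_of_tower B, ContinuousLinearMap.map_smul_of_tower]

omit [CompleteSpace X] in
/-- UNIQUENESS for the homogeneous Volterra equation -/
theorem duh_unique (h : IsC0 S0 ω) (B : X →L[ℂ] X) {T : ℝ} (hT : 0 ≤ T) {v : ℝ → X}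
    (hv : ContinuousOn v (Icc 0 T))
    (hD : ∀ t ∈ Icc 0 T, v t = ∫ r in (0:ℝ)..t, S0 (t - r) (B (v r))) :
    ∀ t ∈ Icc 0 T, v t = 0 := by
  set lam := ω + ‖B‖ + 1 with hlam
  have hw : ContinuousOn (fun t => Real.exp (-lam * t) * ‖v t‖) (Icc 0 T) :=
    (Continuous.continuousOn (by fun_prop)).mul hv.norm
  obtain ⟨t0, ht0, hmax⟩ := isCompact_Icc.exists_isMaxOn ⟨0, left_mem_Icc.2 hT⟩ hw
  set M := Real.exp (-lam * t0) * ‖v t0‖ with hM
  have hM0 : 0 ≤ M := by positivity
  have hb : ∀ r ∈ Icc 0 T, ‖v r‖ ≤ Real.exp (lam * r) * M := by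
    intro r hr
    have h1 : Real.exp (-lam * r) * ‖v r‖ ≤ M := hmax hr
    have h2 : ‖v r‖ = Real.exp (lam * r) * (Real.exp (-lam * r) * ‖v r‖) := by
      rw [← mul_assoc, ← Real.exp_add]
      have : lam * r + -lam * r = 0 := by ring
      rw [this, Real.exp_zero, one_mul]
    rw [h2]
    exact mul_le_mul_of_nonneg_left h1 (Real.exp_pos _).le
  have h3 : ‖v t0‖ ≤ ∫ r in (0:ℝ)..t0, Real.exp (lam * t0) * M * ‖B‖ *
      Real.exp (-(‖B‖ + 1) * (t0 - r)) := by
    rw [hD t0 ht0]
    apply intervalIntegral.norm_integral_le_of_norm_le ht0.1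
    · filter_upwards with r hr
      have hr2 : 0 ≤ t0 - r := by have := hr.2; linarith
      have hr3 : r ∈ Icc 0 T := ⟨hr.1.le, hr.2.trans ht0.2⟩
      calc ‖S0 (t0 - r) (B (v r))‖ ≤ Real.exp (ω * (t0 - r)) * ‖B (v r)‖ := h.norm_apply_le hr2 _
        _ ≤ Real.exp (ω * (t0 - r)) * (‖B‖ * (Real.exp (lam * r) * M)) := by
            refine mul_le_mul_of_nonneg_left ?_ (Real.exp_pos _).le
            exact (B.le_opNorm _).trans (mul_le_mul_of_nonneg_left (hb r hr3) (norm_nonneg _))
        _ = (Real.exp (ω * (t0 - r)) * Real.exp (lam * r)) * M * ‖B‖ := by ring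
        _ = (Real.exp (lam * t0) * Real.exp (-(‖B‖ + 1) * (t0 - r))) * M * ‖B‖ := by
            rw [← Real.exp_add, ← Real.exp_add]; congr 3; rw [hlam]; ring
        _ = _ := by ring
    · apply Continuous.intervalIntegrable; fun_prop
  rw [intervalIntegral.integral_const_mul] at h3
  have h4 : ‖v t0‖ ≤ Real.exp (lam * t0) * M * ‖B‖ * (1 / (‖B‖ + 1)) :=
    h3.trans (mul_le_mul_of_nonneg_left (int_exp_le (norm_nonneg _)) (by positivity))
  have h5 : M ≤ M * (‖B‖ / (‖B‖ + 1)) := by
    calc M ≤ Real.exp (-lam * t0) * (Real.exp (lam * t0) * M * ‖B‖ * (1 / (‖B‖ + 1))) := by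
          conv_lhs => rw [hM]
          exact mul_le_mul_of_nonneg_left h4 (Real.exp_pos _).le
      _ = (Real.exp (-lam * t0) * Real.exp (lam * t0)) * (M * (‖B‖ / (‖B‖ + 1))) := by ring
      _ = M * (‖B‖ / (‖B‖ + 1)) := by
          rw [← Real.exp_add]
          have : -lam * t0 + lam * t0 = 0 := by ring
          rw [this, Real.exp_zero, one_mul]
  have h6 : ‖B‖ / (‖B‖ + 1) < 1 := by
    rw [div_lt_one (by positivity)]; linarith
  have h7 : M = 0 := by
    by_contra hne
    have hpos : 0 < M := lt_of_le_of_ne hM0 (Ne.symm hne)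
    have : M * (‖B‖ / (‖B‖ + 1)) < M * 1 := mul_lt_mul_of_pos_left h6 hpos
    linarith
  intro t ht
  have h8 := hb t ht
  rw [h7, mul_zero] at h8
  exact norm_le_zero_iff.1 h8

omit [CompleteSpace X] in
/-- uniqueness of the Duhamel equation with free term `g` -/
theorem duh_unique' (h : IsC0 S0 ω) (B : X →L[ℂ] X) {T : ℝ} (hT : 0 ≤ T) {g v w : ℝ → X}
    (hv : ContinuousOn v (Icc 0 T)) (hw : ContinuousOn w (Icc 0 T))
    (hvD : ∀ t ∈ Icc 0 T, v t = g t + ∫ r in (0:ℝ)..t, S0 (t - r) (B (v r)))
    (hwD : ∀ t ∈ Icc 0 T, w t = g t + ∫ r in (0:ℝ)..t, S0 (t - r) (B (w r))) :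
    ∀ t ∈ Icc 0 T, v t = w t := by
  have hint : ∀ (u : ℝ → X), ContinuousOn u (Icc 0 T) → ∀ t ∈ Icc (0:ℝ) T,
      IntervalIntegrable (fun r => S0 (t - r) (B (u r))) volume 0 t := by
    intro u hu t ht
    apply ContinuousOn.intervalIntegrable
    rw [uIcc_of_le ht.1]
    have h1 : ContinuousOn (fun r => S0 (max (t - r) 0) (B (u r))) (Icc 0 t) := by
      have h2 : ContinuousOn (fun r => ((t - r, B (u r)) : ℝ × X)) (Icc 0 t) :=
        ContinuousOn.prodMk (by fun_prop)
          (B.continuous.comp_continuousOn (hu.mono (Icc_subset_Icc le_rfl ht.2)))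
      exact h.joint.comp_continuousOn h2
    refine h1.congr ?_
    intro r hr
    simp only
    rw [max_eq_left (by linarith [hr.2])]
  have key := duh_unique h B hT (v := fun t => v t - w t) (hv.sub hw) (by
    intro t ht
    rw [hvD t ht, hwD t ht, add_sub_add_left_eq_sub,
      ← intervalIntegral.integral_sub (hint v hv t ht) (hint w hw t ht)]
    simp only [map_sub])
  intro t ht
  exact sub_eq_zero.1 (key t ht)

omit [CompleteSpace X] in
theorem int_cont (h : IsC0 S0 ω) {t : ℝ} (ht : 0 ≤ t) {u : ℝ → X} (hu : ContinuousOn u (Icc 0 t)) :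
    IntervalIntegrable (fun r => S0 (t - r) (u r)) volume 0 t := by
  apply ContinuousOn.intervalIntegrable
  rw [uIcc_of_le ht]
  have h2 : ContinuousOn (fun r => ((t - r, u r) : ℝ × X)) (Icc 0 t) :=
    ContinuousOn.prodMk (by fun_prop) hu
  have h1 : ContinuousOn (fun r => S0 (max (t - r) 0) (u r)) (Icc 0 t) :=
    h.joint.comp_continuousOn h2
  refine h1.congr ?_
  intro r hr
  simp only
  rw [max_eq_left (by linarith [hr.2])]

theorem pert_zero (h : IsC0 S0 ω) (B : X →L[ℂ] X) : pert h B 0 = 1 := by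
  ext x
  rw [pert_duhamel h B le_rfl, h.zero]; simp

theorem pert_add (h : IsC0 S0 ω) (B : X →L[ℂ] X) {s t : ℝ} (hs : 0 ≤ s) (ht : 0 ≤ t) (x : X) :
    pert h B (s + t) x = pert h B s (pert h B t x) := by
  have hc := pert_continuous h B
  refine duh_unique' h B hs (g := fun s => S0 s (pert h B t x))
    (v := fun s => pert h B (s + t) x) (w := fun s => pert h B s (pert h B t x))
    ((hc x).comp (by fun_prop)).continuousOn (hc _).continuousOn ?_ ?_ s ⟨hs, le_rfl⟩
  · intro r hr
    have hrt : 0 ≤ r + t := add_nonneg hr.1 ht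
    rw [pert_duhamel h B hrt, h.apply_add hr.1 ht]
    have hI1 : IntervalIntegrable (fun σ => S0 (r + t - σ) (B (pert h B σ x))) volume 0 (r + t) :=
      int_cont h hrt (B.continuous.comp (hc x)).continuousOn
    have hI2 := hI1.mono_set (c := 0) (d := t) (by
      rw [uIcc_of_le hrt, uIcc_of_le ht]; exact Icc_subset_Icc le_rfl (by linarith [hr.1]))
    have hI3 := hI1.mono_set (c := t) (d := r + t) (by
      rw [uIcc_of_le hrt, uIcc_of_le (by linarith [hr.1])]; exact Icc_subset_Icc ht le_rfl)
    rw [← intervalIntegral.integral_add_adjacent_intervals hI2 hI3, ← add_assoc]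
    congr 1
    · rw [pert_duhamel h B ht x, map_add,
        ← ContinuousLinearMap.intervalIntegral_comp_comm (S0 r) (int_cont h ht (u := fun σ => B (pert h B σ x))
          (B.continuous.comp (hc x)).continuousOn)]
      congr 1
      apply intervalIntegral.integral_congr
      intro σ hσ
      rw [uIcc_of_le ht] at hσ
      simp only
      rw [← h.apply_add hr.1 (by linarith [hσ.2])]
      congr 2; ring
    · have := intervalIntegral.integral_comp_add_right (a := 0) (b := r)
        (fun σ => S0 (r + t - σ) (B (pert h B σ x))) t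
      rw [zero_add] at this
      rw [← this]
      apply intervalIntegral.integral_congr
      intro σ _
      simp only
      congr 2; ring
  · intro r hr
    exact pert_duhamel h B hr.1 _

/-- integral Gronwall -/
theorem gron {f : ℝ → ℝ} (hf : Continuous f) {b c : ℝ} (hb : 0 ≤ b) (h0 : ∀ t, 0 ≤ t → 0 ≤ f t)
    (hc : 0 ≤ c)
    (h1 : ∀ t, 0 ≤ t → f t ≤ c + b * ∫ r in (0:ℝ)..t, f r) {t : ℝ} (ht : 0 ≤ t) :
    f t ≤ c * Real.exp (b * t) := by
  set F : ℝ → ℝ := fun t => c + b * ∫ r in (0:ℝ)..t, f r with hF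
  have hd : ∀ x, HasDerivAt F (b * f x) x := by
    intro x
    exact ((intervalIntegral.integral_hasDerivAt_right (hf.intervalIntegrable _ _)
      (hf.stronglyMeasurableAtFilter _ _) hf.continuousAt).const_mul b).const_add c
  have hFn : ∀ x, 0 ≤ x → 0 ≤ F x := fun x hx => (h0 x hx).trans (h1 x hx)
  have key := norm_le_gronwallBound_of_norm_deriv_right_le (f := F) (f' := fun x => b * f x)
    (δ := c) (K := b) (ε := 0) (a := 0) (b := t)
    (fun x _ => (hd x).continuousAt.continuousWithinAt)
    (fun x _ => (hd x).hasDerivWithinAt)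
    (by simp [hF, abs_of_nonneg hc])
    (by
      intro x hx
      rw [add_zero, norm_mul, Real.norm_of_nonneg hb, Real.norm_of_nonneg (h0 x hx.1),
        Real.norm_of_nonneg (hFn x hx.1)]
      exact mul_le_mul_of_nonneg_left (h1 x hx.1) hb)
    t ⟨ht, le_rfl⟩
  rw [sub_zero, gronwallBound_ε0, Real.norm_of_nonneg (hFn t ht)] at key
  exact (h1 t ht).trans key

/-- growth bound -/
theorem pert_bound (h : IsC0 S0 ω) (B : X →L[ℂ] X) {t : ℝ} (ht : 0 ≤ t) :
    ‖pert h B t‖ ≤ Real.exp ((ω + ‖B‖) * t) := by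
  apply ContinuousLinearMap.opNorm_le_bound _ (Real.exp_pos _).le
  intro x
  have hc := pert_continuous h B x
  have key := gron (f := fun t => Real.exp (-ω * t) * ‖pert h B t x‖) (b := ‖B‖) (c := ‖x‖)
    (by fun_prop) (norm_nonneg _) (fun t _ => by positivity) (norm_nonneg _) (by
      intro s hs
      have h1 : ‖pert h B s x‖ ≤ Real.exp (ω * s) * ‖x‖ +
          ∫ r in (0:ℝ)..s, Real.exp (ω * s) * ‖B‖ * (Real.exp (-ω * r) * ‖pert h B r x‖) := by
        rw [pert_duhamel h B hs x]
        refine (norm_add_le _ _).trans (add_le_add (h.norm_apply_le hs x) ?_)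
        apply intervalIntegral.norm_integral_le_of_norm_le hs
        · filter_upwards with r hr
          have hr2 : 0 ≤ s - r := by have := hr.2; linarith
          calc ‖S0 (s - r) (B (pert h B r x))‖ ≤ Real.exp (ω * (s - r)) * ‖B (pert h B r x)‖ :=
                h.norm_apply_le hr2 _
            _ ≤ Real.exp (ω * (s - r)) * (‖B‖ * ‖pert h B r x‖) :=
                mul_le_mul_of_nonneg_left (B.le_opNorm _) (Real.exp_pos _).le
            _ = Real.exp (ω * s) * ‖B‖ * (Real.exp (-ω * r) * ‖pert h B r x‖) := by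
                have : ω * (s - r) = ω * s + -ω * r := by ring
                rw [this, Real.exp_add]; ring
        · apply Continuous.intervalIntegrable; fun_prop
      rw [intervalIntegral.integral_const_mul] at h1
      calc Real.exp (-ω * s) * ‖pert h B s x‖ ≤ Real.exp (-ω * s) * (Real.exp (ω * s) * ‖x‖ +
          Real.exp (ω * s) * ‖B‖ * ∫ r in (0:ℝ)..s, (Real.exp (-ω * r) * ‖pert h B r x‖)) :=
            mul_le_mul_of_nonneg_left h1 (Real.exp_pos _).le
        _ = (Real.exp (-ω * s) * Real.exp (ω * s)) * (‖x‖ +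
          ‖B‖ * ∫ r in (0:ℝ)..s, (Real.exp (-ω * r) * ‖pert h B r x‖)) := by ring
        _ = _ := by
          rw [← Real.exp_add]
          have : -ω * s + ω * s = 0 := by ring
          rw [this, Real.exp_zero, one_mul]) ht
  have e : ‖pert h B t x‖ = Real.exp (ω * t) * (Real.exp (-ω * t) * ‖pert h B t x‖) := by
    rw [← mul_assoc, ← Real.exp_add]
    have : ω * t + -ω * t = 0 := by ring
    rw [this, Real.exp_zero, one_mul]
  rw [e]
  refine (mul_le_mul_of_nonneg_left key (Real.exp_pos _).le).trans (le_of_eq ?_)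
  rw [add_mul, Real.exp_add]; ring

theorem pert_isC0 (h : IsC0 S0 ω) (B : X →L[ℂ] X) : IsC0 (pert h B) (ω + ‖B‖) where
  zero := pert_zero h B
  add := by
    intro s t hs ht
    ext x
    exact pert_add h B hs ht x
  cont := fun x => (pert_continuous h B x).continuousOn
  bound := fun t ht => pert_bound h B ht

/-- DUHAMEL, second form -/
theorem pert_duhamel' (h : IsC0 S0 ω) (B : X →L[ℂ] X) {t : ℝ} (ht : 0 ≤ t) (x : X) :
    pert h B t x = S0 t x + ∫ r in (0:ℝ)..t, pert h B (t - r) (B (S0 r x)) := by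
  have hp := pert_isC0 h B
  -- continuous extension of the orbit
  set y : ℝ → X := fun r => B (S0 (max r 0) x) with hy
  have hyc : Continuous y := B.continuous.comp (h.joint_comp continuous_id continuous_const)
  have hy0 : ∀ r, 0 ≤ r → y r = B (S0 r x) := by
    intro r hr; simp only [hy]; rw [max_eq_left hr]
  set w : ℝ → X := fun t => S0 (max t 0) x +
    ∫ r in (0:ℝ)..t, pert h B (max (t - r) 0) (y r) with hw
  have hG1 : Continuous (Function.uncurry fun (t r : ℝ) => pert h B (max (t - r) 0) (y r)) :=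
    hp.joint_comp (f := fun p : ℝ × ℝ => p.1 - p.2) (by fun_prop) (by fun_prop)
  have hwc : Continuous w := by
    refine (h.joint_comp continuous_id continuous_const).add ?_
    exact intervalIntegral.continuous_parametric_intervalIntegral_of_continuous hG1 continuous_id
  have hwt : ∀ t, 0 ≤ t → w t = S0 t x + ∫ r in (0:ℝ)..t, pert h B (t - r) (B (S0 r x)) := by
    intro t ht
    simp only [hw]
    rw [max_eq_left ht]
    congr 1
    apply intervalIntegral.integral_congr
    intro r hr
    rw [uIcc_of_le ht] at hr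
    simp only
    rw [max_eq_left (by linarith [hr.2]), hy0 r hr.1]
  rw [← hwt t ht]
  refine duh_unique' h B ht (g := fun s => S0 s x) (pert_continuous h B x).continuousOn
    hwc.continuousOn (fun s hs => pert_duhamel h B hs.1 x) ?_ t ⟨ht, le_rfl⟩
  rintro s ⟨hs, -⟩
  rw [hwt s hs]
  congr 1
  -- Fubini on the triangle
  set G : ℝ → ℝ → X := fun r σ => S0 (max (s - r) 0) (B (pert h B (max (r - σ) 0) (y σ))) with hG
  have hGc : Continuous (Function.uncurry G) := by
    have h1 : Continuous (fun p : ℝ × ℝ => pert h B (max (p.1 - p.2) 0) (y p.2)) := hG1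
    exact h.joint_comp (f := fun p : ℝ × ℝ => s - p.1) (by fun_prop) (B.continuous.comp h1)
  set H : ℝ → ℝ → X := fun r σ => if σ ≤ r then G r σ else 0 with hH
  have hGr : ∀ r, Continuous (G r) := fun r => hGc.comp (continuous_const.prodMk continuous_id)
  have hGs : ∀ σ, Continuous (fun r => G r σ) := fun σ =>
    hGc.comp (continuous_id.prodMk continuous_const)
  have hms : MeasurableSet {p : ℝ × ℝ | p.2 ≤ p.1} :=
    measurableSet_le measurable_snd measurable_fst
  have hHi : IntegrableOn (Function.uncurry H) (uIoc 0 s ×ˢ uIoc 0 s) := by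
    have h1 : IntegrableOn (Function.uncurry G) (uIoc 0 s ×ˢ uIoc 0 s) := by
      have h2 : IntegrableOn (Function.uncurry G) (Icc 0 s ×ˢ Icc 0 s) :=
        hGc.continuousOn.integrableOn_compact (isCompact_Icc.prod isCompact_Icc)
      refine h2.mono_set ?_
      rw [uIoc_of_le hs]
      exact prod_mono Ioc_subset_Icc_self Ioc_subset_Icc_self
    have h3 : Function.uncurry H = indicator {p : ℝ × ℝ | p.2 ≤ p.1} (Function.uncurry G) := by
      ext ⟨r, σ⟩
      simp only [Function.uncurry, hH, indicator, mem_ofPred_eq]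
    rw [h3]
    exact h1.indicator hms
  have hswap := intervalIntegral_intervalIntegral_swap (F := H) (a := 0) (b := s) (c := 0) (d := s) hHi
  have hL : ∫ r in (0:ℝ)..s, ∫ σ in (0:ℝ)..s, H r σ = ∫ r in (0:ℝ)..s, (S0 (s - r) (B (w r)) -
      S0 (s - r) (B (S0 r x))) := by
    apply intervalIntegral.integral_congr
    intro r hr
    rw [uIcc_of_le hs] at hr
    simp only
    have hHr : ∀ a b, IntervalIntegrable (H r) volume a b := by
      intro a b
      have h3 : H r = indicator {σ : ℝ | σ ≤ r} (G r) := by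
        ext σ
        simp only [hH, indicator, mem_ofPred_eq]
      rw [h3]
      have := (hGr r).intervalIntegrable (μ := volume) a b
      exact ⟨this.1.indicator measurableSet_Iic, this.2.indicator measurableSet_Iic⟩
    rw [← intervalIntegral.integral_add_adjacent_intervals (hHr 0 r) (hHr r s)]
    have e1 : ∫ σ in (0:ℝ)..r, H r σ = ∫ σ in (0:ℝ)..r, G r σ := by
      apply intervalIntegral.integral_congr
      intro σ hσ
      rw [uIcc_of_le hr.1] at hσ
      simp only [hH, if_pos hσ.2]
    have e2 : ∫ σ in r..s, H r σ = 0 := by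
      rw [intervalIntegral.integral_of_le hr.2]
      apply integral_eq_zero_of_ae
      rw [EventuallyEq, ae_restrict_iff' measurableSet_Ioc]
      filter_upwards with σ hσ
      simp only [hH, if_neg (not_le.2 hσ.1), Pi.zero_apply]
    rw [e1, e2, add_zero, hwt r hr.1, map_add, map_add, add_sub_cancel_left]
    have hI : IntervalIntegrable (fun σ => pert h B (r - σ) (B (S0 σ x))) volume 0 r :=
      int_cont hp hr.1 (B.continuous.comp_continuousOn ((h.cont x).mono (fun z hz => hz.1)))
    rw [← ContinuousLinearMap.intervalIntegral_comp_comm B hI,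
      ← ContinuousLinearMap.intervalIntegral_comp_comm (S0 (s - r))
        (f := fun σ => B (pert h B (r - σ) (B (S0 σ x))))
        ⟨B.integrable_comp hI.1, B.integrable_comp hI.2⟩]
    apply intervalIntegral.integral_congr
    intro σ hσ
    rw [uIcc_of_le hr.1] at hσ
    simp only [hG]
    rw [max_eq_left (by linarith [hr.2]), max_eq_left (by linarith [hσ.2]), hy0 σ hσ.1]
  have hR : ∫ σ in (0:ℝ)..s, ∫ r in (0:ℝ)..s, H r σ = ∫ σ in (0:ℝ)..s,
      (pert h B (s - σ) (B (S0 σ x)) - S0 (s - σ) (B (S0 σ x))) := by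
    apply intervalIntegral.integral_congr
    intro σ hσ
    rw [uIcc_of_le hs] at hσ
    simp only
    have hHs : ∀ a b, IntervalIntegrable (fun r => H r σ) volume a b := by
      intro a b
      have h3 : (fun r => H r σ) = indicator {r : ℝ | σ ≤ r} (fun r => G r σ) := by
        ext r
        simp only [hH, indicator, mem_ofPred_eq]
      rw [h3]
      have := (hGs σ).intervalIntegrable (μ := volume) a b
      exact ⟨this.1.indicator measurableSet_Ici, this.2.indicator measurableSet_Ici⟩
    rw [← intervalIntegral.integral_add_adjacent_intervals (hHs 0 σ) (hHs σ s)]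
    have e1 : ∫ r in (0:ℝ)..σ, H r σ = 0 := by
      rw [intervalIntegral.integral_of_le hσ.1]
      apply integral_eq_zero_of_ae
      rw [EventuallyEq, ae_restrict_iff' measurableSet_Ioc]
      have h5 : ∀ᵐ r : ℝ, r ≠ σ := by
        rw [ae_iff]; simp
      filter_upwards [h5] with r hr5 hr
      have : r < σ := lt_of_le_of_ne hr.2 hr5
      simp only [hH, if_neg (not_le.2 this), Pi.zero_apply]
    have e2 : ∫ r in σ..s, H r σ = ∫ r in σ..s, G r σ := by
      apply intervalIntegral.integral_congr
      intro r hr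
      rw [uIcc_of_le hσ.2] at hr
      simp only [hH, if_pos hr.1]
    rw [e1, e2, zero_add]
    have e3 := intervalIntegral.integral_comp_add_right (a := 0) (b := s - σ)
      (fun r => G r σ) σ
    rw [zero_add, sub_add_cancel] at e3
    rw [← e3, pert_duhamel h B (by linarith [hσ.2] : 0 ≤ s - σ), add_sub_cancel_left]
    apply intervalIntegral.integral_congr
    intro ρ hρ
    rw [uIcc_of_le (by linarith [hσ.2])] at hρ
    simp only [hG]
    have e4 : s - (ρ + σ) = s - σ - ρ := by ring
    have e5 : ρ + σ - σ = ρ := by ring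
    rw [e4, e5, max_eq_left (by linarith [hρ.2]), max_eq_left hρ.1, hy0 σ hσ.1]
  rw [hL, hR] at hswap
  have hi1 : IntervalIntegrable (fun r => S0 (s - r) (B (w r))) volume 0 s :=
    int_cont h hs (B.continuous.comp hwc).continuousOn
  have hi2 : IntervalIntegrable (fun r => S0 (s - r) (B (S0 r x))) volume 0 s :=
    int_cont h hs (B.continuous.comp_continuousOn ((h.cont x).mono (fun z hz => hz.1)))
  have hi3 : IntervalIntegrable (fun r => pert h B (s - r) (B (S0 r x))) volume 0 s :=
    int_cont hp hs (B.continuous.comp_continuousOn ((h.cont x).mono (fun z hz => hz.1)))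
  rw [intervalIntegral.integral_sub hi1 hi2, intervalIntegral.integral_sub hi3 hi2] at hswap
  exact (sub_left_injective hswap).symm

end Pert

end Crest.Agent.R086.DC
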