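import Crest.Agent.R086.DLIface
import Crest.Agent.R086.Wie
import Crest.Agent.R086.DCpert

/-!
Row 86, module DC (helper758): the free rescaled Schroedinger semigroup on the weighted Wiener
space `XN N` (densities), formula, norm, semigroup law, strong continuity.
-/

set_option autoImplicit false

open MeasureTheory Complex Set Filter Topology

namespace Crest.Agent.R086.DC

open Crest.Agent.R086.Wie (XG GInt wtV)

theorem muN_eq (N : ℕ) : muN N = Wie.mW (volume : Measure R12) (wtV R12 N) := rfl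

theorem ac_muN (N : ℕ) : (volume : Measure R12) ≪ muN N := Wie.ac_mW volume (wtV R12 N)
theorem muN_ac (N : ℕ) : muN N ≪ (volume : Measure R12) := Wie.mW_ac volume (wtV R12 N)

/-- a.e. statements are invariant under dilations -/
theorem ae_comp_smul {c : ℝ} (hc : c ≠ 0) {p : R12 → Prop} (h : ∀ᵐ z : R12, p z) :
    ∀ᵐ z : R12, p (c • z) :=
  (Measure.quasiMeasurePreserving_smul (volume : Measure R12) hc).ae h

/-- function level: `a ↦ m(z) a(c z)` -/
def sopT (c : ℝ) (m : R12 → ℂ) (a : R12 → ℂ) (z : R12) : ℂ := m z * a (c • z)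

theorem finrank_R12 : Module.finrank ℝ R12 = 12 := by simp [R12]

theorem wt_smul_le {c : ℝ} (hc : 1 ≤ c) (N : ℕ) (z : R12) : wtV R12 N z ≤ wtV R12 N (c • z) := by
  simp only [Wie.wtV_apply, Wie.wt]
  refine pow_le_pow_left₀ (by positivity) ?_ N
  rw [norm_smul, Real.norm_of_nonneg (by linarith)]
  nlinarith [norm_nonneg z]

theorem gint_comp_smul {c : ℝ} (hc : 1 ≤ c) {N : ℕ} {a : R12 → ℂ}
    (ha : GInt volume (wtV R12 N) a) : GInt volume (wtV R12 N) (fun z => a (c • z)) := by
  have hc0 : c ≠ 0 := by linarith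
  have h1 : Integrable (fun z : R12 => wtV R12 N (c • z) * ‖a (c • z)‖) volume :=
    ((integrable_comp_smul_iff (volume : Measure R12)
      (fun z => wtV R12 N z * ‖a z‖) hc0).2 ha.norm_int)
  have hm : AEStronglyMeasurable (fun z : R12 => a (c • z)) volume :=
    ha.integrable.aestronglyMeasurable.comp_quasiMeasurePreserving
      (Measure.quasiMeasurePreserving_smul (volume : Measure R12) hc0)
  rw [Wie.gint_iff hm]
  refine h1.mono ((wtV R12 N).meas.aestronglyMeasurable.mul hm.norm) (Eventually.of_forall fun z => ?_)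
  rw [Real.norm_of_nonneg (mul_nonneg ((wtV R12 N).nonneg z) (norm_nonneg _)),
    Real.norm_of_nonneg (mul_nonneg ((wtV R12 N).nonneg _) (norm_nonneg _))]
  exact mul_le_mul_of_nonneg_right (wt_smul_le hc N z) (norm_nonneg _)

theorem integral_comp_smul_le {c : ℝ} (hc : 1 ≤ c) {N : ℕ} {a : R12 → ℂ}
    (ha : GInt volume (wtV R12 N) a) :
    ∫ z : R12, wtV R12 N z * ‖a (c • z)‖ ≤ (c ^ 12)⁻¹ * ∫ z : R12, wtV R12 N z * ‖a z‖ := by
  have hc0 : c ≠ 0 := by linarith
  have h1 : Integrable (fun z : R12 => wtV R12 N (c • z) * ‖a (c • z)‖) volume :=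
    ((integrable_comp_smul_iff (volume : Measure R12)
      (fun z => wtV R12 N z * ‖a z‖) hc0).2 ha.norm_int)
  have h2 : ∫ z : R12, wtV R12 N (c • z) * ‖a (c • z)‖ = (c ^ 12)⁻¹ * ∫ z : R12, wtV R12 N z * ‖a z‖ := by
    rw [Measure.integral_comp_smul (volume : Measure R12) (fun z => wtV R12 N z * ‖a z‖) c,
      finrank_R12, abs_of_nonneg (by positivity), smul_eq_mul]
  rw [← h2]
  refine integral_mono (gint_comp_smul hc ha).norm_int h1 fun z => ?_
  exact mul_le_mul_of_nonneg_right (wt_smul_le hc N z) (norm_nonneg _)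

/-- the operator `a ↦ m(z) a(c z)` on densities -/
noncomputable def sop (N : ℕ) (c : ℝ) (hc : 1 ≤ c) (m : R12 → ℂ) (hm : Measurable m) (M : ℝ)
    (hM : ∀ z, ‖m z‖ ≤ M) : XG (volume : Measure R12) (wtV R12 N) →L[ℂ]
      XG (volume : Measure R12) (wtV R12 N) :=
  XG.lift (sopT c m)
    (fun a ha => (gint_comp_smul hc ha).bdd_mul hm.aestronglyMeasurable hM)
    (fun a b _ _ => Eventually.of_forall fun z => by simp only [sopT, mul_add])
    (fun k a _ => Eventually.of_forall fun z => by simp only [sopT]; ring)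
    (fun a b _ h => by
      have := ae_comp_smul (c := c) (by linarith) h
      filter_upwards [this] with z hz
      simp only [sopT, hz])
    (M * (c ^ 12)⁻¹)
    (fun a ha => by
      have hM0 : 0 ≤ M := (norm_nonneg _).trans (hM 0)
      have h1 : ∫ z : R12, wtV R12 N z * ‖sopT c m a z‖ ≤
          ∫ z : R12, M * (wtV R12 N z * ‖a (c • z)‖) := by
        refine integral_mono ((gint_comp_smul hc ha).bdd_mul hm.aestronglyMeasurable hM).norm_int
          ((gint_comp_smul hc ha).norm_int.const_mul M) fun z => ?_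
        calc wtV R12 N z * ‖sopT c m a z‖ = ‖m z‖ * (wtV R12 N z * ‖a (c • z)‖) := by
              rw [sopT, norm_mul]; ring
          _ ≤ M * (wtV R12 N z * ‖a (c • z)‖) := mul_le_mul_of_nonneg_right (hM z)
              (mul_nonneg ((wtV R12 N).nonneg z) (norm_nonneg _))
      refine h1.trans ?_
      rw [integral_const_mul, mul_assoc]
      exact mul_le_mul_of_nonneg_left (integral_comp_smul_le hc ha) hM0)

theorem den_sop (N : ℕ) (c : ℝ) (hc : 1 ≤ c) (m : R12 → ℂ) (hm : Measurable m) (M : ℝ)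
    (hM : ∀ z, ‖m z‖ ≤ M) (a : XG (volume : Measure R12) (wtV R12 N)) :
    XG.den (sop N c hc m hm M hM a) =ᵐ[volume] fun z => m z * XG.den a (c • z) :=
  XG.den_lift _ _ _ _ _ _ _ a

theorem norm_sop_le (N : ℕ) (c : ℝ) (hc : 1 ≤ c) (m : R12 → ℂ) (hm : Measurable m) (M : ℝ)
    (hM : ∀ z, ‖m z‖ ≤ M) : ‖sop N c hc m hm M hM‖ ≤ M * (c ^ 12)⁻¹ :=
  XG.norm_lift_le _ _ _ _ _ _ _ (mul_nonneg ((norm_nonneg _).trans (hM 0))
    (inv_nonneg.2 (pow_nonneg (by linarith) _)))

/-! ### the symbols -/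

/-- symbol of `S0 s`; `σ = 1` first component, `σ = -1` second component -/
noncomputable def sym (om ε σ : ℝ) (s : ℝ) (z : R12) : ℂ :=
  exp ((σ * I * om - ε) * s) * exp (6 * (s : ℂ)) *
      exp (-(σ * I) * (((Real.exp s - 1) * ‖z‖ ^ 2 : ℝ) : ℂ))

theorem measurable_sym (om ε σ s : ℝ) : Measurable (sym om ε σ s) := by
  unfold sym
  fun_prop

theorem continuous_sym2 (om ε σ : ℝ) : Continuous (fun p : ℝ × R12 => sym om ε σ p.1 p.2) := by
  unfold sym
  fun_prop

theorem norm_sym (om ε σ s : ℝ) (z : R12) :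
    ‖sym om ε σ s z‖ = Real.exp (-ε * s) * Real.exp (6 * s) := by
  unfold sym
  rw [norm_mul, norm_mul, Complex.norm_exp, Complex.norm_exp, Complex.norm_exp]
  have e1 : ((σ * I * om - ε) * s : ℂ).re = -ε * s := by simp
  have e2 : (6 * (s : ℂ)).re = 6 * s := by simp
  have e3 : (-(σ * I) * (((Real.exp s - 1) * ‖z‖ ^ 2 : ℝ) : ℂ)).re = 0 := by
    have : -(σ * I) * (((Real.exp s - 1) * ‖z‖ ^ 2 : ℝ) : ℂ) =
        ((-(σ * ((Real.exp s - 1) * ‖z‖ ^ 2)) : ℝ) : ℂ) * I := by push_cast; ring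
    rw [this, Complex.re_ofReal_mul, Complex.I_re, mul_zero]
  rw [e1, e2, e3, Real.exp_zero, mul_one]

theorem sym_add (om ε σ s t : ℝ) (z : R12) :
    sym om ε σ (s + t) z = sym om ε σ s z * sym om ε σ t (Real.exp (s / 2) • z) := by
  unfold sym
  have h1 : ‖Real.exp (s / 2) • z‖ ^ 2 = Real.exp s * ‖z‖ ^ 2 := by
    rw [norm_smul, Real.norm_of_nonneg (Real.exp_pos _).le, mul_pow, ← Real.exp_nat_mul]
    congr 2
    push_cast; ring
  rw [h1]
  simp only [← Complex.exp_add]
  congr 1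
  rw [Real.exp_add]
  push_cast
  ring

theorem one_le_exp_half {s : ℝ} (hs : 0 ≤ s) : 1 ≤ Real.exp (s / 2) :=
  Real.one_le_exp (by linarith)

theorem sym_zero (om ε σ : ℝ) (z : R12) : sym om ε σ 0 z = 1 := by
  simp [sym]

/-- one component of the free semigroup -/
noncomputable def S0c (N : ℕ) (om ε σ : ℝ) (s : ℝ) :
    XG (volume : Measure R12) (wtV R12 N) →L[ℂ] XG (volume : Measure R12) (wtV R12 N) :=
  sop N (Real.exp (max s 0 / 2)) (one_le_exp_half (le_max_right _ _)) (sym om ε σ (max s 0))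
    (measurable_sym _ _ _ _) _ (fun z => (norm_sym om ε σ (max s 0) z).le)

theorem den_S0c (N : ℕ) (om ε σ : ℝ) {s : ℝ} (hs : 0 ≤ s)
    (a : XG (volume : Measure R12) (wtV R12 N)) :
    XG.den (S0c N om ε σ s a) =ᵐ[volume] fun z => sym om ε σ s z * XG.den a (Real.exp (s / 2) • z) := by
  have this : XG.den (S0c N om ε σ s a) =ᵐ[volume] fun z => sym om ε σ (max s 0) z *
      XG.den a (Real.exp (max s 0 / 2) • z) :=
    den_sop N _ (one_le_exp_half (le_max_right s 0)) (sym om ε σ (max s 0))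
      (measurable_sym _ _ _ _) _ (fun z => (norm_sym om ε σ (max s 0) z).le) a
  simpa only [max_eq_left hs] using this

theorem norm_S0c_le (N : ℕ) (om ε σ : ℝ) {s : ℝ} (hs : 0 ≤ s) :
    ‖S0c N om ε σ s‖ ≤ Real.exp (-ε * s) := by
  refine (norm_sop_le _ _ _ _ _ _ _).trans (le_of_eq ?_)
  rw [max_eq_left hs, ← Real.exp_nat_mul, ← Real.exp_neg, ← Real.exp_add, ← Real.exp_add]
  congr 1
  push_cast
  ring

theorem S0c_zero (N : ℕ) (om ε σ : ℝ) : S0c N om ε σ 0 = 1 := by
  ext1 a
  refine XG.ext ?_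
  refine (den_S0c N om ε σ le_rfl a).trans (Eventually.of_forall fun z => ?_)
  simp [sym_zero]

theorem S0c_add (N : ℕ) (om ε σ : ℝ) {s t : ℝ} (hs : 0 ≤ s) (ht : 0 ≤ t) :
    S0c N om ε σ (s + t) = (S0c N om ε σ s).comp (S0c N om ε σ t) := by
  ext1 a
  refine XG.ext ?_
  have h1 := den_S0c N om ε σ (add_nonneg hs ht) a
  have h2 := den_S0c N om ε σ hs (S0c N om ε σ t a)
  have h3 := ae_comp_smul (Real.exp_pos (s / 2)).ne' (den_S0c N om ε σ ht a)
  filter_upwards [h1, h2, h3] with z h1 h2 h3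
  show XG.den (S0c N om ε σ (s + t) a) z = XG.den (S0c N om ε σ s (S0c N om ε σ t a)) z
  have e : (s + t) / 2 = t / 2 + s / 2 := by ring
  rw [h1, h2, h3, sym_add, mul_assoc, smul_smul, ← Real.exp_add, e]

/-! ### strong continuity -/

theorem contOn_of_right {X : Type*} [NormedAddCommGroup X] [NormedSpace ℂ X] {T : ℝ → X →L[ℂ] X}
    (hadd : ∀ s t, 0 ≤ s → 0 ≤ t → T (s + t) = (T s).comp (T t))
    (hb : ∀ s, 0 ≤ s → ‖T s‖ ≤ 1) (x : X)
    (h : Tendsto (fun s => T s x) (𝓝[≥] 0) (𝓝 x)) :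
    ContinuousOn (fun s => T s x) (Ici 0) := by
  intro t0 ht0
  have ht0' : (0:ℝ) ≤ t0 := ht0
  rw [ContinuousWithinAt, tendsto_iff_norm_sub_tendsto_zero]
  have hφ : Tendsto (fun s => ‖T s x - x‖) (𝓝[≥] 0) (𝓝 0) :=
    tendsto_iff_norm_sub_tendsto_zero.1 h
  have habs : Tendsto (fun t : ℝ => |t - t0|) (𝓝[≥] t0 ⊔ 𝓝[Ici 0] t0) (𝓝[≥] 0) := by
    refine tendsto_nhdsWithin_iff.2 ⟨?_, Eventually.of_forall fun t => Set.mem_Ici.2 (abs_nonneg _)⟩
    have : Tendsto (fun t : ℝ => |t - t0|) (𝓝 t0) (𝓝 |t0 - t0|) :=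
      Continuous.tendsto (by fun_prop) t0
    rw [sub_self, abs_zero] at this
    exact this.mono_left (sup_le nhdsWithin_le_nhds nhdsWithin_le_nhds)
  have hcomp : Tendsto (fun t : ℝ => ‖T |t - t0| x - x‖) (𝓝[Ici 0] t0) (𝓝 0) :=
    (hφ.comp habs).mono_left le_sup_right
  refine squeeze_zero' (Eventually.of_forall fun t => norm_nonneg _) ?_ hcomp
  filter_upwards [self_mem_nhdsWithin] with t ht
  have ht' : (0:ℝ) ≤ t := ht
  have key : ∀ a b : ℝ, 0 ≤ a → 0 ≤ b → ‖T (a + b) x - T a x‖ ≤ ‖T b x - x‖ := by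
    intro a b ha hb'
    rw [hadd a b ha hb', ContinuousLinearMap.comp_apply, ← map_sub]
    calc ‖T a (T b x - x)‖ ≤ ‖T a‖ * ‖T b x - x‖ := (T a).le_opNorm _
      _ ≤ 1 * ‖T b x - x‖ := mul_le_mul_of_nonneg_right (hb a ha) (norm_nonneg _)
      _ = _ := one_mul _
  rcases le_total t0 t with hle | hle
  · have h1 := key t0 (t - t0) ht0' (by linarith)
    rw [add_sub_cancel] at h1
    rw [abs_of_nonneg (by linarith)]
    exact h1
  · have h1 := key t (t0 - t) ht' (by linarith)
    rw [add_sub_cancel] at h1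
    rw [abs_of_nonpos (by linarith), neg_sub, norm_sub_rev]
    exact h1

instance muN_locFin (N : ℕ) : IsLocallyFiniteMeasure (Wie.mW (volume : Measure R12) (wtV R12 N)) :=
  IsLocallyFiniteMeasure.withDensity_ofReal (Wie.continuous_wt N)

/-- right continuity at `0` for a continuous compactly supported density -/
theorem S0c_right_cc (N : ℕ) (om ε σ : ℝ) {g : R12 → ℂ} (hg : Continuous g)
    (hgc : HasCompactSupport g) (hgi : GInt volume (wtV R12 N) g) :
    Tendsto (fun s => S0c N om ε σ s (XG.mk g hgi)) (𝓝[≥] 0) (𝓝 (XG.mk g hgi)) := by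
  rw [tendsto_iff_norm_sub_tendsto_zero]
  obtain ⟨Cg, hCg⟩ := hgc.exists_bound_of_continuous hg
  have hCg0 : 0 ≤ Cg := (norm_nonneg _).trans (hCg 0)
  obtain ⟨R, hR⟩ := hgc.isCompact.isBounded.subset_closedBall (0 : R12)
  have hsupp : ∀ z, R < ‖z‖ → g z = 0 := by
    intro z hz
    by_contra hne
    have := hR (subset_tsupport g hne)
    rw [mem_closedBall_zero_iff] at this
    linarith
  set K := Real.exp (|ε| + 6) + 1 with hK
  have hform : ∀ s, 0 ≤ s → ‖S0c N om ε σ s (XG.mk g hgi) - XG.mk g hgi‖ =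
      ∫ z : R12, wtV R12 N z * ‖sym om ε σ s z * g (Real.exp (s / 2) • z) - g z‖ := by
    intro s hs
    rw [XG.norm_eq]
    refine integral_congr_ae ?_
    filter_upwards [XG.den_sub (S0c N om ε σ s (XG.mk g hgi)) (XG.mk g hgi),
      den_S0c N om ε σ hs (XG.mk g hgi), XG.den_mk hgi,
      ae_comp_smul (Real.exp_pos (s / 2)).ne' (XG.den_mk hgi)] with z h1 h2 h3 h4
    rw [h1, h2, h3, h4]
  have hlim : Tendsto (fun s => ∫ z : R12, wtV R12 N z *
      ‖sym om ε σ s z * g (Real.exp (s / 2) • z) - g z‖) (𝓝[≥] 0) (𝓝 (∫ z : R12, (0:ℝ))) := by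
    refine tendsto_integral_filter_of_dominated_convergence
      (fun z => (Metric.closedBall (0 : R12) R).indicator (fun z => wtV R12 N z * (K * Cg)) z)
      ?_ ?_ ?_ ?_
    · refine Eventually.of_forall fun s => ?_
      have h1 : Continuous (fun z : R12 => sym om ε σ s z) :=
        (continuous_sym2 om ε σ).comp (continuous_const.prodMk continuous_id)
      have h2 : Continuous (fun z : R12 => wtV R12 N z) := Wie.continuous_wt N
      exact (h2.mul ((h1.mul (hg.comp (by fun_prop))).sub hg).norm).aestronglyMeasurable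
    · have h01 : ∀ᶠ s in 𝓝[≥] (0:ℝ), s ∈ Icc (0:ℝ) 1 := by
        filter_upwards [self_mem_nhdsWithin, mem_nhdsWithin_of_mem_nhds (Iic_mem_nhds one_pos)]
          with s h1 h2
        exact ⟨h1, h2⟩
      filter_upwards [h01] with s hs
      refine Eventually.of_forall fun z => ?_
      rw [Real.norm_of_nonneg (mul_nonneg ((wtV R12 N).nonneg z) (norm_nonneg _))]
      by_cases hz : z ∈ Metric.closedBall (0 : R12) R
      · rw [indicator_of_mem hz]
        refine mul_le_mul_of_nonneg_left ?_ ((wtV R12 N).nonneg z)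
        refine (norm_sub_le _ _).trans ?_
        rw [norm_mul, norm_sym, ← Real.exp_add, hK, add_mul, one_mul]
        refine add_le_add ?_ (hCg z)
        refine mul_le_mul ?_ (hCg _) (norm_nonneg _) (Real.exp_pos _).le
        apply Real.exp_le_exp.2
        have h1 : -ε * s ≤ |ε| := by
          have := neg_abs_le ε
          have h2 : -ε * s ≤ |ε| * s := mul_le_mul_of_nonneg_right (by linarith [neg_abs_le ε]) hs.1
          have h3 : |ε| * s ≤ |ε| * 1 := mul_le_mul_of_nonneg_left hs.2 (abs_nonneg _)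
          linarith
        linarith [hs.2]
      · rw [indicator_of_notMem hz]
        rw [mem_closedBall_zero_iff, not_le] at hz
        have h1 : g z = 0 := hsupp z hz
        have h2 : g (Real.exp (s / 2) • z) = 0 := by
          apply hsupp
          rw [norm_smul, Real.norm_of_nonneg (Real.exp_pos _).le]
          have := one_le_exp_half hs.1
          nlinarith [norm_nonneg z]
        rw [h1, h2]; simp
    · rw [integrable_indicator_iff Metric.isClosed_closedBall.measurableSet]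
      have h2 : Continuous (fun z : R12 => wtV R12 N z * (K * Cg)) :=
        (Wie.continuous_wt N).mul continuous_const
      exact h2.continuousOn.integrableOn_compact (isCompact_closedBall _ _)
    · refine Eventually.of_forall fun z => ?_
      have h1 : Continuous (fun s : ℝ => wtV R12 N z *
          ‖sym om ε σ s z * g (Real.exp (s / 2) • z) - g z‖) := by
        have h1 : Continuous (fun s : ℝ => sym om ε σ s z) :=
          (continuous_sym2 om ε σ).comp (continuous_id.prodMk continuous_const)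
        exact continuous_const.mul ((h1.mul (hg.comp (by fun_prop))).sub continuous_const).norm
      have h3 := h1.tendsto 0
      simp only [sym_zero, zero_div, Real.exp_zero, one_smul, one_mul, sub_self, norm_zero,
        mul_zero] at h3
      exact h3.mono_left nhdsWithin_le_nhds
  rw [integral_zero] at hlim
  refine hlim.congr' ?_
  filter_upwards [self_mem_nhdsWithin] with s hs
  exact (hform s hs).symm

theorem S0c_right (N : ℕ) (om : ℝ) {ε : ℝ} (hε : 0 ≤ ε) (σ : ℝ)
    (a : XG (volume : Measure R12) (wtV R12 N)) :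
    Tendsto (fun s => S0c N om ε σ s a) (𝓝[≥] 0) (𝓝 a) := by
  rw [Metric.tendsto_nhds]
  intro δ hδ
  have hai : Integrable (XG.den a) (Wie.mW (volume : Measure R12) (wtV R12 N)) :=
    Wie.integrable_mW_iff.2 (XG.gint_den a)
  obtain ⟨g, hgc, hgδ, hg, hgi⟩ := hai.exists_hasCompactSupport_integral_sub_le
    (ε := δ / 4) (by positivity)
  have hgi' : GInt volume (wtV R12 N) g := Wie.integrable_mW_iff.1 hgi
  have hab : ‖a - XG.mk g hgi'‖ ≤ δ / 4 := by
    refine le_trans (le_of_eq ?_) hgδ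
    rw [XG.norm_eq, Wie.integral_mW]
    refine integral_congr_ae ?_
    filter_upwards [XG.den_sub a (XG.mk g hgi'), XG.den_mk hgi'] with z h1 h2
    rw [h1, h2, smul_eq_mul]
  have hev := Metric.tendsto_nhds.1 (S0c_right_cc N om ε σ hg hgc hgi') (δ / 4) (by positivity)
  filter_upwards [hev, self_mem_nhdsWithin] with s h1 hs
  have hs' : (0:ℝ) ≤ s := hs
  rw [dist_eq_norm] at h1 ⊢
  have hnorm : ‖S0c N om ε σ s‖ ≤ 1 := by
    refine (norm_S0c_le N om ε σ hs').trans ?_
    apply Real.exp_le_one_iff.2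
    have : 0 ≤ ε * s := mul_nonneg hε hs'
    linarith
  have e : S0c N om ε σ s a - a = S0c N om ε σ s (a - XG.mk g hgi') +
      (S0c N om ε σ s (XG.mk g hgi') - XG.mk g hgi') - (a - XG.mk g hgi') := by
    rw [map_sub]; abel
  have h2 : ‖S0c N om ε σ s (a - XG.mk g hgi')‖ ≤ δ / 4 := by
    refine ((S0c N om ε σ s).le_opNorm _).trans ?_
    calc ‖S0c N om ε σ s‖ * ‖a - XG.mk g hgi'‖ ≤ 1 * (δ / 4) :=
          mul_le_mul hnorm hab (norm_nonneg _) one_pos.le
      _ = δ / 4 := one_mul _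
  rw [e]
  calc _ ≤ ‖S0c N om ε σ s (a - XG.mk g hgi')‖ + ‖S0c N om ε σ s (XG.mk g hgi') - XG.mk g hgi'‖
        + ‖a - XG.mk g hgi'‖ := (norm_sub_le _ _).trans (add_le_add (norm_add_le _ _) le_rfl)
    _ < δ := by linarith

theorem S0c_cont (N : ℕ) (om : ℝ) {ε : ℝ} (hε : 0 ≤ ε) (σ : ℝ)
    (a : XG (volume : Measure R12) (wtV R12 N)) :
    ContinuousOn (fun s => S0c N om ε σ s a) (Ici 0) :=
  contOn_of_right (fun s t hs ht => S0c_add N om ε σ hs ht)
    (fun s hs => (norm_S0c_le N om ε σ hs).trans (by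
      apply Real.exp_le_one_iff.2
      have : 0 ≤ ε * s := mul_nonneg hε hs
      linarith)) a (S0c_right N om hε σ a)

end Crest.Agent.R086.DC
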