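import Crest.Agent.R086.DCfree

/-!
Row 86, module DC (helper758): existence of the linear flow `LinData` (`LinStmt`).
-/

set_option autoImplicit false

open MeasureTheory Complex Set Filter Topology

namespace Crest.Agent.R086.DC

open Crest.Agent.R086.Wie (XG GInt wtV)

/-- abbreviation for the component space -/
abbrev YN (N : ℕ) : Type := XG (volume : Measure R12) (wtV R12 N)

theorem gint_of_rep {N : ℕ} {a f : R12 → ℂ} (h : Rep N a f) : GInt volume (wtV R12 N) a := by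
  refine h.1.congr (Eventually.of_forall fun ξ => ?_)
  simp only [Wie.wtV_apply, Wie.wt, Complex.real_smul]

section gen
variable {V : Type*} [NormedAddCommGroup V] [InnerProductSpace ℝ V] [FiniteDimensional ℝ V]
  [MeasurableSpace V] [BorelSpace V]

/-- convolution operator (general space) -/
noncomputable def CvG (N : ℕ) (v : V → ℂ) (hv : GInt volume (wtV V N) v) :
    Wie.X V N →L[ℂ] Wie.X V N :=
  (ContinuousLinearMap.mul ℂ (Wie.X V N)).flip (XG.mk v hv)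

theorem den_CvG (N : ℕ) (v : V → ℂ) (hv : GInt volume (wtV V N) v) (a : Wie.X V N) :
    XG.den (CvG N v hv a) =ᵐ[volume] fun η => ∫ ξ : V, v (η - ξ) * XG.den a ξ := by
  have h1 : CvG N v hv a = a * XG.mk v hv := rfl
  rw [h1]
  refine (XG.den_mul a (XG.mk v hv)).trans ?_
  rw [XG.cv_congr (EventuallyEq.refl _ (XG.den a)) (XG.den_mk hv)]
  refine Eventually.of_forall fun η => ?_
  simp only [Wie.cv]
  refine integral_congr_ae (Eventually.of_forall fun t => ?_)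
  simp only
  ring

end gen

/-- convolution operator -/
noncomputable def CvL (N : ℕ) (v : R12 → ℂ) (hv : GInt volume (wtV R12 N) v) : YN N →L[ℂ] YN N :=
  CvG (V := R12) N v hv

theorem den_CvL (N : ℕ) (v : R12 → ℂ) (hv : GInt volume (wtV R12 N) v) (a : YN N) :
    XG.den (CvL N v hv a) =ᵐ[volume] cv v (XG.den a) := den_CvG (V := R12) N v hv a

section pot
variable {n : ℕ} {P : Profile n} (T : Pot P) (N : ℕ)

/-- the potential operator on pairs -/
noncomputable def VVop : YN N × YN N →L[ℂ] YN N × YN N :=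
  ((-I) • ((CvL N T.v1 (gint_of_rep (T.rep_v1 N))).comp (ContinuousLinearMap.fst ℂ (YN N) (YN N)) +
      (CvL N T.v2 (gint_of_rep (T.rep_v2 N))).comp (ContinuousLinearMap.snd ℂ (YN N) (YN N)))).prod
  (I • ((CvL N T.v1 (gint_of_rep (T.rep_v1 N))).comp (ContinuousLinearMap.snd ℂ (YN N) (YN N)) +
      (CvL N T.v2c (gint_of_rep (T.rep_v2c N))).comp (ContinuousLinearMap.fst ℂ (YN N) (YN N))))

theorem VVop_fst (x : YN N × YN N) : XG.den (VVop T N x).1 =ᵐ[volume] fun z =>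
    -I * (cv T.v1 (XG.den x.1) z + cv T.v2 (XG.den x.2) z) := by
  have h0 : (VVop T N x).1 = (-I) • (CvL N T.v1 (gint_of_rep (T.rep_v1 N)) x.1 +
    CvL N T.v2 (gint_of_rep (T.rep_v2 N)) x.2) := rfl
  rw [h0]
  filter_upwards [XG.den_smul (-I) (CvL N T.v1 (gint_of_rep (T.rep_v1 N)) x.1 +
    CvL N T.v2 (gint_of_rep (T.rep_v2 N)) x.2),
    XG.den_add (CvL N T.v1 (gint_of_rep (T.rep_v1 N)) x.1) (CvL N T.v2 (gint_of_rep (T.rep_v2 N)) x.2),
    den_CvL N T.v1 (gint_of_rep (T.rep_v1 N)) x.1,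
    den_CvL N T.v2 (gint_of_rep (T.rep_v2 N)) x.2] with z h1 h2 h3 h4
  rw [h1, h2, h3, h4]

theorem VVop_snd (x : YN N × YN N) : XG.den (VVop T N x).2 =ᵐ[volume] fun z =>
    I * (cv T.v1 (XG.den x.2) z + cv T.v2c (XG.den x.1) z) := by
  have h0 : (VVop T N x).2 = I • (CvL N T.v1 (gint_of_rep (T.rep_v1 N)) x.2 +
    CvL N T.v2c (gint_of_rep (T.rep_v2c N)) x.1) := rfl
  rw [h0]
  filter_upwards [XG.den_smul I (CvL N T.v1 (gint_of_rep (T.rep_v1 N)) x.2 +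
    CvL N T.v2c (gint_of_rep (T.rep_v2c N)) x.1),
    XG.den_add (CvL N T.v1 (gint_of_rep (T.rep_v1 N)) x.2) (CvL N T.v2c (gint_of_rep (T.rep_v2c N)) x.1),
    den_CvL N T.v1 (gint_of_rep (T.rep_v1 N)) x.2,
    den_CvL N T.v2c (gint_of_rep (T.rep_v2c N)) x.1] with z h1 h2 h3 h4
  rw [h1, h2, h3, h4]

end pot

/-- the free semigroup on pairs -/
noncomputable def S0p (N : ℕ) (om ε : ℝ) (s : ℝ) : YN N × YN N →L[ℂ] YN N × YN N :=
  (S0c N om ε 1 s).prodMap (S0c N om ε (-1) s)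

theorem norm_S0p_le (N : ℕ) (om ε : ℝ) {s : ℝ} (hs : 0 ≤ s) :
    ‖S0p N om ε s‖ ≤ Real.exp (-ε * s) := by
  apply ContinuousLinearMap.opNorm_le_bound _ (Real.exp_pos _).le
  intro x
  have h1 : ‖S0c N om ε 1 s x.1‖ ≤ Real.exp (-ε * s) * ‖x‖ :=
    ((S0c N om ε 1 s).le_opNorm _).trans (mul_le_mul (norm_S0c_le N om ε 1 hs) (norm_fst_le x)
      (norm_nonneg _) (Real.exp_pos _).le)
  have h2 : ‖S0c N om ε (-1) s x.2‖ ≤ Real.exp (-ε * s) * ‖x‖ :=
    ((S0c N om ε (-1) s).le_opNorm _).trans (mul_le_mul (norm_S0c_le N om ε (-1) hs) (norm_snd_le x)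
      (norm_nonneg _) (Real.exp_pos _).le)
  exact max_le h1 h2

theorem isC0_S0p (N : ℕ) (om : ℝ) {ε : ℝ} (hε : 0 ≤ ε) : IsC0 (S0p N om ε) (-ε) where
  zero := by
    unfold S0p
    rw [S0c_zero, S0c_zero]
    rfl
  add := by
    intro s t hs ht
    unfold S0p
    rw [S0c_add N om ε 1 hs ht, S0c_add N om ε (-1) hs ht]
    rfl
  cont := fun x => ((S0c_cont N om hε 1 x.1).prodMk (S0c_cont N om hε (-1) x.2))
  bound := fun t ht => norm_S0p_le N om ε ht

theorem sym_one (om : ℝ) (n : ℕ) (s : ℝ) (z : R12) : sym om (1 / (n:ℝ)) 1 s z =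
    exp ((I * om - 1 / n) * s) * exp (6 * (s : ℂ)) *
      exp (-I * (((Real.exp s - 1) * ‖z‖ ^ 2 : ℝ) : ℂ)) := by
  unfold sym
  push_cast
  simp only [one_mul]

theorem sym_neg_one (om : ℝ) (n : ℕ) (s : ℝ) (z : R12) : sym om (1 / (n:ℝ)) (-1) s z =
    exp ((-I * om - 1 / n) * s) * exp (6 * (s : ℂ)) *
      exp (I * (((Real.exp s - 1) * ‖z‖ ^ 2 : ℝ) : ℂ)) := by
  unfold sym
  push_cast
  simp only [neg_mul, one_mul, neg_neg]

/-- `YN N` and `XN N` are the same normed space -/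
noncomputable def S0X (N : ℕ) (om ε : ℝ) (s : ℝ) : XX N →L[ℂ] XX N := S0p N om ε s

theorem isC0_S0X (N : ℕ) (om : ℝ) {ε : ℝ} (hε : 0 ≤ ε) : IsC0 (S0X N om ε) (-ε) :=
  isC0_S0p N om hε

variable {n : ℕ} (P : Profile n) (N : ℕ)

noncomputable def VVX (T : Pot P) : XX N →L[ℂ] XX N := VVop T N

theorem VVX_fst (T : Pot P) (x : XX N) : ((VVX P N T x).1 : R12 → ℂ) =ᵐ[volume] fun z =>
    -I * (cv T.v1 x.1 z + cv T.v2 x.2 z) := VVop_fst T N x

theorem VVX_snd (T : Pot P) (x : XX N) : ((VVX P N T x).2 : R12 → ℂ) =ᵐ[volume] fun z =>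
    I * (cv T.v1 x.2 z + cv T.v2c x.1 z) := VVop_snd T N x

noncomputable def modeY (T : Pot P) (i : MI) : YN N × YN N :=
  ((XG.mk (T.m1 i) (gint_of_rep (T.rep_m1 i N)) : YN N),
    (XG.mk (T.m2 i) (gint_of_rep (T.rep_m2 i N)) : YN N))

theorem modeY_fst (T : Pot P) (i : MI) : XG.den (modeY P N T i).1 =ᵐ[volume] T.m1 i :=
  XG.den_mk (gint_of_rep (T.rep_m1 i N))

theorem modeY_snd (T : Pot P) (i : MI) : XG.den (modeY P N T i).2 =ᵐ[volume] T.m2 i :=
  XG.den_mk (gint_of_rep (T.rep_m2 i N))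

noncomputable def modeX (T : Pot P) (i : MI) : XX N := modeY P N T i

theorem modeX_fst (T : Pot P) (i : MI) : ((modeX P N T i).1 : R12 → ℂ) =ᵐ[volume] T.m1 i :=
  modeY_fst P N T i

theorem modeX_snd (T : Pot P) (i : MI) : ((modeX P N T i).2 : R12 → ℂ) =ᵐ[volume] T.m2 i :=
  modeY_snd P N T i

theorem top_S0_fst (s : ℝ) (hs : 0 ≤ s) (x : XX N) :
    ((S0X N P.om (1 / (n:ℝ)) s x).1 : R12 → ℂ) =ᵐ[volume] fun z =>
    exp ((I * P.om - 1 / n) * s) * exp (6 * (s : ℂ)) *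
      exp (-I * (((Real.exp s - 1) * ‖z‖ ^ 2 : ℝ) : ℂ)) * (x.1 : R12 → ℂ) (Real.exp (s / 2) • z) := by
  have h := den_S0c N P.om (1 / (n:ℝ)) 1 hs x.1
  simp only [sym_one] at h
  exact h

theorem top_S0_snd (s : ℝ) (hs : 0 ≤ s) (x : XX N) :
    ((S0X N P.om (1 / (n:ℝ)) s x).2 : R12 → ℂ) =ᵐ[volume] fun z =>
    exp ((-I * P.om - 1 / n) * s) * exp (6 * (s : ℂ)) *
      exp (I * (((Real.exp s - 1) * ‖z‖ ^ 2 : ℝ) : ℂ)) * (x.2 : R12 → ℂ) (Real.exp (s / 2) • z) := by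
  have h := den_S0c N P.om (1 / (n:ℝ)) (-1) hs x.2
  simp only [sym_neg_one] at h
  exact h

theorem top_norm (s : ℝ) (hs : 0 ≤ s) :
    ‖S0X N P.om (1 / (n:ℝ)) s‖ ≤ Real.exp (-s / n) := by
  refine (norm_S0p_le N P.om (1 / (n:ℝ)) hs).trans (le_of_eq ?_)
  congr 1
  ring

theorem eps_nonneg (n : ℕ) : (0:ℝ) ≤ 1 / (n:ℝ) := by positivity

/-- the perturbed semigroup -/
noncomputable def SX (T : Pot P) : ℝ → XX N →L[ℂ] XX N :=
  pert (isC0_S0X N P.om (eps_nonneg n)) (VVX P N T)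

theorem isC0_SX (T : Pot P) : IsC0 (SX P N T) (-(1 / (n:ℝ)) + ‖VVX P N T‖) :=
  pert_isC0 (isC0_S0X N P.om (eps_nonneg n)) (VVX P N T)

theorem SX_duh (T : Pot P) (s : ℝ) (hs : 0 ≤ s) (x : XX N) :
    SX P N T s x = S0X N P.om (1 / (n:ℝ)) s x +
      ∫ r in (0 : ℝ)..s, S0X N P.om (1 / (n:ℝ)) (s - r) (VVX P N T (SX P N T r x)) :=
  pert_duhamel (isC0_S0X N P.om (eps_nonneg n)) (VVX P N T) hs x

theorem SX_duh' (T : Pot P) (s : ℝ) (hs : 0 ≤ s) (x : XX N) :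
    SX P N T s x = S0X N P.om (1 / (n:ℝ)) s x +
      ∫ r in (0 : ℝ)..s, SX P N T (s - r) (VVX P N T (S0X N P.om (1 / (n:ℝ)) r x)) :=
  pert_duhamel' (isC0_S0X N P.om (eps_nonneg n)) (VVX P N T) hs x

/-- the linear flow -/
noncomputable def linData (T : Pot P) : LinData P T N where
    S0 := S0X N P.om (1 / (n:ℝ))
    VV := VVX P N T
    S := SX P N T
    mode := modeX P N T
    S0_fst := top_S0_fst P N
    S0_snd := top_S0_snd P N
    VV_fst := VVX_fst P N T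
    VV_snd := VVX_snd P N T
    mode_fst := modeX_fst P N T
    mode_snd := modeX_snd P N T
    S0_zero := (isC0_S0X N P.om (eps_nonneg n)).zero
    S0_add := (isC0_S0X N P.om (eps_nonneg n)).add
    S0_cont := (isC0_S0X N P.om (eps_nonneg n)).cont
    S0_norm := top_norm P N
    S_zero := (isC0_SX P N T).zero
    S_add := (isC0_SX P N T).add
    S_cont := (isC0_SX P N T).cont
    duh := SX_duh P N T
    duh' := SX_duh' P N T

theorem linStmt : LinStmt := fun _ P T N => ⟨linData P N T⟩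

end Crest.Agent.R086.DC
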