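import Mathlib

/-!
Row 86 (S0114), Part D, node DD (helper97): averaging lemma on `ℝ^12` (any finite-dimensional
Euclidean space of positive dimension) and the elementary oscillatory bound.
-/

set_option autoImplicit false

open MeasureTheory Set Metric Filter Topology Complex

namespace Crest.Agent.R086.DD

section Avg

variable {E : Type*} [NormedAddCommGroup E] [InnerProductSpace ℝ E] [FiniteDimensional ℝ E]
  [MeasurableSpace E] [BorelSpace E]

/-- The quadratic denominators are `≥ 1`. -/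
theorem one_le_den (η z : E) : (1 : ℝ) ≤ 1 + |2 * inner ℝ η z + ‖z‖ ^ 2| := by
  have := abs_nonneg (2 * inner ℝ η z + ‖z‖ ^ 2)
  linarith

/-- Pointwise decay of `1/(1+|2⟪η_k,z⟫+|z|²|)` along sequences `η_k → ∞` whose directions converge
to `e`, for every `z` not orthogonal to `e`. -/
theorem tendsto_den (η : ℕ → E) (e : E) (hη : Tendsto (fun k => ‖η k‖) atTop atTop)
    (he : Tendsto (fun k => (‖η k‖)⁻¹ • η k) atTop (𝓝 e)) (z : E) (hz : inner ℝ e z ≠ 0) :
    Tendsto (fun k => (1 + |2 * inner ℝ (η k) z + ‖z‖ ^ 2|)⁻¹) atTop (𝓝 0) := by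
  apply Tendsto.inv_tendsto_atTop
  apply tendsto_atTop_add_const_left
  have h1 : Tendsto (fun k => |2 * inner ℝ ((‖η k‖)⁻¹ • η k) z + ‖z‖ ^ 2 * (‖η k‖)⁻¹|) atTop
      (𝓝 |2 * inner ℝ e z + ‖z‖ ^ 2 * 0|) := by
    have h2 : Tendsto (fun k => inner ℝ ((‖η k‖)⁻¹ • η k) z) atTop (𝓝 (inner ℝ e z)) :=
      he.inner tendsto_const_nhds
    have h3 : Tendsto (fun k => (‖η k‖)⁻¹) atTop (𝓝 0) := tendsto_inv_atTop_zero.comp hη
    exact ((h2.const_mul 2).add (h3.const_mul _)).abs
  have h4 : (0 : ℝ) < |2 * inner ℝ e z + ‖z‖ ^ 2 * 0| := by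
    rw [mul_zero, add_zero]; positivity
  have h5 := hη.atTop_mul_pos h4 h1
  refine h5.congr' ?_
  filter_upwards [hη.eventually_gt_atTop 0] with k hk
  rw [← abs_of_pos hk, ← abs_mul, abs_of_pos hk, inner_smul_left]
  congr 1
  simp only [conj_trivial]
  field_simp

/-- Hyperplanes through the origin are null sets. -/
theorem ae_inner_ne (e : E) (he : e ≠ 0) : ∀ᵐ z ∂(volume : Measure E), inner ℝ e z ≠ 0 := by
  have h1 : (volume : Measure E) ((ℝ ∙ e)ᗮ : Submodule ℝ E) = 0 := by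
    apply Measure.addHaar_submodule
    intro h
    have : e ∈ ((ℝ ∙ e)ᗮ : Submodule ℝ E) := by rw [h]; trivial
    rw [Submodule.mem_orthogonal_singleton_iff_inner_right] at this
    exact he (inner_self_eq_zero.1 this)
  rw [ae_iff]
  refine measure_mono_null ?_ h1
  intro z hz
  simp only [ne_eq, not_not, mem_setOf_eq] at hz
  exact (Submodule.mem_orthogonal_singleton_iff_inner_right).2 hz

/-- **Averaging lemma (no rate)**: for integrable `φ ≥ 0` the averages
`∫ φ(z)/(1+|2⟪η,z⟫+|z|²|) dz` tend to `0` uniformly as `|η| → ∞`. -/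
theorem avg_zero (φ : E → ℝ) (hφ : Integrable φ) (hφ0 : ∀ z, 0 ≤ φ z) (ε : ℝ) (hε : 0 < ε) :
    ∃ R : ℝ, 0 < R ∧ ∀ η : E, R ≤ ‖η‖ →
      ∫ z, φ z * (1 + |2 * inner ℝ η z + ‖z‖ ^ 2|)⁻¹ ≤ ε := by
  by_contra hcon
  push Not at hcon
  have hk : ∀ k : ℕ, ∃ η : E, (k : ℝ) + 1 ≤ ‖η‖ ∧
      ε < ∫ z, φ z * (1 + |2 * inner ℝ η z + ‖z‖ ^ 2|)⁻¹ := fun k => hcon (k + 1) (by positivity)
  choose η hη1 hη2 using hk
  have hpos : ∀ k, 0 < ‖η k‖ := fun k => lt_of_lt_of_le (by positivity) (hη1 k)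
  have hmem : ∀ k, (‖η k‖)⁻¹ • η k ∈ sphere (0 : E) 1 := by
    intro k
    rw [mem_sphere_zero_iff_norm, norm_smul, norm_inv, norm_norm, inv_mul_cancel₀ (hpos k).ne']
  obtain ⟨e, he, ψ, hψ, hlim⟩ := (isCompact_sphere (0 : E) 1).tendsto_subseq hmem
  have he1 : ‖e‖ = 1 := mem_sphere_zero_iff_norm.1 he
  have hene : e ≠ 0 := by intro h; rw [h, norm_zero] at he1; exact zero_ne_one he1
  have hηt : Tendsto (fun k => ‖η (ψ k)‖) atTop atTop := by
    have h1 : Tendsto (fun k : ℕ => (k : ℝ)) atTop atTop := tendsto_natCast_atTop_atTop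
    refine tendsto_atTop_mono (fun k => ?_) h1
    have h2 := hη1 (ψ k)
    have h3 : (k : ℝ) ≤ (ψ k : ℝ) := by exact_mod_cast hψ.id_le k
    linarith
  have hlim' : Tendsto (fun k => ∫ z, φ z * (1 + |2 * inner ℝ (η (ψ k)) z + ‖z‖ ^ 2|)⁻¹) atTop
      (𝓝 (∫ _z : E, (0 : ℝ))) := by
    refine tendsto_integral_of_dominated_convergence φ ?_ hφ ?_ ?_
    · intro k
      refine hφ.aestronglyMeasurable.mul ?_
      refine Continuous.aestronglyMeasurable ?_
      have hc : Continuous fun z : E => 1 + |2 * inner ℝ (η (ψ k)) z + ‖z‖ ^ 2| := by fun_prop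
      exact hc.inv₀ (fun z => by have := one_le_den (η (ψ k)) z; linarith)
    · intro k
      refine Eventually.of_forall (fun z => ?_)
      have h1 := one_le_den (η (ψ k)) z
      rw [norm_mul, Real.norm_of_nonneg (hφ0 z), Real.norm_of_nonneg (by positivity)]
      calc φ z * (1 + |2 * inner ℝ (η (ψ k)) z + ‖z‖ ^ 2|)⁻¹ ≤ φ z * 1 := by
            refine mul_le_mul_of_nonneg_left ?_ (hφ0 z)
            exact inv_le_one_of_one_le₀ h1
        _ = φ z := mul_one _
    · filter_upwards [ae_inner_ne e hene] with z hz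
      have := tendsto_den (fun k => η (ψ k)) e hηt hlim z hz
      simpa using this.const_mul (φ z)
  rw [integral_zero] at hlim'
  have hev := hlim'.eventually (gt_mem_nhds hε)
  obtain ⟨k, hk⟩ := hev.exists
  exact absurd (hη2 (ψ k)) (not_lt.2 hk.le)

end Avg

section Osc

/-- **Oscillatory bound** on `[0,S]` with phase `θ(s)=1-e^{-s}`:
`‖∫_0^S e^{i θ(s) A} b(s) ds‖ ≤ C/(1+|A|)`. Vector valued version. -/
theorem osc_bound {F : Type*} [NormedAddCommGroup F] [NormedSpace ℂ F] [CompleteSpace F]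
    (S : ℝ) (hS : 0 ≤ S) (b b' : ℝ → F) (hb : ∀ s ∈ Icc (0 : ℝ) S, HasDerivWithinAt b (b' s) (Icc 0 S) s)
    (hb' : ContinuousOn b' (Icc 0 S)) (M : ℝ) (hM : ∀ s ∈ Icc (0 : ℝ) S, ‖b s‖ ≤ M)
    (hM' : ∀ s ∈ Icc (0 : ℝ) S, ‖b' s‖ ≤ M) (A : ℝ) :
    ‖∫ s in (0 : ℝ)..S, cexp (I * ((1 - Real.exp (-s)) * A : ℝ)) • b s‖
      ≤ (2 + 3 * S) * Real.exp S * M * (2 / (1 + |A|)) := by
  have hM0 : 0 ≤ M := (norm_nonneg _).trans (hM 0 ⟨le_rfl, hS⟩)
  have hexp1 : (1 : ℝ) ≤ Real.exp S := Real.one_le_exp hS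
  have hnormexp : ∀ s : ℝ, ‖cexp (I * ((1 - Real.exp (-s)) * A : ℝ))‖ = 1 := by
    intro s
    rw [mul_comm, Complex.norm_exp_ofReal_mul_I]
  have hbc : ContinuousOn b (Icc 0 S) := fun s hs => (hb s hs).continuousWithinAt
  -- trivial bound
  have htriv : ‖∫ s in (0 : ℝ)..S, cexp (I * ((1 - Real.exp (-s)) * A : ℝ)) • b s‖ ≤ M * S := by
    have h := intervalIntegral.norm_integral_le_of_norm_le_const (a := (0 : ℝ)) (b := S) (C := M)
      (f := fun s => cexp (I * ((1 - Real.exp (-s)) * A : ℝ)) • b s) (by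
        intro s hs
        rw [uIoc_of_le hS] at hs
        rw [norm_smul, hnormexp, one_mul]
        exact hM s ⟨hs.1.le, hs.2⟩)
    rwa [sub_zero, abs_of_nonneg hS] at h
  have habs : 0 ≤ |A| := abs_nonneg A
  rcases le_or_gt |A| 1 with hA | hA
  · refine htriv.trans ?_
    have h1 : (1 : ℝ) ≤ 2 / (1 + |A|) := by
      rw [le_div_iff₀ (by linarith)]; linarith
    have h2 : M * S ≤ (2 + 3 * S) * Real.exp S * M := by
      have : S ≤ (2 + 3 * S) * Real.exp S := by nlinarith
      nlinarith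
    calc M * S ≤ (2 + 3 * S) * Real.exp S * M := h2
      _ = (2 + 3 * S) * Real.exp S * M * 1 := (mul_one _).symm
      _ ≤ _ := by
          refine mul_le_mul_of_nonneg_left h1 ?_
          have : 0 ≤ Real.exp S := (Real.exp_pos _).le
          positivity
  · have hA0 : A ≠ 0 := by intro h; rw [h, abs_zero] at hA; linarith
    have hAc : (A : ℂ) ≠ 0 := by exact_mod_cast hA0
    -- u = e^{iθA}/(iA), v = e^{s} b
    have hu : ∀ s ∈ Ioo (min (0:ℝ) S) (max 0 S), HasDerivAt
        (fun s : ℝ => cexp (I * ((1 - Real.exp (-s)) * A : ℝ)) / (I * A))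
        (cexp (I * ((1 - Real.exp (-s)) * A : ℝ)) * (Real.exp (-s) : ℝ)) s := by
      intro s _
      have h1 : HasDerivAt (fun s : ℝ => (1 - Real.exp (-s)) * A) (Real.exp (-s) * A) s := by
        have h2 : HasDerivAt (fun s : ℝ => Real.exp (-s)) (-Real.exp (-s)) s := by
          simpa using (hasDerivAt_neg s).exp
        simpa using (h2.const_sub 1).mul_const A
      have h3 := ((h1.ofReal_comp).const_mul I).cexp
      have h4 := h3.div_const (I * A)
      refine h4.congr_deriv ?_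
      rw [div_eq_iff (mul_ne_zero I_ne_zero hAc)]
      push_cast
      ring
    have hv : ∀ s ∈ Ioo (min (0:ℝ) S) (max 0 S), HasDerivAt (fun s : ℝ => (Real.exp s : ℝ) • b s)
        ((Real.exp s : ℝ) • b' s + (Real.exp s : ℝ) • b s) s := by
      intro s hs
      rw [min_eq_left hS, max_eq_right hS] at hs
      have h1 : HasDerivAt b (b' s) s :=
        (hb s ⟨hs.1.le, hs.2.le⟩).hasDerivAt (Icc_mem_nhds hs.1 hs.2)
      exact (Real.hasDerivAt_exp s).smul h1
    have hparts := intervalIntegral.integral_smul_deriv_eq_deriv_smul_of_hasDerivAt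
      (a := (0:ℝ)) (b := S)
      (u := fun s : ℝ => cexp (I * ((1 - Real.exp (-s)) * A : ℝ)) / (I * A))
      (u' := fun s : ℝ => cexp (I * ((1 - Real.exp (-s)) * A : ℝ)) * (Real.exp (-s) : ℝ))
      (v := fun s : ℝ => (Real.exp s : ℝ) • b s)
      (v' := fun s : ℝ => (Real.exp s : ℝ) • b' s + (Real.exp s : ℝ) • b s)
      (by fun_prop) (by
        rw [uIcc_of_le hS]
        exact (Real.continuous_exp.continuousOn).smul hbc) hu hv
      (by
        apply Continuous.intervalIntegrable; fun_prop)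
      (by
        apply ContinuousOn.intervalIntegrable
        rw [uIcc_of_le hS]
        exact ((Real.continuous_exp.continuousOn).smul hb').add
          ((Real.continuous_exp.continuousOn).smul hbc))
    have hrew : (∫ s in (0:ℝ)..S, (cexp (I * ((1 - Real.exp (-s)) * A : ℝ)) * (Real.exp (-s) : ℝ)) •
        ((Real.exp s : ℝ) • b s)) = ∫ s in (0 : ℝ)..S, cexp (I * ((1 - Real.exp (-s)) * A : ℝ)) • b s := by
      apply intervalIntegral.integral_congr
      intro s _
      have h1 : (Real.exp s : ℝ) • b s = ((Real.exp s : ℝ) : ℂ) • b s := by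
        rw [Complex.coe_smul]
      simp only
      rw [h1, smul_smul, mul_assoc, ← Complex.ofReal_mul, ← Real.exp_add]
      simp
    have hnu : ∀ s : ℝ, ‖cexp (I * ((1 - Real.exp (-s)) * A : ℝ)) / (I * A)‖ = |A|⁻¹ := by
      intro s
      rw [norm_div, hnormexp, norm_mul, Complex.norm_I, one_mul, Complex.norm_real, Real.norm_eq_abs,
        one_div]
    have hest : ‖∫ s in (0:ℝ)..S, (cexp (I * ((1 - Real.exp (-s)) * A : ℝ)) / (I * A)) •
        ((Real.exp s : ℝ) • b' s + (Real.exp s : ℝ) • b s)‖ ≤ (|A|⁻¹ * (2 * Real.exp S * M)) * S := by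
      have h := intervalIntegral.norm_integral_le_of_norm_le_const (a := (0 : ℝ)) (b := S)
        (C := |A|⁻¹ * (2 * Real.exp S * M))
        (f := fun s => (cexp (I * ((1 - Real.exp (-s)) * A : ℝ)) / (I * A)) •
          ((Real.exp s : ℝ) • b' s + (Real.exp s : ℝ) • b s)) (by
          intro s hs
          rw [uIoc_of_le hS] at hs
          have hs' : s ∈ Icc (0:ℝ) S := ⟨hs.1.le, hs.2⟩
          rw [norm_smul, hnu]
          refine mul_le_mul_of_nonneg_left ?_ (by positivity)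
          have he : Real.exp s ≤ Real.exp S := Real.exp_le_exp.2 hs.2
          have hes : 0 < Real.exp s := Real.exp_pos s
          calc ‖(Real.exp s : ℝ) • b' s + (Real.exp s : ℝ) • b s‖
              ≤ ‖(Real.exp s : ℝ) • b' s‖ + ‖(Real.exp s : ℝ) • b s‖ := norm_add_le _ _
            _ = Real.exp s * ‖b' s‖ + Real.exp s * ‖b s‖ := by
                rw [norm_smul, norm_smul, Real.norm_of_nonneg hes.le]
            _ ≤ Real.exp S * M + Real.exp S * M := by
                gcongr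
                · exact hM' s hs'
                · exact hM s hs'
            _ = 2 * Real.exp S * M := by ring)
      rwa [sub_zero, abs_of_nonneg hS] at h
    have hb1 : ‖(cexp (I * ((1 - Real.exp (-S)) * A : ℝ)) / (I * A)) • ((Real.exp S : ℝ) • b S)‖
        ≤ |A|⁻¹ * (Real.exp S * M) := by
      rw [norm_smul, hnu, norm_smul, Real.norm_of_nonneg (Real.exp_pos S).le]
      gcongr
      exact hM S ⟨hS, le_rfl⟩
    have hb0 : ‖(cexp (I * ((1 - Real.exp (-(0:ℝ))) * A : ℝ)) / (I * A)) •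
        ((Real.exp (0:ℝ) : ℝ) • b 0)‖ ≤ |A|⁻¹ * (Real.exp S * M) := by
      rw [norm_smul, hnu, norm_smul, Real.norm_of_nonneg (Real.exp_pos 0).le]
      have : Real.exp 0 ≤ Real.exp S := Real.exp_le_exp.2 hS
      gcongr
      exact hM 0 ⟨le_rfl, hS⟩
    have hfin : ‖∫ s in (0 : ℝ)..S, cexp (I * ((1 - Real.exp (-s)) * A : ℝ)) • b s‖
        ≤ |A|⁻¹ * ((2 + 2 * S) * Real.exp S * M) := by
      rw [← hrew]
      have heq : (∫ s in (0:ℝ)..S, (cexp (I * ((1 - Real.exp (-s)) * A : ℝ)) * (Real.exp (-s) : ℝ)) •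
          ((Real.exp s : ℝ) • b s))
          = (cexp (I * ((1 - Real.exp (-S)) * A : ℝ)) / (I * A)) • ((Real.exp S : ℝ) • b S)
            - (cexp (I * ((1 - Real.exp (-(0:ℝ))) * A : ℝ)) / (I * A)) • ((Real.exp (0:ℝ) : ℝ) • b 0)
            - ∫ s in (0:ℝ)..S, (cexp (I * ((1 - Real.exp (-s)) * A : ℝ)) / (I * A)) •
              ((Real.exp s : ℝ) • b' s + (Real.exp s : ℝ) • b s) := by
        rw [hparts]; abel
      rw [heq]
      refine (norm_sub_le _ _).trans ?_
      refine (add_le_add (norm_sub_le _ _) le_rfl).trans ?_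
      calc _ ≤ |A|⁻¹ * (Real.exp S * M) + |A|⁻¹ * (Real.exp S * M)
            + (|A|⁻¹ * (2 * Real.exp S * M)) * S := by gcongr
        _ = |A|⁻¹ * ((2 + 2 * S) * Real.exp S * M) := by ring
    refine hfin.trans ?_
    have h5 : |A|⁻¹ ≤ 2 / (1 + |A|) := by
      rw [inv_eq_one_div, div_le_div_iff₀ (by linarith) (by linarith)]
      linarith
    have h6 : (2 + 2 * S) * Real.exp S * M ≤ (2 + 3 * S) * Real.exp S * M := by
      have : 0 ≤ Real.exp S * M := by positivity
      nlinarith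
    calc |A|⁻¹ * ((2 + 2 * S) * Real.exp S * M) ≤ (2 / (1 + |A|)) * ((2 + 3 * S) * Real.exp S * M) := by
          refine mul_le_mul h5 h6 (by positivity) (by positivity)
      _ = _ := by ring

end Osc

end Crest.Agent.R086.DD
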