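import Mathlib

/-!
Row 86, Part D, module DE (helper733): operators on `L¹` given by a continuous column function
on a compact set are compact.
-/

set_option autoImplicit false

open MeasureTheory Filter Set
open scoped ENNReal NNReal Topology

namespace Crest.Agent.R086.DE

variable {Ω : Type*} [TopologicalSpace Ω] [MeasurableSpace Ω] [OpensMeasurableSpace Ω]
variable {X : Type*} [NormedAddCommGroup X] [NormedSpace ℂ X] [CompleteSpace X]

/-- the phase of a complex number (0 at 0) -/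
noncomputable def ph (z : ℂ) : ℂ := z / ((‖z‖ : ℝ) : ℂ)

lemma ph_norm_le (z : ℂ) : ‖ph z‖ ≤ 1 := by
  unfold ph
  rw [norm_div, Complex.norm_real, norm_norm]
  exact div_self_le_one _

lemma ph_measurable : Measurable ph := by
  unfold ph
  fun_prop

lemma norm_smul_ph (z : ℂ) (x : X) : (‖z‖ : ℝ) • (ph z • x) = z • x := by
  by_cases hz : z = 0
  · simp [hz]
  have hz' : ((‖z‖ : ℝ) : ℂ) ≠ 0 := by
    simpa using hz
  have : (‖z‖ : ℝ) • (ph z • x) = (((‖z‖ : ℝ) : ℂ) * ph z) • x := by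
    rw [mul_smul]; rfl
  rw [this]
  congr 1
  unfold ph
  field_simp

/-- Bochner integral of columns against an `L¹` function of norm `≤ 1` lies in the closed absolutely
convex hull. -/
theorem integral_mem_hull {μ : Measure Ω} {B : Set Ω} (hBm : MeasurableSet B)
    {k : Ω → X} (hkm : AEStronglyMeasurable k (μ.restrict B)) {K : Set X} (hKc : Convex ℝ K)
    (hKcl : IsClosed K) (h0 : (0 : X) ∈ K)
    (hK : ∀ c : ℂ, ‖c‖ ≤ 1 → ∀ η ∈ B, c • k η ∈ K) {C : ℝ} (hC : ∀ η ∈ B, ‖k η‖ ≤ C)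
    {a : Ω → ℂ} (ha : StronglyMeasurable a) (hai : Integrable a μ) (han : ∫ η, ‖a η‖ ∂μ ≤ 1) :
    ∫ η in B, a η • k η ∂μ ∈ K := by
  classical
  set ρ : Measure Ω := (μ.restrict B).withDensity (fun η => (‖a η‖₊ : ℝ≥0∞)) with hρ
  have hmeas : Measurable (fun η => ‖a η‖₊) := ha.measurable.nnnorm
  have hmass : ρ univ ≤ 1 := by
    rw [hρ, withDensity_apply _ MeasurableSet.univ]
    calc ∫⁻ η in univ, (‖a η‖₊ : ℝ≥0∞) ∂(μ.restrict B)
        ≤ ∫⁻ η, (‖a η‖₊ : ℝ≥0∞) ∂μ := by
          rw [Measure.restrict_univ]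
          exact setLIntegral_le_lintegral _ _
      _ = ENNReal.ofReal (∫ η, ‖a η‖ ∂μ) := by
          rw [ofReal_integral_norm_eq_lintegral_enorm hai]; rfl
      _ ≤ 1 := by
          rw [← ENNReal.ofReal_one]; exact ENNReal.ofReal_le_ofReal han
  haveI : IsFiniteMeasure ρ := ⟨lt_of_le_of_lt hmass ENNReal.one_lt_top⟩
  have hint_eq : ∫ η in B, a η • k η ∂μ = ∫ η, ph (a η) • k η ∂ρ := by
    rw [hρ, integral_withDensity_eq_integral_smul hmeas]
    refine integral_congr_ae (Eventually.of_forall fun η => ?_)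
    show a η • k η = (‖a η‖₊ : ℝ≥0) • (ph (a η) • k η)
    rw [← norm_smul_ph (a η) (k η)]
    rfl
  rw [hint_eq]
  by_cases hρ0 : ρ = 0
  · simp [hρ0, h0]
  haveI : NeZero ρ := ⟨hρ0⟩
  have hρB : ∀ᵐ η ∂ρ, η ∈ B := by
    have : ∀ᵐ η ∂(μ.restrict B), η ∈ B := ae_restrict_mem hBm
    exact (withDensity_absolutelyContinuous _ _).ae_le this
  have hin : ∀ᵐ η ∂ρ, ph (a η) • k η ∈ K := hρB.mono fun η hη => hK _ (ph_norm_le _) η hη
  have hkρ : AEStronglyMeasurable k ρ := hkm.mono_ac (withDensity_absolutelyContinuous _ _)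
  have hint : Integrable (fun η => ph (a η) • k η) ρ := by
    refine Integrable.mono' (g := fun _ => |C|) (integrable_const _) ?_ ?_
    · exact ((ph_measurable.comp ha.measurable).aestronglyMeasurable).smul hkρ
    · filter_upwards [hρB] with η hη
      rw [norm_smul]
      calc ‖ph (a η)‖ * ‖k η‖ ≤ 1 * ‖k η‖ := by gcongr; exact ph_norm_le _
        _ ≤ |C| := by rw [one_mul]; exact (hC η hη).trans (le_abs_self C)
  have hav := hKc.average_mem hKcl hin hint
  have : ∫ η, ph (a η) • k η ∂ρ = ρ.real univ • ⨍ η, ph (a η) • k η ∂ρ := by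
    rw [measure_smul_average]
  rw [this]
  have h1 : ρ.real univ ≤ 1 := by
    rw [Measure.real]; exact ENNReal.toReal_le_of_le_ofReal zero_le_one (by simpa using hmass)
  have h2 : (0 : ℝ) ≤ ρ.real univ := measureReal_nonneg
  have := hKc h0 hav (a := 1 - ρ.real univ) (b := ρ.real univ) (by linarith) h2 (by ring)
  simpa using this

/-- **Compactness of column operators.** -/
theorem isCompactOperator_of_columns {μ : Measure Ω} {B : Set Ω} (hB : IsCompact B)
    (hBm : MeasurableSet B) {k : Ω → X} (hk : ContinuousOn k B)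
    (hkm : AEStronglyMeasurable k (μ.restrict B))
    (T : Lp ℂ 1 μ →L[ℂ] X) (hT : ∀ a : Lp ℂ 1 μ, T a = ∫ η in B, a η • k η ∂μ) :
    IsCompactOperator T := by
  set K0 : Set X := (fun p : ℂ × Ω => p.1 • k p.2) '' (Metric.closedBall (0 : ℂ) 1 ×ˢ B) with hK0
  have hcont : ContinuousOn (fun p : ℂ × Ω => p.1 • k p.2) (Metric.closedBall (0 : ℂ) 1 ×ˢ B) := by
    refine ContinuousOn.smul continuousOn_fst ?_
    exact hk.comp continuousOn_snd (fun p hp => hp.2)
  have hK0c : IsCompact K0 := ((isCompact_closedBall (0 : ℂ) 1).prod hB).image_of_continuousOn hcont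
  set K : Set X := closedAbsConvexHull ℝ K0 with hK
  have hKc : IsCompact K :=
    isCompact_closedAbsConvexHull_of_totallyBounded hK0c.totallyBounded
  obtain ⟨C, hC⟩ : ∃ C : ℝ, ∀ η ∈ B, ‖k η‖ ≤ C := hB.exists_bound_of_continuousOn hk
  -- enlarge by 0
  by_cases hBe : B = ∅
  · have : (T : Lp ℂ 1 μ → X) = 0 := by
      funext a; rw [hT, hBe]; simp
    rw [this]
    exact isCompactOperator_zero
  have hne : B.Nonempty := nonempty_iff_ne_empty.2 hBe
  obtain ⟨η0, hη0⟩ := hne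
  have hKconv : Convex ℝ K := absConvex_convexClosedHull.2
  have hKcl : IsClosed K := isClosed_closedAbsConvexHull
  have hsub : K0 ⊆ K := subset_closedAbsConvexHull
  have h0 : (0 : X) ∈ K := hsub ⟨(0, η0), ⟨by simp, hη0⟩, by simp⟩
  rw [isCompactOperator_iff_exists_mem_nhds_image_subset_compact]
  refine ⟨Metric.closedBall 0 1, Metric.closedBall_mem_nhds 0 one_pos, K, hKc, ?_⟩
  rintro _ ⟨a, ha, rfl⟩
  rw [hT]
  have han : ∫ η, ‖a η‖ ∂μ ≤ 1 := by
    rw [← L1.norm_eq_integral_norm]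
    simpa using ha
  refine integral_mem_hull hBm hkm hKconv hKcl h0 ?_ hC (Lp.stronglyMeasurable a)
    (L1.integrable_coeFn a) han
  intro c hc η hη
  exact hsub ⟨(c, η), ⟨by simpa using hc, hη⟩, rfl⟩

end Crest.Agent.R086.DE
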