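import Crest.Agent.R086.DEtr
import Crest.Agent.R086.DEcol

/-!
Row 86, Part D, module DE (helper733): convolution with a fixed density, restricted to bounded
frequencies, is compact on `XN N`.
-/

set_option autoImplicit false
set_option linter.unusedSectionVars false

open MeasureTheory Filter Set Complex
open scoped Topology ENNReal NNReal

namespace Crest.Agent.R086.DE

open Crest.Agent.R086

variable {N M : ℕ}

/-- integral over a measurable set, as a functional -/
noncomputable def setI (N : ℕ) (E : Set R12) : XN N →L[ℂ] ℂ :=
  LinearMap.mkContinuous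
    { toFun := fun a => ∫ z in E, a z
      map_add' := fun a b => by
        rw [← integral_add (integrable_XN a).integrableOn (integrable_XN b).integrableOn]
        exact integral_congr_ae (ae_restrict_of_ae (coe_add a b))
      map_smul' := fun c a => by
        simp only [RingHom.id_apply]
        rw [smul_eq_mul, ← integral_const_mul]
        exact integral_congr_ae (ae_restrict_of_ae (coe_smul c a)) } 1 (fun a => by
    show ‖∫ z in E, a z‖ ≤ 1 * ‖a‖
    rw [one_mul, norm_XN]
    refine (norm_integral_le_integral_norm _).trans ?_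
    refine (setIntegral_le_integral (integrable_XN a).norm (Eventually.of_forall fun z =>
      norm_nonneg _)).trans ?_
    refine integral_mono_of_nonneg (Eventually.of_forall fun z => norm_nonneg _)
      (integrable_wt_XN a) (Eventually.of_forall fun z => ?_)
    show ‖a z‖ ≤ wt N z * ‖a z‖
    nlinarith [one_le_wt N z, norm_nonneg (a z)])

theorem setI_apply (E : Set R12) (a : XN N) : setI N E a = ∫ z in E, a z := rfl

theorem integrable_cv_integrand {v a : R12 → ℂ} (hv : Integrable v) (ha : Integrable a) :
    Integrable (fun p : R12 × R12 => v (p.1 - p.2) * a p.2) (volume.prod volume) := by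
  have := ha.convolution_integrand (ContinuousLinearMap.mul ℝ ℂ) hv
  refine this.congr (Eventually.of_forall fun p => ?_)
  simp [mul_comm]

theorem integrable_cv {v a : R12 → ℂ} (hv : Integrable v) (ha : Integrable a) :
    Integrable (cv v a) := by
  have := (integrable_cv_integrand hv ha).integral_prod_left
  exact this

/-- the cut-off density -/
theorem coe_P (R : ℝ) (a : XN N) : ((mP N R).op a : R12 → ℂ) =ᵐ[volume]
    fun ξ => (Metric.closedBall (0 : R12) R).indicator (fun η => a η) ξ := by
  refine ((mP N R).coe_op a).trans (Eventually.of_forall fun ξ => ?_)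
  by_cases h : ξ ∈ Metric.closedBall (0 : R12) R
  · simp only [mP, indicator_of_mem h, one_mul]
  · simp only [mP, indicator_of_notMem h, zero_mul]

theorem cv_congr_right {v a b : R12 → ℂ} (h : a =ᵐ[volume] b) : cv v a = cv v b := by
  funext z
  unfold cv
  exact integral_congr_ae (h.mono fun ξ hξ => by simp only [hξ])

/-- the column representation -/
theorem cv_P_eq {v : R12 → ℂ} (hv : AllW v) (C : XN N →L[ℂ] XN N)
    (hC : ∀ a : XN N, (C a : R12 → ℂ) =ᵐ[volume] cv v a) (R : ℝ) (a : XN N) :
    C ((mP N R).op a) = ∫ η in Metric.closedBall (0 : R12) R,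
      a η • ((((wt N η)⁻¹ : ℝ) : ℂ) • tr N hv η) ∂(muN N) := by
  set B : Set R12 := Metric.closedBall (0 : R12) R with hB
  have hBm : MeasurableSet B := Metric.isClosed_closedBall.measurableSet
  have hBc : IsCompact B := isCompact_closedBall _ _
  set k : R12 → XN N := fun η => (((wt N η)⁻¹ : ℝ) : ℂ) • tr N hv η with hk
  have hkc : Continuous k := by
    have h1 : Continuous fun η : R12 => (((wt N η)⁻¹ : ℝ) : ℂ) :=
      Complex.continuous_ofReal.comp ((continuous_wt N).inv₀ fun η => (wt_pos N η).ne')
    exact h1.smul (continuous_tr hv N)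
  obtain ⟨D, hD⟩ := hBc.exists_bound_of_continuousOn hkc.continuousOn
  have hki : Integrable (fun η => a η • k η) ((muN N).restrict B) := by
    have ha := (L1.integrable_coeFn a).norm.integrableOn (s := B)
    refine (ha.const_mul D).mono ?_ ?_
    · exact ((Lp.stronglyMeasurable a).aestronglyMeasurable).smul hkc.aestronglyMeasurable
    · refine (ae_restrict_mem hBm).mono fun η hη => ?_
      have h1 := hD η hη
      have h2 : 0 ≤ D := (norm_nonneg _).trans h1
      rw [norm_smul, norm_mul, norm_norm, Real.norm_of_nonneg h2, mul_comm]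
      exact mul_le_mul_of_nonneg_right h1 (norm_nonneg _)
  refine ext_XN ?_
  refine (hC _).trans ?_
  have hPa : Integrable (fun ξ => B.indicator (fun η => a η) ξ) := (integrable_XN a).indicator hBm
  rw [cv_congr_right (coe_P R a)]
  refine Integrable.ae_eq_of_forall_setIntegral_eq _ _ (integrable_cv hv.integrable hPa)
    (integrable_XN _) ?_
  intro E hE _
  have e1 : ∫ z in E, (∫ η in B, a η • k η ∂(muN N) : XN N) z =
      setI N E (∫ η in B, a η • k η ∂(muN N)) := rfl
  rw [e1, ← ContinuousLinearMap.integral_comp_comm _ hki]
  have e2 : ∫ η in B, setI N E (a η • k η) ∂(muN N) =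
      ∫ η, (fun η => B.indicator (fun η => a η) η * ∫ z in E, v (z - η)) η := by
    rw [← integral_indicator hBm, integral_muN]
    refine integral_congr_ae (Eventually.of_forall fun η => ?_)
    by_cases h : η ∈ B
    · simp only [indicator_of_mem h]
      have e3 : setI N E (tr N hv η) = ∫ z in E, v (z - η) := by
        rw [setI_apply]
        exact integral_congr_ae (ae_restrict_of_ae (coe_tr hv η))
      rw [hk]
      simp only [map_smul, e3, smul_eq_mul, Complex.real_smul]
      have h4 : ((wt N η : ℝ) : ℂ) * (((wt N η)⁻¹ : ℝ) : ℂ) = 1 := by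
        rw [← Complex.ofReal_mul, mul_inv_cancel₀ (wt_pos N η).ne', Complex.ofReal_one]
      calc ((wt N η : ℝ) : ℂ) * (a η * ((((wt N η)⁻¹ : ℝ) : ℂ) * ∫ z in E, v (z - η)))
          = (((wt N η : ℝ) : ℂ) * (((wt N η)⁻¹ : ℝ) : ℂ)) * (a η * ∫ z in E, v (z - η)) := by ring
        _ = _ := by rw [h4, one_mul]
    · simp only [indicator_of_notMem h, smul_zero, zero_mul]
  rw [e2]
  -- Fubini
  have hint : Integrable (fun p : R12 × R12 => v (p.1 - p.2) * B.indicator (fun η => a η) p.2)
      ((volume.restrict E).prod volume) := by
    have := (integrable_cv_integrand hv.integrable hPa)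
    have h2 := this.integrableOn (s := E ×ˢ univ)
    rwa [IntegrableOn, ← Measure.prod_restrict, Measure.restrict_univ] at h2
  have e5 := integral_integral_swap (f := fun z η => v (z - η) * B.indicator (fun η => a η) η)
    (μ := volume.restrict E) (ν := volume) hint
  unfold cv
  rw [e5]
  refine integral_congr_ae (Eventually.of_forall fun η => ?_)
  simp only
  rw [integral_mul_const, mul_comm]

/-- convolution restricted to bounded frequencies is compact -/
theorem isCompact_cv_P {v : R12 → ℂ} (hv : AllW v) (C : XN N →L[ℂ] XN N)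
    (hC : ∀ a : XN N, (C a : R12 → ℂ) =ᵐ[volume] cv v a) (R : ℝ) :
    IsCompactOperator (C ∘L (mP N R).op) := by
  have hkc : Continuous fun η => (((wt N η)⁻¹ : ℝ) : ℂ) • tr N hv η := by
    have h1 : Continuous fun η : R12 => (((wt N η)⁻¹ : ℝ) : ℂ) :=
      Complex.continuous_ofReal.comp ((continuous_wt N).inv₀ fun η => (wt_pos N η).ne')
    exact h1.smul (continuous_tr hv N)
  exact isCompactOperator_of_columns (μ := muN N) (isCompact_closedBall (0 : R12) R)
    Metric.isClosed_closedBall.measurableSet hkc.continuousOn hkc.aestronglyMeasurable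
    (C ∘L (mP N R).op) (fun a => cv_P_eq hv C hC R a)

end Crest.Agent.R086.DE
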