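import Mathlib

/-!
Row 86, Part D, module DE (helper733): integral Gronwall and the two-norm (Lasota–Yorke) estimate for a
perturbed semigroup.
-/

set_option autoImplicit false

open MeasureTheory Filter Set
open scoped Topology

namespace Crest.Agent.R086.DE

/-- Integral Gronwall inequality. -/
theorem gronwall_int {y : ℝ → ℝ} (hy : Continuous y) {a b T : ℝ} (hb : 0 ≤ b)
    (h : ∀ t ∈ Icc (0 : ℝ) T, y t ≤ a + b * ∫ r in (0 : ℝ)..t, y r) :
    ∀ t ∈ Icc (0 : ℝ) T, y t ≤ a * Real.exp (b * t) := by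
  set Y : ℝ → ℝ := fun t => ∫ r in (0 : ℝ)..t, y r with hY
  have hYd : ∀ t, HasDerivAt Y (y t) t := fun t =>
    intervalIntegral.integral_hasDerivAt_right (hy.intervalIntegrable _ _)
      (hy.stronglyMeasurableAtFilter _ _) hy.continuousAt
  set Z : ℝ → ℝ := fun t => Real.exp (-(b * t)) * (a + b * Y t) with hZ
  have hZd : ∀ t, HasDerivAt Z (Real.exp (-(b * t)) * (-(b * 1)) * (a + b * Y t) +
      Real.exp (-(b * t)) * (b * y t)) t := by
    intro t
    have h1 : HasDerivAt (fun t : ℝ => Real.exp (-(b * t))) (Real.exp (-(b * t)) * (-(b * 1))) t :=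
      (((hasDerivAt_id t).const_mul b).neg).exp
    have h2 : HasDerivAt (fun t : ℝ => a + b * Y t) (b * y t) t :=
      ((hYd t).const_mul b).const_add a
    exact h1.mul h2
  have hanti : AntitoneOn Z (Icc 0 T) := by
    refine antitoneOn_of_deriv_nonpos (convex_Icc 0 T)
      (fun t _ => (hZd t).continuousAt.continuousWithinAt)
      (fun t _ => (hZd t).differentiableAt.differentiableWithinAt) ?_
    intro t ht
    rw [interior_Icc] at ht
    rw [(hZd t).deriv]
    have h3 := h t ⟨ht.1.le, ht.2.le⟩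
    have h4 := Real.exp_pos (-(b * t))
    have : Real.exp (-(b * t)) * (-(b * 1)) * (a + b * Y t) + Real.exp (-(b * t)) * (b * y t)
        = Real.exp (-(b * t)) * (b * (y t - (a + b * Y t))) := by ring
    rw [this]
    have h5 : y t - (a + b * Y t) ≤ 0 := by simp only [hY]; linarith
    exact mul_nonpos_of_nonneg_of_nonpos h4.le (mul_nonpos_of_nonneg_of_nonpos hb h5)
  intro t ht
  have h6 : Z t ≤ Z 0 := hanti ⟨le_refl _, ht.1.trans ht.2⟩ ht ht.1
  have h7 : Z 0 = a := by simp [hZ, hY]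
  rw [h7] at h6
  have h8 : a + b * Y t ≤ a * Real.exp (b * t) := by
    have h9 : Z t * Real.exp (b * t) = a + b * Y t := by
      simp only [hZ]
      rw [mul_comm (Real.exp (-(b * t))), mul_assoc, ← Real.exp_add]
      simp
    rw [← h9]
    exact mul_le_mul_of_nonneg_right h6 (Real.exp_pos _).le
  exact (h t ht).trans (by simpa [hY] using h8)

variable {X Y0 Y1 : Type*} [NormedAddCommGroup X] [NormedSpace ℂ X] [CompleteSpace X]
  [NormedAddCommGroup Y0] [NormedSpace ℂ Y0] [CompleteSpace Y0]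
  [NormedAddCommGroup Y1] [NormedSpace ℂ Y1] [CompleteSpace Y1]

/-- Duhamel integrand bound: for a continuous linear `J`. -/
theorem norm_J_duhamel_le {S0 S : ℝ → X →L[ℂ] X} {B : X →L[ℂ] X} {Y : Type*}
    [NormedAddCommGroup Y] [NormedSpace ℂ Y] [CompleteSpace Y] (J : X →L[ℂ] Y) {x : X} {t : ℝ}
    (ht : 0 ≤ t)
    (hduh : S t x = S0 t x + ∫ r in (0 : ℝ)..t, S0 (t - r) (B (S r x)))
    (hint : IntervalIntegrable (fun r => S0 (t - r) (B (S r x))) volume 0 t)
    {g : ℝ → ℝ} (hg : IntervalIntegrable g volume 0 t)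
    (hJg : ∀ r ∈ Icc (0 : ℝ) t, ‖J (S0 (t - r) (B (S r x)))‖ ≤ g r) :
    ‖J (S t x)‖ ≤ ‖J (S0 t x)‖ + ∫ r in (0 : ℝ)..t, g r := by
  rw [hduh, map_add, ← J.intervalIntegral_comp_comm hint]
  refine (norm_add_le _ _).trans ?_
  gcongr
  refine intervalIntegral.norm_integral_le_of_norm_le ht ?_ hg
  refine Eventually.of_forall fun r hr => hJg r ⟨hr.1.le, hr.2⟩

/-- **Two-norm estimate.** -/
theorem two_norm {S0 S : ℝ → X →L[ℂ] X} {B : X →L[ℂ] X}
    (J0 : X →L[ℂ] Y0) (J1 : X →L[ℂ] Y1) {κ b b1 C : ℝ} (hκ : 0 ≤ κ) (hb : 0 ≤ b) (hb1 : 0 ≤ b1)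
    (hC : 0 ≤ C)
    (hduh : ∀ t, 0 ≤ t → ∀ x, S t x = S0 t x + ∫ r in (0 : ℝ)..t, S0 (t - r) (B (S r x)))
    (hint : ∀ t, 0 ≤ t → ∀ x, IntervalIntegrable (fun r => S0 (t - r) (B (S r x))) volume 0 t)
    (hcont : ∀ x, ContinuousOn (fun t => S t x) (Ici 0))
    (h0 : ∀ t, 0 ≤ t → ∀ x, ‖J0 (S0 t x)‖ ≤ ‖J0 x‖)
    (h1 : ∀ t, 0 ≤ t → ∀ x, ‖J1 (S0 t x)‖ ≤ Real.exp (-(κ * t)) * ‖J1 x‖)
    (v0 : ∀ x, ‖J0 (B x)‖ ≤ b * ‖J0 x‖)
    (v1 : ∀ x, ‖J1 (B x)‖ ≤ b1 * ‖J1 x‖ + C * ‖J0 x‖)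
    (T : ℝ) (hT : 0 ≤ T) (x : X) :
    ‖J0 (S T x)‖ ≤ ‖J0 x‖ * Real.exp (b * T) ∧
    ‖J1 (S T x)‖ ≤ Real.exp (-((κ - b1) * T)) *
      (‖J1 x‖ + C * T * Real.exp ((κ + b) * T) * ‖J0 x‖) := by
  -- continuous extensions
  set u : ℝ → X := fun t => S (max t 0) x with hu
  have huc : Continuous u := by
    have := (hcont x).comp_continuous (f := fun t : ℝ => max t 0) (by fun_prop)
      (fun t => le_max_right t 0)
    exact this
  have hue : ∀ t, 0 ≤ t → u t = S t x := fun t ht => by simp [hu, max_eq_left ht]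
  -- first estimate
  have e0 : ∀ t ∈ Icc (0 : ℝ) T, ‖J0 (u t)‖ ≤ ‖J0 x‖ * Real.exp (b * t) := by
    refine gronwall_int (by fun_prop) hb ?_
    intro t ht
    rw [hue t ht.1]
    have := norm_J_duhamel_le J0 (S0 := S0) (S := S) (B := B) ht.1 (hduh t ht.1 x)
      (hint t ht.1 x) (g := fun r => b * ‖J0 (u r)‖) (Continuous.intervalIntegrable (by fun_prop) _ _)
      (fun r hr => by
        rw [hue r hr.1]
        exact (h0 (t - r) (by linarith [hr.2]) _).trans (v0 _))
    refine this.trans ?_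
    rw [intervalIntegral.integral_const_mul]
    gcongr
    exact h0 t ht.1 x
  -- second estimate
  set y : ℝ → ℝ := fun t => Real.exp (κ * t) * ‖J1 (u t)‖ with hy
  have hyc : Continuous y := by fun_prop
  set C' : ℝ := C * T * Real.exp ((κ + b) * T) with hC'
  have e1 : ∀ t ∈ Icc (0 : ℝ) T, y t ≤ (‖J1 x‖ + C' * ‖J0 x‖) * Real.exp (b1 * t) := by
    refine gronwall_int hyc hb1 ?_
    intro t ht
    have hstep := norm_J_duhamel_le J1 (S0 := S0) (S := S) (B := B) ht.1 (hduh t ht.1 x)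
      (hint t ht.1 x)
      (g := fun r => Real.exp (-(κ * (t - r))) * (b1 * ‖J1 (u r)‖ + C * ‖J0 (u r)‖))
      (Continuous.intervalIntegrable (by fun_prop) _ _)
      (fun r hr => by
        rw [hue r hr.1]
        refine (h1 (t - r) (by linarith [hr.2]) _).trans ?_
        gcongr
        exact v1 _)
    have hstep2 : y t ≤ ‖J1 x‖ +
        ∫ r in (0 : ℝ)..t, (b1 * y r + C * (Real.exp (κ * r) * ‖J0 (u r)‖)) := by
      have h2 : y t ≤ Real.exp (κ * t) * (‖J1 (S0 t x)‖ + ∫ r in (0 : ℝ)..t,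
          Real.exp (-(κ * (t - r))) * (b1 * ‖J1 (u r)‖ + C * ‖J0 (u r)‖)) := by
        simp only [hy, hue t ht.1]
        gcongr
      refine h2.trans ?_
      rw [mul_add]
      refine add_le_add ?_ (le_of_eq ?_)
      · calc Real.exp (κ * t) * ‖J1 (S0 t x)‖
            ≤ Real.exp (κ * t) * (Real.exp (-(κ * t)) * ‖J1 x‖) := by
              gcongr; exact h1 t ht.1 x
          _ = ‖J1 x‖ := by rw [← mul_assoc, ← Real.exp_add]; simp
      · rw [← intervalIntegral.integral_const_mul]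
        refine intervalIntegral.integral_congr fun r _ => ?_
        simp only [hy]
        have : Real.exp (κ * t) * (Real.exp (-(κ * (t - r))) *
            (b1 * ‖J1 (u r)‖ + C * ‖J0 (u r)‖)) = (Real.exp (κ * t) * Real.exp (-(κ * (t - r)))) *
            (b1 * ‖J1 (u r)‖ + C * ‖J0 (u r)‖) := by ring
        rw [this, ← Real.exp_add]
        have h3 : κ * t + -(κ * (t - r)) = κ * r := by ring
        rw [h3]; ring
    refine hstep2.trans ?_
    rw [intervalIntegral.integral_add (Continuous.intervalIntegrable (by fun_prop) _ _)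
      (Continuous.intervalIntegrable (by fun_prop) _ _), intervalIntegral.integral_const_mul]
    have h4 : ∫ r in (0 : ℝ)..t, C * (Real.exp (κ * r) * ‖J0 (u r)‖) ≤ C' * ‖J0 x‖ := by
      have h5 : ∀ r ∈ Icc (0 : ℝ) t, C * (Real.exp (κ * r) * ‖J0 (u r)‖) ≤
          C * (Real.exp ((κ + b) * T) * ‖J0 x‖) := by
        intro r hr
        have h6 := e0 r ⟨hr.1, hr.2.trans ht.2⟩
        have h7 : Real.exp (κ * r) * ‖J0 (u r)‖ ≤ Real.exp ((κ + b) * T) * ‖J0 x‖ := by
          calc Real.exp (κ * r) * ‖J0 (u r)‖ ≤ Real.exp (κ * r) * (‖J0 x‖ * Real.exp (b * r)) := by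
                gcongr
            _ = Real.exp ((κ + b) * r) * ‖J0 x‖ := by
                rw [add_mul, Real.exp_add]; ring
            _ ≤ Real.exp ((κ + b) * T) * ‖J0 x‖ := by
                have hrT : r ≤ T := hr.2.trans ht.2
                gcongr
        gcongr
      calc ∫ r in (0 : ℝ)..t, C * (Real.exp (κ * r) * ‖J0 (u r)‖)
          ≤ ∫ r in (0 : ℝ)..t, C * (Real.exp ((κ + b) * T) * ‖J0 x‖) :=
            intervalIntegral.integral_mono_on ht.1 (Continuous.intervalIntegrable (by fun_prop) _ _)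
              intervalIntegrable_const h5
        _ = t * (C * (Real.exp ((κ + b) * T) * ‖J0 x‖)) := by
            rw [intervalIntegral.integral_const]; simp
        _ ≤ T * (C * (Real.exp ((κ + b) * T) * ‖J0 x‖)) := by
            have := ht.2
            gcongr
        _ = C' * ‖J0 x‖ := by simp only [hC']; ring
    linarith
  refine ⟨?_, ?_⟩
  · have := e0 T ⟨hT, le_refl T⟩
    rwa [hue T hT] at this
  · have := e1 T ⟨hT, le_refl T⟩
    simp only [hy, hue T hT] at this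
    have h8 : ‖J1 (S T x)‖ = Real.exp (-(κ * T)) * (Real.exp (κ * T) * ‖J1 (S T x)‖) := by
      rw [← mul_assoc, ← Real.exp_add]; simp
    rw [h8]
    calc Real.exp (-(κ * T)) * (Real.exp (κ * T) * ‖J1 (S T x)‖)
        ≤ Real.exp (-(κ * T)) * ((‖J1 x‖ + C' * ‖J0 x‖) * Real.exp (b1 * T)) := by gcongr
      _ = Real.exp (-((κ - b1) * T)) * (‖J1 x‖ + C' * ‖J0 x‖) := by
          have : Real.exp (-((κ - b1) * T)) = Real.exp (-(κ * T)) * Real.exp (b1 * T) := by
            rw [← Real.exp_add]; congr 1; ring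
          rw [this]; ring

end Crest.Agent.R086.DE
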