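import Crest.Agent.R086.DEsi
import Crest.Agent.R086.DEcp
import Crest.Agent.R086.DEhf
import Crest.Agent.R086.DCcv

/-!
Row 86, Part D, node DE (helper733): for large `N`, `S(t₀) = A + K`, `‖A‖ < 1`, `K` compact.
-/

set_option autoImplicit false
set_option linter.unusedSectionVars false

open MeasureTheory Filter Set Complex
open scoped Topology ENNReal NNReal

namespace Crest.Agent.R086.DE

open Crest.Agent.R086

variable {N M : ℕ}

/-! ### the operators on pairs -/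

noncomputable def JJ0 (N : ℕ) : XX N →L[ℂ] XX 0 := (mJ0 N).op.prodMap (mJ0 N).op
noncomputable def JJ1 (N : ℕ) : XX N →L[ℂ] XX 0 := (mJ1 N).op.prodMap (mJ1 N).op
noncomputable def PP (N : ℕ) (R : ℝ) : XX N →L[ℂ] XX N := (mP N R).op.prodMap (mP N R).op

theorem norm_JJ0 (x : XX N) : ‖JJ0 N x‖ = max (mom 0 x.1) (mom 0 x.2) := by
  rw [← norm_J0 x.1, ← norm_J0 x.2]; rfl

theorem norm_JJ1 (x : XX N) : ‖JJ1 N x‖ = max (mom N x.1) (mom N x.2) := by
  rw [← norm_J1 x.1, ← norm_J1 x.2]; rfl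

theorem norm_le_JJ (x : XX N) : ‖x‖ ≤ 2 ^ N * (‖JJ0 N x‖ + ‖JJ1 N x‖) := by
  have h1 := norm_le_J x.1
  have h2 := norm_le_J x.2
  rw [norm_J0, norm_J1] at h1 h2
  rw [norm_JJ0, norm_JJ1, Prod.norm_def]
  have h3 : (0 : ℝ) ≤ 2 ^ N := by positivity
  refine max_le (h1.trans ?_) (h2.trans ?_)
  · exact mul_le_mul_of_nonneg_left (add_le_add (le_max_left _ _) (le_max_left _ _)) h3
  · exact mul_le_mul_of_nonneg_left (add_le_add (le_max_right _ _) (le_max_right _ _)) h3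

theorem norm_JJ1_le (x : XX N) : ‖JJ1 N x‖ ≤ ‖x‖ := by
  rw [norm_JJ1, ← norm_J1 x.1, ← norm_J1 x.2, Prod.norm_def]
  have h1 := (mJ1 N).norm_op_le x.1
  have h2 := (mJ1 N).norm_op_le x.2
  have hC : (mJ1 N).C = 1 := rfl
  rw [hC, one_mul] at h1 h2
  exact max_le_max h1 h2

theorem norm_PP_le (R : ℝ) (x : XX N) : ‖PP N R x‖ ≤ ‖x‖ := by
  have h1 := (mP N R).norm_op_le x.1
  have h2 := (mP N R).norm_op_le x.2
  have hC : (mP N R).C = 1 := rfl
  rw [hC, one_mul] at h1 h2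
  have : ‖PP N R x‖ = max ‖(mP N R).op x.1‖ ‖(mP N R).op x.2‖ := rfl
  rw [this, Prod.norm_def]
  exact max_le_max h1 h2

/-! ### high frequencies -/

theorem coe_sub_P (R : ℝ) (a : XN N) : ((a - (mP N R).op a : XN N) : R12 → ℂ) =ᵐ[volume]
    fun ξ => (Metric.closedBall (0 : R12) R)ᶜ.indicator (fun η => a η) ξ := by
  filter_upwards [coe_sub a ((mP N R).op a), coe_P R a] with ξ h1 h2
  rw [h1, h2]
  by_cases h : ξ ∈ Metric.closedBall (0 : R12) R
  · rw [indicator_of_mem h, indicator_of_notMem (by simpa using h), sub_self]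
  · rw [indicator_of_notMem h, indicator_of_mem (by simpa using h), sub_zero]

theorem norm_sub_P_le (R : ℝ) (a : XN N) : ‖a - (mP N R).op a‖ ≤ ‖a‖ := by
  rw [norm_XN, norm_XN]
  refine integral_mono_of_nonneg (Eventually.of_forall fun ξ =>
    mul_nonneg (wt_nonneg N ξ) (norm_nonneg _)) (integrable_wt_XN a) ?_
  refine (coe_sub_P R a).mono fun ξ h => ?_
  simp only [h]
  refine mul_le_mul_of_nonneg_left ?_ (wt_nonneg N ξ)
  exact norm_indicator_le_norm_self _ _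

theorem mom0_sub_P_le {R : ℝ} (hR : 0 ≤ R) (a : XN N) :
    mom 0 ((a - (mP N R).op a : XN N)) ≤ ((1 + R) ^ N)⁻¹ * ‖a‖ := by
  rw [norm_XN, ← integral_const_mul]
  unfold mom
  refine integral_mono_of_nonneg (Eventually.of_forall fun ξ =>
    mul_nonneg (pow_nonneg (norm_nonneg _) _) (norm_nonneg _))
    ((integrable_wt_XN a).const_mul _) ?_
  refine (coe_sub_P R a).mono fun ξ h => ?_
  simp only [h, pow_zero, one_mul]
  by_cases hξ : ξ ∈ Metric.closedBall (0 : R12) R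
  · rw [indicator_of_notMem (by simpa using hξ)]
    rw [norm_zero]
    have := wt_nonneg N ξ
    positivity
  · rw [indicator_of_mem (by simpa using hξ), ← mul_assoc]
    have h1 : R < ‖ξ‖ := by simpa using hξ
    have h2 : 1 ≤ ((1 + R) ^ N)⁻¹ * wt N ξ := by
      rw [← div_eq_inv_mul, le_div_iff₀ (by positivity), one_mul]
      unfold wt
      exact pow_le_pow_left₀ (by linarith) (by linarith) N
    nlinarith [norm_nonneg (a ξ)]

theorem norm_sub_PP_le (R : ℝ) (x : XX N) : ‖x - PP N R x‖ ≤ ‖x‖ := by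
  have h : ‖x - PP N R x‖ = max ‖x.1 - (mP N R).op x.1‖ ‖x.2 - (mP N R).op x.2‖ := rfl
  rw [h, Prod.norm_def]
  exact max_le_max (norm_sub_P_le R _) (norm_sub_P_le R _)

theorem norm_JJ0_sub_PP_le {R : ℝ} (hR : 0 ≤ R) (x : XX N) :
    ‖JJ0 N (x - PP N R x)‖ ≤ ((1 + R) ^ N)⁻¹ * ‖x‖ := by
  rw [norm_JJ0]
  have e1 : (x - PP N R x).1 = x.1 - (mP N R).op x.1 := rfl
  have e2 : (x - PP N R x).2 = x.2 - (mP N R).op x.2 := rfl
  rw [e1, e2]
  have hp : (0 : ℝ) ≤ ((1 + R) ^ N)⁻¹ := by positivity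
  refine max_le ((mom0_sub_P_le hR _).trans ?_) ((mom0_sub_P_le hR _).trans ?_)
  · exact mul_le_mul_of_nonneg_left (norm_fst_le x) hp
  · exact mul_le_mul_of_nonneg_left (norm_snd_le x) hp

/-! ### the free flow -/

section flow

variable {n : ℕ} {P : Profile n} {T : Pot P} (D : LinData P T N)

theorem norm_coef (om s q : ℝ) :
    ‖exp ((I * om - 1 / n) * s) * exp (6 * (s : ℂ)) * exp (-I * ((q : ℝ) : ℂ))‖ =
      Real.exp (-s / n) * Real.exp (6 * s) := by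
  rw [norm_mul, norm_mul, Complex.norm_exp, Complex.norm_exp, Complex.norm_exp]
  have h1 : ((I * om - 1 / n) * s : ℂ).re = -s / n := by
    have : ((1 : ℂ) / n).re = 1 / n := by
      have : ((1 : ℂ) / n) = ((1 / n : ℝ) : ℂ) := by push_cast; ring
      rw [this, Complex.ofReal_re]
    have h0 : ((I * om - 1 / n) * s : ℂ).re = (I * om - 1 / n : ℂ).re * s := by
      rw [Complex.re_mul_ofReal]
    rw [h0, Complex.sub_re, this]
    simp; ring
  have h2 : (6 * (s : ℂ)).re = 6 * s := by simp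
  have h3 : (-I * ((q : ℝ) : ℂ)).re = 0 := by simp
  rw [h1, h2, h3, Real.exp_zero, mul_one]

theorem norm_S0_fst (s : ℝ) (hs : 0 ≤ s) (x : XX N) :
    ∀ᵐ z ∂(volume : Measure R12), ‖((D.S0 s x).1 : R12 → ℂ) z‖ =
      Real.exp (-s / n) * (Real.exp (6 * s) * ‖(x.1 : R12 → ℂ) (Real.exp (s / 2) • z)‖) := by
  refine (D.S0_fst s hs x).mono fun z hz => ?_
  rw [hz, norm_mul, norm_coef]; ring

theorem norm_S0_snd (s : ℝ) (hs : 0 ≤ s) (x : XX N) :
    ∀ᵐ z ∂(volume : Measure R12), ‖((D.S0 s x).2 : R12 → ℂ) z‖ =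
      Real.exp (-s / n) * (Real.exp (6 * s) * ‖(x.2 : R12 → ℂ) (Real.exp (s / 2) • z)‖) := by
  refine (D.S0_snd s hs x).mono fun z hz => ?_
  have h := norm_coef (n := n) (-P.om) s (-((Real.exp s - 1) * ‖z‖ ^ 2))
  rw [hz, norm_mul]
  have e1 : exp ((-I * P.om - 1 / n) * s) * exp (6 * (s : ℂ)) *
      exp (I * (((Real.exp s - 1) * ‖z‖ ^ 2 : ℝ) : ℂ)) =
      exp ((I * ((-P.om : ℝ) : ℂ) - 1 / n) * s) * exp (6 * (s : ℂ)) *
        exp (-I * ((-((Real.exp s - 1) * ‖z‖ ^ 2) : ℝ) : ℂ)) := by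
    have a1 : ((I * ((-P.om : ℝ) : ℂ) - 1 / n) * s : ℂ) = (-I * P.om - 1 / n) * s := by
      push_cast; ring
    have a2 : (-I * ((-((Real.exp s - 1) * ‖z‖ ^ 2) : ℝ) : ℂ)) =
        I * (((Real.exp s - 1) * ‖z‖ ^ 2 : ℝ) : ℂ) := by push_cast; ring
    rw [a1, a2]
  rw [e1, h]; ring

theorem mom_S0 (k : ℕ) (s : ℝ) (hs : 0 ≤ s) (x : XX N) :
    mom k (D.S0 s x).1 = Real.exp (-s / n) * (Real.exp (-(k / 2 * s)) * mom k x.1) ∧
    mom k (D.S0 s x).2 = Real.exp (-s / n) * (Real.exp (-(k / 2 * s)) * mom k x.2) :=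
  ⟨mom_scale (norm_S0_fst D s hs x), mom_scale (norm_S0_snd D s hs x)⟩

theorem mom_S0_le (k : ℕ) (s : ℝ) (hs : 0 ≤ s) (x : XX N) :
    mom k (D.S0 s x).1 ≤ Real.exp (-(k / 2 * s)) * mom k x.1 ∧
    mom k (D.S0 s x).2 ≤ Real.exp (-(k / 2 * s)) * mom k x.2 := by
  have h1 : Real.exp (-s / n) ≤ 1 := by
    rw [Real.exp_le_one_iff]
    exact div_nonpos_of_nonpos_of_nonneg (by linarith) (Nat.cast_nonneg n)
  obtain ⟨h2, h3⟩ := mom_S0 D k s hs x
  rw [h2, h3]
  constructor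
  · exact mul_le_of_le_one_left (mul_nonneg (Real.exp_pos _).le (mom_nonneg _ _)) h1
  · exact mul_le_of_le_one_left (mul_nonneg (Real.exp_pos _).le (mom_nonneg _ _)) h1

theorem h0_flow (s : ℝ) (hs : 0 ≤ s) (x : XX N) : ‖JJ0 N (D.S0 s x)‖ ≤ ‖JJ0 N x‖ := by
  rw [norm_JJ0, norm_JJ0]
  obtain ⟨h1, h2⟩ := mom_S0_le D 0 s hs x
  simp only [Nat.cast_zero, zero_div, zero_mul, neg_zero, Real.exp_zero, one_mul] at h1 h2
  exact max_le_max h1 h2

theorem h1_flow (s : ℝ) (hs : 0 ≤ s) (x : XX N) :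
    ‖JJ1 N (D.S0 s x)‖ ≤ Real.exp (-((N / 2 : ℝ) * s)) * ‖JJ1 N x‖ := by
  rw [norm_JJ1, norm_JJ1]
  obtain ⟨h1, h2⟩ := mom_S0_le D N s hs x
  have hp := (Real.exp_pos (-((N / 2 : ℝ) * s))).le
  refine max_le (h1.trans ?_) (h2.trans ?_)
  · exact mul_le_mul_of_nonneg_left (le_max_left _ _) hp
  · exact mul_le_mul_of_nonneg_left (le_max_right _ _) hp

theorem norm_S0_le (s : ℝ) (hs : 0 ≤ s) (x : XX N) : ‖D.S0 s x‖ ≤ Real.exp (-s / n) * ‖x‖ :=
  ((D.S0 s).le_opNorm x).trans (mul_le_mul_of_nonneg_right (D.S0_norm s hs) (norm_nonneg _))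

theorem norm_S0_le' (s : ℝ) (hs : 0 ≤ s) (x : XX N) : ‖D.S0 s x‖ ≤ ‖x‖ := by
  refine (norm_S0_le D s hs x).trans (mul_le_of_le_one_left (norm_nonneg _) ?_)
  rw [Real.exp_le_one_iff]
  exact div_nonpos_of_nonpos_of_nonneg (by linarith) (Nat.cast_nonneg n)

/-! ### the potential -/

theorem integrable_mom_cv {v : R12 → ℂ} (hv : AllW v) {k : ℕ} (hk : k ≤ N) (a : XN N) :
    Integrable (fun ξ => ‖ξ‖ ^ k * ‖cv v a ξ‖) := by
  obtain ⟨C, hC⟩ := exists_cv N v ((hv N).congr (Eventually.of_forall fun ξ => by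
    simp only [wt, Complex.real_smul]))
  have h1 : Integrable (fun ξ => wt N ξ • (C a : XN N) ξ) := by
    have := L1.integrable_coeFn (C a)
    exact integrable_muN_iff.1 this
  have h2 := integrable_mom_of_wt hk h1
  exact h2.congr ((hC a).mono fun ξ hξ => by simp only [hξ])

theorem mom_comb_le {v w : R12 → ℂ} (hv : AllW v) (hw : AllW w) {k : ℕ} (hk : k ≤ N)
    (a b y : XN N) {c : ℂ} (hc : ‖c‖ = 1)
    (hy : (y : R12 → ℂ) =ᵐ[volume] fun z => c * (cv v a z + cv w b z)) :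
    mom k y ≤ mom k (cv v a) + mom k (cv w b) := by
  have i1 := integrable_mom_cv (N := N) hv hk a
  have i2 := integrable_mom_cv (N := N) hw hk b
  unfold mom
  rw [← integral_add i1 i2]
  refine integral_mono_of_nonneg (Eventually.of_forall fun ξ =>
    mul_nonneg (pow_nonneg (norm_nonneg _) _) (norm_nonneg _)) (i1.add i2) ?_
  refine hy.mono fun ξ h => ?_
  simp only [h]
  rw [norm_mul, hc, one_mul, ← mul_add]
  exact mul_le_mul_of_nonneg_left (norm_add_le _ _) (pow_nonneg (norm_nonneg _) _)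

theorem AllW_v1 (T : Pot P) : AllW T.v1 := allW_of_rep T.rep_v1
theorem AllW_v2 (T : Pot P) : AllW T.v2 := allW_of_rep T.rep_v2
theorem AllW_v2c (T : Pot P) : AllW T.v2c := allW_of_rep T.rep_v2c

/-- the bound constant -/
noncomputable def bT (T : Pot P) : ℝ := mom 0 T.v1 + mom 0 T.v2 + mom 0 T.v2c

/-- the second constant (without `C_N`) -/
noncomputable def bN (N : ℕ) (T : Pot P) : ℝ := mom N T.v1 + mom N T.v2 + mom N T.v2c

theorem bT_nonneg (T : Pot P) : 0 ≤ bT T := by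
  unfold bT
  have := mom_nonneg 0 T.v1; have := mom_nonneg 0 T.v2; have := mom_nonneg 0 T.v2c
  linarith

theorem bN_nonneg (T : Pot P) : 0 ≤ bN N T := by
  unfold bN
  have := mom_nonneg N T.v1; have := mom_nonneg N T.v2; have := mom_nonneg N T.v2c
  linarith

theorem mom_VV_le {k : ℕ} (hk : k ≤ N) {A B : ℝ} (hA : 0 ≤ A) (hB : 0 ≤ B)
    (hAB : ∀ s t : ℝ, 0 ≤ s → 0 ≤ t → (s + t) ^ k ≤ A * s ^ k + B * t ^ k) (x : XX N) :
    max (mom k (D.VV x).1) (mom k (D.VV x).2) ≤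
      A * bT T * max (mom k x.1) (mom k x.2) +
      B * (mom k T.v1 + mom k T.v2 + mom k T.v2c) * max (mom 0 x.1) (mom 0 x.2) := by
  have w1 : ∀ a : XN N, Integrable (fun ξ => wt N ξ • a ξ) := fun a =>
    integrable_muN_iff.1 (L1.integrable_coeFn a)
  have c1 := fun a : XN N => mom_cv_le hA hB hAB (AllW_v1 T) hk (w1 a)
  have c2 := fun a : XN N => mom_cv_le hA hB hAB (AllW_v2 T) hk (w1 a)
  have c3 := fun a : XN N => mom_cv_le hA hB hAB (AllW_v2c T) hk (w1 a)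
  have m1 := mom_nonneg 0 T.v1
  have m2 := mom_nonneg 0 T.v2
  have m3 := mom_nonneg 0 T.v2c
  have n1 := mom_nonneg k T.v1
  have n2 := mom_nonneg k T.v2
  have n3 := mom_nonneg k T.v2c
  set X : ℝ := max (mom k x.1) (mom k x.2)
  set Y : ℝ := max (mom 0 x.1) (mom 0 x.2)
  have x1 : mom k x.1 ≤ X := le_max_left _ _
  have x2 : mom k x.2 ≤ X := le_max_right _ _
  have y1 : mom 0 x.1 ≤ Y := le_max_left _ _
  have y2 : mom 0 x.2 ≤ Y := le_max_right _ _
  have X0 : 0 ≤ X := (mom_nonneg _ _).trans x1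
  have Y0 : 0 ≤ Y := (mom_nonneg _ _).trans y1
  -- generic step
  have gen : ∀ (u v : ℝ) (u' v' p q p' q' : ℝ), 0 ≤ u → 0 ≤ v → 0 ≤ u' → 0 ≤ v' →
      p ≤ X → q ≤ Y → p' ≤ X → q' ≤ Y →
      (A * (u * p) + B * (u' * q)) + (A * (v * p') + B * (v' * q')) ≤
        A * (u + v) * X + B * (u' + v') * Y := by
    intro u v u' v' p q p' q' hu hv hu' hv' hp hq hp' hq'
    have e1 : A * (u * p) ≤ A * (u * X) := by gcongr
    have e2 : B * (u' * q) ≤ B * (u' * Y) := by gcongr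
    have e3 : A * (v * p') ≤ A * (v * X) := by gcongr
    have e4 : B * (v' * q') ≤ B * (v' * Y) := by gcongr
    nlinarith
  refine max_le ?_ ?_
  · have h := mom_comb_le (AllW_v1 T) (AllW_v2 T) hk x.1 x.2 (D.VV x).1 (c := -I) (by simp)
      (D.VV_fst x)
    have h2 := gen _ _ _ _ _ _ _ _ m1 m2 n1 n2 x1 y1 x2 y2
    have h3 := c1 x.1
    have h4 := c2 x.2
    have h5 : A * (mom 0 T.v1 + mom 0 T.v2) * X ≤ A * bT T * X := by
      have : mom 0 T.v1 + mom 0 T.v2 ≤ bT T := by unfold bT; linarith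
      exact mul_le_mul_of_nonneg_right (mul_le_mul_of_nonneg_left this hA) X0
    have h6 : B * (mom k T.v1 + mom k T.v2) * Y ≤
        B * (mom k T.v1 + mom k T.v2 + mom k T.v2c) * Y := by
      have : mom k T.v1 + mom k T.v2 ≤ mom k T.v1 + mom k T.v2 + mom k T.v2c := by linarith
      exact mul_le_mul_of_nonneg_right (mul_le_mul_of_nonneg_left this hB) Y0
    linarith
  · have h := mom_comb_le (AllW_v1 T) (AllW_v2c T) hk x.2 x.1 (D.VV x).2 (c := I) (by simp)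
      (D.VV_snd x)
    have h2 := gen _ _ _ _ _ _ _ _ m1 m3 n1 n3 x2 y2 x1 y1
    have h3 := c1 x.2
    have h4 := c3 x.1
    have h5 : A * (mom 0 T.v1 + mom 0 T.v2c) * X ≤ A * bT T * X := by
      have : mom 0 T.v1 + mom 0 T.v2c ≤ bT T := by unfold bT; linarith
      exact mul_le_mul_of_nonneg_right (mul_le_mul_of_nonneg_left this hA) X0
    have h6 : B * (mom k T.v1 + mom k T.v2c) * Y ≤
        B * (mom k T.v1 + mom k T.v2 + mom k T.v2c) * Y := by
      have : mom k T.v1 + mom k T.v2c ≤ mom k T.v1 + mom k T.v2 + mom k T.v2c := by linarith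
      exact mul_le_mul_of_nonneg_right (mul_le_mul_of_nonneg_left this hB) Y0
    linarith

theorem v0_flow (x : XX N) : ‖JJ0 N (D.VV x)‖ ≤ bT T * ‖JJ0 N x‖ := by
  rw [norm_JJ0, norm_JJ0]
  have := mom_VV_le D (Nat.zero_le N) (A := 1) (B := 0) zero_le_one le_rfl
    (fun s t _ _ => by simp) x
  simpa using this

theorem v1_flow {C : ℝ} (hC : 0 ≤ C)
    (hCN : ∀ s t : ℝ, 0 ≤ s → 0 ≤ t → (s + t) ^ N ≤ 2 * s ^ N + C * t ^ N) (x : XX N) :
    ‖JJ1 N (D.VV x)‖ ≤ (2 * bT T) * ‖JJ1 N x‖ + (C * bN N T) * ‖JJ0 N x‖ := by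
  rw [norm_JJ1, norm_JJ1, norm_JJ0]
  exact mom_VV_le D (le_refl N) (A := 2) (B := C) (by norm_num) hC hCN x

/-! ### compactness -/

theorem qmp_smul {c : ℝ} (hc : c ≠ 0) :
    Measure.QuasiMeasurePreserving (fun z : R12 => c • z) volume volume := by
  refine ⟨measurable_const_smul c, ?_⟩
  rw [Measure.map_addHaar_smul volume hc]
  exact Measure.smul_absolutelyContinuous

theorem P_idem_of_zero {R : ℝ} {a : XN N}
    (h : ∀ᵐ z ∂(volume : Measure R12), R < ‖z‖ → a z = 0) : (mP N R).op a = a := by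
  refine ext_XN ?_
  filter_upwards [coe_P R a, h] with z h1 h2
  rw [h1]
  by_cases hz : z ∈ Metric.closedBall (0 : R12) R
  · rw [indicator_of_mem hz]
  · rw [indicator_of_notMem hz, h2 (by simpa using hz)]

theorem supp_P {R : ℝ} (a : XN N) :
    ∀ᵐ z ∂(volume : Measure R12), R < ‖z‖ → (mP N R).op a z = 0 := by
  filter_upwards [coe_P R a] with z h1 hz
  rw [h1, indicator_of_notMem (by simpa using hz)]

theorem PP_S0 {R : ℝ} (s : ℝ) (hs : 0 ≤ s) (x : XX N) :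
    PP N R (D.S0 s (PP N R x)) = D.S0 s (PP N R x) := by
  have he : Real.exp (s / 2) ≠ 0 := (Real.exp_pos _).ne'
  have h1 : 1 ≤ Real.exp (s / 2) := by
    rw [Real.one_le_exp_iff]; positivity
  have key : ∀ z : R12, R < ‖z‖ → R < ‖Real.exp (s / 2) • z‖ := by
    intro z hz
    rw [norm_smul, Real.norm_of_nonneg (Real.exp_pos _).le]
    nlinarith [norm_nonneg z]
  refine Prod.ext ?_ ?_
  · refine P_idem_of_zero ?_
    filter_upwards [D.S0_fst s hs (PP N R x), (qmp_smul he).ae (supp_P (R := R) x.1)]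
      with z h2 h3 hz
    refine h2.trans ?_
    have : ((PP N R x).1 : R12 → ℂ) (Real.exp (s / 2) • z) = 0 := h3 (key z hz)
    rw [this, mul_zero]
  · refine P_idem_of_zero ?_
    filter_upwards [D.S0_snd s hs (PP N R x), (qmp_smul he).ae (supp_P (R := R) x.2)]
      with z h2 h3 hz
    refine h2.trans ?_
    have : ((PP N R x).2 : R12 → ℂ) (Real.exp (s / 2) • z) = 0 := h3 (key z hz)
    rw [this, mul_zero]

theorem compact_VV_PP (R : ℝ) : IsCompactOperator (D.VV ∘L PP N R) := by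
  have hx : ∀ {v : R12 → ℂ}, AllW v → ∃ C : XN N →L[ℂ] XN N,
      ∀ a : XN N, ((C a : XN N) : R12 → ℂ) =ᵐ[volume] cv v a := fun {v} hv =>
    exists_cv N v ((hv N).congr (Eventually.of_forall fun ξ => by
      simp only [wt, Complex.real_smul]))
  obtain ⟨C1, h1⟩ := hx (AllW_v1 T)
  obtain ⟨C2, h2⟩ := hx (AllW_v2 T)
  obtain ⟨C3, h3⟩ := hx (AllW_v2c T)
  have k1 := isCompact_cv_P (AllW_v1 T) C1 h1 R
  have k2 := isCompact_cv_P (AllW_v2 T) C2 h2 R
  have k3 := isCompact_cv_P (AllW_v2c T) C3 h3 R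
  set f1 : XX N →L[ℂ] XN N := ContinuousLinearMap.fst ℂ (XN N) (XN N)
  set f2 : XX N →L[ℂ] XN N := ContinuousLinearMap.snd ℂ (XN N) (XN N)
  set i1 : XN N →L[ℂ] XX N := ContinuousLinearMap.inl ℂ (XN N) (XN N)
  set i2 : XN N →L[ℂ] XX N := ContinuousLinearMap.inr ℂ (XN N) (XN N)
  set Q : XN N →L[ℂ] XN N := (mP N R).op
  set u : XX N →L[ℂ] XN N := (C1 ∘L Q) ∘L f1 + (C2 ∘L Q) ∘L f2 with hu
  set w : XX N →L[ℂ] XN N := (C1 ∘L Q) ∘L f2 + (C3 ∘L Q) ∘L f1 with hw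
  have cu : IsCompactOperator u := (k1.comp_clm f1).add (k2.comp_clm f2)
  have cw : IsCompactOperator w := (k1.comp_clm f2).add (k3.comp_clm f1)
  have cc : IsCompactOperator (i1 ∘L u) := cu.clm_comp i1
  have cd : IsCompactOperator (i2 ∘L w) := cw.clm_comp i2
  have ct : IsCompactOperator (⇑((-I : ℂ) • (i1 ∘L u)) + ⇑((I : ℂ) • (i2 ∘L w))) :=
    (cc.smul (-I : ℂ)).add (cd.smul (I : ℂ))
  have he : D.VV ∘L PP N R = (-I : ℂ) • (i1 ∘L u) + (I : ℂ) • (i2 ∘L w) := by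
    refine ContinuousLinearMap.ext fun x => ?_
    have e1 : (((-I : ℂ) • (i1 ∘L u) + (I : ℂ) • (i2 ∘L w)) x) = ((-I : ℂ) • u x, (I : ℂ) • w x) := by
      refine Prod.ext ?_ ?_
      · show (-I : ℂ) • u x + (I : ℂ) • (0 : XN N) = _
        rw [smul_zero, add_zero]
      · show (-I : ℂ) • (0 : XN N) + (I : ℂ) • w x = _
        rw [smul_zero, zero_add]
    rw [e1]
    refine Prod.ext ?_ ?_
    · refine ext_XN ?_
      have a1 : u x = C1 (Q x.1) + C2 (Q x.2) := rfl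
      filter_upwards [D.VV_fst (PP N R x), coe_smul (-I : ℂ) (u x),
        coe_add (C1 (Q x.1)) (C2 (Q x.2)), h1 (Q x.1), h2 (Q x.2)] with z b1 b2 b3 b4 b5
      show (D.VV (PP N R x)).1 z = ((-I : ℂ) • u x : XN N) z
      rw [b1, b2, a1, b3, b4, b5]
      rfl
    · refine ext_XN ?_
      have a1 : w x = C1 (Q x.2) + C3 (Q x.1) := rfl
      filter_upwards [D.VV_snd (PP N R x), coe_smul (I : ℂ) (w x),
        coe_add (C1 (Q x.2)) (C3 (Q x.1)), h1 (Q x.2), h3 (Q x.1)] with z b1 b2 b3 b4 b5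
      show (D.VV (PP N R x)).2 z = ((I : ℂ) • w x : XN N) z
      rw [b1, b2, a1, b3, b4, b5]
      rfl
  rw [he]
  exact ct

theorem compact_K (R : ℝ) {t : ℝ} (ht : 0 < t) :
    IsCompactOperator ((D.S t - D.S0 t) ∘L PP N R) := by
  refine isCompact_strong_integral (S := D.S) (G := fun r => D.S0 r ∘L PP N R)
    (C := D.VV ∘L PP N R) (M := 1) ht D.S_cont (fun x => D.S0_cont _) ?_ (compact_VV_PP D R) ?_
  · intro r hr x
    rw [one_mul]
    exact (norm_S0_le' D r hr _).trans (norm_PP_le R x)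
  · intro x
    have h := D.duh' t ht.le (PP N R x)
    have e1 : ((D.S t - D.S0 t) ∘L PP N R) x = D.S t (PP N R x) - D.S0 t (PP N R x) := rfl
    rw [e1, h, add_sub_cancel_left]
    refine intervalIntegral.integral_congr fun r hr => ?_
    rw [uIcc_of_le ht.le] at hr
    show D.S (t - r) (D.VV (D.S0 r (PP N R x))) = D.S (t - r) (D.VV (PP N R (D.S0 r (PP N R x))))
    rw [PP_S0 D r hr.1 x]

/-! ### integrability of the Duhamel integrand -/

theorem duh_int (t : ℝ) (ht : 0 ≤ t) (x : XX N) :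
    IntervalIntegrable (fun r => D.S0 (t - r) (D.VV (D.S r x))) volume 0 t := by
  have hj := DL.joint_cont D.S0_cont
  have h1 : Continuous (fun r : ℝ => D.S0 (max (t - r) 0) (D.VV (D.S (max r 0) x))) := by
    have h2 : Continuous (fun r : ℝ => D.S (max r 0) x) :=
      (D.S_cont x).comp_continuous (by fun_prop) (fun s => mem_Ici.2 (le_max_right _ _))
    have h3 : Continuous (fun r : ℝ => (t - r, D.VV (D.S (max r 0) x))) :=
      (by fun_prop : Continuous fun r : ℝ => t - r).prodMk (D.VV.continuous.comp h2)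
    exact hj.comp h3
  refine (h1.intervalIntegrable 0 t).congr ?_
  intro r hr
  rw [uIoc_of_le ht] at hr
  simp only
  rw [max_eq_left hr.1.le, max_eq_left (by linarith [hr.2])]

end flow

/-- **NODE DE.** -/
theorem deStmt : DEStmt := by
  intro n P T
  obtain ⟨N1, hN1⟩ := exists_nat_ge (2 * (2 * bT T + 1))
  refine ⟨N1, fun N hN D => ?_⟩
  have hn : (0 : ℝ) < n := by
    have := P.two_le
    exact_mod_cast (by omega : 0 < n)
  have hb := bT_nonneg T
  have hNN : 2 * (2 * bT T + 1) ≤ N := hN1.trans (by exact_mod_cast hN)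
  have hκ : 1 ≤ (N / 2 : ℝ) - 2 * bT T := by linarith
  have hN0 : N ≠ 0 := by
    rintro rfl
    simp only [Nat.cast_zero] at hNN
    linarith
  obtain ⟨C, hC, hCN⟩ := exists_pow_add_le N
  -- two-norm estimate
  have htwo := fun (t : ℝ) (ht : 0 ≤ t) (x : XX N) =>
    two_norm (S0 := D.S0) (S := D.S) (B := D.VV) (JJ0 N) (JJ1 N)
      (κ := (N / 2 : ℝ)) (b := bT T) (b1 := 2 * bT T) (C := C * bN N T)
      (by positivity) hb (by linarith) (mul_nonneg hC (bN_nonneg T)) D.duh (duh_int D) D.S_cont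
      (h0_flow D) (h1_flow D) (v0_flow D) (v1_flow D hC hCN) t ht x
  -- choice of the time
  obtain ⟨t, ht0, ht1, ht2⟩ : ∃ t : ℝ, 0 < t ∧ 2 ^ N * Real.exp (-t) ≤ 1 / 4 ∧
      Real.exp (-t / n) ≤ 1 / 4 := by
    have l1 : Tendsto (fun t : ℝ => (2 : ℝ) ^ N * Real.exp (-t)) atTop (𝓝 (2 ^ N * 0)) :=
      (Real.tendsto_exp_neg_atTop_nhds_zero).const_mul _
    rw [mul_zero] at l1
    have l2 : Tendsto (fun t : ℝ => Real.exp (-t / n)) atTop (𝓝 0) := by
      have h3 : Tendsto (fun t : ℝ => t / n) atTop atTop := tendsto_id.atTop_div_const hn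
      have h4 := Real.tendsto_exp_neg_atTop_nhds_zero.comp h3
      refine h4.congr fun t => ?_
      simp only [Function.comp_apply, neg_div]
    have e1 := l1.eventually (gt_mem_nhds (show (0 : ℝ) < 1 / 4 by norm_num))
    have e2 := l2.eventually (gt_mem_nhds (show (0 : ℝ) < 1 / 4 by norm_num))
    obtain ⟨t, h1, h2, h3⟩ := ((eventually_gt_atTop (0 : ℝ)).and (e1.and e2)).exists
    exact ⟨t, h1, h2.le, h3.le⟩
  -- choice of the cut-off
  set E : ℝ := 2 ^ N * (Real.exp (bT T * t) + Real.exp (-(((N / 2 : ℝ) - 2 * bT T) * t)) *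
    ((C * bN N T) * t * Real.exp (((N / 2 : ℝ) + bT T) * t))) with hE
  have hE0 : 0 ≤ E := by
    have := bN_nonneg (N := N) T
    positivity
  obtain ⟨R, hR0, hR⟩ : ∃ R : ℝ, 0 ≤ R ∧ E * ((1 + R) ^ N)⁻¹ ≤ 1 / 4 := by
    have l1 : Tendsto (fun R : ℝ => E * ((1 + R) ^ N)⁻¹) atTop (𝓝 (E * 0)) := by
      refine Tendsto.const_mul _ ?_
      refine tendsto_inv_atTop_zero.comp ?_
      exact (tendsto_pow_atTop hN0).comp (tendsto_atTop_add_const_left _ _ tendsto_id)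
    rw [mul_zero] at l1
    have e1 := l1.eventually (gt_mem_nhds (show (0 : ℝ) < 1 / 4 by norm_num))
    obtain ⟨R, h1, h2⟩ := ((eventually_ge_atTop (0 : ℝ)).and e1).exists
    exact ⟨R, h1, h2.le⟩
  -- the decomposition
  refine ⟨t, ht0, D.S t ∘L (1 - PP N R) + D.S0 t ∘L PP N R, (D.S t - D.S0 t) ∘L PP N R, ?_, ?_,
    compact_K D R ht0⟩
  · refine ContinuousLinearMap.ext fun x => ?_
    have : D.S t x = (D.S t (x - PP N R x) + D.S0 t (PP N R x)) +
        (D.S t (PP N R x) - D.S0 t (PP N R x)) := by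
      rw [map_sub]; abel
    exact this
  · refine lt_of_le_of_lt (ContinuousLinearMap.opNorm_le_bound _ (show (0 : ℝ) ≤ 3 / 4 by norm_num)
      fun x => ?_) (show (3 / 4 : ℝ) < 1 by norm_num)
    have e1 : (D.S t ∘L (1 - PP N R) + D.S0 t ∘L PP N R : XX N →L[ℂ] XX N) x =
        D.S t (x - PP N R x) + D.S0 t (PP N R x) := rfl
    rw [e1]
    refine (norm_add_le _ _).trans ?_
    -- low frequency part
    have f1 : ‖D.S0 t (PP N R x)‖ ≤ 1 / 4 * ‖x‖ :=
      (norm_S0_le D t ht0.le _).trans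
        (mul_le_mul ht2 (norm_PP_le R x) (norm_nonneg _) (by norm_num))
    -- high frequency part
    set y : XX N := x - PP N R x with hy
    obtain ⟨g1, g2⟩ := htwo t ht0.le y
    have g3 := norm_le_JJ (D.S t y)
    have g4 : ‖JJ0 N y‖ ≤ ((1 + R) ^ N)⁻¹ * ‖x‖ := norm_JJ0_sub_PP_le hR0 x
    have g5 : ‖JJ1 N y‖ ≤ ‖x‖ := (norm_JJ1_le y).trans (norm_sub_PP_le R x)
    have g6 : Real.exp (-(((N / 2 : ℝ) - 2 * bT T) * t)) ≤ Real.exp (-t) := by
      apply Real.exp_le_exp.2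
      nlinarith
    have h2N : (0 : ℝ) ≤ 2 ^ N := by positivity
    have f2 : ‖D.S t y‖ ≤ 1 / 4 * ‖x‖ + 1 / 4 * ‖x‖ := by
      calc ‖D.S t y‖ ≤ 2 ^ N * (‖JJ0 N (D.S t y)‖ + ‖JJ1 N (D.S t y)‖) := g3
        _ ≤ 2 ^ N * (‖JJ0 N y‖ * Real.exp (bT T * t) +
              Real.exp (-(((N / 2 : ℝ) - 2 * bT T) * t)) *
              (‖JJ1 N y‖ + C * bN N T * t * Real.exp (((N / 2 : ℝ) + bT T) * t) * ‖JJ0 N y‖)) := by
            gcongr
        _ = 2 ^ N * Real.exp (-(((N / 2 : ℝ) - 2 * bT T) * t)) * ‖JJ1 N y‖ + E * ‖JJ0 N y‖ := by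
            rw [hE]; ring
        _ ≤ 2 ^ N * Real.exp (-t) * ‖x‖ + E * (((1 + R) ^ N)⁻¹ * ‖x‖) := by
            gcongr
        _ = (2 ^ N * Real.exp (-t)) * ‖x‖ + (E * ((1 + R) ^ N)⁻¹) * ‖x‖ := by ring
        _ ≤ 1 / 4 * ‖x‖ + 1 / 4 * ‖x‖ := by
            have := norm_nonneg x
            gcongr
    have := norm_nonneg x
    linarith

end Crest.Agent.R086.DE
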