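import Crest.Agent.R086.DEx

/-!
Row 86, Part D, module DE (helper733): moment estimates for the free semigroup and for convolutions.
-/

set_option autoImplicit false
set_option linter.unusedSectionVars false

open MeasureTheory Filter Set Complex
open scoped Topology ENNReal NNReal

namespace Crest.Agent.R086.DE

open Crest.Agent.R086

variable {N M : ℕ}

/-- moments `∫ |ξ|^k |f|` -/
noncomputable def mom (k : ℕ) (f : R12 → ℂ) : ℝ := ∫ ξ, ‖ξ‖ ^ k * ‖f ξ‖

theorem mom_nonneg (k : ℕ) (f : R12 → ℂ) : 0 ≤ mom k f :=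
  integral_nonneg fun _ => mul_nonneg (pow_nonneg (norm_nonneg _) _) (norm_nonneg _)

theorem norm_J0 (a : XN N) : ‖(mJ0 N).op a‖ = mom 0 a := by
  rw [Mult.norm_op_apply]
  simp [mJ0, mom]

theorem norm_J1 (a : XN N) : ‖(mJ1 N).op a‖ = mom N a := by
  rw [Mult.norm_op_apply]
  simp [mJ1, mom]

theorem mom_congr {k : ℕ} {f g : R12 → ℂ} (h : f =ᵐ[volume] g) : mom k f = mom k g :=
  integral_congr_ae (h.mono fun ξ hξ => by simp only [hξ])

theorem finrank_R12 : Module.finrank ℝ R12 = 12 := by simp [R12]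

/-- scaling of moments under the free flow -/
theorem mom_scale {k : ℕ} {a b : R12 → ℂ} {s c : ℝ}
    (h : ∀ᵐ z ∂(volume : Measure R12), ‖b z‖ = c * (Real.exp (6 * s) * ‖a (Real.exp (s / 2) • z)‖)) :
    mom k b = c * (Real.exp (-(k / 2 * s)) * mom k a) := by
  have hpos := Real.exp_pos (s / 2)
  have h1 : mom k b = ∫ z, (c * Real.exp (6 * s) * (Real.exp (s / 2) ^ k)⁻¹) *
      (fun ξ : R12 => ‖ξ‖ ^ k * ‖a ξ‖) (Real.exp (s / 2) • z) := by
    unfold mom
    refine integral_congr_ae (h.mono fun z hz => ?_)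
    simp only [hz, norm_smul, Real.norm_of_nonneg hpos.le, mul_pow]
    have : Real.exp (s / 2) ^ k ≠ 0 := (pow_pos hpos k).ne'
    field_simp
  rw [h1, integral_const_mul,
    Measure.integral_comp_smul volume (fun ξ : R12 => ‖ξ‖ ^ k * ‖a ξ‖) (Real.exp (s / 2)),
    finrank_R12]
  rw [smul_eq_mul, abs_of_nonneg (by positivity)]
  show _ = c * (Real.exp (-(k / 2 * s)) * ∫ ξ, ‖ξ‖ ^ k * ‖a ξ‖)
  have e1 : (Real.exp (s / 2) ^ 12)⁻¹ = Real.exp (-(6 * s)) := by
    rw [← Real.exp_nat_mul, ← Real.exp_neg]; congr 1; push_cast; ring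
  have e2 : (Real.exp (s / 2) ^ k)⁻¹ = Real.exp (-(k / 2 * s)) := by
    rw [← Real.exp_nat_mul, ← Real.exp_neg]; congr 1; push_cast; ring
  rw [e1, e2]
  have e3 : Real.exp (6 * s) * Real.exp (-(6 * s)) = 1 := by rw [← Real.exp_add]; simp
  calc c * Real.exp (6 * s) * Real.exp (-(k / 2 * s)) * (Real.exp (-(6 * s)) *
        ∫ ξ, ‖ξ‖ ^ k * ‖a ξ‖)
      = (Real.exp (6 * s) * Real.exp (-(6 * s))) * (c * Real.exp (-(k / 2 * s)) *
        ∫ ξ, ‖ξ‖ ^ k * ‖a ξ‖) := by ring
    _ = _ := by rw [e3]; ring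

/-- `(s+t)^N ≤ 2 s^N + C t^N`. -/
theorem exists_pow_add_le (N : ℕ) : ∃ C : ℝ, 0 ≤ C ∧ ∀ s t : ℝ, 0 ≤ s → 0 ≤ t →
    (s + t) ^ N ≤ 2 * s ^ N + C * t ^ N := by
  set θ : ℝ := 1 / (2 * (N + 1)) with hθ
  have hθ0 : 0 < θ := by positivity
  refine ⟨(1 + 1 / θ) ^ N, by positivity, fun s t hs ht => ?_⟩
  by_cases h : t ≤ θ * s
  · have h1 : (s + t) ^ N ≤ ((1 + θ) * s) ^ N := pow_le_pow_left₀ (by linarith) (by linarith) N
    have h2 : (1 + θ) ^ N ≤ 2 := by
      calc (1 + θ) ^ N ≤ (Real.exp θ) ^ N :=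
            pow_le_pow_left₀ (by linarith) (by linarith [Real.add_one_le_exp θ]) N
        _ = Real.exp (N * θ) := by rw [← Real.exp_nat_mul]
        _ ≤ Real.exp (1 / 2) := by
            apply Real.exp_le_exp.2
            rw [hθ]
            have : (0 : ℝ) < N + 1 := by positivity
            rw [mul_one_div, div_le_div_iff₀ (by positivity) two_pos]
            linarith
        _ ≤ 2 := by
            have h3 := Real.exp_one_lt_d9
            have h4 : Real.exp (1 / 2) ^ 2 = Real.exp 1 := by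
              rw [← Real.exp_nat_mul]; norm_num
            nlinarith [Real.exp_pos (1 / 2 : ℝ)]
    rw [mul_pow] at h1
    have h3 : (1 + θ) ^ N * s ^ N ≤ 2 * s ^ N := mul_le_mul_of_nonneg_right h2 (pow_nonneg hs N)
    have h4 : 0 ≤ (1 + 1 / θ) ^ N * t ^ N := by positivity
    linarith
  · push Not at h
    have h1 : s ≤ 1 / θ * t := by
      rw [one_div, ← div_eq_inv_mul, le_div_iff₀ hθ0]; linarith
    have h2 : (s + t) ^ N ≤ ((1 + 1 / θ) * t) ^ N :=
      pow_le_pow_left₀ (by linarith) (by linarith) N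
    rw [mul_pow] at h2
    have h3 : 0 ≤ 2 * s ^ N := by positivity
    linarith

/-- integrability with all weights -/
def AllW (v : R12 → ℂ) : Prop := ∀ N : ℕ, Integrable (fun ξ => wt N ξ • v ξ)

theorem allW_of_rep {v f : R12 → ℂ} (h : ∀ N, Rep N v f) : AllW v := by
  intro N
  refine (h N).1.congr (Eventually.of_forall fun ξ => ?_)
  simp only [wt, Complex.real_smul]

theorem AllW.integrable {v : R12 → ℂ} (h : AllW v) : Integrable v := by
  have := h 0
  simpa using this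

theorem AllW.aesm {v : R12 → ℂ} (h : AllW v) : AEStronglyMeasurable v volume :=
  h.integrable.aestronglyMeasurable

theorem integrable_mom_of_wt {k N : ℕ} (hk : k ≤ N) {f : R12 → ℂ}
    (h : Integrable (fun ξ => wt N ξ • f ξ)) : Integrable (fun ξ => ‖ξ‖ ^ k * ‖f ξ‖) := by
  have hm : AEStronglyMeasurable f volume := by
    have h1 : AEStronglyMeasurable (fun ξ => (wt N ξ)⁻¹ • (wt N ξ • f ξ)) volume :=
      ((measurable_wt N).inv.aestronglyMeasurable).smul h.aestronglyMeasurable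
    refine h1.congr (Eventually.of_forall fun ξ => ?_)
    simp only [smul_smul, inv_mul_cancel₀ (wt_pos N ξ).ne', one_smul]
  refine h.mono ((by fun_prop : Continuous fun ξ : R12 => ‖ξ‖ ^ k).aestronglyMeasurable.mul hm.norm)
    (Eventually.of_forall fun ξ => ?_)
  rw [norm_smul, norm_mul, norm_norm, Real.norm_of_nonneg (wt_nonneg N ξ),
    Real.norm_of_nonneg (by positivity)]
  refine mul_le_mul_of_nonneg_right ?_ (norm_nonneg _)
  calc ‖ξ‖ ^ k ≤ (1 + ‖ξ‖) ^ k := pow_le_pow_left₀ (norm_nonneg _) (by linarith) k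
    _ ≤ (1 + ‖ξ‖) ^ N := pow_le_pow_right₀ (by linarith [norm_nonneg ξ]) hk

theorem ofReal_mom {k N : ℕ} (hk : k ≤ N) {f : R12 → ℂ}
    (h : Integrable (fun ξ => wt N ξ • f ξ)) :
    ENNReal.ofReal (mom k f) = ∫⁻ ξ, ENNReal.ofReal (‖ξ‖ ^ k) * ‖f ξ‖ₑ := by
  unfold mom
  rw [ofReal_integral_eq_lintegral_ofReal (integrable_mom_of_wt hk h)
    (Eventually.of_forall fun ξ => mul_nonneg (pow_nonneg (norm_nonneg _) _) (norm_nonneg _))]
  refine lintegral_congr fun ξ => ?_
  rw [ENNReal.ofReal_mul (pow_nonneg (norm_nonneg _) _), ofReal_norm]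

/-- moment bound for convolutions -/
theorem mom_cv_le {k : ℕ} {A B : ℝ} (hA : 0 ≤ A) (hB : 0 ≤ B)
    (hAB : ∀ s t : ℝ, 0 ≤ s → 0 ≤ t → (s + t) ^ k ≤ A * s ^ k + B * t ^ k)
    {v : R12 → ℂ} (hv : AllW v) {a : R12 → ℂ} {N : ℕ} (hk : k ≤ N)
    (ha : Integrable (fun ξ => wt N ξ • a ξ)) :
    mom k (cv v a) ≤ A * (mom 0 v * mom k a) + B * (mom k v * mom 0 a) := by
  have ham : AEStronglyMeasurable a volume := by
    have h1 : AEStronglyMeasurable (fun ξ => (wt N ξ)⁻¹ • (wt N ξ • a ξ)) volume :=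
      ((measurable_wt N).inv.aestronglyMeasurable).smul ha.aestronglyMeasurable
    refine h1.congr (Eventually.of_forall fun ξ => ?_)
    simp only [smul_smul, inv_mul_cancel₀ (wt_pos N ξ).ne', one_smul]
  have hvm := hv.aesm
  have hsub : AEStronglyMeasurable (fun p : R12 × R12 => v (p.1 - p.2)) (volume.prod volume) :=
    hvm.comp_quasiMeasurePreserving (quasiMeasurePreserving_sub volume volume)
  have ha2 : AEStronglyMeasurable (fun p : R12 × R12 => a p.2) (volume.prod volume) :=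
    ham.comp_snd
  have key : ∫⁻ z, ENNReal.ofReal (‖z‖ ^ k) * ‖cv v a z‖ₑ ≤
      ENNReal.ofReal (A * (mom 0 v * mom k a) + B * (mom k v * mom 0 a)) := by
    calc ∫⁻ z, ENNReal.ofReal (‖z‖ ^ k) * ‖cv v a z‖ₑ
        ≤ ∫⁻ z, ∫⁻ ξ, ENNReal.ofReal (‖z‖ ^ k) * (‖v (z - ξ)‖ₑ * ‖a ξ‖ₑ) := by
          refine lintegral_mono fun z => ?_
          rw [lintegral_const_mul' _ _ ENNReal.ofReal_ne_top]
          refine mul_le_mul_right (a := ENNReal.ofReal (‖z‖ ^ k)) ?_
          unfold cv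
          refine (enorm_integral_le_lintegral_enorm _).trans (le_of_eq ?_)
          refine lintegral_congr fun ξ => ?_
          rw [enorm_mul]
      _ = ∫⁻ ξ, ∫⁻ z, ENNReal.ofReal (‖z‖ ^ k) * (‖v (z - ξ)‖ₑ * ‖a ξ‖ₑ) := by
          refine lintegral_lintegral_swap ?_
          refine AEMeasurable.mul ?_ (hsub.enorm.mul ha2.enorm)
          exact (by fun_prop : Measurable fun p : R12 × R12 => ENNReal.ofReal (‖p.1‖ ^ k)).aemeasurable
      _ ≤ ∫⁻ ξ, ‖a ξ‖ₑ * (ENNReal.ofReal (A * ‖ξ‖ ^ k) * ENNReal.ofReal (mom 0 v) +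
            ENNReal.ofReal B * ENNReal.ofReal (mom k v)) := by
          refine lintegral_mono fun ξ => ?_
          have hz : ∀ z : R12, ENNReal.ofReal (‖z‖ ^ k) * (‖v (z - ξ)‖ₑ * ‖a ξ‖ₑ) ≤
              ‖a ξ‖ₑ * (ENNReal.ofReal (A * ‖ξ‖ ^ k) * ‖v (z - ξ)‖ₑ +
                ENNReal.ofReal B * (ENNReal.ofReal (‖z - ξ‖ ^ k) * ‖v (z - ξ)‖ₑ)) := by
            intro z
            have h1 : ‖z‖ ^ k ≤ A * ‖ξ‖ ^ k + B * ‖z - ξ‖ ^ k := by
              refine le_trans (pow_le_pow_left₀ (norm_nonneg _) ?_ k)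
                (hAB ‖ξ‖ ‖z - ξ‖ (norm_nonneg _) (norm_nonneg _))
              calc ‖z‖ = ‖ξ + (z - ξ)‖ := by congr 1; abel
                _ ≤ _ := norm_add_le _ _
            have h2 : ENNReal.ofReal (‖z‖ ^ k) ≤ ENNReal.ofReal (A * ‖ξ‖ ^ k) +
                ENNReal.ofReal B * ENNReal.ofReal (‖z - ξ‖ ^ k) := by
              rw [← ENNReal.ofReal_mul hB, ← ENNReal.ofReal_add (by positivity) (by positivity)]
              exact ENNReal.ofReal_le_ofReal h1
            calc ENNReal.ofReal (‖z‖ ^ k) * (‖v (z - ξ)‖ₑ * ‖a ξ‖ₑ)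
                ≤ (ENNReal.ofReal (A * ‖ξ‖ ^ k) +
                ENNReal.ofReal B * ENNReal.ofReal (‖z - ξ‖ ^ k)) * (‖v (z - ξ)‖ₑ * ‖a ξ‖ₑ) := by
                  gcongr
              _ = _ := by ring
          refine (lintegral_mono hz).trans (le_of_eq ?_)
          rw [lintegral_const_mul' _ _ enorm_ne_top]
          congr 1
          have hvt : AEMeasurable (fun z : R12 => ENNReal.ofReal (A * ‖ξ‖ ^ k) * ‖v (z - ξ)‖ₑ)
              volume := (hvm.comp_quasiMeasurePreserving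
            (measurePreserving_sub_right volume ξ).quasiMeasurePreserving).enorm.const_mul _
          rw [lintegral_add_left' hvt,
            lintegral_const_mul' _ _ ENNReal.ofReal_ne_top,
            lintegral_const_mul' _ _ ENNReal.ofReal_ne_top]
          rw [lintegral_sub_right_eq_self (fun z => ‖v z‖ₑ) ξ,
            lintegral_sub_right_eq_self (fun z => ENNReal.ofReal (‖z‖ ^ k) * ‖v z‖ₑ) ξ,
            ofReal_mom (le_refl k) (hv k), ofReal_mom (le_refl 0) (hv 0)]
          simp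
      _ = _ := by
          have hkm := ofReal_mom hk ha
          have h0m := ofReal_mom (Nat.zero_le N) ha
          have hs : ∀ ξ : R12, ‖a ξ‖ₑ * (ENNReal.ofReal (A * ‖ξ‖ ^ k) * ENNReal.ofReal (mom 0 v) +
            ENNReal.ofReal B * ENNReal.ofReal (mom k v)) =
            (ENNReal.ofReal A * ENNReal.ofReal (mom 0 v)) * (ENNReal.ofReal (‖ξ‖ ^ k) * ‖a ξ‖ₑ) +
            (ENNReal.ofReal B * ENNReal.ofReal (mom k v)) * (ENNReal.ofReal (‖ξ‖ ^ 0) * ‖a ξ‖ₑ) := by
            intro ξ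
            rw [ENNReal.ofReal_mul hA, pow_zero, ENNReal.ofReal_one]
            ring
          have hx : AEMeasurable (fun ξ : R12 => ENNReal.ofReal A * ENNReal.ofReal (mom 0 v) *
              (ENNReal.ofReal (‖ξ‖ ^ k) * ‖a ξ‖ₑ)) volume :=
            AEMeasurable.const_mul ((by fun_prop : Measurable fun ξ : R12 =>
              ENNReal.ofReal (‖ξ‖ ^ k)).aemeasurable.mul ham.enorm) _
          rw [lintegral_congr hs, lintegral_add_left' hx,
            lintegral_const_mul' _ _ (ENNReal.mul_ne_top ENNReal.ofReal_ne_top ENNReal.ofReal_ne_top),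
            lintegral_const_mul' _ _ (ENNReal.mul_ne_top ENNReal.ofReal_ne_top ENNReal.ofReal_ne_top),
            ← hkm, ← h0m, ENNReal.ofReal_add (by have := mom_nonneg 0 v; have := mom_nonneg k a; positivity)
              (by have := mom_nonneg k v; have := mom_nonneg 0 a; positivity),
            ENNReal.ofReal_mul hA, ENNReal.ofReal_mul hB, ENNReal.ofReal_mul (mom_nonneg 0 v),
            ENNReal.ofReal_mul (mom_nonneg k v)]
          ring
  have hnn : 0 ≤ A * (mom 0 v * mom k a) + B * (mom k v * mom 0 a) := by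
    have := mom_nonneg 0 v; have := mom_nonneg k a; have := mom_nonneg k v
    have := mom_nonneg 0 a; positivity
  by_cases hi : Integrable (fun z => ‖z‖ ^ k * ‖cv v a z‖)
  · rw [← ENNReal.ofReal_le_ofReal_iff hnn]
    unfold mom at key ⊢
    rw [ofReal_integral_eq_lintegral_ofReal hi
      (Eventually.of_forall fun ξ => mul_nonneg (pow_nonneg (norm_nonneg _) _) (norm_nonneg _))]
    refine le_trans (le_of_eq (lintegral_congr fun ξ => ?_)) key
    rw [ENNReal.ofReal_mul (pow_nonneg (norm_nonneg _) _), ofReal_norm]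
  · have : mom k (cv v a) = 0 := integral_undef hi
    rw [this]; exact hnn

end Crest.Agent.R086.DE
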