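import Crest.Agent.R086.DLForced

/-!
Row 86, Part D, module DE (helper733): strong integrals of compact operators (special case).
-/

set_option autoImplicit false

open MeasureTheory Filter Set
open scoped Topology

namespace Crest.Agent.R086.DE

variable {X : Type*} [NormedAddCommGroup X] [NormedSpace ℂ X] [CompleteSpace X]

/-- `x ↦ ∫₀ᵀ S(T-r) C G(r) x dr` is compact if `C` is compact. -/
theorem isCompact_strong_integral {S G : ℝ → X →L[ℂ] X} {C K : X →L[ℂ] X} {T M : ℝ} (hT : 0 < T)
    (hS : ∀ x, ContinuousOn (fun s => S s x) (Ici 0))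
    (hG : ∀ x, ContinuousOn (fun s => G s x) (Ici 0))
    (hGM : ∀ r, 0 ≤ r → ∀ x, ‖G r x‖ ≤ M * ‖x‖)
    (hC : IsCompactOperator C)
    (hK : ∀ x, K x = ∫ r in (0 : ℝ)..T, S (T - r) (C (G r x))) :
    IsCompactOperator K := by
  have hM : 0 ≤ |M| := abs_nonneg M
  obtain ⟨Z, hZ, hCZ⟩ := IsCompactOperator.image_closedBall_subset_compact
    (f := (C : X →ₗ[ℂ] X)) hC |M|
  have hj := DL.joint_cont hS
  set W : Set X := (fun p : ℝ × X => S (max p.1 0) p.2) '' (Icc 0 T ×ˢ Z) with hW
  have hWc : IsCompact W := (isCompact_Icc.prod hZ).image hj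
  set K' : Set X := closedAbsConvexHull ℝ W with hK'
  have hK'c : IsCompact K' := isCompact_closedAbsConvexHull_of_totallyBounded hWc.totallyBounded
  have hconv : Convex ℝ K' := absConvex_convexClosedHull.2
  have hcl : IsClosed K' := isClosed_closedAbsConvexHull
  have hsub : W ⊆ K' := subset_closedAbsConvexHull
  have hTc : IsCompact ((fun y : X => T • y) '' K') := hK'c.image (continuous_const_smul T)
  rw [isCompactOperator_iff_exists_mem_nhds_image_subset_compact]
  refine ⟨Metric.closedBall 0 1, Metric.closedBall_mem_nhds 0 one_pos, _, hTc, ?_⟩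
  rintro _ ⟨x, hx, rfl⟩
  have hx1 : ‖x‖ ≤ 1 := by simpa using hx
  -- the integrand
  have hmem : ∀ r ∈ Icc (0 : ℝ) T, S (T - r) (C (G r x)) ∈ W := by
    intro r hr
    refine ⟨(T - r, C (G r x)), ⟨⟨by linarith [hr.2], by linarith [hr.1]⟩, ?_⟩, ?_⟩
    · refine hCZ ⟨G r x, ?_, rfl⟩
      rw [mem_closedBall_zero_iff]
      calc ‖G r x‖ ≤ M * ‖x‖ := hGM r hr.1 x
        _ ≤ |M| * 1 := by
            refine mul_le_mul (le_abs_self M) hx1 (norm_nonneg _) hM
        _ = |M| := mul_one _
    · simp only
      rw [max_eq_left (by linarith [hr.2])]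
  have hcont : ContinuousOn (fun r => S (T - r) (C (G r x))) (Icc 0 T) := by
    have h1 : Continuous (fun r : ℝ => S (max (T - r) 0) (C (G (max r 0) x))) := by
      have h2 : Continuous (fun r : ℝ => G (max r 0) x) :=
        (hG x).comp_continuous (by fun_prop) (fun s => mem_Ici.2 (le_max_right _ _))
      have h3 : Continuous (fun r : ℝ => (T - r, C (G (max r 0) x))) :=
        (by fun_prop : Continuous fun r : ℝ => T - r).prodMk (C.continuous.comp h2)
      exact hj.comp h3
    refine h1.continuousOn.congr fun r hr => ?_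
    simp only
    rw [max_eq_left hr.1, max_eq_left (by linarith [hr.2])]
  have hint : IntegrableOn (fun r => S (T - r) (C (G r x))) (Ioc 0 T) :=
    (hcont.integrableOn_compact isCompact_Icc).mono_set Ioc_subset_Icc_self
  haveI : IsFiniteMeasure ((volume : Measure ℝ).restrict (Ioc 0 T)) := inferInstance
  haveI : NeZero ((volume : Measure ℝ).restrict (Ioc 0 T)) := by
    refine ⟨fun h => ?_⟩
    have := congrArg (fun m : Measure ℝ => m univ) h
    simp only [Measure.restrict_apply_univ, Real.volume_Ioc, Measure.coe_zero, Pi.zero_apply,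
      ENNReal.ofReal_eq_zero] at this
    linarith
  have hav := hconv.average_mem hcl
    ((ae_restrict_mem measurableSet_Ioc).mono fun r hr =>
      hsub (hmem r (Ioc_subset_Icc_self hr))) hint
  refine ⟨_, hav, ?_⟩
  simp only
  rw [hK, intervalIntegral.integral_of_le hT.le]
  have h5 := measure_smul_average ((volume : Measure ℝ).restrict (Ioc 0 T))
    (fun r => S (T - r) (C (G r x)))
  rw [← h5]
  congr 1
  simp [Measure.real, hT.le]

end Crest.Agent.R086.DE
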