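import Crest.Agent.R086.DEn

/-!
Row 86, Part D, module DE (helper733): continuity of translations in `XN N`.
-/

set_option autoImplicit false
set_option linter.unusedSectionVars false

open MeasureTheory Filter Set Complex
open scoped Topology ENNReal NNReal

namespace Crest.Agent.R086.DE

open Crest.Agent.R086

variable {N M : ℕ}

/-- the shift `z ↦ z - h` as a continuous map, depending continuously on `h` -/
def shiftC (h : R12) : C(R12, R12) := ⟨fun z => z - h, by fun_prop⟩

theorem continuous_shiftC : Continuous shiftC := by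
  let F : C(R12 × R12, R12) := ⟨fun p => p.2 - p.1, by fun_prop⟩
  have : shiftC = fun h => F.curry h := by
    funext h; ext z; rfl
  rw [this]
  exact F.curry.continuous

theorem mp_shiftC (h : R12) : MeasurePreserving (shiftC h) (volume : Measure R12) volume :=
  measurePreserving_sub_right volume h

/-- `L¹` continuity of translations -/
theorem tendsto_translate_L1 {b : R12 → ℂ} (hb : Integrable b) :
    Tendsto (fun h : R12 => ∫ z, ‖b (z - h) - b z‖) (𝓝 0) (𝓝 0) := by
  set f : Lp ℂ 1 (volume : Measure R12) := hb.toL1 b with hf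
  have hc : Continuous (fun h : R12 => Lp.compMeasurePreserving (shiftC h) (mp_shiftC h) f) :=
    Continuous.compMeasurePreservingLp continuous_const continuous_shiftC mp_shiftC (by simp)
  have hcf : ∀ h : R12, (Lp.compMeasurePreserving (shiftC h) (mp_shiftC h) f : R12 → ℂ) =ᵐ[volume]
      fun z => b (z - h) := by
    intro h
    refine (Lp.coeFn_compMeasurePreserving f (mp_shiftC h)).trans ?_
    exact (mp_shiftC h).quasiMeasurePreserving.ae_eq_comp hb.coeFn_toL1
  have h0 : Lp.compMeasurePreserving (shiftC 0) (mp_shiftC 0) f = f := by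
    refine Lp.ext ((hcf 0).trans (EventuallyEq.trans ?_ hb.coeFn_toL1.symm))
    exact Eventually.of_forall fun z => by simp
  have h1 : Tendsto (fun h : R12 => ‖Lp.compMeasurePreserving (shiftC h) (mp_shiftC h) f - f‖)
      (𝓝 0) (𝓝 0) := by
    have := (hc.tendsto 0)
    rw [h0] at this
    have h2 := (this.sub_const f).norm
    simpa using h2
  refine h1.congr fun h => ?_
  rw [L1.norm_eq_integral_norm]
  refine integral_congr_ae ?_
  filter_upwards [Lp.coeFn_sub (Lp.compMeasurePreserving (shiftC h) (mp_shiftC h) f) f, hcf h,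
    hb.coeFn_toL1] with z hz1 hz2 hz3
  rw [hz1, Pi.sub_apply, hz2, hz3]

theorem wt_sub_abs_le (N : ℕ) (z h : R12) : |wt N (z + h) - wt N z| ≤ (wt N h + 1) * wt N z := by
  have h1 := wt_add_le N z h
  have h2 := wt_nonneg N (z + h)
  have h3 := wt_nonneg N z
  have h4 := wt_nonneg N h
  rw [abs_le]
  constructor <;> nlinarith [mul_nonneg h3 h4]

theorem AllW.integrable_tr {v : R12 → ℂ} (hv : AllW v) (N : ℕ) (h : R12) :
    Integrable (fun z => wt N z • v (z - h)) := by
  have h1 : Integrable (fun z => wt N (z - h) • v (z - h)) := (hv N).comp_sub_right h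
  refine (h1.norm.const_mul (wt N h)).mono ?_ (Eventually.of_forall fun z => ?_)
  · exact (measurable_wt N).aestronglyMeasurable.smul
      (hv.aesm.comp_quasiMeasurePreserving (mp_shiftC h).quasiMeasurePreserving)
  · rw [norm_smul, norm_smul, Real.norm_of_nonneg (wt_nonneg N z),
      Real.norm_of_nonneg (wt_nonneg N (z - h)), Real.norm_of_nonneg (by
        have := wt_nonneg N h; have := wt_nonneg N (z - h); positivity), ← mul_assoc]
    refine mul_le_mul_of_nonneg_right ?_ (norm_nonneg _)
    have := wt_add_le N (z - h) h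
    rw [sub_add_cancel] at this
    linarith [this]

/-- the translate as an element of `XN N` -/
noncomputable def tr (N : ℕ) {v : R12 → ℂ} (hv : AllW v) (h : R12) : XN N :=
  mkX N (fun z => v (z - h)) (hv.integrable_tr N h)

theorem coe_tr {v : R12 → ℂ} (hv : AllW v) (h : R12) :
    (tr N hv h : R12 → ℂ) =ᵐ[volume] fun z => v (z - h) := coe_mkX _

theorem tendsto_wt_diff {v : R12 → ℂ} (hv : AllW v) (N : ℕ) :
    Tendsto (fun h : R12 => ∫ z, |wt N (z + h) - wt N z| * ‖v z‖) (𝓝 0) (𝓝 0) := by
  have h0 : (0 : ℝ) = ∫ z : R12, |wt N (z + 0) - wt N z| * ‖v z‖ := by simp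
  rw [h0]
  refine tendsto_integral_filter_of_dominated_convergence
    (fun z => (2 ^ N + 1) * ‖wt N z • v z‖) ?_ ?_ ((hv N).norm.const_mul _) ?_
  · refine Eventually.of_forall fun h => ?_
    have hc : Continuous fun z : R12 => |wt N (z + h) - wt N z| := by
      have h1 := continuous_wt N
      have h2 : Continuous fun z : R12 => wt N (z + h) := h1.comp (by fun_prop)
      exact (h2.sub h1).abs
    exact hc.aestronglyMeasurable.mul hv.aesm.norm
  · filter_upwards [Metric.ball_mem_nhds (0 : R12) one_pos] with h hh
    refine Eventually.of_forall fun z => ?_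
    rw [mem_ball_zero_iff] at hh
    rw [norm_mul, norm_norm, norm_smul, Real.norm_of_nonneg (wt_nonneg N z), Real.norm_eq_abs,
      abs_abs, ← mul_assoc]
    refine mul_le_mul_of_nonneg_right ((wt_sub_abs_le N z h).trans ?_) (norm_nonneg _)
    refine mul_le_mul_of_nonneg_right ?_ (wt_nonneg N z)
    have : wt N h ≤ 2 ^ N := by
      unfold wt
      exact pow_le_pow_left₀ (by positivity) (by linarith) N
    linarith
  · refine Eventually.of_forall fun z => ?_
    have hc : Continuous fun h : R12 => |wt N (z + h) - wt N z| * ‖v z‖ := by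
      have h2 : Continuous fun h : R12 => wt N (z + h) := (continuous_wt N).comp (by fun_prop)
      exact ((h2.sub continuous_const).abs).mul continuous_const
    exact hc.tendsto 0

theorem tendsto_translate_wt {v : R12 → ℂ} (hv : AllW v) (N : ℕ) :
    Tendsto (fun h : R12 => ∫ z, wt N z * ‖v (z - h) - v z‖) (𝓝 0) (𝓝 0) := by
  have hb := hv N
  have hle : ∀ h : R12, ∫ z, wt N z * ‖v (z - h) - v z‖ ≤
      (∫ z, ‖(fun z => wt N z • v z) (z - h) - (fun z => wt N z • v z) z‖) +
        ∫ z, |wt N (z + h) - wt N z| * ‖v z‖ := by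
    intro h
    have i1 : Integrable (fun z => ‖(fun z => wt N z • v z) (z - h) - (fun z => wt N z • v z) z‖) :=
      ((hb.comp_sub_right h).sub hb).norm
    have i2 : Integrable (fun z => |wt N (z + h) - wt N z| * ‖v z‖) := by
      refine (hb.norm.const_mul (wt N h + 1)).mono ?_ (Eventually.of_forall fun z => ?_)
      · have hc : Continuous fun z : R12 => |wt N (z + h) - wt N z| := by
          have h1 := continuous_wt N
          have h2 : Continuous fun z : R12 => wt N (z + h) := h1.comp (by fun_prop)
          exact (h2.sub h1).abs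
        exact hc.aestronglyMeasurable.mul hv.aesm.norm
      · rw [norm_mul, norm_norm, norm_smul, Real.norm_of_nonneg (wt_nonneg N z), Real.norm_eq_abs,
          abs_abs, Real.norm_of_nonneg (by
            have := wt_nonneg N h; have := wt_nonneg N z; positivity), ← mul_assoc]
        exact mul_le_mul_of_nonneg_right (wt_sub_abs_le N z h) (norm_nonneg _)
    have e2 : ∫ z, |wt N (z + h) - wt N z| * ‖v z‖ =
        ∫ z, |wt N z - wt N (z - h)| * ‖v (z - h)‖ := by
      rw [← integral_sub_right_eq_self (fun z : R12 => |wt N (z + h) - wt N z| * ‖v z‖) h]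
      refine integral_congr_ae (Eventually.of_forall fun z => ?_)
      simp only [sub_add_cancel]
    have i2' : Integrable (fun z => |wt N z - wt N (z - h)| * ‖v (z - h)‖) := by
      refine (i2.comp_sub_right h).congr (Eventually.of_forall fun z => ?_)
      simp only [sub_add_cancel]
    rw [e2, ← integral_add i1 i2']
    refine integral_mono_of_nonneg (Eventually.of_forall fun z =>
      mul_nonneg (wt_nonneg N z) (norm_nonneg _)) (i1.add i2') (Eventually.of_forall fun z => ?_)
    show wt N z * ‖v (z - h) - v z‖ ≤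
      ‖wt N (z - h) • v (z - h) - wt N z • v z‖ + |wt N z - wt N (z - h)| * ‖v (z - h)‖
    have e3 : wt N z • (v (z - h) - v z) = (wt N (z - h) • v (z - h) - wt N z • v z) +
        (wt N z - wt N (z - h)) • v (z - h) := by
      rw [sub_smul, smul_sub]; abel
    calc wt N z * ‖v (z - h) - v z‖ = ‖wt N z • (v (z - h) - v z)‖ := by
          rw [norm_smul, Real.norm_of_nonneg (wt_nonneg N z)]
      _ ≤ _ := by
          rw [e3]
          refine (norm_add_le _ _).trans (le_of_eq ?_)
          rw [norm_smul (wt N z - wt N (z - h)), Real.norm_eq_abs]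
  have hlim := (tendsto_translate_L1 hb).add (tendsto_wt_diff hv N)
  rw [add_zero] at hlim
  exact squeeze_zero (fun h => integral_nonneg fun z => mul_nonneg (wt_nonneg N z) (norm_nonneg _))
    hle hlim

/-- translations are continuous in `XN N` -/
theorem continuous_tr {v : R12 → ℂ} (hv : AllW v) (N : ℕ) : Continuous (tr N hv) := by
  rw [continuous_iff_continuousAt]
  intro η
  rw [ContinuousAt, tendsto_iff_norm_sub_tendsto_zero]
  have hle : ∀ ξ : R12, ‖tr N hv ξ - tr N hv η‖ ≤
      wt N η * ∫ z, wt N z * ‖v (z - (ξ - η)) - v z‖ := by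
    intro ξ
    have i1 : Integrable (fun z => wt N z * ‖v (z - (ξ - η)) - v z‖) := by
      have := ((hv.integrable_tr N (ξ - η)).sub (hv N)).norm
      refine this.congr (Eventually.of_forall fun z => ?_)
      show ‖wt N z • v (z - (ξ - η)) - wt N z • v z‖ = _
      rw [← smul_sub, norm_smul, Real.norm_of_nonneg (wt_nonneg N z)]
    have e1 : ‖tr N hv ξ - tr N hv η‖ = ∫ z, wt N z * ‖v (z - ξ) - v (z - η)‖ := by
      rw [norm_XN]
      refine integral_congr_ae ?_
      filter_upwards [coe_sub (tr N hv ξ) (tr N hv η), coe_tr (N := N) hv ξ, coe_tr (N := N) hv η]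
        with z h1 h2 h3
      rw [h1, h2, h3]
    have e2 : ∫ z, wt N z * ‖v (z - ξ) - v (z - η)‖ =
        ∫ z, wt N (z + η) * ‖v (z - (ξ - η)) - v z‖ := by
      rw [← integral_add_right_eq_self (fun z : R12 => wt N z * ‖v (z - ξ) - v (z - η)‖) η]
      refine integral_congr_ae (Eventually.of_forall fun z => ?_)
      simp only [add_sub_cancel_right]
      congr 4
      abel
    rw [e1, e2, ← integral_const_mul]
    refine integral_mono_of_nonneg (Eventually.of_forall fun z =>
      mul_nonneg (wt_nonneg N _) (norm_nonneg _)) (i1.const_mul _) (Eventually.of_forall fun z => ?_)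
    show wt N (z + η) * _ ≤ wt N η * (wt N z * _)
    rw [← mul_assoc]
    refine mul_le_mul_of_nonneg_right ?_ (norm_nonneg _)
    rw [mul_comm (wt N η)]
    exact wt_add_le N z η
  have hlim : Tendsto (fun ξ : R12 => wt N η * ∫ z, wt N z * ‖v (z - (ξ - η)) - v z‖) (𝓝 η)
      (𝓝 0) := by
    have h1 : Tendsto (fun ξ : R12 => ξ - η) (𝓝 η) (𝓝 0) := by
      have : Continuous fun ξ : R12 => ξ - η := by fun_prop
      simpa using this.tendsto η
    have h2 := ((tendsto_translate_wt hv N).comp h1).const_mul (wt N η)
    simpa using h2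
  exact squeeze_zero (fun _ => norm_nonneg _) hle hlim

end Crest.Agent.R086.DE
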