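import Crest.Agent.R086.DLIface

/-!
Row 86, Part D, module DE (helper733): basic facts on `XN N`, multiplication operators.
-/

set_option autoImplicit false
set_option linter.unusedSectionVars false

open MeasureTheory Filter Set Complex
open scoped Topology ENNReal NNReal

namespace Crest.Agent.R086.DE

open Crest.Agent.R086

variable {N M : ℕ}

theorem one_le_wt (N : ℕ) (ξ : R12) : 1 ≤ wt N ξ :=
  one_le_pow₀ (by linarith [norm_nonneg ξ])

theorem wt_pos (N : ℕ) (ξ : R12) : 0 < wt N ξ := lt_of_lt_of_le one_pos (one_le_wt N ξ)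

theorem wt_nonneg (N : ℕ) (ξ : R12) : 0 ≤ wt N ξ := (wt_pos N ξ).le

@[simp] theorem wt_zero (ξ : R12) : wt 0 ξ = 1 := by simp [wt]

theorem continuous_wt (N : ℕ) : Continuous (wt N) := by
  unfold wt; fun_prop

theorem measurable_wt (N : ℕ) : Measurable (wt N) := (continuous_wt N).measurable

theorem wt_add_le (N : ℕ) (ξ η : R12) : wt N (ξ + η) ≤ wt N ξ * wt N η := by
  unfold wt
  rw [← mul_pow]
  refine pow_le_pow_left₀ (by positivity) ?_ N
  have h := norm_add_le ξ η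
  nlinarith [norm_nonneg ξ, norm_nonneg η, mul_nonneg (norm_nonneg ξ) (norm_nonneg η)]

theorem measurable_dens (N : ℕ) : Measurable fun ξ : R12 => ENNReal.ofReal (wt N ξ) :=
  (measurable_wt N).ennreal_ofReal

theorem muN_ac (N : ℕ) : muN N ≪ volume := withDensity_absolutelyContinuous _ _

theorem ac_muN (N : ℕ) : (volume : Measure R12) ≪ muN N :=
  withDensity_absolutelyContinuous' (measurable_dens N).aemeasurable
    (Eventually.of_forall fun ξ => by simpa using wt_pos N ξ)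

theorem aesm_muN_iff {N : ℕ} {F : Type*} [TopologicalSpace F] {f : R12 → F} :
    AEStronglyMeasurable f (muN N) ↔ AEStronglyMeasurable f volume :=
  ⟨fun h => h.mono_ac (ac_muN N), fun h => h.mono_ac (muN_ac N)⟩

theorem integrable_muN_iff {N : ℕ} {E : Type*} [NormedAddCommGroup E] [NormedSpace ℝ E]
    {f : R12 → E} : Integrable f (muN N) ↔ Integrable (fun ξ => wt N ξ • f ξ) := by
  unfold muN
  rw [integrable_withDensity_iff_integrable_smul' (measurable_dens N)
    (Eventually.of_forall fun ξ => ENNReal.ofReal_lt_top)]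
  refine integrable_congr (Eventually.of_forall fun ξ => ?_)
  simp only [ENNReal.toReal_ofReal (wt_nonneg N ξ)]

theorem integral_muN {N : ℕ} {E : Type*} [NormedAddCommGroup E] [NormedSpace ℝ E]
    (f : R12 → E) : ∫ ξ, f ξ ∂(muN N) = ∫ ξ, wt N ξ • f ξ := by
  unfold muN
  rw [integral_withDensity_eq_integral_toReal_smul (measurable_dens N)
    (Eventually.of_forall fun ξ => ENNReal.ofReal_lt_top)]
  refine integral_congr_ae (Eventually.of_forall fun ξ => ?_)
  simp only [ENNReal.toReal_ofReal (wt_nonneg N ξ)]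

theorem norm_XN (a : XN N) : ‖a‖ = ∫ ξ, wt N ξ * ‖a ξ‖ := by
  rw [L1.norm_eq_integral_norm a, integral_muN]
  rfl

theorem integrable_wt_XN (a : XN N) : Integrable (fun ξ => wt N ξ * ‖a ξ‖) := by
  have h : Integrable (fun ξ => ‖a ξ‖) (muN N) := (L1.integrable_coeFn a).norm
  exact integrable_muN_iff.1 h

theorem aesm_XN (a : XN N) : AEStronglyMeasurable (a : R12 → ℂ) volume :=
  (Lp.stronglyMeasurable a).aestronglyMeasurable

theorem integrable_XN (a : XN N) : Integrable (a : R12 → ℂ) volume := by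
  refine (integrable_wt_XN a).mono (aesm_XN a) (Eventually.of_forall fun ξ => ?_)
  rw [Real.norm_of_nonneg (mul_nonneg (wt_nonneg N ξ) (norm_nonneg _))]
  nlinarith [one_le_wt N ξ, norm_nonneg (a ξ)]

/-- element with given density -/
noncomputable def mkX (N : ℕ) (f : R12 → ℂ) (hf : Integrable (fun ξ => wt N ξ • f ξ)) : XN N :=
  (integrable_muN_iff.2 hf).toL1 f

theorem coe_mkX {f : R12 → ℂ} (hf : Integrable (fun ξ => wt N ξ • f ξ)) :
    (mkX N f hf : R12 → ℂ) =ᵐ[volume] f :=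
  (ac_muN N).ae_le (integrable_muN_iff.2 hf).coeFn_toL1

theorem norm_mkX {f : R12 → ℂ} (hf : Integrable (fun ξ => wt N ξ • f ξ)) :
    ‖mkX N f hf‖ = ∫ ξ, wt N ξ * ‖f ξ‖ := by
  rw [norm_XN]
  refine integral_congr_ae ((coe_mkX hf).mono fun ξ hξ => ?_)
  simp only [hξ]

theorem ext_XN {a b : XN N} (h : (a : R12 → ℂ) =ᵐ[volume] b) : a = b :=
  Lp.ext ((muN_ac N).ae_le h)

theorem coe_add (a b : XN N) : ((a + b : XN N) : R12 → ℂ) =ᵐ[volume] fun ξ => a ξ + b ξ :=
  (ac_muN N).ae_le (Lp.coeFn_add a b)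

theorem coe_sub (a b : XN N) : ((a - b : XN N) : R12 → ℂ) =ᵐ[volume] fun ξ => a ξ - b ξ :=
  (ac_muN N).ae_le (Lp.coeFn_sub a b)

theorem coe_smul (c : ℂ) (a : XN N) : ((c • a : XN N) : R12 → ℂ) =ᵐ[volume] fun ξ => c * a ξ :=
  (ac_muN N).ae_le (Lp.coeFn_smul c a)

theorem coe_zero : ((0 : XN N) : R12 → ℂ) =ᵐ[volume] fun _ => 0 :=
  (ac_muN N).ae_le (Lp.coeFn_zero ℂ 1 (muN N))

/-- data of an admissible multiplier from `XN N` to `XN M` -/
structure Mult (N M : ℕ) where
  m : R12 → ℂ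
  meas : Measurable m
  C : ℝ
  C_nonneg : 0 ≤ C
  bd : ∀ ξ, wt M ξ * ‖m ξ‖ ≤ C * wt N ξ

namespace Mult

variable (m : Mult N M)

theorem integrable (a : XN N) : Integrable (fun ξ => wt M ξ • (m.m ξ * a ξ)) := by
  refine ((integrable_wt_XN a).const_mul m.C).mono
    ((continuous_wt M).aestronglyMeasurable.smul
      (m.meas.aestronglyMeasurable.mul (aesm_XN a))) (Eventually.of_forall fun ξ => ?_)
  rw [norm_smul, Real.norm_of_nonneg (wt_nonneg M ξ), norm_mul, Real.norm_of_nonneg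
    (mul_nonneg m.C_nonneg (mul_nonneg (wt_nonneg N ξ) (norm_nonneg _))), ← mul_assoc, ← mul_assoc]
  exact mul_le_mul_of_nonneg_right (m.bd ξ) (norm_nonneg _)

/-- the linear map -/
noncomputable def lin : XN N →ₗ[ℂ] XN M where
  toFun a := mkX M (fun ξ => m.m ξ * a ξ) (m.integrable a)
  map_add' a b := by
    refine ext_XN ((coe_mkX _).trans (EventuallyEq.trans ?_ (coe_add _ _).symm))
    filter_upwards [coe_add a b, coe_mkX (m.integrable a), coe_mkX (m.integrable b)]
      with ξ h1 h2 h3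
    rw [h1, h2, h3, mul_add]
  map_smul' c a := by
    refine ext_XN ((coe_mkX _).trans (EventuallyEq.trans ?_ (coe_smul _ _).symm))
    filter_upwards [coe_smul c a, coe_mkX (m.integrable a)] with ξ h1 h2
    simp only [RingHom.id_apply]
    rw [h1, h2]; ring

/-- the multiplication operator -/
noncomputable def op : XN N →L[ℂ] XN M :=
  m.lin.mkContinuous m.C (fun a => by
    have h1 : ‖m.lin a‖ = ∫ ξ, wt M ξ * ‖m.m ξ * a ξ‖ := norm_mkX (m.integrable a)
    rw [h1, norm_XN a, ← integral_const_mul]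
    refine integral_mono_of_nonneg (Eventually.of_forall fun ξ =>
      mul_nonneg (wt_nonneg M ξ) (norm_nonneg _)) ((integrable_wt_XN a).const_mul _)
      (Eventually.of_forall fun ξ => ?_)
    show wt M ξ * ‖m.m ξ * a ξ‖ ≤ m.C * (wt N ξ * ‖a ξ‖)
    rw [norm_mul, ← mul_assoc, ← mul_assoc]
    exact mul_le_mul_of_nonneg_right (m.bd ξ) (norm_nonneg _))

theorem coe_op (a : XN N) : (m.op a : R12 → ℂ) =ᵐ[volume] fun ξ => m.m ξ * a ξ :=
  coe_mkX (m.integrable a)

theorem norm_op_apply (a : XN N) : ‖m.op a‖ = ∫ ξ, wt M ξ * (‖m.m ξ‖ * ‖a ξ‖) := by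
  have h1 : ‖m.op a‖ = ∫ ξ, wt M ξ * ‖m.m ξ * a ξ‖ := norm_mkX (m.integrable a)
  rw [h1]
  simp only [norm_mul]

theorem norm_op_le (a : XN N) : ‖m.op a‖ ≤ m.C * ‖a‖ :=
  m.lin.mkContinuous_norm_le m.C_nonneg _ |> fun h => (m.op.le_opNorm a).trans
    (mul_le_mul_of_nonneg_right h (norm_nonneg _))

end Mult

/-- inclusion `XN N → XN 0` -/
noncomputable def mJ0 (N : ℕ) : Mult N 0 where
  m := fun _ => 1
  meas := measurable_const
  C := 1
  C_nonneg := zero_le_one
  bd ξ := by simpa using one_le_wt N ξ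

/-- `a ↦ |ξ|^N a` -/
noncomputable def mJ1 (N : ℕ) : Mult N 0 where
  m := fun ξ => ((‖ξ‖ ^ N : ℝ) : ℂ)
  meas := by fun_prop
  C := 1
  C_nonneg := zero_le_one
  bd ξ := by
    rw [wt_zero, one_mul, one_mul, Complex.norm_real, Real.norm_of_nonneg (by positivity)]
    exact pow_le_pow_left₀ (norm_nonneg _) (by linarith) N

open Classical in
/-- low frequency cut-off -/
noncomputable def mP (N : ℕ) (R : ℝ) : Mult N N where
  m := (Metric.closedBall (0 : R12) R).indicator (fun _ => 1)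
  meas := measurable_const.indicator Metric.isClosed_closedBall.measurableSet
  C := 1
  C_nonneg := zero_le_one
  bd ξ := by
    by_cases h : ξ ∈ Metric.closedBall (0 : R12) R
    · rw [indicator_of_mem h]; simp
    · rw [indicator_of_notMem h]; simp [wt_nonneg]

/-- `(1+t)^N ≤ 2^N (1 + t^N)` -/
theorem one_add_pow_le {t : ℝ} (ht : 0 ≤ t) (N : ℕ) : (1 + t) ^ N ≤ 2 ^ N * (1 + t ^ N) := by
  by_cases h : t ≤ 1
  · calc (1 + t) ^ N ≤ 2 ^ N := pow_le_pow_left₀ (by linarith) (by linarith) N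
      _ ≤ 2 ^ N * (1 + t ^ N) := by
        have : (0 : ℝ) ≤ t ^ N := pow_nonneg ht N
        nlinarith [pow_pos (two_pos : (0 : ℝ) < 2) N]
  · push Not at h
    calc (1 + t) ^ N ≤ (2 * t) ^ N := pow_le_pow_left₀ (by linarith) (by linarith) N
      _ = 2 ^ N * t ^ N := mul_pow _ _ _
      _ ≤ 2 ^ N * (1 + t ^ N) := by
        have := pow_pos (two_pos : (0 : ℝ) < 2) N
        nlinarith

theorem norm_le_J (a : XN N) : ‖a‖ ≤ 2 ^ N * (‖(mJ0 N).op a‖ + ‖(mJ1 N).op a‖) := by
  rw [norm_XN, Mult.norm_op_apply, Mult.norm_op_apply]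
  have i0 : Integrable (fun ξ => wt 0 ξ * (‖(mJ0 N).m ξ‖ * ‖a ξ‖)) := by
    have := ((mJ0 N).integrable a).norm
    refine this.congr (Eventually.of_forall fun ξ => ?_)
    simp [norm_smul]
  have i1 : Integrable (fun ξ => wt 0 ξ * (‖(mJ1 N).m ξ‖ * ‖a ξ‖)) := by
    have := ((mJ1 N).integrable a).norm
    refine this.congr (Eventually.of_forall fun ξ => ?_)
    simp [norm_smul]
  rw [← integral_add i0 i1, ← integral_const_mul]
  refine integral_mono_of_nonneg (Eventually.of_forall fun ξ =>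
      mul_nonneg (wt_nonneg N ξ) (norm_nonneg _)) ((i0.add i1).const_mul _)
      (Eventually.of_forall fun ξ => ?_)
  have h := one_add_pow_le (norm_nonneg ξ) N
  simp only [wt_zero, one_mul, mJ0, mJ1, norm_one, Complex.norm_real, norm_pow, norm_norm, wt,
    Pi.add_apply, pow_zero]
  calc (1 + ‖ξ‖) ^ N * ‖a ξ‖ ≤ (2 ^ N * (1 + ‖ξ‖ ^ N)) * ‖a ξ‖ :=
        mul_le_mul_of_nonneg_right h (norm_nonneg _)
    _ = 2 ^ N * (‖a ξ‖ + ‖ξ‖ ^ N * ‖a ξ‖) := by ring

end Crest.Agent.R086.DE
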