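import Crest.Agent.R086.DLLin

set_option autoImplicit false

open MeasureTheory Complex Set Function Filter
open scoped ContDiff Topology

namespace Crest.Agent.R086.DL

variable {n : ℕ} (P : Profile n)

lemma Q_tendsto (y v : R12) (hv : v ≠ 0) :
    Tendsto (fun t : ℝ => ‖P.Q (y + t • v)‖) atTop (𝓝 0) := by
  obtain ⟨C, hC⟩ := P.decay 0
  have hn : (0 : ℝ) < n := by have := P.two_le; exact_mod_cast (by omega : 0 < n)
  have h1 : Tendsto (fun t : ℝ => 1 + ‖y + t • v‖) atTop atTop := by
    apply tendsto_atTop_add_const_left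
    have h2 : ∀ t : ℝ, 0 ≤ t → t * ‖v‖ - ‖y‖ ≤ ‖y + t • v‖ := by
      intro t ht
      have := norm_sub_norm_le (t • v) (-y)
      rw [norm_smul, norm_neg, Real.norm_of_nonneg ht, sub_neg_eq_add, add_comm (t • v)] at this
      exact this
    apply tendsto_atTop_mono' atTop (f₁ := fun t : ℝ => t * ‖v‖ - ‖y‖)
    · filter_upwards [eventually_ge_atTop 0] with t ht using h2 t ht
    · apply tendsto_atTop_add_const_right
      exact tendsto_id.atTop_mul_const (norm_pos_iff.2 hv)
  have h3 : Tendsto (fun t : ℝ => C * (1 + ‖y + t • v‖) ^ (-(2 : ℝ) / n - (0 : ℕ))) atTop (𝓝 (C * 0)) := by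
    apply Tendsto.const_mul
    have : (-(2 : ℝ) / n - (0 : ℕ)) = -(2 / n) := by push_cast; ring
    rw [this]
    exact (tendsto_rpow_neg_atTop (by positivity)).comp h1
  rw [mul_zero] at h3
  refine squeeze_zero (fun _ => norm_nonneg _) (fun t => ?_) h3
  have := hC (y + t • v)
  rwa [norm_iteratedFDeriv_zero] at this

/-- real coefficients: no nontrivial real relation between the modes -/
lemma real_indep (a : MI → ℝ) (h : ∀ y, ∑ i, (a i : ℂ) * P.mode1 i y = 0) : a = 0 := by
  have hn : (0 : ℝ) < n := by have := P.two_le; exact_mod_cast (by omega : 0 < n)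
  have hnC : (n : ℂ) ≠ 0 := by exact_mod_cast hn.ne'
  have hdiff : Differentiable ℝ P.Q := P.smooth.differentiable (by simp)
  set a0 := a none with ha0
  set a1 := a (some none) with ha1
  set v : R12 := WithLp.toLp 2 (fun j => a (some (some j))) with hv
  have hvsum : v = ∑ j : Fin 12, a (some (some j)) • ei j := by
    ext i
    have : ∀ j : Fin 12, (a (some (some j)) • ei j : R12) i = if i = j then a (some (some j)) else 0 := by
      intro j
      simp [ei, EuclideanSpace.single_apply]
    rw [WithLp.ofLp_sum, Finset.sum_apply]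
    simp only [this]
    simp [hv]
  -- the relation
  have hrel : ∀ y, (a0 : ℂ) * (I * P.Q y) + (a1 : ℂ) * (((1 : ℂ) / n - I * P.om) * P.Q y
      + (1 / 2) * fderiv ℝ P.Q y y) + fderiv ℝ P.Q y v = 0 := by
    intro y
    have h1 := h y
    rw [Fintype.sum_option, Fintype.sum_option] at h1
    have h2 : fderiv ℝ P.Q y v = ∑ j : Fin 12, (a (some (some j)) : ℂ) * P.mode1 (some (some j)) y := by
      rw [hvsum, map_sum]
      apply Finset.sum_congr rfl
      intro j _
      rw [map_smul, Complex.real_smul]
      rfl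
    rw [h2, ← h1]
    simp only [Profile.mode1, eul]
    ring
  by_cases hA : a1 = 0
  · -- transport case
    have hrel' : ∀ y, fderiv ℝ P.Q y v = -((a0 : ℂ) * I) * P.Q y := by
      intro y
      have := hrel y
      rw [hA] at this
      simp only [ofReal_zero, zero_mul, add_zero] at this
      linear_combination this
    have hv0 : v = 0 := by
      by_contra hne
      -- |Q| constant along the line
      have hder : ∀ t : ℝ, HasDerivAt (fun t : ℝ => exp ((a0 : ℂ) * I * t) * P.Q (0 + t • v)) 0 t := by
        intro t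
        have e1 : HasDerivAt (fun t : ℝ => P.Q (0 + t • v)) (fderiv ℝ P.Q (0 + t • v) v) t := by
          have l1 : HasDerivAt (fun t : ℝ => (0 : R12) + t • v) v t := by
            simpa using ((hasDerivAt_id t).smul_const v).const_add (0 : R12)
          exact (hdiff _).hasFDerivAt.comp_hasDerivAt t l1
        have e2 : HasDerivAt (fun t : ℝ => exp ((a0 : ℂ) * I * t)) (exp ((a0 : ℂ) * I * t) * ((a0 : ℂ) * I)) t := by
          have l2 : HasDerivAt (fun t : ℝ => (a0 : ℂ) * I * (t : ℂ)) ((a0 : ℂ) * I) t := by
            simpa using (Complex.ofRealCLM.hasDerivAt (x := t)).const_mul ((a0 : ℂ) * I)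
          exact l2.cexp
        have e3 := e2.mul e1
        rw [hrel'] at e3
        have e5 : exp ((a0 : ℂ) * I * t) * ((a0 : ℂ) * I) * P.Q (0 + t • v)
            + exp ((a0 : ℂ) * I * t) * (-((a0 : ℂ) * I) * P.Q (0 + t • v)) = 0 := by ring
        rw [e5] at e3
        exact e3
      have hconst : ∀ t : ℝ, exp ((a0 : ℂ) * I * t) * P.Q (0 + t • v) = P.Q 0 := by
        intro t
        have := is_const_of_deriv_eq_zero (f := fun t : ℝ => exp ((a0 : ℂ) * I * t) * P.Q (0 + t • v))
          (fun t => (hder t).differentiableAt) (fun t => (hder t).deriv) t 0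
        simpa using this
      have hnorm : ∀ t : ℝ, ‖P.Q (0 + t • v)‖ = ‖P.Q 0‖ := by
        intro t
        rw [← hconst t, norm_mul, Complex.norm_exp]
        simp
      have hl := Q_tendsto P 0 v hne
      simp only [hnorm] at hl
      have := tendsto_nhds_unique hl tendsto_const_nhds
      exact P.Q_zero (norm_eq_zero.1 this.symm)
    have ha0' : a0 = 0 := by
      have h2 := hrel' 0
      rw [hv0, map_zero] at h2
      have h3 : (a0 : ℂ) * I * P.Q 0 = 0 := by linear_combination h2
      rcases mul_eq_zero.1 h3 with h4 | h4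
      · rcases mul_eq_zero.1 h4 with h5 | h5
        · exact_mod_cast h5
        · exact absurd h5 I_ne_zero
      · exact absurd h4 P.Q_zero
    funext i
    match i with
    | none => exact ha0'
    | some none => exact hA
    | some (some j) =>
      have := congrArg (fun w : R12 => w j) hv0
      simpa [hv] using this
  · -- dilation case: contradiction
    exfalso
    have hA' : (a1 : ℂ) ≠ 0 := by exact_mod_cast hA
    set y0 : R12 := (-2 / a1) • v with hy0
    set κ : ℂ := 2 * ((a0 : ℂ) * I + (a1 : ℂ) * ((1 : ℂ) / n - I * P.om)) / a1 with hκ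
    have hκre : κ.re = 2 / n := by
      have : κ = (2 / n : ℝ) + (2 * (a0 / a1 - P.om) : ℝ) * I := by
        rw [hκ]; push_cast; field_simp; ring
      rw [this]
      simp
    have hrel' : ∀ y, fderiv ℝ P.Q y (y - y0) = -κ * P.Q y := by
      intro y
      have h1 := hrel y
      rw [map_sub, hy0, map_smul, Complex.real_smul, hκ]
      push_cast
      have h5 : fderiv ℝ P.Q y y - -2 / (a1 : ℂ) * fderiv ℝ P.Q y v
          + 2 * ((a0 : ℂ) * I + (a1 : ℂ) * ((1 : ℂ) / n - I * P.om)) / a1 * P.Q y
          = (2 / (a1 : ℂ)) * ((a0 : ℂ) * (I * P.Q y) + (a1 : ℂ) * (((1 : ℂ) / n - I * P.om) * P.Q y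
      + (1 / 2) * fderiv ℝ P.Q y y) + fderiv ℝ P.Q y v) := by
        field_simp
        ring
      rw [h1, mul_zero] at h5
      linear_combination h5
    -- path
    have hder : ∀ t : ℝ, HasDerivAt (fun t : ℝ => exp (κ * t) * P.Q (y0 + Real.exp t • (-y0))) 0 t := by
      intro t
      have e1 : HasDerivAt (fun t : ℝ => P.Q (y0 + Real.exp t • (-y0)))
          (fderiv ℝ P.Q (y0 + Real.exp t • (-y0)) (Real.exp t • (-y0))) t := by
        have l1 : HasDerivAt (fun t : ℝ => y0 + Real.exp t • (-y0)) (Real.exp t • (-y0)) t :=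
          ((Real.hasDerivAt_exp t).smul_const (-y0)).const_add y0
        exact (hdiff _).hasFDerivAt.comp_hasDerivAt t l1
      have e2 : HasDerivAt (fun t : ℝ => exp (κ * t)) (exp (κ * t) * κ) t := by
        have l2 : HasDerivAt (fun t : ℝ => κ * (t : ℂ)) κ t := by
          simpa using (Complex.ofRealCLM.hasDerivAt (x := t)).const_mul κ
        exact l2.cexp
      have e3 := e2.mul e1
      have e4 := hrel' (y0 + Real.exp t • (-y0))
      rw [add_sub_cancel_left] at e4
      rw [e4] at e3
      have e5 : exp (κ * t) * κ * P.Q (y0 + Real.exp t • (-y0))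
          + exp (κ * t) * (-κ * P.Q (y0 + Real.exp t • (-y0))) = 0 := by ring
      rw [e5] at e3
      exact e3
    have hconst : ∀ t : ℝ, exp (κ * t) * P.Q (y0 + Real.exp t • (-y0)) = P.Q 0 := by
      intro t
      have := is_const_of_deriv_eq_zero (f := fun t : ℝ => exp (κ * t) * P.Q (y0 + Real.exp t • (-y0)))
        (fun t => (hder t).differentiableAt) (fun t => (hder t).deriv) t 0
      simpa using this
    have hlim : Tendsto (fun t : ℝ => exp (κ * t) * P.Q (y0 + Real.exp t • (-y0))) atBot (𝓝 (0 * P.Q (y0 + (0:ℝ) • (-y0)))) := by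
      apply Tendsto.mul
      · rw [tendsto_zero_iff_norm_tendsto_zero]
        have : (fun t : ℝ => ‖exp (κ * t)‖) = fun t : ℝ => Real.exp (2 / n * t) := by
          ext t
          rw [Complex.norm_exp]
          congr 1
          simp [hκre]
        rw [this]
        exact Real.tendsto_exp_atBot.comp (tendsto_id.const_mul_atBot (by positivity))
      · apply (P.smooth.continuous.tendsto _).comp
        apply Tendsto.const_add
        exact Real.tendsto_exp_atBot.smul_const _
    rw [zero_mul] at hlim
    simp only [hconst] at hlim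
    exact P.Q_zero (tendsto_nhds_unique tendsto_const_nhds hlim)

theorem mode_indep (T : Pot P) (N : ℕ) (D : LinData P T N) (c : MI → ℂ)
    (hc : ∑ i, c i • D.mode i = 0) : c = 0 := by
  have hmode1 : ∀ i, ft (D.mode i).1 = P.mode1 i := fun i => by
    rw [ft_congr (D.mode_fst i)]; exact (rep_ft (T.rep_m1 i N)).symm
  have hmode2 : ∀ i, ft (D.mode i).2 = P.mode2 i := fun i => by
    rw [ft_congr (D.mode_snd i)]; exact (rep_ft (T.rep_m2 i N)).symm
  have h1 : ∀ y, ∑ i, c i * P.mode1 i y = 0 := by
    intro y
    have := congrArg (fun x : XX N => ft x.1 y) hc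
    simp only [Prod.fst_sum, ft_sum, Prod.smul_fst, ft_smul, hmode1] at this
    rw [this]
    exact ft_zero y
  have h2 : ∀ y, ∑ i, c i * P.mode2 i y = 0 := by
    intro y
    have := congrArg (fun x : XX N => ft x.2 y) hc
    simp only [Prod.snd_sum, ft_sum, Prod.smul_snd, ft_smul, hmode2] at this
    rw [this]
    exact ft_zero y
  have h3 : ∀ y, ∑ i, (starRingEnd ℂ) (c i) * P.mode1 i y = 0 := by
    intro y
    have := congrArg (starRingEnd ℂ) (h2 y)
    rw [map_sum, map_zero] at this
    rw [← this]
    apply Finset.sum_congr rfl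
    intro i _
    rw [map_mul, Profile.mode2, Complex.conj_conj]
  have hre : (fun i => (c i).re) = 0 := by
    apply real_indep P
    intro y
    have e : ∀ i, (((c i).re : ℝ) : ℂ) * P.mode1 i y
        = (1/2 : ℂ) * (c i * P.mode1 i y + (starRingEnd ℂ) (c i) * P.mode1 i y) := by
      intro i
      rw [← add_mul, Complex.add_conj]; push_cast; ring
    simp only [e]
    rw [← Finset.mul_sum, Finset.sum_add_distrib, h1 y, h3 y]; ring
  have him : (fun i => (c i).im) = 0 := by
    apply real_indep P
    intro y
    have e : ∀ i, (((c i).im : ℝ) : ℂ) * P.mode1 i y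
        = (-I/2 : ℂ) * (c i * P.mode1 i y - (starRingEnd ℂ) (c i) * P.mode1 i y) := by
      intro i
      rw [← sub_mul, Complex.sub_conj]
      push_cast
      linear_combination (((c i).im : ℂ) * P.mode1 i y) * Complex.I_sq
    simp only [e]
    rw [← Finset.mul_sum, Finset.sum_sub_distrib, h1 y, h3 y]; ring
  funext i
  apply Complex.ext
  · exact congrFun hre i
  · exact congrFun him i

end Crest.Agent.R086.DL
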