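import Crest.Agent.R086.DLLin
import Crest.Agent.R086.DLForced
import Crest.Agent.R086.DGen

set_option autoImplicit false

open MeasureTheory Complex Set Filter
open scoped ContDiff Topology

namespace Crest.Agent.R086.DL

lemma ae_neg {p : R12 → Prop} (h : ∀ᵐ z ∂(volume : Measure R12), p z) :
    ∀ᵐ z ∂(volume : Measure R12), p (-z) :=
  (Measure.measurePreserving_neg (volume : Measure R12)).quasiMeasurePreserving.ae h

lemma J_coe' {N : ℕ} (a : XN N) :
    ((J N a : XN N) : R12 → ℂ) =ᵐ[volume] fun z => (starRingEnd ℂ) ((a : R12 → ℂ) (-z)) :=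
  (ae_muN_iff N).1 (J_coe a)

lemma ft_J {N : ℕ} (a : XN N) (y : R12) : ft (J N a) y = (starRingEnd ℂ) (ft a y) := by
  rw [ft_congr (J_coe' a)]
  unfold ft
  rw [← integral_conj, ← integral_neg_eq_self]
  congr 1
  ext ξ
  rw [map_mul, ← Complex.exp_conj]
  simp only [neg_neg, map_mul, Complex.conj_I, Complex.conj_ofReal, inner_neg_left, Complex.ofReal_neg]
  congr 2
  ring

/-- clause 2 -/
theorem mode_real {n : ℕ} (P : Profile n) (T : Pot P) (N : ℕ) (D : LinData P T N) (i : MI) :
    IsReal (D.mode i) := by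
  rw [isReal_iff]
  apply ftInj N
  ext y
  rw [ft_J, ft_congr (D.mode_fst i), ft_congr (D.mode_snd i),
    ← rep_ft (T.rep_m1 i N), ← rep_ft (T.rep_m2 i N)]
  rfl

/-- the real-linear conjugation on pairs -/
noncomputable def JJ (N : ℕ) : XX N →L[ℝ] XX N :=
  LinearMap.mkContinuous
    { toFun := fun x => (J N x.2, J N x.1)
      map_add' := fun x y => by simp only [Prod.snd_add, Prod.fst_add, J_add]; rfl
      map_smul' := fun c x => by
        have h : ∀ a : XN N, J N (c • a) = c • J N a := by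
          intro a
          have h := J_smul (N := N) (c : ℂ) a
          rw [Complex.conj_ofReal] at h
          have e : ∀ b : XN N, ((c : ℂ) • b : XN N) = c • b := by
            intro b
            apply Lp.ext
            filter_upwards [Lp.coeFn_smul (c : ℂ) b, Lp.coeFn_smul c b] with z h1 h2
            rw [h1, h2]
            simp
          rw [e, e] at h
          exact h
        simp only [Prod.smul_snd, Prod.smul_fst, h, RingHom.id_apply]; rfl } 1
    (fun x => by
      rw [one_mul]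
      show ‖((J N x.2, J N x.1) : XX N)‖ ≤ ‖x‖
      rw [Prod.norm_def, Prod.norm_def, J_norm, J_norm, max_comm])

lemma JJ_apply {N : ℕ} (x : XX N) : JJ N x = (J N x.2, J N x.1) := rfl

lemma isReal_JJ {N : ℕ} (x : XX N) : IsReal x ↔ JJ N x = x := by
  rw [isReal_iff, JJ_apply]
  constructor
  · intro h
    rw [h, J_J]
    exact Prod.ext rfl h.symm
  · intro h
    have := congrArg Prod.snd h
    exact this.symm

lemma ext_vol {N : ℕ} {a b : XN N} (h : (a : R12 → ℂ) =ᵐ[volume] b) : a = b :=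
  Lp.ext ((ae_muN_iff N).2 h)

lemma J_S0 {n : ℕ} {P : Profile n} {T : Pot P} {N : ℕ} (D : LinData P T N) {s : ℝ} (hs : 0 ≤ s)
    (x : XX N) : JJ N (D.S0 s x) = D.S0 s (JJ N x) := by
  have hdil : ∀ {p : R12 → Prop}, (∀ᵐ z ∂(volume : Measure R12), p z) →
      ∀ᵐ z ∂(volume : Measure R12), p (Real.exp (s / 2) • z) := by
    intro p hp
    have hne : Real.exp (s / 2) ≠ 0 := (Real.exp_pos _).ne'
    have hq : Measure.QuasiMeasurePreserving (fun z : R12 => Real.exp (s / 2) • z) volume volume := by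
      refine ⟨measurable_const_smul _, ?_⟩
      rw [Measure.map_addHaar_smul volume hne]
      exact Measure.smul_absolutelyContinuous
    exact hq.ae hp
  refine Prod.ext (ext_vol ?_) (ext_vol ?_)
  · rw [JJ_apply]
    filter_upwards [J_coe' (D.S0 s x).2, ae_neg (D.S0_snd s hs x), D.S0_fst s hs (JJ N x),
      hdil (J_coe' x.2)] with z h1 h2 h3 h4
    rw [h1, h2, h3]
    have h5 : ((JJ N x).1 : R12 → ℂ) (Real.exp (s / 2) • z) = (starRingEnd ℂ) ((x.2 : R12 → ℂ) (-(Real.exp (s / 2) • z))) := h4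
    rw [h5]
    simp only [map_mul, ← Complex.exp_conj, map_sub, map_neg, Complex.conj_I, Complex.conj_ofReal,
      map_div₀, map_one, Complex.conj_natCast, norm_neg, smul_neg, neg_neg, map_ofNat]
  · rw [JJ_apply]
    filter_upwards [J_coe' (D.S0 s x).1, ae_neg (D.S0_fst s hs x), D.S0_snd s hs (JJ N x),
      hdil (J_coe' x.1)] with z h1 h2 h3 h4
    rw [h1, h2, h3]
    have h5 : ((JJ N x).2 : R12 → ℂ) (Real.exp (s / 2) • z) = (starRingEnd ℂ) ((x.1 : R12 → ℂ) (-(Real.exp (s / 2) • z))) := h4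
    rw [h5]
    simp only [map_mul, ← Complex.exp_conj, map_sub, map_neg, Complex.conj_I, Complex.conj_ofReal,
      map_div₀, map_one, Complex.conj_natCast, norm_neg, smul_neg, neg_neg, map_ofNat]

lemma J_VV {n : ℕ} {P : Profile n} {T : Pot P} {N : ℕ} (D : LinData P T N) (x : XX N) :
    JJ N (D.VV x) = D.VV (JJ N x) := by
  have f1 : ∀ (x : XX N) p, ft (D.VV x).1 p = -I * (P.V1 p * ft x.1 p + P.V2 p * ft x.2 p) := by
    intro x p
    have i1 := DGen.integrable_rep (T.rep_v1 0)
    have i2 := DGen.integrable_rep (T.rep_v2 0)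
    have j1 := DGen.integrable_XN x.1
    have j2 := DGen.integrable_XN x.2
    rw [DGen.ft_congr (D.VV_fst x) p, DGen.ft_comb (DGen.integrable_cv i1 j1) (DGen.integrable_cv i2 j2),
      DGen.ft_cv i1 j1, DGen.ft_cv i2 j2, DGen.ft_rep (T.rep_v1 0), DGen.ft_rep (T.rep_v2 0)]
  have f2 : ∀ (x : XX N) p, ft (D.VV x).2 p = I * (P.V1 p * ft x.2 p + P.V2c p * ft x.1 p) := by
    intro x p
    have i1 := DGen.integrable_rep (T.rep_v1 0)
    have i2 := DGen.integrable_rep (T.rep_v2c 0)
    have j1 := DGen.integrable_XN x.1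
    have j2 := DGen.integrable_XN x.2
    rw [DGen.ft_congr (D.VV_snd x) p, DGen.ft_comb (DGen.integrable_cv i1 j2) (DGen.integrable_cv i2 j1),
      DGen.ft_cv i1 j2, DGen.ft_cv i2 j1, DGen.ft_rep (T.rep_v1 0), DGen.ft_rep (T.rep_v2c 0)]
  have g1 : ∀ p, (starRingEnd ℂ) (P.V1 p) = P.V1 p := by
    intro p
    unfold Profile.V1
    have h2 : (starRingEnd ℂ) (2 : ℂ) = 2 := Complex.conj_ofNat 2
    simp [Complex.conj_ofReal, h2]
  have g2 : ∀ p, (starRingEnd ℂ) (P.V2c p) = P.V2 p := by
    intro p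
    unfold Profile.V2 Profile.V2c
    have h2 : (starRingEnd ℂ) (2 : ℂ) = 2 := Complex.conj_ofNat 2
    simp [Complex.conj_ofReal, h2]
  have g3 : ∀ p, (starRingEnd ℂ) (P.V2 p) = P.V2c p := by
    intro p
    unfold Profile.V2 Profile.V2c
    have h2 : (starRingEnd ℂ) (2 : ℂ) = 2 := Complex.conj_ofNat 2
    simp [Complex.conj_ofReal, h2]
  have k1 : ∀ (x : XX N) p, ft (JJ N x).1 p = (starRingEnd ℂ) (ft x.2 p) := fun x p => ft_J x.2 p
  have k2 : ∀ (x : XX N) p, ft (JJ N x).2 p = (starRingEnd ℂ) (ft x.1 p) := fun x p => ft_J x.1 p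
  refine Prod.ext (ftInj N _ _ (funext fun p => ?_)) (ftInj N _ _ (funext fun p => ?_))
  · rw [k1, f1, f2, k1, k2]
    simp only [map_mul, map_add, g1, g2, Complex.conj_I]
  · rw [k2, f2, f1, k1, k2]
    simp only [map_mul, map_add, map_neg, g1, g3, Complex.conj_I, neg_neg]

/-- the flow commutes with the conjugation -/
theorem S_JJ {n : ℕ} {P : Profile n} {T : Pot P} {N : ℕ} (D : LinData P T N) {s : ℝ} (hs : 0 ≤ s)
    (x : XX N) : JJ N (D.S s x) = D.S s (JJ N x) := by
  have hc : ContinuousOn (fun r => D.S r x) (Icc 0 s) := (D.S_cont x).mono Icc_subset_Ici_self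
  have h := forced n P T N D s hs (fun r => JJ N (D.S r x)) (fun _ => 0)
    ((JJ N).continuous.comp_continuousOn hc) continuousOn_const ?_ s (right_mem_Icc.2 hs)
  · simp only [map_zero, intervalIntegral.integral_zero, add_zero, D.S_zero] at h
    exact h
  · intro r hr
    simp only [D.S_zero, add_zero]
    have hd := D.duh r hr.1 x
    have J0 := joint_cont D.S0_cont
    have J1 := joint_cont D.S_cont
    have e1 : ∫ q in (0 : ℝ)..r, D.S0 (r - q) (D.VV (D.S q x))
        = ∫ q in (0 : ℝ)..r, D.S0 (max (r - q) 0) (D.VV (D.S (max q 0) x)) := by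
      apply intervalIntegral.integral_congr
      intro q hq
      rw [uIcc_of_le hr.1] at hq
      simp only []
      rw [max_eq_left (by linarith [hq.2]), max_eq_left hq.1]
    have c1 : Continuous fun q : ℝ => D.S0 (max (r - q) 0) (D.VV (D.S (max q 0) x)) := by
      have c2 : Continuous fun q : ℝ => D.S (max q 0) x :=
        J1.comp (by fun_prop : Continuous fun q : ℝ => (q, x))
      exact J0.comp ((by fun_prop : Continuous fun q : ℝ => r - q).prodMk (D.VV.continuous.comp c2))
    have e2 : JJ N (D.S r x) = JJ N (D.S0 r x) + ∫ q in (0 : ℝ)..r, JJ N (D.S0 (max (r - q) 0) (D.VV (D.S (max q 0) x))) := by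
      rw [hd, map_add, e1]
      congr 1
      exact ((JJ N).intervalIntegral_comp_comm (c1.intervalIntegrable 0 r)).symm
    rw [e2, J_S0 D hr.1]
    congr 1
    apply intervalIntegral.integral_congr
    intro q hq
    rw [uIcc_of_le hr.1] at hq
    simp only []
    rw [max_eq_left (by linarith [hq.2]), max_eq_left hq.1, J_S0 D (by linarith [hq.2]), J_VV]

/-- clause 3 -/
theorem S_real {n : ℕ} {P : Profile n} {T : Pot P} {N : ℕ} (D : LinData P T N) {s : ℝ} (hs : 0 ≤ s)
    (x : XX N) (hx : IsReal x) : IsReal (D.S s x) := by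
  rw [isReal_JJ] at hx ⊢
  rw [S_JJ D hs, hx]

end Crest.Agent.R086.DL
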