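import Crest.Agent.R086.DMode
import Crest.Agent.R086.DLInd

/-!
Row 86 (helper839), node MODE: eigenvector property and reality.
-/

set_option autoImplicit false
set_option linter.style.longLine false

open MeasureTheory Complex Filter Topology Set
open scoped ContDiff FourierTransform

namespace Crest.Agent.R086.DM

section flow
variable {n : ℕ} {P : Profile n} {T : Pot P} {N : ℕ} (D : LinData P T N)

theorem hasDerivAt_S0_mode (i : MI) {τ : ℝ} (hτ : 0 < τ) :
    HasDerivAt (fun t => D.S0 t (D.mode i)) (D.S0 τ (YY D i)) τ := by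
  have hint := S0_intervalIntegrable D (YY D i) hτ.le
  have hc : ContinuousOn (fun t => D.S0 t (YY D i)) (Ioi 0) := (D.S0_cont _).mono Ioi_subset_Ici_self
  have hca : ContinuousAt (fun t => D.S0 t (YY D i)) τ := hc.continuousAt (Ioi_mem_nhds hτ)
  have hm : StronglyMeasurableAtFilter (fun t => D.S0 t (YY D i)) (𝓝 τ) volume :=
    ContinuousOn.stronglyMeasurableAtFilter isOpen_Ioi hc τ hτ
  have h := intervalIntegral.integral_hasDerivAt_right hint hm hca
  have h2 := h.const_add (D.mode i)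
  refine h2.congr_of_eventuallyEq ?_
  filter_upwards [Ioi_mem_nhds hτ] with t ht
  rw [← free_curve D i (le_of_lt ht)]
  abel

theorem hasDerivAt_ee (lam : ℝ) (r : ℝ) :
    HasDerivAt (fun r : ℝ => ((Real.exp (lam * r) : ℝ) : ℂ)) ((lam : ℂ) * ((Real.exp (lam * r) : ℝ) : ℂ)) r := by
  have h1 : HasDerivAt (fun r : ℝ => Real.exp (lam * r)) (Real.exp (lam * r) * lam) r := by
    have := ((hasDerivAt_id r).const_mul lam).exp
    simpa using this
  have h2 := h1.ofReal_comp
  refine h2.congr_deriv ?_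
  push_cast
  ring

theorem continuous_ee (lam : ℝ) : Continuous (fun r : ℝ => ((Real.exp (lam * r) : ℝ) : ℂ)) := by
  fun_prop

theorem duh_mode (i : MI) {s : ℝ} (hs : 0 ≤ s) :
    ((Real.exp (mlam i * s) : ℝ) : ℂ) • D.mode i = D.S0 s (D.mode i) +
      ∫ r in (0 : ℝ)..s, D.S0 (s - r) (D.VV (((Real.exp (mlam i * r) : ℝ) : ℂ) • D.mode i)) := by
  have hcS : ∀ x : XX N, ContinuousOn (fun r => D.S0 (s - r) x) (Icc 0 s) := by
    intro x
    refine (D.S0_cont x).comp (by fun_prop) fun r hr => ?_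
    simp only [mem_Ici, sub_nonneg]; exact hr.2
  have key := intervalIntegral.integral_eq_sub_of_hasDerivAt_of_le (a := 0) (b := s)
    (f := fun r => ((Real.exp (mlam i * r) : ℝ) : ℂ) • D.S0 (s - r) (D.mode i))
    (f' := fun r => D.S0 (s - r) (D.VV (((Real.exp (mlam i * r) : ℝ) : ℂ) • D.mode i))) hs ?_ ?_ ?_
  · rw [key]
    simp only [sub_self, mul_zero, Real.exp_zero, Complex.ofReal_one, one_smul, sub_zero, D.S0_zero]
    rw [add_sub_cancel]
    rfl
  · exact (continuous_ee _).continuousOn.smul (hcS _)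
  · intro r hr
    have h1 : HasDerivAt (fun r => D.S0 (s - r) (D.mode i)) (-(D.S0 (s - r) (YY D i))) r := by
      have h0 := hasDerivAt_S0_mode D i (τ := s - r) (by linarith [hr.2])
      have h2 : HasDerivAt (fun r => s - r) (-1 : ℝ) r := by simpa using (hasDerivAt_id r).const_sub s
      exact (h0.scomp r h2).congr_deriv (by simp)
    have h4 := (hasDerivAt_ee (mlam i) r).smul h1
    refine h4.congr_deriv ?_
    unfold YY
    simp only [map_sub, map_smul]
    module
  · refine ContinuousOn.intervalIntegrable ?_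
    rw [uIcc_of_le hs]
    have e : (fun r => D.S0 (s - r) (D.VV (((Real.exp (mlam i * r) : ℝ) : ℂ) • D.mode i))) =
        fun r => ((Real.exp (mlam i * r) : ℝ) : ℂ) • D.S0 (s - r) (D.VV (D.mode i)) := by
      funext r; rw [map_smul, map_smul]
    rw [e]
    exact (continuous_ee _).continuousOn.smul (hcS _)

theorem mode_eig (i : MI) {s : ℝ} (hs : 0 ≤ s) :
    D.S s (D.mode i) = ((Real.exp (mlam i * s) : ℝ) : ℂ) • D.mode i := by
  have h := DL.forced n P T N D s hs (fun r => ((Real.exp (mlam i * r) : ℝ) : ℂ) • D.mode i) (fun _ => 0)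
    ((continuous_ee _).smul continuous_const).continuousOn continuousOn_const ?_ s ⟨hs, le_rfl⟩
  · simp only [mul_zero, Real.exp_zero, Complex.ofReal_one, one_smul, map_zero,
      intervalIntegral.integral_zero, add_zero] at h
    exact h.symm
  · intro r hr
    have := duh_mode D i hr.1
    simp only [mul_zero, Real.exp_zero, Complex.ofReal_one, one_smul, add_zero]
    exact this

/-! ### reality -/

theorem ft_conj (a : R12 → ℂ) (y : R12) :
    ft (fun ζ => starRingEnd ℂ (a (-ζ))) y = starRingEnd ℂ (ft a y) := by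
  unfold ft
  rw [← integral_conj, ← integral_neg_eq_self]
  refine integral_congr_ae (Eventually.of_forall fun ζ => ?_)
  simp only [neg_neg, map_mul, ← Complex.exp_conj, Complex.conj_I, Complex.conj_ofReal, inner_neg_left]
  push_cast
  ring_nf

theorem int_conj {a : R12 → ℂ} (ha : Integrable a) : Integrable fun ζ => starRingEnd ℂ (a (-ζ)) :=
  Complex.conjCLE.toContinuousLinearMap.integrable_comp ha.comp_neg

theorem ft_inj_fun {a b : R12 → ℂ} (ha : Integrable a) (hb : Integrable b) (h : ∀ y, ft a y = ft b y) :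
    a =ᵐ[volume] b := by
  have h0 := DL.ft_zero_ae (a := fun z => a z - b z) (ha.sub hb) (fun y => by
    have e : ft (fun z => a z - b z) y = ft a y - ft b y := by
      unfold ft
      rw [← integral_sub (DGen.integrable_ftterm ha y) (DGen.integrable_ftterm hb y)]
      refine integral_congr_ae (Eventually.of_forall fun ζ => ?_)
      simp only; ring
    rw [e, h y, sub_self])
  filter_upwards [h0] with z hz
  exact sub_eq_zero.1 hz

/-- conjugate functions have conjugate densities -/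
theorem conj_dens {a b f g : R12 → ℂ} (ha : Rep 2 a f) (hb : Rep 2 b g) (h : ∀ y, g y = starRingEnd ℂ (f y)) :
    b =ᵐ[volume] fun z => starRingEnd ℂ (a (-z)) := by
  refine ft_inj_fun (DGen.integrable_rep hb) (int_conj (DGen.integrable_rep ha)) fun y => ?_
  rw [ft_conj, DGen.ft_rep ha, DGen.ft_rep hb, h]

theorem m2_conj (i : MI) : T.m2 i =ᵐ[volume] fun z => starRingEnd ℂ (T.m1 i (-z)) :=
  conj_dens (T.rep_m1 i 2) (T.rep_m2 i 2) fun _ => rfl

theorem v1_conj : T.v1 =ᵐ[volume] fun z => starRingEnd ℂ (T.v1 (-z)) :=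
  conj_dens (T.rep_v1 2) (T.rep_v1 2) fun y => (conj_V1 P y).symm

theorem v2_conj : T.v2c =ᵐ[volume] fun z => starRingEnd ℂ (T.v2 (-z)) :=
  conj_dens (T.rep_v2 2) (T.rep_v2c 2) fun y => (conj_V2 P y).symm

theorem v2c_conj : T.v2 =ᵐ[volume] fun z => starRingEnd ℂ (T.v2c (-z)) :=
  conj_dens (T.rep_v2c 2) (T.rep_v2 2) fun y => by rw [← conj_V2 P y, Complex.conj_conj]

theorem ae_neg {p : R12 → Prop} (h : ∀ᵐ z ∂(volume : Measure R12), p z) :
    ∀ᵐ z ∂(volume : Measure R12), p (-z) :=
  (Measure.measurePreserving_neg (volume : Measure R12)).quasiMeasurePreserving.ae h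

theorem ae_dil {p : R12 → Prop} (h : ∀ᵐ z ∂(volume : Measure R12), p z) {c : ℝ} (hc : c ≠ 0) :
    ∀ᵐ z ∂(volume : Measure R12), p (c • z) := by
  have hq : Measure.QuasiMeasurePreserving (fun z : R12 => c • z) volume volume := by
    refine ⟨measurable_const_smul c, ?_⟩
    rw [Measure.map_addHaar_smul _ hc]
    exact Measure.smul_absolutelyContinuous
  exact hq.ae h

theorem mode_real (i : MI) : IsReal (D.mode i) := by
  filter_upwards [D.mode_snd i, m2_conj (T := T) i, ae_neg (D.mode_fst i)] with z h1 h2 h3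
  rw [h1, h2, h3]

theorem J_vol {N : ℕ} (a : XN N) :
    ((DL.J N a : XN N) : R12 → ℂ) =ᵐ[volume] fun z => (starRingEnd ℂ) ((a : R12 → ℂ) (-z)) :=
  DGen.ac_muN.ae_le (DL.J_coe a)

theorem rsmul (c : ℝ) (x : XN N) : c • x = ((c : ℝ) : ℂ) • x := by
  apply Lp.ext
  filter_upwards [Lp.coeFn_smul c x, Lp.coeFn_smul ((c : ℝ) : ℂ) x] with z h1 h2
  rw [h1, h2, Pi.smul_apply, Pi.smul_apply, Complex.real_smul, smul_eq_mul]

/-- conjugation on `XN` as a real continuous linear map -/
noncomputable def JL (N : ℕ) : XN N →L[ℝ] XN N :=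
  LinearMap.mkContinuous
    { toFun := DL.J N
      map_add' := DL.J_add
      map_smul' := fun c x => by
        have h := DL.J_smul ((c : ℝ) : ℂ) x
        rw [Complex.conj_ofReal] at h
        rw [RingHom.id_apply, rsmul, rsmul, h] } 1 (fun x => by
      simp only [LinearMap.coe_mk, AddHom.coe_mk]
      rw [DL.J_norm, one_mul])

/-- the conjugation of pairs -/
noncomputable def JJ (N : ℕ) : XX N →L[ℝ] XX N :=
  ((JL N).comp (ContinuousLinearMap.snd ℝ (XN N) (XN N))).prod
    ((JL N).comp (ContinuousLinearMap.fst ℝ (XN N) (XN N)))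

theorem JJ_fst (x : XX N) : (JJ N x).1 = DL.J N x.2 := rfl
theorem JJ_snd (x : XX N) : (JJ N x).2 = DL.J N x.1 := rfl

theorem cv_conj (v a : R12 → ℂ) (z : R12) :
    starRingEnd ℂ (cv v a (-z)) = cv (fun ξ => starRingEnd ℂ (v (-ξ))) (fun ξ => starRingEnd ℂ (a (-ξ))) z := by
  unfold cv
  rw [← integral_conj, ← integral_neg_eq_self]
  refine integral_congr_ae (Eventually.of_forall fun ξ => ?_)
  simp only [map_mul]
  congr 3
  abel

theorem xn_ext {p q : XN N} (h : (p : R12 → ℂ) =ᵐ[volume] (q : R12 → ℂ)) : p = q := by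
  apply Lp.ext
  rw [Filter.EventuallyEq, DL.ae_muN_iff]
  exact h

theorem JJ_S0 {s : ℝ} (hs : 0 ≤ s) (x : XX N) : JJ N (D.S0 s x) = D.S0 s (JJ N x) := by
  have hc : Real.exp (s / 2) ≠ 0 := (Real.exp_pos _).ne'
  refine Prod.ext (xn_ext ?_) (xn_ext ?_)
  · filter_upwards [J_vol (D.S0 s x).2, D.S0_fst s hs (JJ N x), ae_neg (D.S0_snd s hs x),
      ae_dil (J_vol x.2) hc] with z h1 h2 h3 h4
    rw [JJ_fst, h1, h2, h3, JJ_fst, h4]
    simp only [map_mul, ← Complex.exp_conj, norm_neg, smul_neg, Complex.conj_I, Complex.conj_ofReal,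
      map_sub, map_neg, map_div₀, map_one, map_natCast, map_ofNat, neg_neg]
  · filter_upwards [J_vol (D.S0 s x).1, D.S0_snd s hs (JJ N x), ae_neg (D.S0_fst s hs x),
      ae_dil (J_vol x.1) hc] with z h1 h2 h3 h4
    rw [JJ_snd, h1, h2, h3, JJ_snd, h4]
    simp only [map_mul, ← Complex.exp_conj, norm_neg, smul_neg, Complex.conj_I, Complex.conj_ofReal,
      map_sub, map_neg, map_div₀, map_one, map_natCast, map_ofNat, neg_neg]

theorem JJ_VV (x : XX N) : JJ N (D.VV x) = D.VV (JJ N x) := by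
  refine Prod.ext (xn_ext ?_) (xn_ext ?_)
  · filter_upwards [J_vol (D.VV x).2, D.VV_fst (JJ N x), ae_neg (D.VV_snd x)] with z h1 h2 h3
    rw [JJ_fst, h1, h2, h3, JJ_fst, JJ_snd, cv_congr (J_vol x.2), cv_congr (J_vol x.1), map_mul, map_add,
      cv_conj, cv_conj, cv_congr_left (v1_conj (T := T)), cv_congr_left (v2c_conj (T := T)), Complex.conj_I]
  · filter_upwards [J_vol (D.VV x).1, D.VV_snd (JJ N x), ae_neg (D.VV_fst x)] with z h1 h2 h3
    rw [JJ_snd, h1, h2, h3, JJ_fst, JJ_snd, cv_congr (J_vol x.2), cv_congr (J_vol x.1), map_mul, map_add,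
      cv_conj, cv_conj, cv_congr_left (v1_conj (T := T)), cv_congr_left (v2_conj (T := T)), map_neg,
      Complex.conj_I, neg_neg]

theorem JJ_S {s : ℝ} (hs : 0 ≤ s) (x : XX N) : JJ N (D.S s x) = D.S s (JJ N x) := by
  have h := DL.forced n P T N D s hs (fun r => JJ N (D.S r x)) (fun _ => 0) ?_ continuousOn_const ?_ s ⟨hs, le_rfl⟩
  · simp only [map_zero, intervalIntegral.integral_zero, add_zero, D.S_zero] at h
    exact h
  · exact (JJ N).continuous.comp_continuousOn ((D.S_cont x).mono Icc_subset_Ici_self)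
  · intro r hr
    have hcont : ContinuousOn (fun q => D.S0 (r - q) (D.VV (D.S q x))) (Icc 0 r) :=
      DGen.cont_duh D (((D.VV).continuous.comp_continuousOn ((D.S_cont x).mono Icc_subset_Ici_self)))
    have hint : IntervalIntegrable (fun q => D.S0 (r - q) (D.VV (D.S q x))) volume 0 r := by
      refine ContinuousOn.intervalIntegrable ?_
      rw [uIcc_of_le hr.1]; exact hcont
    have e := congrArg (JJ N) (D.duh r hr.1 x)
    rw [map_add, ← (JJ N).intervalIntegral_comp_comm hint] at e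
    simp only [add_zero]
    rw [e, JJ_S0 D hr.1, D.S_zero]
    congr 1
    refine intervalIntegral.integral_congr fun q hq => ?_
    rw [uIcc_of_le hr.1] at hq
    show JJ N (D.S0 (r - q) (D.VV (D.S q x))) = D.S0 (r - q) (D.VV (JJ N (D.S q x)))
    rw [JJ_S0 D (by linarith [hq.2]), JJ_VV]

theorem S_real {s : ℝ} (hs : 0 ≤ s) (x : XX N) (hx : IsReal x) : IsReal (D.S s x) := by
  have hx' : JJ N x = x := by
    have h2 := (DL.isReal_iff x).1 hx
    refine Prod.ext ?_ ?_
    · rw [JJ_fst, h2, DL.J_J]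
    · rw [JJ_snd, ← h2]
  rw [DL.isReal_iff, ← JJ_snd, JJ_S D hs, hx']

end flow

/-- NODE MODE -/
theorem modeStmt : ModeStmt := fun _ P T N D =>
  ⟨fun _ hs i => mode_eig D i hs, fun i => mode_real D i, fun _ hs x hx => S_real D hs x hx,
    fun c hc => DL.mode_indep P T N D c hc⟩

end Crest.Agent.R086.DM

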