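import Crest.Agent.R086.DLLin
import Crest.Agent.R086.DLForced
import Crest.Agent.R086.DMain
import Crest.Agent.R086.DE
import Crest.Agent.R086.DCtop
import Crest.Agent.R086.SymCalc

/-! Top of D-LINEAR (helper575): all five Props of `DLIface` are proved.
`DL.lin : LINStmt`, `DL.forced : ForcedStmt`, `DC.linStmt : LinStmt`, `potStmt : PotStmt`. -/

set_option autoImplicit false

open MeasureTheory Complex Set Filter

namespace Crest.Agent.R086.DL

theorem lin : LINStmt := lin_of DE.deStmt DM.modeStmt DGen.genStmt

end Crest.Agent.R086.DL
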