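import Mathlib
import Crest.Prelude.Def_PeriodicNLS

/-!
Row 86 (S0114), Part D, torus side: lattice `ℤ¹²`, characters, basic summability.  (helper232)
Notation parallel to helper327's `R086/TorA.lean` (`kv`, `wt`, `ek`).
-/

set_option autoImplicit false

open MeasureTheory Complex Set Filter Topology
open scoped ContDiff

namespace Crest.Agent.R086.DCls

open Crest.AnalysisR.PDE.NLS (R12)

abbrev K12 : Type := Fin 12 → ℤ

/-- integer frequency vector -/
noncomputable def kv (k : K12) : R12 := WithLp.toLp 2 (fun i => (k i : ℝ))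

@[simp] lemma kv_apply (k : K12) (i : Fin 12) : kv k i = (k i : ℝ) := rfl

lemma kv_add (k l : K12) : kv (k + l) = kv k + kv l := by
  ext i; simp

lemma kv_neg (k : K12) : kv (-k) = - kv k := by
  ext i; simp

lemma kv_zero : kv 0 = 0 := by
  ext i; simp

/-- weight -/
noncomputable def wt (k : K12) : ℝ := 1 + ‖kv k‖

lemma one_le_wt (k : K12) : 1 ≤ wt k := by
  rw [wt]; linarith [norm_nonneg (kv k)]

lemma wt_pos (k : K12) : 0 < wt k := lt_of_lt_of_le one_pos (one_le_wt k)

lemma wt_add_le (k l : K12) : wt (k + l) ≤ wt k * wt l := by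
  rw [wt, wt, wt, kv_add]
  have h := norm_add_le (kv k) (kv l)
  nlinarith [norm_nonneg (kv k), norm_nonneg (kv l),
    mul_nonneg (norm_nonneg (kv k)) (norm_nonneg (kv l))]

lemma wt_neg (k : K12) : wt (-k) = wt k := by
  rw [wt, wt, kv_neg, norm_neg]

/-- character `e^{i k·x}` -/
noncomputable def ek (k : K12) (x : R12) : ℂ := cexp (I * ((inner ℝ (kv k) x : ℝ) : ℂ))

lemma norm_ek (k : K12) (x : R12) : ‖ek k x‖ = 1 := by
  rw [ek, mul_comm, Complex.norm_exp_ofReal_mul_I]

lemma ek_add (k l : K12) (x : R12) : ek (k + l) x = ek k x * ek l x := by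
  rw [ek, ek, ek, ← Complex.exp_add, kv_add, inner_add_left]; push_cast; ring_nf

lemma ek_zero (x : R12) : ek 0 x = 1 := by
  rw [ek, kv_zero, inner_zero_left]; simp

lemma ek_neg (k : K12) (x : R12) : ek (-k) x = (starRingEnd ℂ) (ek k x) := by
  rw [ek, ek, ← Complex.exp_conj, kv_neg, inner_neg_left]
  congr 1
  simp

lemma ek_periodic (k : K12) (x : R12) (i : Fin 12) :
    ek k (x + EuclideanSpace.single i (2 * Real.pi)) = ek k x := by
  have h : (inner ℝ (kv k) (x + EuclideanSpace.single i (2 * Real.pi)) : ℝ)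
      = inner ℝ (kv k) x + (k i : ℝ) * (2 * Real.pi) := by
    rw [inner_add_right, EuclideanSpace.inner_single_right]
    simp [mul_comm]
  rw [ek, h]
  push_cast
  rw [mul_add, Complex.exp_add]
  have : cexp (I * ((k i : ℂ) * (2 * Real.pi))) = 1 := by
    rw [Complex.exp_eq_one_iff]
    exact ⟨k i, by ring⟩
  rw [this, mul_one, ek]

lemma abs_coord_le (k : K12) (i : Fin 12) : |(k i : ℝ)| ≤ ‖kv k‖ := by
  simpa using PiLp.norm_apply_le (kv k) i

lemma norm_le_kv (k : K12) : ‖k‖ ≤ ‖kv k‖ := by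
  rw [pi_norm_le_iff_of_nonneg (norm_nonneg _)]
  intro i
  simpa [Int.norm_eq_abs] using abs_coord_le k i

/-- injection of `ℤ¹²` into the standard lattice -/
lemma summable_norm_inv_pow : Summable (fun k : K12 => (‖k‖⁻¹) ^ 13) := by
  classical
  let b := Pi.basisFun ℝ (Fin 12)
  let L : Submodule ℤ (Fin 12 → ℝ) := Submodule.span ℤ (Set.range b)
  have hfin : Module.finrank ℤ L = 12 := by
    have := ZLattice.rank ℝ L
    simpa using this
  have hs := ZLattice.summable_norm_pow_inv L 13 (by rw [hfin]; norm_num)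
  have hmem : ∀ k : K12, (fun i => (k i : ℝ)) ∈ L := by
    intro k
    have : (fun i => (k i : ℝ)) = ∑ i, k i • b i := by
      ext j
      simp [b, Finset.sum_apply, Pi.single_apply]
    rw [this]
    exact Submodule.sum_mem _ (fun i _ => Submodule.smul_mem _ _ (Submodule.subset_span ⟨i, rfl⟩))
  let φ : K12 → L := fun k => ⟨fun i => (k i : ℝ), hmem k⟩
  have hφ : Function.Injective φ := by
    intro k l h
    have h' : (fun i => (k i : ℝ)) = (fun i => (l i : ℝ)) := congrArg Subtype.val h
    ext i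
    exact_mod_cast congrFun h' i
  have hnorm : ∀ k, ‖φ k‖ = ‖k‖ := by
    intro k
    change ‖(fun i => (k i : ℝ))‖ = ‖k‖
    rw [Pi.norm_def, Pi.norm_def]
    congr 1
  have := hs.comp_injective hφ
  refine this.congr (fun k => ?_)
  change (‖φ k‖⁻¹) ^ 13 = _
  rw [hnorm]

lemma summable_wt_inv {m : ℕ} (hm : 13 ≤ m) : Summable (fun k : K12 => (wt k ^ m)⁻¹) := by
  refine Summable.of_norm_bounded_eventually summable_norm_inv_pow ?_
  have : ({0} : Set K12)ᶜ ∈ (cofinite : Filter K12) := by
    rw [mem_cofinite, compl_compl]; exact Set.finite_singleton _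
  filter_upwards [this] with k hk
  have hk0 : k ≠ 0 := by simpa using hk
  have hkp : 0 < ‖k‖ := norm_pos_iff.mpr hk0
  have hw := wt_pos k
  rw [Real.norm_eq_abs, abs_of_pos (by positivity), inv_pow]
  apply inv_anti₀ (by positivity)
  calc ‖k‖ ^ 13 ≤ wt k ^ 13 := by
        gcongr
        rw [wt]; linarith [norm_le_kv k]
    _ ≤ wt k ^ m := pow_le_pow_right₀ (one_le_wt k) hm

end Crest.Agent.R086.DCls
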