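import Crest.Agent.R086.DMft

/-!
Row 86 (helper839), node MODE: the pure dilation flow tested against `C_c^∞` functions.
-/

set_option autoImplicit false
set_option linter.style.longLine false

open MeasureTheory Complex Filter Topology Set
open scoped ContDiff FourierTransform

namespace Crest.Agent.R086.DM

/-- `eul Φ` of a test function is bounded and continuous -/
theorem eul_bdd {Φ : R12 → ℂ} (h1 : ContDiff ℝ ∞ Φ) (h2 : HasCompactSupport Φ) :
    ∃ C, ∀ ζ, ‖eul Φ ζ‖ ≤ C := by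
  have hE : HasCompactSupport (eul Φ) := by
    unfold eul
    refine HasCompactSupport.mono (h2.fderiv (𝕜 := ℝ)) ?_
    intro ζ hζ
    simp only [Function.mem_support] at hζ ⊢
    intro h0
    exact hζ (by rw [h0]; simp)
  exact (smooth_eul h1).continuous.bounded_above_of_compact_support hE

/-- pairing with the dilated test function -/
noncomputable def pair (Φ b : R12 → ℂ) (τ : ℝ) : ℂ := ∫ ζ : R12, Φ (Real.exp (-τ / 2) • ζ) * b ζ

theorem hasDerivAt_dil {Φ : R12 → ℂ} (h1 : ContDiff ℝ ∞ Φ) (ζ : R12) (τ : ℝ) :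
    HasDerivAt (fun τ : ℝ => Φ (Real.exp (-τ / 2) • ζ)) (-(1 / 2) * eul Φ (Real.exp (-τ / 2) • ζ)) τ := by
  have e1 : HasDerivAt (fun t : ℝ => Real.exp (-t / 2)) (Real.exp (-τ / 2) * (-1 / 2)) τ := by
    have := ((hasDerivAt_id τ).neg.div_const 2).exp
    simpa using this
  have e2 : HasDerivAt (fun t : ℝ => Real.exp (-t / 2) • ζ) ((Real.exp (-τ / 2) * (-1 / 2)) • ζ) τ :=
    e1.smul_const ζ
  have e3 := ((h1.differentiable (by simp) (Real.exp (-τ / 2) • ζ)).hasFDerivAt).comp_hasDerivAt τ e2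
  refine e3.congr_deriv ?_
  unfold eul
  rw [show ((Real.exp (-τ / 2) * (-1 / 2)) • ζ : R12) = (-(1 / 2) : ℝ) • (Real.exp (-τ / 2) • ζ) by
    rw [smul_smul]; congr 1; ring, map_smul]
  rw [Complex.real_smul]
  push_cast
  ring

theorem hasDerivAt_pair {Φ b : R12 → ℂ} (h1 : ContDiff ℝ ∞ Φ) (h2 : HasCompactSupport Φ) (hb : Integrable b)
    (τ : ℝ) : HasDerivAt (pair Φ b) (-(1 / 2) * ∫ ζ : R12, eul Φ (Real.exp (-τ / 2) • ζ) * b ζ) τ := by
  obtain ⟨C, hC⟩ := h1.continuous.bounded_above_of_compact_support h2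
  obtain ⟨C', hC'⟩ := eul_bdd h1 h2
  have hsc : ∀ τ : ℝ, Continuous fun ζ : R12 => Real.exp (-τ / 2) • ζ := fun τ => by fun_prop
  have hm : ∀ τ : ℝ, AEStronglyMeasurable (fun ζ : R12 => Φ (Real.exp (-τ / 2) • ζ) * b ζ) volume := fun τ =>
    (h1.continuous.comp (hsc τ)).aestronglyMeasurable.mul hb.1
  have key := (hasDerivAt_integral_of_dominated_loc_of_deriv_le (μ := (volume : Measure R12))
    (F := fun τ ζ => Φ (Real.exp (-τ / 2) • ζ) * b ζ)
    (F' := fun τ ζ => -(1 / 2) * eul Φ (Real.exp (-τ / 2) • ζ) * b ζ)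
    (x₀ := τ) (s := univ) (bound := fun ζ => (1 / 2) * C' * ‖b ζ‖)
    univ_mem (Eventually.of_forall hm) ?_ ?_ ?_ (hb.norm.const_mul _) ?_).2
  · refine key.congr_deriv ?_
    rw [← integral_const_mul]
    congr 1; funext ζ; ring
  · exact hb.bdd_mul (c := C) (h1.continuous.comp (hsc τ)).aestronglyMeasurable
      (Eventually.of_forall fun ζ => hC _)
  · exact ((continuous_const.mul ((smooth_eul h1).continuous.comp (hsc τ))).aestronglyMeasurable).mul hb.1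
  · refine Eventually.of_forall fun ζ τ' _ => ?_
    rw [norm_mul, norm_mul]
    have : ‖(-(1 / 2) : ℂ)‖ = 1 / 2 := by simp
    rw [this]
    have := hC' (Real.exp (-τ' / 2) • ζ)
    gcongr
  · refine Eventually.of_forall fun ζ τ' _ => ?_
    exact (hasDerivAt_dil h1 ζ τ').mul_const (b ζ)

/-- `T_τ b = e^{βτ} ∫ Φ(e^{-τ/2}ζ) e^{-iσ|ζ|²} b(ζ)` -/
noncomputable def tst (Φ : R12 → ℂ) (σ : ℝ) (β : ℂ) (b : R12 → ℂ) (τ : ℝ) : ℂ :=
  exp (β * τ) * pair Φ (fun ζ => chirp σ ζ * b ζ) τ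

theorem int_chirp (σ : ℝ) {b : R12 → ℂ} (hb : Integrable b) : Integrable (fun ζ => chirp σ ζ * b ζ) :=
  hb.bdd_mul (c := 1) (continuous_chirp σ).aestronglyMeasurable
    (Eventually.of_forall fun ζ => (norm_chirp σ ζ).le)

theorem hasDerivAt_expβ (β : ℂ) (τ : ℝ) : HasDerivAt (fun t : ℝ => exp (β * t)) (β * exp (β * τ)) τ := by
  have h := ((((hasDerivAt_id (τ : ℝ)).ofReal_comp).const_mul β)).cexp
  refine h.congr_deriv ?_
  simp
  ring

theorem continuous_tst {Φ b : R12 → ℂ} (σ : ℝ) (β : ℂ) (h1 : ContDiff ℝ ∞ Φ) (h2 : HasCompactSupport Φ)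
    (hb : Integrable b) : Continuous (tst Φ σ β b) := by
  refine Continuous.mul ?_ ?_
  · fun_prop
  · exact continuous_iff_continuousAt.2 fun τ => (hasDerivAt_pair h1 h2 (int_chirp σ hb) τ).continuousAt

/-- the tested identity `(d/dτ) S0(τ) a = S0(τ)(lam a - w)` -/
theorem hasDerivAt_tst {a w : R12 → ℂ} (σ : ℝ) (β lam : ℂ) (ha : Integrable a)
    (ha1 : Integrable fun ζ => ‖ζ‖ * ‖a ζ‖)
    (ha2 : Integrable fun ζ => ‖ζ‖ ^ 2 * ‖a ζ‖) (hw : Integrable w)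
    (hPDE : ∀ y, (1 / 2) * eul (ft a) y =
      ft (fun ζ => -(σ : ℂ) * I * ((‖ζ‖ ^ 2 : ℝ) : ℂ) * a ζ + ((β - lam) * a ζ + w ζ)) y)
    {Φ : R12 → ℂ} (h1 : ContDiff ℝ ∞ Φ) (h2 : HasCompactSupport Φ) (τ : ℝ) :
    HasDerivAt (tst Φ σ β a) (tst Φ σ β (fun ζ => lam * a ζ - w ζ) τ) τ := by
  have hd := (hasDerivAt_expβ β τ).mul (hasDerivAt_pair h1 h2 (int_chirp σ ha) τ)
  refine hd.congr_deriv ?_
  -- the dilated test function
  set c : ℝ := Real.exp (-τ / 2) with hc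
  have hc0 : c ≠ 0 := (Real.exp_pos _).ne'
  have g1 : ContDiff ℝ ∞ (fun ζ => Φ (c • ζ)) := h1.comp (contDiff_const_smul c)
  have g2 : HasCompactSupport (fun ζ => Φ (c • ζ)) := h2.comp_homeomorph (Homeomorph.smulOfNeZero c hc0)
  have hk := weakG σ β lam ha ha1 ha2 hw hPDE g1 g2
  have e1 : ∀ ζ, eul (fun ζ => Φ (c • ζ)) ζ = eul Φ (c • ζ) := fun ζ =>
    eul_scale Φ c ζ (h1.differentiable (by simp) _)
  simp only [e1] at hk
  unfold tst pair
  rw [← hc]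
  obtain ⟨C, hC⟩ := h1.continuous.bounded_above_of_compact_support h2
  have hb : ∀ g : R12 → ℂ, Integrable g → Integrable fun ζ => Φ (c • ζ) * g ζ := by
    intro g hg
    exact hg.bdd_mul (c := C) g1.continuous.aestronglyMeasurable (Eventually.of_forall fun ζ => hC _)
  have e2 : ∫ ζ : R12, Φ (c • ζ) * (chirp σ ζ * (lam * a ζ - w ζ)) =
      β * (∫ ζ : R12, Φ (c • ζ) * (chirp σ ζ * a ζ)) -
      ∫ ζ : R12, Φ (c • ζ) * (chirp σ ζ * ((β - lam) * a ζ + w ζ)) := by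
    have hi2 : Integrable (fun ζ : R12 => (β - lam) * a ζ + w ζ) := (ha.const_mul _).add hw
    rw [← integral_const_mul, ← integral_sub ((hb _ (int_chirp σ ha)).const_mul β)
      (hb _ (int_chirp σ hi2))]
    refine integral_congr_ae (Eventually.of_forall fun ζ => ?_)
    simp only
    ring
  rw [e2, ← hk]
  ring

theorem tst_integral {a w : R12 → ℂ} (σ : ℝ) (β lam : ℂ) (ha : Integrable a)
    (ha1 : Integrable fun ζ => ‖ζ‖ * ‖a ζ‖)
    (ha2 : Integrable fun ζ => ‖ζ‖ ^ 2 * ‖a ζ‖) (hw : Integrable w)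
    (hPDE : ∀ y, (1 / 2) * eul (ft a) y =
      ft (fun ζ => -(σ : ℂ) * I * ((‖ζ‖ ^ 2 : ℝ) : ℂ) * a ζ + ((β - lam) * a ζ + w ζ)) y)
    {Φ : R12 → ℂ} (h1 : ContDiff ℝ ∞ Φ) (h2 : HasCompactSupport Φ) (s : ℝ) :
    tst Φ σ β a s - tst Φ σ β a 0 = ∫ τ in (0 : ℝ)..s, tst Φ σ β (fun ζ => lam * a ζ - w ζ) τ := by
  symm
  refine intervalIntegral.integral_eq_sub_of_hasDerivAt (fun τ _ =>
    hasDerivAt_tst σ β lam ha ha1 ha2 hw hPDE h1 h2 τ) ?_
  exact (continuous_tst σ β h1 h2 ((ha.const_mul _).sub hw)).intervalIntegrable _ _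

/-- relation with the free flow on densities -/
theorem test_free (σ : ℝ) (β : ℂ) (t : ℝ) (ψ a : R12 → ℂ) :
    ∫ z : R12, ψ z * (exp (β * t) * exp (6 * (t : ℂ)) *
      exp (-(σ : ℂ) * I * (((Real.exp t - 1) * ‖z‖ ^ 2 : ℝ) : ℂ)) * a (Real.exp (t / 2) • z)) =
      tst (fun z => ψ z * chirp (-σ) z) σ β a t := by
  have hE : Real.exp t = Real.exp (t / 2) ^ 2 := by
    rw [← Real.exp_nat_mul]; congr 1; push_cast; ring
  have hE'' : Real.exp (-t / 2) = (Real.exp (t / 2))⁻¹ := by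
    rw [← Real.exp_neg]; congr 1; ring
  have hR : Real.exp (t / 2) ≠ 0 := (Real.exp_pos _).ne'
  have hp : 0 < Real.exp (t / 2) := Real.exp_pos _
  have h6 : exp (6 * (t : ℂ)) = ((Real.exp (t / 2) ^ 12 : ℝ) : ℂ) := by
    rw [← Real.exp_nat_mul]
    push_cast
    congr 1; ring
  generalize Real.exp (t / 2) = c at *
  have h1 : ∀ z : R12, ψ z * (exp (β * t) * exp (6 * (t : ℂ)) *
      exp (-(σ : ℂ) * I * (((Real.exp t - 1) * ‖z‖ ^ 2 : ℝ) : ℂ)) * a (c • z)) =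
      (exp (β * t) * exp (6 * (t : ℂ))) *
        (fun η : R12 => (ψ (c⁻¹ • η) * chirp (-σ) (c⁻¹ • η)) * (chirp σ η * a η)) (c • z) := by
    intro z
    simp only
    rw [smul_smul, inv_mul_cancel₀ hR, one_smul]
    have h3 : exp (-(σ : ℂ) * I * (((Real.exp t - 1) * ‖z‖ ^ 2 : ℝ) : ℂ)) =
        chirp (-σ) z * chirp σ (c • z) := by
      unfold chirp
      rw [← Complex.exp_add, norm_smul, hE, Real.norm_of_nonneg hp.le]
      congr 1
      push_cast; ring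
    rw [h3]; ring
  rw [integral_congr_ae (Eventually.of_forall h1), integral_const_mul,
    Measure.integral_comp_smul volume (fun η : R12 => (ψ (c⁻¹ • η) * chirp (-σ) (c⁻¹ • η)) * (chirp σ η * a η)) c]
  have hfr : Module.finrank ℝ R12 = 12 := by simp
  rw [hfr, abs_of_pos (by positivity)]
  rw [h6, Complex.real_smul]
  unfold tst pair
  rw [hE'']
  have hR' : (((c ^ 12 : ℝ)) : ℂ) * (((c ^ 12)⁻¹ : ℝ) : ℂ) = 1 := by
    rw [← Complex.ofReal_mul, mul_inv_cancel₀ (pow_ne_zero _ hR), Complex.ofReal_one]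
  linear_combination (exp (β * t) * ∫ (ζ : R12), ψ (c⁻¹ • ζ) * chirp (-σ) (c⁻¹ • ζ) * (chirp σ ζ * a ζ)) * hR'

end Crest.Agent.R086.DM
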