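import Crest.Agent.R086.DGen
import Crest.Agent.R086.DMpde

/-!
Row 86 (helper839), node MODE: testing densities against `C_c^∞` functions.
-/

set_option autoImplicit false
set_option linter.style.longLine false

open MeasureTheory Complex Filter Topology Set
open scoped ContDiff FourierTransform

namespace Crest.Agent.R086.DM

theorem norm_expI (r : ℝ) : ‖exp (I * (r : ℂ))‖ = 1 := by
  rw [mul_comm]; exact Complex.norm_exp_ofReal_mul_I r

/-- scaling invariance of the Euler field -/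
theorem eul_scale (F : R12 → ℂ) (c : ℝ) (ζ : R12) (hF : DifferentiableAt ℝ F (c • ζ)) :
    eul (fun ζ => F (c • ζ)) ζ = eul F (c • ζ) := by
  unfold eul
  have h1 : HasFDerivAt (fun ζ : R12 => c • ζ) (c • ContinuousLinearMap.id ℝ R12) ζ :=
    (hasFDerivAt_id ζ).const_smul c
  have h2 := hF.hasFDerivAt.comp ζ h1
  have h3 : fderiv ℝ (fun ζ => F (c • ζ)) ζ = (fderiv ℝ F (c • ζ)).comp (c • ContinuousLinearMap.id ℝ R12) :=
    h2.fderiv
  rw [h3]
  simp

/-- `∫ (ft κ)(cζ) a(ζ) dζ = ∫ κ(v) (ft a)(cv) dv` -/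
theorem dual0 {κ a : R12 → ℂ} (hκ : Integrable κ) (ha : Integrable a) (c : ℝ) :
    ∫ ζ : R12, ft κ (c • ζ) * a ζ = ∫ v : R12, κ v * ft a (c • v) := by
  have h1 : Integrable (fun p : R12 × R12 => exp (I * ((inner ℝ p.1 (c • p.2) : ℝ) : ℂ)) * (κ p.1 * a p.2))
      ((volume : Measure R12).prod volume) := by
    refine (hκ.mul_prod ha).bdd_mul (c := 1) ?_ (Eventually.of_forall fun p => ?_)
    · exact Continuous.aestronglyMeasurable (by fun_prop)
    · rw [norm_expI]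
  calc ∫ ζ : R12, ft κ (c • ζ) * a ζ
      = ∫ ζ : R12, ∫ v : R12, exp (I * ((inner ℝ v (c • ζ) : ℝ) : ℂ)) * (κ v * a ζ) := by
        refine integral_congr_ae (Eventually.of_forall fun ζ => ?_)
        simp only [ft]
        rw [← integral_mul_const]
        refine integral_congr_ae (Eventually.of_forall fun v => ?_)
        simp only; ring
    _ = ∫ v : R12, ∫ ζ : R12, exp (I * ((inner ℝ v (c • ζ) : ℝ) : ℂ)) * (κ v * a ζ) :=
        (integral_integral_swap h1).symm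
    _ = ∫ v : R12, κ v * ft a (c • v) := by
        refine integral_congr_ae (Eventually.of_forall fun v => ?_)
        simp only [ft]
        rw [← integral_const_mul]
        refine integral_congr_ae (Eventually.of_forall fun ζ => ?_)
        simp only
        rw [real_inner_smul_right, real_inner_smul_right, real_inner_comm]
        ring

theorem int_wt0 {a : R12 → ℂ} (ha : Integrable a) (ha1 : Integrable fun ζ => ‖ζ‖ * ‖a ζ‖) :
    Integrable (fun ξ : R12 => wt 1 ξ * ‖a ξ‖) := by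
  refine (ha.norm.add ha1).congr (Eventually.of_forall fun ξ => ?_)
  simp only [wt, Pi.add_apply]; ring

/-- derivative version of `dual0` -/
theorem dual1 {κ a : R12 → ℂ} (hκ : Integrable κ) (hκ1 : Integrable fun ζ => ‖ζ‖ * ‖κ ζ‖)
    (ha : Integrable a) (ha1 : Integrable fun ζ => ‖ζ‖ * ‖a ζ‖) (c : ℝ) :
    ∫ ζ : R12, eul (ft κ) (c • ζ) * a ζ = ∫ v : R12, κ v * eul (ft a) (c • v) := by
  have h1 : Integrable (fun p : R12 × R12 => exp (I * ((inner ℝ p.1 (c • p.2) : ℝ) : ℂ)) *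
      (I * ((inner ℝ p.1 (c • p.2) : ℝ) : ℂ)) * (κ p.1 * a p.2))
      ((volume : Measure R12).prod volume) := by
    refine Integrable.mono' ((hκ1.mul_prod ha1).const_mul |c|) ?_ (Eventually.of_forall fun p => ?_)
    · exact (Continuous.aestronglyMeasurable (by fun_prop)).mul (hκ.mul_prod ha).1
    · rw [norm_mul, norm_mul, norm_expI, one_mul, norm_mul, Complex.norm_I, one_mul, norm_mul,
        Complex.norm_real, real_inner_smul_right, norm_mul, Real.norm_eq_abs]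
      have h := norm_inner_le_norm (𝕜 := ℝ) p.1 p.2
      calc |c| * ‖(inner ℝ p.1 p.2 : ℝ)‖ * (‖κ p.1‖ * ‖a p.2‖)
          ≤ |c| * (‖p.1‖ * ‖p.2‖) * (‖κ p.1‖ * ‖a p.2‖) := by gcongr
        _ = |c| * (‖p.1‖ * ‖κ p.1‖ * (‖p.2‖ * ‖a p.2‖)) := by ring
  calc ∫ ζ : R12, eul (ft κ) (c • ζ) * a ζ
      = ∫ ζ : R12, ∫ v : R12, exp (I * ((inner ℝ v (c • ζ) : ℝ) : ℂ)) *
      (I * ((inner ℝ v (c • ζ) : ℝ) : ℂ)) * (κ v * a ζ) := by
        refine integral_congr_ae (Eventually.of_forall fun ζ => ?_)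
        simp only
        rw [DGen.eul_ft le_rfl (int_wt0 hκ hκ1) hκ.1, ← integral_mul_const]
        refine integral_congr_ae (Eventually.of_forall fun v => ?_)
        simp only; ring
    _ = ∫ v : R12, ∫ ζ : R12, exp (I * ((inner ℝ v (c • ζ) : ℝ) : ℂ)) *
      (I * ((inner ℝ v (c • ζ) : ℝ) : ℂ)) * (κ v * a ζ) :=
        (integral_integral_swap h1).symm
    _ = ∫ v : R12, κ v * eul (ft a) (c • v) := by
        refine integral_congr_ae (Eventually.of_forall fun v => ?_)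
        simp only
        rw [DGen.eul_ft le_rfl (int_wt0 ha ha1) ha.1, ← integral_const_mul]
        refine integral_congr_ae (Eventually.of_forall fun ζ => ?_)
        simp only
        rw [real_inner_smul_right, real_inner_smul_right, real_inner_comm]
        ring

/-- every `C_c^∞` function is `ft κ (c •)` -/
theorem test_rep {Φ : R12 → ℂ} (h1 : ContDiff ℝ ∞ Φ) (h2 : HasCompactSupport Φ) :
    ∃ (κ : R12 → ℂ) (c : ℝ), Integrable κ ∧ Integrable (fun ζ => ‖ζ‖ * ‖κ ζ‖) ∧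
      ∀ ζ, Φ ζ = ft κ (c • ζ) := by
  let F : SchwartzMap R12 ℂ := h2.toSchwartzMap h1
  have hF : ∀ ζ, F ζ = Φ ζ := fun ζ => rfl
  let K : SchwartzMap R12 ℂ := 𝓕⁻ F
  refine ⟨K, -2 * Real.pi, K.integrable, ?_, fun ζ => ?_⟩
  · have := K.integrable_pow_mul volume 1
    simpa using this
  · have e : 𝓕 K = F := by
      exact FourierTransform.fourier_fourierInv_eq F
    have e2 : (𝓕 K) ζ = 𝓕 (K : R12 → ℂ) ζ := by
      rw [SchwartzMap.fourier_coe]
    rw [← hF ζ, ← e, e2, Real.fourier_eq']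
    unfold ft
    refine integral_congr_ae (Eventually.of_forall fun v => ?_)
    simp only [smul_eq_mul]
    rw [real_inner_smul_right]
    congr 2
    push_cast
    ring

/-- the weak form of `(1/2) y·∇ (ft a) = ft h` -/
theorem weakK {a h : R12 → ℂ} (ha : Integrable a) (ha1 : Integrable fun ζ => ‖ζ‖ * ‖a ζ‖)
    (hh : Integrable h) (hPDE : ∀ y, (1 / 2) * eul (ft a) y = ft h y)
    {Φ : R12 → ℂ} (h1 : ContDiff ℝ ∞ Φ) (h2 : HasCompactSupport Φ) :
    (1 / 2) * ∫ ζ : R12, eul Φ ζ * a ζ = ∫ ζ : R12, Φ ζ * h ζ := by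
  obtain ⟨κ, c, hκ, hκ1, hΦ⟩ := test_rep h1 h2
  have hd : ∀ y, DifferentiableAt ℝ (ft κ) y := by
    intro y
    rw [DGen.ft_eq]
    exact (VectorFourier.hasFDerivAt_fourierIntegral DGen.LL hκ hκ1 y).differentiableAt
  have e1 : Φ = fun ζ => ft κ (c • ζ) := funext hΦ
  have e2 : ∀ ζ, eul Φ ζ = eul (ft κ) (c • ζ) := by
    intro ζ
    rw [e1]
    exact eul_scale (ft κ) c ζ (hd _)
  simp only [e2]
  rw [dual1 hκ hκ1 ha ha1, ← integral_const_mul]
  have e3 : ∫ ζ : R12, Φ ζ * h ζ = ∫ ζ : R12, ft κ (c • ζ) * h ζ := by rw [e1]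
  rw [e3, dual0 hκ hh]
  refine integral_congr_ae (Eventually.of_forall fun v => ?_)
  simp only
  rw [← hPDE]
  ring

/-! ### gauge transformation -/

/-- the chirp `e^{-iσ|ζ|²}` -/
noncomputable def chirp (σ : ℝ) (ζ : R12) : ℂ := exp (-(σ : ℂ) * I * ((‖ζ‖ ^ 2 : ℝ) : ℂ))

theorem norm_chirp (σ : ℝ) (ζ : R12) : ‖chirp σ ζ‖ = 1 := by
  unfold chirp
  have : -(σ : ℂ) * I * ((‖ζ‖ ^ 2 : ℝ) : ℂ) = ((-σ * ‖ζ‖ ^ 2 : ℝ) : ℂ) * I := by push_cast; ring
  rw [this, Complex.norm_exp_ofReal_mul_I]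

theorem smooth_chirp (σ : ℝ) : ContDiff ℝ ∞ (chirp σ) := by
  unfold chirp
  refine ContDiff.cexp (contDiff_const.mul ?_)
  exact Complex.ofRealCLM.contDiff.comp (contDiff_norm_sq ℝ)

theorem continuous_chirp (σ : ℝ) : Continuous (chirp σ) := (smooth_chirp σ).continuous

theorem eul_chirp (σ : ℝ) (ζ : R12) :
    eul (chirp σ) ζ = chirp σ ζ * (-(σ : ℂ) * I * ((2 * ‖ζ‖ ^ 2 : ℝ) : ℂ)) := by
  have h1 : HasFDerivAt (fun x : R12 => ‖x‖ ^ 2) (2 • (innerSL ℝ ζ)) ζ :=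
    (hasStrictFDerivAt_norm_sq ζ).hasFDerivAt
  have h2 : HasFDerivAt (fun x : R12 => ((‖x‖ ^ 2 : ℝ) : ℂ))
      (Complex.ofRealCLM.comp (2 • (innerSL ℝ ζ : R12 →L[ℝ] ℝ))) ζ :=
    (Complex.ofRealCLM.hasFDerivAt).comp ζ h1
  have h3 := (h2.const_mul (-(σ : ℂ) * I)).cexp
  have h4 : fderiv ℝ (chirp σ) ζ = _ := h3.fderiv
  unfold eul
  rw [h4]
  unfold chirp
  simp

theorem eul_mul {F G : R12 → ℂ} {ζ : R12} (hF : DifferentiableAt ℝ F ζ) (hG : DifferentiableAt ℝ G ζ) :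
    eul (fun ζ => F ζ * G ζ) ζ = eul F ζ * G ζ + F ζ * eul G ζ := by
  unfold eul
  rw [fderiv_fun_mul hF hG]
  simp only [add_apply, smul_apply, smul_eq_mul]
  ring

/-- weak form after the gauge transformation: the generator becomes a pure dilation -/
theorem weakG {a w : R12 → ℂ} (σ : ℝ) (β lam : ℂ) (ha : Integrable a) (ha1 : Integrable fun ζ => ‖ζ‖ * ‖a ζ‖)
    (ha2 : Integrable fun ζ => ‖ζ‖ ^ 2 * ‖a ζ‖) (hw : Integrable w)
    (hPDE : ∀ y, (1 / 2) * eul (ft a) y =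
      ft (fun ζ => -(σ : ℂ) * I * ((‖ζ‖ ^ 2 : ℝ) : ℂ) * a ζ + ((β - lam) * a ζ + w ζ)) y)
    {Φ : R12 → ℂ} (h1 : ContDiff ℝ ∞ Φ) (h2 : HasCompactSupport Φ) :
    (1 / 2) * ∫ ζ : R12, eul Φ ζ * (chirp σ ζ * a ζ) =
      ∫ ζ : R12, Φ ζ * (chirp σ ζ * ((β - lam) * a ζ + w ζ)) := by
  have hi : Integrable (fun ζ : R12 => -(σ : ℂ) * I * ((‖ζ‖ ^ 2 : ℝ) : ℂ) * a ζ) := by
    refine Integrable.mono' (ha2.const_mul |σ|) ?_ (Eventually.of_forall fun ζ => ?_)
    · exact (Continuous.aestronglyMeasurable (by fun_prop)).mul ha.1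
    · rw [norm_mul, norm_mul, norm_mul, norm_neg, Complex.norm_I, mul_one, Complex.norm_real,
        Complex.norm_real, Real.norm_eq_abs, Real.norm_of_nonneg (by positivity)]
      exact le_of_eq (by ring)
  have hi2 : Integrable (fun ζ : R12 => (β - lam) * a ζ + w ζ) := (ha.const_mul _).add hw
  have hs : ContDiff ℝ ∞ (fun ζ => Φ ζ * chirp σ ζ) := h1.mul (smooth_chirp σ)
  have hk := weakK ha ha1 (hi.add hi2) hPDE hs h2.mul_right
  obtain ⟨C, hC⟩ := h1.continuous.bounded_above_of_compact_support h2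
  have hΦc : Continuous fun ζ => Φ ζ * chirp σ ζ := hs.continuous
  have hb : ∀ g : R12 → ℂ, Integrable g → Integrable fun ζ => Φ ζ * chirp σ ζ * g ζ := by
    intro g hg
    refine hg.bdd_mul (c := C) hΦc.aestronglyMeasurable (Eventually.of_forall fun ζ => ?_)
    rw [norm_mul, norm_chirp, mul_one]
    exact hC ζ
  have hed : ∀ ζ, eul (fun ζ => Φ ζ * chirp σ ζ) ζ * a ζ =
      eul Φ ζ * (chirp σ ζ * a ζ) + 2 * (Φ ζ * chirp σ ζ * (-(σ : ℂ) * I * ((‖ζ‖ ^ 2 : ℝ) : ℂ) * a ζ)) := by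
    intro ζ
    rw [eul_mul (h1.differentiable (by simp) ζ) ((smooth_chirp σ).differentiable (by simp) ζ), eul_chirp]
    push_cast
    ring
  have hE : HasCompactSupport (eul Φ) := by
    unfold eul
    refine HasCompactSupport.mono (h2.fderiv (𝕜 := ℝ)) ?_
    intro ζ hζ
    simp only [Function.mem_support] at hζ ⊢
    intro h0
    exact hζ (by rw [h0]; simp)
  have hEc : Continuous (eul Φ) := (smooth_eul h1).continuous
  obtain ⟨C', hC'⟩ := hEc.bounded_above_of_compact_support hE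
  have hi3 : Integrable fun ζ => eul Φ ζ * (chirp σ ζ * a ζ) := by
    have : Integrable fun ζ => chirp σ ζ * a ζ :=
      ha.bdd_mul (c := 1) (continuous_chirp σ).aestronglyMeasurable
        (Eventually.of_forall fun ζ => (norm_chirp σ ζ).le)
    exact this.bdd_mul (c := C') hEc.aestronglyMeasurable (Eventually.of_forall hC')
  simp only [hed] at hk
  rw [integral_add hi3 ((hb _ hi).const_mul 2), integral_const_mul] at hk
  have e4 : ∫ ζ : R12, Φ ζ * chirp σ ζ * (-(σ : ℂ) * I * ((‖ζ‖ ^ 2 : ℝ) : ℂ) * a ζ + ((β - lam) * a ζ + w ζ)) =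
      (∫ ζ : R12, Φ ζ * chirp σ ζ * (-(σ : ℂ) * I * ((‖ζ‖ ^ 2 : ℝ) : ℂ) * a ζ)) +
      ∫ ζ : R12, Φ ζ * (chirp σ ζ * ((β - lam) * a ζ + w ζ)) := by
    have e5 : ∀ ζ, Φ ζ * (chirp σ ζ * ((β - lam) * a ζ + w ζ)) =
        Φ ζ * chirp σ ζ * ((β - lam) * a ζ + w ζ) := fun ζ => by ring
    simp only [e5]
    rw [← integral_add (hb _ hi) (hb _ hi2)]
    refine integral_congr_ae (Eventually.of_forall fun ζ => ?_)
    simp only; ring
  have e6 : (∫ ζ : R12, Φ ζ * chirp σ ζ * ((fun ζ => -(σ : ℂ) * I * ((‖ζ‖ ^ 2 : ℝ) : ℂ) * a ζ) +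
      fun ζ => (β - lam) * a ζ + w ζ) ζ) = ∫ ζ : R12, Φ ζ * chirp σ ζ * (-(σ : ℂ) * I * ((‖ζ‖ ^ 2 : ℝ) : ℂ) * a ζ + ((β - lam) * a ζ + w ζ)) := rfl
  rw [e6, e4] at hk
  linear_combination hk

end Crest.Agent.R086.DM
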