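import Crest.Agent.R086.DMflow
import Crest.Agent.R086.DLLin
import Crest.Agent.R086.DLForced

/-!
Row 86 (helper839), node MODE: the 14 modes are eigenvectors of the flow.
-/

set_option autoImplicit false
set_option linter.style.longLine false

open MeasureTheory Complex Filter Topology Set
open scoped ContDiff FourierTransform

namespace Crest.Agent.R086.DM

/-! ### testing elements of `XN` -/

theorem int_test {N : ℕ} {ψ : R12 → ℂ} (h1 : Continuous ψ) {C : ℝ} (hC : ∀ z, ‖ψ z‖ ≤ C) (x : XN N) :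
    Integrable fun z => ψ z * (x : R12 → ℂ) z :=
  (DGen.integrable_XN x).bdd_mul (c := C) h1.aestronglyMeasurable (Eventually.of_forall hC)

theorem norm_int_le {N : ℕ} (x : XN N) : ∫ z : R12, ‖(x : R12 → ℂ) z‖ ≤ ‖x‖ := by
  rw [DGen.norm_XN]
  refine integral_mono (DGen.integrable_XN x).norm (DGen.wint x).1 fun z => ?_
  have : 1 ≤ wt N z := one_le_pow₀ (by linarith [norm_nonneg z])
  simp only
  nlinarith [norm_nonneg ((x : R12 → ℂ) z)]

/-- pairing with a bounded continuous function as a continuous linear functional -/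
noncomputable def lf (N : ℕ) (ψ : R12 → ℂ) (h1 : Continuous ψ) (C : ℝ) (hC : ∀ z, ‖ψ z‖ ≤ C) :
    XN N →L[ℂ] ℂ :=
  LinearMap.mkContinuous
    { toFun := fun x => ∫ z : R12, ψ z * (x : R12 → ℂ) z
      map_add' := fun x y => by
        rw [← integral_add (int_test h1 hC x) (int_test h1 hC y)]
        refine integral_congr_ae ?_
        filter_upwards [DGen.ac_muN.ae_le (Lp.coeFn_add x y)] with z hz
        rw [hz, Pi.add_apply]; ring
      map_smul' := fun c x => by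
        simp only [RingHom.id_apply, smul_eq_mul]
        rw [← integral_const_mul]
        refine integral_congr_ae ?_
        filter_upwards [DGen.ac_muN.ae_le (Lp.coeFn_smul c x)] with z hz
        rw [hz, Pi.smul_apply, smul_eq_mul]; ring } C
    (fun x => by
      simp only [LinearMap.coe_mk, AddHom.coe_mk]
      refine (norm_integral_le_integral_norm _).trans ?_
      have hC0 : 0 ≤ C := (norm_nonneg _).trans (hC 0)
      calc ∫ z : R12, ‖ψ z * (x : R12 → ℂ) z‖ ≤ ∫ z : R12, C * ‖(x : R12 → ℂ) z‖ := by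
            refine integral_mono (int_test h1 hC x).norm ((DGen.integrable_XN x).norm.const_mul C) fun z => ?_
            simp only [norm_mul]
            exact mul_le_mul_of_nonneg_right (hC z) (norm_nonneg _)
        _ = C * ∫ z : R12, ‖(x : R12 → ℂ) z‖ := integral_const_mul _ _
        _ ≤ C * ‖x‖ := mul_le_mul_of_nonneg_left (norm_int_le x) hC0)

theorem lf_apply {N : ℕ} (ψ : R12 → ℂ) (h1 : Continuous ψ) (C : ℝ) (hC : ∀ z, ‖ψ z‖ ≤ C) (x : XN N) :
    lf N ψ h1 C hC x = ∫ z : R12, ψ z * (x : R12 → ℂ) z := rfl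

/-- `C_c^∞` functions separate the points of `XN N` -/
theorem ext_test {N : ℕ} {p q : XN N}
    (h : ∀ ψ : R12 → ℝ, ContDiff ℝ ∞ ψ → HasCompactSupport ψ →
      ∫ z : R12, (ψ z : ℂ) * (p : R12 → ℂ) z = ∫ z : R12, (ψ z : ℂ) * (q : R12 → ℂ) z) : p = q := by
  have hp := DGen.integrable_XN p
  have hq := DGen.integrable_XN q
  have h0 := ae_eq_zero_of_integral_contDiff_smul_eq_zero (μ := (volume : Measure R12))
    (f := fun z => (p : R12 → ℂ) z - (q : R12 → ℂ) z) (hp.sub hq).locallyIntegrable ?_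
  · apply Lp.ext
    rw [Filter.EventuallyEq, DL.ae_muN_iff]
    filter_upwards [h0] with z hz
    exact sub_eq_zero.1 hz
  · intro ψ h1 h2
    obtain ⟨C, hC⟩ := h1.continuous.bounded_above_of_compact_support h2
    have hc : Continuous fun z => (ψ z : ℂ) := Complex.continuous_ofReal.comp h1.continuous
    have hC' : ∀ z, ‖(ψ z : ℂ)‖ ≤ C := fun z => by rw [Complex.norm_real]; exact hC z
    have e := h ψ h1 h2
    have e1 : ∀ z, ψ z • ((p : R12 → ℂ) z - (q : R12 → ℂ) z) =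
        (ψ z : ℂ) * (p : R12 → ℂ) z - (ψ z : ℂ) * (q : R12 → ℂ) z := fun z => by
      rw [Complex.real_smul]; ring
    simp only [e1]
    rw [integral_sub (int_test hc hC' p) (int_test hc hC' q), e, sub_self]

theorem tst_congr {Φ : R12 → ℂ} {σ : ℝ} {β : ℂ} {a b : R12 → ℂ} (h : a =ᵐ[volume] b) (τ : ℝ) :
    tst Φ σ β a τ = tst Φ σ β b τ := by
  unfold tst pair
  congr 1
  refine integral_congr_ae (h.mono fun z hz => ?_)
  simp only [hz]

section flow
variable {n : ℕ} {P : Profile n} {T : Pot P} {N : ℕ} (D : LinData P T N)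

theorem test_S0_fst (ψ : R12 → ℂ) {s : ℝ} (hs : 0 ≤ s) (x : XX N) :
    ∫ z : R12, ψ z * ((D.S0 s x).1 : R12 → ℂ) z =
      tst (fun z => ψ z * chirp (-1) z) 1 (I * P.om - 1 / n) x.1 s := by
  rw [← test_free]
  refine integral_congr_ae ((D.S0_fst s hs x).mono fun z hz => ?_)
  simp only [hz]
  push_cast
  ring_nf

theorem test_S0_snd (ψ : R12 → ℂ) {s : ℝ} (hs : 0 ≤ s) (x : XX N) :
    ∫ z : R12, ψ z * ((D.S0 s x).2 : R12 → ℂ) z =
      tst (fun z => ψ z * chirp (-(-1)) z) (-1) (-I * P.om - 1 / n) x.2 s := by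
  rw [← test_free]
  refine integral_congr_ae ((D.S0_snd s hs x).mono fun z hz => ?_)
  simp only [hz]
  push_cast
  ring_nf

/-- integrated curve of `S0`, one component, tested -/
theorem test_curve {a w : R12 → ℂ} (σ : ℝ) (β lam : ℂ) (ha : Integrable a)
    (ha1 : Integrable fun ζ => ‖ζ‖ * ‖a ζ‖)
    (ha2 : Integrable fun ζ => ‖ζ‖ ^ 2 * ‖a ζ‖) (hw : Integrable w)
    (hPDE : ∀ y, (1 / 2) * eul (ft a) y =
      ft (fun ζ => -(σ : ℂ) * I * ((‖ζ‖ ^ 2 : ℝ) : ℂ) * a ζ + ((β - lam) * a ζ + w ζ)) y)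
    {ψ : R12 → ℝ} (h1 : ContDiff ℝ ∞ ψ) (h2 : HasCompactSupport ψ) (s : ℝ) :
    tst (fun z => (ψ z : ℂ) * chirp (-σ) z) σ β a s - tst (fun z => (ψ z : ℂ) * chirp (-σ) z) σ β a 0 =
      ∫ τ in (0 : ℝ)..s, tst (fun z => (ψ z : ℂ) * chirp (-σ) z) σ β (fun ζ => lam * a ζ - w ζ) τ := by
  have g1 : ContDiff ℝ ∞ (fun z => (ψ z : ℂ)) := Complex.ofRealCLM.contDiff.comp h1
  have g2 : HasCompactSupport (fun z => (ψ z : ℂ)) := h2.comp_left (g := fun r : ℝ => (r : ℂ)) (by simp)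
  exact tst_integral σ β lam ha ha1 ha2 hw hPDE (g1.mul (smooth_chirp (-σ))) g2.mul_right s

theorem weight_facts {a f : R12 → ℂ} (h : Rep 2 a f) : Integrable a ∧ (Integrable fun ζ => ‖ζ‖ * ‖a ζ‖) ∧
    (Integrable fun ζ => ‖ζ‖ ^ 2 * ‖a ζ‖) ∧ Integrable (fun ξ : R12 => wt 2 ξ * ‖a ξ‖) := by
  have ha := DGen.integrable_rep h
  have hw : Integrable (fun ξ : R12 => wt 2 ξ * ‖a ξ‖) := by
    refine h.1.norm.congr (Eventually.of_forall fun ξ => ?_)
    simp only
    rw [norm_mul, Complex.norm_real, Real.norm_of_nonneg (by positivity)]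
    rfl
  refine ⟨ha, ?_, DGen.moments hw ha.1 2 le_rfl, hw⟩
  have := DGen.moments hw ha.1 1 (by norm_num)
  simpa using this

/-- from the pointwise equation to the form used in `weakG` -/
theorem pde_form {a w f : R12 → ℂ} (h : Rep 2 a f) (hw : Integrable w) (σ : ℝ) (β lam : ℂ)
    (he : ∀ y, (σ : ℂ) * I * lap f y - (1 / 2) * eul f y + β * f y + ft w y = lam * f y) (y : R12) :
    (1 / 2) * eul (ft a) y =
      ft (fun ζ => -(σ : ℂ) * I * ((‖ζ‖ ^ 2 : ℝ) : ℂ) * a ζ + ((β - lam) * a ζ + w ζ)) y := by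
  obtain ⟨ha, ha1, ha2, hw2⟩ := weight_facts h
  have ef : f = ft a := DL.rep_ft h
  have h1 := he y
  rw [ef, DGen.lap_ft le_rfl hw2 ha.1] at h1
  have hi : Integrable (fun ζ : R12 => (-((‖ζ‖ ^ 2 : ℝ) : ℂ)) * a ζ) := by
    refine Integrable.mono' ha2 ?_ (Eventually.of_forall fun ζ => ?_)
    · exact (Continuous.aestronglyMeasurable (by fun_prop)).mul ha.1
    · rw [norm_mul, norm_neg, Complex.norm_real, Real.norm_of_nonneg (by positivity)]
  have hi' : Integrable (fun ζ : R12 => -(σ : ℂ) * I * ((‖ζ‖ ^ 2 : ℝ) : ℂ) * a ζ) := by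
    refine (hi.const_mul ((σ : ℂ) * I)).congr (Eventually.of_forall fun ζ => ?_)
    simp only; ring
  have e1 : ft (fun ζ => -(σ : ℂ) * I * ((‖ζ‖ ^ 2 : ℝ) : ℂ) * a ζ + ((β - lam) * a ζ + w ζ)) y =
      (σ : ℂ) * I * (∫ ξ : R12, exp (I * ((inner ℝ ξ y : ℝ) : ℂ)) * ((-((‖ξ‖ ^ 2 : ℝ) : ℂ)) * a ξ)) +
        ((β - lam) * ft a y + ft w y) := by
    unfold ft
    have i1 := (DGen.integrable_ftterm ha y).const_mul (β - lam)
    have i2 := DGen.integrable_ftterm hw y
    have i3 : Integrable (fun ζ : R12 => (β - lam) * (exp (I * ((inner ℝ ζ y : ℝ) : ℂ)) * a ζ) +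
      exp (I * ((inner ℝ ζ y : ℝ) : ℂ)) * w ζ) := i1.add i2
    rw [← integral_const_mul, ← integral_const_mul, ← integral_add i1 i2,
      ← integral_add ((DGen.integrable_ftterm hi y).const_mul _) i3]
    refine integral_congr_ae (Eventually.of_forall fun ζ => ?_)
    simp only
    ring
  rw [e1]
  linear_combination (-1 : ℂ) * h1

/-- density of the first component of `VV (mode i)` -/
noncomputable def w1 (T : Pot P) (i : MI) (z : R12) : ℂ := -I * (cv T.v1 (T.m1 i) z + cv T.v2 (T.m2 i) z)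
noncomputable def w2 (T : Pot P) (i : MI) (z : R12) : ℂ := I * (cv T.v1 (T.m2 i) z + cv T.v2c (T.m1 i) z)

theorem cv_congr {v a a' : R12 → ℂ} (h : a =ᵐ[volume] a') : cv v a = cv v a' := by
  funext z
  unfold cv
  exact integral_congr_ae (h.mono fun ξ hξ => by simp only [hξ])

theorem cv_congr_left {v v' a : R12 → ℂ} (h : v =ᵐ[volume] v') : cv v a = cv v' a := by
  funext z
  unfold cv
  have h2 : ∀ᵐ ξ ∂(volume : Measure R12), v (z - ξ) = v' (z - ξ) :=
    (quasiMeasurePreserving_sub_left (volume : Measure R12) z).ae h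
  exact integral_congr_ae (h2.mono fun ξ hξ => by simp only [hξ])

theorem int_w1 (T : Pot P) (i : MI) : Integrable (w1 T i) := by
  have h1 := DGen.integrable_rep (T.rep_v1 2)
  have h2 := DGen.integrable_rep (T.rep_v2 2)
  have h3 := DGen.integrable_rep (T.rep_m1 i 2)
  have h4 := DGen.integrable_rep (T.rep_m2 i 2)
  exact ((DGen.integrable_cv h1 h3).add (DGen.integrable_cv h2 h4)).const_mul _

theorem int_w2 (T : Pot P) (i : MI) : Integrable (w2 T i) := by
  have h1 := DGen.integrable_rep (T.rep_v1 2)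
  have h2 := DGen.integrable_rep (T.rep_v2c 2)
  have h3 := DGen.integrable_rep (T.rep_m1 i 2)
  have h4 := DGen.integrable_rep (T.rep_m2 i 2)
  exact ((DGen.integrable_cv h1 h4).add (DGen.integrable_cv h2 h3)).const_mul _

theorem ft_w1 (T : Pot P) (i : MI) (y : R12) :
    ft (w1 T i) y = -I * (P.V1 y * P.mode1 i y + P.V2 y * P.mode2 i y) := by
  have h1 := DGen.integrable_rep (T.rep_v1 2)
  have h2 := DGen.integrable_rep (T.rep_v2 2)
  have h3 := DGen.integrable_rep (T.rep_m1 i 2)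
  have h4 := DGen.integrable_rep (T.rep_m2 i 2)
  have e := DGen.ft_comb (DGen.integrable_cv h1 h3) (DGen.integrable_cv h2 h4) (-I) y
  rw [DGen.ft_cv h1 h3, DGen.ft_cv h2 h4, DGen.ft_rep (T.rep_v1 2), DGen.ft_rep (T.rep_v2 2),
    DGen.ft_rep (T.rep_m1 i 2), DGen.ft_rep (T.rep_m2 i 2)] at e
  exact e

theorem ft_w2 (T : Pot P) (i : MI) (y : R12) :
    ft (w2 T i) y = I * (P.V1 y * P.mode2 i y + P.V2c y * P.mode1 i y) := by
  have h1 := DGen.integrable_rep (T.rep_v1 2)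
  have h2 := DGen.integrable_rep (T.rep_v2c 2)
  have h3 := DGen.integrable_rep (T.rep_m1 i 2)
  have h4 := DGen.integrable_rep (T.rep_m2 i 2)
  have e := DGen.ft_comb (DGen.integrable_cv h1 h4) (DGen.integrable_cv h2 h3) I y
  rw [DGen.ft_cv h1 h4, DGen.ft_cv h2 h3, DGen.ft_rep (T.rep_v1 2), DGen.ft_rep (T.rep_v2c 2),
    DGen.ft_rep (T.rep_m1 i 2), DGen.ft_rep (T.rep_m2 i 2)] at e
  exact e

theorem mlam_eq (i : MI) : mlam i = ml i := by rcases i with _ | _ | j <;> rfl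

theorem pde1 (T : Pot P) (i : MI) (y : R12) :
    (1 / 2) * eul (ft (T.m1 i)) y =
      ft (fun ζ => -((1 : ℝ) : ℂ) * I * ((‖ζ‖ ^ 2 : ℝ) : ℂ) * T.m1 i ζ +
        (((I * P.om - 1 / n) - (mlam i : ℂ)) * T.m1 i ζ + w1 T i ζ)) y := by
  refine pde_form (T.rep_m1 i 2) (int_w1 T i) 1 _ _ (fun y => ?_) y
  have h := gen1_mode P i y
  unfold Profile.gen1 at h
  rw [ft_w1, mlam_eq, ← h]
  push_cast
  ring

theorem pde2 (T : Pot P) (i : MI) (y : R12) :
    (1 / 2) * eul (ft (T.m2 i)) y =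
      ft (fun ζ => -((-1 : ℝ) : ℂ) * I * ((‖ζ‖ ^ 2 : ℝ) : ℂ) * T.m2 i ζ +
        (((-I * P.om - 1 / n) - (mlam i : ℂ)) * T.m2 i ζ + w2 T i ζ)) y := by
  refine pde_form (T.rep_m2 i 2) (int_w2 T i) (-1) _ _ (fun y => ?_) y
  have h := gen2_mode P i y
  unfold Profile.gen2 at h
  rw [ft_w2, mlam_eq, ← h]
  push_cast
  ring

/-- the vector `lam M - VV M` -/
noncomputable def YY (i : MI) : XX N := ((mlam i : ℝ) : ℂ) • D.mode i - D.VV (D.mode i)

theorem YY_fst (i : MI) : ((YY D i).1 : R12 → ℂ) =ᵐ[volume] fun z => (mlam i : ℂ) * T.m1 i z - w1 T i z := by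
  have h1 : ((YY D i).1 : R12 → ℂ) =ᵐ[volume]
      fun z => ((((mlam i : ℝ) : ℂ) • (D.mode i).1 : XN N) : R12 → ℂ) z - ((D.VV (D.mode i)).1 : R12 → ℂ) z :=
    DGen.ac_muN.ae_le (Lp.coeFn_sub _ _)
  filter_upwards [h1, DGen.ac_muN.ae_le (Lp.coeFn_smul ((mlam i : ℝ) : ℂ) (D.mode i).1), D.VV_fst (D.mode i),
    D.mode_fst i] with z h1 h2 h3 h4
  rw [h1, h2, h3, Pi.smul_apply, smul_eq_mul, h4, cv_congr (D.mode_fst i), cv_congr (D.mode_snd i)]
  rfl

theorem YY_snd (i : MI) : ((YY D i).2 : R12 → ℂ) =ᵐ[volume] fun z => (mlam i : ℂ) * T.m2 i z - w2 T i z := by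
  have h1 : ((YY D i).2 : R12 → ℂ) =ᵐ[volume]
      fun z => ((((mlam i : ℝ) : ℂ) • (D.mode i).2 : XN N) : R12 → ℂ) z - ((D.VV (D.mode i)).2 : R12 → ℂ) z :=
    DGen.ac_muN.ae_le (Lp.coeFn_sub _ _)
  filter_upwards [h1, DGen.ac_muN.ae_le (Lp.coeFn_smul ((mlam i : ℝ) : ℂ) (D.mode i).2), D.VV_snd (D.mode i),
    D.mode_snd i] with z h1 h2 h3 h4
  rw [h1, h2, h3, Pi.smul_apply, smul_eq_mul, h4, cv_congr (D.mode_fst i), cv_congr (D.mode_snd i)]
  rfl

theorem S0_intervalIntegrable (x : XX N) {s : ℝ} (hs : 0 ≤ s) :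
    IntervalIntegrable (fun τ => D.S0 τ x) volume 0 s := by
  refine ContinuousOn.intervalIntegrable ?_
  rw [uIcc_of_le hs]
  exact (D.S0_cont x).mono Icc_subset_Ici_self

/-- `S0(s) M - M = ∫_0^s S0(τ)(lam M - VV M) dτ` -/
theorem free_curve (i : MI) {s : ℝ} (hs : 0 ≤ s) :
    D.S0 s (D.mode i) - D.mode i = ∫ τ in (0 : ℝ)..s, D.S0 τ (YY D i) := by
  have hint := S0_intervalIntegrable D (YY D i) hs
  obtain ⟨ha, ha1, ha2, -⟩ := weight_facts (T.rep_m1 i 2)
  obtain ⟨hb, hb1, hb2, -⟩ := weight_facts (T.rep_m2 i 2)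
  refine Prod.ext ?_ ?_
  · refine ext_test fun ψ h1 h2 => ?_
    obtain ⟨C, hC⟩ := h1.continuous.bounded_above_of_compact_support h2
    have hc : Continuous fun z => (ψ z : ℂ) := Complex.continuous_ofReal.comp h1.continuous
    have hC' : ∀ z, ‖(ψ z : ℂ)‖ ≤ C := fun z => by rw [Complex.norm_real]; exact hC z
    let L : XX N →L[ℂ] ℂ := (lf N (fun z => (ψ z : ℂ)) hc C hC').comp (ContinuousLinearMap.fst ℂ (XN N) (XN N))
    have hL : ∀ x : XX N, L x = ∫ z : R12, (ψ z : ℂ) * (x.1 : R12 → ℂ) z := fun x => rfl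
    have e1 : L (D.S0 s (D.mode i) - D.mode i) = L (∫ τ in (0 : ℝ)..s, D.S0 τ (YY D i)) := by
      rw [← L.intervalIntegral_comp_comm hint]
      have e2 : D.mode i = D.S0 0 (D.mode i) := by rw [D.S0_zero]; rfl
      rw [map_sub]
      conv_lhs => rw [e2]
      have e3 : L (D.S0 s (D.S0 0 (D.mode i))) = L (D.S0 s (D.mode i)) := by rw [← e2]
      rw [e3, hL, hL, test_S0_fst D _ hs, test_S0_fst D _ le_rfl, tst_congr (D.mode_fst i), tst_congr (D.mode_fst i),
        test_curve 1 _ (mlam i : ℂ) ha ha1 ha2 (int_w1 T i) (pde1 T i) h1 h2 s]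
      refine intervalIntegral.integral_congr fun τ hτ => ?_
      rw [uIcc_of_le hs] at hτ
      show _ = L (D.S0 τ (YY D i))
      rw [hL, test_S0_fst D _ hτ.1, tst_congr (YY_fst D i)]
    exact e1
  · refine ext_test fun ψ h1 h2 => ?_
    obtain ⟨C, hC⟩ := h1.continuous.bounded_above_of_compact_support h2
    have hc : Continuous fun z => (ψ z : ℂ) := Complex.continuous_ofReal.comp h1.continuous
    have hC' : ∀ z, ‖(ψ z : ℂ)‖ ≤ C := fun z => by rw [Complex.norm_real]; exact hC z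
    let L : XX N →L[ℂ] ℂ := (lf N (fun z => (ψ z : ℂ)) hc C hC').comp (ContinuousLinearMap.snd ℂ (XN N) (XN N))
    have hL : ∀ x : XX N, L x = ∫ z : R12, (ψ z : ℂ) * (x.2 : R12 → ℂ) z := fun x => rfl
    have e1 : L (D.S0 s (D.mode i) - D.mode i) = L (∫ τ in (0 : ℝ)..s, D.S0 τ (YY D i)) := by
      rw [← L.intervalIntegral_comp_comm hint]
      have e2 : D.mode i = D.S0 0 (D.mode i) := by rw [D.S0_zero]; rfl
      rw [map_sub]
      conv_lhs => rw [e2]
      have e3 : L (D.S0 s (D.S0 0 (D.mode i))) = L (D.S0 s (D.mode i)) := by rw [← e2]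
      rw [e3, hL, hL, test_S0_snd D _ hs, test_S0_snd D _ le_rfl, tst_congr (D.mode_snd i), tst_congr (D.mode_snd i),
        test_curve (-1) _ (mlam i : ℂ) hb hb1 hb2 (int_w2 T i) (pde2 T i) h1 h2 s]
      refine intervalIntegral.integral_congr fun τ hτ => ?_
      rw [uIcc_of_le hs] at hτ
      show _ = L (D.S0 τ (YY D i))
      rw [hL, test_S0_snd D _ hτ.1, tst_congr (YY_snd D i)]
    exact e1

end flow

end Crest.Agent.R086.DM
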