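import Crest.Agent.R086.Defs

/-!
Row 86 (S0114), PART D-TORUS, node TI (helper333): interface between the one-step lemma (TS) and the
iteration (TI).  Everything is at the level of smooth periodic functions on `R12`; the step is normalised:
initial time `0`, centre `0`, phase `0`, blow-up time `τ`.
-/

set_option autoImplicit false

open MeasureTheory Complex Set
open scoped ContDiff
open Crest.AnalysisR.PDE.NLS (IsSmoothPeriodic sobolevDistSq IsClassicalSolution)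

namespace Crest.Agent.R086.TI

/-- Solution of `i u_t + Δu = |u|^n u` on the closed time interval `[0,h]`, smooth periodic in `x`. -/
structure Sol (n : ℕ) (h : ℝ) (u : ℝ → R12 → ℂ) : Prop where
  per : ∀ t ∈ Icc 0 h, IsSmoothPeriodic (u t)
  cont : ∀ j : ℕ, j ≤ 2 →
    ContinuousOn (fun q : ℝ × R12 => iteratedFDeriv ℝ j (u q.1) q.2) (Icc 0 h ×ˢ univ)
  eqn : ∀ t ∈ Icc 0 h, ∀ x : R12,
    HasDerivWithinAt (fun s => u s x)
      (I * lap (u t) x - I * (((‖u t x‖ ^ n : ℝ) : ℂ) * u t x)) (Icc 0 h) t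

/-- Output of the one-step lemma TS (everything TI needs), for one profile.
`nrm τ w` = the scale-`τ` norm of a smooth periodic function `w`
(for TS: `τ^(1/n) * ∑ k, ((1+√τ|k|)^20 + μ (√τ|k|)^s) * |ŵ k|`);
`pr τ x` = `∑ m, χ (x - 2πm) τ^(-1/n + i om) Q ((x-2πm)/√τ)` (`PerProfile` with centre 0, phase 0). -/
structure Step (n : ℕ) (P : Profile n) where
  nrm : ℝ → (R12 → ℂ) → ℝ
  pr : ℝ → R12 → ℂ
  k : ℕ
  hk : 8 < k
  /-- triangle inequality -/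
  tri : ∀ τ : ℝ, 0 < τ → ∀ u v w : R12 → ℂ, IsSmoothPeriodic u → IsSmoothPeriodic v →
    IsSmoothPeriodic w →
    nrm τ (fun x => u x - w x) ≤ nrm τ (fun x => u x - v x) + nrm τ (fun x => v x - w x)
  /-- Sobolev distance controls the norm (at each fixed scale) -/
  sob : ∀ τ : ℝ, 0 < τ → ∃ C : ℝ, ∀ v w : R12 → ℂ, IsSmoothPeriodic v → IsSmoothPeriodic w →
    nrm τ (fun x => v x - w x) ≤ C * Real.sqrt (sobolevDistSq k v w)
  /-- the norm controls the (scaled) sup norm -/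
  sup : ∀ τ : ℝ, 0 < τ → ∀ w : R12 → ℂ, IsSmoothPeriodic w → ∀ x : R12,
    τ ^ (1 / (n : ℝ)) * ‖w x‖ ≤ nrm τ w
  pr_smooth : ∀ τ : ℝ, 0 < τ → IsSmoothPeriodic (pr τ)
  /-- value at the centre -/
  pr_lim : ∀ η : ℝ, 0 < η → ∃ ρ : ℝ, 0 < ρ ∧ ∀ τ : ℝ, 0 < τ → τ < ρ → ∀ x : R12,
    ‖x‖ ≤ ρ * Real.sqrt τ → |τ ^ (1 / (n : ℝ)) * ‖pr τ x‖ - ‖P.Q 0‖| ≤ η
  S : ℝ
  hS : 0 < S
  dst : ℝ
  hdst : 0 < dst
  tst : ℝ
  htst : 0 < tst
  C : ℝ
  hC : 0 ≤ C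
  c : ℝ
  hc : 0 < c
  /-- ONE STEP, `d` = size of the initial error. -/
  step : ∀ (τ d : ℝ), 0 < τ → τ ≤ tst → 0 ≤ d → d ≤ dst → ∀ v : R12 → ℂ, IsSmoothPeriodic v →
    nrm τ (fun x => v x - pr τ x) ≤ d →
    ∃ u : ℝ → R12 → ℂ, Sol n (τ * (1 - Real.exp (-S))) u ∧ u 0 = v ∧
      (∀ t ∈ Icc 0 (τ * (1 - Real.exp (-S))),
        nrm (τ - t) (fun x => u t x - pr (τ - t) x) ≤ C * (d + τ ^ c)) ∧
      ∃ (bT bθ : ℝ) (bx : R12), |bT| ≤ C * (d + τ ^ c) ∧ ‖bx‖ ≤ C * (d + τ ^ c) ∧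
        (|bT| ≤ 1 / 2 →
          nrm (τ * Real.exp (-S) * (1 + bT))
            (fun x => exp (-(bθ : ℂ) * I) * u (τ * (1 - Real.exp (-S))) (x + Real.sqrt τ • bx)
              - pr (τ * Real.exp (-S) * (1 + bT)) x) ≤ d / 2 + C * τ ^ c)

end Crest.Agent.R086.TI
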