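import Crest.Agent.R086.TorB
import Crest.Agent.R086.TIDefs

/-!
Row 86 (S0114), Part D, torus side: coefficient curves on a closed interval give `TI.Sol`.  (helper232)
-/

set_option autoImplicit false

open MeasureTheory Complex Set Filter Topology
open scoped ContDiff

namespace Crest.Agent.R086.DSol

open Crest.Agent.R086.Tor (kv wt ek synth)

abbrev K12 : Type := Fin 12 → ℤ

/-- Coefficient curve `c` with nonlinearity coefficients `g` on the closed interval `[0,h]`. -/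
structure CSol (h : ℝ) (c g : ℝ → K12 → ℂ) : Prop where
  dec : ∀ M : ℕ, ∃ C : ℝ, ∀ t ∈ Icc 0 h, ∀ k, wt k ^ M * ‖c t k‖ ≤ C
  gdec : ∀ M : ℕ, ∃ C : ℝ, ∀ t ∈ Icc 0 h, ∀ k, wt k ^ M * ‖g t k‖ ≤ C
  gcont : ∀ k, ContinuousOn (fun t => g t k) (Icc 0 h)
  der : ∀ t ∈ Icc 0 h, ∀ k, HasDerivWithinAt (fun s => c s k)
    (-I * ((‖kv k‖ ^ 2 : ℝ) : ℂ) * c t k - I * g t k) (Icc 0 h) t

lemma summable_of_dec {c : K12 → ℂ} {M : ℕ} {C : ℝ} (h : ∀ k, wt k ^ (M + 24) * ‖c k‖ ≤ C) :
    Summable fun k => wt k ^ M * ‖c k‖ := by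
  refine Summable.of_nonneg_of_le (fun k => by have := Tor.wt_pos k; positivity) (fun k => ?_)
    ((Tor.summable_wt_inv (d := 12) (M := 24) (by norm_num)).mul_left C)
  have hw : 0 < wt k ^ 24 := pow_pos (Tor.wt_pos k) _
  rw [← div_eq_mul_inv, le_div_iff₀ hw]
  have := h k
  rw [pow_add] at this
  nlinarith

lemma tsum_le_of_dec {c : K12 → ℂ} {M : ℕ} {C : ℝ} (h : ∀ k, wt k ^ (M + 24) * ‖c k‖ ≤ C) :
    ∑' k, wt k ^ M * ‖c k‖ ≤ C * ∑' k : K12, (wt k ^ 24)⁻¹ := by
  rw [← tsum_mul_left]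
  refine (summable_of_dec h).tsum_le_tsum (fun k => ?_)
    ((Tor.summable_wt_inv (d := 12) (M := 24) (by norm_num)).mul_left C)
  have hw : 0 < wt k ^ 24 := pow_pos (Tor.wt_pos k) _
  rw [← div_eq_mul_inv, le_div_iff₀ hw]
  have := h k
  rw [pow_add] at this
  nlinarith

lemma lap_synth {c : K12 → ℂ} (hc : Summable fun k => wt k ^ 2 * ‖c k‖) (x : R12) :
    lap (synth c) x = synth (fun k => - ((‖kv k‖ ^ 2 : ℝ) : ℂ) * c k) x := by
  unfold lap
  have h1 : ∀ i : Fin 12, iteratedFDeriv ℝ 2 (synth c) x ![ei i, ei i]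
      = synth (fun k => - (((inner ℝ (kv k) (ei i) * inner ℝ (kv k) (ei i) : ℝ)) : ℂ) * c k) x :=
    fun i => Tor.iteratedFDeriv_two_synth hc x (ei i) (ei i)
  simp_rw [h1]
  unfold synth
  have h2 : ∀ (k : K12) (i : Fin 12), (inner ℝ (kv k) (ei i) : ℝ) = (k i : ℝ) := by
    intro k i
    rw [EuclideanSpace.inner_single_right]; simp
  simp_rw [h2]
  have hs : ∀ i ∈ (Finset.univ : Finset (Fin 12)),
      Summable (fun k : K12 => (-(((k i : ℝ) * (k i : ℝ) : ℝ) : ℂ) * c k) * ek k x) := by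
    intro i _
    refine Summable.of_norm_bounded hc (fun k => ?_)
    rw [norm_mul, norm_mul, Tor.norm_ek, mul_one, norm_neg, Complex.norm_real, Real.norm_eq_abs,
      abs_mul]
    have h4 := Tor.abs_le_wt k i
    have h5 := Tor.kv_le_wt k
    have h6 : |(k i : ℝ)| * |(k i : ℝ)| ≤ wt k ^ 2 := by
      rw [sq]; exact mul_le_mul (h4.trans h5) (h4.trans h5) (abs_nonneg _) (Tor.wt_pos k).le
    gcongr
  rw [← Summable.tsum_finsetSum hs]
  refine tsum_congr (fun k => ?_)
  have h6 : ‖kv k‖ ^ 2 = ∑ i, (k i : ℝ) * (k i : ℝ) := by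
    rw [EuclideanSpace.norm_sq_eq]
    simp [sq]
  rw [← Finset.sum_mul, ← Finset.sum_mul, h6]
  push_cast
  rw [Finset.sum_neg_distrib]

lemma continuousOn_iteratedFDeriv_synth {s : Set ℝ} {c : ℝ → K12 → ℂ} (j : ℕ)
    (hc : ∀ k, ContinuousOn (fun t => c t k) s) {C : ℝ}
    (hb : ∀ t ∈ s, ∀ k, wt k ^ (j + 24) * ‖c t k‖ ≤ C) :
    ContinuousOn (fun q : ℝ × R12 => iteratedFDeriv ℝ j (synth (c q.1)) q.2) (s ×ˢ univ) := by
  have h1 : ∀ q ∈ s ×ˢ (univ : Set R12), iteratedFDeriv ℝ j (synth (c q.1)) q.2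
      = ∑' k, c q.1 k • iteratedFDeriv ℝ j (ek (d := 12) k) q.2 := by
    intro q hq
    have hs := summable_of_dec (hb q.1 hq.1)
    unfold synth
    rw [iteratedFDeriv_tsum_apply (𝕜 := ℝ) (f := fun k x => c q.1 k * ek k x) (N := (j : ℕ∞))
      (v := fun m k => wt k ^ m * ‖c q.1 k‖) (fun k => Tor.contDiff_term (c q.1) _ k)
      (fun m hm => Tor.weight_mono (by exact_mod_cast hm) hs)
      (fun m k x _ => Tor.norm_iteratedFDeriv_term (c q.1) m k x) le_rfl q.2]
    refine tsum_congr (fun k => ?_)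
    have h2 : (fun x => c q.1 k * ek k x) = c q.1 k • ek (d := 12) k := by funext y; rfl
    rw [h2, iteratedFDeriv_const_smul_apply ((contDiff_infty.1 (Tor.contDiff_ek k) j).contDiffAt)]
  refine ContinuousOn.congr ?_ h1
  refine continuousOn_tsum (u := fun k => C * (wt k ^ 24)⁻¹) (fun k => ?_)
    ((Tor.summable_wt_inv (d := 12) (M := 24) (by norm_num)).mul_left C) (fun k q hq => ?_)
  · have hm : MapsTo (fun q : ℝ × R12 => q.1) (s ×ˢ (univ : Set R12)) s := fun q hq => hq.1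
    refine ((hc k).comp continuous_fst.continuousOn hm).smul ?_
    have h3 : Continuous (iteratedFDeriv ℝ j (ek (d := 12) k)) :=
      ((contDiff_infty.1 (Tor.contDiff_ek k) j)).continuous_iteratedFDeriv le_rfl
    exact (h3.comp continuous_snd).continuousOn
  · rw [norm_smul]
    have h4 := Tor.norm_iteratedFDeriv_ek k j q.2
    have h5 := hb q.1 hq.1 k
    have hw : 0 < wt k ^ 24 := pow_pos (Tor.wt_pos k) _
    rw [← div_eq_mul_inv, le_div_iff₀ hw]
    have h6 : ‖kv k‖ ^ j ≤ wt k ^ j := by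
      gcongr
      exact Tor.kv_le_wt k
    calc ‖c q.1 k‖ * ‖iteratedFDeriv ℝ j (ek k) q.2‖ * wt k ^ 24
        ≤ ‖c q.1 k‖ * wt k ^ j * wt k ^ 24 := by
          gcongr
          exact h4.trans h6
      _ = wt k ^ (j + 24) * ‖c q.1 k‖ := by rw [pow_add]; ring
      _ ≤ C := h5

/-- termwise differentiation in time on a closed interval -/
lemma hasDerivWithinAt_synth {h : ℝ} (hh : 0 ≤ h) {c d : ℝ → K12 → ℂ} {C C' : ℝ}
    (hd : ∀ k, ContinuousOn (fun t => d t k) (Icc 0 h))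
    (hder : ∀ t ∈ Icc 0 h, ∀ k, HasDerivWithinAt (fun s => c s k) (d t k) (Icc 0 h) t)
    (hb : ∀ t ∈ Icc 0 h, ∀ k, wt k ^ 24 * ‖c t k‖ ≤ C)
    (hbd : ∀ t ∈ Icc 0 h, ∀ k, wt k ^ 24 * ‖d t k‖ ≤ C') (t : ℝ) (ht : t ∈ Icc 0 h) (x : R12) :
    HasDerivWithinAt (fun s => synth (c s) x) (synth (d t) x) (Icc 0 h) t := by
  -- extension
  let D : K12 → ℝ → ℂ := fun k => IccExtend hh (fun s : Icc (0 : ℝ) h => d s k)
  have hDc : ∀ k, Continuous (D k) := fun k =>
    (continuousOn_iff_continuous_domRestrict.1 (hd k)).Icc_extend'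
  have hDeq : ∀ k, ∀ s ∈ Icc 0 h, D k s = d s k := by
    intro k s hs
    simp only [D]
    rw [IccExtend_of_mem hh _ hs]
  have hDb : ∀ k s, ‖D k s‖ ≤ C' * (wt k ^ 24)⁻¹ := by
    intro k s
    have hw : 0 < wt k ^ 24 := pow_pos (Tor.wt_pos k) _
    rw [← div_eq_mul_inv, le_div_iff₀ hw, mul_comm]
    simp only [D, IccExtend, Function.comp]
    exact hbd _ (projIcc 0 h hh s).2 k
  let G : K12 → ℝ → ℂ := fun k s => c 0 k + ∫ r in (0 : ℝ)..s, D k r
  have hG : ∀ k s, HasDerivAt (G k) (D k s) s := by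
    intro k s
    exact (intervalIntegral.integral_hasDerivAt_right ((hDc k).intervalIntegrable _ _)
      ((hDc k).stronglyMeasurableAtFilter _ _) (hDc k).continuousAt).const_add _
  have hcG : ∀ k, ∀ s ∈ Icc 0 h, c s k = G k s := by
    intro k s hs
    have hcc : ContinuousOn (fun s => c s k) (Icc 0 s) := fun r hr =>
      ((hder r ⟨hr.1, hr.2.trans hs.2⟩ k).continuousWithinAt).mono
        (Icc_subset_Icc le_rfl hs.2)
    have h1 : ∫ r in (0 : ℝ)..s, D k r = c s k - c 0 k := by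
      refine intervalIntegral.integral_eq_sub_of_hasDerivAt_of_le hs.1 hcc ?_
        ((hDc k).intervalIntegrable _ _)
      intro r hr
      have hr' : r ∈ Icc 0 h := ⟨hr.1.le, hr.2.le.trans hs.2⟩
      have h2 := (hder r hr' k).hasDerivAt (Icc_mem_nhds hr.1 (hr.2.trans_le hs.2))
      rwa [hDeq k r hr']
    simp only [G]; rw [h1]; ring
  have hsum0 : Summable (fun k => c t k * ek k x) := by
    refine Tor.summable_term ?_ x
    have := summable_of_dec (M := 0) (c := c t) (C := C) (fun k => by simpa using hb t ht k)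
    simpa using this
  have hmain : HasDerivAt (fun s => ∑' k, G k s * ek k x) (∑' k, D k t * ek k x) t := by
    refine hasDerivAt_tsum (u := fun k => C' * (wt k ^ 24)⁻¹)
      ((Tor.summable_wt_inv (d := 12) (M := 24) (by norm_num)).mul_left C')
      (g := fun k s => G k s * ek k x) (g' := fun k s => D k s * ek k x)
      (fun k s => (hG k s).mul_const _) (fun k s => ?_) (y₀ := t) ?_ t
    · rw [norm_mul, Tor.norm_ek, mul_one]; exact hDb k s
    · refine hsum0.congr (fun k => ?_)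
      rw [hcG k t ht]
  have hval : (∑' k, D k t * ek k x) = synth (d t) x := by
    unfold synth
    exact tsum_congr (fun k => by rw [hDeq k t ht])
  rw [hval] at hmain
  refine hmain.hasDerivWithinAt.congr (fun s hs => ?_) ?_
  · unfold synth
    exact tsum_congr (fun k => by rw [hcG k s hs])
  · unfold synth
    exact tsum_congr (fun k => by rw [hcG k t ht])

theorem sol_of_coeff {n : ℕ} {h : ℝ} (hh : 0 ≤ h) {c g : ℝ → K12 → ℂ} (hC : CSol h c g)
    (hg : ∀ t ∈ Icc 0 h, ∀ x, synth (g t) x = ((‖synth (c t) x‖ ^ n : ℝ) : ℂ) * synth (c t) x) :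
    TI.Sol n h (fun t => synth (c t)) := by
  have hcc : ∀ k, ContinuousOn (fun t => c t k) (Icc 0 h) := fun k t ht =>
    (hC.der t ht k).continuousWithinAt
  refine ⟨?_, ?_, ?_⟩
  · intro t ht
    refine ⟨?_, ?_⟩
    · apply Tor.contDiff_synth_infty
      intro N
      obtain ⟨C, hC1⟩ := hC.dec (N + 24)
      exact summable_of_dec (hC1 t ht)
    · intro x i
      exact Tor.synth_per (c t) x i
  · intro j _
    obtain ⟨C, hC1⟩ := hC.dec (j + 24)
    exact continuousOn_iteratedFDeriv_synth j hcc hC1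
  · intro t ht x
    obtain ⟨C, hC1⟩ := hC.dec 26
    obtain ⟨C0, hC0⟩ := hC.dec 24
    obtain ⟨C2, hC2⟩ := hC.gdec 24
    have hd : ∀ k, ContinuousOn (fun t => -I * ((‖kv k‖ ^ 2 : ℝ) : ℂ) * c t k - I * g t k)
        (Icc 0 h) := fun k =>
      (continuousOn_const.mul (hcc k)).sub (continuousOn_const.mul (hC.gcont k))
    have hbd : ∀ t ∈ Icc 0 h, ∀ k,
        wt k ^ 24 * ‖-I * ((‖kv k‖ ^ 2 : ℝ) : ℂ) * c t k - I * g t k‖ ≤ C + C2 := by
      intro t ht k
      have hw : 0 < wt k ^ 24 := pow_pos (Tor.wt_pos k) _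
      have h1 : ‖-I * ((‖kv k‖ ^ 2 : ℝ) : ℂ) * c t k‖ ≤ wt k ^ 2 * ‖c t k‖ := by
        rw [norm_mul, norm_mul, norm_neg, Complex.norm_I, one_mul, Complex.norm_real,
          Real.norm_eq_abs, abs_of_nonneg (by positivity)]
        have := Tor.kv_le_wt k
        gcongr
      have h2 : ‖I * g t k‖ = ‖g t k‖ := by rw [norm_mul, Complex.norm_I, one_mul]
      calc wt k ^ 24 * ‖-I * ((‖kv k‖ ^ 2 : ℝ) : ℂ) * c t k - I * g t k‖
          ≤ wt k ^ 24 * (wt k ^ 2 * ‖c t k‖ + ‖g t k‖) := by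
            gcongr
            refine (norm_sub_le _ _).trans ?_
            rw [h2]
            gcongr
        _ = wt k ^ 26 * ‖c t k‖ + wt k ^ 24 * ‖g t k‖ := by ring
        _ ≤ C + C2 := add_le_add (hC1 t ht k) (hC2 t ht k)
    have hmain := hasDerivWithinAt_synth hh (c := c)
      (d := fun t k => -I * ((‖kv k‖ ^ 2 : ℝ) : ℂ) * c t k - I * g t k) hd hC.der hC0 hbd t ht x
    have hs2 : Summable fun k => wt k ^ 2 * ‖c t k‖ := summable_of_dec (M := 2) (C := C) (hC1 t ht)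
    have hsg : Summable fun k => ‖g t k‖ := by
      have := summable_of_dec (M := 0) (c := g t) (C := C2) (fun k => by simpa using hC2 t ht k)
      simpa using this
    have hval : synth (fun k => -I * ((‖kv k‖ ^ 2 : ℝ) : ℂ) * c t k - I * g t k) x
        = I * lap (synth (c t)) x - I * (((‖synth (c t) x‖ ^ n : ℝ) : ℂ) * synth (c t) x) := by
      rw [lap_synth hs2, ← hg t ht x]
      unfold synth
      rw [← tsum_mul_left, ← tsum_mul_left, ← Summable.tsum_sub]
      · refine tsum_congr (fun k => by ring)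
      · have : Summable (fun k => (-((‖kv k‖ ^ 2 : ℝ) : ℂ) * c t k) * ek k x) := by
          refine Summable.of_norm_bounded hs2 (fun k => ?_)
          rw [norm_mul, norm_mul, Tor.norm_ek, mul_one, norm_neg, Complex.norm_real,
            Real.norm_eq_abs, abs_of_nonneg (by positivity)]
          have := Tor.kv_le_wt k
          gcongr
        exact this.mul_left I
      · exact (Tor.summable_term hsg x).mul_left I
    rw [← hval]
    exact hmain

end Crest.Agent.R086.DSol
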