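import Mathlib

/-!
Row 86 (S0114), Part C, node DTN (helper480): exterior DtN asymptotics for large |lambda|+l.
File 1: abstract lemmas on `F'' = K F` on a half line.
-/

set_option autoImplicit false

open Complex Set Filter Topology

namespace Crest.Agent.R086.Dtn

/-- derivative of the squared norm along a real curve in `ℂ` -/
theorem hasDerivAt_normSq {v : ℝ → ℂ} {v' : ℂ} {t : ℝ} (h : HasDerivAt v v' t) :
    HasDerivAt (fun s => ‖v s‖ ^ 2) (2 * (starRingEnd ℂ (v t) * v').re) t := by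
  have := h.norm_sq
  have e : 2 * (starRingEnd ℂ (v t) * v').re = 2 * inner ℝ (v t) v' := by
    simp [Complex.inner]
    ring
  rw [e]
  exact this

/-- backward decay for `v' = 2 κ v + g`. -/
theorem lin_decay {v g κ : ℝ → ℂ} {a b m Γ : ℝ} (hab : a ≤ b) (hm : 0 < m)
    (hv : ContinuousOn v (Icc a b))
    (hd : ∀ t ∈ Ioo a b, HasDerivAt v (2 * κ t * v t + g t) t)
    (hκ : ∀ t ∈ Ioo a b, m ≤ (κ t).re)
    (hg : ∀ t ∈ Ioo a b, ‖g t‖ ≤ Γ) :
    ‖v a‖ ^ 2 ≤ Γ ^ 2 / (4 * m ^ 2) + Real.exp (-(2 * m * (b - a))) * ‖v b‖ ^ 2 := by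
  set c : ℝ := Γ ^ 2 / (4 * m ^ 2) with hc
  have hmono : MonotoneOn (fun t => Real.exp (-(2 * m * t)) * (‖v t‖ ^ 2 - c)) (Icc a b) := by
    apply monotoneOn_of_deriv_nonneg (convex_Icc a b)
    · apply ContinuousOn.mul
      · fun_prop
      · exact (hv.norm.pow 2).sub continuousOn_const
    · intro t ht
      rw [interior_Icc] at ht
      have h1 := hasDerivAt_normSq (hd t ht)
      have h2 : HasDerivAt (fun s : ℝ => Real.exp (-(2 * m * s))) (Real.exp (-(2 * m * t)) * (-(2 * m * 1))) t :=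
        (((hasDerivAt_id t).const_mul (2 * m)).neg).exp
      exact (h2.mul (h1.sub_const c)).differentiableAt.differentiableWithinAt
    · intro t ht
      rw [interior_Icc] at ht
      have h1 := hasDerivAt_normSq (hd t ht)
      have h2 : HasDerivAt (fun s : ℝ => Real.exp (-(2 * m * s))) (Real.exp (-(2 * m * t)) * (-(2 * m * 1))) t :=
        (((hasDerivAt_id t).const_mul (2 * m)).neg).exp
      have h3 := h2.mul (h1.sub_const c)
      have h4 := h3.deriv
      change 0 ≤ deriv ((fun s : ℝ => Real.exp (-(2 * m * s))) * fun s => ‖v s‖ ^ 2 - c) t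
      rw [h4]
      have e1 : (starRingEnd ℂ (v t) * (2 * κ t * v t + g t)).re
          = 2 * (κ t).re * ‖v t‖ ^ 2 + (starRingEnd ℂ (v t) * g t).re := by
        have : ‖v t‖ ^ 2 = (v t).re ^ 2 + (v t).im ^ 2 := by
          rw [← Complex.normSq_eq_norm_sq, Complex.normSq_apply]; ring
        rw [this]
        simp [Complex.mul_re, Complex.mul_im]
        ring
      have e2 : -(‖v t‖ * Γ) ≤ (starRingEnd ℂ (v t) * g t).re := by
        have := Complex.abs_re_le_norm (starRingEnd ℂ (v t) * g t)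
        rw [norm_mul, RCLike.norm_conj] at this
        have h5 : ‖v t‖ * ‖g t‖ ≤ ‖v t‖ * Γ := mul_le_mul_of_nonneg_left (hg t ht) (norm_nonneg _)
        have := (abs_le.1 this).1
        linarith
      have e3 : m * ‖v t‖ ^ 2 ≤ (κ t).re * ‖v t‖ ^ 2 :=
        mul_le_mul_of_nonneg_right (hκ t ht) (sq_nonneg _)
      have e4 : 0 ≤ Real.exp (-(2 * m * t)) := (Real.exp_pos _).le
      have e5 : Real.exp (-(2 * m * t)) * (-(2 * m * 1)) * (‖v t‖ ^ 2 - c) +
          Real.exp (-(2 * m * t)) * (2 * (starRingEnd ℂ (v t) * (2 * κ t * v t + g t)).re)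
          = Real.exp (-(2 * m * t)) * (2 * (starRingEnd ℂ (v t) * (2 * κ t * v t + g t)).re
              - 2 * m * (‖v t‖ ^ 2 - c)) := by ring
      rw [e5]
      apply mul_nonneg e4
      rw [e1]
      have e6 : 2 * m * c = Γ ^ 2 / (2 * m) := by
        rw [hc]; field_simp; ring
      have e7 : 2 * (‖v t‖ * Γ) ≤ 2 * m * ‖v t‖ ^ 2 + Γ ^ 2 / (2 * m) := by
        have : 0 ≤ (2 * m * ‖v t‖ - Γ) ^ 2 / (2 * m) := by positivity
        have h8 : (2 * m * ‖v t‖ - Γ) ^ 2 / (2 * m) = 2 * m * ‖v t‖ ^ 2 - 2 * (‖v t‖ * Γ) + Γ ^ 2 / (2 * m) := by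
          field_simp; ring
        linarith
      nlinarith
  have h := hmono (left_mem_Icc.2 hab) (right_mem_Icc.2 hab) hab
  simp only at h
  have ha : 0 < Real.exp (-(2 * m * a)) := Real.exp_pos _
  have hexp : Real.exp (-(2 * m * b)) = Real.exp (-(2 * m * a)) * Real.exp (-(2 * m * (b - a))) := by
    rw [← Real.exp_add]; congr 1; ring
  rw [hexp] at h
  have h9 : ‖v a‖ ^ 2 - c ≤ Real.exp (-(2 * m * (b - a))) * (‖v b‖ ^ 2 - c) := by
    have : Real.exp (-(2 * m * a)) * (‖v a‖ ^ 2 - c) ≤ Real.exp (-(2 * m * a)) * (Real.exp (-(2 * m * (b - a))) * (‖v b‖ ^ 2 - c)) := by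
      linarith [h]
    exact le_of_mul_le_mul_left this ha
  have hc0 : 0 ≤ c := by rw [hc]; positivity
  have := mul_nonneg (Real.exp_pos (-(2 * m * (b - a)))).le hc0
  nlinarith

/-- a nondecreasing function tending to `0` is `≤ 0`. -/
theorem le_zero_of_mono {φ φ' : ℝ → ℝ} {t0 : ℝ} (hc : ContinuousOn φ (Ici t0))
    (hd : ∀ t, t0 < t → HasDerivAt φ (φ' t) t) (hn : ∀ t, t0 < t → 0 ≤ φ' t)
    (hl : Tendsto φ atTop (𝓝 0)) : ∀ t, t0 ≤ t → φ t ≤ 0 := by
  have hmono : MonotoneOn φ (Ici t0) := by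
    apply monotoneOn_of_deriv_nonneg (convex_Ici t0) hc
    · intro t ht
      rw [interior_Ici] at ht
      exact (hd t ht).differentiableAt.differentiableWithinAt
    · intro t ht
      rw [interior_Ici] at ht
      rw [(hd t ht).deriv]
      exact hn t ht
  intro t ht
  apply ge_of_tendsto hl
  filter_upwards [eventually_ge_atTop t] with s hs
  exact hmono ht (le_trans ht hs) hs

theorem hasDerivAt_conj {v : ℝ → ℂ} {v' : ℂ} {t : ℝ} (h : HasDerivAt v v' t) :
    HasDerivAt (fun s => starRingEnd ℂ (v s)) (starRingEnd ℂ v') t := h.star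

theorem hasDerivAt_phi {F G K : ℝ → ℂ} {t : ℝ} (u : ℂ) (hF : HasDerivAt F (G t) t)
    (hG : HasDerivAt G (K t * F t) t) :
    HasDerivAt (fun s => (u * (starRingEnd ℂ (F s) * G s)).re)
      (u.re * ‖G t‖ ^ 2 + (u * K t).re * ‖F t‖ ^ 2) t := by
  have h1 := ((hasDerivAt_conj hF).mul hG).const_mul u
  have h2 := (Complex.reCLM.hasFDerivAt.comp_hasDerivAt t h1)
  have e1 : ‖G t‖ ^ 2 = (G t).re ^ 2 + (G t).im ^ 2 := by
    rw [← Complex.normSq_eq_norm_sq, Complex.normSq_apply]; ring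
  have e2 : ‖F t‖ ^ 2 = (F t).re ^ 2 + (F t).im ^ 2 := by
    rw [← Complex.normSq_eq_norm_sq, Complex.normSq_apply]; ring
  have e3 : u.re * ‖G t‖ ^ 2 + (u * K t).re * ‖F t‖ ^ 2 =
      Complex.reCLM (u * (starRingEnd ℂ (G t) * G t + starRingEnd ℂ (F t) * (K t * F t))) := by
    rw [e1, e2]
    simp [Complex.mul_re, Complex.mul_im]
    ring
  rw [e3]
  exact h2

structure Sol (F G K : ℝ → ℂ) (t0 : ℝ) : Prop where
  Fc : ContinuousOn F (Ici t0)
  Gc : ContinuousOn G (Ici t0)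
  Fd : ∀ t, t0 < t → HasDerivAt F (G t) t
  Gd : ∀ t, t0 < t → HasDerivAt G (K t * F t) t
  F0 : Tendsto F atTop (𝓝 0)
  G0 : Tendsto G atTop (𝓝 0)
  ne : ∀ t, t0 ≤ t → F t ≠ 0 ∨ G t ≠ 0

theorem Sol.mono {F G K : ℝ → ℂ} {t0 t1 : ℝ} (h : Sol F G K t0) (h01 : t0 ≤ t1) : Sol F G K t1 where
  Fc := h.Fc.mono (Ici_subset_Ici.2 h01)
  Gc := h.Gc.mono (Ici_subset_Ici.2 h01)
  Fd := fun t ht => h.Fd t (lt_of_le_of_lt h01 ht)
  Gd := fun t ht => h.Gd t (lt_of_le_of_lt h01 ht)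
  F0 := h.F0
  G0 := h.G0
  ne := fun t ht => h.ne t (le_trans h01 ht)

theorem continuousOn_phi {F G : ℝ → ℂ} {s : Set ℝ} (u : ℂ) (hF : ContinuousOn F s)
    (hG : ContinuousOn G s) :
    ContinuousOn (fun s => (u * (starRingEnd ℂ (F s) * G s)).re) s := by
  apply Complex.continuous_re.comp_continuousOn
  exact continuousOn_const.mul ((Complex.continuous_conj.comp_continuousOn hF).mul hG)

theorem tendsto_phi {F G : ℝ → ℂ} (u : ℂ) (hF : Tendsto F atTop (𝓝 0))
    (hG : Tendsto G atTop (𝓝 0)) :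
    Tendsto (fun s => (u * (starRingEnd ℂ (F s) * G s)).re) atTop (𝓝 0) := by
  have h1 : Tendsto (fun s => starRingEnd ℂ (F s)) atTop (𝓝 (starRingEnd ℂ 0)) :=
    (Complex.continuous_conj.tendsto 0).comp hF
  have h2 := (h1.mul hG).const_mul u
  have h3 := (Complex.continuous_re.tendsto _).comp h2
  have e : (u * (starRingEnd ℂ 0 * 0)).re = 0 := by simp
  rw [e] at h3
  exact h3

/-- half plane lemma -/
theorem Sol.half {F G K : ℝ → ℂ} {t0 : ℝ} (h : Sol F G K t0) {u : ℂ} (hu : 0 < u.re)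
    (hK : ∀ t, t0 < t → 0 ≤ (u * K t).re) :
    ∀ t, t0 ≤ t → (u * (starRingEnd ℂ (F t) * G t)).re < 0 := by
  have hle := le_zero_of_mono (continuousOn_phi u h.Fc h.Gc)
    (fun t ht => hasDerivAt_phi u (h.Fd t ht) (h.Gd t ht))
    (fun t ht => add_nonneg (mul_nonneg hu.le (sq_nonneg _)) (mul_nonneg (hK t ht) (sq_nonneg _)))
    (tendsto_phi u h.F0 h.G0)
  intro t ht
  rcases lt_or_eq_of_le (hle t ht) with h1 | h1
  · exact h1
  exfalso
  -- φ vanishes on [t, ∞)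
  have hmono : MonotoneOn (fun s => (u * (starRingEnd ℂ (F s) * G s)).re) (Ici t0) := by
    apply monotoneOn_of_deriv_nonneg (convex_Ici t0) (continuousOn_phi u h.Fc h.Gc)
    · intro s hs
      rw [interior_Ici] at hs
      exact (hasDerivAt_phi u (h.Fd s hs) (h.Gd s hs)).differentiableAt.differentiableWithinAt
    · intro s hs
      rw [interior_Ici] at hs
      rw [(hasDerivAt_phi u (h.Fd s hs) (h.Gd s hs)).deriv]
      exact add_nonneg (mul_nonneg hu.le (sq_nonneg _)) (mul_nonneg (hK s hs) (sq_nonneg _))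
  have hz : ∀ s, t ≤ s → (u * (starRingEnd ℂ (F s) * G s)).re = 0 := by
    intro s hs
    apply le_antisymm (hle s (le_trans ht hs))
    have := hmono ht (le_trans ht hs : t0 ≤ s) hs
    simp only at this
    linarith
  have hGz : ∀ s, t < s → G s = 0 := by
    intro s hs
    have hs0 : t0 < s := lt_of_le_of_lt ht hs
    have hd := hasDerivAt_phi u (h.Fd s hs0) (h.Gd s hs0)
    have hev : (fun s => (u * (starRingEnd ℂ (F s) * G s)).re) =ᶠ[𝓝 s] fun _ => (0 : ℝ) := by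
      filter_upwards [Ioi_mem_nhds hs] with r hr
      exact hz r (le_of_lt hr)
    have hd0 : HasDerivAt (fun s => (u * (starRingEnd ℂ (F s) * G s)).re) 0 s :=
      (hasDerivAt_const s (0 : ℝ)).congr_of_eventuallyEq hev
    have heq := hd.unique hd0
    have h2 := mul_nonneg hu.le (sq_nonneg ‖G s‖)
    have h3 := mul_nonneg (hK s hs0) (sq_nonneg ‖F s‖)
    have h4 : u.re * ‖G s‖ ^ 2 = 0 := by linarith
    rcases mul_eq_zero.1 h4 with h5 | h5
    · exact absurd h5 hu.ne'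
    · exact norm_eq_zero.1 (by simpa using h5)
  have hFle : ∀ s, t ≤ s → ‖F s‖ ^ 2 ≤ 0 := by
    apply le_zero_of_mono (φ' := fun _ => 0)
    · exact (h.Fc.mono (Ici_subset_Ici.2 ht)).norm.pow 2
    · intro s hs
      have := hasDerivAt_normSq (h.Fd s (lt_of_le_of_lt ht hs))
      rw [hGz s hs] at this
      simpa using this
    · intro s _; exact le_rfl
    · have := (h.F0.norm).pow 2
      simpa using this
  have hF1 : F (t + 1) = 0 := by
    have h5 := hFle (t + 1) (by linarith)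
    have h6 : ‖F (t + 1)‖ ^ 2 = 0 := le_antisymm h5 (sq_nonneg _)
    exact norm_eq_zero.1 (by simpa using h6)
  have hG1 : G (t + 1) = 0 := hGz (t + 1) (by linarith)
  rcases h.ne (t + 1) (by linarith) with h7 | h7
  · exact h7 hF1
  · exact h7 hG1

/-- weak form used below -/
def Weak (F G : ℝ → ℂ) (u : ℂ) (t : ℝ) : Prop :=
  (u * (starRingEnd ℂ (F t) * G t)).re < ‖F t‖ ^ 2

theorem Weak.ne {F G : ℝ → ℂ} {u : ℂ} {t : ℝ} (h : Weak F G u t) : F t ≠ 0 := by
  intro h0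
  unfold Weak at h
  rw [h0] at h
  simp at h

theorem Sol.weak {F G K : ℝ → ℂ} {t0 : ℝ} (h : Sol F G K t0) {u : ℂ} (hu : 0 < u.re)
    (hK : ∀ t, t0 < t → 0 ≤ (u * K t).re) : ∀ t, t0 ≤ t → Weak F G u t := by
  intro t ht
  unfold Weak
  exact lt_of_lt_of_le (h.half hu hK t ht) (sq_nonneg _)

/-- variant: `Re K ≥ -3` near the start, `Re K ≥ 0` afterwards. -/
theorem Sol.weak' {F G K : ℝ → ℂ} {t0 t1 : ℝ} (h : Sol F G K t0) (h01 : t0 ≤ t1)
    (hlen : t1 - t0 ≤ 1 / 4)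
    (hK3 : ∀ t, t0 < t → -3 ≤ (K t).re) (hK : ∀ t, t1 < t → 0 ≤ (K t).re) :
    ∀ t, t0 ≤ t → Weak F G 1 t := by
  intro t ht
  rcases le_or_gt t1 t with h1 | h1
  · exact (h.mono h01).weak (by simp) (fun s hs => by simpa using hK s hs) t h1
  have h2 := (h.mono h01).half (u := 1) (by simp) (fun s hs => by simpa using hK s hs) t1 le_rfl
  have hmono : MonotoneOn (fun s => (1 * (starRingEnd ℂ (F s) * G s)).re - 4 * (t1 - s) * ‖F s‖ ^ 2)
      (Icc t0 t1) := by
    have hd : ∀ s ∈ Ioo t0 t1, HasDerivAt (fun s => (1 * (starRingEnd ℂ (F s) * G s)).re - 4 * (t1 - s) * ‖F s‖ ^ 2)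
        (((1 : ℂ).re * ‖G s‖ ^ 2 + (1 * K s).re * ‖F s‖ ^ 2) -
          ((4 * (0 - 1)) * ‖F s‖ ^ 2 + 4 * (t1 - s) * (2 * (starRingEnd ℂ (F s) * G s).re))) s := by
      intro s hs
      apply (hasDerivAt_phi 1 (h.Fd s hs.1) (h.Gd s hs.1)).sub
      exact (((hasDerivAt_const s t1).sub (hasDerivAt_id s)).const_mul 4).mul
        (hasDerivAt_normSq (h.Fd s hs.1))
    apply monotoneOn_of_deriv_nonneg (convex_Icc t0 t1)
    · have hF' := h.Fc.mono (Icc_subset_Ici_self : Icc t0 t1 ⊆ Ici t0)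
      have hG' := h.Gc.mono (Icc_subset_Ici_self : Icc t0 t1 ⊆ Ici t0)
      apply (continuousOn_phi 1 hF' hG').sub
      exact (by fun_prop : ContinuousOn (fun s : ℝ => 4 * (t1 - s)) (Icc t0 t1)).mul (hF'.norm.pow 2)
    · intro s hs
      rw [interior_Icc] at hs
      exact (hd s hs).differentiableAt.differentiableWithinAt
    · intro s hs
      rw [interior_Icc] at hs
      rw [(hd s hs).deriv]
      have hk := hK3 s hs.1
      set σ : ℝ := 4 * (t1 - s) with hσ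
      have hσ0 : 0 ≤ σ := by rw [hσ]; linarith [hs.2]
      have hσ1 : σ ≤ 1 := by rw [hσ]; linarith [hs.1]
      have e0 : ‖G s - σ * F s‖ ^ 2 = ‖G s‖ ^ 2 - 2 * σ * (starRingEnd ℂ (F s) * G s).re + σ ^ 2 * ‖F s‖ ^ 2 := by
        have q : ∀ z : ℂ, ‖z‖ ^ 2 = z.re ^ 2 + z.im ^ 2 := by
          intro z; rw [← Complex.normSq_eq_norm_sq, Complex.normSq_apply]; ring
        rw [q, q, q]
        simp [Complex.mul_re]
        ring
      have e1 : 0 ≤ ‖G s - σ * F s‖ ^ 2 := sq_nonneg _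
      have e2 : 0 ≤ ((K s).re + 4 - σ ^ 2) * ‖F s‖ ^ 2 := by
        apply mul_nonneg _ (sq_nonneg _)
        nlinarith
      simp only [one_mul, Complex.one_re]
      nlinarith
  have h3 := hmono (⟨ht, h1.le⟩ : t ∈ Icc t0 t1) (right_mem_Icc.2 h01) h1.le
  simp only [sub_self, mul_zero, zero_mul, sub_zero] at h3
  unfold Weak
  have h4 : 4 * (t1 - t) * ‖F t‖ ^ 2 ≤ ‖F t‖ ^ 2 := by
    have : 4 * (t1 - t) ≤ 1 := by linarith
    nlinarith [sq_nonneg ‖F t‖]
  linarith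

end Crest.Agent.R086.Dtn
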