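import Mathlib
import Crest.Agent.R086.DtnA

/-!
Row 86 (S0114), Part C, node DTN (helper480): file 2, WKB comparison on `[0,T]`
(form of helper684: `X = F' + (κ+p)F`, `Y = F' - (κ-p)F`).
-/

set_option autoImplicit false

open Complex Set Filter Topology

namespace Crest.Agent.R086.Dtn

theorem exp_neg_le (x : ℝ) (hx : 0 < x) : Real.exp (-x) ≤ 2 / x ^ 2 := by
  have h1 : x ^ 2 / 2 ≤ Real.exp x := by
    have := Real.quadratic_le_exp_of_nonneg hx.le
    linarith
  rw [Real.exp_neg, inv_le_comm₀ (Real.exp_pos x) (by positivity)]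
  rw [inv_div]
  exact h1

theorem re_conj_mul_le (a b : ℂ) : |(starRingEnd ℂ a * b).re| ≤ ‖a‖ * ‖b‖ := by
  have := Complex.abs_re_le_norm (starRingEnd ℂ a * b)
  rwa [norm_mul, RCLike.norm_conj] at this

theorem re_conj_mul_self (a b : ℂ) : (starRingEnd ℂ a * (b * a)).re = b.re * ‖a‖ ^ 2 := by
  have : ‖a‖ ^ 2 = a.re ^ 2 + a.im ^ 2 := by
    rw [← Complex.normSq_eq_norm_sq, Complex.normSq_apply]; ring
  rw [this]
  simp [Complex.mul_re, Complex.mul_im]
  ring

/-- dichotomy: backward in time `X` is damped against `Y`. -/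
theorem xy_comp {X Y P N e : ℝ → ℂ} {T k ε b : ℝ} (hT : 0 < T) (hk : 0 < k) (hε : 0 ≤ ε)
    (hb : 0 ≤ b) (hX : ContinuousOn X (Icc 0 T)) (hY : ContinuousOn Y (Icc 0 T))
    (hXd : ∀ t ∈ Ioo 0 T, HasDerivAt X (P t * X t - e t * Y t) t)
    (hYd : ∀ t ∈ Ioo 0 T, HasDerivAt Y (N t * Y t + e t * X t) t)
    (hP : ∀ t ∈ Ioo 0 T, k ≤ (P t).re) (hN : ∀ t ∈ Ioo 0 T, (N t).re ≤ -k)
    (he : ∀ t ∈ Ioo 0 T, ‖e t‖ ≤ ε) (hsmall : ε * (2 * ε / k + b) ≤ k / 2)
    (hXT : ‖X T‖ ≤ b * ‖Y T‖) :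
    ‖X 0‖ ≤ (2 * ε / k + b * Real.exp (-(k * T / 2))) * ‖Y 0‖ := by
  set a : ℝ := 2 * ε / k with ha
  have ha0 : 0 ≤ a := by positivity
  set A : ℝ → ℝ := fun t => a + b * Real.exp (k / 2 * (t - T)) with hA
  have hAd : ∀ t, HasDerivAt A (b * (Real.exp (k / 2 * (t - T)) * (k / 2 * (1 - 0)))) t := by
    intro t
    exact ((((hasDerivAt_id t).sub (hasDerivAt_const t T)).const_mul (k / 2)).exp.const_mul b).const_add a
  have hA0 : ∀ t, 0 ≤ A t := fun t => by
    simp only [hA]; have := (Real.exp_pos (k / 2 * (t - T))).le; positivity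
  set Gf : ℝ → ℝ := fun t => ‖X t‖ ^ 2 - (A t * A t) * ‖Y t‖ ^ 2 with hGf
  have hd : ∀ t ∈ Ioo 0 T, HasDerivAt Gf (2 * (starRingEnd ℂ (X t) * (P t * X t - e t * Y t)).re -
      ((b * (Real.exp (k / 2 * (t - T)) * (k / 2 * (1 - 0))) * A t +
        A t * (b * (Real.exp (k / 2 * (t - T)) * (k / 2 * (1 - 0))))) * ‖Y t‖ ^ 2 +
        (A t * A t) * (2 * (starRingEnd ℂ (Y t) * (N t * Y t + e t * X t)).re))) t := by
    intro t ht
    exact (hasDerivAt_normSq (hXd t ht)).sub
      (((hAd t).mul (hAd t)).mul (hasDerivAt_normSq (hYd t ht)))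
  have hmono : MonotoneOn Gf (Icc 0 T) := by
    apply monotoneOn_of_deriv_nonneg (convex_Icc 0 T)
    · apply ContinuousOn.sub (hX.norm.pow 2)
      apply ContinuousOn.mul _ (hY.norm.pow 2)
      have : Continuous A := by
        rw [hA]; fun_prop
      exact (this.mul this).continuousOn
    · intro t ht
      rw [interior_Icc] at ht
      exact (hd t ht).differentiableAt.differentiableWithinAt
    · intro t ht
      rw [interior_Icc] at ht
      rw [(hd t ht).deriv]
      set E : ℝ := Real.exp (k / 2 * (t - T)) with hE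
      have hE1 : E ≤ 1 := by
        rw [hE]; apply Real.exp_le_one_iff.2; nlinarith [ht.2]
      have hE0 : 0 < E := Real.exp_pos _
      have hAt : A t = a + b * E := rfl
      have hAab : A t ≤ a + b := by rw [hAt]; nlinarith
      have hbE : b * E ≤ A t := by rw [hAt]; linarith
      set x := ‖X t‖ with hx
      set y := ‖Y t‖ with hy
      have hx0 : 0 ≤ x := norm_nonneg _
      have hy0 : 0 ≤ y := norm_nonneg _
      have q1 : (starRingEnd ℂ (X t) * (P t * X t - e t * Y t)).re =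
          (P t).re * x ^ 2 - (starRingEnd ℂ (X t) * (e t * Y t)).re := by
        rw [mul_sub, Complex.sub_re, re_conj_mul_self]
      have q2 : (starRingEnd ℂ (Y t) * (N t * Y t + e t * X t)).re =
          (N t).re * y ^ 2 + (starRingEnd ℂ (Y t) * (e t * X t)).re := by
        rw [mul_add, Complex.add_re, re_conj_mul_self]
      have q3 : (starRingEnd ℂ (X t) * (e t * Y t)).re ≤ ‖e t‖ * (x * y) := by
        refine (le_abs_self _).trans ((re_conj_mul_le _ _).trans ?_)
        rw [norm_mul]; apply le_of_eq; ring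
      have q4 : (starRingEnd ℂ (Y t) * (e t * X t)).re ≤ ‖e t‖ * (x * y) := by
        refine (le_abs_self _).trans ((re_conj_mul_le _ _).trans ?_)
        rw [norm_mul]; apply le_of_eq; ring
      have q5 : ‖e t‖ * (1 + A t * A t) ≤ k * A t := by
        have h1 := he t ht
        have h2 : ε = k / 2 * a := by rw [ha]; field_simp
        have h3 : a ≤ A t := by rw [hAt]; have := mul_nonneg hb hE0.le; linarith
        have h4 : ‖e t‖ ≤ k / 2 * A t := by
          calc ‖e t‖ ≤ ε := h1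
            _ = k / 2 * a := h2
            _ ≤ k / 2 * A t := mul_le_mul_of_nonneg_left h3 (by positivity)
        have h5 : ‖e t‖ * (A t * A t) ≤ k / 2 * A t := by
          have h6 : ‖e t‖ * A t ≤ k / 2 := by
            calc ‖e t‖ * A t ≤ ε * (a + b) := mul_le_mul h1 hAab (hA0 t) hε
              _ ≤ k / 2 := hsmall
          calc ‖e t‖ * (A t * A t) = (‖e t‖ * A t) * A t := by ring
            _ ≤ k / 2 * A t := mul_le_mul_of_nonneg_right h6 (hA0 t)
        nlinarith
      have hP' := hP t ht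
      have hN' := hN t ht
      rw [q1, q2]
      have hxy : 0 ≤ x * y := mul_nonneg hx0 hy0
      have r1 : k * x ^ 2 ≤ (P t).re * x ^ 2 := mul_le_mul_of_nonneg_right hP' (sq_nonneg _)
      have r2 : (N t).re * y ^ 2 ≤ -k * y ^ 2 := mul_le_mul_of_nonneg_right hN' (sq_nonneg _)
      have hAA : 0 ≤ A t * A t := mul_nonneg (hA0 t) (hA0 t)
      have r3 : (A t * A t) * ((N t).re * y ^ 2 + (starRingEnd ℂ (Y t) * (e t * X t)).re) ≤
          (A t * A t) * (-k * y ^ 2 + ‖e t‖ * (x * y)) :=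
        mul_le_mul_of_nonneg_left (add_le_add r2 q4) hAA
      have r4 : ‖e t‖ * (1 + A t * A t) * (x * y) ≤ k * A t * (x * y) :=
        mul_le_mul_of_nonneg_right q5 hxy
      have r5 : b * E * A t * y ^ 2 ≤ A t * A t * y ^ 2 := by
        apply mul_le_mul_of_nonneg_right _ (sq_nonneg _)
        exact mul_le_mul_of_nonneg_right hbE (hA0 t)
      have r6 : 0 ≤ k * ((x - A t * y) ^ 2 + x ^ 2) := by positivity
      have r7 : k * (b * E * A t * y ^ 2) ≤ k * (A t * A t * y ^ 2) :=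
        mul_le_mul_of_nonneg_left r5 hk.le
      nlinarith
  have h := hmono (left_mem_Icc.2 hT.le) (right_mem_Icc.2 hT.le) hT.le
  have hGT : Gf T ≤ 0 := by
    have h1 : A T = a + b := by simp [hA]
    have h2 : ‖X T‖ ≤ (a + b) * ‖Y T‖ := by
      refine hXT.trans (mul_le_mul_of_nonneg_right (by linarith) (norm_nonneg _))
    have h3 := pow_le_pow_left₀ (norm_nonneg _) h2 2
    simp only [hGf]
    rw [h1]
    nlinarith
  have h0 : Gf 0 ≤ 0 := h.trans hGT
  have h4 : A 0 = 2 * ε / k + b * Real.exp (-(k * T / 2)) := by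
    simp only [hA]; rw [ha]; congr 2; ring_nf
  rw [← h4]
  have h5 : ‖X 0‖ ^ 2 ≤ (A 0 * ‖Y 0‖) ^ 2 := by
    simp only [hGf] at h0
    nlinarith
  exact (abs_le_of_sq_le_sq' h5 (mul_nonneg (hA0 0) (norm_nonneg _))).2

end Crest.Agent.R086.Dtn
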