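import Mathlib
import Crest.Agent.R086.DtnB

/-!
Row 86 (S0114), Part C, node DTN (helper480): file 3, WKB asymptotics of the logarithmic derivative.
-/

set_option autoImplicit false

open Complex Set Filter Topology

namespace Crest.Agent.R086.Dtn

/-- WKB lemma. -/
theorem wkb {F G K κ p p1 : ℝ → ℂ} {T m B : ℝ} (hT : 0 < T) (hB : 1 ≤ B) (h : Sol F G K 0)
    (hκK : ∀ t ∈ Icc 0 T, κ t ^ 2 = K t)
    (hκd : ∀ t ∈ Icc 0 T, HasDerivAt κ (2 * κ t * p t) t)
    (hpd : ∀ t ∈ Icc 0 T, HasDerivAt p (p1 t) t)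
    (hp : ∀ t ∈ Icc 0 T, ‖p t‖ ≤ B) (hp1 : ∀ t ∈ Icc 0 T, ‖p1 t‖ ≤ B)
    (hm : ∀ t ∈ Icc 0 T, m ≤ ‖κ t‖) (hre : ∀ t ∈ Icc 0 T, ‖κ t‖ / 2 ≤ (κ t).re)
    (hend : (starRingEnd ℂ (F T) * G T).re ≤ 0)
    (hmB : 100 * B ^ 2 ≤ m) (hmT : 100 ≤ m * T) :
    F 0 ≠ 0 ∧ ‖G 0 / F 0 + κ 0 + p 0‖ ≤ (32 * B ^ 2 + 5000 / T ^ 2) * ‖κ 0‖ / m ^ 2 := by
  have hm1 : 100 ≤ m := by nlinarith
  have hm0 : 0 < m := by linarith
  have hκ0 : ∀ t ∈ Icc 0 T, κ t ≠ 0 := by
    intro t ht h0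
    have := hm t ht
    rw [h0, norm_zero] at this
    linarith
  set e : ℝ → ℂ := fun t => (p1 t - p t ^ 2) / (2 * κ t) with he
  have hebd : ∀ t ∈ Icc 0 T, ‖e t‖ ≤ B ^ 2 / m := by
    intro t ht
    simp only [he]
    rw [norm_div, norm_mul, Complex.norm_ofNat]
    have h1 : ‖p1 t - p t ^ 2‖ ≤ 2 * B ^ 2 := by
      calc ‖p1 t - p t ^ 2‖ ≤ ‖p1 t‖ + ‖p t ^ 2‖ := norm_sub_le _ _
        _ = ‖p1 t‖ + ‖p t‖ ^ 2 := by rw [norm_pow]
        _ ≤ B + B ^ 2 := add_le_add (hp1 t ht) (pow_le_pow_left₀ (norm_nonneg _) (hp t ht) 2)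
        _ ≤ 2 * B ^ 2 := by nlinarith
    have h2 := hm t ht
    calc ‖p1 t - p t ^ 2‖ / (2 * ‖κ t‖) ≤ (2 * B ^ 2) / (2 * m) := by
          apply div_le_div₀ (by positivity) h1 (by positivity) (by linarith)
      _ = B ^ 2 / m := by field_simp
  have heps : B ^ 2 / m ≤ 1 / 100 := by
    rw [div_le_div_iff₀ hm0 (by norm_num)]; linarith
  set X : ℝ → ℂ := fun t => G t + (κ t + p t) * F t with hX
  set Y : ℝ → ℂ := fun t => G t - (κ t - p t) * F t with hY
  have hIcc : Icc 0 T ⊆ Ici (0 : ℝ) := Icc_subset_Ici_self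
  have hFc := h.Fc.mono hIcc
  have hGc := h.Gc.mono hIcc
  have hκc : ContinuousOn κ (Icc 0 T) := fun t ht => (hκd t ht).continuousAt.continuousWithinAt
  have hpc : ContinuousOn p (Icc 0 T) := fun t ht => (hpd t ht).continuousAt.continuousWithinAt
  have hXY : ∀ t, X t - Y t = 2 * κ t * F t := by intro t; simp only [hX, hY]; ring
  have hmain := xy_comp (X := X) (Y := Y) (P := fun t => κ t + p t + e t) (N := fun t => -κ t + p t - e t)
    (e := e) (T := T) (k := m / 4) (ε := B ^ 2 / m) (b := 9) hT (by positivity) (by positivity) (by norm_num)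
    (hGc.add ((hκc.add hpc).mul hFc)) (hGc.sub ((hκc.sub hpc).mul hFc))
    (by
      intro t ht
      have ht' : t ∈ Icc 0 T := Ioo_subset_Icc_self ht
      have hd := (h.Gd t ht.1).add (((hκd t ht').add (hpd t ht')).mul (h.Fd t ht.1))
      have hk := hκ0 t ht'
      have e1 : (κ t + p t + e t) * X t - e t * Y t =
          K t * F t + ((2 * κ t * p t + p1 t) * F t + (κ t + p t) * G t) := by
        have h2 : e t * (X t - Y t) = (p1 t - p t ^ 2) * F t := by
          rw [hXY]; simp only [he]; field_simp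
        have h3 : (κ t + p t + e t) * X t - e t * Y t = (κ t + p t) * X t + e t * (X t - Y t) := by ring
        rw [h3, h2, ← hκK t ht']
        simp only [hX]; ring
      rw [e1]
      exact hd)
    (by
      intro t ht
      have ht' : t ∈ Icc 0 T := Ioo_subset_Icc_self ht
      have hd := (h.Gd t ht.1).sub (((hκd t ht').sub (hpd t ht')).mul (h.Fd t ht.1))
      have hk := hκ0 t ht'
      have e1 : (-κ t + p t - e t) * Y t + e t * X t =
          K t * F t - ((2 * κ t * p t - p1 t) * F t + (κ t - p t) * G t) := by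
        have h2 : e t * (X t - Y t) = (p1 t - p t ^ 2) * F t := by
          rw [hXY]; simp only [he]; field_simp
        have h3 : (-κ t + p t - e t) * Y t + e t * X t = (-κ t + p t) * Y t + e t * (X t - Y t) := by ring
        rw [h3, h2, ← hκK t ht']
        simp only [hY]; ring
      rw [e1]
      exact hd)
    (by
      intro t ht
      have ht' : t ∈ Icc 0 T := Ioo_subset_Icc_self ht
      have h1 := hre t ht'
      have h2 := hm t ht'
      have h3 := (abs_le.1 (Complex.abs_re_le_norm (p t))).1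
      have h4 := (abs_le.1 (Complex.abs_re_le_norm (e t))).1
      have h5 := hp t ht'
      have h6 := hebd t ht'
      simp only [Complex.add_re]
      nlinarith)
    (by
      intro t ht
      have ht' : t ∈ Icc 0 T := Ioo_subset_Icc_self ht
      have h1 := hre t ht'
      have h2 := hm t ht'
      have h3 := (abs_le.1 (Complex.abs_re_le_norm (p t))).2
      have h4 := (abs_le.1 (Complex.abs_re_le_norm (e t))).1
      have h5 := hp t ht'
      have h6 := hebd t ht'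
      simp only [Complex.add_re, Complex.sub_re, Complex.neg_re]
      nlinarith)
    (fun t ht => hebd t (Ioo_subset_Icc_self ht))
    (by
      have h1 : 2 * (B ^ 2 / m) / (m / 4) ≤ 1 := by
        rw [div_le_one (by positivity)]; linarith
      have h2 : 0 ≤ B ^ 2 / m := by positivity
      nlinarith)
    (by
      have hTm : T ∈ Icc 0 T := right_mem_Icc.2 hT.le
      have h1 := hre T hTm
      have h2 := hm T hTm
      have h5 := hp T hTm
      have h3 := (Complex.abs_re_le_norm (p T))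
      -- lower bound for Y
      have h7 : ‖κ T‖ / 4 * ‖F T‖ ≤ ‖Y T‖ := by
        rcases eq_or_ne (F T) 0 with h0 | h0
        · rw [h0, norm_zero, mul_zero]; exact norm_nonneg _
        have hF0 : 0 < ‖F T‖ := norm_pos_iff.2 h0
        have e1 : (starRingEnd ℂ (F T) * Y T).re = (starRingEnd ℂ (F T) * G T).re - (κ T - p T).re * ‖F T‖ ^ 2 := by
          simp only [hY]
          rw [mul_sub, Complex.sub_re, re_conj_mul_self]
        have e2 : (starRingEnd ℂ (F T) * Y T).re ≤ -(‖κ T‖ / 4 * ‖F T‖ ^ 2) := by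
          rw [e1, Complex.sub_re]
          have h8 : ‖κ T‖ / 4 ≤ (κ T).re - (p T).re := by
            have := (abs_le.1 h3).2
            nlinarith
          have := mul_le_mul_of_nonneg_right h8 (sq_nonneg ‖F T‖)
          linarith
        have e3 := (abs_le.1 (re_conj_mul_le (F T) (Y T))).1
        have e4 : ‖κ T‖ / 4 * ‖F T‖ ^ 2 ≤ ‖F T‖ * ‖Y T‖ := by linarith
        have e5 : ‖F T‖ * (‖κ T‖ / 4 * ‖F T‖) ≤ ‖F T‖ * ‖Y T‖ := by
          calc ‖F T‖ * (‖κ T‖ / 4 * ‖F T‖) = ‖κ T‖ / 4 * ‖F T‖ ^ 2 := by ring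
            _ ≤ _ := e4
        exact le_of_mul_le_mul_left e5 hF0
      have h8 : ‖X T‖ ≤ ‖Y T‖ + 2 * ‖κ T‖ * ‖F T‖ := by
        have : X T = Y T + 2 * κ T * F T := by rw [← hXY]; ring
        rw [this]
        refine (norm_add_le _ _).trans ?_
        rw [norm_mul, norm_mul, Complex.norm_ofNat]
      linarith)
  -- conclusion
  set A : ℝ := 2 * (B ^ 2 / m) / (m / 4) + 9 * Real.exp (-(m / 4 * T / 2)) with hA
  have hA0 : 0 ≤ A := by rw [hA]; positivity
  have hAbd : A ≤ (8 * B ^ 2 + 1152 / T ^ 2) / m ^ 2 := by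
    have h1 : Real.exp (-(m / 4 * T / 2)) ≤ 2 / (m / 4 * T / 2) ^ 2 := exp_neg_le _ (by positivity)
    have h2 : 2 * (B ^ 2 / m) / (m / 4) = 8 * B ^ 2 / m ^ 2 := by field_simp; ring
    have h3 : 9 * (2 / (m / 4 * T / 2) ^ 2) = 1152 / T ^ 2 / m ^ 2 := by field_simp; ring
    rw [hA, h2, add_div]
    linarith
  have hA2 : A ≤ 1 / 2 := by
    refine hAbd.trans ?_
    have h1 : 8 * B ^ 2 / m ^ 2 ≤ 1 / 100 := by
      rw [div_le_div_iff₀ (by positivity) (by norm_num)]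
      nlinarith
    have h2 : 1152 / T ^ 2 / m ^ 2 ≤ 1152 / 10000 := by
      have h3 : (10000 : ℝ) ≤ (m * T) ^ 2 := by nlinarith
      rw [div_div, mul_comm (T ^ 2), ← mul_pow]
      apply div_le_div_of_nonneg_left (by norm_num) (by norm_num) h3
    rw [add_div]; linarith
  have h0m : (0 : ℝ) ∈ Icc 0 T := left_mem_Icc.2 hT.le
  have hY0 : ‖Y 0‖ ≤ ‖X 0‖ + 2 * ‖κ 0‖ * ‖F 0‖ := by
    have : Y 0 = X 0 - 2 * κ 0 * F 0 := by rw [← hXY]; ring
    rw [this]
    refine (norm_sub_le _ _).trans ?_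
    rw [norm_mul, norm_mul, Complex.norm_ofNat]
  have hX0 : ‖X 0‖ ≤ 4 * A * ‖κ 0‖ * ‖F 0‖ := by
    have h1 : ‖X 0‖ ≤ A * (‖X 0‖ + 2 * ‖κ 0‖ * ‖F 0‖) := hmain.trans (mul_le_mul_of_nonneg_left hY0 hA0)
    have h2 : A * ‖X 0‖ ≤ 1 / 2 * ‖X 0‖ := mul_le_mul_of_nonneg_right hA2 (norm_nonneg _)
    nlinarith
  have hF0 : F 0 ≠ 0 := by
    intro h0
    rw [h0, norm_zero, mul_zero] at hX0
    have h1 : X 0 = 0 := norm_le_zero_iff.1 hX0
    simp only [hX] at h1
    rw [h0, mul_zero, add_zero] at h1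
    rcases h.ne 0 le_rfl with h2 | h2
    · exact h2 h0
    · exact h2 h1
  refine ⟨hF0, ?_⟩
  have hF0' : 0 < ‖F 0‖ := norm_pos_iff.2 hF0
  have e1 : G 0 / F 0 + κ 0 + p 0 = X 0 / F 0 := by
    simp only [hX]; field_simp; ring
  rw [e1, norm_div, div_le_iff₀ hF0']
  refine hX0.trans (mul_le_mul_of_nonneg_right ?_ hF0'.le)
  have h5 : 4 * A ≤ (32 * B ^ 2 + 5000 / T ^ 2) / m ^ 2 := by
    have : 4 * ((8 * B ^ 2 + 1152 / T ^ 2) / m ^ 2) ≤ (32 * B ^ 2 + 5000 / T ^ 2) / m ^ 2 := by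
      rw [← mul_div_assoc]
      apply div_le_div_of_nonneg_right _ (by positivity)
      have : 4 * (1152 / T ^ 2) ≤ 5000 / T ^ 2 := by
        rw [← mul_div_assoc]
        apply div_le_div_of_nonneg_right (by norm_num) (by positivity)
      linarith
    linarith
  calc 4 * A * ‖κ 0‖ ≤ (32 * B ^ 2 + 5000 / T ^ 2) / m ^ 2 * ‖κ 0‖ :=
        mul_le_mul_of_nonneg_right h5 (norm_nonneg _)
    _ = (32 * B ^ 2 + 5000 / T ^ 2) * ‖κ 0‖ / m ^ 2 := by ring

end Crest.Agent.R086.Dtn
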