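import Mathlib
import Crest.Agent.R086.DtnC

/-!
Row 86 (S0114), Part C, node DTN (helper480): file 4, the potential on the ray `ρ + e^{iπ/4} t`
and the asymptotics theorem `dtn`.
-/

set_option autoImplicit false

open Complex Set Filter Topology

namespace Crest.Agent.R086.Dtn

/-- `e^{iπ/4}` -/
noncomputable def e4 : ℂ := ((Real.sqrt 2 / 2 : ℝ) : ℂ) * (1 + I)

theorem sqrt2_sq : Real.sqrt 2 * Real.sqrt 2 = 2 := Real.mul_self_sqrt (by norm_num)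

theorem e4_re : e4.re = Real.sqrt 2 / 2 := by simp [e4]
theorem e4_im : e4.im = Real.sqrt 2 / 2 := by simp [e4]

theorem e4_sq : e4 ^ 2 = I := by
  apply Complex.ext
  · rw [pow_two, Complex.mul_re, e4_re, e4_im]; simp
  · rw [pow_two, Complex.mul_im, e4_re, e4_im, Complex.I_im]
    have := sqrt2_sq
    nlinarith

theorem norm_e4 : ‖e4‖ = 1 := by
  have h : ‖e4‖ ^ 2 = 1 := by
    rw [← norm_pow, e4_sq, Complex.norm_I]
  have h0 := norm_nonneg e4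
  nlinarith

theorem e4_ne : e4 ≠ 0 := by
  intro h
  have := norm_e4
  rw [h, norm_zero] at this
  norm_num at this

/-- the ray -/
noncomputable def zr (ρ t : ℝ) : ℂ := (ρ : ℂ) + e4 * (t : ℂ)

theorem zr_re (ρ t : ℝ) : (zr ρ t).re = ρ + Real.sqrt 2 / 2 * t := by
  simp [zr, e4_re]
theorem zr_im (ρ t : ℝ) : (zr ρ t).im = Real.sqrt 2 / 2 * t := by
  simp [zr, e4_im]

theorem zr_zero (ρ : ℝ) : zr ρ 0 = ρ := by simp [zr]

theorem zr_sq_re (ρ t : ℝ) : ((zr ρ t) ^ 2).re = ρ ^ 2 + Real.sqrt 2 * ρ * t := by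
  rw [pow_two, Complex.mul_re, zr_re, zr_im]
  have := sqrt2_sq
  nlinarith
theorem zr_sq_im (ρ t : ℝ) : ((zr ρ t) ^ 2).im = Real.sqrt 2 * ρ * t + t ^ 2 := by
  rw [pow_two, Complex.mul_im, zr_re, zr_im]
  have := sqrt2_sq
  nlinarith

theorem hasDerivAt_zr (ρ t : ℝ) : HasDerivAt (fun s : ℝ => zr ρ s) e4 t := by
  have h1 : HasDerivAt (fun s : ℝ => (s : ℂ)) 1 t := Complex.ofRealCLM.hasDerivAt
  have h2 := (h1.const_mul e4).const_add (ρ : ℂ)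
  simpa [zr] using h2

theorem zr_norm_ge {ρ t : ℝ} (hρ : 1 ≤ ρ) (ht : 0 ≤ t) : ρ ≤ ‖zr ρ t‖ := by
  have h1 := Complex.re_le_norm (zr ρ t)
  rw [zr_re] at h1
  have : 0 ≤ Real.sqrt 2 / 2 * t := by positivity
  linarith

theorem zr_norm_le {ρ t : ℝ} (hρ : 0 ≤ ρ) (ht : 0 ≤ t) : ‖zr ρ t‖ ≤ ρ + t := by
  unfold zr
  refine (norm_add_le _ _).trans ?_
  rw [norm_mul, norm_e4, Complex.norm_real, Complex.norm_real, Real.norm_of_nonneg hρ,
    Real.norm_of_nonneg ht, one_mul]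

theorem zr_ne {ρ t : ℝ} (hρ : 1 ≤ ρ) (ht : 0 ≤ t) : zr ρ t ≠ 0 := by
  intro h
  have := zr_norm_ge hρ ht
  rw [h, norm_zero] at this
  linarith

/-- the potential as a function of the complex radius -/
noncomputable def Kz (om ν : ℝ) (lam z : ℂ) : ℂ :=
  (lam - 3) - I * om - I * z ^ 2 / 16 + I * ν / z ^ 2

noncomputable def Kz1 (ν : ℝ) (z : ℂ) : ℂ := - I * z / 8 - 2 * I * ν / z ^ 3

noncomputable def Kz2 (ν : ℝ) (z : ℂ) : ℂ := - I / 8 + 6 * I * ν / z ^ 4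

/-- potential on the ray: `F_tt = K F`. -/
noncomputable def K (ρ om ν : ℝ) (lam : ℂ) (t : ℝ) : ℂ := Kz om ν lam (zr ρ t)

theorem hasDerivAt_Kz (om ν : ℝ) (lam z : ℂ) (hz : z ≠ 0) :
    HasDerivAt (Kz om ν lam) (Kz1 ν z) z := by
  have h1 : HasDerivAt (fun z : ℂ => z ^ 2) (2 * z) z := by
    simpa using hasDerivAt_pow 2 z
  have h2 : HasDerivAt (fun z : ℂ => (z ^ 2)⁻¹) (-(2 * z) / (z ^ 2) ^ 2) z := h1.inv (pow_ne_zero 2 hz)
  have h3 := ((h1.const_mul (I / 16)).const_sub ((lam - 3) - I * om)).add (h2.const_mul (I * ν))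
  have e : Kz om ν lam = fun z : ℂ => ((lam - 3) - I * om - I / 16 * z ^ 2) + I * ν * (z ^ 2)⁻¹ := by
    funext z; unfold Kz; ring
  have e' : Kz1 ν z = -(I / 16 * (2 * z)) + I * ν * (-(2 * z) / (z ^ 2) ^ 2) := by
    unfold Kz1
    field_simp
    ring
  rw [e, e']
  exact h3

theorem hasDerivAt_Kz1 (ν : ℝ) (z : ℂ) (hz : z ≠ 0) :
    HasDerivAt (Kz1 ν) (Kz2 ν z) z := by
  have h1 : HasDerivAt (fun z : ℂ => z ^ 3) (3 * z ^ 2) z := by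
    simpa using hasDerivAt_pow 3 z
  have h2 : HasDerivAt (fun z : ℂ => (z ^ 3)⁻¹) (-(3 * z ^ 2) / (z ^ 3) ^ 2) z := h1.inv (pow_ne_zero 3 hz)
  have h3 := ((hasDerivAt_id z).const_mul (-I / 8)).sub (h2.const_mul (2 * I * ν))
  have e : Kz1 ν = fun z : ℂ => -I / 8 * z - 2 * I * ν * (z ^ 3)⁻¹ := by
    funext z; unfold Kz1; ring
  have e' : Kz2 ν z = -I / 8 * 1 - 2 * I * ν * (-(3 * z ^ 2) / (z ^ 3) ^ 2) := by
    unfold Kz2
    field_simp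
    ring
  rw [e, e']
  exact h3

theorem hasDerivAt_K {ρ om ν : ℝ} {lam : ℂ} {t : ℝ} (hz : zr ρ t ≠ 0) :
    HasDerivAt (K ρ om ν lam) (Kz1 ν (zr ρ t) * e4) t :=
  (hasDerivAt_Kz om ν lam _ hz).comp t (hasDerivAt_zr ρ t)

theorem hasDerivAt_K1 {ρ ν : ℝ} {t : ℝ} (hz : zr ρ t ≠ 0) :
    HasDerivAt (fun s : ℝ => Kz1 ν (zr ρ s) * e4) (Kz2 ν (zr ρ t) * e4 * e4) t :=
  ((hasDerivAt_Kz1 ν _ hz).comp t (hasDerivAt_zr ρ t)).mul_const e4

theorem K_re (ρ om ν : ℝ) (lam : ℂ) (t : ℝ) :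
    (K ρ om ν lam t).re = lam.re - 3 + (Real.sqrt 2 * ρ * t + t ^ 2) / 16 +
      ν * ((Real.sqrt 2 * ρ * t + t ^ 2) / ‖(zr ρ t) ^ 2‖ ^ 2) := by
  have e1 : (I * (zr ρ t) ^ 2 / 16).re = -((Real.sqrt 2 * ρ * t + t ^ 2) / 16) := by
    rw [show I * (zr ρ t) ^ 2 / 16 = I * ((zr ρ t) ^ 2 * ((1 / 16 : ℝ) : ℂ)) by push_cast; ring]
    rw [Complex.I_mul_re, Complex.im_mul_ofReal, zr_sq_im]
    ring
  have e2 : (I * ν / (zr ρ t) ^ 2).re = ν * ((Real.sqrt 2 * ρ * t + t ^ 2) / ‖(zr ρ t) ^ 2‖ ^ 2) := by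
    rw [show I * ν / (zr ρ t) ^ 2 = I * ((ν : ℂ) * ((zr ρ t) ^ 2)⁻¹) by rw [div_eq_mul_inv]; ring]
    rw [Complex.I_mul_re, Complex.re_ofReal_mul |> fun _ => Complex.im_ofReal_mul, Complex.inv_im,
      zr_sq_im, Complex.normSq_eq_norm_sq]
    ring
  unfold K Kz
  rw [Complex.add_re, Complex.sub_re, Complex.sub_re, Complex.sub_re, e1, e2]
  simp

theorem K_re_ge {ρ om ν : ℝ} {lam : ℂ} {t : ℝ} (hρ : 1 ≤ ρ) (hν : 0 ≤ ν) (hl : 0 ≤ lam.re) (ht : 0 ≤ t) :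
    -3 ≤ (K ρ om ν lam t).re := by
  rw [K_re]
  have h1 : 0 ≤ Real.sqrt 2 * ρ * t + t ^ 2 := by positivity
  have h2 : 0 ≤ ν * ((Real.sqrt 2 * ρ * t + t ^ 2) / ‖(zr ρ t) ^ 2‖ ^ 2) := by positivity
  have h3 : 0 ≤ (Real.sqrt 2 * ρ * t + t ^ 2) / 16 := by positivity
  linarith

theorem sqrt2_ge : (1.4 : ℝ) ≤ Real.sqrt 2 := by
  apply Real.le_sqrt_of_sq_le; norm_num

theorem K_re_nonneg {ρ om ν : ℝ} {lam : ℂ} {t : ℝ} (hρ : 1 ≤ ρ) (hν : 0 ≤ ν) (hl : 0 ≤ lam.re) (ht : 7 ≤ t) :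
    0 ≤ (K ρ om ν lam t).re := by
  rw [K_re]
  have h0 : (0 : ℝ) ≤ t := by linarith
  have h2 : 0 ≤ ν * ((Real.sqrt 2 * ρ * t + t ^ 2) / ‖(zr ρ t) ^ 2‖ ^ 2) := by positivity
  have h3 : 49 ≤ t ^ 2 := by nlinarith
  have h4 : 0 ≤ Real.sqrt 2 * ρ * t := by positivity
  linarith

/-- non glancing persists on the ray -/
theorem nonglancing {ρ ν η : ℝ} {lam : ℂ} (hρ : 1 ≤ ρ) (hρ' : ρ ≤ 10) (hν : 0 ≤ ν) (hη : 0 < η) (hη1 : η ≤ 1)
    (hl : 0 ≤ lam.re) (hng : η * (‖lam‖ + ν) ≤ ‖lam + I * ν / (ρ : ℂ) ^ 2‖) :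
    ∀ t ∈ Icc (0 : ℝ) 7, η / 13530402 * (‖lam‖ + ν) ≤ ‖lam + I * ν / (zr ρ t) ^ 2‖ := by
  intro t ht
  have ht0 := ht.1
  have hz := zr_norm_ge hρ ht0
  have hz1 : 1 ≤ ‖zr ρ t‖ := by linarith
  have hz' : ‖zr ρ t‖ ≤ 17 := (zr_norm_le (by linarith) ht0).trans (by linarith [ht.2])
  have hzne := zr_ne hρ ht0
  have hρne : (ρ : ℂ) ≠ 0 := by
    exact_mod_cast (by linarith : ρ ≠ 0)
  set S := ‖lam‖ + ν with hS
  have hS0 : 0 ≤ S := by positivity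
  rcases le_or_gt t (η / 54) with h1 | h1
  · have e1 : I * ν / (zr ρ t) ^ 2 - I * ν / (ρ : ℂ) ^ 2 =
        I * ν * ((ρ - zr ρ t) * (ρ + zr ρ t)) / ((zr ρ t) ^ 2 * (ρ : ℂ) ^ 2) := by
      field_simp; ring
    have e2 : ‖I * ν / (zr ρ t) ^ 2 - I * ν / (ρ : ℂ) ^ 2‖ ≤ ν * (t * 27) := by
      rw [e1, norm_div, norm_mul, norm_mul, norm_mul, Complex.norm_I, one_mul, Complex.norm_real,
        Real.norm_of_nonneg hν, norm_mul, norm_pow, norm_pow, Complex.norm_real,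
        Real.norm_of_nonneg (by linarith : (0 : ℝ) ≤ ρ)]
      have h2 : ‖(ρ : ℂ) - zr ρ t‖ ≤ t := by
        have : (ρ : ℂ) - zr ρ t = -(e4 * t) := by unfold zr; ring
        rw [this, norm_neg, norm_mul, norm_e4, Complex.norm_real, Real.norm_of_nonneg ht0, one_mul]
      have h3 : ‖(ρ : ℂ) + zr ρ t‖ ≤ 27 := by
        refine (norm_add_le _ _).trans ?_
        rw [Complex.norm_real, Real.norm_of_nonneg (by linarith : (0 : ℝ) ≤ ρ)]
        linarith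
      have h4 : 1 ≤ ‖zr ρ t‖ ^ 2 * ρ ^ 2 := by
        have a1 : 1 ≤ ‖zr ρ t‖ ^ 2 := one_le_pow₀ hz1
        have a2 : 1 ≤ ρ ^ 2 := one_le_pow₀ hρ
        nlinarith
      have h5 : 0 ≤ ν * (t * 27) := by positivity
      rw [div_le_iff₀ (by positivity)]
      calc ν * (‖(ρ : ℂ) - zr ρ t‖ * ‖(ρ : ℂ) + zr ρ t‖) ≤ ν * (t * 27) :=
            mul_le_mul_of_nonneg_left (mul_le_mul h2 h3 (norm_nonneg _) ht0) hν
        _ ≤ ν * (t * 27) * (‖zr ρ t‖ ^ 2 * ρ ^ 2) := le_mul_of_one_le_right h5 h4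
    have e3 : ν * (t * 27) ≤ η / 2 * S := by
      have : ν ≤ S := by rw [hS]; linarith [norm_nonneg lam]
      nlinarith
    have e4 : ‖lam + I * ν / (ρ : ℂ) ^ 2‖ ≤ ‖lam + I * ν / (zr ρ t) ^ 2‖ +
        ‖I * ν / (zr ρ t) ^ 2 - I * ν / (ρ : ℂ) ^ 2‖ := by
      have : lam + I * ν / (ρ : ℂ) ^ 2 = (lam + I * ν / (zr ρ t) ^ 2) -
        (I * ν / (zr ρ t) ^ 2 - I * ν / (ρ : ℂ) ^ 2) := by ring
      rw [this]
      exact norm_sub_le _ _
    have e5 : η / 2 * S ≤ ‖lam + I * ν / (zr ρ t) ^ 2‖ := by linarith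
    refine le_trans ?_ e5
    apply mul_le_mul_of_nonneg_right _ hS0
    linarith
  · -- real part
    have hre : η / 4510134 * ν ≤ ‖lam + I * ν / (zr ρ t) ^ 2‖ := by
      have e2 : (I * ν / (zr ρ t) ^ 2).re = ν * ((Real.sqrt 2 * ρ * t + t ^ 2) / ‖(zr ρ t) ^ 2‖ ^ 2) := by
        rw [show I * ν / (zr ρ t) ^ 2 = I * ((ν : ℂ) * ((zr ρ t) ^ 2)⁻¹) by rw [div_eq_mul_inv]; ring]
        rw [Complex.I_mul_re, Complex.re_ofReal_mul |> fun _ => Complex.im_ofReal_mul, Complex.inv_im,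
          zr_sq_im, Complex.normSq_eq_norm_sq]
        ring
      have h2 : ‖(zr ρ t) ^ 2‖ ^ 2 ≤ 83521 := by
        rw [norm_pow]
        calc (‖zr ρ t‖ ^ 2) ^ 2 ≤ (17 ^ 2) ^ 2 := by
              apply pow_le_pow_left₀ (by positivity)
              exact pow_le_pow_left₀ (norm_nonneg _) hz' 2
          _ = 83521 := by norm_num
      have h2' : 0 < ‖(zr ρ t) ^ 2‖ ^ 2 := by
        rw [norm_pow]; have := lt_of_lt_of_le one_pos hz1; positivity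
      have h3 : t ≤ Real.sqrt 2 * ρ * t + t ^ 2 := by
        have := sqrt2_ge
        have h4 : 1 ≤ Real.sqrt 2 * ρ := by nlinarith
        nlinarith [sq_nonneg t]
      have h5 : η / 4510134 ≤ (Real.sqrt 2 * ρ * t + t ^ 2) / ‖(zr ρ t) ^ 2‖ ^ 2 := by
        rw [le_div_iff₀ h2']
        calc η / 4510134 * ‖(zr ρ t) ^ 2‖ ^ 2 ≤ η / 4510134 * 83521 :=
              mul_le_mul_of_nonneg_left h2 (by positivity)
          _ = η / 54 := by ring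
          _ ≤ _ := by linarith
      have h6 : ν * (η / 4510134) ≤ (lam + I * ν / (zr ρ t) ^ 2).re := by
        rw [Complex.add_re, e2]
        have := mul_le_mul_of_nonneg_left h5 hν
        linarith
      have h7 := Complex.re_le_norm (lam + I * ν / (zr ρ t) ^ 2)
      linarith
    rcases le_or_gt (2 * ν) ‖lam‖ with h2 | h2
    · have h3 : ‖lam‖ - ν ≤ ‖lam + I * ν / (zr ρ t) ^ 2‖ := by
        have h4 : ‖I * ν / (zr ρ t) ^ 2‖ ≤ ν := by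
          rw [norm_div, norm_mul, Complex.norm_I, one_mul, Complex.norm_real, Real.norm_of_nonneg hν, norm_pow]
          apply div_le_self hν (one_le_pow₀ hz1)
        have h5 : ‖lam‖ ≤ ‖lam + I * ν / (zr ρ t) ^ 2‖ + ‖I * ν / (zr ρ t) ^ 2‖ := by
          have : lam = (lam + I * ν / (zr ρ t) ^ 2) - I * ν / (zr ρ t) ^ 2 := by ring
          conv_lhs => rw [this]
          exact norm_sub_le _ _
        linarith
      refine le_trans ?_ h3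
      have : η / 13530402 * S ≤ 1 / 4 * S := by
        apply mul_le_mul_of_nonneg_right _ hS0
        linarith
      rw [hS] at this ⊢
      linarith
    · refine le_trans ?_ hre
      have : S ≤ 3 * ν := by rw [hS]; linarith
      have h3 : η / 13530402 * S ≤ η / 13530402 * (3 * ν) := mul_le_mul_of_nonneg_left this (by positivity)
      linarith

end Crest.Agent.R086.Dtn
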