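import Mathlib
import Crest.Agent.R086.DtnD

/-!
Row 86 (S0114), Part C, node DTN (helper480): file 5, the theorem `dtn`.
-/

set_option autoImplicit false

open Complex Set Filter Topology

namespace Crest.Agent.R086.Dtn

/-- square root with nonnegative real part -/
noncomputable def csq (w : ℂ) : ℂ := exp (log w / 2)

theorem csq_sq {w : ℂ} (hw : w ≠ 0) : csq w ^ 2 = w := by
  unfold csq
  rw [pow_two, ← Complex.exp_add, add_halves, Complex.exp_log hw]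

theorem csq_re_nonneg (w : ℂ) : 0 ≤ (csq w).re := by
  unfold csq
  rw [Complex.exp_re]
  apply mul_nonneg (Real.exp_pos _).le
  have h : (log w / 2).im = arg w / 2 := by
    rw [show log w / 2 = log w * ((1 / 2 : ℝ) : ℂ) by push_cast; ring, Complex.im_mul_ofReal,
      Complex.log_im]; ring
  rw [h]
  apply Real.cos_nonneg_of_neg_pi_div_two_le_of_le
  · have := Complex.neg_pi_lt_arg w; linarith
  · have := Complex.arg_le_pi w; linarith

theorem norm_csq {w : ℂ} (hw : w ≠ 0) : ‖csq w‖ ^ 2 = ‖w‖ := by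
  rw [← norm_pow, csq_sq hw]

theorem csq_re_ge {w : ℂ} (h3 : -3 ≤ w.re) (h6 : 6 ≤ ‖w‖) : ‖csq w‖ / 2 ≤ (csq w).re := by
  have hw : w ≠ 0 := by
    intro h; rw [h, norm_zero] at h6; linarith
  have h0 := csq_re_nonneg w
  have h1 : ((csq w) ^ 2).re = w.re := by rw [csq_sq hw]
  have h2 : ‖csq w‖ ^ 2 = (csq w).re ^ 2 + (csq w).im ^ 2 := by
    rw [← Complex.normSq_eq_norm_sq, Complex.normSq_apply]; ring
  have h4 : ((csq w) ^ 2).re = (csq w).re ^ 2 - (csq w).im ^ 2 := by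
    rw [pow_two, Complex.mul_re]; ring
  have h5 := norm_csq hw
  have h7 : (‖csq w‖ / 2) ^ 2 ≤ (csq w).re ^ 2 := by nlinarith
  exact (abs_le_of_sq_le_sq' h7 h0).2

theorem mem_slit {w : ℂ} (h3 : -3 ≤ w.re) (h6 : 6 ≤ ‖w‖) : w ∈ slitPlane := by
  rw [Complex.mem_slitPlane_iff]
  by_contra hcon
  push Not at hcon
  have h1 : w = (w.re : ℂ) := by
    apply Complex.ext <;> simp [hcon.2]
  rw [h1, Complex.norm_real, Real.norm_eq_abs] at h6
  have : |w.re| ≤ 3 := abs_le.2 ⟨h3, by linarith [hcon.1]⟩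
  linarith

theorem hasDerivAt_csq {w : ℝ → ℂ} {w' : ℂ} {t : ℝ} (hw : HasDerivAt w w' t) (hs : w t ∈ slitPlane) :
    HasDerivAt (fun s => csq (w s)) (2 * csq (w t) * (w' / (4 * w t))) t := by
  have h1 := (hw.clog_real hs).div_const 2
  have h2 := h1.cexp
  have hne : w t ≠ 0 := Complex.slitPlane_ne_zero hs
  have e : 2 * csq (w t) * (w' / (4 * w t)) = exp (log (w t) / 2) * (w' / w t / 2) := by
    unfold csq; field_simp; ring
  rw [e]
  exact h2

/-- EXTERIOR DtN ASYMPTOTICS. -/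
theorem dtn {η : ℝ} (hη : 0 < η) : ∃ C L0 : ℝ, 0 < C ∧ 1 ≤ L0 ∧
    ∀ (ρ om ν : ℝ) (lam : ℂ) (F G : ℝ → ℂ), 1 ≤ ρ → ρ ≤ 10 → |om| ≤ 1 → 0 ≤ ν → 0 ≤ lam.re →
      L0 ≤ ‖lam‖ + ν → η * (‖lam‖ + ν) ≤ ‖lam + I * ν / (ρ : ℂ) ^ 2‖ →
      Sol F G (K ρ om ν lam) 0 →
      F 0 ≠ 0 ∧ ‖G 0 / F 0 + csq (Kz om ν lam ρ) + Kz1 ν ρ * e4 / (4 * Kz om ν lam ρ)‖
        ≤ C / Real.sqrt (‖lam‖ + ν) := by
  set η1 : ℝ := min η 1 with hη1
  have hη1pos : 0 < η1 := lt_min hη one_pos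
  have hη1le : η1 ≤ 1 := min_le_right _ _
  set c : ℝ := η1 / 13530402 with hc
  have hc0 : 0 < c := by positivity
  have hc1 : c ≤ 1 := by rw [hc, div_le_one (by norm_num)]; linarith
  set B : ℝ := 40 / c ^ 2 with hB
  have hB1 : 1 ≤ B := by
    rw [hB, le_div_iff₀ (by positivity)]
    nlinarith
  set M0 : ℝ := 100 * B ^ 2 with hM0
  have hM0' : 100 ≤ M0 := by rw [hM0]; nlinarith
  refine ⟨(32 * B ^ 2 + 5000 / 7 ^ 2) * 4 / c, 2 * M0 ^ 2 / c + 46 / c + 23, by positivity, by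
    have : 0 ≤ 2 * M0 ^ 2 / c := by positivity
    have : 0 ≤ 46 / c := by positivity
    linarith, ?_⟩
  intro ρ om ν lam F G hρ hρ' hom hν hl hL hng hsol
  set S : ℝ := ‖lam‖ + ν with hS
  have hb1 : 0 ≤ 2 * M0 ^ 2 / c := by positivity
  have hb2 : 0 ≤ 46 / c := by positivity
  have hS23 : 23 ≤ S := by linarith
  have hS0 : 0 < S := by linarith
  have hcS46 : 46 ≤ c * S := by
    have : 46 / c ≤ S := by linarith
    rw [div_le_iff₀ hc0] at this; linarith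
  have hcSM : 2 * M0 ^ 2 ≤ c * S := by
    have : 2 * M0 ^ 2 / c ≤ S := by linarith
    rw [div_le_iff₀ hc0] at this; linarith
  have hng' : η1 * S ≤ ‖lam + I * ν / (ρ : ℂ) ^ 2‖ :=
    (mul_le_mul_of_nonneg_right (min_le_left _ _) hS0.le).trans hng
  have hNG := nonglancing hρ hρ' hν hη1pos hη1le hl hng'
  have hνS : ν ≤ S := by rw [hS]; linarith [norm_nonneg lam]
  -- lower bound of |K|
  have hrest : ∀ t ∈ Icc (0 : ℝ) 7, ‖K ρ om ν lam t - (lam + I * ν / (zr ρ t) ^ 2)‖ ≤ 23 := by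
    intro t ht
    have e : K ρ om ν lam t - (lam + I * ν / (zr ρ t) ^ 2) = -(3 + I * om + I * (zr ρ t) ^ 2 / 16) := by
      unfold K Kz; ring
    rw [e, norm_neg]
    have hz' : ‖zr ρ t‖ ≤ 17 := (zr_norm_le (by linarith) ht.1).trans (by linarith [ht.2])
    calc ‖3 + I * om + I * (zr ρ t) ^ 2 / 16‖ ≤ ‖(3 : ℂ)‖ + ‖I * om‖ + ‖I * (zr ρ t) ^ 2 / 16‖ :=
          norm_add₃_le
      _ ≤ 3 + 1 + 19 := by
          have h1 : ‖(3 : ℂ)‖ = 3 := by simp
          have h2 : ‖I * (om : ℂ)‖ ≤ 1 := by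
            rw [norm_mul, Complex.norm_I, one_mul, Complex.norm_real]; exact hom
          have h3 : ‖I * (zr ρ t) ^ 2 / 16‖ ≤ 19 := by
            rw [norm_div, norm_mul, Complex.norm_I, one_mul, norm_pow]
            have h4 : ‖zr ρ t‖ ^ 2 ≤ 17 ^ 2 := pow_le_pow_left₀ (norm_nonneg _) hz' 2
            have h5 : ‖(16 : ℂ)‖ = 16 := by simp
            rw [h5, div_le_iff₀ (by norm_num)]
            linarith
          rw [h1]; linarith
      _ = 23 := by norm_num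
  have hKlow : ∀ t ∈ Icc (0 : ℝ) 7, c * S / 2 ≤ ‖K ρ om ν lam t‖ := by
    intro t ht
    have h1 := hNG t ht
    have h2 := hrest t ht
    have h3 : ‖lam + I * ν / (zr ρ t) ^ 2‖ ≤ ‖K ρ om ν lam t‖ +
        ‖K ρ om ν lam t - (lam + I * ν / (zr ρ t) ^ 2)‖ := by
      have : lam + I * ν / (zr ρ t) ^ 2 = K ρ om ν lam t -
        (K ρ om ν lam t - (lam + I * ν / (zr ρ t) ^ 2)) := by ring
      conv_lhs => rw [this]
      exact norm_sub_le _ _
    have h4 : c * S ≤ ‖lam + I * ν / (zr ρ t) ^ 2‖ := h1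
    linarith
  have hK6 : ∀ t ∈ Icc (0 : ℝ) 7, 6 ≤ ‖K ρ om ν lam t‖ := fun t ht => by
    have := hKlow t ht; linarith
  have hKre : ∀ t ∈ Icc (0 : ℝ) 7, -3 ≤ (K ρ om ν lam t).re := fun t ht =>
    K_re_ge hρ hν hl ht.1
  have hslit : ∀ t ∈ Icc (0 : ℝ) 7, K ρ om ν lam t ∈ slitPlane := fun t ht =>
    mem_slit (hKre t ht) (hK6 t ht)
  have hKne : ∀ t ∈ Icc (0 : ℝ) 7, K ρ om ν lam t ≠ 0 := fun t ht =>
    Complex.slitPlane_ne_zero (hslit t ht)
  have hz1 : ∀ t ∈ Icc (0 : ℝ) 7, 1 ≤ ‖zr ρ t‖ := fun t ht => by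
    have := zr_norm_ge hρ ht.1; linarith
  have hz17 : ∀ t ∈ Icc (0 : ℝ) 7, ‖zr ρ t‖ ≤ 17 := fun t ht =>
    (zr_norm_le (by linarith) ht.1).trans (by linarith [ht.2])
  -- derivatives bounds
  have hK1 : ∀ t ∈ Icc (0 : ℝ) 7, ‖Kz1 ν (zr ρ t) * e4‖ ≤ 3 * S := by
    intro t ht
    rw [norm_mul, norm_e4, mul_one]
    unfold Kz1
    have h1 := hz1 t ht
    have h2 := hz17 t ht
    calc ‖-I * zr ρ t / 8 - 2 * I * ν / zr ρ t ^ 3‖ ≤ ‖-I * zr ρ t / 8‖ + ‖2 * I * ν / zr ρ t ^ 3‖ :=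
          norm_sub_le _ _
      _ ≤ 17 / 8 + 2 * ν := by
          apply add_le_add
          · rw [norm_div, norm_mul, norm_neg, Complex.norm_I, one_mul]
            have h5 : ‖(8 : ℂ)‖ = 8 := by simp
            rw [h5]; linarith
          · rw [norm_div, norm_mul, norm_mul, Complex.norm_I, mul_one, Complex.norm_real,
              Real.norm_of_nonneg hν, norm_pow, Complex.norm_ofNat]
            apply div_le_self (by positivity) (one_le_pow₀ h1)
      _ ≤ 3 * S := by linarith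
  have hK2 : ∀ t ∈ Icc (0 : ℝ) 7, ‖Kz2 ν (zr ρ t) * e4 * e4‖ ≤ 7 * S := by
    intro t ht
    rw [norm_mul, norm_mul, norm_e4, mul_one, mul_one]
    unfold Kz2
    have h1 := hz1 t ht
    calc ‖-I / 8 + 6 * I * ν / zr ρ t ^ 4‖ ≤ ‖-I / 8‖ + ‖6 * I * ν / zr ρ t ^ 4‖ :=
          norm_add_le _ _
      _ ≤ 1 / 8 + 6 * ν := by
          apply add_le_add
          · rw [norm_div, norm_neg, Complex.norm_I]
            have h5 : ‖(8 : ℂ)‖ = 8 := by simp
            rw [h5]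
          · rw [norm_div, norm_mul, norm_mul, Complex.norm_I, mul_one, Complex.norm_real,
              Real.norm_of_nonneg hν, norm_pow, Complex.norm_ofNat]
            apply div_le_self (by positivity) (one_le_pow₀ h1)
      _ ≤ 7 * S := by linarith
  set κ : ℝ → ℂ := fun t => csq (K ρ om ν lam t) with hκ
  set p : ℝ → ℂ := fun t => Kz1 ν (zr ρ t) * e4 / (4 * K ρ om ν lam t) with hp
  set p1 : ℝ → ℂ := fun t => (Kz2 ν (zr ρ t) * e4 * e4 * (4 * K ρ om ν lam t) -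
    Kz1 ν (zr ρ t) * e4 * (4 * (Kz1 ν (zr ρ t) * e4))) / (4 * K ρ om ν lam t) ^ 2 with hp1
  have hnorm4 : ∀ t, ‖4 * K ρ om ν lam t‖ = 4 * ‖K ρ om ν lam t‖ := fun t => by
    rw [norm_mul, Complex.norm_ofNat]
  have hcSpos : 0 < c * S := by positivity
  have hBbig1 : 3 / (2 * c) ≤ B := by
    rw [hB, div_le_div_iff₀ (by positivity) (by positivity)]
    nlinarith
  have hBbig2 : 16 / c ^ 2 ≤ B := by
    rw [hB]
    apply div_le_div_of_nonneg_right (by norm_num) (by positivity)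
  have hpB : ∀ t ∈ Icc (0 : ℝ) 7, ‖p t‖ ≤ B := by
    intro t ht
    simp only [hp]
    rw [norm_div, hnorm4]
    have h1 := hK1 t ht
    have h2 := hKlow t ht
    calc ‖Kz1 ν (zr ρ t) * e4‖ / (4 * ‖K ρ om ν lam t‖) ≤ (3 * S) / (4 * (c * S / 2)) := by
          apply div_le_div₀ (by positivity) h1 (by positivity)
          linarith
      _ = 3 / (2 * c) := by field_simp; norm_num
      _ ≤ B := hBbig1
  have hp1B : ∀ t ∈ Icc (0 : ℝ) 7, ‖p1 t‖ ≤ B := by
    intro t ht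
    have h1 := hK1 t ht
    have h1' := hK2 t ht
    have h2 := hKlow t ht
    have hK0 : 0 < ‖K ρ om ν lam t‖ := lt_of_lt_of_le (by positivity) h2
    simp only [hp1]
    rw [sub_div]
    have t1 : ‖Kz2 ν (zr ρ t) * e4 * e4 * (4 * K ρ om ν lam t) / (4 * K ρ om ν lam t) ^ 2‖ ≤ 7 / (2 * c) := by
      rw [norm_div, norm_mul, norm_pow, hnorm4]
      calc ‖Kz2 ν (zr ρ t) * e4 * e4‖ * (4 * ‖K ρ om ν lam t‖) / (4 * ‖K ρ om ν lam t‖) ^ 2
          = ‖Kz2 ν (zr ρ t) * e4 * e4‖ / (4 * ‖K ρ om ν lam t‖) := by field_simp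
        _ ≤ (7 * S) / (4 * (c * S / 2)) := by
          apply div_le_div₀ (by positivity) h1' (by positivity)
          linarith
        _ = 7 / (2 * c) := by field_simp; norm_num
    have t2 : ‖Kz1 ν (zr ρ t) * e4 * (4 * (Kz1 ν (zr ρ t) * e4)) / (4 * K ρ om ν lam t) ^ 2‖ ≤ 9 / c ^ 2 := by
      rw [norm_div, norm_mul, norm_pow, hnorm4, norm_mul (4 : ℂ), Complex.norm_ofNat]
      calc ‖Kz1 ν (zr ρ t) * e4‖ * (4 * ‖Kz1 ν (zr ρ t) * e4‖) / (4 * ‖K ρ om ν lam t‖) ^ 2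
          ≤ (3 * S) * (4 * (3 * S)) / (4 * (c * S / 2)) ^ 2 := by
            apply div_le_div₀ (by positivity) _ (by positivity) _
            · exact mul_le_mul h1 (by linarith) (by positivity) (by positivity)
            · apply pow_le_pow_left₀ (by positivity); linarith
        _ = 9 / c ^ 2 := by field_simp; norm_num
    have h3 : 7 / (2 * c) + 9 / c ^ 2 ≤ B := by
      have : 7 / (2 * c) ≤ 7 / c ^ 2 := by
        rw [div_le_div_iff₀ (by positivity) (by positivity)]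
        nlinarith
      have h4 : 7 / c ^ 2 + 9 / c ^ 2 = 16 / c ^ 2 := by ring
      linarith
    calc _ ≤ _ := norm_sub_le _ _
      _ ≤ 7 / (2 * c) + 9 / c ^ 2 := add_le_add t1 t2
      _ ≤ B := h3
  set m : ℝ := Real.sqrt (c * S / 2) with hm
  have hm2 : m ^ 2 = c * S / 2 := Real.sq_sqrt (by positivity)
  have hmM : M0 ≤ m := by
    apply Real.le_sqrt_of_sq_le; linarith
  have hm0 : 0 < m := by linarith
  have hW := wkb (F := F) (G := G) (K := K ρ om ν lam) (κ := κ) (p := p) (p1 := p1) (T := 7) (m := m) (B := B)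
    (by norm_num) hB1 hsol
    (fun t ht => csq_sq (hKne t ht))
    (fun t ht => hasDerivAt_csq (hasDerivAt_K (zr_ne hρ ht.1)) (hslit t ht))
    (fun t ht => by
      have h1 := hasDerivAt_K (ρ := ρ) (om := om) (ν := ν) (lam := lam) (zr_ne hρ ht.1)
      have h2 := hasDerivAt_K1 (ρ := ρ) (ν := ν) (t := t) (zr_ne hρ ht.1)
      exact h2.div (h1.const_mul 4) (mul_ne_zero (by norm_num) (hKne t ht)))
    hpB hp1B
    (fun t ht => by
      have h1 := norm_csq (hKne t ht)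
      have h2 := hKlow t ht
      have h3 : m ^ 2 ≤ ‖κ t‖ ^ 2 := by rw [hm2, hκ]; simp only; rw [h1]; exact h2
      exact (abs_le_of_sq_le_sq' h3 (norm_nonneg _)).2)
    (fun t ht => csq_re_ge (hKre t ht) (hK6 t ht))
    (by
      have h1 := (hsol.mono (by norm_num : (0 : ℝ) ≤ 7)).half (u := 1) (by simp)
        (fun t ht => by simpa using K_re_nonneg hρ hν hl (le_of_lt ht)) 7 le_rfl
      rw [one_mul] at h1
      exact h1.le)
    (by rw [hM0] at hmM; exact hmM)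
    (by linarith)
  refine ⟨hW.1, ?_⟩
  have hz0 : zr ρ 0 = (ρ : ℂ) := zr_zero ρ
  have hK0 : K ρ om ν lam 0 = Kz om ν lam ρ := by unfold K; rw [hz0]
  have hres := hW.2
  simp only [hκ, hp] at hres
  rw [hK0, hz0] at hres
  refine hres.trans ?_
  -- ‖κ 0‖ ≤ sqrt (2S)
  have h0m : (0 : ℝ) ∈ Icc (0 : ℝ) 7 := ⟨le_rfl, by norm_num⟩
  have hup : ‖csq (Kz om ν lam ρ)‖ ≤ 2 * Real.sqrt S := by
    have h1 : ‖csq (Kz om ν lam ρ)‖ ^ 2 = ‖Kz om ν lam ρ‖ := by
      apply norm_csq; rw [← hK0]; exact hKne 0 h0m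
    have h2 : ‖Kz om ν lam ρ‖ ≤ 4 * S := by
      have h3 := hrest 0 h0m
      rw [hK0, hz0] at h3
      have h4 : ‖lam + I * ν / (ρ : ℂ) ^ 2‖ ≤ S := by
        refine (norm_add_le _ _).trans ?_
        rw [hS]
        apply add_le_add le_rfl
        rw [norm_div, norm_mul, Complex.norm_I, one_mul, Complex.norm_real, Real.norm_of_nonneg hν,
          norm_pow, Complex.norm_real, Real.norm_of_nonneg (by linarith : (0 : ℝ) ≤ ρ)]
        apply div_le_self hν (one_le_pow₀ hρ)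
      have h5 : Kz om ν lam ρ = (Kz om ν lam ρ - (lam + I * ν / (ρ : ℂ) ^ 2)) + (lam + I * ν / (ρ : ℂ) ^ 2) := by ring
      calc ‖Kz om ν lam ρ‖ ≤ ‖Kz om ν lam ρ - (lam + I * ν / (ρ : ℂ) ^ 2)‖ + ‖lam + I * ν / (ρ : ℂ) ^ 2‖ := by
            conv_lhs => rw [h5]
            exact norm_add_le _ _
        _ ≤ 23 + S := add_le_add h3 h4
        _ ≤ 4 * S := by linarith
    have h6 : ‖csq (Kz om ν lam ρ)‖ ^ 2 ≤ (2 * Real.sqrt S) ^ 2 := by
      rw [h1, mul_pow, Real.sq_sqrt hS0.le]; linarith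
    exact (abs_le_of_sq_le_sq' h6 (by positivity)).2
  have hsqrt : 0 < Real.sqrt S := Real.sqrt_pos.2 hS0
  rw [hm2]
  have hSS : Real.sqrt S * Real.sqrt S = S := Real.mul_self_sqrt hS0.le
  set Q : ℝ := 32 * B ^ 2 + 5000 / 7 ^ 2 with hQ
  have hQ0 : 0 ≤ Q := by positivity
  calc Q * ‖csq (Kz om ν lam ρ)‖ / (c * S / 2) ≤ Q * (2 * Real.sqrt S) / (c * S / 2) := by
        apply div_le_div_of_nonneg_right _ (by positivity)
        exact mul_le_mul_of_nonneg_left hup hQ0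
    _ = Q * 4 / c / Real.sqrt S := by
        have : c * S / 2 = c * (Real.sqrt S * Real.sqrt S) / 2 := by rw [hSS]
        rw [this]
        field_simp
        ring

end Crest.Agent.R086.Dtn
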