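import Mathlib
import Crest.Agent.R086.DtnE
import Crest.Agent.R086.ABIface
import Crest.Agent.R086.Phi

/-!
Row 86 (S0114), Part C, node DTN (helper480): file 6, the outgoing solution `fo l mu` of Part A on the
ray `ρ + e^{iπ/4} t` is an instance of `Sol`, hence the DtN asymptotics for `fo`.
-/

set_option autoImplicit false

open Complex Set Filter Topology

namespace Crest.Agent.R086.Dtn

open Crest.Agent.R086.JCx (W W1 W2 J)

/-- no common zero of `W` and `W'`. -/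
theorem W_no_common {a b z0 : ℂ} {x : ℝ} (ha : -1 < a.re) (hz0 : 0 < z0.re) (hx : 0 < x)
    (hxn : W a b x ≠ 0) : ¬ (W a b z0 = 0 ∧ W1 a b z0 = 0) := by
  rintro ⟨h0, h1⟩
  set γ : ℝ → ℂ := fun s => z0 + (s : ℂ) * ((x : ℂ) - z0) with hγ
  set r0 : ℝ := min z0.re x with hr0
  have hr0p : 0 < r0 := lt_min hz0 hx
  have hγre : ∀ s ∈ Icc (0 : ℝ) 1, r0 ≤ (γ s).re := by
    intro s hs
    have e : (γ s).re = (1 - s) * z0.re + s * x := by
      simp [hγ]; ring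
    rw [e]
    have h2 : r0 ≤ z0.re := min_le_left _ _
    have h3 : r0 ≤ x := min_le_right _ _
    have h4 : 0 ≤ 1 - s := by linarith [hs.2]
    nlinarith [hs.1]
  have hγd : ∀ s, HasDerivAt γ ((x : ℂ) - z0) s := by
    intro s
    have hh : HasDerivAt (fun s : ℝ => (s : ℂ)) 1 s := Complex.ofRealCLM.hasDerivAt
    have := (hh.mul_const ((x : ℂ) - z0)).const_add z0
    simpa [hγ] using this
  set f : ℝ → ℂ × ℂ := fun s => (W a b (γ s), W1 a b (γ s)) with hf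
  set f' : ℝ → ℂ × ℂ := fun s => (W1 a b (γ s) * ((x : ℂ) - z0), W2 a b (γ s) * ((x : ℂ) - z0)) with hf'
  have hpos : ∀ s ∈ Icc (0 : ℝ) 1, 0 < (γ s).re := fun s hs => lt_of_lt_of_le hr0p (hγre s hs)
  have hd : ∀ s ∈ Icc (0 : ℝ) 1, HasDerivAt f (f' s) s := by
    intro s hs
    exact ((JCx.W_hasDerivAt ha (hpos s hs)).comp s (hγd s)).prodMk
      ((JCx.W1_hasDerivAt ha (hpos s hs)).comp s (hγd s))
  set K : ℝ := ‖(x : ℂ) - z0‖ * (2 + ‖b‖ / r0 + ‖a‖ / r0) with hK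
  have hb : ∀ s ∈ Ico (0 : ℝ) 1, ‖f' s‖ ≤ K * ‖f s‖ + 0 := by
    intro s hs
    have hs' : s ∈ Icc (0 : ℝ) 1 := Ico_subset_Icc_self hs
    have hz := hpos s hs'
    have hrz : r0 ≤ ‖γ s‖ := (hγre s hs').trans (Complex.re_le_norm _)
    have hzn : 0 < ‖γ s‖ := lt_of_lt_of_le hr0p hrz
    have hzne : γ s ≠ 0 := norm_pos_iff.1 hzn
    have n1 : ‖W a b (γ s)‖ ≤ ‖f s‖ := norm_fst_le (f s)
    have n2 : ‖W1 a b (γ s)‖ ≤ ‖f s‖ := norm_snd_le (f s)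
    have hn : 0 ≤ ‖f s‖ := norm_nonneg _
    have hba : 0 ≤ ‖b‖ / r0 := by positivity
    have haa : 0 ≤ ‖a‖ / r0 := by positivity
    have e2 : ‖W2 a b (γ s)‖ ≤ (2 + ‖b‖ / r0 + ‖a‖ / r0) * ‖f s‖ := by
      have ode := JCx.W_ode (a := a) (b := b) ha hz
      have e3 : W2 a b (γ s) = -((b + I * γ s) * W1 a b (γ s) + I * a * W a b (γ s)) / γ s := by
        rw [eq_div_iff hzne]
        linear_combination ode
      rw [e3, norm_div, norm_neg]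
      rw [div_le_iff₀ hzn]
      calc ‖(b + I * γ s) * W1 a b (γ s) + I * a * W a b (γ s)‖
          ≤ ‖(b + I * γ s) * W1 a b (γ s)‖ + ‖I * a * W a b (γ s)‖ := norm_add_le _ _
        _ = ‖b + I * γ s‖ * ‖W1 a b (γ s)‖ + ‖a‖ * ‖W a b (γ s)‖ := by
            rw [norm_mul, norm_mul, norm_mul, Complex.norm_I, one_mul]
        _ ≤ (‖b‖ + ‖γ s‖) * ‖f s‖ + ‖a‖ * ‖f s‖ := by
            apply add_le_add
            · apply mul_le_mul _ n2 (norm_nonneg _) (by positivity)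
              refine (norm_add_le _ _).trans ?_
              rw [norm_mul, Complex.norm_I, one_mul]
            · exact mul_le_mul_of_nonneg_left n1 (norm_nonneg _)
        _ ≤ (2 + ‖b‖ / r0 + ‖a‖ / r0) * ‖f s‖ * ‖γ s‖ := by
            have q1 : ‖b‖ ≤ ‖b‖ / r0 * ‖γ s‖ := by
              rw [div_mul_eq_mul_div, le_div_iff₀ hr0p]
              exact mul_le_mul_of_nonneg_left hrz (norm_nonneg _)
            have q2 : ‖a‖ ≤ ‖a‖ / r0 * ‖γ s‖ := by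
              rw [div_mul_eq_mul_div, le_div_iff₀ hr0p]
              exact mul_le_mul_of_nonneg_left hrz (norm_nonneg _)
            nlinarith [mul_nonneg hn hzn.le]
    rw [add_zero]
    apply max_le
    · simp only [hf']
      rw [norm_mul, hK]
      have : ‖W1 a b (γ s)‖ * ‖(x : ℂ) - z0‖ ≤ ‖f s‖ * ‖(x : ℂ) - z0‖ :=
        mul_le_mul_of_nonneg_right n2 (norm_nonneg _)
      nlinarith [norm_nonneg ((x : ℂ) - z0), mul_nonneg (norm_nonneg ((x : ℂ) - z0)) hn,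
        mul_nonneg (mul_nonneg (norm_nonneg ((x : ℂ) - z0)) hn) hba,
        mul_nonneg (mul_nonneg (norm_nonneg ((x : ℂ) - z0)) hn) haa]
    · simp only [hf']
      rw [norm_mul, hK]
      have : ‖W2 a b (γ s)‖ * ‖(x : ℂ) - z0‖ ≤ ((2 + ‖b‖ / r0 + ‖a‖ / r0) * ‖f s‖) * ‖(x : ℂ) - z0‖ :=
        mul_le_mul_of_nonneg_right e2 (norm_nonneg _)
      linarith
  have hg := norm_le_gronwallBound_of_norm_deriv_right_le (f := f) (f' := f') (δ := 0) (K := K) (ε := 0)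
    (a := 0) (b := 1) (fun s hs => (hd s hs).continuousAt.continuousWithinAt)
    (fun s hs => (hd s (Ico_subset_Icc_self hs)).hasDerivWithinAt)
    (by
      have e : f 0 = 0 := by
        simp only [hf, hγ]
        simp [h0, h1]
      rw [e, norm_zero]) hb 1 ⟨by norm_num, le_rfl⟩
  have hgz : gronwallBound 0 K 0 (1 - 0) = 0 := by
    simp [gronwallBound_ε0_δ0]
  rw [hgz] at hg
  have hf1 : f 1 = 0 := norm_le_zero_iff.1 hg
  have : W a b x = 0 := by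
    have h4 := congrArg Prod.fst hf1
    simp only [hf, hγ] at h4
    simpa using h4
  exact hxn this

/-- `ν = (l+5)² - 1/4`. -/
noncomputable def nu (l : ℕ) : ℝ := ((l : ℝ) + 5) ^ 2 - 1 / 4

theorem nu_nonneg (l : ℕ) : 0 ≤ nu l := by
  unfold nu
  have : (0 : ℝ) ≤ l := Nat.cast_nonneg l
  nlinarith

/-- gauge factor -/
noncomputable def g0 (l : ℕ) (z : ℂ) : ℂ := exp (((l : ℂ) + 11 / 2) * log z + I * z ^ 2 / 8)

noncomputable def Az (l : ℕ) (z : ℂ) : ℂ := ((l : ℂ) + 11 / 2) / z + I * z / 4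

noncomputable def fz (l : ℕ) (mu z : ℂ) : ℂ := g0 l z * W (mu + l / 2) (l + 6) (z ^ 2 / 4)

noncomputable def fz1 (l : ℕ) (mu z : ℂ) : ℂ :=
  g0 l z * (Az l z * W (mu + l / 2) (l + 6) (z ^ 2 / 4) + z / 2 * W1 (mu + l / 2) (l + 6) (z ^ 2 / 4))

theorem g0_ne (l : ℕ) (z : ℂ) : g0 l z ≠ 0 := exp_ne_zero _

theorem hasDerivAt_g0 (l : ℕ) {z : ℂ} (hz : z ∈ slitPlane) :
    HasDerivAt (g0 l) (g0 l z * Az l z) z := by
  have hz0 : z ≠ 0 := slitPlane_ne_zero hz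
  have h1 := (Complex.hasDerivAt_log hz).const_mul ((l : ℂ) + 11 / 2)
  have h2 : HasDerivAt (fun z : ℂ => I * z ^ 2 / 8) (I * (2 * z) / 8) z := by
    have h3 : HasDerivAt (fun z : ℂ => z ^ 2) (2 * z) z := by simpa using hasDerivAt_pow 2 z
    exact (h3.const_mul I).div_const 8
  have h3 := (h1.add h2).cexp
  refine h3.congr_deriv ?_
  unfold g0 Az
  simp only [Pi.add_apply]
  field_simp
  ring

theorem hasDerivAt_Az (l : ℕ) {z : ℂ} (hz : z ≠ 0) :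
    HasDerivAt (Az l) (-((l : ℂ) + 11 / 2) / z ^ 2 + I / 4) z := by
  have h1 := (hasDerivAt_inv hz).const_mul ((l : ℂ) + 11 / 2)
  have h2 := ((hasDerivAt_id z).const_mul I).div_const 4
  have h3 := h1.add h2
  have e : Az l = fun z : ℂ => ((l : ℂ) + 11 / 2) * z⁻¹ + I * z / 4 := by
    funext z; unfold Az; rw [div_eq_mul_inv]
  rw [e]
  refine h3.congr_deriv ?_
  field_simp

theorem hasDerivAt_fz {l : ℕ} {mu z : ℂ} (hmu : 0 ≤ mu.re) (hz : z ∈ slitPlane)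
    (hz2 : 0 < (z ^ 2 / 4).re) : HasDerivAt (fz l mu) (fz1 l mu z) z := by
  have hc : -1 < (mu + (l : ℂ) / 2).re := JCx.re_cond (by
    have : (0 : ℝ) ≤ l := Nat.cast_nonneg l
    linarith)
  have h0 := hasDerivAt_g0 l hz
  have h1 : HasDerivAt (fun z : ℂ => z ^ 2 / 4) (2 * z / 4) z := by
    have h3 : HasDerivAt (fun z : ℂ => z ^ 2) (2 * z) z := by simpa using hasDerivAt_pow 2 z
    exact h3.div_const 4
  have h2 := (JCx.W_hasDerivAt (a := mu + l / 2) (b := l + 6) hc hz2).comp z h1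
  refine (h0.mul h2).congr_deriv ?_
  unfold fz1
  simp only [Function.comp_apply]
  ring

theorem hasDerivAt_fz1 {l : ℕ} {mu z : ℂ} (hmu : 0 ≤ mu.re) (hz : z ∈ slitPlane)
    (hz2 : 0 < (z ^ 2 / 4).re) :
    HasDerivAt (fz1 l mu) (((nu l : ℝ) / z ^ 2 - z ^ 2 / 16 + 3 * I - I * mu) * fz l mu z) z := by
  have hz0 : z ≠ 0 := slitPlane_ne_zero hz
  have hc : -1 < (mu + (l : ℂ) / 2).re := JCx.re_cond (by
    have : (0 : ℝ) ≤ l := Nat.cast_nonneg l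
    linarith)
  have h0 := hasDerivAt_g0 l hz
  have hA := hasDerivAt_Az l hz0
  have h1 : HasDerivAt (fun z : ℂ => z ^ 2 / 4) (2 * z / 4) z := by
    have h3 : HasDerivAt (fun z : ℂ => z ^ 2) (2 * z) z := by simpa using hasDerivAt_pow 2 z
    exact h3.div_const 4
  have h2 := (JCx.W_hasDerivAt (a := mu + l / 2) (b := l + 6) hc hz2).comp z h1
  have h3 := (JCx.W1_hasDerivAt (a := mu + l / 2) (b := l + 6) hc hz2).comp z h1
  have hhalf : HasDerivAt (fun z : ℂ => z / 2) (1 / 2) z := (hasDerivAt_id z).div_const 2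
  have h4 := h0.mul ((hA.mul h2).add (hhalf.mul h3))
  refine h4.congr_deriv ?_
  have ode := JCx.W_ode (a := mu + l / 2) (b := l + 6) hc hz2
  unfold fz
  simp only [Function.comp_apply, Pi.mul_apply, Pi.add_apply]
  set w := W (mu + l / 2) (l + 6) (z ^ 2 / 4)
  set w1 := W1 (mu + l / 2) (l + 6) (z ^ 2 / 4)
  set w2 := W2 (mu + l / 2) (l + 6) (z ^ 2 / 4)
  have hnu : ((nu l : ℝ) : ℂ) = ((l : ℂ) + 5) ^ 2 - 1 / 4 := by unfold nu; push_cast; ring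
  rw [hnu]
  unfold Az
  have hI : I * I = -1 := Complex.I_mul_I
  field_simp
  linear_combination (1024 * g0 l z * z ^ 2) * ode + (64 * g0 l z * z ^ 4 * w) * hI

/-! ### decay on the ray -/

theorem J_bdd {a c : ℂ} (ha : 0 < a.re) : ∃ C : ℝ, 0 ≤ C ∧ ∀ z : ℂ, 1 / 4 ≤ z.re → ‖J a c z‖ ≤ C := by
  obtain ⟨M, hM⟩ := exists_nat_ge c.re
  refine ⟨Real.exp (Real.pi * |c.im|) * JCx.KM a.re a.re M (1 / 4) * (1 / 4 : ℝ) ^ (-a.re),
    by have := JCx.KM_nonneg a.re a.re M (r0 := 1 / 4) (by norm_num); positivity, ?_⟩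
  intro z hz
  have h := JCx.J_bound_re (a := a) (c := c) (z := z) (x0 := a.re) (x1 := a.re) (r0 := 1 / 4)
    (y := |c.im|) M ha le_rfl le_rfl (by norm_num) hz hM le_rfl
  refine h.trans ?_
  have hK := JCx.KM_nonneg a.re a.re M (r0 := 1 / 4) (by norm_num)
  apply mul_le_mul_of_nonneg_left _ (by positivity)
  exact Real.rpow_le_rpow_of_nonpos (by norm_num) hz (by linarith)

theorem W_bdd {a b : ℂ} (ha : -1 < a.re) : ∃ C : ℝ, 0 ≤ C ∧ ∀ z : ℂ, 1 / 4 ≤ z.re →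
    ‖W a b z‖ ≤ C * (1 + ‖z‖) ∧ ‖W1 a b z‖ ≤ C := by
  obtain ⟨C1, hC1, h1⟩ := J_bdd (a := a + 1) (c := b - a - 2) (by simp; linarith)
  obtain ⟨C2, hC2, h2⟩ := J_bdd (a := a + 2) (c := b - a - 2) (by simp; linarith)
  obtain ⟨C3, hC3, h3⟩ := J_bdd (a := a + 1) (c := b - a - 1) (by simp; linarith)
  refine ⟨(‖a + 1 - b‖ + 1) * C1 + C2 + ‖a‖ * C3, by positivity, ?_⟩
  intro z hz
  have hn := norm_nonneg z
  constructor
  · unfold W
    calc ‖(a + 1 - b - I * z) * J (a + 1) (b - a - 2) z + z * J (a + 2) (b - a - 2) z‖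
        ≤ ‖(a + 1 - b - I * z) * J (a + 1) (b - a - 2) z‖ + ‖z * J (a + 2) (b - a - 2) z‖ :=
          norm_add_le _ _
      _ ≤ (‖a + 1 - b‖ + ‖z‖) * C1 + ‖z‖ * C2 := by
          rw [norm_mul, norm_mul]
          apply add_le_add
          · apply mul_le_mul _ (h1 z hz) (norm_nonneg _) (by positivity)
            refine (norm_sub_le _ _).trans ?_
            rw [norm_mul, Complex.norm_I, one_mul]
          · exact mul_le_mul_of_nonneg_left (h2 z hz) hn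
      _ ≤ _ := by
          have e1 : 0 ≤ ‖a + 1 - b‖ * C1 := by positivity
          have e2 : 0 ≤ ‖a‖ * C3 := by positivity
          nlinarith [mul_nonneg hn e1, mul_nonneg hn e2, mul_nonneg hn hC1, mul_nonneg hn hC2]
  · unfold W1
    rw [norm_mul, norm_mul, Complex.norm_I, one_mul]
    have := mul_le_mul_of_nonneg_left (h3 z hz) (norm_nonneg a)
    have e1 : 0 ≤ (‖a + 1 - b‖ + 1) * C1 := by positivity
    linarith

theorem norm_g0_le (l : ℕ) {ρ t : ℝ} (hρ : 1 ≤ ρ) (ht : 0 ≤ t) :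
    ‖g0 l (zr ρ t)‖ ≤ ‖zr ρ t‖ ^ (l + 6) * Real.exp (-(t ^ 2 / 8)) := by
  have hz1 : 1 ≤ ‖zr ρ t‖ := hρ.trans (zr_norm_ge hρ ht)
  have hz0 : 0 < ‖zr ρ t‖ := by linarith
  unfold g0
  rw [Complex.norm_exp, Complex.add_re]
  have e1 : (((l : ℂ) + 11 / 2) * log (zr ρ t)).re = ((l : ℝ) + 11 / 2) * Real.log ‖zr ρ t‖ := by
    rw [show ((l : ℂ) + 11 / 2) = (((l : ℝ) + 11 / 2 : ℝ) : ℂ) by push_cast; ring,
      Complex.re_ofReal_mul, Complex.log_re]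
  have e2 : (I * (zr ρ t) ^ 2 / 8).re = -((Real.sqrt 2 * ρ * t + t ^ 2) / 8) := by
    rw [show I * (zr ρ t) ^ 2 / 8 = I * ((zr ρ t) ^ 2 * ((1 / 8 : ℝ) : ℂ)) by push_cast; ring]
    rw [Complex.I_mul_re, Complex.im_mul_ofReal, zr_sq_im]
    ring
  rw [e1, e2, Real.exp_add]
  have hlog : 0 ≤ Real.log ‖zr ρ t‖ := Real.log_nonneg hz1
  apply mul_le_mul
  · calc Real.exp (((l : ℝ) + 11 / 2) * Real.log ‖zr ρ t‖) ≤ Real.exp (((l + 6 : ℕ) : ℝ) * Real.log ‖zr ρ t‖) := by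
          apply Real.exp_le_exp.2
          apply mul_le_mul_of_nonneg_right _ hlog
          push_cast; linarith
      _ = ‖zr ρ t‖ ^ (l + 6) := by
          rw [mul_comm, Real.exp_mul, Real.exp_log hz0, Real.rpow_natCast]
  · apply Real.exp_le_exp.2
    have : 0 ≤ Real.sqrt 2 * ρ * t := by positivity
    linarith
  · positivity
  · positivity

theorem tendsto_ray (ρ C : ℝ) (k : ℕ) :
    Tendsto (fun t : ℝ => C * (ρ + t) ^ k * Real.exp (-(t ^ 2 / 8))) atTop (𝓝 0) := by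
  have h1 : Tendsto (fun x : ℝ => x ^ k * Real.exp (-x)) atTop (𝓝 0) :=
    Real.tendsto_pow_mul_exp_neg_atTop_nhds_zero k
  have h2 : Tendsto (fun t : ℝ => ρ + t) atTop atTop := tendsto_atTop_add_const_left _ _ tendsto_id
  have h3 := (h1.comp h2).const_mul (|C| * Real.exp ρ)
  rw [mul_zero] at h3
  rw [tendsto_zero_iff_norm_tendsto_zero]
  refine squeeze_zero' (Eventually.of_forall fun t => norm_nonneg _) ?_ h3
  filter_upwards [eventually_ge_atTop (8 : ℝ), eventually_ge_atTop (-ρ)] with t ht ht'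
  have hp : 0 ≤ ρ + t := by linarith
  simp only [Function.comp_apply]
  rw [norm_mul, norm_mul, Real.norm_eq_abs, Real.norm_of_nonneg (pow_nonneg hp k),
    Real.norm_of_nonneg (Real.exp_pos _).le]
  have e1 : Real.exp (-(t ^ 2 / 8)) ≤ Real.exp ρ * Real.exp (-(ρ + t)) := by
    rw [← Real.exp_add]
    apply Real.exp_le_exp.2
    nlinarith
  calc |C| * (ρ + t) ^ k * Real.exp (-(t ^ 2 / 8)) ≤ |C| * (ρ + t) ^ k * (Real.exp ρ * Real.exp (-(ρ + t))) :=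
        mul_le_mul_of_nonneg_left e1 (by positivity)
    _ = |C| * Real.exp ρ * ((ρ + t) ^ k * Real.exp (-(ρ + t))) := by ring

theorem zr_slit {ρ t : ℝ} (hρ : 1 ≤ ρ) (ht : 0 ≤ t) : zr ρ t ∈ slitPlane := by
  rw [Complex.mem_slitPlane_iff]; left
  rw [zr_re]
  have : 0 ≤ Real.sqrt 2 / 2 * t := by positivity
  linarith

theorem zr_sq4 {ρ t : ℝ} (hρ : 1 ≤ ρ) (ht : 0 ≤ t) : 1 / 4 ≤ ((zr ρ t) ^ 2 / 4).re := by
  have e : ((zr ρ t) ^ 2 / 4).re = (ρ ^ 2 + Real.sqrt 2 * ρ * t) / 4 := by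
    rw [show (zr ρ t) ^ 2 / 4 = (zr ρ t) ^ 2 * ((1 / 4 : ℝ) : ℂ) by push_cast; ring,
      Complex.re_mul_ofReal, zr_sq_re]; ring
  rw [e]
  have h1 : 1 ≤ ρ ^ 2 := one_le_pow₀ hρ
  have h2 : 0 ≤ Real.sqrt 2 * ρ * t := by positivity
  linarith

theorem ray_bound {l : ℕ} {mu : ℂ} (hmu : 0 ≤ mu.re) {ρ : ℝ} (hρ : 1 ≤ ρ) : ∃ C : ℝ, ∀ t : ℝ, 0 ≤ t →
    ‖fz l mu (zr ρ t)‖ ≤ C * (ρ + t) ^ (l + 9) * Real.exp (-(t ^ 2 / 8)) ∧
    ‖fz1 l mu (zr ρ t)‖ ≤ C * (ρ + t) ^ (l + 9) * Real.exp (-(t ^ 2 / 8)) := by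
  have hc : -1 < (mu + (l : ℂ) / 2).re := JCx.re_cond (by
    have : (0 : ℝ) ≤ l := Nat.cast_nonneg l
    linarith)
  obtain ⟨C, hC, hW⟩ := W_bdd (a := mu + l / 2) (b := l + 6) hc
  refine ⟨C * (2 * (l + 6) + 1 + 2), ?_⟩
  intro t ht
  have hz1 : 1 ≤ ‖zr ρ t‖ := hρ.trans (zr_norm_ge hρ ht)
  have hz0 : 0 < ‖zr ρ t‖ := by linarith
  have hzle := zr_norm_le (by linarith : 0 ≤ ρ) ht
  have hg := norm_g0_le l hρ ht
  obtain ⟨w0, w1⟩ := hW _ (zr_sq4 hρ ht)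
  set x := ‖zr ρ t‖ with hx
  have hzz : ‖(zr ρ t) ^ 2 / 4‖ ≤ x ^ 2 := by
    rw [norm_div, norm_pow]
    have : ‖(4 : ℂ)‖ = 4 := by simp
    rw [this]
    have := sq_nonneg x
    rw [div_le_iff₀ (by norm_num)]; linarith
  have hx2 : 1 ≤ x ^ 2 := one_le_pow₀ hz1
  have w0' : ‖W (mu + l / 2) (l + 6) ((zr ρ t) ^ 2 / 4)‖ ≤ 2 * C * x ^ 2 := by
    refine w0.trans ?_
    nlinarith
  have hl0 : (0 : ℝ) ≤ l := Nat.cast_nonneg l
  have hE := Real.exp_pos (-(t ^ 2 / 8))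
  have hxp : ∀ k : ℕ, k ≤ l + 9 → x ^ k ≤ (ρ + t) ^ (l + 9) := by
    intro k hk
    calc x ^ k ≤ x ^ (l + 9) := pow_le_pow_right₀ hz1 hk
      _ ≤ (ρ + t) ^ (l + 9) := pow_le_pow_left₀ hz0.le hzle _
  have hAz : ‖Az l (zr ρ t)‖ ≤ (l + 6) * x := by
    unfold Az
    refine (norm_add_le _ _).trans ?_
    rw [norm_div, norm_div, norm_mul, Complex.norm_I, one_mul]
    have e4 : ‖(4 : ℂ)‖ = 4 := by simp
    have e5 : ‖((l : ℂ) + 11 / 2)‖ = (l : ℝ) + 11 / 2 := by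
      rw [show ((l : ℂ) + 11 / 2) = (((l : ℝ) + 11 / 2 : ℝ) : ℂ) by push_cast; ring, Complex.norm_real,
        Real.norm_of_nonneg (by positivity)]
    rw [e4, e5, ← hx]
    have e6 : ((l : ℝ) + 11 / 2) / x ≤ (l + 11 / 2) := div_le_self (by positivity) hz1
    nlinarith
  constructor
  · unfold fz
    rw [norm_mul]
    calc ‖g0 l (zr ρ t)‖ * ‖W (mu + l / 2) (l + 6) ((zr ρ t) ^ 2 / 4)‖
        ≤ (x ^ (l + 6) * Real.exp (-(t ^ 2 / 8))) * (2 * C * x ^ 2) :=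
          mul_le_mul hg w0' (norm_nonneg _) (by positivity)
      _ = 2 * C * x ^ (l + 8) * Real.exp (-(t ^ 2 / 8)) := by ring
      _ ≤ C * (2 * (l + 6) + 1 + 2) * (ρ + t) ^ (l + 9) * Real.exp (-(t ^ 2 / 8)) := by
          apply mul_le_mul_of_nonneg_right _ hE.le
          have h1 := hxp (l + 8) (by omega)
          have h2 : 0 ≤ x ^ (l + 8) := by positivity
          apply mul_le_mul _ h1 h2 (by positivity)
          nlinarith
  · unfold fz1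
    rw [norm_mul]
    have e1 : ‖Az l (zr ρ t) * W (mu + l / 2) (l + 6) ((zr ρ t) ^ 2 / 4) +
        zr ρ t / 2 * W1 (mu + l / 2) (l + 6) ((zr ρ t) ^ 2 / 4)‖ ≤ C * (2 * (l + 6) + 1) * x ^ 3 := by
      refine (norm_add_le _ _).trans ?_
      rw [norm_mul, norm_mul, norm_div]
      have e2 : ‖(2 : ℂ)‖ = 2 := by simp
      rw [e2, ← hx]
      have p1 : ‖Az l (zr ρ t)‖ * ‖W (mu + l / 2) (l + 6) ((zr ρ t) ^ 2 / 4)‖ ≤ ((l + 6) * x) * (2 * C * x ^ 2) :=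
        mul_le_mul hAz w0' (norm_nonneg _) (by positivity)
      have p2 : x / 2 * ‖W1 (mu + l / 2) (l + 6) ((zr ρ t) ^ 2 / 4)‖ ≤ x / 2 * C :=
        mul_le_mul_of_nonneg_left w1 (by positivity)
      have p3 : x / 2 * C ≤ C * x ^ 3 := by
        have : x / 2 ≤ x ^ 3 := by nlinarith
        nlinarith
      nlinarith
    calc ‖g0 l (zr ρ t)‖ * _ ≤ (x ^ (l + 6) * Real.exp (-(t ^ 2 / 8))) * (C * (2 * (l + 6) + 1) * x ^ 3) :=
          mul_le_mul hg e1 (norm_nonneg _) (by positivity)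
      _ = C * (2 * (l + 6) + 1) * x ^ (l + 9) * Real.exp (-(t ^ 2 / 8)) := by ring
      _ ≤ C * (2 * (l + 6) + 1 + 2) * (ρ + t) ^ (l + 9) * Real.exp (-(t ^ 2 / 8)) := by
          apply mul_le_mul_of_nonneg_right _ hE.le
          have h1 := hxp (l + 9) le_rfl
          have h2 : 0 ≤ x ^ (l + 9) := by positivity
          apply mul_le_mul _ h1 h2 (by positivity)
          nlinarith

/-- The outgoing solution on the ray. -/
theorem sol_fz {l : ℕ} {mu : ℂ} (hmu : 0 ≤ mu.re) {ρ : ℝ} (hρ : 1 ≤ ρ) :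
    Sol (fun t => fz l mu (zr ρ t)) (fun t => e4 * fz1 l mu (zr ρ t)) (K ρ 0 (nu l) mu) 0 := by
  have hFd : ∀ t, 0 ≤ t → HasDerivAt (fun t => fz l mu (zr ρ t)) (e4 * fz1 l mu (zr ρ t)) t := by
    intro t ht
    have h1 := (hasDerivAt_fz (l := l) (mu := mu) hmu (zr_slit hρ ht)
      (by have := zr_sq4 hρ ht; linarith)).comp t (hasDerivAt_zr ρ t)
    rw [mul_comm] at h1
    exact h1
  have hGd : ∀ t, 0 ≤ t → HasDerivAt (fun t => e4 * fz1 l mu (zr ρ t))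
      (K ρ 0 (nu l) mu t * fz l mu (zr ρ t)) t := by
    intro t ht
    have h1 := ((hasDerivAt_fz1 (l := l) (mu := mu) hmu (zr_slit hρ ht)
      (by have := zr_sq4 hρ ht; linarith)).comp t (hasDerivAt_zr ρ t)).const_mul e4
    refine h1.congr_deriv ?_
    have hz0 := zr_ne hρ ht
    unfold K Kz
    have he := e4_sq
    have hI : I * I = -1 := Complex.I_mul_I
    have e1 : e4 * (((nu l : ℝ) / (zr ρ t) ^ 2 - (zr ρ t) ^ 2 / 16 + 3 * I - I * mu) * fz l mu (zr ρ t) * e4)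
        = e4 ^ 2 * (((nu l : ℝ) / (zr ρ t) ^ 2 - (zr ρ t) ^ 2 / 16 + 3 * I - I * mu) * fz l mu (zr ρ t)) := by ring
    rw [e1, he]
    push_cast
    linear_combination ((3 - mu) * fz l mu (zr ρ t)) * hI
  obtain ⟨C, hC⟩ := ray_bound (l := l) hmu hρ
  refine ⟨fun t ht => (hFd t ht).continuousAt.continuousWithinAt,
    fun t ht => (hGd t ht).continuousAt.continuousWithinAt,
    fun t ht => hFd t ht.le, fun t ht => hGd t ht.le, ?_, ?_, ?_⟩
  · rw [tendsto_zero_iff_norm_tendsto_zero]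
    refine squeeze_zero' (Eventually.of_forall fun t => norm_nonneg _) ?_ (tendsto_ray ρ C (l + 9))
    filter_upwards [eventually_ge_atTop (0 : ℝ)] with t ht using (hC t ht).1
  · rw [tendsto_zero_iff_norm_tendsto_zero]
    refine squeeze_zero' (Eventually.of_forall fun t => norm_nonneg _) ?_ (tendsto_ray ρ C (l + 9))
    filter_upwards [eventually_ge_atTop (0 : ℝ)] with t ht
    rw [norm_mul, norm_e4, one_mul]
    exact (hC t ht).2
  · intro t ht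
    have hre : -1 - (l : ℝ) / 2 < mu.re := by
      have : (0 : ℝ) ≤ l := Nat.cast_nonneg l
      linarith
    have hc : -1 < (mu + (l : ℂ) / 2).re := JCx.re_cond hre
    obtain ⟨r, hr1, hr2⟩ := ((JCx.Phi_eventually_ne_zero (l := l) (mu := mu) hre).and
      (eventually_ge_atTop (1 : ℝ))).exists
    have hWr : W (mu + l / 2) (l + 6) ((r ^ 2 / 4 : ℝ) : ℂ) ≠ 0 := by
      intro h0
      apply hr1
      unfold JCx.Phi JCx.zr
      rw [h0, mul_zero]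
    by_contra hcon
    push Not at hcon
    obtain ⟨c1, c2⟩ := hcon
    have hz4 : 0 < ((zr ρ t) ^ 2 / 4).re := by have := zr_sq4 hρ ht; linarith
    have hz0 := zr_ne hρ ht
    have w0 : W (mu + l / 2) (l + 6) ((zr ρ t) ^ 2 / 4) = 0 := by
      unfold fz at c1
      exact (mul_eq_zero.1 c1).resolve_left (g0_ne _ _)
    have w1 : W1 (mu + l / 2) (l + 6) ((zr ρ t) ^ 2 / 4) = 0 := by
      have h1 := (mul_eq_zero.1 c2).resolve_left e4_ne
      unfold fz1 at h1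
      have h2 := (mul_eq_zero.1 h1).resolve_left (g0_ne _ _)
      rw [w0, mul_zero, zero_add] at h2
      exact (mul_eq_zero.1 h2).resolve_left (div_ne_zero hz0 (by norm_num))
    exact W_no_common hc hz4 (by positivity) hWr ⟨w0, w1⟩

/-- radial log-derivative of `r^{11/2} e^{i r²/8} fo l mu r`. -/
noncomputable def hr (l : ℕ) (mu : ℂ) (ρ : ℝ) : ℂ :=
  11 / (2 * (ρ : ℂ)) + I * ρ / 4 + A.fo1 l mu ρ / A.fo l mu ρ

/-- EXTERIOR DtN ASYMPTOTICS for the outgoing solution `fo l mu` of Part A. -/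
theorem dtn_fo {η : ℝ} (hη : 0 < η) : ∃ C L0 : ℝ, 0 < C ∧ 1 ≤ L0 ∧
    ∀ (l : ℕ) (mu : ℂ) (ρ : ℝ), 1 ≤ ρ → ρ ≤ 10 → 0 ≤ mu.re →
      L0 ≤ ‖mu‖ + nu l → η * (‖mu‖ + nu l) ≤ ‖mu + I * (nu l : ℝ) / (ρ : ℂ) ^ 2‖ →
      A.fo l mu ρ ≠ 0 ∧
      ‖e4 * hr l mu ρ + csq (Kz 0 (nu l) mu ρ) + Kz1 (nu l) ρ * e4 / (4 * Kz 0 (nu l) mu ρ)‖
        ≤ C / Real.sqrt (‖mu‖ + nu l) := by
  obtain ⟨C, L0, hC, hL0, h⟩ := dtn hη
  refine ⟨C, L0, hC, hL0, ?_⟩
  intro l mu ρ hρ hρ' hmu hL hng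
  obtain ⟨hF, hG⟩ := h ρ 0 (nu l) mu _ _ hρ hρ' (by simp) (nu_nonneg l) hmu hL hng (sol_fz hmu hρ)
  have hz0 : zr ρ 0 = (ρ : ℂ) := zr_zero ρ
  simp only [hz0] at hF hG
  have hρ0 : (ρ : ℂ) ≠ 0 := by exact_mod_cast (by linarith : ρ ≠ 0)
  have hzz : ((ρ : ℂ)) ^ 2 / 4 = ((ρ ^ 2 / 4 : ℝ) : ℂ) := by push_cast; ring
  have hW : W (mu + l / 2) (l + 6) ((ρ ^ 2 / 4 : ℝ) : ℂ) ≠ 0 := by
    intro h0
    apply hF
    unfold fz
    rw [hzz, h0, mul_zero]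
  have hfo : A.fo l mu ρ ≠ 0 := by
    unfold A.fo
    exact mul_ne_zero (pow_ne_zero _ hρ0) hW
  refine ⟨hfo, ?_⟩
  have e : e4 * hr l mu ρ = e4 * fz1 l mu ρ / fz l mu ρ := by
    unfold hr fz1 fz Az A.fo1 A.fo
    rw [hzz]
    set w := W (mu + l / 2) (l + 6) ((ρ ^ 2 / 4 : ℝ) : ℂ)
    set w1 := W1 (mu + l / 2) (l + 6) ((ρ ^ 2 / 4 : ℝ) : ℂ)
    have hg := g0_ne l (ρ : ℂ)
    have hp : (ρ : ℂ) ^ l ≠ 0 := pow_ne_zero _ hρ0
    field_simp
    ring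
  rw [e]
  exact hG

end Crest.Agent.R086.Dtn
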