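import Crest.Agent.R086.DtnE

/-!
Row 86 (S0114), Part C, node DTN (helper846 for helper480): corollaries of `dtn`
(propagating and evanescent channel).
-/

set_option autoImplicit false

open Complex Set Filter Topology

namespace Crest.Agent.R086.Dtn

/-- conclusion of `dtn` for the radial logarithmic derivative `hr` (`G 0 / F 0 = e4 * hr`). -/
def Asy (C ρ ν : ℝ) (mu hr : ℂ) : Prop :=
  ‖e4 * hr + csq (Kz 0 ν mu ρ) + Kz1 ν ρ * e4 / (4 * Kz 0 ν mu ρ)‖ ≤ C / Real.sqrt (‖mu‖ + ν)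

/-- the real potential: `Kz 0 ν mu ρ = I * Vv ρ ν mu` -/
noncomputable def Vv (ρ ν : ℝ) (mu : ℂ) : ℂ := ⟨ν / ρ ^ 2 - ρ ^ 2 / 16 + mu.im, 3 - mu.re⟩

/-- its derivative -/
noncomputable def Vp (ρ ν : ℝ) : ℝ := -(ρ / 8 + 2 * ν / ρ ^ 3)

theorem Kz_eq (ρ ν : ℝ) (mu : ℂ) : Kz 0 ν mu ρ = I * Vv ρ ν mu := by
  unfold Kz
  have h1 : (I * ν / (ρ : ℂ) ^ 2) = I * ((ν / ρ ^ 2 : ℝ) : ℂ) := by push_cast; ring
  have h2 : (I * (ρ : ℂ) ^ 2 / 16) = I * ((ρ ^ 2 / 16 : ℝ) : ℂ) := by push_cast; ring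
  rw [h1, h2]
  unfold Vv
  generalize ν / ρ ^ 2 = x
  generalize ρ ^ 2 / 16 = y
  apply Complex.ext
  · simp
  · simp; ring

theorem Kz1_eq (ρ ν : ℝ) : Kz1 ν ρ = I * (Vp ρ ν : ℂ) := by
  unfold Kz1 Vp
  push_cast
  ring

theorem sigma_exists {ρ ν : ℝ} {mu : ℂ} (h6 : 6 ≤ ‖Vv ρ ν mu‖) (ha : 0 ≤ mu.re) :
    ∃ σ : ℂ, σ ^ 2 = Vv ρ ν mu ∧ σ.im < σ.re ∧ ∀ (C : ℝ) (hr : ℂ), Asy C ρ ν mu hr →
      ‖hr + σ + (Vp ρ ν : ℂ) / (4 * Vv ρ ν mu)‖ ≤ C / Real.sqrt (‖mu‖ + ν) := by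
  have hK := Kz_eq ρ ν mu
  have hV0 : Vv ρ ν mu ≠ 0 := by
    intro h; rw [h, norm_zero] at h6; linarith
  have hK0 : Kz 0 ν mu ρ ≠ 0 := by rw [hK]; exact mul_ne_zero I_ne_zero hV0
  have hKn : ‖Kz 0 ν mu ρ‖ = ‖Vv ρ ν mu‖ := by rw [hK, norm_mul, norm_I, one_mul]
  have hKre : -3 ≤ (Kz 0 ν mu ρ).re := by
    rw [hK]; simp [Vv]; exact ha
  have hre := csq_re_ge hKre (by rw [hKn]; exact h6)
  have hsq := csq_sq hK0
  have hn := norm_csq hK0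
  have hpos : 0 < ‖csq (Kz 0 ν mu ρ)‖ := by
    rw [norm_pos_iff]; intro h; rw [h] at hsq; simp at hsq; exact hK0 hsq.symm
  set s := csq (Kz 0 ν mu ρ) with hs
  refine ⟨s / e4, ?_, ?_, ?_⟩
  · rw [div_pow, hsq, e4_sq, hK]
    field_simp
  · have h1 : s = e4 * (s / e4) := by field_simp [e4_ne]
    have h2 : s.re = Real.sqrt 2 / 2 * ((s / e4).re - (s / e4).im) := by
      conv_lhs => rw [h1]
      rw [Complex.mul_re, e4_re, e4_im]
      ring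
    have h3 : 0 < s.re := by linarith
    have h4 : 0 < Real.sqrt 2 / 2 := by positivity
    rw [h2] at h3
    have := (mul_pos_iff_of_pos_left h4).1 h3
    linarith
  · intro C hr h
    unfold Asy at h
    rw [← hs] at h
    have e : e4 * (hr + s / e4 + (Vp ρ ν : ℂ) / (4 * Vv ρ ν mu))
        = e4 * hr + s + Kz1 ν ρ * e4 / (4 * Kz 0 ν mu ρ) := by
      rw [Kz1_eq, hK]
      field_simp [e4_ne, hV0, I_ne_zero]
    have e2 : ‖hr + s / e4 + (Vp ρ ν : ℂ) / (4 * Vv ρ ν mu)‖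
        = ‖e4 * (hr + s / e4 + (Vp ρ ν : ℂ) / (4 * Vv ρ ν mu))‖ := by
      rw [norm_mul, norm_e4, one_mul]
    rw [e2, e]
    exact h

theorem Vv_re (ρ ν : ℝ) (mu : ℂ) : (Vv ρ ν mu).re = ν / ρ ^ 2 - ρ ^ 2 / 16 + mu.im := rfl
theorem Vv_im (ρ ν : ℝ) (mu : ℂ) : (Vv ρ ν mu).im = 3 - mu.re := rfl

section basic

variable {ρ ν A : ℝ} {mu : ℂ}

theorem rho_sq (hρ : 1 ≤ ρ) (hρ' : ρ ≤ 10) : 1 ≤ ρ ^ 2 ∧ ρ ^ 2 ≤ 100 := by
  constructor <;> nlinarith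

theorem nu_le (hρ : 1 ≤ ρ) (hν : 0 ≤ ν) : ν / ρ ^ 2 ≤ ν := by
  rw [div_le_iff₀ (by positivity)]
  nlinarith [mul_le_mul_of_nonneg_left (one_le_pow₀ hρ (n := 2)) hν]

theorem nu_ge (hρ : 1 ≤ ρ) (hρ' : ρ ≤ 10) (hν : 0 ≤ ν) : ν / 100 ≤ ν / ρ ^ 2 :=
  div_le_div_of_nonneg_left hν (by positivity) (rho_sq hρ hρ').2

theorem norm_mu_le (ha : 0 ≤ mu.re) (hA : mu.re ≤ A) : ‖mu‖ ≤ A + |mu.im| :=
  (Complex.norm_le_abs_re_add_abs_im mu).trans (by rw [abs_of_nonneg ha]; linarith)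

theorem im_le_norm : |mu.im| ≤ ‖mu‖ := Complex.abs_im_le_norm mu

theorem Vim_le (ha : 0 ≤ mu.re) (hA : mu.re ≤ A) : |(Vv ρ ν mu).im| ≤ 3 + A := by
  rw [Vv_im, abs_le]; constructor <;> linarith

theorem Vv_le (hρ : 1 ≤ ρ) (hρ' : ρ ≤ 10) (hν : 0 ≤ ν) (ha : 0 ≤ mu.re) (hA : mu.re ≤ A)
    (hS : 1 ≤ ‖mu‖ + ν) : ‖Vv ρ ν mu‖ ≤ (11 + A) * (‖mu‖ + ν) := by
  have h1 := Complex.norm_le_abs_re_add_abs_im (Vv ρ ν mu)
  have h2 := Vim_le (ρ := ρ) (ν := ν) ha hA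
  have h3 := nu_le hρ hν
  have h4 := rho_sq hρ hρ'
  have h5 := im_le_norm (mu := mu)
  have h6 : |(Vv ρ ν mu).re| ≤ ν + ‖mu‖ + 7 := by
    rw [Vv_re, abs_le]
    have h7 : 0 ≤ ν / ρ ^ 2 := by positivity
    have := abs_le.1 h5
    constructor <;> linarith
  have hA0 : 0 ≤ A := ha.trans hA
  nlinarith

theorem Vp_le (hρ : 1 ≤ ρ) (hρ' : ρ ≤ 10) (hν : 0 ≤ ν) (hS : 1 ≤ ‖mu‖ + ν) :
    |Vp ρ ν| ≤ 4 * (‖mu‖ + ν) := by
  have h1 : 2 * ν / ρ ^ 3 ≤ 2 * ν := by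
    rw [div_le_iff₀ (by positivity)]
    nlinarith [mul_le_mul_of_nonneg_left (one_le_pow₀ hρ (n := 3)) hν]
  have h2 : 0 ≤ 2 * ν / ρ ^ 3 := by positivity
  unfold Vp
  rw [abs_neg, abs_of_nonneg (by positivity)]
  have := norm_nonneg mu
  linarith

theorem Vp_nonpos (hρ : 1 ≤ ρ) (hν : 0 ≤ ν) : Vp ρ ν ≤ 0 := by
  unfold Vp
  have : 0 ≤ ρ / 8 + 2 * ν / ρ ^ 3 := by positivity
  linarith

theorem w_le {c : ℝ} (hc : 0 < c) (hρ : 1 ≤ ρ) (hρ' : ρ ≤ 10) (hν : 0 ≤ ν) (hS : 1 ≤ ‖mu‖ + ν)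
    (hV : c * (‖mu‖ + ν) ≤ ‖Vv ρ ν mu‖) :
    ‖(Vp ρ ν : ℂ) / (4 * Vv ρ ν mu)‖ ≤ 1 / c := by
  have h1 := Vp_le (mu := mu) hρ hρ' hν hS
  have h2 : 0 < ‖Vv ρ ν mu‖ := lt_of_lt_of_le (by positivity) hV
  rw [norm_div, norm_mul, Complex.norm_real, Real.norm_eq_abs, Complex.norm_ofNat,
    div_le_div_iff₀ (by positivity) hc]
  nlinarith

end basic

/-- bounds of `V.re` in the propagating case -/
theorem prop_re {η A ρ ν : ℝ} {mu : ℂ} (hη : 0 < η) (hρ : 1 ≤ ρ) (hρ' : ρ ≤ 10) (hν : 0 ≤ ν)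
    (ha : 0 ≤ mu.re) (hA : mu.re ≤ A) (h : (1 + η) * ν ≤ -mu.im * ρ ^ 2)
    (hS : 2 * A ≤ ‖mu‖ + ν) :
    ν / ρ ^ 2 + mu.im ≤ -(η / (202 * (1 + η)) * (‖mu‖ + ν)) := by
  have h1 := rho_sq hρ hρ'
  have hn := norm_mu_le ha hA
  have hρ0 : 0 < ρ ^ 2 := by positivity
  have hb : mu.im ≤ 0 := by
    by_contra hcon
    push Not at hcon
    nlinarith [mul_pos hcon hρ0, mul_nonneg (by linarith : 0 ≤ 1 + η) hν]
  rw [abs_of_nonpos hb] at hn
  set b := -mu.im with hbdef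
  have hb0 : 0 ≤ b := by linarith
  have h2 : ν / ρ ^ 2 ≤ b / (1 + η) := by
    rw [div_le_div_iff₀ hρ0 (by linarith)]
    linarith
  have h3 : ν ≤ 100 * b := by nlinarith [mul_nonneg hη.le hν]
  have h4 : (‖mu‖ + ν) / 202 ≤ b := by linarith
  have h5 : ν / ρ ^ 2 + mu.im ≤ -(η / (1 + η) * b) := by
    have : b / (1 + η) - b = -(η / (1 + η) * b) := by
      field_simp; ring
    have e : mu.im = -b := by rw [hbdef]; ring
    rw [e]; linarith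
  refine h5.trans ?_
  have h6 : η / (202 * (1 + η)) * (‖mu‖ + ν) = η / (1 + η) * ((‖mu‖ + ν) / 202) := by
    field_simp
  rw [h6]
  have : 0 ≤ η / (1 + η) := by positivity
  nlinarith [mul_le_mul_of_nonneg_left h4 this]

/-- bounds of `V.re` in the evanescent case -/
theorem evan_re {η A ρ ν : ℝ} {mu : ℂ} (hη : 0 < η) (hρ : 1 ≤ ρ) (hρ' : ρ ≤ 10) (hν : 0 ≤ ν)
    (ha : 0 ≤ mu.re) (hA : mu.re ≤ A) (h : -(1 - η) * ν ≤ mu.im * ρ ^ 2) :
    min η 1 / 200 * (‖mu‖ + ν - A) ≤ ν / ρ ^ 2 + mu.im := by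
  have h1 := rho_sq hρ hρ'
  have hn := norm_mu_le ha hA
  have hρ0 : 0 < ρ ^ 2 := by positivity
  have hm0 : 0 < min η 1 := lt_min hη one_pos
  have hm1 : min η 1 ≤ 1 := min_le_right _ _
  have hmη : min η 1 ≤ η := min_le_left _ _
  have hge := nu_ge hρ hρ' hν
  rcases le_or_gt 0 mu.im with hb | hb
  · rw [abs_of_nonneg hb] at hn
    nlinarith [mul_nonneg hm0.le hν, mul_nonneg hm0.le hb, mul_nonneg (sub_nonneg.2 hm1) hν,
      mul_nonneg (sub_nonneg.2 hm1) hb, mul_le_mul_of_nonneg_left hn hm0.le]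
  · rw [abs_of_neg hb] at hn
    have h2 : -(1 - η) * (ν / ρ ^ 2) ≤ mu.im := by
      rw [mul_div_assoc', div_le_iff₀ hρ0]; exact h
    have hq : 0 ≤ ν / ρ ^ 2 := by positivity
    have h3 : η * (ν / ρ ^ 2) ≤ ν / ρ ^ 2 + mu.im := by linarith
    have hη1 : 0 < 1 - η := by
      by_contra hcon
      push Not at hcon
      nlinarith [mul_nonneg (neg_nonneg.2 hcon) hν]
    have h4 : -mu.im ≤ ν := by
      have := nu_le hρ hν
      nlinarith [mul_nonneg hη.le hq]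
    have h5 : ‖mu‖ + ν - A ≤ 2 * ν := by linarith
    calc min η 1 / 200 * (‖mu‖ + ν - A) ≤ min η 1 / 200 * (2 * ν) := by gcongr
      _ = min η 1 * (ν / 100) := by ring
      _ ≤ η * (ν / ρ ^ 2) := by gcongr
      _ ≤ _ := h3

theorem ng_prop (η A : ℝ) (hη : 0 < η) (hA : 0 ≤ A) : ∃ η' L0 : ℝ, 0 < η' ∧ 0 < L0 ∧
    ∀ (ρ ν : ℝ) (mu : ℂ), 1 ≤ ρ → ρ ≤ 10 → 0 ≤ ν → 0 ≤ mu.re → mu.re ≤ A →
      (1 + η) * ν ≤ -mu.im * ρ ^ 2 → L0 ≤ ‖mu‖ + ν →
      η' * (‖mu‖ + ν) ≤ ‖mu + I * ν / (ρ : ℂ) ^ 2‖ := by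
  refine ⟨η / (202 * (1 + η)), 2 * A + 1, by positivity, by positivity, ?_⟩
  intro ρ ν mu hρ hρ' hν ha hA' h hS
  have h1 := prop_re hη hρ hρ' hν ha hA' h (by linarith)
  have h2 : (mu + I * ν / (ρ : ℂ) ^ 2).im = ν / ρ ^ 2 + mu.im := by
    have : (I * ν / (ρ : ℂ) ^ 2) = I * ((ν / ρ ^ 2 : ℝ) : ℂ) := by push_cast; ring
    rw [this]
    generalize ν / ρ ^ 2 = x
    simp; ring
  have h3 := Complex.abs_im_le_norm (mu + I * ν / (ρ : ℂ) ^ 2)
  rw [h2] at h3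
  have := neg_abs_le (ν / ρ ^ 2 + mu.im)
  linarith

theorem ng_evan (η A : ℝ) (hη : 0 < η) (hA : 0 ≤ A) : ∃ η' L0 : ℝ, 0 < η' ∧ 0 < L0 ∧
    ∀ (ρ ν : ℝ) (mu : ℂ), 1 ≤ ρ → ρ ≤ 10 → 0 ≤ ν → 0 ≤ mu.re → mu.re ≤ A →
      -(1 - η) * ν ≤ mu.im * ρ ^ 2 → L0 ≤ ‖mu‖ + ν →
      η' * (‖mu‖ + ν) ≤ ‖mu + I * ν / (ρ : ℂ) ^ 2‖ := by
  have hm0 : 0 < min η 1 := lt_min hη one_pos
  refine ⟨min η 1 / 400, 2 * A + 1, by positivity, by positivity, ?_⟩
  intro ρ ν mu hρ hρ' hν ha hA' h hS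
  have h1 := evan_re hη hρ hρ' hν ha hA' h
  have h2 : (mu + I * ν / (ρ : ℂ) ^ 2).im = ν / ρ ^ 2 + mu.im := by
    have : (I * ν / (ρ : ℂ) ^ 2) = I * ((ν / ρ ^ 2 : ℝ) : ℂ) := by push_cast; ring
    rw [this]
    generalize ν / ρ ^ 2 = x
    simp; ring
  have h3 := Complex.abs_im_le_norm (mu + I * ν / (ρ : ℂ) ^ 2)
  rw [h2] at h3
  have h4 := le_abs_self (ν / ρ ^ 2 + mu.im)
  have h5 : min η 1 / 400 * (‖mu‖ + ν) ≤ min η 1 / 200 * (‖mu‖ + ν - A) := by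
    have : (‖mu‖ + ν) / 2 ≤ ‖mu‖ + ν - A := by linarith
    calc min η 1 / 400 * (‖mu‖ + ν) = min η 1 / 200 * ((‖mu‖ + ν) / 2) := by ring
      _ ≤ _ := by gcongr
  linarith

/-! ### real lemmas -/

theorem aux_neg {x y X : ℝ} (h : x ^ 2 - y ^ 2 = X) (hX : X < 0) (hlt : y < x) : y < 0 := by
  by_contra hcon
  push Not at hcon
  nlinarith

theorem aux_pos {x y X : ℝ} (h : x ^ 2 - y ^ 2 = X) (hX : 0 < X) (hlt : y < x) : 0 < x := by
  by_contra hcon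
  push Not at hcon
  nlinarith

theorem aux_D {c S D : ℝ} (hc : 0 < c) (h : 4 * D ^ 2 / c ≤ S) :
    D ≤ Real.sqrt c * Real.sqrt S / 2 := by
  rw [div_le_iff₀ hc] at h
  have h9 : 2 * D ≤ Real.sqrt (c * S) := by
    apply Real.le_sqrt_of_sq_le
    nlinarith
  rw [Real.sqrt_mul hc.le] at h9
  linarith

theorem aux_hxy {A c S x y : ℝ} (hA : 0 < 3 + A) (hc : 0 < c) (hS1 : 1 ≤ S)
    (g : 2 * (3 + A) ^ 2 / c ^ 2 ≤ S) (hx : c * S ≤ x ^ 2)
    (hy : |y| ≤ (3 + A) / Real.sqrt c / Real.sqrt S / 2) : 3 * y ^ 2 ≤ x ^ 2 := by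
  have hS0 : 0 < S := by linarith
  have h1 : y ^ 2 ≤ (3 + A) ^ 2 / c / S / 4 := by
    have := pow_le_pow_left₀ (abs_nonneg y) hy 2
    rw [sq_abs] at this
    refine this.trans (le_of_eq ?_)
    rw [div_pow, div_pow, div_pow, Real.sq_sqrt hc.le, Real.sq_sqrt hS0.le]
    norm_num
  have h3 : 3 * ((3 + A) ^ 2 / c / S / 4) ≤ c * S := by
    rw [div_le_iff₀ (by positivity)] at g
    have e : 3 * ((3 + A) ^ 2 / c / S / 4) = 3 / 4 * (3 + A) ^ 2 / (c * S) := by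
      field_simp
    rw [e, div_le_iff₀ (by positivity)]
    have h5 : (3 + A) ^ 2 ≤ S * c ^ 2 := by nlinarith [sq_nonneg (3 + A)]
    have h6 : S * c ^ 2 ≤ S * c ^ 2 * S := le_mul_of_one_le_right (by positivity) hS1
    have h7 : 3 / 4 * (3 + A) ^ 2 ≤ (3 + A) ^ 2 := by nlinarith [sq_nonneg (3 + A)]
    calc 3 / 4 * (3 + A) ^ 2 ≤ S * c ^ 2 * S := by linarith
      _ = c * S * (c * S) := by ring
  linarith

theorem aux_cross {x y u v X Y V : ℝ} (hX0 : 0 < X) (hx0 : 0 < x) (hX : x ^ 2 - y ^ 2 = X)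
    (hY : 2 * x * y = Y) (hV : V ≤ 0) (h1 : 4 * (u * X - v * Y) = V) (h2 : u * Y + v * X = 0)
    (hxy : 3 * y ^ 2 ≤ x ^ 2) : x * u + y * v ≤ 0 := by
  have e : v * X = -(u * Y) := by linarith
  have hu : u ≤ 0 := by
    have h3 : 4 * u * (X ^ 2 + Y ^ 2) = V * X := by
      calc 4 * u * (X ^ 2 + Y ^ 2) = 4 * (u * X - v * Y) * X + 4 * Y * (u * Y + v * X) := by ring
        _ = _ := by rw [h1, h2]; ring
    by_contra hcon
    push Not at hcon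
    have h4 : 0 < 4 * u * (X ^ 2 + Y ^ 2) := by positivity
    have h5 : V * X ≤ 0 := mul_nonpos_of_nonpos_of_nonneg hV hX0.le
    linarith
  have h3 : X * (x * u + y * v) = u * (x * (x ^ 2 - 3 * y ^ 2)) := by
    calc X * (x * u + y * v) = x * u * X + y * (v * X) := by ring
      _ = x * u * X + y * (-(u * Y)) := by rw [e]
      _ = _ := by rw [← hX, ← hY]; ring
  have h4 : u * (x * (x ^ 2 - 3 * y ^ 2)) ≤ 0 :=
    mul_nonpos_of_nonpos_of_nonneg hu (mul_nonneg hx0.le (by linarith))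
  by_contra hcon
  push Not at hcon
  have := mul_pos hX0 hcon
  linarith

theorem aux_sq {a b C E s : ℝ} (ha : 0 ≤ a) (_hb : 0 ≤ b) (hC : 0 ≤ C) (hs : 1 ≤ s)
    (h : a ≤ b + C / s) (hbE : b ≤ E * s) : a ^ 2 ≤ b ^ 2 + 2 * E * C + C ^ 2 := by
  have hs0 : 0 < s := by linarith
  have h0 : 0 ≤ C / s := by positivity
  have h1 : a ^ 2 ≤ (b + C / s) ^ 2 := pow_le_pow_left₀ ha h 2
  have h2 : 2 * b * (C / s) ≤ 2 * E * C := by
    calc 2 * b * (C / s) ≤ 2 * (E * s) * (C / s) := by gcongr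
      _ = 2 * E * C := by field_simp
  have h3 : (C / s) ^ 2 ≤ C ^ 2 := pow_le_pow_left₀ h0 (div_le_self hC hs) 2
  have h4 : (b + C / s) ^ 2 = b ^ 2 + 2 * b * (C / s) + (C / s) ^ 2 := by ring
  linarith

theorem prop_cor (η A C : ℝ) (hη : 0 < η) (hA : 0 ≤ A) (hC : 0 ≤ C) :
    ∃ C' L0 : ℝ, 1 ≤ C' ∧ 1 ≤ L0 ∧ ∀ (ρ ν : ℝ) (mu hr : ℂ), 1 ≤ ρ → ρ ≤ 10 → 0 ≤ ν →
      0 ≤ mu.re → mu.re ≤ A → (1 + η) * ν ≤ -mu.im * ρ ^ 2 → L0 ≤ ‖mu‖ + ν →
      Asy C ρ ν mu hr →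
      Real.sqrt (‖mu‖ + ν) / C' ≤ hr.im ∧ ‖hr‖ ≤ C' * Real.sqrt (‖mu‖ + ν) := by
  set c : ℝ := η / (202 * (1 + η)) with hc
  have hc0 : 0 < c := by positivity
  have hK0 : 0 < 11 + A := by linarith
  set D : ℝ := 1 / c + C with hD
  have hD0 : 0 < D := by positivity
  refine ⟨2 / Real.sqrt c + Real.sqrt (11 + A) + D + 1,
    1 + 2 * A + 6 / c + 4 * D ^ 2 / c, ?_, ?_, ?_⟩
  · have : 0 ≤ 2 / Real.sqrt c + Real.sqrt (11 + A) + D := by positivity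
    linarith
  · have : 0 ≤ 2 * A + 6 / c + 4 * D ^ 2 / c := by positivity
    linarith
  intro ρ ν mu hr hρ hρ' hν ha hA' h hS hasy
  set S : ℝ := ‖mu‖ + ν with hSdef
  have g1 : 0 ≤ 6 / c := by positivity
  have g2 : 0 ≤ 4 * D ^ 2 / c := by positivity
  have hS1 : 1 ≤ S := by linarith
  have hS0 : 0 < S := by linarith
  have hre := prop_re hη hρ hρ' hν ha hA' h (by linarith)
  rw [← hc, ← hSdef] at hre
  have hX : (Vv ρ ν mu).re ≤ -(c * S) := by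
    rw [Vv_re]
    have : 0 ≤ ρ ^ 2 / 16 := by positivity
    linarith
  have hcS6 : 6 ≤ c * S := by
    have : 6 / c ≤ S := by linarith
    rw [div_le_iff₀ hc0] at this
    linarith
  have hVn : c * S ≤ ‖Vv ρ ν mu‖ := by
    have h1 := Complex.abs_re_le_norm (Vv ρ ν mu)
    have h2 := neg_abs_le (Vv ρ ν mu).re
    linarith
  have hVK := Vv_le hρ hρ' hν ha hA' (by rw [← hSdef]; exact hS1)
  rw [← hSdef] at hVK
  obtain ⟨σ, hσ2, hσlt, hσ⟩ := sigma_exists (hcS6.trans hVn) ha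
  have herr := hσ C hr hasy
  rw [← hSdef] at herr
  have hw := w_le hc0 hρ hρ' hν (by rw [← hSdef]; exact hS1) (by rw [← hSdef]; exact hVn)
  set w : ℂ := (Vp ρ ν : ℂ) / (4 * Vv ρ ν mu) with hwdef
  have hsS : 1 ≤ Real.sqrt S := Real.one_le_sqrt.2 hS1
  have herr' : ‖hr + σ + w‖ ≤ C := herr.trans (div_le_self hC hsS)
  -- the norm of σ
  have hσn : ‖σ‖ ^ 2 = ‖Vv ρ ν mu‖ := by rw [← hσ2, norm_pow]
  have hσK : ‖σ‖ ≤ Real.sqrt (11 + A) * Real.sqrt S := by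
    rw [← Real.sqrt_mul hK0.le]
    apply Real.le_sqrt_of_sq_le
    rw [hσn]; exact hVK
  -- σ.im is negative and large
  have hXeq : σ.re ^ 2 - σ.im ^ 2 = (Vv ρ ν mu).re := by
    rw [← hσ2, pow_two σ, Complex.mul_re]; ring
  have hXneg : (Vv ρ ν mu).re < 0 := by linarith
  have him : σ.im < 0 := aux_neg hXeq hXneg hσlt
  have him2 : Real.sqrt c * Real.sqrt S ≤ -σ.im := by
    rw [← Real.sqrt_mul hc0.le]
    rw [Real.sqrt_le_left (by linarith)]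
    have := sq_nonneg σ.re
    have e : (-σ.im) ^ 2 = σ.im ^ 2 := by ring
    linarith
  constructor
  · have h1 : hr.im = -σ.im - w.im + (hr + σ + w).im := by
      simp only [Complex.add_im]; ring
    have h2 := (Complex.abs_im_le_norm w).trans hw
    have h3 := (Complex.abs_im_le_norm (hr + σ + w)).trans herr'
    have h4 := abs_le.1 h2
    have h5 := abs_le.1 h3
    have h6 : Real.sqrt c * Real.sqrt S - D ≤ hr.im := by rw [h1, hD]; linarith [h4.2, h5.1]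
    have h7 : D ≤ Real.sqrt c * Real.sqrt S / 2 := aux_D hc0 (by linarith)
    have h10 : Real.sqrt S * (Real.sqrt c / 2) ≤ hr.im := by linarith
    refine le_trans ?_ h10
    rw [div_eq_mul_inv]
    gcongr
    rw [inv_le_comm₀ (by positivity) (by positivity)]
    have : (Real.sqrt c / 2)⁻¹ = 2 / Real.sqrt c := by rw [inv_div]
    rw [this]
    have : 0 ≤ Real.sqrt (11 + A) + D + 1 := by positivity
    linarith
  · have h1 : hr = (hr + σ + w) - σ - w := by ring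
    have h2 : ‖hr‖ ≤ C + Real.sqrt (11 + A) * Real.sqrt S + 1 / c := by
      rw [h1]
      refine (norm_sub_le _ _).trans (add_le_add ((norm_sub_le _ _).trans (add_le_add herr' hσK)) hw)
    have h3 : D ≤ D * Real.sqrt S := le_mul_of_one_le_right hD0.le hsS
    have h4 : 0 ≤ 2 / Real.sqrt c * Real.sqrt S := by positivity
    have h5 : 0 ≤ Real.sqrt S := Real.sqrt_nonneg S
    calc ‖hr‖ ≤ Real.sqrt (11 + A) * Real.sqrt S + D := by rw [hD]; linarith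
      _ ≤ 2 / Real.sqrt c * Real.sqrt S + Real.sqrt (11 + A) * Real.sqrt S + D * Real.sqrt S
          + Real.sqrt S := by linarith
      _ = _ := by ring

set_option maxHeartbeats 800000 in
theorem evan_cor (η A C : ℝ) (hη : 0 < η) (hA : 0 ≤ A) (hC : 0 ≤ C) :
    ∃ C' L0 : ℝ, 1 ≤ C' ∧ 1 ≤ L0 ∧ ∀ (ρ ν : ℝ) (mu hr : ℂ), 1 ≤ ρ → ρ ≤ 10 → 0 ≤ ν →
      0 ≤ mu.re → mu.re ≤ A → -(1 - η) * ν ≤ mu.im * ρ ^ 2 → L0 ≤ ‖mu‖ + ν →
      Asy C ρ ν mu hr →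
      hr.re ≤ -(Real.sqrt (‖mu‖ + ν) / C') ∧ ‖hr‖ ≤ C' * Real.sqrt (‖mu‖ + ν) ∧
      |hr.im| ≤ C' / Real.sqrt (‖mu‖ + ν) ∧ ‖hr‖ ^ 2 ≤ ν / ρ ^ 2 + mu.im + C' := by
  have hm0 : 0 < min η 1 := lt_min hη one_pos
  set c0 : ℝ := min η 1 / 200 with hc0def
  have hc00 : 0 < c0 := by positivity
  set c : ℝ := c0 / 2 with hc
  have hc0 : 0 < c := by positivity
  have hK0 : 0 < 11 + A := by linarith
  set D : ℝ := 1 / c + C with hD
  have hD0 : 0 < D := by positivity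
  have hA3 : 0 < 3 + A := by linarith
  set E : ℝ := Real.sqrt (11 + A) + 1 / c with hE
  have hE0 : 0 < E := by positivity
  set C1 : ℝ := 2 / Real.sqrt c + Real.sqrt (11 + A) + D + 1 with hC1
  set C2 : ℝ := (3 + A) / Real.sqrt c + (1 / c) * ((3 + A) / c) + C with hC2
  set C3 : ℝ := (3 + A) + (1 / c) ^ 2 + 2 * E * C + C ^ 2 with hC3
  have hC10 : 1 ≤ C1 := by
    have : 0 ≤ 2 / Real.sqrt c + Real.sqrt (11 + A) + D := by positivity
    rw [hC1]; linarith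
  have hC20 : 0 ≤ C2 := by positivity
  have hC30 : 0 ≤ C3 := by positivity
  refine ⟨C1 + C2 + C3,
    1 + 2 * (A + 7 / c0) + 6 / c + 4 * D ^ 2 / c + 2 * (3 + A) ^ 2 / c ^ 2, by linarith, ?_, ?_⟩
  · have : 0 ≤ 2 * (A + 7 / c0) + 6 / c + 4 * D ^ 2 / c + 2 * (3 + A) ^ 2 / c ^ 2 := by positivity
    linarith
  intro ρ ν mu hr hρ hρ' hν ha hA' h hS hasy
  set S : ℝ := ‖mu‖ + ν with hSdef
  have g1 : 0 ≤ 6 / c := by positivity
  have g2 : 0 ≤ 4 * D ^ 2 / c := by positivity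
  have g3 : 0 ≤ 7 / c0 := by positivity
  have g4 : 0 ≤ 2 * (3 + A) ^ 2 / c ^ 2 := by positivity
  have hS1 : 1 ≤ S := by linarith
  have hS0 : 0 < S := by linarith
  have hre := evan_re hη hρ hρ' hν ha hA' h
  rw [← hc0def, ← hSdef] at hre
  have hX : c * S ≤ (Vv ρ ν mu).re := by
    rw [Vv_re]
    have h1 := (rho_sq hρ hρ').2
    have h2 : c0 * (A + 7 / c0) = c0 * A + 7 := by field_simp
    have h3 : c0 * (A + 7 / c0) ≤ c0 * (S / 2) := by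
      apply mul_le_mul_of_nonneg_left _ hc00.le
      linarith
    have h4 : c * S = c0 * (S / 2) := by rw [hc]; ring
    have h5 : c0 * (S - A) = c0 * S - c0 * A := by ring
    have h6 : c0 * (S / 2) = c0 * S / 2 := by ring
    linarith
  have hcS6 : 6 ≤ c * S := by
    have : 6 / c ≤ S := by linarith
    rw [div_le_iff₀ hc0] at this
    linarith
  have hVn : c * S ≤ ‖Vv ρ ν mu‖ := hX.trans (Complex.re_le_norm _)
  have hVK := Vv_le hρ hρ' hν ha hA' (by rw [← hSdef]; exact hS1)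
  rw [← hSdef] at hVK
  have hY := Vim_le (ρ := ρ) (ν := ν) ha hA'
  obtain ⟨σ, hσ2, hσlt, hσ⟩ := sigma_exists (hcS6.trans hVn) ha
  have herr := hσ C hr hasy
  rw [← hSdef] at herr
  have hw := w_le hc0 hρ hρ' hν (by rw [← hSdef]; exact hS1) (by rw [← hSdef]; exact hVn)
  have hVp := Vp_nonpos hρ hν
  have hV0 : Vv ρ ν mu ≠ 0 := by
    intro h0
    rw [h0, norm_zero] at hVn
    linarith
  set w : ℂ := (Vp ρ ν : ℂ) / (4 * Vv ρ ν mu) with hwdef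
  set X : ℝ := (Vv ρ ν mu).re with hXdef
  set Y : ℝ := (Vv ρ ν mu).im with hYdef
  have hX0 : 0 < X := by linarith
  have hwV : w * (4 * Vv ρ ν mu) = (Vp ρ ν : ℂ) := by
    rw [hwdef]; field_simp
  have hw1 : 4 * (w.re * X - w.im * Y) = Vp ρ ν := by
    have := congrArg Complex.re hwV
    simp only [Complex.mul_re, Complex.mul_im, Complex.ofReal_re] at this
    norm_num at this
    rw [← hXdef, ← hYdef] at this
    linarith
  have hw2 : w.re * Y + w.im * X = 0 := by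
    have := congrArg Complex.im hwV
    simp only [Complex.mul_re, Complex.mul_im, Complex.ofReal_im] at this
    norm_num at this
    rw [← hXdef, ← hYdef] at this
    linarith
  have hsS : 1 ≤ Real.sqrt S := Real.one_le_sqrt.2 hS1
  have hsS0 : 0 < Real.sqrt S := by linarith
  have hsS2 : Real.sqrt S * Real.sqrt S = S := Real.mul_self_sqrt hS0.le
  have hsc0 : 0 < Real.sqrt c := Real.sqrt_pos.2 hc0
  have herr' : ‖hr + σ + w‖ ≤ C := herr.trans (div_le_self hC hsS)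
  -- the norm of σ
  have hσn : ‖σ‖ ^ 2 = ‖Vv ρ ν mu‖ := by rw [← hσ2, norm_pow]
  have hσK : ‖σ‖ ≤ Real.sqrt (11 + A) * Real.sqrt S := by
    rw [← Real.sqrt_mul hK0.le]
    apply Real.le_sqrt_of_sq_le
    rw [hσn]; exact hVK
  have hXeq : σ.re ^ 2 - σ.im ^ 2 = X := by
    rw [hXdef, ← hσ2, pow_two σ, Complex.mul_re]; ring
  have hYeq : 2 * σ.re * σ.im = Y := by
    rw [hYdef, ← hσ2, pow_two σ, Complex.mul_im]; ring
  have hre0 : 0 < σ.re := aux_pos hXeq hX0 hσlt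
  have hre2 : Real.sqrt c * Real.sqrt S ≤ σ.re := by
    rw [← Real.sqrt_mul hc0.le]
    rw [Real.sqrt_le_left hre0.le]
    have := sq_nonneg σ.im
    linarith
  have him : |σ.im| ≤ (3 + A) / Real.sqrt c / Real.sqrt S / 2 := by
    have h1 : 2 * σ.re * |σ.im| ≤ 3 + A := by
      have : 2 * σ.re * |σ.im| = |Y| := by
        rw [← hYeq, abs_mul, abs_of_pos (by positivity : 0 < 2 * σ.re)]
      rw [this]; exact hY
    have h2 : 2 * (Real.sqrt c * Real.sqrt S) * |σ.im| ≤ 3 + A :=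
      le_trans (by gcongr) h1
    rw [div_div, div_div, le_div_iff₀ (by positivity)]
    linarith
  have hwim : |w.im| ≤ (1 / c) * ((3 + A) / c) / Real.sqrt S := by
    have h1 : |w.im| * X ≤ (1 / c) * (3 + A) := by
      have : |w.im| * X = |w.re| * |Y| := by
        have e : w.im * X = -(w.re * Y) := by linarith
        have := congrArg abs e
        rw [abs_neg, abs_mul, abs_mul, abs_of_pos hX0] at this
        exact this
      rw [this]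
      exact mul_le_mul ((Complex.abs_re_le_norm w).trans hw) hY (abs_nonneg _) (by positivity)
    have h2 : |w.im| * (c * S) ≤ (1 / c) * (3 + A) :=
      le_trans (mul_le_mul_of_nonneg_left hX (abs_nonneg _)) h1
    have h3 : |w.im| * (c * Real.sqrt S) ≤ (1 / c) * (3 + A) := by
      refine le_trans (mul_le_mul_of_nonneg_left ?_ (abs_nonneg _)) h2
      have : Real.sqrt S ≤ S := by
        calc Real.sqrt S = Real.sqrt S * 1 := (mul_one _).symm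
          _ ≤ Real.sqrt S * Real.sqrt S := by gcongr
          _ = S := hsS2
      gcongr
    rw [le_div_iff₀ hsS0, ← mul_div_assoc, le_div_iff₀ hc0]
    calc |w.im| * Real.sqrt S * c = |w.im| * (c * Real.sqrt S) := by ring
      _ ≤ _ := h3
  have hhr : hr = (hr + σ + w) - σ - w := by ring
  have hDle : D ≤ Real.sqrt c * Real.sqrt S / 2 := aux_D hc0 (by linarith)
  refine ⟨?_, ?_, ?_, ?_⟩
  · have h1 : hr.re = -σ.re - w.re + (hr + σ + w).re := by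
      simp only [Complex.add_re]; ring
    have h4 := abs_le.1 ((Complex.abs_re_le_norm w).trans hw)
    have h5 := abs_le.1 ((Complex.abs_re_le_norm (hr + σ + w)).trans herr')
    have h6 : hr.re ≤ -(Real.sqrt c * Real.sqrt S) + D := by rw [h1, hD]; linarith [h4.1, h5.2]
    have h10 : hr.re ≤ -(Real.sqrt S * (Real.sqrt c / 2)) := by linarith
    refine h10.trans (neg_le_neg ?_)
    rw [div_eq_mul_inv]
    gcongr
    rw [inv_le_comm₀ (by positivity) (by positivity)]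
    have : (Real.sqrt c / 2)⁻¹ = 2 / Real.sqrt c := by rw [inv_div]
    rw [this]
    have : 0 ≤ Real.sqrt (11 + A) + D + 1 := by positivity
    rw [hC1]
    linarith
  · have h2 : ‖hr‖ ≤ C + Real.sqrt (11 + A) * Real.sqrt S + 1 / c := by
      rw [hhr]
      refine (norm_sub_le _ _).trans (add_le_add ((norm_sub_le _ _).trans (add_le_add herr' hσK)) hw)
    have h3 : D ≤ D * Real.sqrt S := le_mul_of_one_le_right hD0.le hsS
    have h4 : 0 ≤ 2 / Real.sqrt c * Real.sqrt S := by positivity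
    have h6 : ‖hr‖ ≤ C1 * Real.sqrt S := by
      calc ‖hr‖ ≤ Real.sqrt (11 + A) * Real.sqrt S + D := by rw [hD]; linarith
        _ ≤ 2 / Real.sqrt c * Real.sqrt S + Real.sqrt (11 + A) * Real.sqrt S + D * Real.sqrt S
            + Real.sqrt S := by linarith
        _ = _ := by rw [hC1]; ring
    refine h6.trans ?_
    gcongr
    linarith
  · have h1 : hr.im = -σ.im - w.im + (hr + σ + w).im := by
      simp only [Complex.add_im]; ring
    have h5 := (Complex.abs_im_le_norm (hr + σ + w)).trans herr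
    have h6 : |hr.im| ≤ |σ.im| + |w.im| + |(hr + σ + w).im| := by
      rw [h1]
      refine (abs_add_le _ _).trans (add_le_add ?_ le_rfl)
      refine (abs_sub _ _).trans ?_
      rw [abs_neg]
    have h7 : (3 + A) / Real.sqrt c / Real.sqrt S / 2 ≤ (3 + A) / Real.sqrt c / Real.sqrt S :=
      half_le_self (by positivity)
    have h8 : |hr.im| ≤ C2 / Real.sqrt S := by
      rw [hC2, add_div, add_div]
      linarith
    refine h8.trans ?_
    gcongr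
    linarith
  · have hcS2 : c * S ≤ σ.re ^ 2 := by
      have := sq_nonneg σ.im
      linarith
    have hxy : 3 * σ.im ^ 2 ≤ σ.re ^ 2 := aux_hxy hA3 hc0 hS1 (by linarith) hcS2 him
    have hcross : σ.re * w.re + σ.im * w.im ≤ 0 :=
      aux_cross hX0 hre0 hXeq hYeq hVp hw1 hw2 hxy
    have hsw : ‖σ + w‖ ^ 2 ≤ ‖σ‖ ^ 2 + (1 / c) ^ 2 := by
      have e1 : ‖σ + w‖ ^ 2 = ‖σ‖ ^ 2 + 2 * (σ.re * w.re + σ.im * w.im) + ‖w‖ ^ 2 := by
        rw [← Complex.normSq_eq_norm_sq, ← Complex.normSq_eq_norm_sq, ← Complex.normSq_eq_norm_sq,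
          Complex.normSq_apply, Complex.normSq_apply, Complex.normSq_apply, Complex.add_re,
          Complex.add_im]
        ring
      have e2 : ‖w‖ ^ 2 ≤ (1 / c) ^ 2 := pow_le_pow_left₀ (norm_nonneg _) hw 2
      linarith
    have hswn : ‖σ + w‖ ≤ E * Real.sqrt S := by
      refine (norm_add_le _ _).trans ?_
      rw [hE, add_mul]
      refine add_le_add hσK (hw.trans ?_)
      exact le_mul_of_one_le_right (by positivity) hsS
    have hhr2 : ‖hr‖ ≤ ‖σ + w‖ + C / Real.sqrt S := by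
      have : hr = (hr + σ + w) - (σ + w) := by ring
      calc ‖hr‖ = ‖(hr + σ + w) - (σ + w)‖ := by rw [← this]
        _ ≤ ‖hr + σ + w‖ + ‖σ + w‖ := norm_sub_le _ _
        _ ≤ _ := by linarith
    have hfin : ‖hr‖ ^ 2 ≤ ‖σ + w‖ ^ 2 + 2 * E * C + C ^ 2 :=
      aux_sq (norm_nonneg _) (norm_nonneg _) hC hsS hhr2 hswn
    have hVle : ‖Vv ρ ν mu‖ ≤ ν / ρ ^ 2 + mu.im + (3 + A) := by
      have h1 := Complex.norm_le_abs_re_add_abs_im (Vv ρ ν mu)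
      rw [← hXdef, ← hYdef, abs_of_pos hX0] at h1
      have h2 : X ≤ ν / ρ ^ 2 + mu.im := by
        rw [hXdef, Vv_re]
        have : 0 ≤ ρ ^ 2 / 16 := by positivity
        linarith
      linarith
    rw [hσn] at hsw
    have : C3 = (3 + A) + (1 / c) ^ 2 + 2 * E * C + C ^ 2 := hC3
    linarith

end Crest.Agent.R086.Dtn
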