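import Mathlib
import Crest.Agent.R086.JInt

/-!
Row 86, exterior DtN (helper766), part 1: the integral `J a c w` for complex `w`, `Re w > 0`.
-/

set_option autoImplicit false

open MeasureTheory Complex Set Filter Topology

namespace Crest.Agent.R086.Ext

open JInt

/-- The integrand with complex parameter. -/
noncomputable def jc (a c w : ℂ) (s : ℝ) : ℂ :=
  cexp (-(w * s)) * (s : ℂ) ^ (a - 1) * (1 + I * s) ^ c

/-- `Jc a c w = ∫₀^∞ e^{-w s} s^{a-1} (1+i s)^c ds`, `Re w > 0`. -/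
noncomputable def Jc (a c w : ℂ) : ℂ := ∫ s in Ioi (0 : ℝ), jc a c w s

theorem jc_ofReal (a c : ℂ) (rho s : ℝ) : jc a c rho s = jf a c rho s := rfl

theorem Jc_ofReal (a c : ℂ) (rho : ℝ) : Jc a c rho = J a c rho := rfl

theorem norm_jc {s : ℝ} (hs : 0 < s) (a c w : ℂ) : ‖jc a c w s‖ = ‖jf a c w.re s‖ := by
  rw [norm_jf hs]
  unfold jc
  rw [norm_mul, norm_mul, Complex.norm_cpow_eq_rpow_re_of_pos hs, Complex.norm_exp]
  simp

theorem jc_measurable (a c w : ℂ) : Measurable (jc a c w) := by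
  unfold jc
  fun_prop

theorem jc_integrable {a c w : ℂ} (ha : 0 < a.re) (hw : 0 < w.re) :
    IntegrableOn (jc a c w) (Ioi 0) := by
  refine Integrable.mono (jf_integrable (c := c) ha hw)
    (jc_measurable a c w).aestronglyMeasurable ?_
  filter_upwards [ae_restrict_mem measurableSet_Ioi] with s hs
  rw [norm_jc hs]

theorem jc_succ {s : ℝ} (hs : 0 < s) (a c w : ℂ) :
    jc (a + 1) c w s = s * jc a c w s := by
  unfold jc
  have hs' : (s : ℂ) ≠ 0 := by exact_mod_cast hs.ne'
  rw [show a + 1 - 1 = (a - 1) + 1 by ring, Complex.cpow_add _ _ hs', Complex.cpow_one]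
  ring

theorem jc_shift (a c w : ℂ) (s : ℝ) :
    jc a (c + 1) w s = (1 + I * s) * jc a c w s := by
  unfold jc
  rw [Complex.cpow_add _ _ (one_add_ne s), Complex.cpow_one]
  ring

/-- `dJ/dw = - J (a+1)`. -/
theorem Jc_hasDerivAt {a c w : ℂ} (ha : 0 < a.re) (hw : 0 < w.re) :
    HasDerivAt (fun x : ℂ => Jc a c x) (-(Jc (a + 1) c w)) w := by
  obtain ⟨M, hM⟩ := exists_nat_ge_re c
  have hopen : IsOpen {x : ℂ | w.re / 2 < x.re} := isOpen_lt continuous_const Complex.continuous_re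
  have key := hasDerivAt_integral_of_dominated_loc_of_deriv_le
    (μ := volume.restrict (Ioi (0 : ℝ))) (F := fun (x : ℂ) (s : ℝ) => jc a c x s)
    (F' := fun (x : ℂ) (s : ℝ) => -(s * jc a c x s)) (x₀ := w)
    (s := {x : ℂ | w.re / 2 < x.re}) (bound := fun s => Real.exp (Real.pi * |c.im|) *
      (maj (a.re + 1) M (w.re / 2) s + maj (a.re + 1) M (w.re / 2) s))
    (hopen.mem_nhds (by simp; linarith)) (Eventually.of_forall fun x =>
      (jc_measurable a c x).aestronglyMeasurable) (jc_integrable ha hw)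
    (by
      apply Measurable.aestronglyMeasurable
      have := jc_measurable a c w
      fun_prop) ?_ ?_ ?_
  · have h2 := key.2
    have h3 : (∫ s in Ioi (0 : ℝ), -((s : ℂ) * jc a c w s)) = -(Jc (a + 1) c w) := by
      rw [integral_neg]
      congr 1
      exact setIntegral_congr_fun measurableSet_Ioi fun s hs => (jc_succ hs a c w).symm
    rw [h3] at h2
    exact h2
  · filter_upwards [ae_restrict_mem measurableSet_Ioi] with s hs x hx
    rw [norm_neg, ← jc_succ hs, norm_jc hs]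
    exact norm_jf_le hs (a + 1) c M (le_of_lt hx) (by simp) (by simp) hM le_rfl
  · exact ((maj_integrable (by linarith) (by linarith) M).add
      (maj_integrable (by linarith) (by linarith) M)).const_mul _
  · filter_upwards [ae_restrict_mem measurableSet_Ioi] with s hs x _
    unfold jc
    have h1 : HasDerivAt (fun x : ℂ => cexp (-(x * s))) (cexp (-(x * s)) * (-(1 * s))) x :=
      ((hasDerivAt_id x).mul_const (s : ℂ)).neg.cexp
    have h2 := (h1.mul_const ((s : ℂ) ^ (a - 1))).mul_const ((1 + I * (s : ℂ)) ^ c)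
    refine h2.congr_deriv ?_
    ring

/-- Shift in `c`. -/
theorem Jc_shift {a c w : ℂ} (ha : 0 < a.re) (hw : 0 < w.re) :
    Jc a (c + 1) w = Jc a c w + I * Jc (a + 1) c w := by
  unfold Jc
  rw [← integral_const_mul, ← integral_add (jc_integrable ha hw)
    ((jc_integrable (a := a + 1) (by simp; linarith) hw).const_mul I)]
  apply setIntegral_congr_fun measurableSet_Ioi
  intro s hs
  have := jc_succ hs a c w
  simp only [jc_shift, this]
  ring

theorem hasDerivAt_jc {s : ℝ} (hs : 0 < s) (a c w : ℂ) :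
    HasDerivAt (fun s : ℝ => jc a c w s)
      (-w * jc a c w s + (a - 1) * jc (a - 1) c w s + I * c * jc a (c - 1) w s) s := by
  have h1 : HasDerivAt (fun x : ℝ => cexp (-(w * x))) (cexp (-(w * s)) * (-(w * 1))) s := by
    have := ((hasDerivAt_id (s : ℂ)).const_mul w).neg.cexp
    exact this.comp_ofReal
  have h2 : HasDerivAt (fun x : ℝ => (x : ℂ) ^ (a - 1)) ((a - 1) * (s : ℂ) ^ (a - 1 - 1) * 1) s := by
    have hsl : (s : ℂ) ∈ slitPlane := by left; simpa using hs
    have := ((hasDerivAt_id (s : ℂ)).cpow_const (c := a - 1) hsl)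
    exact this.comp_ofReal
  have h3 : HasDerivAt (fun x : ℝ => (1 + I * (x : ℂ)) ^ c)
      (c * (1 + I * (s : ℂ)) ^ (c - 1) * (I * 1)) s := by
    have := (((hasDerivAt_id (s : ℂ)).const_mul I).const_add 1).cpow_const (c := c) (one_add_slit s)
    exact this.comp_ofReal
  have h := (h1.mul h2).mul h3
  unfold jc
  refine h.congr_deriv ?_
  simp only [Pi.mul_apply]
  ring

theorem tendsto_jc_atTop (a c : ℂ) {w : ℂ} (hw : 0 < w.re) :
    Tendsto (fun s : ℝ => jc a c w s) atTop (𝓝 0) := by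
  have h := (tendsto_jf_atTop a c hw).norm
  rw [norm_zero] at h
  refine squeeze_zero_norm' ?_ h
  filter_upwards [eventually_gt_atTop (0 : ℝ)] with s hs
  rw [norm_jc hs]

/-- Integration by parts, raw form. -/
theorem Jc_ibp0 {a c w : ℂ} (ha : 0 < a.re) (hw : 0 < w.re) :
    -w * Jc (a + 1) (c + 1) w + a * Jc a (c + 1) w
    + I * (c + 1) * Jc (a + 1) c w = 0 := by
  have ha0 : a ≠ 0 := by rintro rfl; simp at ha
  have h1 : 0 < (a + 1).re := by simp; linarith
  have i1 := jc_integrable (c := c + 1) h1 hw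
  have i2 := jc_integrable (c := c + 1) ha hw
  have i3 := jc_integrable (c := c) h1 hw
  have hderiv : ∀ s ∈ Ioi (0 : ℝ), HasDerivAt (fun s : ℝ => jc (a + 1) (c + 1) w s)
      (-w * jc (a + 1) (c + 1) w s + a * jc a (c + 1) w s
        + I * (c + 1) * jc (a + 1) c w s) s := by
    intro s hs
    have := hasDerivAt_jc hs (a + 1) (c + 1) w
    simpa using this
  have hint : IntegrableOn (fun s : ℝ => -w * jc (a + 1) (c + 1) w s + a * jc a (c + 1) w s
        + I * (c + 1) * jc (a + 1) c w s) (Ioi 0) :=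
    ((i1.const_mul _).add (i2.const_mul _)).add (i3.const_mul _)
  have hcont : ContinuousWithinAt (fun s : ℝ => jc (a + 1) (c + 1) w s) (Ici 0) 0 := by
    apply ContinuousAt.continuousWithinAt
    unfold jc
    have hc1 : ContinuousAt (fun s : ℝ => (s : ℂ) ^ (a + 1 - 1)) 0 := by
      have : a + 1 - 1 = a := by ring
      rw [this]
      exact (Complex.continuousAt_ofReal_cpow_const 0 a (Or.inl ha))
    have hc2 : ContinuousAt (fun s : ℝ => (1 + I * (s : ℂ)) ^ (c + 1)) 0 := by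
      have h5 : ContinuousAt (fun z : ℂ => z ^ (c + 1)) ((1 : ℂ) + I * ((0 : ℝ) : ℂ)) :=
        continuousAt_cpow_const (one_add_slit 0)
      have h6 : ContinuousAt (fun s : ℝ => (1 : ℂ) + I * (s : ℂ)) 0 := by fun_prop
      exact ContinuousAt.comp (f := fun s : ℝ => (1 : ℂ) + I * (s : ℂ)) h5 h6
    fun_prop
  have key := integral_Ioi_of_hasDerivAt_of_tendsto hcont hderiv hint (tendsto_jc_atTop _ _ hw)
  have h0 : jc (a + 1) (c + 1) w 0 = 0 := by
    unfold jc
    simp [ha0]
  have e1 : (∫ (s : ℝ) in Ioi 0, (-w * jc (a + 1) (c + 1) w s + a * jc a (c + 1) w s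
      + I * (c + 1) * jc (a + 1) c w s)) =
      (∫ (s : ℝ) in Ioi 0, -w * jc (a + 1) (c + 1) w s)
      + (∫ (s : ℝ) in Ioi 0, a * jc a (c + 1) w s)
      + (∫ (s : ℝ) in Ioi 0, I * (c + 1) * jc (a + 1) c w s) := by
    have j12 : Integrable (fun s : ℝ => -w * jc (a + 1) (c + 1) w s
        + a * jc a (c + 1) w s) (volume.restrict (Ioi 0)) :=
      (i1.const_mul _).add (i2.const_mul _)
    rw [integral_add j12 (i3.const_mul _), integral_add (i1.const_mul _) (i2.const_mul _)]
  rw [h0, sub_zero, e1, integral_const_mul, integral_const_mul,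
    integral_const_mul] at key
  exact key

/-- Integration by parts. -/
theorem Jc_ibp {a c w : ℂ} (ha : 0 < a.re) (hw : 0 < w.re) :
    w * Jc (a + 2) c w = -I * a * Jc a c w + (a + c + 1 + I * w) * Jc (a + 1) c w := by
  have h1 : 0 < (a + 1).re := by simp; linarith
  have key := Jc_ibp0 (c := c) ha hw
  rw [Jc_shift h1 hw, Jc_shift ha hw, show a + 1 + 1 = a + 2 by ring] at key
  have hI : I * I = -1 := Complex.I_mul_I
  linear_combination (I : ℂ) * key + (w * Jc (a + 2) c w
    - a * Jc (a + 1) c w - (c + 1) * Jc (a + 1) c w) * hI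

/-- The case `c = 0`: `w^a J a 0 w = Γ(a)`. -/
theorem Jc_zero {a w : ℂ} (ha : 0 < a.re) (hw : 0 < w.re) :
    w ^ a * Jc a 0 w = Complex.Gamma a := by
  have hU : Convex ℝ {x : ℂ | 0 < x.re} := convex_halfSpace_re_gt 0
  have hd : ∀ x ∈ {x : ℂ | 0 < x.re},
      HasDerivWithinAt (fun x : ℂ => x ^ a * Jc a 0 x) 0 {x : ℂ | 0 < x.re} x := by
    intro x hx
    have hx' : 0 < x.re := hx
    have hx0 : x ≠ 0 := by rintro rfl; simp at hx'
    have h1 : HasDerivAt (fun x : ℂ => x ^ a) (a * x ^ (a - 1) * 1) x :=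
      (hasDerivAt_id x).cpow_const (Or.inl hx')
    have h2 := h1.mul (Jc_hasDerivAt (c := 0) ha hx')
    refine (h2.congr_deriv ?_).hasDerivWithinAt
    have h3 := Jc_ibp0 (c := -1) ha hx'
    rw [show (-1 : ℂ) + 1 = 0 by ring] at h3
    have h4 : x ^ a = x ^ (a - 1) * x := by
      rw [show a = (a - 1) + 1 by ring, Complex.cpow_add _ _ hx0, Complex.cpow_one]
      ring_nf
    rw [h4]
    linear_combination (x ^ (a - 1)) * h3
  have h1mem : (1 : ℂ) ∈ {x : ℂ | 0 < x.re} := by simp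
  have hc := hU.is_const_of_fderivWithin_eq_zero (𝕜 := ℂ) (f := fun x : ℂ => x ^ a * Jc a 0 x)
    (fun x hx => (hd x hx).differentiableWithinAt) (fun x hx => by
      have hop : IsOpen {x : ℂ | 0 < x.re} := isOpen_lt continuous_const Complex.continuous_re
      have := (hd x hx).hasFDerivWithinAt.fderivWithin (hop.uniqueDiffWithinAt hx)
      rw [this]
      ext
      simp) (show w ∈ {x : ℂ | 0 < x.re} from hw) h1mem
  have h5 : Jc a 0 1 = Complex.Gamma a := by
    have := Complex.integral_cpow_mul_exp_neg_mul_Ioi ha one_pos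
    simp only [ofReal_one, one_div, inv_one, Complex.one_cpow, one_mul] at this
    rw [← this]
    unfold Jc
    apply setIntegral_congr_fun measurableSet_Ioi
    intro s _
    unfold jc
    simp only [Complex.cpow_zero, mul_one, one_mul]
    ring
  have hc' : w ^ a * Jc a 0 w = (1 : ℂ) ^ a * Jc a 0 1 := hc
  rw [hc', Complex.one_cpow, one_mul, h5]

/-- `|(1+is)^c - 1| ≤ C s (1+s)^M`. -/
theorem exists_bound (c : ℂ) : ∃ (C : ℝ) (M : ℕ), 0 ≤ C ∧ ∀ s : ℝ, 0 ≤ s →
    ‖((1 : ℂ) + I * s) ^ c - 1‖ ≤ C * s * (1 + s) ^ M := by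
  obtain ⟨M, hM⟩ := exists_nat_ge_re (c - 1)
  refine ⟨‖c‖ * Real.exp (Real.pi * |(c - 1).im|), M, by positivity, fun s hs => ?_⟩
  have hder : ∀ x ∈ Set.Icc 0 s, HasDerivWithinAt (fun s : ℝ => ((1 : ℂ) + I * s) ^ c)
      (c * (1 + I * (x : ℂ)) ^ (c - 1) * (I * 1)) (Set.Icc 0 s) x := by
    intro x _
    have := (((hasDerivAt_id (x : ℂ)).const_mul I).const_add 1).cpow_const (c := c) (one_add_slit x)
    exact this.comp_ofReal.hasDerivWithinAt
  have hb : ∀ x ∈ Set.Icc 0 s, ‖c * (1 + I * (x : ℂ)) ^ (c - 1) * (I * 1)‖ ≤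
      ‖c‖ * Real.exp (Real.pi * |(c - 1).im|) * (1 + s) ^ M := by
    intro x hx
    rw [norm_mul, norm_mul]
    simp only [mul_one, norm_I]
    have h1 := norm_one_add_cpow_le hx.1 (c - 1) M hM
    have h2 : (1 + x) ^ M ≤ (1 + s) ^ M := by
      have := hx.1
      have := hx.2
      gcongr
    calc ‖c‖ * ‖(1 + I * (x : ℂ)) ^ (c - 1)‖ ≤ ‖c‖ * ((1 + x) ^ M * Real.exp (Real.pi * |(c - 1).im|)) := by
          gcongr
      _ ≤ ‖c‖ * ((1 + s) ^ M * Real.exp (Real.pi * |(c - 1).im|)) := by gcongr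
      _ = _ := by ring
  have h := (convex_Icc (0 : ℝ) s).norm_image_sub_le_of_norm_hasDerivWithin_le hder hb
    (show (0 : ℝ) ∈ Set.Icc 0 s from ⟨le_rfl, hs⟩) (show s ∈ Set.Icc 0 s from ⟨hs, le_rfl⟩)
  simp only [ofReal_zero, mul_zero, add_zero, Complex.one_cpow, sub_zero,
    Real.norm_eq_abs, abs_of_nonneg hs] at h
  linarith

/-- difference between `J a c w` and `J a 0 w`. -/
theorem Jc_sub_bound {a : ℂ} (ha : 0 < a.re) (c : ℂ) : ∃ C : ℝ, 0 ≤ C ∧ ∀ w : ℂ, 1 ≤ w.re →
    ‖Jc a c w - Jc a 0 w‖ ≤ C * (1 / w.re) ^ (a.re + 1) := by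
  obtain ⟨C, M, hC, hb⟩ := exists_bound c
  have hx : 0 < a.re + 1 := by linarith
  set K : ℝ := M.factorial / (1 / 2 : ℝ) ^ M * Real.exp (1 / 2) with hK
  have hKnn : 0 ≤ K := by positivity
  have hG : 0 < Real.Gamma (a.re + 1) := Real.Gamma_pos_of_pos hx
  refine ⟨C * K * (2 ^ (a.re + 1) * Real.Gamma (a.re + 1)), by positivity, fun w hw => ?_⟩
  have hw0 : 0 < w.re := by linarith
  unfold Jc
  rw [← integral_sub (jc_integrable ha hw0) (jc_integrable ha hw0)]
  have hint : IntegrableOn (fun s : ℝ => C * K * (s ^ (a.re + 1 - 1) * Real.exp (-(w.re / 2 * s))))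
      (Ioi 0) := by
    have h := integrableOn_rpow_mul_exp_neg_mul_rpow (s := a.re + 1 - 1) (p := 1) (b := w.re / 2)
      (by linarith) one_pos (by linarith)
    simp only [Real.rpow_one] at h
    have := h.const_mul (C * K)
    refine this.congr ?_
    filter_upwards with s
    ring_nf
  have hle : ‖∫ s in Ioi (0 : ℝ), (jc a c w s - jc a 0 w s)‖ ≤
      ∫ s in Ioi (0 : ℝ), C * K * (s ^ (a.re + 1 - 1) * Real.exp (-(w.re / 2 * s))) := by
    refine norm_integral_le_of_norm_le hint ?_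
    filter_upwards [ae_restrict_mem measurableSet_Ioi] with s hs
    have hs' : (0 : ℝ) < s := hs
    have e : jc a c w s - jc a 0 w s =
        cexp (-(w * s)) * (s : ℂ) ^ (a - 1) * (((1 : ℂ) + I * s) ^ c - 1) := by
      unfold jc
      rw [Complex.cpow_zero]
      ring
    rw [e, norm_mul, norm_mul, Complex.norm_cpow_eq_rpow_re_of_pos hs', Complex.norm_exp]
    have e2 : (-(w * (s : ℂ))).re = -(w.re * s) := by simp
    have e3 : (a - 1).re = a.re - 1 := by simp
    rw [e2, e3]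
    have h1 := hb s hs'.le
    have h2 := one_add_pow_le M (show (0 : ℝ) < 1 / 2 by norm_num) hs'.le
    have q0 : 0 ≤ s ^ (a.re - 1) := Real.rpow_nonneg hs'.le _
    have h3 : Real.exp (1 / 2 * s) ≤ Real.exp (w.re / 2 * s) := by
      apply Real.exp_le_exp.mpr
      nlinarith
    have h4 : s ^ (a.re + 1 - 1) = s ^ (a.re - 1) * s := by
      rw [← Real.rpow_add_one hs'.ne']
      congr 1
      ring
    calc Real.exp (-(w.re * s)) * s ^ (a.re - 1) * ‖((1 : ℂ) + I * s) ^ c - 1‖
        ≤ Real.exp (-(w.re * s)) * s ^ (a.re - 1) * (C * s * (K * Real.exp (w.re / 2 * s))) := by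
          gcongr
          exact h1.trans (by
            gcongr
            exact h2.trans (by rw [← hK]; gcongr))
      _ = C * K * (s ^ (a.re - 1) * s * (Real.exp (-(w.re * s)) * Real.exp (w.re / 2 * s))) := by ring
      _ = _ := by
          rw [← Real.exp_add, h4]
          congr 3
          ring
  refine hle.trans (le_of_eq ?_)
  rw [integral_const_mul, Real.integral_rpow_mul_exp_neg_mul_Ioi hx (by linarith)]
  have h5 : (1 / (w.re / 2)) ^ (a.re + 1) = 2 ^ (a.re + 1) * (1 / w.re) ^ (a.re + 1) := by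
    rw [← Real.mul_rpow (by norm_num) (by positivity)]
    congr 1
    field_simp
  rw [h5]
  ring

/-- **Asymptotics** in a sector: `w^a J a c w → Γ(a)`. -/
theorem tendsto_Jc {a : ℂ} (ha : 0 < a.re) (c : ℂ) {k : ℝ} (hk : 0 < k) {w : ℝ → ℂ}
    (hw : ∀ᶠ t in atTop, k * ‖w t‖ ≤ (w t).re) (hinf : Tendsto (fun t => ‖w t‖) atTop atTop) :
    Tendsto (fun t => (w t) ^ a * Jc a c (w t)) atTop (𝓝 (Complex.Gamma a)) := by
  obtain ⟨C, hC, hb⟩ := Jc_sub_bound ha c
  have hdiff : Tendsto (fun t => (w t) ^ a * (Jc a c (w t) - Jc a 0 (w t))) atTop (𝓝 0) := by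
    have hlim : Tendsto (fun t => Real.exp (Real.pi * |a.im|) * (C * (1 / k) ^ (a.re + 1)) *
        (‖w t‖)⁻¹) atTop (𝓝 0) := by
      have := (tendsto_inv_atTop_zero.comp hinf).const_mul
        (Real.exp (Real.pi * |a.im|) * (C * (1 / k) ^ (a.re + 1)))
      simpa using this
    refine squeeze_zero_norm' ?_ hlim
    filter_upwards [hw, hinf.eventually_ge_atTop (1 / k + 1)] with t h1 h2
    have hn : 0 < ‖w t‖ := by
      have : 0 < 1 / k := by positivity
      linarith
    have hre : 1 ≤ (w t).re := by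
      have h3 : k * (1 / k + 1) ≤ k * ‖w t‖ := by gcongr
      have h4 : k * (1 / k + 1) = 1 + k := by field_simp
      linarith
    have hw0 : w t ≠ 0 := norm_pos_iff.mp hn
    rw [norm_mul, Complex.norm_cpow_of_ne_zero hw0, div_eq_mul_inv, ← Real.exp_neg]
    have h5 : Real.exp (-(arg (w t) * a.im)) ≤ Real.exp (Real.pi * |a.im|) := by
      apply Real.exp_le_exp.mpr
      calc -(arg (w t) * a.im) ≤ |arg (w t) * a.im| := neg_le_abs _
        _ = |arg (w t)| * |a.im| := abs_mul _ _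
        _ ≤ Real.pi * |a.im| := by
            gcongr
            exact Complex.abs_arg_le_pi _
    have h6 : (1 / (w t).re) ^ (a.re + 1) ≤ (1 / k) ^ (a.re + 1) * (‖w t‖⁻¹) ^ (a.re + 1) := by
      rw [← Real.mul_rpow (by positivity) (by positivity)]
      apply Real.rpow_le_rpow (by positivity) _ (by linarith)
      have h8 : 1 / k * ‖w t‖⁻¹ = 1 / (k * ‖w t‖) := by field_simp
      rw [h8]
      exact one_div_le_one_div_of_le (by positivity) h1
    have h7 : ‖w t‖ ^ a.re * (‖w t‖⁻¹) ^ (a.re + 1) = ‖w t‖⁻¹ := by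
      rw [Real.rpow_add_one (by positivity), Real.inv_rpow hn.le]
      have : ‖w t‖ ^ a.re ≠ 0 := (Real.rpow_pos_of_pos hn _).ne'
      field_simp
    have q1 : 0 ≤ ‖w t‖ ^ a.re := Real.rpow_nonneg hn.le _
    calc ‖w t‖ ^ a.re * Real.exp (-(arg (w t) * a.im)) * ‖Jc a c (w t) - Jc a 0 (w t)‖
        ≤ ‖w t‖ ^ a.re * Real.exp (Real.pi * |a.im|) *
          (C * ((1 / k) ^ (a.re + 1) * (‖w t‖⁻¹) ^ (a.re + 1))) := by
          gcongr
          exact (hb _ hre).trans (by gcongr)
      _ = Real.exp (Real.pi * |a.im|) * (C * (1 / k) ^ (a.re + 1)) *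
          (‖w t‖ ^ a.re * (‖w t‖⁻¹) ^ (a.re + 1)) := by ring
      _ = _ := by rw [h7]
  have hmain : Tendsto (fun t => (w t) ^ a * Jc a 0 (w t)) atTop (𝓝 (Complex.Gamma a)) := by
    refine Tendsto.congr' ?_ tendsto_const_nhds
    filter_upwards [hw, hinf.eventually_gt_atTop 0] with t h1 h2
    exact (Jc_zero ha (lt_of_lt_of_le (by positivity) h1)).symm
  have := hdiff.add hmain
  rw [zero_add] at this
  refine this.congr fun t => ?_
  ring

end Crest.Agent.R086.Ext
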