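import Mathlib
import Crest.Agent.R086.Ext1

/-!
Row 86, exterior DtN (helper766), part 2: abstract trapping lemma; algebra of the WKB quantities.
-/

set_option autoImplicit false

open MeasureTheory Complex Set Filter Topology

namespace Crest.Agent.R086.Ext

/-- derivative bound at a point where `‖X‖ = η ‖Y‖`. -/
theorem trap_deriv {x y p m e : ℂ} {η : ℝ} (hη : 0 < η) (hxy : ‖x‖ = η * ‖y‖) (hy : y ≠ 0)
    (hgap : ‖e‖ * (1 + η) ^ 2 < η * (p.re - m.re)) :
    0 < 2 * inner ℝ x (p * x + e * (x - y)) - η ^ 2 * (2 * inner ℝ y (m * y + e * (x - y))) := by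
  have hyp : 0 < ‖y‖ := norm_pos_iff.mpr hy
  have e1 : inner ℝ x (p * x) = p.re * ‖x‖ ^ 2 := by
    rw [Complex.inner, ← Complex.normSq_eq_norm_sq, Complex.normSq_apply]
    simp [Complex.mul_re]
    ring
  have e2 : inner ℝ y (m * y) = m.re * ‖y‖ ^ 2 := by
    rw [Complex.inner, ← Complex.normSq_eq_norm_sq, Complex.normSq_apply]
    simp [Complex.mul_re]
    ring
  have b0 : ‖e * (x - y)‖ ≤ ‖e‖ * ((1 + η) * ‖y‖) := by
    rw [norm_mul]
    gcongr
    calc ‖x - y‖ ≤ ‖x‖ + ‖y‖ := norm_sub_le _ _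
      _ = (1 + η) * ‖y‖ := by rw [hxy]; ring
  have b1 : -(‖x‖ * (‖e‖ * ((1 + η) * ‖y‖))) ≤ inner ℝ x (e * (x - y)) := by
    have h := abs_real_inner_le_norm x (e * (x - y))
    have h2 : ‖x‖ * ‖e * (x - y)‖ ≤ ‖x‖ * (‖e‖ * ((1 + η) * ‖y‖)) := by gcongr
    have h3 := neg_abs_le (inner ℝ x (e * (x - y)))
    linarith
  have b2 : inner ℝ y (e * (x - y)) ≤ ‖y‖ * (‖e‖ * ((1 + η) * ‖y‖)) := by
    have h := abs_real_inner_le_norm y (e * (x - y))
    have h2 : ‖y‖ * ‖e * (x - y)‖ ≤ ‖y‖ * (‖e‖ * ((1 + η) * ‖y‖)) := by gcongr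
    have h3 := le_abs_self (inner ℝ y (e * (x - y)))
    linarith
  rw [inner_add_right, inner_add_right, e1, e2]
  rw [hxy] at b1 ⊢
  have h5 : η ^ 2 * inner ℝ y (e * (x - y)) ≤ η ^ 2 * (‖y‖ * (‖e‖ * ((1 + η) * ‖y‖))) := by
    gcongr
  have h6 : 0 < 2 * η * ‖y‖ ^ 2 * (η * (p.re - m.re) - ‖e‖ * (1 + η) ^ 2) := by
    apply mul_pos (by positivity)
    linarith
  nlinarith [h6, h5, b1]

/-- Trapping lemma: linear `2×2` system in WKB variables on `[0,∞)`. -/
theorem trap {X Y P M e : ℝ → ℂ} {η : ℝ} (hη : 0 < η)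
    (hX : ∀ t, 0 ≤ t → HasDerivAt X (P t * X t + e t * (X t - Y t)) t)
    (hY : ∀ t, 0 ≤ t → HasDerivAt Y (M t * Y t + e t * (X t - Y t)) t)
    (hP : ContinuousOn P (Ici 0)) (hM : ContinuousOn M (Ici 0)) (he : ContinuousOn e (Ici 0))
    (hgap : ∀ t, 0 ≤ t → ‖e t‖ * (1 + η) ^ 2 < η * ((P t).re - (M t).re))
    (hinf : ∀ᶠ t in atTop, ‖X t‖ < η * ‖Y t‖) :
    ∀ t, 0 ≤ t → ‖X t‖ < η * ‖Y t‖ := by
  obtain ⟨T0, hT0⟩ := eventually_atTop.mp hinf
  have hne : ∀ t, 0 ≤ t → ¬ (X t = 0 ∧ Y t = 0) := by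
    intro t1 ht1 ⟨hx, hy⟩
    set T := max T0 (t1 + 1) with hT
    have hT1 : t1 ≤ T := by
      have := le_max_right T0 (t1 + 1)
      linarith
    have hsub : Icc t1 T ⊆ Ici (0 : ℝ) := fun s hs => le_trans ht1 hs.1
    obtain ⟨cP, hcP⟩ := isCompact_Icc.exists_bound_of_continuousOn (hP.mono hsub)
    obtain ⟨cM, hcM⟩ := isCompact_Icc.exists_bound_of_continuousOn (hM.mono hsub)
    obtain ⟨ce, hce⟩ := isCompact_Icc.exists_bound_of_continuousOn (he.mono hsub)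
    have key := norm_le_gronwallBound_of_norm_deriv_right_le
      (f := fun t => (X t, Y t)) (f' := fun t => (P t * X t + e t * (X t - Y t),
        M t * Y t + e t * (X t - Y t))) (δ := 0) (K := cP + cM + 2 * ce) (ε := 0)
      (a := t1) (b := T) ?_ ?_ ?_ ?_ T ⟨hT1, le_rfl⟩
    · have h0 : gronwallBound 0 (cP + cM + 2 * ce) 0 (T - t1) = 0 := by
        simp [gronwallBound]
      rw [h0] at key
      have h1 : (X T, Y T) = (0 : ℂ × ℂ) := norm_le_zero_iff.mp key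
      have h2 := hT0 T (le_max_left _ _)
      have h3 : X T = 0 := congrArg Prod.fst h1
      have h4 : Y T = 0 := congrArg Prod.snd h1
      rw [h3, h4] at h2
      simp at h2
    · intro s hs
      exact (((hX s (hsub hs)).continuousAt).prodMk ((hY s (hsub hs)).continuousAt)).continuousWithinAt
    · intro s hs
      exact ((hX s (hsub ⟨hs.1, hs.2.le⟩)).prodMk (hY s (hsub ⟨hs.1, hs.2.le⟩))).hasDerivWithinAt
    · simp [hx, hy]
    · intro s hs
      have hs' : s ∈ Icc t1 T := ⟨hs.1, hs.2.le⟩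
      have h1 := hcP s hs'
      have h2 := hcM s hs'
      have h3 := hce s hs'
      have hXn : ‖X s‖ ≤ ‖(X s, Y s)‖ := norm_fst_le (X s, Y s)
      have hYn : ‖Y s‖ ≤ ‖(X s, Y s)‖ := norm_snd_le (X s, Y s)
      have n1 : 0 ≤ cP := (norm_nonneg (P s)).trans h1
      have n2 : 0 ≤ cM := (norm_nonneg (M s)).trans h2
      have n3 : 0 ≤ ce := (norm_nonneg (e s)).trans h3
      have hXY : ‖X s - Y s‖ ≤ 2 * ‖(X s, Y s)‖ := by
        have := norm_sub_le (X s) (Y s)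
        linarith
      have nn := norm_nonneg (X s, Y s)
      rw [add_zero]
      apply max_le
      · calc ‖P s * X s + e s * (X s - Y s)‖ ≤ ‖P s‖ * ‖X s‖ + ‖e s‖ * ‖X s - Y s‖ := by
              refine (norm_add_le _ _).trans ?_
              rw [norm_mul, norm_mul]
          _ ≤ cP * ‖(X s, Y s)‖ + ce * (2 * ‖(X s, Y s)‖) := by gcongr
          _ ≤ (cP + cM + 2 * ce) * ‖(X s, Y s)‖ := by nlinarith
      · calc ‖M s * Y s + e s * (X s - Y s)‖ ≤ ‖M s‖ * ‖Y s‖ + ‖e s‖ * ‖X s - Y s‖ := by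
              refine (norm_add_le _ _).trans ?_
              rw [norm_mul, norm_mul]
          _ ≤ cM * ‖(X s, Y s)‖ + ce * (2 * ‖(X s, Y s)‖) := by gcongr
          _ ≤ (cP + cM + 2 * ce) * ‖(X s, Y s)‖ := by nlinarith
  set Φ : ℝ → ℝ := fun t => ‖X t‖ ^ 2 - η ^ 2 * ‖Y t‖ ^ 2 with hΦ
  have hder : ∀ t, 0 ≤ t → HasDerivAt Φ (2 * inner ℝ (X t) (P t * X t + e t * (X t - Y t))
      - η ^ 2 * (2 * inner ℝ (Y t) (M t * Y t + e t * (X t - Y t)))) t := by
    intro t ht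
    exact ((hX t ht).norm_sq).sub (((hY t ht).norm_sq).const_mul (η ^ 2))
  have hiff : ∀ t, Φ t < 0 ↔ ‖X t‖ < η * ‖Y t‖ := by
    intro t
    simp only [hΦ]
    rw [sub_neg, ← mul_pow]
    constructor
    · intro h
      exact lt_of_pow_lt_pow_left₀ 2 (by positivity) h
    · intro h
      gcongr
  intro t0 ht0
  by_contra hcon
  rw [← hiff, not_lt] at hcon
  set S : Set ℝ := {t | t0 ≤ t ∧ 0 ≤ Φ t} with hS
  have hSne : S.Nonempty := ⟨t0, le_rfl, hcon⟩
  have hSb : BddAbove S := by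
    refine ⟨max T0 t0, fun t ht => ?_⟩
    by_contra hlt
    rw [not_le] at hlt
    have h1 : T0 ≤ t := (le_max_left _ _).trans hlt.le
    have := (hiff t).mpr (hT0 t h1)
    linarith [ht.2]
  have hcontΦ : ContinuousOn Φ (Ici 0) := fun t ht => (hder t ht).continuousAt.continuousWithinAt
  have hSc : IsClosed S := by
    have : S = Ici t0 ∩ Φ ⁻¹' (Ici 0) := by
      ext t; simp [hS]
    rw [this]
    exact (hcontΦ.mono (fun t (ht : t0 ≤ t) => (ht0.trans ht : (0:ℝ) ≤ t))).preimage_isClosed_of_isClosed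
      isClosed_Ici isClosed_Ici
  set t1 := sSup S with ht1
  have h1S : t1 ∈ S := hSc.csSup_mem hSne hSb
  have ht1' : 0 ≤ t1 := ht0.trans h1S.1
  have hafter : ∀ t, t1 < t → Φ t < 0 := by
    intro t ht
    by_contra h
    rw [not_lt] at h
    have : t ∈ S := ⟨h1S.1.trans ht.le, h⟩
    exact absurd (le_csSup hSb this) (not_le.mpr ht)
  have hz : Φ t1 = 0 := by
    apply le_antisymm _ h1S.2
    have hc : ContinuousAt Φ t1 := (hder t1 ht1').continuousAt
    have h2 : Tendsto Φ (𝓝[>] t1) (𝓝 (Φ t1)) := hc.tendsto.mono_left nhdsWithin_le_nhds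
    exact le_of_tendsto h2 (by
      filter_upwards [self_mem_nhdsWithin] with t ht
      exact (hafter t ht).le)
  have hxy : ‖X t1‖ = η * ‖Y t1‖ := by
    have h2 : ‖X t1‖ ^ 2 = (η * ‖Y t1‖) ^ 2 := by
      simp only [hΦ] at hz
      rw [mul_pow]
      linarith
    exact (pow_left_inj₀ (norm_nonneg _) (by positivity) two_ne_zero).mp h2
  have hy : Y t1 ≠ 0 := by
    intro hy
    apply hne t1 ht1'
    refine ⟨?_, hy⟩
    rw [hy] at hxy
    simpa using hxy
  have hpos := trap_deriv hη hxy hy (hgap t1 ht1')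
  have hsl := (hasDerivAt_iff_tendsto_slope.mp (hder t1 ht1')).eventually (lt_mem_nhds hpos)
  have hsl2 : ∀ᶠ t in 𝓝[>] t1, 0 < slope Φ t1 t :=
    hsl.filter_mono (nhdsWithin_mono _ (fun t (ht : t1 < t) => ht.ne'))
  obtain ⟨t, hts, htt⟩ := (hsl2.and self_mem_nhdsWithin).exists
  have htt' : t1 < t := htt
  rw [slope_def_field, hz, sub_zero] at hts
  have := hafter t htt'
  have h3 : Φ t / (t - t1) < 0 := div_neg_of_neg_of_pos this (by linarith)
  linarith

end Crest.Agent.R086.Ext
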