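import Mathlib
import Crest.Agent.R086.Ext2

/-!
Row 86, exterior DtN (helper766), part 3: WKB quantities on the ray `z = r + (2+i) t`.
-/

set_option autoImplicit false

open MeasureTheory Complex Set Filter Topology

namespace Crest.Agent.R086.Ext

/-- direction of the ray -/
noncomputable def uu : ℂ := 2 + I
/-- the ray -/
noncomputable def zz (r t : ℝ) : ℂ := r + uu * t
/-- `(l+5)^2 - 1/4`, `b = l+6`. -/
noncomputable def msq (b : ℝ) : ℝ := (b - 1 / 2) * (b - 3 / 2)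
/-- `V = m²/z² - z²/16 + i(b/2 - a)`. -/
noncomputable def VV (b : ℝ) (a z : ℂ) : ℂ := msq b / z ^ 2 - z ^ 2 / 16 + I * (b / 2 - a)
noncomputable def VV1 (b : ℝ) (z : ℂ) : ℂ := -(2 * msq b / z ^ 3) - z / 8
noncomputable def VV2 (b : ℝ) (z : ℂ) : ℂ := 6 * msq b / z ^ 4 - 1 / 8
noncomputable def qq (b : ℝ) (a z : ℂ) : ℂ := VV1 b z / (4 * VV b a z)
noncomputable def EE (b : ℝ) (a z : ℂ) : ℂ := 5 * qq b a z ^ 2 - VV2 b z / (4 * VV b a z)
noncomputable def ss (b : ℝ) (z : ℂ) : ℂ := (2 * b - 1) / (2 * z) + I * z / 4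
/-- the root of `V` with `Re (u κ) > 0`, `u = 2+i`. -/
noncomputable def kap (b : ℝ) (a z : ℂ) : ℂ := (uu ^ 2 * VV b a z) ^ (1 / 2 : ℂ) / uu

theorem uu_ne : uu ≠ 0 := by
  intro h
  have := congrArg Complex.re h
  simp [uu] at this

theorem uu_sq : uu ^ 2 = 3 + 4 * I := by
  unfold uu
  ring_nf
  rw [Complex.I_sq]
  ring

theorem norm_uu_sq : ‖uu‖ ^ 2 = 5 := by
  rw [← Complex.normSq_eq_norm_sq, Complex.normSq_apply]
  simp [uu]
  norm_num

theorem sqrt_sq (w : ℂ) : (w ^ (1 / 2 : ℂ)) ^ 2 = w := by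
  rcases eq_or_ne w 0 with rfl | h
  · simp
  · rw [← Complex.cpow_nat_mul]
    rw [show ((2 : ℕ) : ℂ) * (1 / 2 : ℂ) = 1 by push_cast; ring]
    simp

theorem kap_sq (b : ℝ) (a z : ℂ) : kap b a z ^ 2 = VV b a z := by
  unfold kap
  rw [div_pow, sqrt_sq, mul_div_cancel_left₀ _ (pow_ne_zero 2 uu_ne)]

theorem sqrt_re_nonneg (w : ℂ) : 0 ≤ (w ^ (1 / 2 : ℂ)).re := by
  rcases eq_or_ne w 0 with rfl | h
  · simp
  · rw [Complex.cpow_def_of_ne_zero h, Complex.exp_re]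
    apply mul_nonneg (Real.exp_pos _).le
    apply Real.cos_nonneg_of_neg_pi_div_two_le_of_le
    · have := Complex.neg_pi_lt_arg w
      have e : (Complex.log w * (1 / 2)).im = w.arg / 2 := by
        rw [show (1 / 2 : ℂ) = ((1 / 2 : ℝ) : ℂ) by push_cast; rfl, Complex.im_mul_ofReal,
          Complex.log_im]
        ring
      rw [e]
      linarith
    · have := Complex.arg_le_pi w
      have e : (Complex.log w * (1 / 2)).im = w.arg / 2 := by
        rw [show (1 / 2 : ℂ) = ((1 / 2 : ℝ) : ℂ) by push_cast; rfl, Complex.im_mul_ofReal,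
          Complex.log_im]
        ring
      rw [e]
      linarith

/-- `(Re √w)² = (|w| + Re w)/2`. -/
theorem sqrt_re_sq (w : ℂ) : (w ^ (1 / 2 : ℂ)).re ^ 2 = (‖w‖ + w.re) / 2 := by
  set s := w ^ (1 / 2 : ℂ) with hs
  have h1 : s ^ 2 = w := sqrt_sq w
  have h2 : ‖w‖ = s.re ^ 2 + s.im ^ 2 := by
    rw [← h1, norm_pow, ← Complex.normSq_eq_norm_sq, Complex.normSq_apply]
    ring
  have h3 : w.re = s.re ^ 2 - s.im ^ 2 := by
    rw [← h1, sq, Complex.mul_re]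
    ring
  rw [h2, h3]
  ring

theorem norm_kap_sq (b : ℝ) (a z : ℂ) : ‖kap b a z‖ ^ 2 = ‖VV b a z‖ := by
  rw [← norm_pow, kap_sq]

theorem uu_kap (b : ℝ) (a z : ℂ) : uu * kap b a z = (uu ^ 2 * VV b a z) ^ (1 / 2 : ℂ) := by
  unfold kap
  rw [mul_div_cancel₀ _ uu_ne]

/-- `Re(uκ) ≥ |κ|/√2` under the sign condition `Im V ≤ 3`, `|V| ≥ 12`. -/
theorem re_uu_kap {b : ℝ} {a z : ℂ} (h1 : (VV b a z).im ≤ 3) (h2 : 12 ≤ ‖VV b a z‖) :
    ‖VV b a z‖ / 2 ≤ (uu * kap b a z).re ^ 2 ∧ 0 < (uu * kap b a z).re := by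
  have h3 : ‖uu ^ 2 * VV b a z‖ = 5 * ‖VV b a z‖ := by
    rw [norm_mul, norm_pow, norm_uu_sq]
  have h4 : (uu ^ 2 * VV b a z).re = 3 * (VV b a z).re - 4 * (VV b a z).im := by
    rw [uu_sq]
    simp [Complex.mul_re]
  have h5 : -‖VV b a z‖ ≤ (VV b a z).re := by
    have := Complex.abs_re_le_norm (VV b a z)
    exact (abs_le.mp this).1
  have h6 : ‖VV b a z‖ / 2 ≤ (uu * kap b a z).re ^ 2 := by
    rw [uu_kap, sqrt_re_sq, h3, h4]
    linarith
  refine ⟨h6, ?_⟩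
  have h7 : 0 ≤ (uu * kap b a z).re := by
    rw [uu_kap]
    exact sqrt_re_nonneg _
  rcases h7.lt_or_eq with h | h
  · exact h
  · rw [← h] at h6
    norm_num at h6
    linarith

theorem slit {b : ℝ} {a z : ℂ} (h1 : (VV b a z).im ≤ 3) (h2 : 12 ≤ ‖VV b a z‖) :
    uu ^ 2 * VV b a z ∈ slitPlane := by
  rw [Complex.mem_slitPlane_iff]
  by_contra hcon
  push Not at hcon
  obtain ⟨hre, him⟩ := hcon
  have h := (re_uu_kap h1 h2).1
  have h3 : (uu * kap b a z).re ^ 2 = (‖uu ^ 2 * VV b a z‖ + (uu ^ 2 * VV b a z).re) / 2 := by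
    rw [uu_kap, sqrt_re_sq]
  have h4 : ‖uu ^ 2 * VV b a z‖ = -(uu ^ 2 * VV b a z).re := by
    have : ‖uu ^ 2 * VV b a z‖ = |(uu ^ 2 * VV b a z).re| := by
      rw [Complex.abs_re_eq_norm.mpr him]
    rw [this, abs_of_nonpos hre]
  rw [h3, h4] at h
  linarith

/-! ### derivatives in `z` -/

theorem hasDerivAt_VV (b : ℝ) (a : ℂ) {z : ℂ} (hz : z ≠ 0) :
    HasDerivAt (VV b a) (VV1 b z) z := by
  unfold VV VV1
  have h1 : HasDerivAt (fun z : ℂ => (msq b : ℂ) / z ^ 2) (-(2 * msq b / z ^ 3)) z := by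
    have := (hasDerivAt_const z (msq b : ℂ)).div (hasDerivAt_pow 2 z) (pow_ne_zero 2 hz)
    refine this.congr_deriv ?_
    field_simp
    ring
  have h2 : HasDerivAt (fun z : ℂ => z ^ 2 / 16) (z / 8) z := by
    have := (hasDerivAt_pow 2 z).div_const 16
    refine this.congr_deriv ?_
    norm_num
    ring
  exact (h1.sub h2).add_const _

theorem hasDerivAt_VV1 (b : ℝ) {z : ℂ} (hz : z ≠ 0) :
    HasDerivAt (VV1 b) (VV2 b z) z := by
  unfold VV1 VV2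
  have h1 : HasDerivAt (fun z : ℂ => -(2 * (msq b : ℂ) / z ^ 3)) (6 * msq b / z ^ 4) z := by
    have := ((hasDerivAt_const z (2 * msq b : ℂ)).div (hasDerivAt_pow 3 z) (pow_ne_zero 3 hz)).neg
    refine this.congr_deriv ?_
    field_simp
    ring
  have h2 : HasDerivAt (fun z : ℂ => z / 8) (1 / 8) z := (hasDerivAt_id z).div_const 8
  exact h1.sub h2

theorem hasDerivAt_qq (b : ℝ) (a : ℂ) {z : ℂ} (hz : z ≠ 0) (hV : VV b a z ≠ 0) :
    HasDerivAt (qq b a) (qq b a z ^ 2 - EE b a z) z := by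
  have h := (hasDerivAt_VV1 b hz).div ((hasDerivAt_VV b a hz).const_mul 4)
    (mul_ne_zero (by norm_num) hV)
  refine h.congr_deriv ?_
  unfold EE qq
  field_simp
  ring

theorem hasDerivAt_ss (b : ℝ) {z : ℂ} (hz : z ≠ 0) :
    HasDerivAt (ss b) (-((2 * b - 1) / (2 * z ^ 2)) + I / 4) z := by
  unfold ss
  have h1 : HasDerivAt (fun z : ℂ => ((2 * b - 1 : ℂ)) / (2 * z)) (-((2 * b - 1) / (2 * z ^ 2))) z := by
    have := (hasDerivAt_const z (2 * b - 1 : ℂ)).div ((hasDerivAt_id z).const_mul 2)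
      (mul_ne_zero two_ne_zero hz)
    refine this.congr_deriv ?_
    simp only [id]
    field_simp
    ring
  have h2 : HasDerivAt (fun z : ℂ => I * z / 4) (I / 4) z := by
    have := ((hasDerivAt_id z).const_mul I).div_const 4
    simpa using this
  exact h1.add h2

theorem hasDerivAt_kap (b : ℝ) (a : ℂ) {z : ℂ} (hz : z ≠ 0) (hV : VV b a z ≠ 0)
    (hs : uu ^ 2 * VV b a z ∈ slitPlane) :
    HasDerivAt (kap b a) (2 * qq b a z * kap b a z) z := by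
  have h := (((hasDerivAt_VV b a hz).const_mul (uu ^ 2)).cpow_const (c := (1 / 2 : ℂ)) hs).div_const uu
  refine h.congr_deriv ?_
  have e1 : (uu ^ 2 * VV b a z) ^ ((1 / 2 : ℂ) - 1) = (uu ^ 2 * VV b a z) ^ (1 / 2 : ℂ) /
      (uu ^ 2 * VV b a z) := by
    rw [Complex.cpow_sub _ _ (mul_ne_zero (pow_ne_zero 2 uu_ne) hV), Complex.cpow_one]
  rw [e1]
  unfold kap qq
  have := uu_ne
  field_simp
  ring

/-- the outgoing solution without `z^l` -/
noncomputable def y0 (b : ℝ) (a z : ℂ) : ℂ := Jc a (b - 1 - a) (z ^ 2 / 4)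
noncomputable def y1 (b : ℝ) (a z : ℂ) : ℂ := -(z / 2) * Jc (a + 1) (b - 1 - a) (z ^ 2 / 4)

theorem hasDerivAt_y0 (b : ℝ) {a z : ℂ} (ha : 0 < a.re) (hz : 0 < (z ^ 2).re) :
    HasDerivAt (y0 b a) (y1 b a z) z := by
  have hw : 0 < (z ^ 2 / 4).re := by
    rw [show z ^ 2 / 4 = z ^ 2 / ((4 : ℝ) : ℂ) by push_cast; rfl, Complex.div_ofReal_re]
    positivity
  have h1 : HasDerivAt (fun z : ℂ => z ^ 2 / 4) (z / 2) z := by
    have := (hasDerivAt_pow 2 z).div_const 4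
    refine this.congr_deriv ?_
    norm_num
    ring
  have h2 := (Jc_hasDerivAt (c := b - 1 - a) ha hw).comp z h1
  refine h2.congr_deriv ?_
  unfold y1
  ring

theorem hasDerivAt_y1 (b : ℝ) {a z : ℂ} (ha : 0 < a.re) (hz : 0 < (z ^ 2).re) (hz0 : z ≠ 0) :
    HasDerivAt (y1 b a) (-2 * ss b z * y1 b a z - I * a * y0 b a z) z := by
  have hw : 0 < (z ^ 2 / 4).re := by
    rw [show z ^ 2 / 4 = z ^ 2 / ((4 : ℝ) : ℂ) by push_cast; rfl, Complex.div_ofReal_re]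
    positivity
  have h1 : HasDerivAt (fun z : ℂ => z ^ 2 / 4) (z / 2) z := by
    have := (hasDerivAt_pow 2 z).div_const 4
    refine this.congr_deriv ?_
    norm_num
    ring
  have ha1 : 0 < (a + 1).re := by simp; linarith
  have h2 := (Jc_hasDerivAt (c := b - 1 - a) ha1 hw).comp z h1
  have h3 : HasDerivAt (fun z : ℂ => -(z / 2)) (-(1 / 2)) z := ((hasDerivAt_id z).div_const 2).neg
  have h4 := h3.mul h2
  refine h4.congr_deriv ?_
  have ibp := Jc_ibp (c := b - 1 - a) ha hw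
  rw [show a + 1 + 1 = a + 2 by ring]
  unfold y1 y0 ss
  simp only [Function.comp]
  have e : z ^ 2 / 4 * Jc (a + 2) (b - 1 - a) (z ^ 2 / 4) =
    -I * a * Jc a (b - 1 - a) (z ^ 2 / 4) + (b + I * (z ^ 2 / 4)) *
      Jc (a + 1) (b - 1 - a) (z ^ 2 / 4) := by
    rw [ibp]
    ring
  have e3 : -(1 / 2) * Jc (a + 1) (b - 1 - a) (z ^ 2 / 4) +
      -(z / 2) * (-Jc (a + 2) (b - 1 - a) (z ^ 2 / 4) * (z / 2)) =
      -(1 / 2) * Jc (a + 1) (b - 1 - a) (z ^ 2 / 4) + z ^ 2 / 4 * Jc (a + 2) (b - 1 - a) (z ^ 2 / 4) := by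
    ring
  rw [e3, e]
  field_simp
  ring

noncomputable def XX (b : ℝ) (a z : ℂ) : ℂ :=
  y1 b a z + (ss b z + kap b a z + qq b a z) * y0 b a z
noncomputable def YY (b : ℝ) (a z : ℂ) : ℂ :=
  y1 b a z + (ss b z - kap b a z + qq b a z) * y0 b a z

theorem kap_sq' (b : ℝ) (a : ℂ) {z : ℂ} (hz : z ≠ 0) :
    kap b a z ^ 2 = (-((2 * b - 1) / (2 * z ^ 2)) + I / 4) + ss b z ^ 2 - I * a := by
  rw [kap_sq]
  unfold VV ss msq
  push_cast
  field_simp
  ring_nf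
  rw [Complex.I_sq]
  ring

theorem hasDerivAt_XX (b : ℝ) {a z : ℂ} (ha : 0 < a.re) (hz : 0 < (z ^ 2).re) (hz0 : z ≠ 0)
    (hV : VV b a z ≠ 0) (hs : uu ^ 2 * VV b a z ∈ slitPlane) :
    HasDerivAt (XX b a) ((kap b a z + qq b a z - ss b z) * XX b a z - EE b a z * y0 b a z) z := by
  have h1 := hasDerivAt_y1 b ha hz hz0
  have h2 := (((hasDerivAt_ss b hz0).add (hasDerivAt_kap b a hz0 hV hs)).add
    (hasDerivAt_qq b a hz0 hV)).mul (hasDerivAt_y0 b ha hz)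
  refine (h1.add h2).congr_deriv ?_
  have h3 := kap_sq' b a hz0
  unfold XX
  simp only [Pi.add_apply]
  linear_combination (-(y0 b a z)) * h3

theorem hasDerivAt_YY (b : ℝ) {a z : ℂ} (ha : 0 < a.re) (hz : 0 < (z ^ 2).re) (hz0 : z ≠ 0)
    (hV : VV b a z ≠ 0) (hs : uu ^ 2 * VV b a z ∈ slitPlane) :
    HasDerivAt (YY b a) ((-kap b a z + qq b a z - ss b z) * YY b a z - EE b a z * y0 b a z) z := by
  have h1 := hasDerivAt_y1 b ha hz hz0
  have h2 := (((hasDerivAt_ss b hz0).sub (hasDerivAt_kap b a hz0 hV hs)).add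
    (hasDerivAt_qq b a hz0 hV)).mul (hasDerivAt_y0 b ha hz)
  refine (h1.add h2).congr_deriv ?_
  have h3 := kap_sq' b a hz0
  unfold YY
  simp only [Pi.add_apply, Pi.sub_apply]
  linear_combination (-(y0 b a z)) * h3

theorem XX_sub_YY (b : ℝ) (a z : ℂ) : XX b a z - YY b a z = 2 * kap b a z * y0 b a z := by
  unfold XX YY
  ring

end Crest.Agent.R086.Ext
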