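import Mathlib
import Crest.Agent.R086.Ext3

/-!
Row 86, exterior DtN (helper766), part 4: estimates on the ray.
-/

set_option autoImplicit false

open MeasureTheory Complex Set Filter Topology

namespace Crest.Agent.R086.Ext

noncomputable def NN (r t : ℝ) : ℝ := r ^ 2 + 4 * r * t + 5 * t ^ 2
noncomputable def XR (r t : ℝ) : ℝ := r ^ 2 + 4 * r * t + 3 * t ^ 2
noncomputable def YI (r t : ℝ) : ℝ := 2 * r * t + 4 * t ^ 2

theorem zz_re (r t : ℝ) : (zz r t).re = r + 2 * t := by simp [zz, uu]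
theorem zz_im (r t : ℝ) : (zz r t).im = t := by simp [zz, uu]
theorem zz_sq_re (r t : ℝ) : ((zz r t) ^ 2).re = XR r t := by
  rw [sq, Complex.mul_re, zz_re, zz_im]
  unfold XR
  ring
theorem zz_sq_im (r t : ℝ) : ((zz r t) ^ 2).im = YI r t := by
  rw [sq, Complex.mul_im, zz_re, zz_im]
  unfold YI
  ring
theorem norm_zz_sq (r t : ℝ) : ‖zz r t‖ ^ 2 = NN r t := by
  rw [← Complex.normSq_eq_norm_sq, Complex.normSq_apply, zz_re, zz_im]
  unfold NN
  ring

variable {r t : ℝ}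

theorem NN_pos (hr : 0 < r) (ht : 0 ≤ t) : 0 < NN r t := by unfold NN; positivity
theorem NN_ge (hr : 0 < r) (ht : 0 ≤ t) : r ^ 2 ≤ NN r t := by
  unfold NN
  have : 0 ≤ r * t := by positivity
  nlinarith [sq_nonneg t]
theorem XR_pos (hr : 0 < r) (ht : 0 ≤ t) : 0 < XR r t := by unfold XR; positivity
theorem YI_nonneg (hr : 0 < r) (ht : 0 ≤ t) : 0 ≤ YI r t := by unfold YI; positivity

theorem zz_ne (hr : 0 < r) (ht : 0 ≤ t) : zz r t ≠ 0 := by
  intro h
  have := norm_zz_sq r t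
  rw [h] at this
  simp at this
  linarith [NN_pos hr ht]

theorem normSq_zz_sq (r t : ℝ) : Complex.normSq ((zz r t) ^ 2) = NN r t ^ 2 := by
  rw [Complex.normSq_eq_norm_sq, norm_pow, norm_zz_sq]

theorem div_re' (m : ℝ) (w : ℂ) : ((m : ℂ) / w).re = m * w.re / Complex.normSq w := by
  rw [Complex.div_re]
  simp
theorem div_im' (m : ℝ) (w : ℂ) : ((m : ℂ) / w).im = -(m * w.im / Complex.normSq w) := by
  rw [Complex.div_im]
  simp

/-- `S = m²/|z|² + |z|²/16`. -/
noncomputable def SS (b r t : ℝ) : ℝ := msq b / NN r t + NN r t / 16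

theorem msq_pos {b : ℝ} (hb : 6 ≤ b) : 0 < msq b := by
  unfold msq
  apply mul_pos <;> linarith

theorem SS_pos {b : ℝ} (hb : 6 ≤ b) (hr : 0 < r) (ht : 0 ≤ t) : 0 < SS b r t := by
  have := msq_pos hb
  have := NN_pos hr ht
  unfold SS
  positivity

noncomputable def zeta (b : ℝ) (a : ℂ) : ℂ := I * (b / 2 - a)

theorem zeta_im (b : ℝ) (a : ℂ) : (zeta b a).im = b / 2 - a.re := by
  unfold zeta
  simp

theorem norm_zeta (b : ℝ) (a : ℂ) : ‖zeta b a‖ = ‖(b : ℂ) / 2 - a‖ := by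
  unfold zeta
  simp

theorem sixteen_re (w : ℂ) : (w / 16).re = w.re / 16 := by
  rw [show (16 : ℂ) = ((16 : ℝ) : ℂ) by push_cast; rfl, Complex.div_ofReal_re]
theorem sixteen_im (w : ℂ) : (w / 16).im = w.im / 16 := by
  rw [show (16 : ℂ) = ((16 : ℝ) : ℂ) by push_cast; rfl, Complex.div_ofReal_im]

theorem VV_im (b : ℝ) (a : ℂ) (hr : 0 < r) (ht : 0 ≤ t) :
    (VV b a (zz r t)).im = -(YI r t / NN r t * SS b r t) + (zeta b a).im := by
  have hN := NN_pos hr ht
  unfold VV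
  rw [Complex.add_im, Complex.sub_im, div_im', sixteen_im, normSq_zz_sq, zz_sq_im]
  change _ + (zeta b a).im = _
  unfold SS
  field_simp
  ring

theorem VV_re (b : ℝ) (a : ℂ) (hr : 0 < r) (ht : 0 ≤ t) :
    (VV b a (zz r t)).re = msq b * XR r t / NN r t ^ 2 - XR r t / 16 + (zeta b a).re := by
  unfold VV
  rw [Complex.add_re, Complex.sub_re, div_re', sixteen_re, normSq_zz_sq, zz_sq_re]
  rfl

theorem VV_im_le {b : ℝ} {a : ℂ} (hb : 6 ≤ b) (ha : b / 2 - 3 ≤ a.re) (hr : 0 < r) (ht : 0 ≤ t) :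
    (VV b a (zz r t)).im ≤ 3 := by
  rw [VV_im b a hr ht, zeta_im]
  have h1 := YI_nonneg hr ht
  have h2 := NN_pos hr ht
  have h3 := SS_pos hb hr ht
  have : 0 ≤ YI r t / NN r t * SS b r t := by positivity
  linarith

theorem XR_le (hr : 0 < r) (ht : 0 ≤ t) : XR r t ≤ NN r t := by
  unfold XR NN
  nlinarith [sq_nonneg t]

theorem VV_re_bound {b : ℝ} (a : ℂ) (hb : 6 ≤ b) (hr : 0 < r) (ht : 0 ≤ t) :
    |(zeta b a).re| - SS b r t ≤ ‖VV b a (zz r t)‖ := by
  have h1 := VV_re b a hr ht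
  have hN := NN_pos hr ht
  have hX := XR_pos hr ht
  have hXN := XR_le hr ht
  have hm := msq_pos hb
  have h2 : 0 ≤ msq b * XR r t / NN r t ^ 2 := by positivity
  have h3 : msq b * XR r t / NN r t ^ 2 ≤ msq b / NN r t := by
    rw [div_le_div_iff₀ (by positivity) hN]
    have : msq b * XR r t * NN r t ≤ msq b * NN r t * NN r t := by gcongr
    nlinarith
  have h4 : XR r t / 16 ≤ NN r t / 16 := by linarith
  have h5 := Complex.abs_re_le_norm (VV b a (zz r t))
  rw [h1] at h5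
  have h6 : |(zeta b a).re| ≤ |msq b * XR r t / NN r t ^ 2 - XR r t / 16 + (zeta b a).re| +
      |msq b * XR r t / NN r t ^ 2 - XR r t / 16| := by
    have := abs_sub (msq b * XR r t / NN r t ^ 2 - XR r t / 16 + (zeta b a).re)
      (msq b * XR r t / NN r t ^ 2 - XR r t / 16)
    rwa [show msq b * XR r t / NN r t ^ 2 - XR r t / 16 + (zeta b a).re -
      (msq b * XR r t / NN r t ^ 2 - XR r t / 16) = (zeta b a).re by ring] at this
  have h7 : |msq b * XR r t / NN r t ^ 2 - XR r t / 16| ≤ SS b r t := by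
    unfold SS
    rw [abs_le]
    have h8 : 0 < msq b / NN r t := by positivity
    constructor <;> linarith
  linarith

/-- AM-GM. -/
theorem SS_ge {b : ℝ} (hb : 6 ≤ b) (hr : 0 < r) (ht : 0 ≤ t) : Real.sqrt (msq b) / 2 ≤ SS b r t := by
  have hm := msq_pos hb
  have hN := NN_pos hr ht
  unfold SS
  have h1 : Real.sqrt (msq b) ^ 2 = msq b := Real.sq_sqrt hm.le
  set s := Real.sqrt (msq b) with hs
  rw [← h1]
  rw [div_add_div _ _ hN.ne' (by norm_num), div_le_div_iff₀ (by norm_num) (by positivity)]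
  nlinarith [sq_nonneg (4 * s - NN r t)]

/-- difference of `V` near the base point. -/
theorem VV_near {b : ℝ} (a : ℂ) (hb : 6 ≤ b) (hr : 0 < r) (ht : 0 ≤ t) (htr : t ≤ r) :
    ‖VV b a (zz r t) - VV b a r‖ ≤ t * (10 / r ^ 3 + r) * (msq b + 1) := by
  have hm := msq_pos hb
  have hz := zz_ne hr ht
  have hr' : (r : ℂ) ≠ 0 := by exact_mod_cast hr.ne'
  have e : VV b a (zz r t) - VV b a r = -((msq b : ℂ) * ((zz r t) ^ 2 - r ^ 2) /
      ((zz r t) ^ 2 * r ^ 2)) - ((zz r t) ^ 2 - r ^ 2) / 16 := by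
    unfold VV
    field_simp
    ring
  have hd : ‖(zz r t) ^ 2 - (r : ℂ) ^ 2‖ ≤ 10 * r * t := by
    have e2 : (zz r t) ^ 2 - (r : ℂ) ^ 2 = uu * t * (2 * r + uu * t) := by
      unfold zz; ring
    have hu : ‖uu‖ ≤ 9 / 4 := by
      have := norm_uu_sq
      have h0 := norm_nonneg uu
      nlinarith
    rw [e2, norm_mul, norm_mul]
    have h1 : ‖(t : ℂ)‖ = t := by simp [abs_of_nonneg ht]
    have h2 : ‖(2 * r + uu * t : ℂ)‖ ≤ 2 * r + 9 / 4 * t := by
      refine (norm_add_le _ _).trans ?_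
      rw [norm_mul, norm_mul, h1]
      have h3 : ‖(r : ℂ)‖ = r := by simp [abs_of_pos hr]
      rw [h3]
      simp
      gcongr
    rw [h1]
    calc ‖uu‖ * t * ‖(2 * r + uu * t : ℂ)‖ ≤ 9 / 4 * t * (2 * r + 9 / 4 * t) := by gcongr
      _ ≤ 9 / 4 * t * (2 * r + 9 / 4 * r) := by gcongr
      _ ≤ 10 * r * t := by nlinarith [mul_nonneg hr.le ht]
  rw [e]
  have hN := NN_ge hr ht
  have hNp := NN_pos hr ht
  have h4 : ‖-((msq b : ℂ) * ((zz r t) ^ 2 - r ^ 2) / ((zz r t) ^ 2 * r ^ 2))‖ ≤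
      msq b * (10 * r * t) / r ^ 4 := by
    rw [norm_neg, norm_div, norm_mul, norm_mul, norm_pow, norm_zz_sq, norm_pow]
    have h5 : ‖(msq b : ℂ)‖ = msq b := by simp [abs_of_pos hm]
    have h6 : ‖(r : ℂ)‖ = r := by simp [abs_of_pos hr]
    rw [h5, h6]
    apply div_le_div₀ (by positivity) (by gcongr) (by positivity)
    calc r ^ 4 = r ^ 2 * r ^ 2 := by ring
      _ ≤ NN r t * r ^ 2 := by gcongr
  have h7 : ‖((zz r t) ^ 2 - (r : ℂ) ^ 2) / 16‖ ≤ 10 * r * t / 16 := by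
    rw [norm_div]
    simp only [RCLike.norm_ofNat]
    gcongr
  calc _ ≤ msq b * (10 * r * t) / r ^ 4 + 10 * r * t / 16 := (norm_sub_le _ _).trans (add_le_add h4 h7)
    _ ≤ t * (10 / r ^ 3) * msq b + t * r := by
        have e3 : msq b * (10 * r * t) / r ^ 4 = t * (10 / r ^ 3) * msq b := by
          field_simp
        rw [e3]
        nlinarith [mul_nonneg hr.le ht]
    _ ≤ _ := by
        have p1 : 0 ≤ t * (10 / r ^ 3) := by positivity
        have p2 : 0 ≤ t * r * msq b := by positivity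
        nlinarith

/-- **Lower bound for `V` on the whole ray** under the non-glancing condition at `r`. -/
theorem VV_lower {δ : ℝ} (hr : 0 < r) (hδ : 0 < δ) : ∃ K Λ : ℝ, 1 ≤ K ∧ 1 ≤ Λ ∧
    ∀ (b : ℝ) (a : ℂ), 6 ≤ b → b / 2 - 3 ≤ a.re → Λ ≤ msq b + ‖zeta b a‖ →
      δ * (msq b + ‖zeta b a‖) ≤ ‖VV b a r‖ → ∀ t, 0 ≤ t →
      SS b r t + ‖zeta b a‖ ≤ K * ‖VV b a (zz r t)‖ := by
  set c1 : ℝ := 10 / r ^ 3 + r with hc1
  have hc1p : 0 < c1 := by positivity
  set τ : ℝ := min r (δ / (4 * c1)) with hτ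
  have hτp : 0 < τ := by
    apply lt_min hr
    positivity
  set K1 : ℝ := r / (2 * τ) + 2 with hK1
  have hK1p : 2 ≤ K1 := by
    have : 0 ≤ r / (2 * τ) := by positivity
    linarith
  set c2 : ℝ := 1 / r ^ 2 + r ^ 2 + 1 with hc2
  have hc2p : 0 < c2 := by positivity
  refine ⟨max 1 (max (4 / δ * c2) (2 * (2 * K1 + 1))), max 1 (18 * K1 + (36 * K1) ^ 2),
    le_max_left _ _, le_max_left _ _, ?_⟩
  intro b a hb ha hΛ hng t ht
  have hm := msq_pos hb
  have hz0 : 0 ≤ ‖zeta b a‖ := norm_nonneg _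
  have hV0 : 0 ≤ ‖VV b a (zz r t)‖ := norm_nonneg _
  have h1 : 1 ≤ msq b + ‖zeta b a‖ := (le_max_left _ _).trans hΛ
  have h2 : 18 * K1 + (36 * K1) ^ 2 ≤ msq b + ‖zeta b a‖ := (le_max_right _ _).trans hΛ
  rcases le_total t τ with htτ | htτ
  · -- near the base point
    have htr : t ≤ r := htτ.trans (min_le_left _ _)
    have h3 := VV_near a hb hr ht htr
    have h4 : t * c1 ≤ δ / 4 := by
      have : t ≤ δ / (4 * c1) := htτ.trans (min_le_right _ _)
      calc t * c1 ≤ δ / (4 * c1) * c1 := by gcongr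
        _ = δ / 4 := by field_simp
    have h5 : ‖VV b a (zz r t) - VV b a r‖ ≤ δ / 4 * (msq b + 1) := by
      refine h3.trans ?_
      rw [← hc1]
      gcongr
    have h6 : ‖VV b a r‖ ≤ ‖VV b a (zz r t)‖ + ‖VV b a (zz r t) - VV b a r‖ := by
      have := norm_sub_norm_le (VV b a r) (VV b a (zz r t))
      rw [norm_sub_rev] at this
      linarith
    have h7 : δ / 4 * (msq b + 1) ≤ δ / 2 * (msq b + ‖zeta b a‖) := by
      have : msq b + 1 ≤ 2 * (msq b + ‖zeta b a‖) := by linarith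
      calc δ / 4 * (msq b + 1) ≤ δ / 4 * (2 * (msq b + ‖zeta b a‖)) := by gcongr
        _ = _ := by ring
    have h8 : δ / 2 * (msq b + ‖zeta b a‖) ≤ ‖VV b a (zz r t)‖ := by linarith
    have h9 : SS b r t + ‖zeta b a‖ ≤ c2 * (2 * (msq b + ‖zeta b a‖)) := by
      have hN := NN_ge hr ht
      have hNp := NN_pos hr ht
      have hN2 : NN r t ≤ 10 * r ^ 2 := by
        unfold NN
        nlinarith [mul_nonneg hr.le ht]
      have h10 : msq b / NN r t ≤ msq b / r ^ 2 := by gcongr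
      have h11 : NN r t / 16 ≤ r ^ 2 := by nlinarith [sq_nonneg r]
      have h12 : SS b r t ≤ 1 / r ^ 2 * msq b + r ^ 2 := by
        unfold SS
        have : msq b / r ^ 2 = 1 / r ^ 2 * msq b := by ring
        linarith
      have p1 : 0 < 1 / r ^ 2 := by positivity
      have p2 : 0 < r ^ 2 := by positivity
      have : c2 * (2 * (msq b + ‖zeta b a‖)) = 1 / r ^ 2 * (2 * (msq b + ‖zeta b a‖)) +
        r ^ 2 * (2 * (msq b + ‖zeta b a‖)) + 2 * (msq b + ‖zeta b a‖) := by rw [hc2]; ring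
      rw [this]
      have q1 : 1 / r ^ 2 * msq b ≤ 1 / r ^ 2 * (2 * (msq b + ‖zeta b a‖)) := by
        gcongr
        linarith
      have q2 : r ^ 2 * 1 ≤ r ^ 2 * (2 * (msq b + ‖zeta b a‖)) := by
        gcongr
        linarith
      linarith
    calc SS b r t + ‖zeta b a‖ ≤ c2 * (2 * (msq b + ‖zeta b a‖)) := h9
      _ = 4 / δ * c2 * (δ / 2 * (msq b + ‖zeta b a‖)) := by field_simp; ring
      _ ≤ 4 / δ * c2 * ‖VV b a (zz r t)‖ := by gcongr
      _ ≤ _ := by
          gcongr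
          exact (le_max_left _ _).trans (le_max_right _ _)
  · -- away
    have hN := NN_pos hr ht
    have hS := SS_pos hb hr ht
    have hYN : NN r t ≤ K1 * YI r t := by
      have htp : 0 < t := lt_of_lt_of_le hτp htτ
      have h3 : r ^ 2 ≤ r / (2 * τ) * (2 * r * t) := by
        have : r / (2 * τ) * (2 * r * t) = r ^ 2 * (t / τ) := by field_simp
        rw [this]
        have h4 : 1 ≤ t / τ := (one_le_div hτp).mpr htτ
        nlinarith [sq_nonneg r]
      have h5 : 0 ≤ r / (2 * τ) * (4 * t ^ 2) := by positivity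
      unfold NN YI
      rw [hK1]
      nlinarith [mul_nonneg hr.le ht, sq_nonneg t]
    have h3 : SS b r t ≤ K1 * (YI r t / NN r t * SS b r t) := by
      have : K1 * (YI r t / NN r t * SS b r t) = (K1 * YI r t) / NN r t * SS b r t := by ring
      rw [this]
      have h4 : 1 ≤ (K1 * YI r t) / NN r t := (one_le_div hN).mpr hYN
      nlinarith
    have h4 := VV_im b a hr ht
    have h5 := Complex.abs_im_le_norm (VV b a (zz r t))
    have h6 : -(VV b a (zz r t)).im ≤ ‖VV b a (zz r t)‖ := (neg_le_abs _).trans h5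
    have h7 := VV_re_bound a hb hr ht
    have hzi : (zeta b a).im ≤ 3 := by rw [zeta_im]; linarith
    have h8 : ‖zeta b a‖ ≤ |(zeta b a).re| + |(zeta b a).im| := Complex.norm_le_abs_re_add_abs_im _
    have h9 : SS b r t - K1 * (zeta b a).im ≤ K1 * ‖VV b a (zz r t)‖ := by
      have : K1 * (-(VV b a (zz r t)).im) ≤ K1 * ‖VV b a (zz r t)‖ := by gcongr
      rw [h4] at this
      nlinarith
    have h10 : |(zeta b a).im| - 6 * K1 ≤ - K1 * (zeta b a).im := by
      rcases le_total 0 (zeta b a).im with h | h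
      · rw [abs_of_nonneg h]
        nlinarith
      · rw [abs_of_nonpos h]
        nlinarith
    have h11 : - (3 * K1) ≤ - K1 * (zeta b a).im := by nlinarith
    have h12 : SS b r t + ‖zeta b a‖ - 9 * K1 ≤ (2 * K1 + 1) * ‖VV b a (zz r t)‖ := by
      nlinarith
    have h13 : 18 * K1 ≤ SS b r t + ‖zeta b a‖ := by
      rcases le_total (18 * K1) ‖zeta b a‖ with h | h
      · linarith
      · have h14 : (36 * K1) ^ 2 ≤ msq b := by linarith
        have h15 : 36 * K1 ≤ Real.sqrt (msq b) := by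
          rw [Real.le_sqrt (by positivity) hm.le]
          exact h14
        have := SS_ge hb hr ht
        linarith
    calc SS b r t + ‖zeta b a‖ ≤ 2 * (2 * K1 + 1) * ‖VV b a (zz r t)‖ := by linarith
      _ ≤ _ := by
          gcongr
          exact (le_max_right _ _).trans (le_max_right _ _)

end Crest.Agent.R086.Ext
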