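import Mathlib
import Crest.Agent.R086.Ext4

/-!
Row 86, exterior DtN (helper766), part 5: the exterior Dirichlet-to-Neumann asymptotics.
-/

set_option autoImplicit false

open MeasureTheory Complex Set Filter Topology

namespace Crest.Agent.R086.Ext

variable {r : ℝ}

theorem norm_zz_pos {t : ℝ} (hr : 0 < r) (ht : 0 ≤ t) : 0 < ‖zz r t‖ :=
  norm_pos_iff.mpr (zz_ne hr ht)

/-- `|V'| ≤ 2 S/|z|`. -/
theorem VV1_le {b t : ℝ} (hb : 6 ≤ b) (hr : 0 < r) (ht : 0 ≤ t) :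
    ‖VV1 b (zz r t)‖ ≤ 2 * SS b r t / ‖zz r t‖ := by
  have hz := norm_zz_pos hr ht
  have hm := msq_pos hb
  have h5 : ‖(msq b : ℂ)‖ = msq b := by simp [abs_of_pos hm]
  have h1 : ‖VV1 b (zz r t)‖ ≤ 2 * msq b / ‖zz r t‖ ^ 3 + ‖zz r t‖ / 8 := by
    unfold VV1
    refine (norm_sub_le _ _).trans ?_
    rw [norm_neg, norm_div, norm_div, norm_mul, norm_pow, h5]
    simp
  refine h1.trans (le_of_eq ?_)
  unfold SS
  rw [← norm_zz_sq]
  field_simp
  ring

/-- `|V''| ≤ 6 S/|z|²`. -/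
theorem VV2_le {b t : ℝ} (hb : 6 ≤ b) (hr : 0 < r) (ht : 0 ≤ t) :
    ‖VV2 b (zz r t)‖ ≤ 6 * SS b r t / ‖zz r t‖ ^ 2 := by
  have hz := norm_zz_pos hr ht
  have hm := msq_pos hb
  have h5 : ‖(msq b : ℂ)‖ = msq b := by simp [abs_of_pos hm]
  have h1 : ‖VV2 b (zz r t)‖ ≤ 6 * msq b / ‖zz r t‖ ^ 4 + 1 / 8 := by
    unfold VV2
    refine (norm_sub_le _ _).trans ?_
    rw [norm_div, norm_mul, norm_pow, h5]
    simp
  refine h1.trans ?_
  unfold SS
  rw [← norm_zz_sq]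
  have : 6 * (msq b / ‖zz r t‖ ^ 2 + ‖zz r t‖ ^ 2 / 16) / ‖zz r t‖ ^ 2 =
      6 * msq b / ‖zz r t‖ ^ 4 + 6 / 16 := by
    field_simp
  rw [this]
  linarith

/-- `|E| ≤ 3 K²/|z|²`. -/
theorem EE_le {b t K : ℝ} {a : ℂ} (hb : 6 ≤ b) (hr : 0 < r) (ht : 0 ≤ t) (hK : 1 ≤ K)
    (hS : SS b r t ≤ K * ‖VV b a (zz r t)‖) (hV : 0 < ‖VV b a (zz r t)‖) :
    ‖EE b a (zz r t)‖ ≤ 3 * K ^ 2 / NN r t := by
  have hz := norm_zz_pos hr ht
  have h1 := VV1_le hb hr ht
  have h2 := VV2_le hb hr ht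
  set v := ‖VV b a (zz r t)‖ with hv
  set z := ‖zz r t‖ with hzz
  have hq : ‖qq b a (zz r t)‖ ≤ K / (2 * z) := by
    unfold qq
    rw [norm_div, norm_mul]
    simp only [RCLike.norm_ofNat]
    rw [← hv, div_le_div_iff₀ (by positivity) (by positivity)]
    have h3 : ‖VV1 b (zz r t)‖ * z ≤ 2 * SS b r t := by
      rw [le_div_iff₀ hz] at h1
      exact h1
    nlinarith
  have hw : ‖VV2 b (zz r t) / (4 * VV b a (zz r t))‖ ≤ (3 / 2) * K / z ^ 2 := by
    rw [norm_div, norm_mul]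
    simp only [RCLike.norm_ofNat]
    rw [← hv, div_le_div_iff₀ (by positivity) (by positivity)]
    have h3 : ‖VV2 b (zz r t)‖ * z ^ 2 ≤ 6 * SS b r t := by
      rw [le_div_iff₀ (by positivity)] at h2
      exact h2
    nlinarith
  rw [← norm_zz_sq, ← hzz]
  unfold EE
  refine (norm_sub_le _ _).trans ?_
  rw [norm_mul, norm_pow]
  simp only [RCLike.norm_ofNat]
  have h4 : ‖qq b a (zz r t)‖ ^ 2 ≤ (K / (2 * z)) ^ 2 := by gcongr
  have h5 : (5 : ℝ) * (K / (2 * z)) ^ 2 + (3 / 2) * K / z ^ 2 = (5 / 4 * K ^ 2 + 3 / 2 * K) / z ^ 2 := by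
    field_simp
    ring
  have h6 : (5 / 4 * K ^ 2 + 3 / 2 * K) / z ^ 2 ≤ 3 * K ^ 2 / z ^ 2 := by
    gcongr
    nlinarith
  linarith

/-! ### behaviour at infinity on the ray -/

theorem zz_tendsto (hr : 0 < r) : Tendsto (fun t => ‖zz r t‖) atTop atTop := by
  refine tendsto_atTop_mono' atTop ?_ tendsto_id
  filter_upwards [eventually_ge_atTop 0] with t ht
  have h1 := Complex.abs_im_le_norm (zz r t)
  rw [zz_im, abs_of_nonneg ht] at h1
  exact h1

theorem w_sector (hr : 0 < r) : ∀ᶠ t in atTop, (3 / 5 : ℝ) * ‖(zz r t) ^ 2 / 4‖ ≤ ((zz r t) ^ 2 / 4).re := by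
  filter_upwards [eventually_ge_atTop (0 : ℝ)] with t ht
  rw [show (zz r t) ^ 2 / 4 = (zz r t) ^ 2 / ((4 : ℝ) : ℂ) by push_cast; rfl, Complex.div_ofReal_re,
    zz_sq_re, norm_div, norm_pow, norm_zz_sq]
  simp only [Complex.norm_real, Real.norm_ofNat]
  unfold XR NN
  nlinarith [mul_nonneg hr.le ht, sq_nonneg t, sq_nonneg r]

theorem w_tendsto (hr : 0 < r) : Tendsto (fun t => ‖(zz r t) ^ 2 / 4‖) atTop atTop := by
  have h := zz_tendsto hr
  have h2 : Tendsto (fun t => ‖zz r t‖ ^ 2 / 4) atTop atTop :=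
    ((tendsto_pow_atTop two_ne_zero).comp h).atTop_div_const (by norm_num)
  refine h2.congr fun t => ?_
  rw [norm_div, norm_pow]
  simp

theorem y0_ne_eventually (b : ℝ) {a : ℂ} (ha : 0 < a.re) (hr : 0 < r) :
    ∀ᶠ t in atTop, y0 b a (zz r t) ≠ 0 := by
  have h := tendsto_Jc ha (b - 1 - a) (by norm_num : (0 : ℝ) < 3 / 5) (w_sector hr) (w_tendsto hr)
  have hG : Complex.Gamma a ≠ 0 := Complex.Gamma_ne_zero_of_re_pos ha
  filter_upwards [h.eventually_ne hG] with t ht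
  unfold y0
  exact right_ne_zero_of_mul ht

/-- `y1/y0 → 0`. -/
theorem ratio_tendsto (b : ℝ) {a : ℂ} (ha : 0 < a.re) (hr : 0 < r) :
    Tendsto (fun t => y1 b a (zz r t) / y0 b a (zz r t)) atTop (𝓝 0) := by
  have ha1 : 0 < (a + 1).re := by simp; linarith
  have h0 := tendsto_Jc ha (b - 1 - a) (by norm_num : (0 : ℝ) < 3 / 5) (w_sector hr) (w_tendsto hr)
  have h1 := tendsto_Jc ha1 (b - 1 - a) (by norm_num : (0 : ℝ) < 3 / 5) (w_sector hr) (w_tendsto hr)
  have hG : Complex.Gamma a ≠ 0 := Complex.Gamma_ne_zero_of_re_pos ha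
  have h2 := h1.div h0 hG
  have h3 : Tendsto (fun t => -2 * (zz r t)⁻¹) atTop (𝓝 0) := by
    have : Tendsto (fun t => (zz r t)⁻¹) atTop (𝓝 0) := by
      rw [tendsto_zero_iff_norm_tendsto_zero]
      simp only [norm_inv]
      exact tendsto_inv_atTop_zero.comp (zz_tendsto hr)
    have := this.const_mul (-2)
    simpa using this
  have h4 := h3.mul h2
  rw [zero_mul] at h4
  refine h4.congr' ?_
  filter_upwards [eventually_ge_atTop (0 : ℝ), y0_ne_eventually b ha hr] with t ht hy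
  have hz := zz_ne hr ht
  have hw : (zz r t) ^ 2 / 4 ≠ 0 := div_ne_zero (pow_ne_zero 2 hz) (by norm_num)
  unfold y0 at hy
  unfold y1 y0
  simp only [Pi.div_apply]
  rw [Complex.cpow_add _ _ hw, Complex.cpow_one]
  have hwa : ((zz r t) ^ 2 / 4) ^ a ≠ 0 := by
    rw [Complex.cpow_def_of_ne_zero hw]
    exact Complex.exp_ne_zero _
  generalize ((zz r t) ^ 2 / 4) ^ a = W at hwa
  generalize Jc a (b - 1 - a) (zz r t ^ 2 / 4) = J0 at hy
  generalize Jc (a + 1) (b - 1 - a) (zz r t ^ 2 / 4) = J1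
  field_simp
  ring

theorem VV_norm_ge_eventually {b : ℝ} {a : ℂ} : ∀ M : ℝ, 0 < r →
    ∀ᶠ t in atTop, M ≤ ‖VV b a (zz r t)‖ := by
  intro M hr
  have h := (zz_tendsto hr)
  filter_upwards [h.eventually_ge_atTop (16 * (|M| + |msq b| + ‖zeta b a‖ + 1)),
    eventually_ge_atTop (0 : ℝ)] with t h1 ht
  have hz := zz_ne hr ht
  have hn : 1 ≤ ‖zz r t‖ := by
    have := abs_nonneg M
    have := abs_nonneg (msq b)
    have := norm_nonneg (zeta b a)
    linarith
  have e : VV b a (zz r t) = -(zz r t ^ 2 / 16) + ((msq b : ℂ) / zz r t ^ 2 + zeta b a) := by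
    unfold VV zeta
    ring
  have h2 : ‖(msq b : ℂ) / zz r t ^ 2 + zeta b a‖ ≤ |msq b| + ‖zeta b a‖ := by
    refine (norm_add_le _ _).trans ?_
    gcongr
    rw [norm_div, norm_pow]
    simp only [Complex.norm_real, Real.norm_eq_abs]
    apply div_le_self (abs_nonneg _)
    exact one_le_pow₀ hn
  have h3 : ‖zz r t‖ ^ 2 / 16 - (|msq b| + ‖zeta b a‖) ≤ ‖VV b a (zz r t)‖ := by
    rw [e]
    have h4 := norm_sub_norm_le (-(zz r t ^ 2 / 16)) (-((msq b : ℂ) / zz r t ^ 2 + zeta b a))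
    rw [sub_neg_eq_add, norm_neg, norm_neg, norm_div, norm_pow] at h4
    simp only [RCLike.norm_ofNat] at h4
    linarith
  have h5 : 16 * (|M| + |msq b| + ‖zeta b a‖ + 1) ≤ ‖zz r t‖ ^ 2 := by
    have : ‖zz r t‖ * 1 ≤ ‖zz r t‖ * ‖zz r t‖ := by gcongr
    nlinarith
  have := le_abs_self M
  linarith

/-- `κ + i z/4 → 0` on the ray. -/
theorem kap_tendsto {b : ℝ} {a : ℂ} (hb : 6 ≤ b) (ha : b / 2 - 3 ≤ a.re) (hr : 0 < r) :
    Tendsto (fun t => kap b a (zz r t) + I * zz r t / 4) atTop (𝓝 0) := by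
  have hlim : Tendsto (fun t : ℝ => ‖uu‖ * (|msq b| + ‖zeta b a‖) / ((r + 4 * t) / 4)) atTop (𝓝 0) := by
    apply Tendsto.div_atTop tendsto_const_nhds
    apply Tendsto.atTop_div_const (by norm_num)
    apply tendsto_atTop_add_const_left
    exact Tendsto.const_mul_atTop (by norm_num) tendsto_id
  refine squeeze_zero_norm' ?_ hlim
  filter_upwards [eventually_ge_atTop (0 : ℝ), VV_norm_ge_eventually (b := b) (a := a) 12 hr,
    (zz_tendsto hr).eventually_ge_atTop 1] with t ht hV hn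
  have hz := zz_ne hr ht
  have hre := (re_uu_kap (VV_im_le hb ha hr ht) hV).2
  set k := kap b a (zz r t) with hk
  have h1 : (uu * (k - I * zz r t / 4)).re = (uu * k).re + (r + 4 * t) / 4 := by
    have e1 : uu * (k - I * zz r t / 4) = uu * k + -(uu * I * zz r t) / ((4 : ℝ) : ℂ) := by
      push_cast
      ring
    rw [e1, Complex.add_re, Complex.div_ofReal_re]
    congr 2
    unfold zz uu
    simp [Complex.mul_re, Complex.mul_im]
    ring
  have h2 : (r + 4 * t) / 4 ≤ ‖uu‖ * ‖k - I * zz r t / 4‖ := by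
    rw [← norm_mul]
    refine le_trans ?_ (Complex.re_le_norm _)
    rw [h1]
    linarith
  have h3 : (k + I * zz r t / 4) * (k - I * zz r t / 4) = (msq b : ℂ) / zz r t ^ 2 + zeta b a := by
    have e2 : (k + I * zz r t / 4) * (k - I * zz r t / 4) = k ^ 2 - I ^ 2 * (zz r t ^ 2 / 16) := by ring
    rw [e2, hk, kap_sq, Complex.I_sq]
    unfold VV zeta
    ring
  have h4 : ‖(msq b : ℂ) / zz r t ^ 2 + zeta b a‖ ≤ |msq b| + ‖zeta b a‖ := by
    refine (norm_add_le _ _).trans ?_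
    gcongr
    rw [norm_div, norm_pow]
    simp only [Complex.norm_real, Real.norm_eq_abs]
    apply div_le_self (abs_nonneg _)
    exact one_le_pow₀ hn
  rw [← h3, norm_mul] at h4
  have h5 : 0 < (r + 4 * t) / 4 := by positivity
  rw [le_div_iff₀ h5]
  calc ‖k + I * zz r t / 4‖ * ((r + 4 * t) / 4) ≤ ‖k + I * zz r t / 4‖ * (‖uu‖ * ‖k - I * zz r t / 4‖) := by
        gcongr
    _ = ‖uu‖ * (‖k + I * zz r t / 4‖ * ‖k - I * zz r t / 4‖) := by ring
    _ ≤ _ := by gcongr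

theorem inv_tendsto (hr : 0 < r) : Tendsto (fun t => (zz r t)⁻¹) atTop (𝓝 0) := by
  rw [tendsto_zero_iff_norm_tendsto_zero]
  simp only [norm_inv]
  exact tendsto_inv_atTop_zero.comp (zz_tendsto hr)

theorem qq_tendsto {b : ℝ} {a : ℂ} (hb : 6 ≤ b) (hr : 0 < r) :
    Tendsto (fun t => qq b a (zz r t)) atTop (𝓝 0) := by
  -- `|q| ≤ (2S/|z|)/(4|V|)`, `S ≤ 2|V|` eventually
  have hlim : Tendsto (fun t : ℝ => ‖(zz r t)⁻¹‖) atTop (𝓝 0) := by
    have := (inv_tendsto hr).norm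
    simpa using this
  refine squeeze_zero_norm' ?_ hlim
  filter_upwards [eventually_ge_atTop (0 : ℝ), VV_norm_ge_eventually (b := b) (a := a) 12 hr,
    (zz_tendsto hr).eventually_ge_atTop (1 + 64 * (|msq b| + ‖zeta b a‖))] with t ht hV hn
  have h1 := VV1_le hb hr ht
  have hzp := norm_zz_pos hr ht
  have hm := msq_pos hb
  have hS : SS b r t ≤ 2 * ‖VV b a (zz r t)‖ := by
    have h2 := norm_zeta b a
    have e : VV b a (zz r t) = -(zz r t ^ 2 / 16) + ((msq b : ℂ) / zz r t ^ 2 + zeta b a) := by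
      unfold VV zeta
      ring
    have hn1 : 1 ≤ ‖zz r t‖ := by
      have := abs_nonneg (msq b)
      have := norm_nonneg (zeta b a)
      linarith
    have h2 : ‖(msq b : ℂ) / zz r t ^ 2 + zeta b a‖ ≤ |msq b| + ‖zeta b a‖ := by
      refine (norm_add_le _ _).trans ?_
      gcongr
      rw [norm_div, norm_pow]
      simp only [Complex.norm_real, Real.norm_eq_abs]
      apply div_le_self (abs_nonneg _)
      exact one_le_pow₀ hn1
    have h3 : ‖zz r t‖ ^ 2 / 16 - (|msq b| + ‖zeta b a‖) ≤ ‖VV b a (zz r t)‖ := by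
      rw [e]
      have h4 := norm_sub_norm_le (-(zz r t ^ 2 / 16)) (-((msq b : ℂ) / zz r t ^ 2 + zeta b a))
      rw [sub_neg_eq_add, norm_neg, norm_neg, norm_div, norm_pow] at h4
      simp only [RCLike.norm_ofNat] at h4
      linarith
    have h5 : 64 * (|msq b| + ‖zeta b a‖) ≤ ‖zz r t‖ ^ 2 := by
      have : ‖zz r t‖ * 1 ≤ ‖zz r t‖ * ‖zz r t‖ := by gcongr
      nlinarith
    have h6 : msq b / NN r t ≤ |msq b| := by
      rw [← norm_zz_sq]
      have : msq b / ‖zz r t‖ ^ 2 ≤ msq b := by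
        apply div_le_self hm.le
        exact one_le_pow₀ hn1
      exact this.trans (le_abs_self _)
    unfold SS
    rw [← norm_zz_sq] at h6 ⊢
    have := norm_nonneg (zeta b a)
    linarith
  unfold qq
  rw [norm_div, norm_mul, norm_inv]
  simp only [RCLike.norm_ofNat]
  have hVp : 0 < ‖VV b a (zz r t)‖ := by linarith
  rw [div_le_iff₀ (by positivity)]
  calc ‖VV1 b (zz r t)‖ ≤ 2 * SS b r t / ‖zz r t‖ := h1
    _ ≤ 2 * (2 * ‖VV b a (zz r t)‖) / ‖zz r t‖ := by gcongr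
    _ = ‖zz r t‖⁻¹ * (4 * ‖VV b a (zz r t)‖) := by
        field_simp
        ring

/-- smallness of `X` against `Y` at infinity. -/
theorem XY_eventually {b : ℝ} {a : ℂ} (hb : 6 ≤ b) (ha0 : 0 < a.re) (ha : b / 2 - 3 ≤ a.re)
    (hr : 0 < r) {η : ℝ} (hη : 0 < η) :
    ∀ᶠ t in atTop, ‖XX b a (zz r t)‖ < η * ‖YY b a (zz r t)‖ := by
  have h1 := ratio_tendsto b ha0 hr
  have h2 := kap_tendsto hb ha hr
  have h3 := qq_tendsto (a := a) hb hr
  have h4 : Tendsto (fun t => ((2 * b - 1 : ℂ) / 2) * (zz r t)⁻¹) atTop (𝓝 0) := by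
    have := (inv_tendsto hr).const_mul ((2 * b - 1 : ℂ) / 2)
    simpa using this
  have hsum : Tendsto (fun t => y1 b a (zz r t) / y0 b a (zz r t) +
      (((2 * b - 1 : ℂ) / 2) * (zz r t)⁻¹ + (kap b a (zz r t) + I * zz r t / 4) + qq b a (zz r t)))
      atTop (𝓝 0) := by
    have := h1.add ((h4.add h2).add h3)
    simpa using this
  have hsmall := hsum.norm
  rw [norm_zero] at hsmall
  have hev := hsmall.eventually (gt_mem_nhds (show (0 : ℝ) < 1 by norm_num))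
  have hev2 := hsmall.eventually (gt_mem_nhds hη)
  have hkbig : ∀ᶠ t in atTop, 4 ≤ ‖VV b a (zz r t)‖ := VV_norm_ge_eventually 4 hr
  filter_upwards [hev, hev2, y0_ne_eventually b ha0 hr, hkbig, eventually_ge_atTop (0 : ℝ)] with
    t e1 e2 hy hk ht
  have hz := zz_ne hr ht
  have hyp : 0 < ‖y0 b a (zz r t)‖ := norm_pos_iff.mpr hy
  set R := y1 b a (zz r t) / y0 b a (zz r t) +
      (((2 * b - 1 : ℂ) / 2) * (zz r t)⁻¹ + (kap b a (zz r t) + I * zz r t / 4) + qq b a (zz r t)) with hR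
  have hX : XX b a (zz r t) = R * y0 b a (zz r t) := by
    rw [hR]
    unfold XX ss
    field_simp
    ring
  have hY : YY b a (zz r t) = (R - 2 * kap b a (zz r t)) * y0 b a (zz r t) := by
    have := XX_sub_YY b a (zz r t)
    rw [hX] at this
    linear_combination -this
  have hk2 : 2 ≤ ‖kap b a (zz r t)‖ := by
    have := norm_kap_sq b a (zz r t)
    have h0 := norm_nonneg (kap b a (zz r t))
    nlinarith
  have h5 : 1 < ‖R - 2 * kap b a (zz r t)‖ := by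
    have h6 := norm_sub_norm_le (2 * kap b a (zz r t)) R
    rw [norm_sub_rev, norm_mul] at h6
    simp only [RCLike.norm_ofNat] at h6
    linarith
  rw [hX, hY, norm_mul, norm_mul, ← mul_assoc]
  apply mul_lt_mul_of_pos_right _ hyp
  calc ‖R‖ < η := e2
    _ = η * 1 := (mul_one _).symm
    _ < η * ‖R - 2 * kap b a (zz r t)‖ := by gcongr

end Crest.Agent.R086.Ext
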