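import Mathlib
import Crest.Agent.R086.Ext5

/-!
Row 86, exterior DtN (helper766), part 6: main theorem.
-/

set_option autoImplicit false

open MeasureTheory Complex Set Filter Topology

namespace Crest.Agent.R086.Ext

variable {r : ℝ}

theorem hasDerivAt_zz (r t : ℝ) : HasDerivAt (fun t : ℝ => zz r t) uu t := by
  unfold zz
  have h := ((hasDerivAt_id (t : ℂ)).const_mul uu).const_add (r : ℂ)
  have := h.comp_ofReal
  simpa using this

theorem comp_zz {f : ℂ → ℂ} {f' : ℂ} {r t : ℝ} (h : HasDerivAt f f' (zz r t)) :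
    HasDerivAt (fun t : ℝ => f (zz r t)) (f' * uu) t := by
  have h1 : HasDerivAt (fun w : ℂ => r + uu * w) uu (t : ℂ) := by
    have := ((hasDerivAt_id (t : ℂ)).const_mul uu).const_add (r : ℂ)
    simpa using this
  have h2 : HasDerivAt (fun w : ℂ => f (r + uu * w)) (f' * uu) (t : ℂ) :=
    HasDerivAt.comp (t : ℂ) (h₂ := f) (h := fun w : ℂ => r + uu * w) h h1
  exact h2.comp_ofReal

/-- WKB comparison on the ray, all constants explicit. -/
theorem trapped {b : ℝ} {a : ℂ} {K η : ℝ} (hr : 0 < r) (hb : 6 ≤ b) (ha0 : 0 < a.re)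
    (ha : b / 2 - 3 ≤ a.re) (hK : 1 ≤ K) (hη : 0 < η) (hη1 : η ≤ 1 / 2)
    (hlow : ∀ t, 0 ≤ t → SS b r t + ‖zeta b a‖ ≤ K * ‖VV b a (zz r t)‖)
    (hbig : ∀ t, 0 ≤ t → 12 ≤ ‖VV b a (zz r t)‖)
    (hgap : ∀ t, 0 ≤ t → 6 * K ^ 2 < η * (NN r t * ‖VV b a (zz r t)‖)) :
    ∀ t, 0 ≤ t → ‖XX b a (zz r t)‖ < η * ‖YY b a (zz r t)‖ := by
  have hV0 : ∀ t, 0 ≤ t → VV b a (zz r t) ≠ 0 := fun t ht h => by
    have := hbig t ht
    rw [h] at this
    norm_num at this
  have hsl : ∀ t, 0 ≤ t → uu ^ 2 * VV b a (zz r t) ∈ slitPlane := fun t ht =>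
    slit (VV_im_le hb ha hr ht) (hbig t ht)
  have hk0 : ∀ t, 0 ≤ t → kap b a (zz r t) ≠ 0 := fun t ht h => by
    have := kap_sq b a (zz r t)
    rw [h] at this
    exact hV0 t ht (by rw [← this]; ring)
  have hzsq : ∀ t, 0 ≤ t → 0 < ((zz r t) ^ 2).re := fun t ht => by
    rw [zz_sq_re]
    exact XR_pos hr ht
  have cz : Continuous (fun t : ℝ => zz r t) := by
    unfold zz
    fun_prop
  have ck : ContinuousOn (fun t => kap b a (zz r t)) (Ici 0) := fun t ht =>
    (comp_zz (hasDerivAt_kap b a (zz_ne hr ht) (hV0 t ht) (hsl t ht))).continuousAt.continuousWithinAt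
  have cq : ContinuousOn (fun t => qq b a (zz r t)) (Ici 0) := fun t ht =>
    (comp_zz (hasDerivAt_qq b a (zz_ne hr ht) (hV0 t ht))).continuousAt.continuousWithinAt
  have cs : ContinuousOn (fun t => ss b (zz r t)) (Ici 0) := fun t ht =>
    (comp_zz (hasDerivAt_ss b (zz_ne hr ht))).continuousAt.continuousWithinAt
  have cV : ContinuousOn (fun t => VV b a (zz r t)) (Ici 0) := fun t ht =>
    (comp_zz (hasDerivAt_VV b a (zz_ne hr ht))).continuousAt.continuousWithinAt
  have cV2 : ContinuousOn (fun t => VV2 b (zz r t)) (Ici 0) := by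
    unfold VV2
    intro t ht
    have hz := zz_ne hr ht
    have : ContinuousAt (fun t => 6 * (msq b : ℂ) / zz r t ^ 4 - 1 / 8) t := by
      have h1 := cz.continuousAt (x := t)
      exact (continuousAt_const.div (h1.pow 4) (pow_ne_zero 4 hz)).sub continuousAt_const
    exact this.continuousWithinAt
  have cE : ContinuousOn (fun t => EE b a (zz r t)) (Ici 0) := by
    unfold EE
    intro t ht
    have h1 := cq t ht
    have h2 := cV t ht
    have h3 := cV2 t ht
    exact (continuousWithinAt_const.mul (h1.pow 2)).sub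
      (h3.div (continuousWithinAt_const.mul h2) (mul_ne_zero (by norm_num) (hV0 t ht)))
  refine trap (X := fun t => XX b a (zz r t)) (Y := fun t => YY b a (zz r t))
    (P := fun t => uu * (kap b a (zz r t) + qq b a (zz r t) - ss b (zz r t)))
    (M := fun t => uu * (-kap b a (zz r t) + qq b a (zz r t) - ss b (zz r t)))
    (e := fun t => -(uu * EE b a (zz r t) / (2 * kap b a (zz r t)))) hη ?_ ?_ ?_ ?_ ?_ ?_
    (XY_eventually hb ha0 ha hr hη)
  · intro t ht
    refine (comp_zz (hasDerivAt_XX b ha0 (hzsq t ht) (zz_ne hr ht) (hV0 t ht) (hsl t ht))).congr_deriv ?_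
    have hk := hk0 t ht
    rw [XX_sub_YY]
    field_simp
    ring
  · intro t ht
    refine (comp_zz (hasDerivAt_YY b ha0 (hzsq t ht) (zz_ne hr ht) (hV0 t ht) (hsl t ht))).congr_deriv ?_
    have hk := hk0 t ht
    rw [XX_sub_YY]
    field_simp
    ring
  · exact continuousOn_const.mul ((ck.add cq).sub cs)
  · exact continuousOn_const.mul ((ck.neg.add cq).sub cs)
  · intro t ht
    have := hk0 t ht
    exact ((continuousWithinAt_const.mul (cE t ht)).div (continuousWithinAt_const.mul (ck t ht))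
      (mul_ne_zero two_ne_zero this)).neg
  · intro t ht
    have hN := NN_pos hr ht
    have hS := SS_pos hb hr ht
    have hz0 : 0 ≤ ‖zeta b a‖ := norm_nonneg _
    have hVp : 0 < ‖VV b a (zz r t)‖ := by linarith [hbig t ht]
    have hE := EE_le hb hr ht hK (by linarith [hlow t ht]) hVp
    have hg := hgap t ht
    have hre := re_uu_kap (VV_im_le hb ha hr ht) (hbig t ht)
    have hkn := norm_kap_sq b a (zz r t)
    have hkp : 0 < ‖kap b a (zz r t)‖ := norm_pos_iff.mpr (hk0 t ht)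
    have e1 : (uu * (kap b a (zz r t) + qq b a (zz r t) - ss b (zz r t))).re -
      (uu * (-kap b a (zz r t) + qq b a (zz r t) - ss b (zz r t))).re = 2 * (uu * kap b a (zz r t)).re := by
      rw [← Complex.sub_re, show uu * (kap b a (zz r t) + qq b a (zz r t) - ss b (zz r t)) -
        uu * (-kap b a (zz r t) + qq b a (zz r t) - ss b (zz r t)) =
        ((2 : ℝ) : ℂ) * (uu * kap b a (zz r t)) by push_cast; ring, Complex.re_ofReal_mul]
    change ‖-(uu * EE b a (zz r t) / (2 * kap b a (zz r t)))‖ * (1 + η) ^ 2 <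
      η * ((uu * (kap b a (zz r t) + qq b a (zz r t) - ss b (zz r t))).re -
      (uu * (-kap b a (zz r t) + qq b a (zz r t) - ss b (zz r t))).re)
    rw [e1]
    set k := ‖kap b a (zz r t)‖ with hkdef
    set ρ := (uu * kap b a (zz r t)).re with hρ
    have hρk : 7 / 10 * k ≤ ρ := by
      have h1 : (7 / 10 * k) ^ 2 ≤ ρ ^ 2 := by
        rw [mul_pow, hkn]
        linarith [hre.1]
      exact le_of_sq_le_sq h1 hre.2.le
    have hu : ‖uu‖ ≤ 9 / 4 := by
      have := norm_uu_sq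
      have h0 := norm_nonneg uu
      nlinarith
    have hen : ‖-(uu * EE b a (zz r t) / (2 * kap b a (zz r t)))‖ ≤
        (9 / 4) * (3 * K ^ 2 / NN r t) / (2 * k) := by
      rw [norm_neg, norm_div, norm_mul, norm_mul]
      simp only [RCLike.norm_ofNat]
      gcongr
    have h94 : (1 + η) ^ 2 ≤ 9 / 4 := by nlinarith
    have hfin : (9 / 4) * (3 * K ^ 2 / NN r t) / (2 * k) * (9 / 4) < η * (2 * (7 / 10 * k)) := by
      have hk2 : k ^ 2 = ‖VV b a (zz r t)‖ := hkn
      rw [← hk2] at hg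
      have e3 : (9 / 4) * (3 * K ^ 2 / NN r t) / (2 * k) * (9 / 4) =
        (243 / 32) * K ^ 2 / (NN r t * k) := by
        field_simp
        ring
      rw [e3, div_lt_iff₀ (by positivity)]
      nlinarith
    calc _ ≤ (9 / 4) * (3 * K ^ 2 / NN r t) / (2 * k) * (9 / 4) := by
          apply mul_le_mul hen h94 (by positivity)
          positivity
      _ < η * (2 * (7 / 10 * k)) := hfin
      _ ≤ η * (2 * ρ) := by gcongr

theorem zz_zero (r : ℝ) : zz r 0 = r := by simp [zz]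

/-- **MAIN THEOREM (exterior DtN).** For every radius `r > 0` and non-glancing margin `δ > 0`
there are `C, Λ` such that for all `b ≥ 6`, all `a` with `Re a > 0`, `Re a ≥ b/2 - 3`,
`m² + |b/2 - a| ≥ Λ` and `|V(r)| ≥ δ (m² + |b/2 - a|)`:
the outgoing solution does not vanish at `r` and its logarithmic derivative has the WKB form. -/
theorem dtn {r δ : ℝ} (hr : 0 < r) (hδ : 0 < δ) : ∃ C Λ : ℝ, 0 < C ∧ 1 ≤ Λ ∧
    ∀ (b : ℝ) (a : ℂ), 6 ≤ b → 0 < a.re → b / 2 - 3 ≤ a.re → Λ ≤ msq b + ‖(b : ℂ) / 2 - a‖ →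
      δ * (msq b + ‖(b : ℂ) / 2 - a‖) ≤ ‖VV b a r‖ →
      y0 b a r ≠ 0 ∧ 12 ≤ ‖VV b a r‖ ∧ 0 < (uu * kap b a r).re ∧
      ‖y1 b a r / y0 b a r + ss b r + kap b a r + qq b a r‖ ≤ C / ‖kap b a r‖ := by
  obtain ⟨K, Λ, hK, hΛ1, hlow⟩ := VV_lower hr hδ
  set c0 : ℝ := min 1 (r ^ 2) with hc0
  have hc0p : 0 < c0 := lt_min one_pos (by positivity)
  have hc01 : c0 ≤ 1 := min_le_left _ _
  set c3 : ℝ := 1 / r ^ 2 + r ^ 2 + 1 with hc3
  have hc3p : 0 < c3 := by positivity
  refine ⟨28 * K ^ 3 / c0 * c3, max Λ (max (24 ^ 2 * K ^ 2 + 12 * K) (14 * K ^ 3 / c0)), by positivity,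
    hΛ1.trans (le_max_left _ _), ?_⟩
  intro b a hb ha0 ha hΛ' hng
  rw [← norm_zeta] at hΛ' hng
  set sz := msq b + ‖zeta b a‖ with hsz
  have hm := msq_pos hb
  have hz0 : 0 ≤ ‖zeta b a‖ := norm_nonneg _
  have hΛ : Λ ≤ sz := (le_max_left _ _).trans hΛ'
  have hΛ2 : 24 ^ 2 * K ^ 2 + 12 * K ≤ sz := (le_max_left _ _).trans ((le_max_right _ _).trans hΛ')
  have hΛ3 : 14 * K ^ 3 / c0 ≤ sz := (le_max_right _ _).trans ((le_max_right _ _).trans hΛ')
  have hszp : 0 < sz := by linarith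
  have hl := hlow b a hb ha hΛ hng
  -- `|V| ≥ 12` on the ray
  have hbig : ∀ t, 0 ≤ t → 12 ≤ ‖VV b a (zz r t)‖ := by
    intro t ht
    have h1 := hl t ht
    have h2 := SS_ge hb hr ht
    have h3 : 12 * K ≤ SS b r t + ‖zeta b a‖ := by
      rcases le_total (12 * K) ‖zeta b a‖ with h | h
      · linarith [SS_pos hb hr ht]
      · have h14 : (24 * K) ^ 2 ≤ msq b := by
          rw [mul_pow]
          linarith
        have h15 : 24 * K ≤ Real.sqrt (msq b) := by
          rw [Real.le_sqrt (by positivity) hm.le]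
          exact h14
        linarith
    have h4 : K * 12 ≤ K * ‖VV b a (zz r t)‖ := by linarith
    exact le_of_mul_le_mul_left h4 (by linarith)
  set η : ℝ := 7 * K ^ 3 / (c0 * sz) with hη
  have hηp : 0 < η := by positivity
  have hη1 : η ≤ 1 / 2 := by
    rw [hη, div_le_div_iff₀ (by positivity) (by norm_num)]
    rw [div_le_iff₀ hc0p] at hΛ3
    linarith
  have hgap : ∀ t, 0 ≤ t → 6 * K ^ 2 < η * (NN r t * ‖VV b a (zz r t)‖) := by
    intro t ht
    have hN := NN_pos hr ht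
    have hNr := NN_ge hr ht
    have h1 := hl t ht
    have h2 : msq b + NN r t * ‖zeta b a‖ ≤ NN r t * (SS b r t + ‖zeta b a‖) := by
      have : NN r t * SS b r t = msq b + NN r t ^ 2 / 16 := by
        unfold SS
        field_simp
      have h0 : 0 ≤ NN r t ^ 2 / 16 := by positivity
      nlinarith
    have h3 : c0 * sz ≤ msq b + NN r t * ‖zeta b a‖ := by
      have e1 : c0 * msq b ≤ 1 * msq b := by gcongr
      have e2 : c0 * ‖zeta b a‖ ≤ NN r t * ‖zeta b a‖ := by
        gcongr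
        exact (min_le_right _ _).trans hNr
      rw [hsz]
      linarith
    have h4 : NN r t * (SS b r t + ‖zeta b a‖) ≤ K * (NN r t * ‖VV b a (zz r t)‖) := by
      calc NN r t * (SS b r t + ‖zeta b a‖) ≤ NN r t * (K * ‖VV b a (zz r t)‖) := by gcongr
        _ = _ := by ring
    have h5 : c0 * sz / K ≤ NN r t * ‖VV b a (zz r t)‖ := by
      rw [div_le_iff₀ (by linarith)]
      linarith
    calc 6 * K ^ 2 < 7 * K ^ 2 := by nlinarith
      _ = η * (c0 * sz / K) := by
          rw [hη]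
          field_simp
      _ ≤ _ := by gcongr
  have key := trapped hr hb ha0 ha hK hηp hη1 hl hbig hgap 0 le_rfl
  rw [zz_zero] at key
  have hb0 := hbig 0 le_rfl
  rw [zz_zero] at hb0
  have hVim := VV_im_le hb ha hr (le_refl (0 : ℝ))
  rw [zz_zero] at hVim
  have hre := re_uu_kap hVim hb0
  have hkn := norm_kap_sq b a r
  have hkp : 0 < ‖kap b a r‖ := by
    rw [norm_pos_iff]
    intro h
    rw [h] at hkn
    simp at hkn
    rw [← hkn] at hb0
    norm_num at hb0
  have hxy := XX_sub_YY b a r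
  have hYp : 0 < ‖YY b a r‖ := by
    by_contra hcon
    have : ‖YY b a r‖ = 0 := le_antisymm (not_lt.mp hcon) (norm_nonneg _)
    rw [this, mul_zero] at key
    linarith [norm_nonneg (XX b a r)]
  have hdiff : ‖YY b a r‖ / 2 ≤ 2 * ‖kap b a r‖ * ‖y0 b a r‖ := by
    have h1 : ‖2 * kap b a r * y0 b a r‖ = 2 * ‖kap b a r‖ * ‖y0 b a r‖ := by
      rw [norm_mul, norm_mul]
      simp
    rw [← h1, ← hxy, norm_sub_rev]
    have h2 := norm_sub_norm_le (YY b a r) (XX b a r)
    have h3 : η * ‖YY b a r‖ ≤ 1 / 2 * ‖YY b a r‖ := by gcongr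
    linarith
  have hy0 : y0 b a r ≠ 0 := by
    intro h
    rw [h] at hdiff
    simp at hdiff
    linarith
  have hy0p : 0 < ‖y0 b a r‖ := norm_pos_iff.mpr hy0
  refine ⟨hy0, hb0, hre.2, ?_⟩
  have e : y1 b a r / y0 b a r + ss b r + kap b a r + qq b a r = XX b a r / y0 b a r := by
    unfold XX
    field_simp
    ring
  rw [e, norm_div, div_le_div_iff₀ hy0p hkp]
  have h1 : ‖XX b a r‖ ≤ η * (4 * ‖kap b a r‖ * ‖y0 b a r‖) := by
    calc ‖XX b a r‖ ≤ η * ‖YY b a r‖ := key.le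
      _ ≤ η * (4 * ‖kap b a r‖ * ‖y0 b a r‖) := by
          gcongr
          linarith
  -- `|V(r)| ≤ c3 sz`
  have hVup : ‖VV b a r‖ ≤ c3 * sz := by
    have h2 : ‖VV b a r‖ ≤ msq b / r ^ 2 + r ^ 2 / 16 + ‖zeta b a‖ := by
      have e2 : VV b a r = (msq b : ℂ) / r ^ 2 - r ^ 2 / 16 + zeta b a := by
        unfold VV zeta
        ring
      rw [e2]
      refine (norm_add_le _ _).trans ?_
      gcongr
      refine (norm_sub_le _ _).trans ?_
      rw [norm_div, norm_div, norm_pow]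
      simp only [Complex.norm_real, Real.norm_eq_abs, RCLike.norm_ofNat]
      rw [abs_of_pos hm, sq_abs]
    have h3 : 1 ≤ sz := hΛ1.trans hΛ
    have q1 : msq b / r ^ 2 ≤ 1 / r ^ 2 * sz := by
      rw [div_mul_eq_mul_div, one_mul]
      gcongr
      linarith
    have q2 : r ^ 2 / 16 ≤ r ^ 2 * sz := by
      nlinarith [sq_nonneg r]
    have q3 : ‖zeta b a‖ ≤ 1 * sz := by linarith
    rw [hc3]
    nlinarith
  have hfin : η * (4 * ‖kap b a r‖ * ‖kap b a r‖) ≤ 28 * K ^ 3 / c0 * c3 := by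
    have : 4 * ‖kap b a r‖ * ‖kap b a r‖ = 4 * ‖VV b a r‖ := by rw [← hkn]; ring
    rw [this]
    calc η * (4 * ‖VV b a r‖) ≤ η * (4 * (c3 * sz)) := by gcongr
      _ = 28 * K ^ 3 / c0 * c3 := by
          rw [hη]
          field_simp
          ring
  calc ‖XX b a r‖ * ‖kap b a r‖ ≤ η * (4 * ‖kap b a r‖ * ‖y0 b a r‖) * ‖kap b a r‖ := by gcongr
    _ = η * (4 * ‖kap b a r‖ * ‖kap b a r‖) * ‖y0 b a r‖ := by ring
    _ ≤ _ := by gcongr

end Crest.Agent.R086.Ext
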