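import Mathlib
import Crest.Agent.R086.ABIface
import Crest.Agent.R086.Ext6

/-!
Row 86, exterior DtN (helper766), part 7: the form for `fo l mu` (Part A's outgoing solution) and
the corollaries (E) (evanescent) and (P) (propagating) wanted by C2/R3.
-/

set_option autoImplicit false

open MeasureTheory Complex Set Filter Topology

namespace Crest.Agent.R086.Ext

/-- `h = φ'/φ` at `r`, `φ = r^{11/2} e^{ir²/8} fo l mu`. -/
noncomputable def hh (l : ℕ) (mu : ℂ) (r : ℝ) : ℂ :=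
  A.fo1 l mu r / A.fo l mu r + 11 / (2 * r) + I * r / 4

/-- `(l+5)² - 1/4` -/
noncomputable def nu (l : ℕ) : ℝ := ((l : ℝ) + 5) ^ 2 - 1 / 4

theorem nu_eq (l : ℕ) : nu l = msq ((l : ℝ) + 6) := by
  unfold nu msq
  ring

theorem nu_ge (l : ℕ) : 24 ≤ nu l := by
  unfold nu
  have : (0 : ℝ) ≤ l := by positivity
  nlinarith

/-- the potential at `r` -/
noncomputable def Vf (l : ℕ) (mu : ℂ) (r : ℝ) : ℂ := nu l / r ^ 2 - r ^ 2 / 16 + I * (3 - mu)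

theorem JCx_eq (a c z : ℂ) : JCx.J a c z = Jc a c z := rfl

theorem fo_eq (l : ℕ) {mu : ℂ} (hmu : 0 < mu.re) {r : ℝ} (hr : 0 < r) :
    A.fo l mu r = (r : ℂ) ^ l * (-I * (mu + l / 2) * y0 ((l : ℝ) + 6) (mu + l / 2) r) ∧
    A.fo1 l mu r = (l : ℂ) / r * A.fo l mu r +
      (r : ℂ) ^ l * (-I * (mu + l / 2) * y1 ((l : ℝ) + 6) (mu + l / 2) r) := by
  have ha : 0 < (mu + (l : ℂ) / 2).re := by
    have h2 : ((l : ℂ) / 2).re = (l : ℝ) / 2 := by simp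
    rw [Complex.add_re, h2]
    positivity
  have hz : 0 < (((r ^ 2 / 4 : ℝ) : ℂ)).re := by
    rw [Complex.ofReal_re]
    positivity
  have e1 : (((r ^ 2 / 4 : ℝ) : ℂ)) = (r : ℂ) ^ 2 / 4 := by push_cast; rfl
  have e2 : (((l : ℝ) + 6 : ℝ) : ℂ) - 1 - (mu + (l : ℂ) / 2) = ((l : ℂ) + 6) - (mu + (l : ℂ) / 2) - 1 := by
    push_cast
    ring
  constructor
  · unfold A.fo
    rw [JCx.W_eq ha hz, JCx_eq]
    unfold y0
    rw [e2, e1]
  · unfold A.fo1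
    congr 1
    unfold JCx.W1
    rw [JCx_eq]
    unfold y1
    rw [e2, e1]
    ring

/-- the theorem `dtn` for `fo l mu`. -/
theorem dtn_fo {r δ : ℝ} (hr : 0 < r) (hδ : 0 < δ) : ∃ C Λ : ℝ, 0 < C ∧ 1 ≤ Λ ∧
    ∀ (l : ℕ) (mu : ℂ), 0 < mu.re → Λ ≤ nu l + ‖3 - mu‖ → δ * (nu l + ‖3 - mu‖) ≤ ‖Vf l mu r‖ →
      A.fo l mu r ≠ 0 ∧ ∃ κ : ℂ, κ ^ 2 = Vf l mu r ∧ 0 < (uu * κ).re ∧ κ ≠ 0 ∧
        ‖hh l mu r + κ + (-(2 * nu l / r ^ 3) - r / 8) / (4 * Vf l mu r)‖ ≤ C / ‖κ‖ := by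
  obtain ⟨C, Λ, hC, hΛ, h⟩ := dtn hr hδ
  refine ⟨C, Λ, hC, hΛ, fun l mu hmu h1 h2 => ?_⟩
  have ha : 0 < (mu + (l : ℂ) / 2).re := by
    have h2 : ((l : ℂ) / 2).re = (l : ℝ) / 2 := by simp
    rw [Complex.add_re, h2]
    positivity
  have hb : (6 : ℝ) ≤ (l : ℝ) + 6 := by
    have : (0 : ℝ) ≤ l := by positivity
    linarith
  have ha3 : ((l : ℝ) + 6) / 2 - 3 ≤ (mu + (l : ℂ) / 2).re := by
    have h2 : ((l : ℂ) / 2).re = (l : ℝ) / 2 := by simp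
    rw [Complex.add_re, h2]
    linarith
  have e3 : (((l : ℝ) + 6 : ℝ) : ℂ) / 2 - (mu + (l : ℂ) / 2) = 3 - mu := by
    push_cast
    ring
  have eV : VV ((l : ℝ) + 6) (mu + (l : ℂ) / 2) r = Vf l mu r := by
    unfold VV Vf
    rw [← nu_eq, e3]
  have hk := h ((l : ℝ) + 6) (mu + (l : ℂ) / 2) hb ha ha3 (by rw [e3, ← nu_eq]; exact h1)
    (by rw [e3, ← nu_eq, eV]; exact h2)
  obtain ⟨k1, k2, k3, k4⟩ := hk
  obtain ⟨f1, f2⟩ := fo_eq l hmu hr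
  have hane : mu + (l : ℂ) / 2 ≠ 0 := by
    intro h0
    rw [h0] at ha
    simp at ha
  have hr0 : (r : ℂ) ≠ 0 := by exact_mod_cast hr.ne'
  have hfo : A.fo l mu r ≠ 0 := by
    rw [f1]
    exact mul_ne_zero (pow_ne_zero _ hr0) (mul_ne_zero (mul_ne_zero (neg_ne_zero.mpr I_ne_zero) hane) k1)
  have hkne : kap ((l : ℝ) + 6) (mu + (l : ℂ) / 2) r ≠ 0 := by
    intro h0
    rw [h0] at k3
    simp at k3
  refine ⟨hfo, kap ((l : ℝ) + 6) (mu + (l : ℂ) / 2) r, ?_, k3, hkne, ?_⟩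
  · rw [kap_sq, eV]
  · have e4 : hh l mu r + kap ((l : ℝ) + 6) (mu + (l : ℂ) / 2) r +
        (-(2 * nu l / r ^ 3) - r / 8) / (4 * Vf l mu r) =
        y1 ((l : ℝ) + 6) (mu + (l : ℂ) / 2) r / y0 ((l : ℝ) + 6) (mu + (l : ℂ) / 2) r +
          ss ((l : ℝ) + 6) r + kap ((l : ℝ) + 6) (mu + (l : ℂ) / 2) r +
          qq ((l : ℝ) + 6) (mu + (l : ℂ) / 2) r := by
      unfold hh
      have e5 : A.fo1 l mu r / A.fo l mu r = (l : ℂ) / r +
          y1 ((l : ℝ) + 6) (mu + (l : ℂ) / 2) r / y0 ((l : ℝ) + 6) (mu + (l : ℂ) / 2) r := by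
        rw [f2, add_div, mul_div_assoc, div_self hfo, mul_one]
        congr 1
        rw [f1]
        have hI := I_ne_zero
        have hrl : (r : ℂ) ^ l ≠ 0 := pow_ne_zero _ hr0
        rw [mul_div_mul_left _ _ hrl, mul_div_mul_left _ _ (mul_ne_zero (neg_ne_zero.mpr hI) hane)]
      rw [e5]
      unfold ss qq
      rw [eV]
      unfold VV1
      rw [← nu_eq]
      have : (l : ℂ) / r + 11 / (2 * r) = (2 * (((l : ℝ) + 6 : ℝ) : ℂ) - 1) / (2 * r) := by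
        push_cast
        field_simp
        ring
      rw [← this]
      ring
    rw [e4]
    exact k4

/-! ### elementary facts on the root -/

theorem root_evan {κ V : ℂ} {G : ℝ} (hκ : κ ^ 2 = V) (hu : 0 < (uu * κ).re) (hA : 0 < V.re)
    (hG : |V.im| ≤ G) :
    Real.sqrt V.re ≤ κ.re ∧ |κ.im| ≤ G / (2 * Real.sqrt V.re) ∧ κ.re ^ 2 - κ.im ^ 2 = V.re := by
  have e1 : κ.re ^ 2 - κ.im ^ 2 = V.re := by rw [← hκ, sq, sq, sq, Complex.mul_re]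
  have e2 : 2 * κ.re * κ.im = V.im := by rw [← hκ, sq, Complex.mul_im]; ring
  have e3 : 2 * κ.re - κ.im = (uu * κ).re := by
    unfold uu
    simp [Complex.mul_re]
  have hpos : 0 < κ.re := by
    by_contra hcon
    rw [not_lt] at hcon
    nlinarith
  have h1 : Real.sqrt V.re ≤ κ.re := by
    rw [Real.sqrt_le_left hpos.le]
    nlinarith [sq_nonneg κ.im]
  have hs : 0 < Real.sqrt V.re := Real.sqrt_pos.mpr hA
  refine ⟨h1, ?_, e1⟩
  rw [le_div_iff₀ (by positivity)]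
  have h2 : |V.im| = 2 * κ.re * |κ.im| := by
    rw [← e2, abs_mul, abs_of_pos (by positivity)]
  calc |κ.im| * (2 * Real.sqrt V.re) ≤ |κ.im| * (2 * κ.re) := by gcongr
    _ = |V.im| := by rw [h2]; ring
    _ ≤ G := hG

theorem root_prop {κ V : ℂ} {G : ℝ} (hκ : κ ^ 2 = V) (hu : 0 < (uu * κ).re) (hA : G < -V.re)
    (hG0 : 0 ≤ G) (hG : |V.im| ≤ G) :
    κ.im ≤ -Real.sqrt (-V.re) ∧ ‖κ‖ ^ 2 ≤ -V.re + G := by
  have e1 : κ.re ^ 2 - κ.im ^ 2 = V.re := by rw [← hκ, sq, sq, sq, Complex.mul_re]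
  have e2 : 2 * κ.re * κ.im = V.im := by rw [← hκ, sq, Complex.mul_im]; ring
  have e3 : 2 * κ.re - κ.im = (uu * κ).re := by
    unfold uu
    simp [Complex.mul_re]
  have him : κ.im < 0 := by
    by_contra hcon
    rw [not_lt] at hcon
    have h3 := (abs_le.mp hG).2
    nlinarith
  constructor
  · have h1 : Real.sqrt (-V.re) ≤ -κ.im := by
      rw [Real.sqrt_le_left (by linarith)]
      nlinarith [sq_nonneg κ.re]
    linarith
  · rw [← norm_pow, hκ]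
    have h4 := Complex.norm_le_abs_re_add_abs_im V
    rw [abs_of_neg (show V.re < 0 by linarith)] at h4
    linarith

end Crest.Agent.R086.Ext
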