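import Mathlib
import Crest.Agent.R086.Ext7

/-!
Row 86, exterior DtN (helper766), part 8: corollaries.  `h = hh l mu r = φ'/φ`,
`φ = r^{11/2} e^{ir²/8} fo l mu`.

* `evan` (E): `-x r² ≤ (1-η) ν`   (`x = Im lam`, `|Im mu - x| ≤ 1`, `0 < Re mu ≤ B`);
* `prop` (P): `(1+η) ν ≤ -x r²`.
-/

set_option autoImplicit false

open MeasureTheory Complex Set Filter Topology

namespace Crest.Agent.R086.Ext

theorem Vf_re (l : ℕ) (mu : ℂ) (r : ℝ) : (Vf l mu r).re = nu l / r ^ 2 - r ^ 2 / 16 + mu.im := by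
  have e : Vf l mu r = ((nu l / r ^ 2 - r ^ 2 / 16 : ℝ) : ℂ) + I * (3 - mu) := by
    unfold Vf
    push_cast
    rfl
  rw [e, Complex.add_re, Complex.ofReal_re]
  simp

theorem Vf_im (l : ℕ) (mu : ℂ) (r : ℝ) : (Vf l mu r).im = 3 - mu.re := by
  have e : Vf l mu r = ((nu l / r ^ 2 - r ^ 2 / 16 : ℝ) : ℂ) + I * (3 - mu) := by
    unfold Vf
    push_cast
    rfl
  rw [e, Complex.add_im, Complex.ofReal_im]
  simp

/-- `q = V'/(4V)` -/
noncomputable def qf (l : ℕ) (mu : ℂ) (r : ℝ) : ℂ :=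
  (-(2 * nu l / r ^ 3) - r / 8) / (4 * Vf l mu r)

theorem core {r δ G : ℝ} (hr : 0 < r) (hδ : 0 < δ) (hG : 3 ≤ G) : ∃ C M : ℝ, 1 ≤ C ∧ 1 ≤ M ∧
    ∀ (l : ℕ) (mu : ℂ), 0 < mu.re → |3 - mu.re| ≤ G → M ≤ nu l + |mu.im| →
      δ * (nu l + |mu.im|) ≤ |(Vf l mu r).re| →
      A.fo l mu r ≠ 0 ∧ ∃ κ e : ℂ, κ ^ 2 = Vf l mu r ∧ 0 < (uu * κ).re ∧ κ ≠ 0 ∧
        hh l mu r = -κ - qf l mu r + e ∧ ‖e‖ ≤ C / ‖κ‖ ∧ ‖qf l mu r‖ ≤ C := by
  obtain ⟨C, Λ, hC, hΛ, h⟩ := dtn_fo hr (show (0 : ℝ) < δ / 2 by positivity)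
  refine ⟨max 1 (max C ((2 / r ^ 3 + r / 8) / (4 * δ))), max Λ G, le_max_left _ _,
    hΛ.trans (le_max_left _ _), fun l mu hmu hγ hM hA => ?_⟩
  have hN := nu_ge l
  have hx : 0 ≤ |mu.im| := abs_nonneg _
  set S := nu l + |mu.im| with hS
  have hSΛ : Λ ≤ S := (le_max_left _ _).trans hM
  have hSG : G ≤ S := (le_max_right _ _).trans hM
  have n1 : ‖3 - mu‖ ≤ G + |mu.im| := by
    have := Complex.norm_le_abs_re_add_abs_im (3 - mu)
    have e1 : (3 - mu).re = 3 - mu.re := by simp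
    have e2 : (3 - mu).im = -mu.im := by simp
    rw [e1, e2, abs_neg] at this
    linarith
  have n2 : |mu.im| ≤ ‖3 - mu‖ := by
    have := Complex.abs_im_le_norm (3 - mu)
    have e2 : (3 - mu).im = -mu.im := by simp
    rwa [e2, abs_neg] at this
  have hVn : |(Vf l mu r).re| ≤ ‖Vf l mu r‖ := Complex.abs_re_le_norm _
  obtain ⟨h1, κ, h2, h3, h4, h5⟩ := h l mu hmu (by linarith) (by
    have t1 : δ / 2 * (nu l + ‖3 - mu‖) ≤ δ / 2 * (2 * S) := by
      gcongr
      linarith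
    linarith)
  have hS1 : 1 ≤ S := hΛ.trans hSΛ
  have hVp : δ * S ≤ ‖Vf l mu r‖ := hA.trans hVn
  refine ⟨h1, κ, hh l mu r + κ + qf l mu r, h2, h3, h4, by ring, ?_, ?_⟩
  · refine h5.trans ?_
    gcongr
    exact (le_max_left _ _).trans (le_max_right _ _)
  · refine le_trans ?_ ((le_max_right _ _).trans (le_max_right _ _))
    unfold qf
    have e1 : (-(2 * (nu l : ℂ) / r ^ 3) - r / 8) = ((-(2 * nu l / r ^ 3) - r / 8 : ℝ) : ℂ) := by
      push_cast
      rfl
    rw [norm_div, norm_mul, e1, Complex.norm_real, Real.norm_eq_abs, abs_of_nonpos]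
    · simp only [RCLike.norm_ofNat]
      have h6 : -(-(2 * nu l / r ^ 3) - r / 8) ≤ (2 / r ^ 3 + r / 8) * S := by
        have p1 : 2 * nu l / r ^ 3 ≤ 2 / r ^ 3 * S := by
          rw [div_mul_eq_mul_div]
          gcongr
          linarith
        have p2 : r / 8 ≤ r / 8 * S := le_mul_of_one_le_right (by positivity) hS1
        linarith
      have hδS : 0 < δ * S := by positivity
      rw [div_le_div_iff₀ (by linarith) (by positivity)]
      calc -(-(2 * nu l / r ^ 3) - r / 8) * (4 * δ) ≤ ((2 / r ^ 3 + r / 8) * S) * (4 * δ) := by gcongr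
        _ = (2 / r ^ 3 + r / 8) * (4 * (δ * S)) := by ring
        _ ≤ (2 / r ^ 3 + r / 8) * (4 * ‖Vf l mu r‖) := by gcongr
    · have : 0 ≤ 2 * nu l / r ^ 3 := by positivity
      linarith

/-- signs of `q` in the evanescent case. -/
theorem qf_evan {l : ℕ} {mu : ℂ} {r G : ℝ} (hr : 0 < r) (hA : 0 < (Vf l mu r).re)
    (hG : |3 - mu.re| ≤ G) :
    (qf l mu r).re ≤ 0 ∧ |(qf l mu r).im| ≤ ‖qf l mu r‖ * G / (Vf l mu r).re := by
  set V := Vf l mu r with hV
  set q := qf l mu r with hq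
  have hVne : V ≠ 0 := by
    intro h
    rw [h] at hA
    simp at hA
  have e1 : q * V = ((-(2 * nu l / r ^ 3) - r / 8 : ℝ) : ℂ) / 4 := by
    rw [hq]
    unfold qf
    rw [← hV]
    push_cast
    field_simp
  have e1' : q * V = (((-(2 * nu l / r ^ 3) - r / 8) / 4 : ℝ) : ℂ) := by
    rw [e1]
    push_cast
    rfl
  have e2 : q.re * V.im + q.im * V.re = 0 := by
    have := congrArg Complex.im e1'
    rw [Complex.mul_im, Complex.ofReal_im] at this
    linarith
  have e3 : q.re * V.re - q.im * V.im = (-(2 * nu l / r ^ 3) - r / 8) / 4 := by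
    have := congrArg Complex.re e1'
    rw [Complex.mul_re, Complex.ofReal_re] at this
    linarith
  have hN := nu_ge l
  have hw : (-(2 * nu l / r ^ 3) - r / 8) / 4 ≤ 0 := by
    have : 0 ≤ 2 * nu l / r ^ 3 := by positivity
    linarith
  constructor
  · by_contra hcon
    rw [not_le] at hcon
    have h1 : q.im * V.re = -(q.re * V.im) := by linarith
    have h2 : (q.re * V.re - q.im * V.im) * V.re ≤ 0 := by
      rw [e3]
      exact mul_nonpos_of_nonpos_of_nonneg hw hA.le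
    have h3 : (q.re * V.re - q.im * V.im) * V.re = q.re * V.re ^ 2 + q.re * V.im ^ 2 := by
      linear_combination (-V.im) * h1
    have h4 : 0 < q.re * V.re ^ 2 := by positivity
    have h5 : 0 ≤ q.re * V.im ^ 2 := by positivity
    linarith
  · rw [le_div_iff₀ hA]
    have h1 : |q.im| * V.re = |q.re| * |V.im| := by
      rw [← abs_mul]
      have : q.re * V.im = -(q.im * V.re) := by linarith
      rw [this, abs_neg, abs_mul, abs_of_pos hA]
    rw [h1]
    have h2 : |V.im| ≤ G := by rw [hV, Vf_im]; exact hG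
    have h3 := Complex.abs_re_le_norm q
    gcongr

/-- evanescent corollary, non-glancing condition in the form `δ S ≤ Re V`. -/
theorem evan' {r δ G : ℝ} (hr : 0 < r) (hδ : 0 < δ) (hG : 3 ≤ G) : ∃ C M : ℝ, 1 ≤ C ∧ 1 ≤ M ∧
    ∀ (l : ℕ) (mu : ℂ), 0 < mu.re → |3 - mu.re| ≤ G → M ≤ nu l + |mu.im| →
      δ * (nu l + |mu.im|) ≤ (Vf l mu r).re →
      A.fo l mu r ≠ 0 ∧ (hh l mu r).re ≤ -(Real.sqrt (nu l + |mu.im|) / C) ∧
      ‖hh l mu r‖ ≤ C * Real.sqrt (nu l + |mu.im|) ∧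
      |(hh l mu r).im| ≤ C / Real.sqrt (nu l + |mu.im|) ∧
      ‖hh l mu r‖ ^ 2 ≤ nu l / r ^ 2 + mu.im + C := by
  obtain ⟨C, M, hC, hM1, h⟩ := core hr hδ hG
  set sd := Real.sqrt δ with hsd
  have hsdp : 0 < sd := Real.sqrt_pos.mpr hδ
  have hsd2 : sd ^ 2 = δ := Real.sq_sqrt hδ.le
  set c1 : ℝ := 2 / sd with hc1
  set c2 : ℝ := (1 / r ^ 2 + 1 + G) + 2 * C with hc2
  set c3 : ℝ := (G + C * G + C) / sd with hc3
  set c4 : ℝ := G ^ 2 + 2 * C + (2 * C) ^ 2 + (G + C * G + C) ^ 2 with hc4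
  have p1 : 0 < c1 := by positivity
  have p2 : 0 < c2 := by positivity
  have p3 : 0 < c3 := by positivity
  have p4 : 0 < c4 := by positivity
  refine ⟨1 + c1 + c2 + c3 + c4, max M ((4 * C + 1) ^ 2 / δ), by linarith,
    hM1.trans (le_max_left _ _), fun l mu hmu hγ hM hA => ?_⟩
  have hN := nu_ge l
  have hx : 0 ≤ |mu.im| := abs_nonneg _
  set S := nu l + |mu.im| with hS
  have hSM : M ≤ S := (le_max_left _ _).trans hM
  have hSC : (4 * C + 1) ^ 2 / δ ≤ S := (le_max_right _ _).trans hM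
  have hS1 : 1 ≤ S := hM1.trans hSM
  set Av := (Vf l mu r).re with hAv
  have hAp : 0 < Av := lt_of_lt_of_le (by positivity) hA
  obtain ⟨h1, κ, e, h2, h3, h4, h5, h6, h7⟩ := h l mu hmu hγ hSM (by rw [abs_of_pos hAp]; exact hA)
  have him : |(Vf l mu r).im| ≤ G := by rw [Vf_im]; exact hγ
  obtain ⟨k1, k2, k3⟩ := root_evan h2 h3 hAp him
  obtain ⟨q1, q2⟩ := qf_evan hr hAp hγ
  set sA := Real.sqrt Av with hsA
  have hsA2 : sA ^ 2 = Av := Real.sq_sqrt hAp.le
  have hsAp : 0 < sA := Real.sqrt_pos.mpr hAp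
  have hsS : 0 < Real.sqrt S := Real.sqrt_pos.mpr (by linarith)
  have hsS2 : Real.sqrt S ^ 2 = S := Real.sq_sqrt (by linarith)
  have hsS1 : 1 ≤ Real.sqrt S := by
    rw [Real.one_le_sqrt]; exact hS1
  have hsd_le : sd * Real.sqrt S ≤ sA := by
    rw [hsA]
    apply Real.le_sqrt_of_sq_le
    rw [mul_pow, hsd2, hsS2]
    exact hA
  have hsA4 : 4 * C + 1 ≤ sA := by
    rw [hsA]
    apply Real.le_sqrt_of_sq_le
    rw [div_le_iff₀ hδ] at hSC
    linarith
  have hκn : sA ≤ ‖κ‖ := k1.trans (Complex.re_le_norm κ)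
  have hκp : 0 < ‖κ‖ := by linarith
  have he : ‖e‖ ≤ C / sA := h6.trans (by gcongr)
  have he1 : ‖e‖ ≤ C := by
    refine he.trans (div_le_self (by linarith) (by linarith))
  have hκe : ‖κ‖ * ‖e‖ ≤ C := by
    calc ‖κ‖ * ‖e‖ ≤ ‖κ‖ * (C / ‖κ‖) := by gcongr
      _ = C := by field_simp
  have hre : (hh l mu r).re = -(κ.re + (qf l mu r).re - e.re) := by
    rw [h5]
    simp only [Complex.add_re, Complex.sub_re, Complex.neg_re]
    ring
  have himh : (hh l mu r).im = -(κ.im + (qf l mu r).im - e.im) := by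
    rw [h5]
    simp only [Complex.add_im, Complex.sub_im, Complex.neg_im]
    ring
  have eqre := abs_le.mp ((Complex.abs_re_le_norm (qf l mu r)).trans h7)
  have eere := abs_le.mp ((Complex.abs_re_le_norm e).trans he1)
  have hκS : ‖κ‖ ≤ (1 / r ^ 2 + 1 + G) * Real.sqrt S := by
    have g1 : (1 : ℝ) ≤ 1 / r ^ 2 + 1 + G := by
      have : 0 < 1 / r ^ 2 := by positivity
      linarith
    have g2 : ‖κ‖ ^ 2 ≤ ((1 / r ^ 2 + 1 + G) * Real.sqrt S) ^ 2 := by
      rw [← norm_pow, h2, mul_pow, hsS2]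
      have g3 := Complex.norm_le_abs_re_add_abs_im (Vf l mu r)
      rw [← hAv, abs_of_pos hAp] at g3
      have g4 : Av ≤ (1 / r ^ 2 + 1) * S := by
        rw [hAv, Vf_re]
        have g5 : nu l / r ^ 2 ≤ 1 / r ^ 2 * S := by
          rw [div_mul_eq_mul_div, one_mul]
          gcongr
          linarith
        have g6 := le_abs_self mu.im
        have g7 : 0 ≤ r ^ 2 / 16 := by positivity
        linarith
      have g8 : G ≤ G * S := le_mul_of_one_le_right (by linarith) hS1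
      have g9 : ‖Vf l mu r‖ ≤ (1 / r ^ 2 + 1 + G) * S := by linarith
      have g10 : (1 / r ^ 2 + 1 + G) * S ≤ (1 / r ^ 2 + 1 + G) ^ 2 * S := by
        gcongr
        exact le_self_pow₀ g1 two_ne_zero
      linarith
    exact le_of_sq_le_sq g2 (by positivity)
  have himb : |(hh l mu r).im| ≤ (G + C * G + C) / sA := by
    rw [himh, abs_neg]
    have t1 : |κ.im| ≤ G / sA := by
      refine k2.trans ?_
      apply div_le_div_of_nonneg_left (by linarith) hsAp
      linarith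
    have t2 : |(qf l mu r).im| ≤ C * G / sA := by
      refine q2.trans ?_
      have t3 : ‖qf l mu r‖ * G ≤ C * G := by gcongr
      have t4 : sA ≤ Av := by
        rw [← hsA2]
        exact le_self_pow₀ (by linarith) two_ne_zero
      have : 0 ≤ ‖qf l mu r‖ * G := by positivity
      apply div_le_div₀ (by positivity) t3 hsAp t4
    have t5 : |e.im| ≤ C / sA := (Complex.abs_im_le_norm e).trans he
    have t6 : |κ.im + (qf l mu r).im - e.im| ≤ |κ.im| + |(qf l mu r).im| + |e.im| := by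
      have := abs_sub (κ.im + (qf l mu r).im) e.im
      have := abs_add_le κ.im (qf l mu r).im
      linarith
    have t7 : (G + C * G + C) / sA = G / sA + C * G / sA + C / sA := by ring
    linarith
  have hDpos : 0 < 1 + c1 + c2 + c3 + c4 := by positivity
  refine ⟨h1, ?_, ?_, ?_, ?_⟩
  · -- (a)
    have a1 : (hh l mu r).re ≤ -(sA / 2) := by
      rw [hre]
      linarith [eqre.1, eere.2]
    have a2 : Real.sqrt S / (1 + c1 + c2 + c3 + c4) ≤ sA / 2 := by
      rw [div_le_div_iff₀ hDpos (by norm_num)]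
      have a3 : Real.sqrt S * 2 = c1 * (sd * Real.sqrt S) := by
        rw [hc1]
        field_simp
      rw [a3]
      calc c1 * (sd * Real.sqrt S) ≤ c1 * sA := by gcongr
        _ = sA * c1 := mul_comm _ _
        _ ≤ sA * (1 + c1 + c2 + c3 + c4) := by
            gcongr
            linarith
    linarith
  · -- (b)
    have b1 : ‖hh l mu r‖ ≤ ‖κ‖ + C + C := by
      rw [h5]
      calc ‖-κ - qf l mu r + e‖ ≤ ‖-κ - qf l mu r‖ + ‖e‖ := norm_add_le _ _
        _ ≤ ‖-κ‖ + ‖qf l mu r‖ + ‖e‖ := by gcongr; exact norm_sub_le _ _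
        _ ≤ ‖κ‖ + C + C := by rw [norm_neg]; gcongr
    have b2 : C + C ≤ 2 * C * Real.sqrt S := by
      have := mul_le_mul_of_nonneg_left hsS1 (show 0 ≤ 2 * C by linarith)
      linarith
    calc ‖hh l mu r‖ ≤ c2 * Real.sqrt S := by rw [hc2]; linarith
      _ ≤ (1 + c1 + c2 + c3 + c4) * Real.sqrt S := by
          gcongr
          linarith
  · -- (c)
    refine himb.trans ?_
    rw [div_le_div_iff₀ hsAp hsS]
    have t1 : (G + C * G + C) * Real.sqrt S = c3 * (sd * Real.sqrt S) := by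
      rw [hc3]
      field_simp
    rw [t1]
    calc c3 * (sd * Real.sqrt S) ≤ c3 * sA := by gcongr
      _ ≤ (1 + c1 + c2 + c3 + c4) * sA := by
          gcongr
          linarith
  · -- (d)
    have d0 : ‖hh l mu r‖ ^ 2 = (hh l mu r).re ^ 2 + (hh l mu r).im ^ 2 := by
      rw [← Complex.normSq_eq_norm_sq, Complex.normSq_apply]
      ring
    have d1 : (hh l mu r).im ^ 2 ≤ (G + C * G + C) ^ 2 := by
      have : |(hh l mu r).im| ≤ G + C * G + C := by
        refine himb.trans ?_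
        apply div_le_self (by positivity) (by linarith)
      rw [← sq_abs]
      gcongr
    have d2 : κ.re ^ 2 ≤ Av + G ^ 2 := by
      have : |κ.im| ≤ G := by
        refine k2.trans ?_
        apply div_le_self (by linarith) (by linarith)
      have : κ.im ^ 2 ≤ G ^ 2 := by
        rw [← sq_abs]
        gcongr
      linarith
    have d3 : κ.re * |e.re| ≤ C := by
      calc κ.re * |e.re| ≤ ‖κ‖ * ‖e‖ := by
            apply mul_le_mul (Complex.re_le_norm κ) (Complex.abs_re_le_norm e) (abs_nonneg _) (norm_nonneg _)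
        _ ≤ C := hκe
    have d4 : (hh l mu r).re ^ 2 ≤ κ.re ^ 2 + 2 * C + (2 * C) ^ 2 := by
      rw [hre]
      set t := (qf l mu r).re - e.re with ht
      have e1 : (-(κ.re + (qf l mu r).re - e.re)) ^ 2 = κ.re ^ 2 + 2 * (κ.re * t) + t ^ 2 := by
        rw [ht]; ring
      have e2 : κ.re * t ≤ C := by
        have : κ.re * t = κ.re * (qf l mu r).re - κ.re * e.re := by rw [ht]; ring
        have t1 : κ.re * (qf l mu r).re ≤ 0 := mul_nonpos_of_nonneg_of_nonpos (by linarith) q1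
        have t2 : -(κ.re * e.re) ≤ κ.re * |e.re| := by
          have hk0 : 0 ≤ κ.re := by linarith
          have hk1 := mul_le_mul_of_nonneg_left (neg_abs_le e.re) hk0
          rw [mul_neg] at hk1
          linarith
        linarith
      have e3 : t ^ 2 ≤ (2 * C) ^ 2 := by
        apply sq_le_sq'
        · rw [ht]; linarith [eqre.1, eere.2]
        · rw [ht]; linarith [eqre.2, eere.1]
      rw [e1]
      linarith
    have d5 : Av ≤ nu l / r ^ 2 + mu.im := by
      rw [hAv, Vf_re]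
      have : 0 ≤ r ^ 2 / 16 := by positivity
      linarith
    rw [d0]
    have : c4 ≤ 1 + c1 + c2 + c3 + c4 := by linarith
    linarith

/-- propagating corollary, non-glancing condition in the form `δ S ≤ -Re V`. -/
theorem prop' {r δ G : ℝ} (hr : 0 < r) (hδ : 0 < δ) (hG : 3 ≤ G) : ∃ C M : ℝ, 1 ≤ C ∧ 1 ≤ M ∧
    ∀ (l : ℕ) (mu : ℂ), 0 < mu.re → |3 - mu.re| ≤ G → M ≤ nu l + |mu.im| →
      δ * (nu l + |mu.im|) ≤ -(Vf l mu r).re →
      A.fo l mu r ≠ 0 ∧ Real.sqrt (nu l + |mu.im|) / C ≤ (hh l mu r).im ∧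
      ‖hh l mu r‖ ≤ C * Real.sqrt (nu l + |mu.im|) ∧ |(hh l mu r).re| ≤ C := by
  obtain ⟨C, M, hC, hM1, h⟩ := core hr hδ hG
  set sd := Real.sqrt δ with hsd
  have hsdp : 0 < sd := Real.sqrt_pos.mpr hδ
  have hsd2 : sd ^ 2 = δ := Real.sq_sqrt hδ.le
  set c1 : ℝ := 2 / sd with hc1
  set c2 : ℝ := (r ^ 2 + 1 + G) + 2 * C with hc2
  set c3 : ℝ := G + 2 * C with hc3
  have p1 : 0 < c1 := by positivity
  have p2 : 0 < c2 := by positivity
  have p3 : 0 < c3 := by positivity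
  refine ⟨1 + c1 + c2 + c3, max M (((4 * C + 1) ^ 2 + G + 1) / δ), by linarith,
    hM1.trans (le_max_left _ _), fun l mu hmu hγ hM hA => ?_⟩
  have hN := nu_ge l
  have hx : 0 ≤ |mu.im| := abs_nonneg _
  set S := nu l + |mu.im| with hS
  have hSM : M ≤ S := (le_max_left _ _).trans hM
  have hSC : ((4 * C + 1) ^ 2 + G + 1) / δ ≤ S := (le_max_right _ _).trans hM
  have hS1 : 1 ≤ S := hM1.trans hSM
  set Av := -(Vf l mu r).re with hAv
  have hAp : 0 < Av := lt_of_lt_of_le (by positivity) hA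
  have hAneg : (Vf l mu r).re < 0 := by linarith
  obtain ⟨h1, κ, e, h2, h3, h4, h5, h6, h7⟩ := h l mu hmu hγ hSM
    (by rw [abs_of_neg hAneg]; exact hA)
  have him : |(Vf l mu r).im| ≤ G := by rw [Vf_im]; exact hγ
  have hbigA : (4 * C + 1) ^ 2 + G + 1 ≤ Av := by
    rw [div_le_iff₀ hδ] at hSC
    linarith
  obtain ⟨k1, k2⟩ := root_prop h2 h3 (by rw [← hAv]; linarith [sq_nonneg (4 * C + 1)]) (by linarith) him
  rw [← hAv] at k1 k2
  set sA := Real.sqrt Av with hsA
  have hsA2 : sA ^ 2 = Av := Real.sq_sqrt hAp.le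
  have hsAp : 0 < sA := Real.sqrt_pos.mpr hAp
  have hsS : 0 < Real.sqrt S := Real.sqrt_pos.mpr (by linarith)
  have hsS2 : Real.sqrt S ^ 2 = S := Real.sq_sqrt (by linarith)
  have hsS1 : 1 ≤ Real.sqrt S := by
    rw [Real.one_le_sqrt]; exact hS1
  have hsd_le : sd * Real.sqrt S ≤ sA := by
    rw [hsA]
    apply Real.le_sqrt_of_sq_le
    rw [mul_pow, hsd2, hsS2]
    exact hA
  have hsA4 : 4 * C + 1 ≤ sA := by
    rw [hsA]
    apply Real.le_sqrt_of_sq_le
    linarith
  have hκn : sA ≤ ‖κ‖ := by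
    have := Complex.abs_im_le_norm κ
    have := neg_abs_le κ.im
    linarith
  have hκp : 0 < ‖κ‖ := by linarith
  have he : ‖e‖ ≤ C / sA := h6.trans (by gcongr)
  have he1 : ‖e‖ ≤ C := by
    refine he.trans (div_le_self (by linarith) (by linarith))
  have hre : (hh l mu r).re = -(κ.re + (qf l mu r).re - e.re) := by
    rw [h5]
    simp only [Complex.add_re, Complex.sub_re, Complex.neg_re]
    ring
  have himh : (hh l mu r).im = -(κ.im + (qf l mu r).im - e.im) := by
    rw [h5]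
    simp only [Complex.add_im, Complex.sub_im, Complex.neg_im]
    ring
  have eqre := abs_le.mp ((Complex.abs_re_le_norm (qf l mu r)).trans h7)
  have eqim := abs_le.mp ((Complex.abs_im_le_norm (qf l mu r)).trans h7)
  have eere := abs_le.mp ((Complex.abs_re_le_norm e).trans he1)
  have eeim := abs_le.mp ((Complex.abs_im_le_norm e).trans he1)
  have hκS : ‖κ‖ ≤ (r ^ 2 + 1 + G) * Real.sqrt S := by
    have g1 : (1 : ℝ) ≤ r ^ 2 + 1 + G := by
      have : 0 < r ^ 2 := by positivity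
      linarith
    have g2 : ‖κ‖ ^ 2 ≤ ((r ^ 2 + 1 + G) * Real.sqrt S) ^ 2 := by
      rw [mul_pow, hsS2]
      have g4 : Av ≤ (r ^ 2 + 1) * S := by
        rw [hAv, Vf_re]
        have g5 : 0 ≤ nu l / r ^ 2 := by positivity
        have g6 := neg_abs_le mu.im
        have g7 : r ^ 2 / 16 ≤ r ^ 2 * S := by
          have := mul_le_mul_of_nonneg_left hS1 (sq_nonneg r)
          linarith [sq_nonneg r]
        linarith
      have g8 : G ≤ G * S := le_mul_of_one_le_right (by linarith) hS1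
      have g9 : ‖κ‖ ^ 2 ≤ (r ^ 2 + 1 + G) * S := by linarith
      have g10 : (r ^ 2 + 1 + G) * S ≤ (r ^ 2 + 1 + G) ^ 2 * S := by
        gcongr
        exact le_self_pow₀ g1 two_ne_zero
      linarith
    exact le_of_sq_le_sq g2 (by positivity)
  have hDpos : 0 < 1 + c1 + c2 + c3 := by positivity
  refine ⟨h1, ?_, ?_, ?_⟩
  · have a1 : sA / 2 ≤ (hh l mu r).im := by
      rw [himh]
      linarith [eqim.1, eqim.2, eeim.1, eeim.2]
    refine le_trans ?_ a1
    rw [div_le_div_iff₀ hDpos (by norm_num)]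
    have a3 : Real.sqrt S * 2 = c1 * (sd * Real.sqrt S) := by
      rw [hc1]
      field_simp
    rw [a3]
    calc c1 * (sd * Real.sqrt S) ≤ c1 * sA := by gcongr
      _ = sA * c1 := mul_comm _ _
      _ ≤ sA * (1 + c1 + c2 + c3) := by
          gcongr
          linarith
  · have b1 : ‖hh l mu r‖ ≤ ‖κ‖ + C + C := by
      rw [h5]
      calc ‖-κ - qf l mu r + e‖ ≤ ‖-κ - qf l mu r‖ + ‖e‖ := norm_add_le _ _
        _ ≤ ‖-κ‖ + ‖qf l mu r‖ + ‖e‖ := by gcongr; exact norm_sub_le _ _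
        _ ≤ ‖κ‖ + C + C := by rw [norm_neg]; gcongr
    have b2 : C + C ≤ 2 * C * Real.sqrt S := by
      have := mul_le_mul_of_nonneg_left hsS1 (show 0 ≤ 2 * C by linarith)
      linarith
    calc ‖hh l mu r‖ ≤ c2 * Real.sqrt S := by rw [hc2]; linarith
      _ ≤ (1 + c1 + c2 + c3) * Real.sqrt S := by
          gcongr
          linarith
  · -- real part
    have e1 : κ.re ^ 2 - κ.im ^ 2 = (Vf l mu r).re := by rw [← h2, sq, sq, sq, Complex.mul_re]
    have e2 : 2 * κ.re * κ.im = (Vf l mu r).im := by rw [← h2, sq, Complex.mul_im]; ring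
    have hκre : |κ.re| ≤ G := by
      have t1 : 2 * (|κ.re| * |κ.im|) ≤ G := by
        rw [← abs_mul]
        have : |κ.re * κ.im| = |(Vf l mu r).im| / 2 := by
          rw [← e2, show 2 * κ.re * κ.im = 2 * (κ.re * κ.im) by ring, abs_mul]
          simp
        rw [this]
        linarith
      have t2 : 1 ≤ |κ.im| := by
        have := neg_abs_le κ.im
        linarith
      have t3 : |κ.re| * 1 ≤ |κ.re| * |κ.im| := by gcongr
      have t4 := abs_nonneg κ.re
      linarith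
    have t := abs_le.mp hκre
    rw [hre, abs_neg]
    rw [abs_le]
    constructor
    · linarith [eqre.1, eere.2, t.1]
    · linarith [eqre.2, eere.1, t.2]

end Crest.Agent.R086.Ext
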