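import Crest.Agent.R086.ExtDefs
import Crest.Agent.R086.XBd
import Crest.Agent.R086.CLift

/-!
Row 86, node EXT, part A (helper384): from `Pair` / `BData` / `REG` to the hypotheses of the scalar form,
and the final theorems `ext0`, `exts`.
-/

set_option autoImplicit false

open MeasureTheory Complex Set Filter Topology
open scoped ContDiff

namespace Crest.Agent.R086.ExtA

open Crest.Agent.R086.XA

local notation "conj" => starRingEnd ℂ

theorem exists_isCut {a b : ℝ} (ha : 0 < a) (hab : a < b) : ∃ χ : R12 → ℝ, IsCut χ a b := by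
  let φ : ContDiffBump (0 : R12) := ⟨a, b, ha, hab⟩
  exact ⟨φ, ⟨ha, hab, φ.contDiff, fun y hy => φ.one_of_mem_closedBall (by simpa using hy),
    fun y hy => φ.zero_of_le_dist (by simpa using hy), fun y => φ.nonneg, fun y => φ.le_one⟩⟩

/-! ### conjugation -/

theorem modeFn_conj (H : R12 → ℝ) (F : ℝ → ℂ) :
    modeFn H (fun r => conj (F r)) = fun y => conj (modeFn H F y) := by
  funext y; unfold modeFn; simp

theorem deriv_conj' (F : ℝ → ℂ) : deriv (fun r => conj (F r)) = fun r => conj (deriv F r) := by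
  funext r
  exact deriv.star (f := F)

theorem rlap_conj (l : ℕ) (F : ℝ → ℂ) (r : ℝ) :
    rlap l (fun r => conj (F r)) r = conj (rlap l F r) := by
  unfold rlap
  rw [deriv_conj', deriv_conj']
  simp [map_ofNat]

section
variable {n : ℕ} (P : Profile n)

theorem rgen1_conj (l : ℕ) (F G : ℝ → ℂ) (r : ℝ) :
    P.rgen1 l (fun r => conj (G r)) (fun r => conj (F r)) r = conj (P.rgen2 l F G r) := by
  unfold Profile.rgen1 Profile.rgen2 Profile.rV1 Profile.rV2 Profile.rV2c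
  rw [rlap_conj, deriv_conj']
  simp [map_ofNat]
  try ring

theorem rgen2_conj (l : ℕ) (F G : ℝ → ℂ) (r : ℝ) :
    P.rgen2 l (fun r => conj (G r)) (fun r => conj (F r)) r = conj (P.rgen1 l F G r) := by
  unfold Profile.rgen1 Profile.rgen2 Profile.rV1 Profile.rV2 Profile.rV2c
  rw [rlap_conj, deriv_conj']
  simp [map_ofNat]
  try ring

variable {P}

theorem pair_conj {l : ℕ} {H : R12 → ℝ} {lam al : ℂ} {e F G : ℝ → ℂ}
    (h : P.Pair l H lam al e F G) :
    P.Pair l H (conj lam) (conj al) e (fun r => conj (G r)) (fun r => conj (F r)) where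
  sharm := h.sharm
  nrm := h.nrm
  cF := Complex.conjCLE.contDiff.comp h.cG
  cG := Complex.conjCLE.contDiff.comp h.cF
  pF := fun r => by rw [h.pG r]; simp
  pG := fun r => by rw [h.pF r]; simp
  xF := by rw [modeFn_conj]; exact inX_conj h.xG
  xG := by rw [modeFn_conj]; exact inX_conj h.xF
  eqF := fun r hr => by
    rw [rgen1_conj, ← map_mul, ← map_sub, h.eqG r hr]; simp
  eqG := fun r hr => by
    rw [rgen2_conj, ← map_mul, ← map_sub, h.eqF r hr]; simp

theorem NB_conj (rho : ℝ) (F G : ℝ → ℂ) :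
    NB rho (fun r => conj (G r)) (fun r => conj (F r)) = NB rho F G := by
  unfold NB
  simp only [RCLike.norm_conj]
  congr 1
  refine intervalIntegral.integral_congr fun r _ => ?_
  ring

/-- the equation of the first component on `R12` -/
theorem pair_eq1 {l : ℕ} {H : R12 → ℝ} {lam al : ℂ} {e F G : ℝ → ℂ}
    (h : P.Pair l H lam al e F G) (he : Continuous (modeFn H e)) (y : R12) :
    I * lap (modeFn H F) y - (1 / 2) * eul (modeFn H F) y - P.mu lam * modeFn H F y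
      = I * (P.V1 y * modeFn H F y + P.V2 y * modeFn H G y) + al * modeFn H e y := by
  have hE : modeFn H (fun r => al * e r) = fun y => al * modeFn H e y := by
    funext y; unfold modeFn; ring
  have hf : ContDiff ℝ 2 (modeFn H F) := (SH.InX.contDiff h.xF).of_le (by norm_num)
  have hg : ContDiff ℝ 2 (modeFn H G) := (SH.InX.contDiff h.xG).of_le (by norm_num)
  have h1 := CLift.lift1 P h.sharm (E := fun r => al * e r) (lam := lam)
    (h.cF.of_le (by norm_num)) hf hg (by rw [hE]; exact continuous_const.mul he)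
    (fun r hr => h.eqF r hr) y
  rw [hE] at h1
  simp only at h1
  unfold Profile.gen1 at h1
  unfold Profile.mu
  linear_combination h1

end

/-! ### numbers -/

theorem ev_exp (C : ℝ) (K : ℕ) {c : ℝ} (hc : 0 < c) :
    ∀ᶠ n : ℕ in atTop, C * (n : ℝ) ^ K * Real.exp (-c * n) ≤ Real.exp (-(c / 2) * n) := by
  have h1 : Tendsto (fun n : ℕ => (c / 2) * (n : ℝ)) atTop atTop :=
    tendsto_natCast_atTop_atTop.const_mul_atTop (by positivity)
  have h2 := (Real.tendsto_pow_mul_exp_neg_atTop_nhds_zero K).comp h1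
  have h3 := h2.const_mul (C * (2 / c) ^ K)
  rw [mul_zero] at h3
  filter_upwards [h3.eventually_le_const one_pos] with n hn
  simp only [Function.comp] at hn
  have h4 : Real.exp (-c * n) = Real.exp (-(c / 2 * n)) * Real.exp (-(c / 2) * n) := by
    rw [← Real.exp_add]; congr 1; ring
  rw [h4]
  have h5 : C * (n : ℝ) ^ K * (Real.exp (-(c / 2 * n)) * Real.exp (-(c / 2) * n))
      = (C * (2 / c) ^ K * ((c / 2 * n) ^ K * Real.exp (-(c / 2 * n)))) *
        Real.exp (-(c / 2) * n) := by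
    rw [mul_pow]
    have : (2 / c) ^ K * (c / 2) ^ K = 1 := by
      rw [← mul_pow]
      have : 2 / c * (c / 2) = 1 := by field_simp
      rw [this, one_pow]
    linear_combination (-(C * (n : ℝ) ^ K * Real.exp (-(c / 2 * n)) *
      Real.exp (-(c / 2) * n))) * this
  rw [h5]
  exact mul_le_of_le_one_left (Real.exp_pos _).le hn

theorem mu_re {n : ℕ} (P : Profile n) (lam : ℂ) : (P.mu lam).re = lam.re + 1 / n := by
  unfold Profile.mu
  have : (1 / (n : ℂ)).re = 1 / (n : ℝ) := by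
    rw [show (1 / (n : ℂ)) = ((1 / (n : ℝ) : ℝ) : ℂ) by push_cast; ring]
    exact Complex.ofReal_re _
  rw [Complex.sub_re, Complex.add_re, this]
  simp

/-! ### the tail source -/

/-- the core part of `V x` -/
noncomputable def hcs {n : ℕ} (P : Profile n) (χ : R12 → ℝ) (f g : R12 → ℂ) (y : R12) : ℂ :=
  I * (((χ y : ℝ) : ℂ) * P.V1 y * f y + ((χ y : ℝ) : ℂ) * P.V2 y * g y)

/-- the tail part of `V x` -/
noncomputable def hts {n : ℕ} (P : Profile n) (χ : R12 → ℝ) (f g : R12 → ℂ) (y : R12) : ℂ :=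
  I * ((((1 - χ y : ℝ) : ℂ) * P.V1 y) * f y + (((1 - χ y : ℝ) : ℂ) * P.V2 y) * g y)

theorem hcs_add_hts {n : ℕ} (P : Profile n) (χ : R12 → ℝ) (f g : R12 → ℂ) (y : R12) :
    hcs P χ f g y + hts P χ f g y = I * (P.V1 y * f y + P.V2 y * g y) := by
  unfold hcs hts; push_cast; ring

theorem hcs_zero {n : ℕ} (P : Profile n) {χ : R12 → ℝ} {a b : ℝ} (h : IsCut χ a b)
    (f g : R12 → ℂ) (y : R12) (hy : b ≤ ‖y‖) : hcs P χ f g y = 0 := by
  unfold hcs; rw [h.zero y hy]; simp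

theorem hts_inX {n : ℕ} (P : Profile n) {χ : R12 → ℝ} {E : ℝ}
    (h1 : XBd 20 (fun y => ((1 - χ y : ℝ) : ℂ) * P.V1 y) E)
    (h2 : XBd 20 (fun y => ((1 - χ y : ℝ) : ℂ) * P.V2 y) E)
    {f g : R12 → ℂ} (hf : InX N0 f) (hg : InX N0 g) : InX N0 (hts P χ f g) :=
  inX_const_mul I (inX_add (inX_mul (xbd_inX h1) hf) (inX_mul (xbd_inX h2) hg))

theorem hts_xbd {n : ℕ} (P : Profile n) {χ : R12 → ℝ} {E : ℝ}
    (h1 : XBd 20 (fun y => ((1 - χ y : ℝ) : ℂ) * P.V1 y) E)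
    (h2 : XBd 20 (fun y => ((1 - χ y : ℝ) : ℂ) * P.V2 y) E)
    {f g : R12 → ℂ} {A : ℝ} (hf : XBd 1 f A) (hg : XBd 1 g A) : XBd 1 (hts P χ f g) (2 * E * A) := by
  have h3 := xbd_const_mul I (xbd_add (xbd_mul (xbd_mono (by norm_num) h1) hf)
    (xbd_mul (xbd_mono (by norm_num) h2) hg))
  refine xbd_le ?_ h3
  rw [Complex.norm_I]; linarith

theorem hh_one {H : R12 → ℝ} (h : (∫ w : S11, (H w) ^ 2 ∂sig) = 1) :
    (∫ w : S11, ((H w : ℝ) : ℂ) * ((H w : ℝ) : ℂ) ∂sig) = 1 := by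
  have h1 : (∫ w : S11, (((H w) ^ 2 : ℝ) : ℂ) ∂sig) = ((∫ w : S11, (H w) ^ 2 ∂sig : ℝ) : ℂ) :=
    integral_ofReal
  rw [h, Complex.ofReal_one] at h1
  rw [← h1]
  refine integral_congr_ae (Eventually.of_forall fun w => ?_)
  simp only; push_cast; ring

theorem comp_self {H : R12 → ℝ} (h : (∫ w : S11, (H w) ^ 2 ∂sig) = 1) (F : ℝ → ℂ) {r : ℝ}
    (hr : 0 < r) : comp H (modeFn H F) r = F r := by
  rw [CLift.comp_modeFn H H F hr, hh_one h, one_mul]

theorem deriv_comp_self {H : R12 → ℝ} (h : (∫ w : S11, (H w) ^ 2 ∂sig) = 1) (F : ℝ → ℂ) {r : ℝ}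
    (hr : 0 < r) : deriv (comp H (modeFn H F)) r = deriv F r := by
  refine Filter.EventuallyEq.deriv_eq ?_
  filter_upwards [Ioi_mem_nhds hr] with s hs using comp_self h F hs

theorem inv_mu_le {n : ℕ} (hn : 1 ≤ n) (P : Profile n) {lam : ℂ} (hlam : 0 ≤ lam.re) :
    0 < (P.mu lam).re ∧ (P.mu lam).re⁻¹ ≤ n := by
  have hn0 : (0 : ℝ) < n := by exact_mod_cast (by omega : 0 < n)
  rw [mu_re]
  have h1 : 0 < 1 / (n : ℝ) := by positivity
  refine ⟨by linarith, ?_⟩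
  rw [inv_le_comm₀ (by linarith) hn0]
  rw [one_div] at h1 ⊢
  linarith

section
variable {om0 R : ℝ} {U : ℝ → ℂ} (B : BData om0 R U)

/-- first component, source free -/
theorem first0 {Phi Phi1 : ℕ → ℂ → ℝ → ℂ} (hS : ScalExt0 Phi Phi1) (hR0 : 0 < R) (hR : B.REG)
    {r1 : ℝ} (hr1 : R < r1) :
    ∃ K : ℕ, ∃ c : ℝ, 0 < c ∧ ∀ᶠ j in atTop,
      ∀ (l : ℕ) (H : R12 → ℝ) (lam : ℂ) (F G : ℝ → ℂ),
      0 ≤ lam.re → (B.P j).Pair l H lam 0 (fun _ => 0) F G →
      ∃ c1 : ℂ, ∀ r ∈ Icc r1 8,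
        ‖F r - c1 * Phi l ((B.P j).mu lam) r‖
          ≤ Real.exp (-c * B.nn j) * (1 + ‖lam‖) ^ K * NB r1 F G ∧
        ‖deriv F r - c1 * Phi1 l ((B.P j).mu lam) r‖
          ≤ Real.exp (-c * B.nn j) * (1 + ‖lam‖) ^ K * NB r1 F G := by
  obtain ⟨K, hK⟩ := hR r1 hr1
  have q1 : R < (2 * R + r1) / 3 := by linarith
  have q2 : (2 * R + r1) / 3 < (R + 2 * r1) / 3 := by linarith
  have q3 : (R + 2 * r1) / 3 < r1 := by linarith
  obtain ⟨χ, hχ⟩ := exists_isCut (hR0.trans q1) q2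
  obtain ⟨c, hc, hT⟩ := B.tail _ _ q1 q2 χ hχ
  obtain ⟨C0, hC0, hS⟩ := hS
  refine ⟨K, c / 2, by positivity, ?_⟩
  filter_upwards [hK, hT, B.nn_tendsto.eventually (ev_exp (C0 * 2) (K + 1) hc),
    B.nn_tendsto.eventually (eventually_ge_atTop 1)] with j hK hT hn hn1 l H lam F G hlam hp
  obtain ⟨bF, bG⟩ := hK l H lam 0 (fun _ => 0) F G hlam hp (Or.inl ⟨rfl, rfl⟩)
  rw [norm_zero, add_zero] at bF bG
  have hb := hts_xbd (B.P j) hT.1 hT.2.1 bF bG
  have hi := hts_inX (B.P j) hT.1 hT.2.1 hp.xF hp.xG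
  obtain ⟨hmu, hmu'⟩ := inv_mu_le hn1 (B.P j) hlam
  have hz : modeFn H (fun _ => 0) = fun _ => 0 := CLift.modeFn_zero H
  obtain ⟨c1, h1⟩ := hS l H hp.sharm hp.nrm ((B.P j).mu lam) hmu _ ((hR0.trans q1).trans q2)
    (modeFn H F) (hcs (B.P j) χ (modeFn H F) (modeFn H G)) _ _ hp.xF hi hb
    (hcs_zero (B.P j) hχ _ _) (fun y => by
      rw [hcs_add_hts, pair_eq1 hp (by rw [hz]; exact continuous_const) y]; simp)
  refine ⟨c1, fun r hr => ?_⟩
  have hr0 : 0 < r := (hR0.trans hr1).trans_le hr.1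
  have h2 := h1 r (q3.trans_le hr.1)
  rw [comp_self hp.nrm F hr0, deriv_comp_self hp.nrm F hr0] at h2
  have hNB : 0 ≤ NB r1 F G := Real.sqrt_nonneg _
  have hE : C0 * (2 * Real.exp (-c * B.nn j) * (((B.nn j : ℝ) * (1 + ‖lam‖)) ^ K * NB r1 F G) /
      ((B.P j).mu lam).re) ≤ Real.exp (-(c / 2) * B.nn j) * (1 + ‖lam‖) ^ K * NB r1 F G := by
    have h3 : C0 * (2 * Real.exp (-c * B.nn j) * (((B.nn j : ℝ) * (1 + ‖lam‖)) ^ K * NB r1 F G) /
        ((B.P j).mu lam).re) = (C0 * 2 * Real.exp (-c * B.nn j) * (B.nn j : ℝ) ^ K *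
          ((1 + ‖lam‖) ^ K * NB r1 F G)) * ((B.P j).mu lam).re⁻¹ := by
      rw [mul_pow]; field_simp
    rw [h3]
    have h4 : 0 ≤ C0 * 2 * Real.exp (-c * B.nn j) * (B.nn j : ℝ) ^ K *
          ((1 + ‖lam‖) ^ K * NB r1 F G) := by positivity
    refine (mul_le_mul_of_nonneg_left hmu' h4).trans ?_
    have h5 : 0 ≤ (1 + ‖lam‖) ^ K * NB r1 F G := by positivity
    have h6 := mul_le_mul_of_nonneg_right hn h5
    rw [pow_succ] at h6
    nlinarith [h6]
  exact ⟨h2.1.trans hE, h2.2.trans hE⟩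

theorem ext0 {Phi Phi1 : ℕ → ℂ → ℝ → ℂ} (hS : ScalExt0 Phi Phi1) (hR0 : 0 < R) (hR : B.REG) :
    B.EXT0 Phi Phi1 := by
  intro r1 hr1
  obtain ⟨K, c, hc, h⟩ := first0 B hS hR0 hR hr1
  refine ⟨K, c, hc, ?_⟩
  filter_upwards [h] with j h l H lam F G hlam hp
  obtain ⟨c1, h1⟩ := h l H lam F G hlam hp
  have hp' := pair_conj hp
  rw [map_zero] at hp'
  obtain ⟨c2, h2⟩ := h l H (conj lam) _ _ (by simpa using hlam) hp'
  refine ⟨c1, conj c2, fun r hr => ?_⟩
  have h3 := h2 r hr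
  rw [NB_conj, deriv_conj', RCLike.norm_conj] at h3
  refine ⟨(h1 r hr).1, (h1 r hr).2, ?_, ?_⟩
  · have h4 := h3.1
    rw [← RCLike.norm_conj] at h4
    simpa only [map_sub, map_mul, Complex.conj_conj] using h4
  · have h4 := h3.2
    rw [← RCLike.norm_conj] at h4
    simpa only [map_sub, map_mul, Complex.conj_conj] using h4

end

end Crest.Agent.R086.ExtA
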