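import Crest.Agent.R086.ExtA

/-!
Row 86, node EXT, part B (helper384): the case of a symmetry mode as source.
-/

set_option autoImplicit false

open MeasureTheory Complex Set Filter Topology
open scoped ContDiff

namespace Crest.Agent.R086.ExtA

open Crest.Agent.R086.XA

local notation "conj" => starRingEnd ℂ

/-! ### the limit `mu → mus` -/

theorem limit_case {Ph Ph1 : ℂ → ℝ → ℂ} {mus w : ℂ} {F F1 : ℝ → ℂ} {E C1 r2 : ℝ}
    (hd : ∀ r, r2 < r → DifferentiableAt ℂ (fun m => Ph m r) mus)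
    (hd1 : ∀ r, r2 < r → DifferentiableAt ℂ (fun m => Ph1 m r) mus)
    (hne : ∃ r, r2 < r ∧ Ph mus r ≠ 0) (hC1 : 0 ≤ C1)
    (h : ∀ d : ℝ, 0 < d → d ≤ 1 → ∃ c : ℂ, ∀ r, r2 < r →
      ‖F r - (c * Ph (mus + d) r + w * ((Ph (mus + d) r - Ph mus r) / ((mus + d) - mus)))‖
        ≤ E + d * C1 ∧
      ‖F1 r - (c * Ph1 (mus + d) r + w * ((Ph1 (mus + d) r - Ph1 mus r) / ((mus + d) - mus)))‖
        ≤ E + d * C1) :
    ∃ c : ℂ, ∀ r, r2 < r →
      ‖F r - (c * Ph mus r + w * deriv (fun m => Ph m r) mus)‖ ≤ E ∧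
      ‖F1 r - (c * Ph1 mus r + w * deriv (fun m => Ph1 m r) mus)‖ ≤ E := by
  set d : ℕ → ℝ := fun k => 1 / ((k : ℝ) + 1) with hdk
  have d0 : ∀ k, 0 < d k := fun k => by simp only [hdk]; positivity
  have d1 : ∀ k, d k ≤ 1 := fun k => by
    simp only [hdk]
    rw [div_le_one (by positivity)]
    linarith [(Nat.cast_nonneg k : (0 : ℝ) ≤ k)]
  have dt : Tendsto d atTop (𝓝 0) := tendsto_one_div_add_atTop_nhds_zero_nat
  have dtc : Tendsto (fun k => mus + (d k : ℂ)) atTop (𝓝 mus) := by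
    have h1 : Tendsto (fun k => (d k : ℂ)) atTop (𝓝 0) := by
      have := (Complex.continuous_ofReal.tendsto 0).comp dt
      rw [Complex.ofReal_zero] at this
      exact this
    simpa using h1.const_add mus
  have dtn : Tendsto (fun k => mus + (d k : ℂ)) atTop (𝓝[≠] mus) := by
    refine tendsto_nhdsWithin_iff.2 ⟨dtc, Eventually.of_forall fun k => ?_⟩
    simp only [mem_compl_iff, mem_singleton_iff, add_eq_left]
    exact_mod_cast (d0 k).ne'
  choose c hc using fun k => h (d k) (d0 k) (d1 k)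
  -- values and slopes
  have vt : ∀ {Q : ℂ → ℝ → ℂ} {r : ℝ}, DifferentiableAt ℂ (fun m => Q m r) mus →
      Tendsto (fun k => Q (mus + (d k : ℂ)) r) atTop (𝓝 (Q mus r)) := fun hq =>
    hq.continuousAt.tendsto.comp dtc
  have st : ∀ {Q : ℂ → ℝ → ℂ} {r : ℝ}, DifferentiableAt ℂ (fun m => Q m r) mus →
      Tendsto (fun k => (Q (mus + (d k : ℂ)) r - Q mus r) / ((mus + (d k : ℂ)) - mus)) atTop
        (𝓝 (deriv (fun m => Q m r) mus)) := by
    intro Q r hq
    have h1 := hasDerivAt_iff_tendsto_slope.1 hq.hasDerivAt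
    have h2 := h1.comp dtn
    refine h2.congr fun k => ?_
    simp only [Function.comp, slope_def_field]
  obtain ⟨rs, hrs, hrne⟩ := hne
  -- boundedness of `c`
  have hb1 : ∃ M : ℝ, ∀ k, ‖c k * Ph (mus + (d k : ℂ)) rs‖ ≤ M := by
    obtain ⟨M, hM⟩ := (st (hd rs hrs)).norm.bddAbove_range
    refine ⟨‖F rs‖ + (E + C1) + ‖w‖ * M, fun k => ?_⟩
    have h1 := (hc k rs hrs).1
    have h2 : ‖(Ph (mus + (d k : ℂ)) rs - Ph mus rs) / ((mus + (d k : ℂ)) - mus)‖ ≤ M :=
      hM ⟨k, rfl⟩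
    set X := c k * Ph (mus + (d k : ℂ)) rs
    set Y := (Ph (mus + (d k : ℂ)) rs - Ph mus rs) / ((mus + (d k : ℂ)) - mus)
    have h3 : X = F rs - (F rs - (X + w * Y)) - w * Y := by ring
    have h4 : ‖X‖ ≤ ‖F rs‖ + ‖F rs - (X + w * Y)‖ + ‖w * Y‖ := by
      conv_lhs => rw [h3]
      exact (norm_sub_le _ _).trans (add_le_add (norm_sub_le _ _) le_rfl)
    have h5 : ‖w * Y‖ ≤ ‖w‖ * M := by
      rw [norm_mul]; exact mul_le_mul_of_nonneg_left h2 (norm_nonneg _)
    have h6 : d k * C1 ≤ 1 * C1 := mul_le_mul_of_nonneg_right (d1 k) hC1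
    linarith
  obtain ⟨M, hM⟩ := hb1
  have hp : 0 < ‖Ph mus rs‖ / 2 := by
    have := norm_pos_iff.2 hrne
    positivity
  have hev : ∀ᶠ k in atTop, ‖Ph mus rs‖ / 2 ≤ ‖Ph (mus + (d k : ℂ)) rs‖ := by
    have h1 := (vt (hd rs hrs)).norm
    exact h1.eventually_const_le (by linarith)
  have hcb : ∀ᶠ k in atTop, c k ∈ Metric.closedBall (0 : ℂ) (M / (‖Ph mus rs‖ / 2)) := by
    filter_upwards [hev] with k hk
    rw [mem_closedBall_zero_iff, le_div_iff₀ hp]
    refine le_trans ?_ (hM k)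
    rw [norm_mul]
    exact mul_le_mul_of_nonneg_left hk (norm_nonneg _)
  obtain ⟨c0, -, φ, hφ, hct⟩ := tendsto_subseq_of_frequently_bounded
    (Metric.isBounded_closedBall) hcb.frequently
  have hφt : Tendsto φ atTop atTop := hφ.tendsto_atTop
  have key : ∀ {Q : ℂ → ℝ → ℂ} {G : ℝ → ℂ} {r : ℝ}, DifferentiableAt ℂ (fun m => Q m r) mus →
      (∀ k, ‖G r - (c k * Q (mus + (d k : ℂ)) r
        + w * ((Q (mus + (d k : ℂ)) r - Q mus r) / ((mus + (d k : ℂ)) - mus)))‖ ≤ E + d k * C1) →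
      ‖G r - (c0 * Q mus r + w * deriv (fun m => Q m r) mus)‖ ≤ E := by
    intro Q G r hq hk
    have t1 : Tendsto (fun k => c (φ k) * Q (mus + (d (φ k) : ℂ)) r
        + w * ((Q (mus + (d (φ k) : ℂ)) r - Q mus r) / ((mus + (d (φ k) : ℂ)) - mus))) atTop
        (𝓝 (c0 * Q mus r + w * deriv (fun m => Q m r) mus)) :=
      (hct.mul ((vt hq).comp hφt)).add (((st hq).comp hφt).const_mul w)
    have t2 : Tendsto (fun k => E + d (φ k) * C1) atTop (𝓝 E) := by
      have := ((dt.comp hφt).mul_const C1).const_add E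
      simpa using this
    exact le_of_tendsto_of_tendsto' (t1.const_sub (G r)).norm t2 fun k => hk (φ k)
  exact ⟨c0, fun r hr => ⟨key (hd r hr) fun k => (hc k r hr).1,
    key (hd1 r hr) fun k => (hc k r hr).2⟩⟩

/-! ### the symmetry modes are bounded -/

section
variable {om0 R : ℝ} {U : ℝ → ℂ} (B : BData om0 R U)

theorem sym_bd : ∃ M : ℝ, 0 ≤ M ∧ ∀ᶠ j in atTop, ∀ (l : ℕ) (ls : ℝ) (e : ℝ → ℂ),
    (B.P j).IsSym l ls e → 0 ≤ ls ∧ ls ≤ 1 ∧ ∀ r : ℝ, 0 ≤ r → ‖e r‖ ≤ M := by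
  obtain ⟨A, hA, hdec⟩ := B.decay2
  obtain ⟨C, hder⟩ := B.q_der
  have hom : ∀ᶠ j in atTop, |(B.P j).om| ≤ |om0| + 1 :=
    (B.om_tendsto.abs).eventually_le_const (by linarith)
  refine ⟨A + (1 + (|om0| + 1)) * A + |C| * A, by positivity, ?_⟩
  filter_upwards [hdec, hder, hom, B.nn_tendsto.eventually (eventually_ge_atTop 1)]
    with j hdec hder hom hn1 l ls e hs
  have hq : ∀ r : ℝ, 0 ≤ r → ‖(B.P j).q r‖ ≤ A := by
    intro r hr
    refine le_trans ?_ (hdec r hr).2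
    refine le_mul_of_one_le_right (norm_nonneg _) ?_
    exact Real.one_le_rpow (by linarith) (by positivity)
  have hCA : 0 ≤ |C| * A := by positivity
  have hoA : 0 ≤ (1 + (|om0| + 1)) * A := by positivity
  have hdq : ∀ r : ℝ, 0 ≤ r → ‖deriv (B.P j).q r‖ ≤ |C| * A ∧
      ‖(r : ℂ) * deriv (B.P j).q r‖ ≤ |C| * A := by
    intro r hr
    have h1 := (hder r hr).1
    have h2 := hq r hr
    have h3 : 0 < 1 + r ^ 2 := by positivity
    have h4 : r / (1 + r ^ 2) ≤ 1 := by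
      rw [div_le_one h3]; nlinarith [sq_nonneg (r - 1)]
    have h5 : r * (r / (1 + r ^ 2)) ≤ 1 := by
      rw [← mul_div_assoc, div_le_one h3]; nlinarith
    have h6 : 0 ≤ r / (1 + r ^ 2) := by positivity
    have h7 : C * (r / (1 + r ^ 2)) * ‖(B.P j).q r‖ ≤ |C| * (r / (1 + r ^ 2)) * A := by
      refine mul_le_mul ?_ h2 (norm_nonneg _) (by positivity)
      exact mul_le_mul_of_nonneg_right (le_abs_self C) h6
    constructor
    · refine (h1.trans h7).trans ?_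
      have : |C| * (r / (1 + r ^ 2)) ≤ |C| * 1 := mul_le_mul_of_nonneg_left h4 (abs_nonneg C)
      nlinarith
    · rw [norm_mul, Complex.norm_real, Real.norm_of_nonneg hr]
      refine (mul_le_mul_of_nonneg_left (h1.trans h7) hr).trans ?_
      have : |C| * (r * (r / (1 + r ^ 2))) ≤ |C| * 1 := mul_le_mul_of_nonneg_left h5 (abs_nonneg C)
      have h8 := mul_le_mul_of_nonneg_right this hA.le
      linarith
  rcases hs with ⟨-, hls, rfl⟩ | ⟨-, hls, rfl⟩ | ⟨-, hls, rfl⟩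
  · refine ⟨by linarith, by linarith, fun r hr => ?_⟩
    rw [norm_mul, Complex.norm_I, one_mul]
    linarith [hq r hr]
  · refine ⟨by linarith, by linarith, fun r hr => ?_⟩
    unfold Profile.rtime
    have h1 : ‖(1 : ℂ) / (B.nn j : ℂ) - I * (B.P j).om‖ ≤ 1 + (|om0| + 1) := by
      refine (norm_sub_le _ _).trans (add_le_add ?_ ?_)
      · rw [norm_div, norm_one, Complex.norm_natCast]
        have : (1 : ℝ) ≤ B.nn j := by exact_mod_cast hn1
        rw [div_le_one (by linarith)]; exact this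
      · rw [norm_mul, Complex.norm_I, one_mul, Complex.norm_real]; exact hom
    have h2 := norm_add_le (((1 : ℂ) / (B.nn j : ℂ) - I * (B.P j).om) * (B.P j).q r)
      ((1 / 2) * ((r : ℂ) * deriv (B.P j).q r))
    have h3 : ‖((1 : ℂ) / (B.nn j : ℂ) - I * (B.P j).om) * (B.P j).q r‖
        ≤ (1 + (|om0| + 1)) * A := by
      rw [norm_mul]
      exact mul_le_mul h1 (hq r hr) (norm_nonneg _) (by positivity)
    have h4 : ‖(1 / 2 : ℂ) * ((r : ℂ) * deriv (B.P j).q r)‖ ≤ |C| * A := by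
      rw [norm_mul]
      have h5 := (hdq r hr).2
      have h6 : ‖(1 / 2 : ℂ)‖ = 1 / 2 := by norm_num
      rw [h6]
      linarith [norm_nonneg ((r : ℂ) * deriv (B.P j).q r)]
    linarith
  · refine ⟨by linarith, by linarith, fun r hr => ?_⟩
    linarith [(hdq r hr).1]

theorem NB_le {r1 M : ℝ} (hr1 : 0 ≤ r1) {F G : ℝ → ℂ}
    (cF : Continuous F) (cG : Continuous G)
    (hF : ∀ r, 0 ≤ r → ‖F r‖ ≤ M) (hG : ∀ r, 0 ≤ r → ‖G r‖ ≤ M) :
    NB r1 F G ≤ Real.sqrt (r1 ^ 12 * (2 * M ^ 2)) := by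
  unfold NB
  refine Real.sqrt_le_sqrt ?_
  have h1 : (∫ r in (0 : ℝ)..r1, r ^ 11 * (‖F r‖ ^ 2 + ‖G r‖ ^ 2))
      ≤ ∫ _ in (0 : ℝ)..r1, r1 ^ 11 * (2 * M ^ 2) := by
    refine intervalIntegral.integral_mono_on hr1 ?_ ?_ fun r hr => ?_
    · exact Continuous.intervalIntegrable (by fun_prop) _ _
    · exact continuous_const.intervalIntegrable _ _
    · have h2 : r ^ 11 ≤ r1 ^ 11 := pow_le_pow_left₀ hr.1 hr.2 11
      have h3 := pow_le_pow_left₀ (norm_nonneg _) (hF r hr.1) 2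
      have h4 := pow_le_pow_left₀ (norm_nonneg _) (hG r hr.1) 2
      exact mul_le_mul h2 (by linarith) (by positivity) (by positivity)
  refine h1.trans (le_of_eq ?_)
  rw [intervalIntegral.integral_const, smul_eq_mul]; ring

end

theorem err_num {C0 E L Mn T a n x y c' : ℝ} {K : ℕ} (hC0 : 0 ≤ C0) (hE : 0 ≤ E) (hL : 0 ≤ L)
    (hMn : 0 ≤ Mn) (hT : 0 ≤ T) (ha : 0 ≤ a) (haT : a ≤ T) (hn : 1 ≤ n) (hx0 : 0 ≤ x) (hx : x ≤ n)
    (hy0 : 0 ≤ y) (hy : y ≤ n) (h : C0 * 2 * (L ^ K + 2 ^ K * Mn) * n ^ (K + 2) * E ≤ c') :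
    C0 * (2 * E * ((n * L) ^ K * T) * x + a * (2 * E * ((2 * n) ^ K * Mn)) * (x * y)) ≤ c' * T := by
  have hn0 : 0 ≤ n := by linarith
  have hx2 : x ≤ n ^ 2 := by nlinarith
  have hxy : x * y ≤ n ^ 2 := by
    rw [pow_two]; exact mul_le_mul hx hy hy0 hn0
  have h1 : 2 * E * ((n * L) ^ K * T) * x ≤ 2 * E * ((n * L) ^ K * T) * n ^ 2 :=
    mul_le_mul_of_nonneg_left hx2 (by positivity)
  have h2 : a * (2 * E * ((2 * n) ^ K * Mn)) * (x * y) ≤ T * (2 * E * ((2 * n) ^ K * Mn)) * n ^ 2 := by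
    refine mul_le_mul (mul_le_mul_of_nonneg_right haT (by positivity)) hxy (by positivity)
      (by positivity)
  have h3 : C0 * (2 * E * ((n * L) ^ K * T) * n ^ 2 + T * (2 * E * ((2 * n) ^ K * Mn)) * n ^ 2)
      = C0 * 2 * (L ^ K + 2 ^ K * Mn) * n ^ (K + 2) * E * T := by
    rw [mul_pow, mul_pow, pow_add]; ring
  calc _ ≤ C0 * (2 * E * ((n * L) ^ K * T) * n ^ 2 + T * (2 * E * ((2 * n) ^ K * Mn)) * n ^ 2) :=
        mul_le_mul_of_nonneg_left (add_le_add h1 h2) hC0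
    _ = _ := h3
    _ ≤ c' * T := mul_le_mul_of_nonneg_right h hT

section
variable {om0 R : ℝ} {U : ℝ → ℂ} (B : BData om0 R U)

theorem firsts {Phi Phi1 : ℕ → ℂ → ℝ → ℂ} (hS : ScalExts Phi Phi1) (hSym : SymStmt)
    (hPh : PhiFacts Phi Phi1)
    (hne : ∀ (l : ℕ) (m : ℂ), 0 < m.re → ∀ r0 : ℝ, 0 < r0 → ∃ r, r0 < r ∧ Phi l m r ≠ 0)
    (hR0 : 0 < R) (hR : B.REG) {r1 : ℝ} (hr1 : R < r1) (La : ℝ) :
    ∃ c : ℝ, 0 < c ∧ ∀ᶠ j in atTop,
    ∀ (l : ℕ) (ls : ℝ) (e : ℝ → ℂ), (B.P j).IsSym l ls e →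
    ∀ (H : R12 → ℝ), SHarm l H → (∫ w : S11, (H w) ^ 2 ∂sig) = 1 → ∃ ga : ℂ,
    (∀ r ∈ Icc r1 8,
      ‖e r - ga * Phi l ((B.P j).mu ls) r‖ ≤ Real.exp (-c * B.nn j) ∧
      ‖deriv e r - ga * Phi1 l ((B.P j).mu ls) r‖ ≤ Real.exp (-c * B.nn j)) ∧
    ∀ (lam al : ℂ) (F G : ℝ → ℂ),
    0 ≤ lam.re → ‖lam‖ ≤ La → (B.P j).Pair l H lam al e F G →
    ∃ c1 : ℂ, ∀ r ∈ Icc r1 8,
      ‖F r - (c1 * Phi l ((B.P j).mu lam) r
          + al * ga * dslope (fun m => Phi l m r) ((B.P j).mu ls) ((B.P j).mu lam))‖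
        ≤ Real.exp (-c * B.nn j) * (NB r1 F G + ‖al‖) ∧
      ‖deriv F r - (c1 * Phi1 l ((B.P j).mu lam) r
          + al * ga * dslope (fun m => Phi1 l m r) ((B.P j).mu ls) ((B.P j).mu lam))‖
        ≤ Real.exp (-c * B.nn j) * (NB r1 F G + ‖al‖) := by
  obtain ⟨K, hK⟩ := hR r1 hr1
  have q1 : R < (2 * R + r1) / 3 := by linarith
  have q2 : (2 * R + r1) / 3 < (R + 2 * r1) / 3 := by linarith
  have q3 : (R + 2 * r1) / 3 < r1 := by linarith
  have q4 : 0 < (R + 2 * r1) / 3 := (hR0.trans q1).trans q2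
  obtain ⟨χ, hχ⟩ := exists_isCut (hR0.trans q1) q2
  obtain ⟨c, hc, hT⟩ := B.tail _ _ q1 q2 χ hχ
  obtain ⟨C0, hC0, hS⟩ := hS
  obtain ⟨M, hM0, hM⟩ := sym_bd B
  set Mn := Real.sqrt (r1 ^ 12 * (2 * M ^ 2)) with hMn
  have hMn0 : 0 ≤ Mn := Real.sqrt_nonneg _
  set L := 1 + |La| with hL
  have hL0 : 0 ≤ L := by positivity
  refine ⟨c / 2, by positivity, ?_⟩
  filter_upwards [hK, hT, hM,
    B.nn_tendsto.eventually (ev_exp (C0 * 2 * (L ^ K + 2 ^ K * Mn)) (K + 2) hc),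
    B.nn_tendsto.eventually (eventually_ge_atTop 1)] with j hK hT hM hn hn1 l ls e hs H hH hnrm
  obtain ⟨hls0, hls1, hMe⟩ := hM l ls e hs
  set n : ℝ := (B.nn j : ℝ) with hndef
  have hn1' : 1 ≤ n := by rw [hndef]; exact_mod_cast hn1
  have hn0 : 0 ≤ n := by linarith
  set E := Real.exp (-c * n) with hEdef
  have hE0 : 0 ≤ E := (Real.exp_pos _).le
  -- the symmetry mode
  have hsp := hSym _ (B.P j) l ls e H hs hH hnrm
  have hlsre : (0 : ℝ) ≤ ((ls : ℂ)).re := by simpa using hls0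
  have hls' : ‖(ls : ℂ)‖ ≤ 1 := by rw [Complex.norm_real, Real.norm_of_nonneg hls0]; exact hls1
  obtain ⟨bE, bE'⟩ := hK l H (ls : ℂ) 0 (fun _ => 0) e _ hlsre hsp (Or.inl ⟨rfl, rfl⟩)
  have hNBe : NB r1 e (fun r => conj (e r)) ≤ Mn :=
    NB_le (hR0.trans hr1).le hsp.cF.continuous hsp.cG.continuous hMe
      (fun r hr => by rw [RCLike.norm_conj]; exact hMe r hr)
  have hAe : (n * (1 + ‖(ls : ℂ)‖)) ^ K * (NB r1 e (fun r => conj (e r)) + ‖(0 : ℂ)‖)
      ≤ (2 * n) ^ K * Mn := by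
    rw [norm_zero, add_zero]
    refine mul_le_mul (pow_le_pow_left₀ (by positivity) ?_ K) hNBe (Real.sqrt_nonneg _)
      (by positivity)
    nlinarith
  have bE := xbd_le hAe bE
  have bE' := xbd_le hAe bE'
  have hkt := hts_xbd (B.P j) hT.1 hT.2.1 bE bE'
  have hkti := hts_inX (B.P j) hT.1 hT.2.1 hsp.xF hsp.xG
  obtain ⟨hmus, hmus'⟩ := inv_mu_le hn1 (B.P j) hlsre
  have hz : modeFn H (fun _ => 0) = fun _ => 0 := CLift.modeFn_zero H
  have hce : Continuous (modeFn H e) := (SH.InX.contDiff hsp.xF).continuous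
  obtain ⟨ga, hga, hf⟩ := hS l H hH hnrm ((B.P j).mu ls) hmus _ q4
    (modeFn H e) (hcs (B.P j) χ (modeFn H e) (modeFn H (fun r => conj (e r)))) _ _ hsp.xF hkti hkt
    (hcs_zero (B.P j) hχ _ _) (fun y => by
      rw [hcs_add_hts, pair_eq1 hsp (by rw [hz]; exact continuous_const) y]; simp)
  refine ⟨ga, fun r hr => ?_, ?_⟩
  · have hr0 : 0 < r := (hR0.trans hr1).trans_le hr.1
    have h2 := hga r (q3.trans_le hr.1)
    rw [comp_self hnrm e hr0, deriv_comp_self hnrm e hr0] at h2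
    have h3 : C0 * (2 * E * ((2 * n) ^ K * Mn) / ((B.P j).mu ls).re) ≤ Real.exp (-(c / 2) * n) := by
      have h4 : 0 ≤ C0 * (2 * E * ((2 * n) ^ K * Mn)) := by positivity
      have h5 : C0 * (2 * E * ((2 * n) ^ K * Mn) / ((B.P j).mu ls).re)
          = C0 * (2 * E * ((2 * n) ^ K * Mn)) * (((B.P j).mu ls).re)⁻¹ := by
        rw [div_eq_mul_inv]; ring
      rw [h5]
      refine (mul_le_mul_of_nonneg_left hmus' h4).trans (le_trans ?_ hn)
      have h6 : C0 * (2 * E * ((2 * n) ^ K * Mn)) * n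
          = (C0 * 2 * E * n ^ K * (2 ^ K * Mn)) * n := by rw [mul_pow]; ring
      have h7 : C0 * 2 * (L ^ K + 2 ^ K * Mn) * n ^ (K + 2) * E
          = (C0 * 2 * E * n ^ K * (L ^ K + 2 ^ K * Mn)) * n ^ 2 := by rw [pow_add]; ring
      rw [h7]
      change C0 * (2 * E * ((2 * n) ^ K * Mn)) * n ≤ _
      rw [h6]
      have hLK : 0 ≤ L ^ K := by positivity
      refine mul_le_mul (mul_le_mul_of_nonneg_left (by linarith) (by positivity)) (by nlinarith)
        hn0 (by positivity)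
    exact ⟨h2.1.trans h3, h2.2.trans h3⟩
  · intro lam al F G hlam hLa hp
    set T := NB r1 F G + ‖al‖ with hTdef
    have hNB : 0 ≤ NB r1 F G := Real.sqrt_nonneg _
    have hT0 : 0 ≤ T := by positivity
    have haT : ‖al‖ ≤ T := by rw [hTdef]; linarith
    obtain ⟨bF, bG⟩ := hK l H lam al e F G hlam hp (Or.inr ⟨ls, hs⟩)
    have hAf : (n * (1 + ‖lam‖)) ^ K * T ≤ (n * L) ^ K * T := by
      refine mul_le_mul_of_nonneg_right (pow_le_pow_left₀ (by positivity) ?_ K) hT0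
      refine mul_le_mul_of_nonneg_left ?_ hn0
      have := le_abs_self La
      linarith
    have bF := xbd_le hAf bF
    have bG := xbd_le hAf bG
    have hb := hts_xbd (B.P j) hT.1 hT.2.1 bF bG
    have hi := hts_inX (B.P j) hT.1 hT.2.1 hp.xF hp.xG
    obtain ⟨hmu, hmu'⟩ := inv_mu_le hn1 (B.P j) hlam
    have herr := err_num (C0 := C0) (E := E) (L := L) (Mn := Mn) (T := T) (a := ‖al‖) (n := n)
      (x := ((B.P j).mu lam).re⁻¹) (y := ((B.P j).mu ls).re⁻¹) (K := K)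
      hC0.le hE0 hL0 hMn0 hT0 (norm_nonneg _) haT hn1' (by positivity) hmu' (by positivity) hmus' hn
    have herr' : C0 * (2 * E * ((n * L) ^ K * T) / ((B.P j).mu lam).re + ‖al‖ *
        (2 * E * ((2 * n) ^ K * Mn)) / (((B.P j).mu lam).re * ((B.P j).mu ls).re))
        ≤ Real.exp (-(c / 2) * n) * T := by
      refine le_trans (le_of_eq ?_) herr
      rw [div_eq_mul_inv, div_eq_mul_inv, mul_inv]
    -- the equation
    have heq : ∀ y, I * lap (modeFn H F) y - (1 / 2) * eul (modeFn H F) y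
        - (B.P j).mu lam * modeFn H F y = hcs (B.P j) χ (modeFn H F) (modeFn H G) y
          + hts (B.P j) χ (modeFn H F) (modeFn H G) y + al * modeFn H e y := fun y => by
      rw [hcs_add_hts, pair_eq1 hp hce y]
    have fin : (∃ c1 : ℂ, ∀ r, (R + 2 * r1) / 3 < r →
        ‖comp H (modeFn H F) r - (c1 * Phi l ((B.P j).mu lam) r + al * ga *
          dslope (fun m => Phi l m r) ((B.P j).mu ls) ((B.P j).mu lam))‖
          ≤ C0 * (2 * E * ((n * L) ^ K * T) / ((B.P j).mu lam).re + ‖al‖ *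
            (2 * E * ((2 * n) ^ K * Mn)) / (((B.P j).mu lam).re * ((B.P j).mu ls).re)) ∧
        ‖deriv (comp H (modeFn H F)) r - (c1 * Phi1 l ((B.P j).mu lam) r + al * ga *
          dslope (fun m => Phi1 l m r) ((B.P j).mu ls) ((B.P j).mu lam))‖
          ≤ C0 * (2 * E * ((n * L) ^ K * T) / ((B.P j).mu lam).re + ‖al‖ *
            (2 * E * ((2 * n) ^ K * Mn)) / (((B.P j).mu lam).re * ((B.P j).mu ls).re))) := by
      by_cases hlm : (B.P j).mu lam = (B.P j).mu ls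
      · -- the limit case
        rw [hlm] at heq ⊢
        have hdo : ∀ {Q : ℕ → ℂ → ℝ → ℂ} (_ : ∀ l, ∀ r : ℝ, 0 < r →
            DifferentiableOn ℂ (fun m => Q l m r) {m : ℂ | -(1 / 4) < m.re}) (r : ℝ),
            (R + 2 * r1) / 3 < r → DifferentiableAt ℂ (fun m => Q l m r) ((B.P j).mu ls) := by
          intro Q hQ r hr
          refine (hQ l r (q4.trans hr)).differentiableAt ?_
          have ho : IsOpen {m : ℂ | -(1 / 4) < m.re} :=
            isOpen_lt continuous_const Complex.continuous_re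
          refine ho.mem_nhds ?_
          simp only [mem_setOf_eq]
          linarith
        have hlim := limit_case (Ph := Phi l) (Ph1 := Phi1 l) (mus := (B.P j).mu ls) (w := al * ga)
          (F := comp H (modeFn H F)) (F1 := deriv (comp H (modeFn H F)))
          (E := C0 * (2 * E * ((n * L) ^ K * T) / ((B.P j).mu ls).re + ‖al‖ *
            (2 * E * ((2 * n) ^ K * Mn)) / (((B.P j).mu ls).re * ((B.P j).mu ls).re)))
          (C1 := C0 * ((n * L) ^ K * T / ((B.P j).mu ls).re)) (r2 := (R + 2 * r1) / 3)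
          (hdo hPh.hol) (hdo hPh.hol1) (hne l _ hmus _ q4) (by positivity) ?_
        · obtain ⟨c1, h1⟩ := hlim
          refine ⟨c1, fun r hr => ?_⟩
          rw [dslope_same, dslope_same]
          exact h1 r hr
        · intro d hd0 hd1
          have hd : 0 < ((B.P j).mu ls + (d : ℂ)).re := by
            rw [Complex.add_re, Complex.ofReal_re]; linarith
          have hne' : (B.P j).mu ls + (d : ℂ) ≠ (B.P j).mu ls := by
            simp only [ne_eq, add_eq_left]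
            exact_mod_cast hd0.ne'
          have hb' := xbd_add hb (xbd_const_mul (-(d : ℂ)) bF)
          have hi' := inX_add hi (inX_const_mul (-(d : ℂ)) hp.xF)
          obtain ⟨c1, h1⟩ := hf ((B.P j).mu ls + (d : ℂ)) hd hne' (modeFn H F)
            (hcs (B.P j) χ (modeFn H F) (modeFn H G)) _ _ al hp.xF hi' hb'
            (hcs_zero (B.P j) hχ _ _) (fun y => by linear_combination heq y)
          refine ⟨c1, fun r hr => ?_⟩
          have hnd : ‖(-(d : ℂ))‖ = d := by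
            rw [norm_neg, Complex.norm_real, Real.norm_of_nonneg hd0.le]
          have hre : ((B.P j).mu ls + (d : ℂ)).re = ((B.P j).mu ls).re + d := by
            rw [Complex.add_re, Complex.ofReal_re]
          have hle : C0 * ((2 * E * ((n * L) ^ K * T) + ‖(-(d : ℂ))‖ * ((n * L) ^ K * T)) /
              ((B.P j).mu ls + (d : ℂ)).re + ‖al‖ * (2 * E * ((2 * n) ^ K * Mn)) /
              (((B.P j).mu ls + (d : ℂ)).re * ((B.P j).mu ls).re))
              ≤ C0 * (2 * E * ((n * L) ^ K * T) / ((B.P j).mu ls).re + ‖al‖ *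
                (2 * E * ((2 * n) ^ K * Mn)) / (((B.P j).mu ls).re * ((B.P j).mu ls).re))
                + d * (C0 * ((n * L) ^ K * T / ((B.P j).mu ls).re)) := by
            rw [hnd, hre]
            have g1 : (2 * E * ((n * L) ^ K * T) + d * ((n * L) ^ K * T)) /
                (((B.P j).mu ls).re + d) ≤ (2 * E * ((n * L) ^ K * T) + d * ((n * L) ^ K * T)) /
                ((B.P j).mu ls).re :=
              div_le_div_of_nonneg_left (by positivity) hmus (by linarith)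
            have g2 : ‖al‖ * (2 * E * ((2 * n) ^ K * Mn)) /
                ((((B.P j).mu ls).re + d) * ((B.P j).mu ls).re)
                ≤ ‖al‖ * (2 * E * ((2 * n) ^ K * Mn)) /
                (((B.P j).mu ls).re * ((B.P j).mu ls).re) :=
              div_le_div_of_nonneg_left (by positivity) (by positivity)
                (mul_le_mul_of_nonneg_right (by linarith) hmus.le)
            have g3 := mul_le_mul_of_nonneg_left (add_le_add g1 g2) hC0.le
            refine g3.trans (le_of_eq ?_)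
            rw [add_div]
            ring
          exact ⟨(h1 r hr).1.trans hle, (h1 r hr).2.trans hle⟩
      · obtain ⟨c1, h1⟩ := hf ((B.P j).mu lam) hmu hlm (modeFn H F)
          (hcs (B.P j) χ (modeFn H F) (modeFn H G)) _ _ al hp.xF hi hb
          (hcs_zero (B.P j) hχ _ _) heq
        refine ⟨c1, fun r hr => ?_⟩
        rw [dslope_of_ne _ hlm, dslope_of_ne _ hlm, slope_def_field, slope_def_field]
        exact h1 r hr
    obtain ⟨c1, h1⟩ := fin
    refine ⟨c1, fun r hr => ?_⟩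
    have hr0 : 0 < r := (hR0.trans hr1).trans_le hr.1
    have h2 := h1 r (q3.trans_le hr.1)
    rw [comp_self hnrm F hr0, deriv_comp_self hnrm F hr0] at h2
    exact ⟨h2.1.trans herr', h2.2.trans herr'⟩

theorem exts' {Phi Phi1 : ℕ → ℂ → ℝ → ℂ} (hS : ScalExts Phi Phi1) (hSym : SymStmt)
    (hPh : PhiFacts Phi Phi1)
    (hne : ∀ (l : ℕ) (m : ℂ), 0 < m.re → ∀ r0 : ℝ, 0 < r0 → ∃ r, r0 < r ∧ Phi l m r ≠ 0)
    (hR0 : 0 < R) (hR : B.REG) : B.EXTs' Phi Phi1 := by
  intro r1 hr1 La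
  obtain ⟨c, hc, h⟩ := firsts B hS hSym hPh hne hR0 hR hr1 La
  refine ⟨c, hc, ?_⟩
  filter_upwards [h] with j h l ls e hs H hH hnrm
  obtain ⟨ga, hga, hf⟩ := h l ls e hs H hH hnrm
  refine ⟨ga, hga, ?_⟩
  intro lam al F G hlam hLa hp
  obtain ⟨c1, h1⟩ := hf lam al F G hlam hLa hp
  obtain ⟨c2, h2⟩ := hf (conj lam) (conj al) _ _ (by simpa using hlam) (by simpa using hLa)
    (pair_conj hp)
  refine ⟨c1, conj c2, fun r hr => ?_⟩
  have h3 := h2 r hr
  rw [NB_conj, deriv_conj', RCLike.norm_conj] at h3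
  refine ⟨(h1 r hr).1, (h1 r hr).2, ?_, ?_⟩
  · have h4 := h3.1
    rw [← RCLike.norm_conj] at h4
    simpa only [map_sub, map_add, map_mul, Complex.conj_conj, mul_assoc] using h4
  · have h4 := h3.2
    rw [← RCLike.norm_conj] at h4
    simpa only [map_sub, map_add, map_mul, Complex.conj_conj, mul_assoc] using h4

end

end Crest.Agent.R086.ExtA
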