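import Crest.Agent.R086.C34Defs

/-!
Row 86, Part C, node EXT: frozen scalar form (helper684) consumed by ExtA.lean (helper384).
`(L0 - mu) f = i Δ f - ½ y·∇ f - mu f`.
-/

set_option autoImplicit false

open MeasureTheory Complex Set Filter Topology
open scoped ContDiff

namespace Crest.Agent.R086.ExtA

/-- SCALAR FORM, source free. -/
def ScalExt0 (Phi Phi1 : ℕ → ℂ → ℝ → ℂ) : Prop :=
  ∃ C0 : ℝ, 0 < C0 ∧ ∀ (l : ℕ) (H : R12 → ℝ), SHarm l H → (∫ w : S11, (H w) ^ 2 ∂sig) = 1 →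
    ∀ mu : ℂ, 0 < mu.re → ∀ r2 : ℝ, 0 < r2 → ∀ (f hc ht : R12 → ℂ) (b : ℝ),
      InX N0 f → InX N0 ht → XBd 1 ht b → (∀ y, r2 ≤ ‖y‖ → hc y = 0) →
      (∀ y, I * lap f y - (1 / 2) * eul f y - mu * f y = hc y + ht y) →
      ∃ c : ℂ, ∀ r, r2 < r →
        ‖comp H f r - c * Phi l mu r‖ ≤ C0 * (b / mu.re) ∧
        ‖deriv (comp H f) r - c * Phi1 l mu r‖ ≤ C0 * (b / mu.re)

/-- SCALAR FORM with a symmetry mode as source, `mu ≠ mus`. -/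
def ScalExts (Phi Phi1 : ℕ → ℂ → ℝ → ℂ) : Prop :=
  ∃ C0 : ℝ, 0 < C0 ∧ ∀ (l : ℕ) (H : R12 → ℝ), SHarm l H → (∫ w : S11, (H w) ^ 2 ∂sig) = 1 →
    ∀ mus : ℂ, 0 < mus.re → ∀ r2 : ℝ, 0 < r2 → ∀ (e kc kt : R12 → ℂ) (bk : ℝ),
      InX N0 e → InX N0 kt → XBd 1 kt bk → (∀ y, r2 ≤ ‖y‖ → kc y = 0) →
      (∀ y, I * lap e y - (1 / 2) * eul e y - mus * e y = kc y + kt y) →
      ∃ ga : ℂ, (∀ r, r2 < r →
          ‖comp H e r - ga * Phi l mus r‖ ≤ C0 * (bk / mus.re) ∧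
          ‖deriv (comp H e) r - ga * Phi1 l mus r‖ ≤ C0 * (bk / mus.re)) ∧
        ∀ mu : ℂ, 0 < mu.re → mu ≠ mus → ∀ (f hc ht : R12 → ℂ) (b : ℝ) (be : ℂ),
          InX N0 f → InX N0 ht → XBd 1 ht b → (∀ y, r2 ≤ ‖y‖ → hc y = 0) →
          (∀ y, I * lap f y - (1 / 2) * eul f y - mu * f y = hc y + ht y + be * e y) →
          ∃ c : ℂ, ∀ r, r2 < r →
            ‖comp H f r - (c * Phi l mu r + be * ga * ((Phi l mu r - Phi l mus r) / (mu - mus)))‖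
              ≤ C0 * (b / mu.re + ‖be‖ * bk / (mu.re * mus.re)) ∧
            ‖deriv (comp H f) r
                - (c * Phi1 l mu r + be * ga * ((Phi1 l mu r - Phi1 l mus r) / (mu - mus)))‖
              ≤ C0 * (b / mu.re + ‖be‖ * bk / (mu.re * mus.re))

end Crest.Agent.R086.ExtA
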