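import Crest.Agent.R086.XAlg
import Crest.Agent.R086.Res2
import Crest.Agent.R086.DSpec
import Crest.Agent.R086.ExtDefs

/-!
Row 86 (S0114), node EXT (helper684), part 4: resolvent existence in the form `ResEx`, and the frozen
scalar statements `ScalExt0`, `ScalExts`.
-/

set_option autoImplicit false

open MeasureTheory Complex Set
open scoped ContDiff

namespace Crest.Agent.R086.XExt

open Crest.Agent.R086.SH Crest.Agent.R086.XOut
open Crest.Agent.R086.JCx (Phi Phi1)

/-- existence for the resolvent (from 470's Res1, Res2) -/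
theorem resEx {N : ℕ} (hN : 2 ≤ N) : ResEx N := by
  intro mu hmu b h hb
  have hbW : Wie.WInt N b := gint_of_integrable hb.1
  refine ⟨Res.resDen 1 mu b, ft (Res.resDen 1 mu b), ⟨?_, fun y => rfl⟩, fun y => ?_,
    fun M hM => ?_⟩
  · have h1 := Res.wint_resDen (sg := 1) hmu hbW
    refine Integrable.congr h1 (Filter.Eventually.of_forall fun ξ => ?_)
    simp only [Wie.wtV_apply, Wie.wt, Complex.real_smul]
  · have h1 := Res.res_eqn (sg := 1) hmu (Wie.WInt.of_le' hN hbW) y
    rw [DGen.ft_rep hb] at h1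
    simpa using h1
  · exact Res.xn_resDen_le (sg := 1) hmu (Wie.WInt.of_le' hM hbW)

/-- densities are unique -/
theorem rep_unique {N M : ℕ} {a b f : R12 → ℂ} (ha : Rep N a f) (hb : Rep M b f) :
    a =ᵐ[volume] b := by
  have hd : Rep 0 (fun ξ => a ξ + (-1) * b ξ) (fun y => f y + (-1) * f y) :=
    (rep_add (rep_mono (Nat.zero_le _) ha) (rep_const_mul (-1) (rep_mono (Nat.zero_le _) hb)).1).1
  have h0 := DSpec.ft_eq_zero (DGen.integrable_rep hd) (fun p => by
    rw [DGen.ft_rep hd]; ring)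
  filter_upwards [h0] with ξ hξ
  linear_combination hξ

theorem xn_congr {M : ℕ} {a b : R12 → ℂ} (h : a =ᵐ[volume] b) : xn M a = xn M b := by
  refine integral_congr_ae ?_
  filter_upwards [h] with ξ hξ
  rw [hξ]

/-- `InX 20` and `XBd 1` give one density with both -/
theorem exists_rep {N : ℕ} {f : R12 → ℂ} {B : ℝ} (h : InX N f) (hB : XBd 1 f B) :
    ∃ a : R12 → ℂ, Rep N a f ∧ xn 1 a ≤ B := by
  obtain ⟨a, ha⟩ := h
  obtain ⟨b, hb, hb'⟩ := hB
  refine ⟨a, ha, ?_⟩
  rw [xn_congr (rep_unique ha hb)]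
  exact hb'

/-- universal constant bounding `∫ |H|` for normalised `H` -/
noncomputable def CH : ℝ := ((sig : Measure S11).real univ + 1) / 2

theorem CH_pos : 0 < CH := by
  unfold CH
  have : 0 ≤ (sig : Measure S11).real univ := measureReal_nonneg
  positivity

theorem hm_le {l : ℕ} {H : R12 → ℝ} (hH : SHarm l H) (hn : (∫ w : S11, (H w) ^ 2 ∂sig) = 1) :
    hm H ≤ CH := by
  have hc : Continuous fun w : S11 => H w := hH.continuous.comp continuous_subtype_val
  have i1 : Integrable (fun w : S11 => |H w|) sig :=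
    hc.abs.integrable_of_hasCompactSupport (HasCompactSupport.of_compactSpace _)
  have i2 : Integrable (fun w : S11 => (1 + (H w) ^ 2) / 2) sig :=
    ((continuous_const.add (hc.pow 2)).div_const 2).integrable_of_hasCompactSupport
      (HasCompactSupport.of_compactSpace _)
  have i3 : Integrable (fun w : S11 => (H w) ^ 2) sig :=
    (hc.pow 2).integrable_of_hasCompactSupport (HasCompactSupport.of_compactSpace _)
  calc hm H ≤ ∫ w : S11, (1 + (H w) ^ 2) / 2 ∂sig := by
        refine integral_mono i1 i2 fun w => ?_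
        have := sq_abs (H w)
        nlinarith [sq_nonneg (|H w| - 1)]
    _ = CH := by
        rw [integral_div, integral_add (integrable_const _) i3, hn, integral_const]
        simp [CH]

/-- first step: the source mode -/
theorem ext_e {l : ℕ} {H : R12 → ℝ} (hH : SHarm l H) {mus : ℂ} (hmus : 0 < mus.re) {r2 : ℝ}
    (hr2 : 0 < r2) {e kc kt bt : R12 → ℂ} (he : InX 20 e) (hbt : Rep 20 bt kt)
    (eqe : ∀ y, I * lap e y - (1 / 2) * eul e y - mus * e y = kc y + kt y)
    (kc0 : ∀ y, r2 ≤ ‖y‖ → kc y = 0) :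
    ∃ (ga : ℂ) (a1 k1 : R12 → ℂ), Rep 20 a1 k1 ∧ xn 1 a1 ≤ xn 1 bt / mus.re ∧
      ∀ r, r2 < r → comp H e r + comp H k1 r = ga * Phi l mus r ∧
        deriv (comp H e) r + deriv (comp H k1) r = ga * Phi1 l mus r := by
  obtain ⟨a1, k1, ra1, eq1, n1⟩ := resEx (N := 20) (by norm_num) mus hmus bt kt hbt
  have sph : ∀ {r : ℝ}, r2 < r → ∀ w : S11, r2 ≤ ‖r • (w : R12)‖ := by
    intro r hr w
    rw [norm_smul_w (hr2.trans hr).le w]; exact hr.le
  have SE := (freeS_comp (by norm_num) hH he eqe).mono hr2.le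
  have SE' : FreeS r2 ((l : ℂ) * (l + 10)) mus (comp H e) (deriv (comp H e)) (comp H kt) := by
    refine SE.congr (fun r hr => comp_congr (fun w => ?_))
    rw [kc0 _ (sph hr w), zero_add]
  have SK := (freeS_comp (by norm_num) hH ⟨a1, ra1⟩ eq1).mono hr2.le
  have neg : ∀ (g : R12 → ℂ) (r : ℝ), comp H (fun y => -g y) r = -comp H g r := by
    intro g r
    have : (fun y => -g y) = fun y => (-1) * g y := by funext y; ring
    rw [this, SH.comp_const_mul]; ring
  have FE : Free r2 ((l : ℂ) * (l + 10)) mus (fun r => comp H e r + comp H k1 r)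
      (fun r => deriv (comp H e) r + deriv (comp H k1) r) := by
    refine (SE'.add SK).free (fun r _ => ?_)
    show comp H kt r + comp H (fun y => -kt y) r = 0
    rw [neg]; ring
  obtain ⟨ga, hga⟩ := out_unique hr2.le FE (free_Phi (l := l) hmus hr2.le)
    ((BD_comp hH he (by norm_num) r2).add (BD_comp hH ⟨a1, ra1⟩ (by norm_num) r2))
    (BD_Phi hmus hr2 13) (Phi_ne hmus r2)
  exact ⟨ga, a1, k1, ra1, n1 1 (by norm_num), hga⟩

/-- second step -/
theorem ext_f {l : ℕ} {H : R12 → ℝ} (hH : SHarm l H) {mu mus beta : ℂ}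
    (hmu : 0 < mu.re) (hmus : 0 < mus.re) (hne : mus ≠ mu) {r2 : ℝ} (hr2 : 0 < r2)
    {f e hc ht b : R12 → ℂ} (hf : InX 20 f) (ce : Continuous e) (hb : Rep 20 b ht)
    (eqf : ∀ y, I * lap f y - (1 / 2) * eul f y - mu * f y = hc y + ht y + beta * e y)
    (hc0 : ∀ y, r2 ≤ ‖y‖ → hc y = 0) {ga : ℂ} {a1 k1 : R12 → ℂ} (ra1 : Rep 20 a1 k1)
    (hga : ∀ r, r2 < r → comp H e r + comp H k1 r = ga * Phi l mus r) :
    ∃ c : ℂ, ∀ r, r2 < r →
      ‖comp H f r - (c * Phi l mu r + beta * ga * Zf l mu mus r)‖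
        ≤ hm H * (xn 1 b / mu.re + ‖beta‖ * (xn 1 a1 / mu.re)) ∧
      ‖deriv (comp H f) r - (c * Phi1 l mu r + beta * ga * Zf1 l mu mus r)‖
        ≤ hm H * (xn 1 b / mu.re + ‖beta‖ * (xn 1 a1 / mu.re)) := by
  have hHc : Continuous H := hH.continuous
  have hm0 := hm_nonneg H
  obtain ⟨a2, g2, ra2, eq2, n2⟩ := resEx (N := 20) (by norm_num) mu hmu b ht hb
  obtain ⟨a3, g3, ra3, eq3, n3⟩ := resEx (N := 20) (by norm_num) mu hmu a1 k1 ra1
  have ct : Continuous ht := (InX.contDiff ⟨b, hb⟩).continuous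
  have sph : ∀ {r : ℝ}, r2 < r → ∀ w : S11, r2 ≤ ‖r • (w : R12)‖ := by
    intro r hr w
    rw [norm_smul_w (hr2.trans hr).le w]; exact hr.le
  have SF := (freeS_comp (by norm_num) hH hf eqf).mono hr2.le
  have SF' : FreeS r2 ((l : ℂ) * (l + 10)) mu (comp H f) (deriv (comp H f))
      (fun r => comp H ht r + beta * comp H e r) := by
    refine SF.congr (fun r hr => ?_)
    have : comp H (fun y => hc y + ht y + beta * e y) r = comp H (fun y => ht y + beta * e y) r :=
      comp_congr (fun w => by rw [hc0 _ (sph hr w), zero_add])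
    show comp H (fun y => hc y + ht y + beta * e y) r = _
    have e5 : comp H (fun y => ht y + beta * e y) r = comp H ht r + comp H (fun y => beta * e y) r :=
      comp_add hHc ct (continuous_const.mul ce) r
    rw [this, e5, SH.comp_const_mul]
  have S2 := (freeS_comp (by norm_num) hH ⟨a2, ra2⟩ eq2).mono hr2.le
  have S3 := (freeS_comp (by norm_num) hH ⟨a3, ra3⟩ eq3).mono hr2.le
  have neg : ∀ (g : R12 → ℂ) (r : ℝ), comp H (fun y => -g y) r = -comp H g r := by
    intro g r
    have : (fun y => -g y) = fun y => (-1) * g y := by funext y; ring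
    rw [this, SH.comp_const_mul]; ring
  have FZ := (freeS_Z (l := l) hmu hmus hne hr2.le).const_mul (-(beta * ga))
  have FY : Free r2 ((l : ℂ) * (l + 10)) mu
      (fun r => comp H f r + comp H g2 r + (-beta) * comp H g3 r + -(beta * ga) * Zf l mu mus r)
      (fun r => deriv (comp H f) r + deriv (comp H g2) r + (-beta) * deriv (comp H g3) r
        + -(beta * ga) * Zf1 l mu mus r) := by
    refine (((SF'.add S2).add (S3.const_mul (-beta))).add FZ).free (fun r hr => ?_)
    have h1 := hga r hr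
    show comp H ht r + beta * comp H e r + comp H (fun y => -ht y) r
      + -beta * comp H (fun y => -k1 y) r + -(beta * ga) * Phi l mus r = 0
    rw [neg, neg]
    linear_combination beta * h1
  obtain ⟨c, hcc⟩ := out_unique hr2.le FY (free_Phi (l := l) hmu hr2.le)
    ((((BD_comp hH hf (by norm_num) r2).add (BD_comp hH ⟨a2, ra2⟩ (by norm_num) r2)).add
      ((BD_comp hH ⟨a3, ra3⟩ (by norm_num) r2).const_mul (-beta))).add
      ((BD_Z hmu hmus hr2 13).const_mul _))
    (BD_Phi hmu hr2 13) (Phi_ne hmu r2)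
  have b2 := n2 1 (by norm_num)
  have b3 := n3 1 (by norm_num)
  refine ⟨c, fun r hr => ?_⟩
  obtain ⟨p2, q2⟩ := norm_comp_xn (by norm_num) hH ra2 r
  obtain ⟨p3, q3⟩ := norm_comp_xn (by norm_num) hH ra3 r
  obtain ⟨u2, v2⟩ := hcc r hr
  have est : ∀ x y : ℂ, ‖x‖ ≤ hm H * xn 1 a2 → ‖y‖ ≤ hm H * xn 1 a3 →
      ‖-x + beta * y‖ ≤ hm H * (xn 1 b / mu.re + ‖beta‖ * (xn 1 a1 / mu.re)) := by
    intro x y hx hy
    calc ‖-x + beta * y‖ ≤ ‖-x‖ + ‖beta * y‖ := norm_add_le _ _
      _ = ‖x‖ + ‖beta‖ * ‖y‖ := by rw [norm_neg, norm_mul]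
      _ ≤ hm H * xn 1 a2 + ‖beta‖ * (hm H * xn 1 a3) := by gcongr
      _ ≤ hm H * (xn 1 b / mu.re) + ‖beta‖ * (hm H * (xn 1 a1 / mu.re)) := by gcongr
      _ = _ := by ring
  refine ⟨?_, ?_⟩
  · have : comp H f r - (c * Phi l mu r + beta * ga * Zf l mu mus r)
        = -comp H g2 r + beta * comp H g3 r := by linear_combination u2
    rw [this]
    exact est _ _ p2 p3
  · have : deriv (comp H f) r - (c * Phi1 l mu r + beta * ga * Zf1 l mu mus r)
        = -deriv (comp H g2) r + beta * deriv (comp H g3) r := by linear_combination v2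
    rw [this]
    exact est _ _ q2 q3

theorem rep_zero (N : ℕ) : Rep N (fun _ => 0) (fun _ => 0) := by
  refine ⟨by simp, fun y => by simp⟩

theorem xn_zero (M : ℕ) : xn M (fun _ => 0) = 0 := by simp [xn]

/-- **ScalExt0** -/
theorem scalExt0 : ExtA.ScalExt0 Phi Phi1 := by
  refine ⟨CH, CH_pos, ?_⟩
  intro l H hH hn mu hmu r2 hr2 f hc ht b hf hht hB hc0 eqf
  obtain ⟨a, ha, hab⟩ := exists_rep hht hB
  have hmus : 0 < (mu + 1).re := by simp; linarith
  obtain ⟨c, hcc⟩ := ext_f hH hmu hmus (by simp) hr2 (beta := 0) (e := fun _ => 0) hf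
    continuous_const ha (fun y => by rw [eqf y]; ring) hc0 (ga := 0) (rep_zero 20)
    (fun r _ => by simp [comp])
  refine ⟨c, fun r hr => ?_⟩
  obtain ⟨h1, h2⟩ := hcc r hr
  have hle : hm H * (xn 1 a / mu.re + ‖(0 : ℂ)‖ * (xn 1 (fun _ : R12 => (0 : ℂ)) / mu.re))
      ≤ CH * (b / mu.re) := by
    rw [norm_zero, zero_mul, add_zero]
    have h3 := hm_le hH hn
    have h4 : xn 1 a / mu.re ≤ b / mu.re := div_le_div_of_nonneg_right hab hmu.le
    have h5 : 0 ≤ xn 1 a / mu.re := div_nonneg (xn_nonneg _ _) hmu.le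
    exact mul_le_mul h3 h4 h5 CH_pos.le
  constructor
  · refine le_trans (le_of_eq ?_) (h1.trans hle)
    congr 1; ring
  · refine le_trans (le_of_eq ?_) (h2.trans hle)
    congr 1; ring

/-- **ScalExts** -/
theorem scalExts : ExtA.ScalExts Phi Phi1 := by
  refine ⟨CH, CH_pos, ?_⟩
  intro l H hH hn mus hmus r2 hr2 e kc kt bk he hkt hBk kc0 eqe
  obtain ⟨at', hat, hatb⟩ := exists_rep hkt hBk
  obtain ⟨ga, a1, k1, ra1, n1, hga⟩ := ext_e hH hmus hr2 he hat eqe kc0
  have hm0 := hm_nonneg H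
  have hCH := hm_le hH hn
  have n1' : xn 1 a1 ≤ bk / mus.re := n1.trans (div_le_div_of_nonneg_right hatb hmus.le)
  refine ⟨ga, fun r hr => ?_, ?_⟩
  · obtain ⟨p1, q1⟩ := norm_comp_xn (by norm_num) hH ra1 r
    obtain ⟨u1, v1⟩ := hga r hr
    have hle : hm H * xn 1 a1 ≤ CH * (bk / mus.re) :=
      mul_le_mul hCH n1' (xn_nonneg _ _) CH_pos.le
    constructor
    · have : comp H e r - ga * Phi l mus r = -comp H k1 r := by linear_combination u1
      rw [this, norm_neg]
      exact p1.trans hle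
    · have : deriv (comp H e) r - ga * Phi1 l mus r = -deriv (comp H k1) r := by
        linear_combination v1
      rw [this, norm_neg]
      exact q1.trans hle
  · intro mu hmu hne f hc ht b be hf hht hB hc0 eqf
    obtain ⟨a, ha, hab⟩ := exists_rep hht hB
    have ce : Continuous e := (InX.contDiff he).continuous
    obtain ⟨c, hcc⟩ := ext_f hH hmu hmus hne.symm hr2 hf ce ha eqf hc0 ra1
      (fun r hr => (hga r hr).1)
    have hne1 : mu - mus ≠ 0 := sub_ne_zero.2 hne
    have hne2 : mus - mu ≠ 0 := sub_ne_zero.2 hne.symm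
    refine ⟨c, fun r hr => ?_⟩
    obtain ⟨h1, h2⟩ := hcc r hr
    have hle : hm H * (xn 1 a / mu.re + ‖be‖ * (xn 1 a1 / mu.re))
        ≤ CH * (b / mu.re + ‖be‖ * bk / (mu.re * mus.re)) := by
      have h4 : xn 1 a / mu.re ≤ b / mu.re := div_le_div_of_nonneg_right hab hmu.le
      have h5 : 0 ≤ xn 1 a / mu.re := div_nonneg (xn_nonneg _ _) hmu.le
      have h6 : xn 1 a1 / mu.re ≤ bk / mus.re / mu.re := div_le_div_of_nonneg_right n1' hmu.le
      have h7 : 0 ≤ xn 1 a1 / mu.re := div_nonneg (xn_nonneg _ _) hmu.le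
      have h8 : ‖be‖ * bk / (mu.re * mus.re) = ‖be‖ * (bk / mus.re / mu.re) := by
        field_simp
      rw [h8]
      refine mul_le_mul hCH (add_le_add h4 (mul_le_mul_of_nonneg_left h6 (norm_nonneg _)))
        (by positivity) CH_pos.le
    constructor
    · refine le_trans (le_of_eq ?_) (h1.trans hle)
      congr 1
      unfold Zf
      have : (Phi l mu r - Phi l mus r) / (mu - mus) = (Phi l mus r - Phi l mu r) / (mus - mu) := by
        field_simp; ring
      rw [this]
    · refine le_trans (le_of_eq ?_) (h2.trans hle)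
      congr 1
      unfold Zf1
      have : (Phi1 l mu r - Phi1 l mus r) / (mu - mus) = (Phi1 l mus r - Phi1 l mu r) / (mus - mu) := by
        field_simp; ring
      rw [this]

end Crest.Agent.R086.XExt
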