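import Crest.Agent.R086.ExtB
import Crest.Agent.R086.XExt2
import Crest.Agent.R086.C4Phi
import Crest.Agent.R086.CRegB
import Crest.Agent.R086.CReg
import Crest.Agent.R086.ResSmoTop
import Crest.Agent.R086.CSym

/-!
Row 86, node EXT (helper384, with 684's scalar form): final theorems for `JCx.Phi`, unconditional.
-/

set_option autoImplicit false

open MeasureTheory Complex Set Filter Topology

namespace Crest.Agent.R086.ExtA

section
variable {om0 R : ℝ} {U : ℝ → ℂ} (B : BData om0 R U)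

theorem ext0_final (hR0 : 0 < R) (hR : B.REG) : B.EXT0 JCx.Phi JCx.Phi1 :=
  ext0 B XExt.scalExt0 hR0 hR

theorem phi_ne (l : ℕ) (m : ℂ) (hm : 0 < m.re) (r0 : ℝ) (_ : 0 < r0) :
    ∃ r, r0 < r ∧ JCx.Phi l m r ≠ 0 := by
  have h : -1 - (l : ℝ) / 2 < m.re := by
    have : (0 : ℝ) ≤ l := Nat.cast_nonneg l
    linarith
  obtain ⟨r, hr⟩ := ((eventually_gt_atTop r0).and (JCx.Phi_eventually_ne_zero h)).exists
  exact ⟨r, hr.1, hr.2⟩

theorem exts_final (hR0 : 0 < R) (hSym : SymStmt) (hR : B.REG) : B.EXTs' JCx.Phi JCx.Phi1 :=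
  exts' B XExt.scalExts hSym phiFacts phi_ne hR0 hR

end

section
variable {om0 R : ℝ} {U : ℝ → ℂ}

theorem reg (hL : LimitProfile om0 R U) (B : BData om0 R U) : B.REG :=
  CRegB.reg_of CSym.symStmt B (by have := hL.R_lo; linarith)
    (CReg.regStmt Res.smoStmt (by have := hL.R_lo; linarith) B)

/-- **EXT0, unconditional** -/
theorem ext0U (hL : LimitProfile om0 R U) (B : BData om0 R U) : B.EXT0 JCx.Phi JCx.Phi1 :=
  ext0_final B (by have := hL.R_lo; linarith) (reg hL B)

/-- **EXTs', unconditional** -/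
theorem extsU (hL : LimitProfile om0 R U) (B : BData om0 R U) : B.EXTs' JCx.Phi JCx.Phi1 :=
  exts_final B (by have := hL.R_lo; linarith) CSym.symStmt (reg hL B)

end

end Crest.Agent.R086.ExtA
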