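import Crest.Agent.R086.TIDefs

/-!
Row 86, node TI (helper333), part 1: solutions on closed time intervals, symmetries, gluing,
conversion to `IsClassicalSolution`.
-/

set_option autoImplicit false

open MeasureTheory Complex Set Filter Topology
open scoped ContDiff
open Crest.AnalysisR.PDE.NLS (IsSmoothPeriodic sobolevDistSq IsClassicalSolution)

namespace Crest.Agent.R086.TI

/-- Solution on `[a,b]`. -/
structure SolOn (n : ℕ) (a b : ℝ) (u : ℝ → R12 → ℂ) : Prop where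
  per : ∀ t ∈ Icc a b, IsSmoothPeriodic (u t)
  cont : ∀ j : ℕ, j ≤ 2 →
    ContinuousOn (fun q : ℝ × R12 => iteratedFDeriv ℝ j (u q.1) q.2) (Icc a b ×ˢ univ)
  eqn : ∀ t ∈ Icc a b, ∀ x : R12,
    HasDerivWithinAt (fun s => u s x)
      (I * lap (u t) x - I * (((‖u t x‖ ^ n : ℝ) : ℂ) * u t x)) (Icc a b) t

theorem Sol.on {n : ℕ} {h : ℝ} {u : ℝ → R12 → ℂ} (H : Sol n h u) : SolOn n 0 h u :=
  ⟨H.per, H.cont, H.eqn⟩

/-! ### symmetries of functions -/

/-- `x ↦ c * f (x + X)` -/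
def mv (c : ℂ) (X : R12) (f : R12 → ℂ) : R12 → ℂ := fun x => c * f (x + X)

theorem iteratedFDeriv_mv (c : ℂ) (X : R12) {f : R12 → ℂ} (hf : ContDiff ℝ ∞ f) (j : ℕ) (x : R12) :
    iteratedFDeriv ℝ j (mv c X f) x = c • iteratedFDeriv ℝ j f (x + X) := by
  have h1 : mv c X f = c • (fun z => f (z + X)) := by
    funext z; simp [mv]
  have h2 : ContDiff ℝ ∞ (fun z => f (z + X)) := hf.comp (contDiff_id.add contDiff_const)
  rw [h1, iteratedFDeriv_const_smul_apply (h2.contDiffAt.of_le (by exact_mod_cast le_top)),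
    iteratedFDeriv_comp_add_right]

theorem isSmoothPeriodic_mv (c : ℂ) (X : R12) {f : R12 → ℂ} (hf : IsSmoothPeriodic f) :
    IsSmoothPeriodic (mv c X f) := by
  refine ⟨contDiff_const.mul (hf.1.comp (contDiff_id.add contDiff_const)), fun x i => ?_⟩
  have := hf.2 (x + X) i
  simp only [mv]
  rw [add_right_comm, this]

theorem lap_mv (c : ℂ) (X : R12) {f : R12 → ℂ} (hf : ContDiff ℝ ∞ f) (x : R12) :
    lap (mv c X f) x = c * lap f (x + X) := by
  simp only [lap, iteratedFDeriv_mv c X hf, Finset.mul_sum]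
  rfl

/-- symmetry: time shift, space shift, phase. -/
theorem SolOn.mv {n : ℕ} {a b : ℝ} {u : ℝ → R12 → ℂ} (H : SolOn n a b u) (s : ℝ) (X : R12)
    {c : ℂ} (hc : ‖c‖ = 1) :
    SolOn n (s + a) (s + b) (fun t => TI.mv c X (u (t - s))) := by
  have hm : ∀ t, t ∈ Icc (s + a) (s + b) → t - s ∈ Icc a b := fun t ht =>
    ⟨by linarith [ht.1], by linarith [ht.2]⟩
  refine ⟨fun t ht => isSmoothPeriodic_mv c X (H.per _ (hm t ht)), fun j hj => ?_, fun t ht x => ?_⟩
  · have h1 : ContinuousOn (fun q : ℝ × R12 => c • iteratedFDeriv ℝ j (u (q.1 - s)) (q.2 + X))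
        (Icc (s + a) (s + b) ×ˢ univ) := by
      have h2 : ContinuousOn (fun q : ℝ × R12 => ((q.1 - s, q.2 + X) : ℝ × R12))
        (Icc (s + a) (s + b) ×ˢ univ) := by fun_prop
      have h3 := (H.cont j hj).comp h2 (fun q hq => ⟨hm _ hq.1, mem_univ _⟩)
      exact h3.const_smul c
    refine h1.congr (fun q hq => ?_)
    exact iteratedFDeriv_mv c X (H.per _ (hm _ hq.1)).1 j q.2
  · have h1 := H.eqn _ (hm t ht) (x + X)
    have h2 : HasDerivWithinAt (fun r : ℝ => r - s) 1 (Icc (s + a) (s + b)) t :=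
      (hasDerivWithinAt_id t _).sub_const s
    have h3 := h1.scomp (h := fun r : ℝ => r - s) (t' := Icc a b) t h2 (fun r hr => hm r hr)
    have h4 : HasDerivWithinAt (fun r => TI.mv c X (u (r - s)) x) _ (Icc (s + a) (s + b)) t :=
      h3.const_mul c
    refine h4.congr_deriv ?_
    have : ‖TI.mv c X (u (t - s)) x‖ = ‖u (t - s) (x + X)‖ := by
      simp [TI.mv, hc]
    rw [lap_mv c X (H.per _ (hm t ht)).1, this]
    simp only [TI.mv, one_smul]
    ring

theorem SolOn.congr {n : ℕ} {a b : ℝ} {u v : ℝ → R12 → ℂ} (H : SolOn n a b u)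
    (h : ∀ t ∈ Icc a b, v t = u t) : SolOn n a b v := by
  refine ⟨fun t ht => h t ht ▸ H.per t ht, fun j hj => ?_, fun t ht x => ?_⟩
  · refine (H.cont j hj).congr (fun q hq => ?_)
    rw [h q.1 hq.1]
  · rw [h t ht]
    refine (H.eqn t ht x).congr (fun r hr => ?_) ?_
    · rw [h r hr]
    · rw [h t ht]

theorem SolOn.glue {n : ℕ} {a b c : ℝ} {u : ℝ → R12 → ℂ} (hab : a ≤ b) (hbc : b ≤ c)
    (H1 : SolOn n a b u) (H2 : SolOn n b c u) : SolOn n a c u := by
  have hU : Icc a c = Icc a b ∪ Icc b c := (Icc_union_Icc_eq_Icc hab hbc).symm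
  refine ⟨fun t ht => ?_, fun j hj => ?_, fun t ht x => ?_⟩
  · rw [hU] at ht
    rcases ht with ht | ht
    · exact H1.per t ht
    · exact H2.per t ht
  · rw [hU, union_prod]
    exact (H1.cont j hj).union_of_isClosed (H2.cont j hj) (isClosed_Icc.prod isClosed_univ)
      (isClosed_Icc.prod isClosed_univ)
  · rw [hU]
    rcases lt_trichotomy t b with h | h | h
    · have h1 := H1.eqn t ⟨ht.1, h.le⟩ x
      refine h1.union ?_
      refine hasDerivWithinAt_iff_hasFDerivWithinAt.2 ?_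
      refine HasFDerivWithinAt.of_notMem_closure ?_
      rw [isClosed_Icc.closure_eq]
      exact fun hh => absurd hh.1 (not_le.2 h)
    · subst h
      exact (H1.eqn t ⟨ht.1, le_rfl⟩ x).union (H2.eqn t ⟨le_rfl, ht.2⟩ x)
    · have h1 := H2.eqn t ⟨h.le, ht.2⟩ x
      refine HasDerivWithinAt.union ?_ h1
      refine hasDerivWithinAt_iff_hasFDerivWithinAt.2 ?_
      refine HasFDerivWithinAt.of_notMem_closure ?_
      rw [isClosed_Icc.closure_eq]
      exact fun hh => absurd hh.2 (not_le.2 h)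

theorem continuousOn_coprod {X : Type*} [TopologicalSpace X] {s : Set X} {f : X → (ℝ →L[ℝ] ℂ)}
    {g : X → (R12 →L[ℝ] ℂ)} (hf : ContinuousOn f s) (hg : ContinuousOn g s) :
    ContinuousOn (fun q => (f q).coprod (g q)) s := by
  have : (fun q => (f q).coprod (g q)) = fun q =>
      (f q).comp (ContinuousLinearMap.fst ℝ ℝ R12) + (g q).comp (ContinuousLinearMap.snd ℝ ℝ R12) := by
    funext q
    ext <;> simp
  rw [this]
  exact (hf.clm_comp continuousOn_const).add (hg.clm_comp continuousOn_const)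

/-- Continuous partial derivatives on a strip `(0,T) × R12` give `C^1`. -/
theorem contDiffOn_one_of_partial {T : ℝ} {u : ℝ → R12 → ℂ} {g : ℝ → R12 → ℂ}
    {A : ℝ → R12 → (R12 →L[ℝ] ℂ)}
    (hder : ∀ t ∈ Ioo 0 T, ∀ x : R12, HasDerivAt (fun s => u s x) (g t x) t)
    (hx : ∀ t ∈ Ioo 0 T, ∀ x : R12, HasFDerivAt (u t) (A t x) x)
    (hg : ContinuousOn (fun q : ℝ × R12 => g q.1 q.2) (Ioo 0 T ×ˢ univ))
    (hA : ContinuousOn (fun q : ℝ × R12 => A q.1 q.2) (Ioo 0 T ×ˢ univ)) :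
    ContDiffOn ℝ 1 (fun q : ℝ × R12 => u q.1 q.2) (Ioo 0 T ×ˢ univ) := by
  have hopen : IsOpen (Ioo 0 T ×ˢ (univ : Set R12)) := isOpen_Ioo.prod isOpen_univ
  have h7 : ContinuousOn (fun q : ℝ × R12 => ContinuousLinearMap.toSpanSingleton ℝ
      (g q.1 q.2)) (Ioo 0 T ×ˢ univ) :=
    (ContinuousLinearMap.toSpanSingletonCLE (𝕜 := ℝ) (E := ℂ)).continuous.comp_continuousOn hg
  have hstrict : ∀ q ∈ Ioo 0 T ×ˢ (univ : Set R12),
      HasStrictFDerivAt (fun q : ℝ × R12 => u q.1 q.2)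
        ((ContinuousLinearMap.toSpanSingleton ℝ (g q.1 q.2)).coprod (A q.1 q.2)) q := by
    intro q hq
    have hn1 : (Ioo 0 T ×ˢ (univ : Set R12)) ∈ 𝓝 q := hopen.mem_nhds hq
    refine hasStrictFDerivAt_uncurry_coprod (𝕜 := ℝ) (f := u)
      (f₁ := fun t x => ContinuousLinearMap.toSpanSingleton ℝ (g t x)) (f₂ := A) ?_ ?_ ?_ ?_
    · filter_upwards [hn1] with r hr
      exact (hder r.1 hr.1 r.2).hasFDerivAt
    · filter_upwards [hn1] with r hr
      exact hx r.1 hr.1 r.2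
    · exact h7.continuousAt hn1
    · exact hA.continuousAt hn1
  have hc : ContinuousOn (fun q : ℝ × R12 => fderiv ℝ (fun q : ℝ × R12 => u q.1 q.2) q)
      (Ioo 0 T ×ˢ univ) :=
    (continuousOn_coprod h7 hA).congr (fun q hq => (hstrict q hq).hasFDerivAt.fderiv)
  have h10 := contDiffOn_succ_iff_fderiv_of_isOpen (𝕜 := ℝ) (n := 0)
    (f := fun q : ℝ × R12 => u q.1 q.2) hopen
  rw [zero_add] at h10
  exact h10.2 ⟨fun q hq => ((hstrict q hq).hasFDerivAt.differentiableAt).differentiableWithinAt,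
    by simp, contDiffOn_zero.2 hc⟩

/-- Conversion to a classical solution. -/
theorem classical {n : ℕ} {T : ℝ} {u : ℝ → R12 → ℂ}
    (H : ∀ b, 0 ≤ b → b < T → SolOn n 0 b u) : IsClassicalSolution (n + 1) T u := by
  have hcont : ∀ j : ℕ, j ≤ 2 →
      ContinuousOn (fun q : ℝ × R12 => iteratedFDeriv ℝ j (u q.1) q.2) (Ico 0 T ×ˢ univ) := by
    intro j hj q hq
    obtain ⟨b, hb1, hb2⟩ := exists_between hq.1.2
    have hb0 : 0 ≤ b := hq.1.1.trans hb1.le
    have h1 := (H b hb0 hb2).cont j hj q ⟨⟨hq.1.1, hb1.le⟩, mem_univ _⟩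
    refine h1.mono_of_mem_nhdsWithin ?_
    have h2 : (Iio b ×ˢ univ : Set (ℝ × R12)) ∈ 𝓝 q :=
      (isOpen_Iio.prod isOpen_univ).mem_nhds ⟨hb1, mem_univ _⟩
    filter_upwards [mem_nhdsWithin_of_mem_nhds h2, self_mem_nhdsWithin] with r hr1 hr2
    exact ⟨⟨hr2.1.1, hr1.1.le⟩, mem_univ _⟩
  have hper : ∀ t ∈ Ico 0 T, IsSmoothPeriodic (u t) := by
    intro t ht
    exact (H t ht.1 ht.2).per t ⟨ht.1, le_rfl⟩
  have hder : ∀ t ∈ Ioo 0 T, ∀ x : R12, HasDerivAt (fun s => u s x)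
      (I * lap (u t) x - I * (((‖u t x‖ ^ n : ℝ) : ℂ) * u t x)) t := by
    intro t ht x
    obtain ⟨b, hb1, hb2⟩ := exists_between ht.2
    exact ((H b (ht.1.le.trans hb1.le) hb2).eqn t ⟨ht.1.le, hb1.le⟩ x).hasDerivAt
      (Icc_mem_nhds ht.1 hb1)
  have hc0 : ContinuousOn (fun q : ℝ × R12 => u q.1 q.2) (Ico 0 T ×ˢ univ) := by
    have h1 := hcont 0 (by norm_num)
    have h2 : ContinuousOn (fun q : ℝ × R12 =>
        (continuousMultilinearCurryFin0 ℝ R12 ℂ) (iteratedFDeriv ℝ 0 (u q.1) q.2))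
        (Ico 0 T ×ˢ univ) :=
      (continuousMultilinearCurryFin0 ℝ R12 ℂ).continuous.comp_continuousOn h1
    refine h2.congr (fun q _ => ?_)
    simp
  have hc1 : ContinuousOn (fun q : ℝ × R12 => fderiv ℝ (u q.1) q.2) (Ico 0 T ×ˢ univ) := by
    have h1 := hcont 1 (by norm_num)
    have h2 : ContinuousOn (fun q : ℝ × R12 =>
        (continuousMultilinearCurryFin1 ℝ R12 ℂ) (iteratedFDeriv ℝ 1 (u q.1) q.2))
        (Ico 0 T ×ˢ univ) :=
      (continuousMultilinearCurryFin1 ℝ R12 ℂ).continuous.comp_continuousOn h1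
    refine h2.congr (fun q _ => ?_)
    ext v
    simp
  have hc2 : ContinuousOn (fun q : ℝ × R12 => lap (u q.1) q.2) (Ico 0 T ×ˢ univ) := by
    have h1 := hcont 2 le_rfl
    simp only [lap]
    refine continuousOn_finsetSum _ (fun i _ => ?_)
    have h3 : Continuous fun m : ContinuousMultilinearMap ℝ (fun _ : Fin 2 => R12) ℂ =>
        m ![ei i, ei i] := continuous_eval_const _
    exact h3.comp_continuousOn h1
  have hG : ContinuousOn (fun q : ℝ × R12 =>
      (I * lap (u q.1) q.2 - I * (((‖u q.1 q.2‖ ^ n : ℝ) : ℂ) * u q.1 q.2))) (Ico 0 T ×ˢ univ) := by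
    have h4 : ContinuousOn (fun q : ℝ × R12 => (((‖u q.1 q.2‖ ^ n : ℝ) : ℂ))) (Ico 0 T ×ˢ univ) :=
      continuous_ofReal.comp_continuousOn (hc0.norm.pow n)
    exact (continuousOn_const.mul hc2).sub (continuousOn_const.mul (h4.mul hc0))
  have hsub : (Ioo 0 T ×ˢ (univ : Set R12)) ⊆ Ico 0 T ×ˢ univ :=
    prod_mono Ioo_subset_Ico_self subset_rfl
  refine ⟨hc0, ?_, fun t ht => contDiff_infty.1 (hper t (Ioo_subset_Ico_self ht)).1 2,
    fun t ht x i => (hper t ht).2 x i, fun t ht x => ?_⟩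
  · refine contDiffOn_one_of_partial (A := fun t x => fderiv ℝ (u t) x) hder (fun t ht x => ?_)
      (hG.mono hsub) (hc1.mono hsub)
    exact (((hper t (Ioo_subset_Ico_self ht)).1.differentiable (by simp)) x).hasFDerivAt
  · rw [(hder t ht x).deriv]
    have hI : I * I = -1 := I_mul_I
    simp only [Nat.add_sub_cancel]
    have : (∑ i : Fin 12, iteratedFDeriv ℝ 2 (u t) x
          ![EuclideanSpace.single i 1, EuclideanSpace.single i 1]) = lap (u t) x := rfl
    rw [this]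
    linear_combination (lap (u t) x - ((‖u t x‖ ^ n : ℝ) : ℂ) * u t x) * hI

end Crest.Agent.R086.TI
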