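import Crest.Agent.R086.TIAux
import Crest.Agent.R086.TI2

/-!
Row 86, node FINAL (helper343, second of helper333): value at the centre, limits of the parameters.
-/

set_option autoImplicit false

open MeasureTheory Complex Set Filter Topology
open scoped ContDiff
open Crest.AnalysisR.PDE.NLS (IsSmoothPeriodic sobolevDistSq IsClassicalSolution)

namespace Crest.Agent.R086.TI

open Crest.Agent.R086 Crest.Agent.R086.Profile

/-- (d) the periodised profile near its centre -/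
theorem prof_near {n : ℕ} (P : Profile n) {η : ℝ} (hη : 0 < η) : ∃ ρ : ℝ, 0 < ρ ∧ ρ ≤ 1 ∧
    ∀ (a : Par) (t : ℝ) (x : R12), 0 < a.T - t → a.T - t ≤ 1 →
      ‖x - a.x‖ ≤ ρ * Real.sqrt (a.T - t) →
      |(a.T - t) ^ (1 / (n : ℝ)) * ‖P.prof a t x‖ - ‖P.Q 0‖| ≤ η := by
  have hc : ContinuousAt (fun y => ‖P.Q y‖) 0 := P.smooth.continuous.norm.continuousAt
  obtain ⟨ρ, hρ, hρ2⟩ := Metric.continuousAt_iff.1 hc η hη
  refine ⟨min (ρ / 2) 1, lt_min (by positivity) one_pos, min_le_right _ _,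
    fun a t x ht ht1 hx => ?_⟩
  set τ := a.T - t with hτ
  have hs0 : 0 < Real.sqrt τ := Real.sqrt_pos.2 ht
  have hs1 : Real.sqrt τ ≤ 1 := Real.sqrt_le_one.2 ht1
  have hx1 : ‖x - a.x‖ ≤ 1 := by
    refine hx.trans ?_
    calc min (ρ / 2) 1 * Real.sqrt τ ≤ 1 * 1 :=
          mul_le_mul (min_le_right _ _) hs1 hs0.le zero_le_one
      _ = 1 := one_mul 1
  have hp : (τ) ^ (1 / (n : ℝ)) * ‖P.prof a t x‖ = ‖P.Q ((Real.sqrt τ)⁻¹ • (x - a.x))‖ := by
    unfold Profile.prof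
    rw [norm_mul, norm_amp P a ht, qt_near P ht hx1, ← mul_assoc, ← hτ, ← Real.rpow_add ht]
    simp
  rw [hp]
  have hz : ‖(Real.sqrt τ)⁻¹ • (x - a.x)‖ ≤ min (ρ / 2) 1 := by
    rw [norm_smul, norm_inv, Real.norm_of_nonneg hs0.le, inv_mul_le_iff₀ hs0]
    rw [mul_comm]
    exact hx
  have hz2 : dist ((Real.sqrt τ)⁻¹ • (x - a.x)) 0 < ρ := by
    rw [dist_zero_right]
    have := hz.trans (min_le_left _ _)
    linarith
  have := hρ2 hz2
  rw [Real.dist_eq] at this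
  exact this.le

/-- (e) value of a nearby solution at a point close to the centre -/
theorem value_near {n : ℕ} (P : Profile n) (hTN : TN) (hTP : TP1 P) {η : ℝ} (hη : 0 < η) :
    ∃ ρ : ℝ, 0 < ρ ∧ ρ ≤ 1 ∧
    ∀ (N s : ℕ) (μ : ℝ), 0 ≤ μ → ∀ (a : Par) (t : ℝ) (x : R12) (v : R12 → ℂ) (d : ℝ),
      0 < a.T - t → a.T - t ≤ 1 → ‖x - a.x‖ ≤ ρ * Real.sqrt (a.T - t) → IsSmoothPeriodic v →
      nrm n N s μ (a.T - t) (fun x => v x - P.prof a t x) ≤ d →
      |(a.T - t) ^ (1 / (n : ℝ)) * ‖v x‖ - ‖P.Q 0‖| ≤ η + d := by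
  obtain ⟨ρ, hρ, hρ1, h⟩ := prof_near P hη
  refine ⟨ρ, hρ, hρ1, fun N s μ hμ a t x v d ht ht1 hx hv hd => ?_⟩
  have h1 := h a t x ht ht1 hx
  have h2 := sup_le_nrm (n := n) (N := N) (s := s) (μ := μ) (τ := a.T - t) hTN hμ ht.le
    (isp_sub hv (isp_prof hTP a ht)) x
  have h3 : |(a.T - t) ^ (1 / (n : ℝ)) * ‖v x‖ - (a.T - t) ^ (1 / (n : ℝ)) * ‖P.prof a t x‖| ≤ d := by
    rw [← mul_sub, abs_mul, abs_of_nonneg (by positivity : (0:ℝ) ≤ (a.T - t) ^ (1 / (n : ℝ)))]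
    refine le_trans ?_ (h2.trans hd)
    exact mul_le_mul_of_nonneg_left (abs_norm_sub_norm_le _ _) (by positivity)
  calc |(a.T - t) ^ (1 / (n : ℝ)) * ‖v x‖ - ‖P.Q 0‖|
      = |((a.T - t) ^ (1 / (n : ℝ)) * ‖v x‖ - (a.T - t) ^ (1 / (n : ℝ)) * ‖P.prof a t x‖)
        + ((a.T - t) ^ (1 / (n : ℝ)) * ‖P.prof a t x‖ - ‖P.Q 0‖)| := by ring_nf
    _ ≤ _ := abs_add_le _ _
    _ ≤ d + η := add_le_add h3 h1
    _ = η + d := add_comm _ _

/-- halving recursion with a null forcing -/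
theorem tendsto_zero_of_half {x y : ℕ → ℝ} (hx : ∀ j, 0 ≤ x j)
    (h : ∀ j, x (j + 1) ≤ x j / 2 + y j) (hy : Tendsto y atTop (𝓝 0)) :
    Tendsto x atTop (𝓝 0) := by
  rw [Metric.tendsto_atTop]
  intro ε hε
  have h1 : ∀ᶠ j in atTop, y j < ε / 8 := hy.eventually (gt_mem_nhds (by positivity))
  obtain ⟨J, hJ⟩ := eventually_atTop.1 h1
  have h2 : ∀ k : ℕ, x (J + k) ≤ x J / 2 ^ k + ε / 4 := by
    intro k
    induction k with
    | zero => simp; positivity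
    | succ k ih =>
      have h3 := h (J + k)
      have h4 := hJ (J + k) (by omega)
      calc x (J + (k + 1)) ≤ x (J + k) / 2 + y (J + k) := h3
        _ ≤ (x J / 2 ^ k + ε / 4) / 2 + ε / 8 := by linarith
        _ = x J / 2 ^ (k + 1) + ε / 4 := by rw [pow_succ]; ring
  have h5 : Tendsto (fun k : ℕ => x J / 2 ^ k) atTop (𝓝 0) := by
    have := (tendsto_pow_atTop_nhds_zero_of_lt_one (r := (1 / 2 : ℝ)) (by norm_num)
      (by norm_num)).const_mul (x J)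
    rw [mul_zero] at this
    refine this.congr (fun k => ?_)
    rw [one_div, inv_pow]
    rfl
  have h6 : ∀ᶠ k in atTop, x J / 2 ^ k < ε / 4 := h5.eventually (gt_mem_nhds (by positivity))
  obtain ⟨K, hK⟩ := eventually_atTop.1 h6
  refine ⟨J + K, fun m hm => ?_⟩
  obtain ⟨k, rfl⟩ : ∃ k, m = J + k := ⟨m - J, by omega⟩
  rw [Real.dist_eq, sub_zero, abs_of_nonneg (hx _)]
  have h7 := hK k (by omega)
  have h8 := h2 k
  linarith

/-- geometric decay -/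
theorem le_geom {w : ℕ → ℝ} {r : ℝ} (hr : 0 ≤ r) (h : ∀ j, w (j + 1) ≤ r * w j) (j k : ℕ) :
    w (j + k) ≤ r ^ k * w j := by
  induction k with
  | zero => simp
  | succ k ih =>
    calc w (j + (k + 1)) ≤ r * w (j + k) := h (j + k)
      _ ≤ r * (r ^ k * w j) := mul_le_mul_of_nonneg_left ih hr
      _ = r ^ (k + 1) * w j := by ring

/-- (f) -/
theorem seq_tendsto {τ δ : ℕ → ℝ} {C c : ℝ} (hc : 0 < c) (hτ : ∀ j, 0 < τ j)
    (hτ2 : ∀ j, τ (j + 1) ≤ τ j / 2) (hδ : ∀ j, 0 ≤ δ j)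
    (hδ2 : ∀ j, δ (j + 1) ≤ δ j / 2 + C * τ j ^ c) :
    Tendsto τ atTop (𝓝 0) ∧ Tendsto δ atTop (𝓝 0) := by
  have h1 : Tendsto τ atTop (𝓝 0) :=
    tendsto_zero_of_half (y := fun _ => 0) (fun j => (hτ j).le) (fun j => by
      have := hτ2 j
      linarith) tendsto_const_nhds
  refine ⟨h1, tendsto_zero_of_half hδ hδ2 ?_⟩
  have h2 : Tendsto (fun j => τ j ^ c) atTop (𝓝 ((0:ℝ) ^ c)) :=
    ((Real.continuous_rpow_const hc.le).tendsto 0).comp h1
  rw [Real.zero_rpow hc.ne'] at h2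
  simpa using h2.const_mul C

/-- (g) convergence with a rate relative to a geometric weight -/
theorem lim_geo {X : Type*} [MetricSpace X] [CompleteSpace X] {x : ℕ → X} {w e : ℕ → ℝ} {r : ℝ}
    (hr0 : 0 ≤ r) (hr : r < 1) (hw : ∀ j, 0 ≤ w j) (hw2 : ∀ j, w (j + 1) ≤ r * w j)
    (he : Tendsto e atTop (𝓝 0)) (h : ∀ j, dist (x j) (x (j + 1)) ≤ e j * w j) :
    ∃ y : X, Tendsto x atTop (𝓝 y) ∧ ∀ η : ℝ, 0 < η → ∀ᶠ j in atTop, dist (x j) y ≤ η * w j := by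
  obtain ⟨E, hE⟩ := he.bddAbove_range
  have hE' : ∀ j, e j ≤ E := fun j => hE ⟨j, rfl⟩
  have hcau : CauchySeq x := by
    refine cauchySeq_of_le_geometric r (|E| * w 0) hr (fun j => ?_)
    refine (h j).trans ?_
    have h1 := le_geom hr0 hw2 0 j
    rw [zero_add] at h1
    calc e j * w j ≤ |E| * w j :=
          mul_le_mul_of_nonneg_right ((hE' j).trans (le_abs_self _)) (hw j)
      _ ≤ |E| * (r ^ j * w 0) := mul_le_mul_of_nonneg_left h1 (abs_nonneg _)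
      _ = |E| * w 0 * r ^ j := by ring
  obtain ⟨y, hy⟩ := cauchySeq_tendsto_of_complete hcau
  refine ⟨y, hy, fun η hη => ?_⟩
  have h2 : ∀ᶠ j in atTop, e j < η * (1 - r) :=
    he.eventually (gt_mem_nhds (mul_pos hη (by linarith)))
  obtain ⟨J, hJ⟩ := eventually_atTop.1 h2
  refine eventually_atTop.2 ⟨J, fun j hj => ?_⟩
  have h3 : ∀ k, dist (x (j + k)) (x (j + (k + 1))) ≤ η * (1 - r) * w j * r ^ k := by
    intro k
    refine (h (j + k)).trans ?_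
    calc e (j + k) * w (j + k) ≤ η * (1 - r) * w (j + k) :=
          mul_le_mul_of_nonneg_right (hJ _ (by omega)).le (hw _)
      _ ≤ η * (1 - r) * (r ^ k * w j) :=
          mul_le_mul_of_nonneg_left (le_geom hr0 hw2 j k) (mul_nonneg hη.le (by linarith))
      _ = _ := by ring
  have h4 : Tendsto (fun k => x (j + k)) atTop (𝓝 y) :=
    hy.comp (tendsto_atTop_mono (fun k => Nat.le_add_left k j) tendsto_id)
  have h5 := dist_le_of_le_geometric_of_tendsto₀ r (η * (1 - r) * w j) hr h3 h4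
  rw [add_zero] at h5
  have h6 : η * (1 - r) * w j / (1 - r) = η * w j := by
    field_simp [(by linarith : (1 - r) ≠ 0)]
  rw [h6] at h5
  exact h5

theorem sqrt_half_le {a b : ℝ} (ha : 0 ≤ a) (h : b ≤ a / 2) :
    Real.sqrt b ≤ (3 / 4) * Real.sqrt a := by
  have h1 : Real.sqrt b ≤ Real.sqrt ((3 / 4) ^ 2 * a) := by
    apply Real.sqrt_le_sqrt
    nlinarith
  rwa [Real.sqrt_mul (by positivity), Real.sqrt_sq (by norm_num)] at h1

/-- (g) for the blow-up times and the blow-up points -/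
theorem param_lim {T : ℕ → ℝ} {X : ℕ → R12} {τ e : ℕ → ℝ} (hτ : ∀ j, 0 < τ j)
    (hτ2 : ∀ j, τ (j + 1) ≤ τ j / 2) (he : Tendsto e atTop (𝓝 0))
    (hT : ∀ j, |T (j + 1) - T j| ≤ e j * τ j)
    (hX : ∀ j, ‖X (j + 1) - X j‖ ≤ e j * Real.sqrt (τ j)) :
    ∃ (T' : ℝ) (X' : R12), Tendsto T atTop (𝓝 T') ∧ Tendsto X atTop (𝓝 X') ∧
      ∀ η : ℝ, 0 < η → ∀ᶠ j in atTop, |T j - T'| ≤ η * τ j ∧ ‖X j - X'‖ ≤ η * Real.sqrt (τ j) := by
  obtain ⟨T', h1, h2⟩ := lim_geo (x := T) (w := τ) (e := e) (r := 1 / 2) (by norm_num)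
    (by norm_num) (fun j => (hτ j).le) (fun j => by have := hτ2 j; linarith) he
    (fun j => by rw [dist_comm, Real.dist_eq]; exact hT j)
  obtain ⟨X', h3, h4⟩ := lim_geo (x := X) (w := fun j => Real.sqrt (τ j)) (e := e) (r := 3 / 4)
    (by norm_num) (by norm_num) (fun j => Real.sqrt_nonneg _)
    (fun j => sqrt_half_le (hτ j).le (hτ2 j)) he
    (fun j => by rw [dist_comm, dist_eq_norm]; exact hX j)
  refine ⟨T', X', h1, h3, fun η hη => ?_⟩
  filter_upwards [h2 η hη, h4 η hη] with j h5 h6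
  rw [Real.dist_eq] at h5
  rw [dist_eq_norm] at h6
  exact ⟨h5, h6⟩

end Crest.Agent.R086.TI
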