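import Crest.Agent.R086.TIAux
import Crest.Agent.R086.TI2

/-!
Row 86, node FINAL (helper343, second of helper333): the open set of initial data.
-/

set_option autoImplicit false

open MeasureTheory Complex Set Filter Topology
open scoped ContDiff
open Crest.AnalysisR.PDE.NLS (IsSmoothPeriodic sobolevDistSq IsClassicalSolution)

namespace Crest.Agent.R086.TI

open Crest.Agent.R086 Crest.Agent.R086.Profile

theorem cf_zero (k : Z12) : cf (fun _ => (0 : ℂ)) k = 0 := by
  simp [cf]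

theorem nrm_zero (n N s : ℕ) (μ τ : ℝ) : nrm n N s μ τ (fun _ => (0 : ℂ)) = 0 := by
  simp [nrm, nn, wn, hi, cf_zero]

theorem nrm_self (n N s : ℕ) (μ τ : ℝ) (v : R12 → ℂ) :
    nrm n N s μ τ (fun x => v x - v x) = 0 := by
  have : (fun x => v x - v x) = fun _ => (0 : ℂ) := by
    funext x; exact sub_self _
  rw [this, nrm_zero]

/-- the set of initial data of FINAL is nonempty, consists of smooth periodic functions, and is
open in `H^(s+14)` among smooth periodic functions. -/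
theorem open_set {n N s : ℕ} (P : Profile n) (hTF1 : TF1) (hTF3 : TF3) (hTN : TN) (hTP : TP1 P)
    (hNs : N ≤ s) {μ τ : ℝ} (hμ : 0 < μ) (hτ : 0 < τ) (hτ1 : τ ≤ 1) {d0 : ℝ} (hd0 : 0 < d0)
    (a : Par) (t : ℝ) (hat : a.T - t = τ) :
    ({v : R12 → ℂ | IsSmoothPeriodic v ∧ nrm n N s μ τ (fun x => v x - P.prof a t x) < d0} :
      Set (R12 → ℂ)).Nonempty ∧
    (∀ v ∈ {v : R12 → ℂ | IsSmoothPeriodic v ∧ nrm n N s μ τ (fun x => v x - P.prof a t x) < d0},
      IsSmoothPeriodic v) ∧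
    ∀ u₀ ∈ {v : R12 → ℂ | IsSmoothPeriodic v ∧ nrm n N s μ τ (fun x => v x - P.prof a t x) < d0},
      ∃ δ : ℝ, 0 < δ ∧ ∀ v : R12 → ℂ, IsSmoothPeriodic v →
        sobolevDistSq (s + 14) v u₀ < δ →
        v ∈ {v : R12 → ℂ | IsSmoothPeriodic v ∧
          nrm n N s μ τ (fun x => v x - P.prof a t x) < d0} := by
  have hat' : 0 < a.T - t := by rw [hat]; exact hτ
  have hp : IsSmoothPeriodic (P.prof a t) := isp_prof hTP a hat'
  refine ⟨⟨P.prof a t, hp, ?_⟩, fun v hv => hv.1, ?_⟩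
  · rw [nrm_self]; exact hd0
  · rintro u₀ ⟨hu₀, hu₀d⟩
    obtain ⟨C, hC, hsob⟩ := nrm_le_sob (n := n) hTF1 hTF3 hNs hμ.le hτ hτ1
    set ε := d0 - nrm n N s μ τ (fun x => u₀ x - P.prof a t x) with hε
    have hεpos : 0 < ε := by rw [hε]; linarith
    refine ⟨(ε / (C + 1)) ^ 2, by positivity, fun v hv hvd => ⟨hv, ?_⟩⟩
    have h1 : Real.sqrt (sobolevDistSq (s + 14) v u₀) < ε / (C + 1) :=
      (Real.sqrt_lt' (by positivity)).2 hvd
    have h2 := hsob v u₀ hv hu₀
    have h3 : C * Real.sqrt (sobolevDistSq (s + 14) v u₀) < ε := by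
      have h4 : C * Real.sqrt (sobolevDistSq (s + 14) v u₀) ≤ C * (ε / (C + 1)) :=
        mul_le_mul_of_nonneg_left h1.le hC
      have h5 : C * (ε / (C + 1)) < ε := by
        rw [mul_div_assoc', div_lt_iff₀ (by positivity)]
        nlinarith
      linarith
    have h6 := nrm_tri (n := n) (N := N) (s := s) hTN hμ.le hτ.le hv hu₀ hp
    linarith

end Crest.Agent.R086.TI
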