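import Crest.Agent.R086.TI5
import Crest.Agent.R086.TIAux2
import Crest.Agent.R086.TIAux3

/-!
Row 86, PART D-TORUS, node FINAL (helper333): `OneStep` and `Modul` imply the blow-up conclusion.
-/

set_option autoImplicit false

open MeasureTheory Complex Set Filter Topology
open scoped ContDiff
open Crest.AnalysisR.PDE.NLS (IsSmoothPeriodic sobolevDistSq IsClassicalSolution)

namespace Crest.Agent.R086.TI

open Profile

theorem final {n : ℕ} (P : Profile n) (N s : ℕ) (hNs : N + 1 ≤ s) (hTN : TN) (hTF1 : TF1)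
    (hTF3 : TF3) (hTC4 : TC4) (hTC5 : TC5) (hTP : TP1 P) (hO : OneStep P N s)
    (hM : Modul P N s) : BlowupConcl (n + 1) := by
  obtain ⟨μ, S, C, c, r, τ₁, M⟩ := exists_mstep P N s hTN hTP hO hM
  obtain ⟨d₀, τ₀, hd0, hτ0, hτ01, hseq⟩ := exists_seqs hTP M
  obtain ⟨hne, hsm, hop⟩ := open_set (N := N) (s := s) P hTF1 hTF3 hTN hTP (by omega) M.hμ hτ0 hτ01
    hd0 ⟨τ₀, 0, 0⟩ 0 (by simp)
  refine ⟨s + 14, by omega, _, hne, hsm, hop, ?_⟩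
  rintro u₀ ⟨hu₀, hd⟩
  obtain ⟨B, q, a, t, u, H⟩ := hseq u₀ hu₀ hd.le
  obtain ⟨T, X, K, hK, hT, hTj, hXj⟩ := H.limits
  have hTpos : 0 < T := by
    have h1 : t 1 ≤ T := H.strictMono.monotone.ge_of_tendsto hT 1
    have h2 := H.lt_succ 0
    rw [H.t0] at h2
    linarith
  obtain ⟨v, hv, hvu⟩ := hTC4 n P.neven P.two_le t T u H.t0 H.strictMono hT H.sol H.match_
  refine ⟨T, hTpos, v, hTC5 n P.neven P.two_le T v hTpos hv, ?_, X, ‖P.Q 0‖,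
    norm_pos_iff.2 P.Q_zero, ?_⟩
  · have h1 := hvu 0 (t 0) ⟨le_rfl, (H.lt_succ 0).le⟩
    rw [H.t0] at h1
    rw [h1, H.u0]
  · have hnr : ∀ η : ℝ, 0 < η → ∃ ρ : ℝ, 0 < ρ ∧ ∀ (a : Par) (t : ℝ) (x : R12), 0 < a.T - t →
        a.T - t ≤ 1 → ‖x - a.x‖ ≤ ρ * Real.sqrt (a.T - t) →
        |(a.T - t) ^ (1 / (n : ℝ)) * ‖P.prof a t x‖ - ‖P.Q 0‖| ≤ η := fun η hη => by
      obtain ⟨ρ, h1, _, h3⟩ := prof_near P hη
      exact ⟨ρ, h1, h3⟩
    have h1 := H.tendsto_value hTN hTP M.hμ.le hτ01 hnr hK hT hTj hXj hvu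
    have e : ((n + 1 : ℕ) : ℝ) - 1 = (n : ℝ) := by push_cast; ring
    rw [e]
    exact h1

end Crest.Agent.R086.TI
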