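import Mathlib
import Crest.Agent.R086.Disk
import Crest.Agent.R086.A4Alg

/-!
Row 86, Part A4 (helper444): kernel-evaluated fixed-point disc arithmetic (scale `2^32`) and the
driver for the certificates `A4.CertR`.
-/

set_option autoImplicit false

open Complex
open scoped ComplexConjugate

namespace Crest.Agent.R086.Fx

/-- disc `{w : |w·2^32 - (x + i y)| ≤ r}` -/
structure Dk where
  x : Int
  y : Int
  r : Nat

def S : Nat := 4294967296
def S2 : Nat := 18446744073709551616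
def H : Nat := 2147483648

def nb (x y : Int) : Nat :=
  let a := x.natAbs
  let b := y.natAbs
  bif Nat.ble a b then b + (a + 1) / 2 else a + (b + 1) / 2

def add (d e : Dk) : Dk := ⟨d.x + e.x, d.y + e.y, d.r + e.r⟩
def sub (d e : Dk) : Dk := ⟨d.x - e.x, d.y - e.y, d.r + e.r⟩
def cj (d : Dk) : Dk := ⟨d.x, -d.y, d.r⟩
def addi (d : Dk) (n : Int) : Dk := ⟨d.x + n, d.y, d.r⟩
def mul (d e : Dk) : Dk :=
  ⟨(d.x * e.x - d.y * e.y) / (S : Int), (d.x * e.y + d.y * e.x) / (S : Int),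
   (nb d.x d.y * e.r + nb e.x e.y * d.r + d.r * e.r) / S + 3⟩
def den (d : Dk) : Int := d.x * d.x + d.y * d.y - (d.r : Int) * d.r
def inv (d : Dk) : Dk :=
  ⟨(d.x * (S2 : Int)) / den d, (-d.y * (S2 : Int)) / den d, (d.r * S2) / (den d).toNat + 3⟩

def omc : Int := 1437852402
def rhoc : Int := 11618179439
def zD : Dk := ⟨0, -rhoc, 1000⟩
/-- enclosure of `a_k` -/
def aD (l : Nat) (lam : Dk) (k : Nat) : Dk :=
  ⟨lam.x + ((l * H + k * S : Nat) : Int), lam.y - omc, lam.r + 1000⟩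
def bI (l : Nat) : Int := (((l + 6) * S : Nat) : Int)

def stepK (l : Nat) (a iK : Dk) : Dk :=
  let am := addi a (-(S : Int))
  let ab := addi a (-(bI l))
  sub (addi (add zD (add am am)) (-(bI l))) (mul (mul am ab) iK)

/-- `run n iK`: `iK` encloses `1/K_{n+3}`; the result encloses `K_3` -/
def run (l : Nat) (lam : Dk) : Nat → Dk → Option Dk
  | 0, _ => none
  | 1, iK => some (stepK l (aD l lam 4) iK)
  | (m + 2), iK =>
    let K := stepK l (aD l lam (m + 5)) iK
    bif decide (0 < den K) then run l lam (m + 1) (inv K) else none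

def start (M : Nat) : Dk := ⟨((S / (2 * (M - 4)) : Nat) : Int), 0, S / (2 * (M - 4)) + 2⟩

def uyD (l : Nat) (lam K : Dk) : Dk × Dk :=
  let a3 := aD l lam 3
  let a2 := aD l lam 2
  let a1 := aD l lam 1
  let y2 := mul (addi a3 (-(S : Int))) (sub K (addi a3 (-(bI l))))
  let u1 := add (mul (add (addi a2 (-(bI l))) zD) K) y2
  let y1 := mul (addi a2 (-(S : Int))) (add y2 (mul zD K))
  let u0 := add (mul (add (addi a1 (-(bI l))) zD) u1) y1
  let y0 := mul (addi a1 (-(S : Int))) (add y1 (mul zD u1))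
  (u0, y0)

def PPd (l : Nat) (lam : Dk) : Dk :=
  let p := addi lam (S : Int)
  let p2 := mul p p
  match l with
  | 0 => mul (mul lam (addi lam (-(S : Int)))) (mul p2 p2)
  | 1 => mul (addi lam (-(H : Int))) (mul (mul p2 p2) p)
  | _ =>
    let q := addi lam ((S + H : Nat) : Int)
    let q2 := mul q q
    mul p2 (mul q2 q2)

def box (l M : Nat) (lam : Dk) : Bool :=
  match run l lam (M - 3) (start M), run l (cj lam) (M - 3) (start M) with
  | some K, some K' =>
    let p := uyD l lam K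
    let p' := uyD l (cj lam) K'
    let W := add (mul p.2 (cj p'.1)) (mul (cj p'.2) p.1)
    let v := mul W (cj (PPd l lam))
    decide ((v.r : Int) < v.x)
  | _, _ => false

/-- vertical side: half-widths -/
def vseg (l M : Nat) (x : Int) : Int → List Nat → Bool
  | _, [] => true
  | y, w :: ws => bif box l M ⟨x, y + w, w + 1⟩ then vseg l M x (y + 2 * w) ws else false

/-- horizontal side: half-widths -/
def hseg (l M : Nat) (y : Int) : Int → List Nat → Bool
  | _, [] => true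
  | x, w :: ws => bif box l M ⟨x + w, y, w + 1⟩ then hseg l M y (x + 2 * w) ws else false

/-! ### Soundness -/

noncomputable def ctr (d : Dk) : ℂ := (d.x : ℂ) + (d.y : ℂ) * I

def Mem (w : ℂ) (d : Dk) : Prop := ‖w * (S : ℂ) - ctr d‖ ≤ (d.r : ℝ)

theorem S_pos : (0 : ℝ) < (S : ℝ) := by norm_num [S]
theorem S_ne : (S : ℂ) ≠ 0 := by norm_num [S]
theorem norm_S : ‖(S : ℂ)‖ = (S : ℝ) := by simp

theorem norm_ctr_sq (d : Dk) : ‖ctr d‖ ^ 2 = (d.x : ℝ) ^ 2 + (d.y : ℝ) ^ 2 := by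
  rw [← Complex.normSq_eq_norm_sq, normSq_apply]
  simp [ctr]
  ring

theorem nb_le (d : Dk) : ‖ctr d‖ ≤ (nb d.x d.y : ℝ) := by
  apply le_of_sq_le_sq _ (Nat.cast_nonneg _)
  rw [norm_ctr_sq]
  have hx : ((d.x.natAbs : ℝ)) ^ 2 = (d.x : ℝ) ^ 2 := by
    rw [Nat.cast_natAbs]; push_cast; exact sq_abs _
  have hy : ((d.y.natAbs : ℝ)) ^ 2 = (d.y : ℝ) ^ 2 := by
    rw [Nat.cast_natAbs]; push_cast; exact sq_abs _
  rw [← hx, ← hy]
  unfold nb
  set a := d.x.natAbs
  set b := d.y.natAbs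
  have half : ∀ c : ℕ, (c : ℝ) / 2 ≤ ((c + 1) / 2 : ℕ) := by
    intro c
    have : c ≤ 2 * ((c + 1) / 2) := by omega
    have : (c : ℝ) ≤ 2 * (((c + 1) / 2 : ℕ) : ℝ) := by exact_mod_cast this
    linarith
  have ha0 : (0 : ℝ) ≤ a := Nat.cast_nonneg _
  have hb0 : (0 : ℝ) ≤ b := Nat.cast_nonneg _
  by_cases hab : a ≤ b
  · have h1 : Nat.ble a b = true := Nat.ble_eq.mpr hab
    simp only [h1, cond_true]
    have h2 := half a
    have h3 : (a : ℝ) ≤ b := by exact_mod_cast hab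
    push_cast
    nlinarith
  · have h1 : Nat.ble a b = false := by
      rw [← Bool.not_eq_true, Nat.ble_eq]; exact hab
    simp only [h1, cond_false]
    have h2 := half b
    have h3 : (b : ℝ) ≤ a := by
      have : b ≤ a := by omega
      exact_mod_cast this
    push_cast
    nlinarith

theorem floor_err (a b : Int) (hb : 0 < b) : |((a / b : Int) : ℝ) - (a : ℝ) / b| ≤ 1 := by
  have hb' : (0 : ℝ) < b := by exact_mod_cast hb
  have h1 : (a / b) * b ≤ a := Int.ediv_mul_le a hb.ne'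
  have h2 : a < (a / b + 1) * b := Int.lt_ediv_add_one_mul_self a hb
  have h1' : ((a / b : Int) : ℝ) * b ≤ a := by exact_mod_cast h1
  have h2' : (a : ℝ) < (((a / b : Int) : ℝ) + 1) * b := by exact_mod_cast h2
  rw [abs_le]
  constructor
  · have : (a : ℝ) / b ≤ ((a / b : Int) : ℝ) + 1 := by
      rw [div_le_iff₀ hb']; exact h2'.le
    linarith
  · have : ((a / b : Int) : ℝ) ≤ (a : ℝ) / b := by
      rw [le_div_iff₀ hb']; exact h1'
    linarith

theorem ctr_round (a c b : Int) (hb : 0 < b) :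
    ‖(((a : ℂ) + (c : ℂ) * I) / (b : ℂ)) - (((a / b : Int) : ℂ) + ((c / b : Int) : ℂ) * I)‖ ≤ 2 := by
  have e : (((a : ℂ) + (c : ℂ) * I) / (b : ℂ)) - (((a / b : Int) : ℂ) + ((c / b : Int) : ℂ) * I)
      = -(((((a / b : Int) : ℝ) - (a : ℝ) / b : ℝ) : ℂ)) +
        (-((((c / b : Int) : ℝ) - (c : ℝ) / b : ℝ) : ℂ)) * I := by
    push_cast
    ring
  rw [e]
  refine (norm_add_le _ _).trans ?_
  rw [norm_mul, norm_neg, norm_neg, Complex.norm_I, mul_one, Complex.norm_real, Complex.norm_real,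
    Real.norm_eq_abs, Real.norm_eq_abs]
  have h1 := floor_err a b hb
  have h2 := floor_err c b hb
  linarith

theorem nat_floor (a b : ℕ) (hb : 0 < b) : (a : ℝ) / b ≤ ((a / b : ℕ) : ℝ) + 1 := by
  have hb' : (0 : ℝ) < b := by exact_mod_cast hb
  rw [div_le_iff₀ hb']
  have : a < (a / b + 1) * b := by
    have := Nat.lt_div_mul_add (a := a) hb
    rw [add_mul, one_mul]; exact this
  exact_mod_cast this.le

theorem mem_add {w v : ℂ} {d e : Dk} (h1 : Mem w d) (h2 : Mem v e) : Mem (w + v) (add d e) := by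
  unfold Mem at *
  have e1 : (w + v) * (S : ℂ) - ctr (add d e) = (w * S - ctr d) + (v * S - ctr e) := by
    simp only [ctr, add]; push_cast; ring
  rw [e1]
  refine (norm_add_le _ _).trans ?_
  simp only [add]; push_cast
  linarith

theorem mem_sub {w v : ℂ} {d e : Dk} (h1 : Mem w d) (h2 : Mem v e) : Mem (w - v) (sub d e) := by
  unfold Mem at *
  have e1 : (w - v) * (S : ℂ) - ctr (sub d e) = (w * S - ctr d) - (v * S - ctr e) := by
    simp only [ctr, sub]; push_cast; ring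
  rw [e1]
  refine (norm_sub_le _ _).trans ?_
  simp only [sub]; push_cast
  linarith

theorem mem_cj {w : ℂ} {d : Dk} (h1 : Mem w d) : Mem (conj w) (cj d) := by
  unfold Mem at *
  have e1 : conj w * (S : ℂ) - ctr (cj d) = conj (w * S - ctr d) := by
    simp only [ctr, cj, map_sub, map_mul, map_add, conj_I, map_natCast, map_intCast]
    push_cast; ring
  rw [e1, Complex.norm_conj]
  exact h1

theorem mem_addi {w : ℂ} {d : Dk} (n : Int) (h1 : Mem w d) : Mem (w + (n : ℂ) / S) (addi d n) := by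
  unfold Mem at *
  have e1 : (w + (n : ℂ) / S) * (S : ℂ) - ctr (addi d n) = w * S - ctr d := by
    have := S_ne
    simp only [ctr, addi]; push_cast; field_simp; ring
  rw [e1]
  exact h1

theorem mem_mul {w v : ℂ} {d e : Dk} (h1 : Mem w d) (h2 : Mem v e) : Mem (w * v) (mul d e) := by
  unfold Mem at *
  set α := w * (S : ℂ) - ctr d with hα
  set β := v * (S : ℂ) - ctr e with hβ
  have hS := S_ne
  have hSp := S_pos
  have e0 : w * v * (S : ℂ) = (ctr d * ctr e) / S + (ctr d * β + ctr e * α + α * β) / S := by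
    have : (w * S) * (v * S) = (ctr d + α) * (ctr e + β) := by rw [hα, hβ]; ring
    field_simp
    linear_combination this
  have e1 : ctr d * ctr e = ((d.x * e.x - d.y * e.y : Int) : ℂ) + ((d.x * e.y + d.y * e.x : Int) : ℂ) * I := by
    have hI : I * I = -1 := Complex.I_mul_I
    simp only [ctr]; push_cast
    linear_combination ((d.y : ℂ) * e.y) * hI
  have e2 : w * v * (S : ℂ) - ctr (mul d e) =
      (ctr d * ctr e / S - ctr (mul d e)) + (ctr d * β + ctr e * α + α * β) / S := by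
    rw [e0]; ring
  rw [e2]
  have hr := ctr_round (d.x * e.x - d.y * e.y) (d.x * e.y + d.y * e.x) (S : Int) (by norm_num [S])
  have hr' : ‖ctr d * ctr e / S - ctr (mul d e)‖ ≤ 2 := by
    rw [e1]
    simp only [ctr, mul]
    have : ((S : Int) : ℂ) = (S : ℂ) := by push_cast; rfl
    rw [this] at hr
    exact hr
  set R : ℕ := nb d.x d.y * e.r + nb e.x e.y * d.r + d.r * e.r with hR
  have hbd : ‖(ctr d * β + ctr e * α + α * β) / (S : ℂ)‖ ≤ (R : ℝ) / S := by
    rw [norm_div, norm_S]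
    apply div_le_div_of_nonneg_right _ hSp.le
    have n1 := nb_le d
    have n2 := nb_le e
    calc ‖ctr d * β + ctr e * α + α * β‖ ≤ ‖ctr d * β‖ + ‖ctr e * α‖ + ‖α * β‖ := norm_add₃_le
      _ = ‖ctr d‖ * ‖β‖ + ‖ctr e‖ * ‖α‖ + ‖α‖ * ‖β‖ := by simp only [norm_mul]
      _ ≤ (nb d.x d.y : ℝ) * e.r + (nb e.x e.y : ℝ) * d.r + (d.r : ℝ) * e.r := by gcongr
      _ = (R : ℝ) := by rw [hR]; push_cast; ring
  have hfl := nat_floor R S (by norm_num [S])
  have hrad : (((mul d e).r : ℕ) : ℝ) = ((R / S : ℕ) : ℝ) + 3 := by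
    simp only [mul]; push_cast; rfl
  rw [hrad]
  refine (norm_add_le _ _).trans ?_
  linarith

theorem mem_inv {w : ℂ} {d : Dk} (hd : 0 < den d) (h1 : Mem w d) : w ≠ 0 ∧ Mem w⁻¹ (inv d) := by
  unfold Mem at *
  have hSp := S_pos
  have hden : ((den d : Int) : ℝ) = ‖ctr d‖ ^ 2 - (d.r : ℝ) ^ 2 := by
    rw [norm_ctr_sq]; simp only [den]; push_cast; ring
  have hdenp : (0 : ℝ) < (den d : Int) := by exact_mod_cast hd
  have hlt : ((d.r : ℝ)) ^ 2 < ‖ctr d‖ ^ 2 := by rw [hden] at hdenp; linarith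
  obtain ⟨h2, h3⟩ := Disk.inv_disk (Nat.cast_nonneg d.r) h1 hlt
  rw [← hden] at h3
  have hw : w ≠ 0 := by
    rintro rfl; simp at h2
  refine ⟨hw, ?_⟩
  have hS := S_ne
  set N : Int := den d with hN
  have hNc : ((N : Int) : ℂ) ≠ 0 := by exact_mod_cast hd.ne'
  have hS2 : ((S2 : ℕ) : ℂ) = (S : ℂ) * S := by norm_num [S, S2]
  have e0 : w⁻¹ * (S : ℂ) - ctr (inv d) =
      (S2 : ℂ) * ((w * S)⁻¹ - conj (ctr d) / (N : ℂ)) +
      ((S2 : ℂ) * conj (ctr d) / (N : ℂ) - ctr (inv d)) := by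
    rw [hS2]; field_simp; ring
  rw [e0]
  have hr := ctr_round (d.x * (S2 : Int)) (-d.y * (S2 : Int)) N hd
  have hr' : ‖(S2 : ℂ) * conj (ctr d) / (N : ℂ) - ctr (inv d)‖ ≤ 2 := by
    have e1 : (S2 : ℂ) * conj (ctr d) / (N : ℂ) =
        (((d.x * (S2 : Int) : Int) : ℂ) + ((-d.y * (S2 : Int) : Int) : ℂ) * I) / (N : ℂ) := by
      simp only [ctr, map_add, map_mul, conj_I, map_intCast]
      push_cast
      ring
    rw [e1]
    simp only [ctr, inv]
    exact hr
  have h3' : ‖(S2 : ℂ) * ((w * S)⁻¹ - conj (ctr d) / (N : ℂ))‖ ≤ (d.r * S2 : ℝ) / N := by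
    rw [norm_mul]
    have : ‖(S2 : ℂ)‖ = (S2 : ℝ) := by simp
    rw [this]
    have hcast : ((N : ℝ) : ℂ) = (N : ℂ) := by push_cast; rfl
    rw [hcast] at h3
    calc (S2 : ℝ) * _ ≤ (S2 : ℝ) * ((d.r : ℝ) / N) := by gcongr
      _ = _ := by ring
  have hNt : ((N.toNat : ℕ) : ℝ) = (N : ℝ) := by
    have : ((N.toNat : ℕ) : Int) = N := Int.toNat_of_nonneg hd.le
    exact_mod_cast congrArg (fun z : Int => (z : ℝ)) this
  have hfl := nat_floor (d.r * S2) N.toNat (by
    have : 0 < N := hd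
    omega)
  rw [hNt] at hfl
  have hrad : (((inv d).r : ℕ) : ℝ) = ((d.r * S2 / N.toNat : ℕ) : ℝ) + 3 := by
    simp only [inv]; push_cast; rfl
  rw [hrad]
  refine (norm_add_le _ _).trans ?_
  push_cast at hfl
  linarith

end Crest.Agent.R086.Fx
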