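import Mathlib
import Crest.Agent.R086.FxL0
import Crest.Agent.R086.FxL1
import Crest.Agent.R086.FxL2
import Crest.Agent.R086.A4Main2

/-!
Row 86, Part A4 (helper444): the three numeric certificates of 371's `A4.Certs`.
-/

set_option autoImplicit false

namespace Crest.Agent.R086.Fx

theorem certs {om rho : ℝ} (ho1 : (0.3347760 : ℝ) ≤ om) (ho2 : om ≤ 0.3347762)
    (hr1 : (2.7050680 : ℝ) ≤ rho) (hr2 : rho ≤ 2.7050684) : A4.Certs om rho where
  c0 := ⟨10, by norm_num, cert0 ho1 ho2 hr1 hr2⟩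
  c1 := ⟨10, by norm_num, cert1 ho1 ho2 hr1 hr2⟩
  c2 := ⟨10, by norm_num, cert2 ho1 ho2 hr1 hr2⟩

end Crest.Agent.R086.Fx
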