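import Crest.Agent.R086.TorA

/-!
Row 86, part D, torus side (helper327), file B.
Synthesis `synth c x = ∑' k, c k * ek k x`, derivatives, uniqueness of coefficients.
-/

set_option autoImplicit false

noncomputable section

open scoped BigOperators ComplexConjugate ContDiff ENNReal
open Filter MeasureTheory Complex

namespace Crest.Agent.R086.Tor

/-- normalised measure on `ℝ / ℤ`. -/
local instance : MeasureSpace UnitAddCircle := ⟨AddCircle.haarAddCircle⟩
local instance : Measure.IsAddHaarMeasure (volume : Measure UnitAddCircle) :=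
  inferInstanceAs (Measure.IsAddHaarMeasure AddCircle.haarAddCircle)
local instance : IsProbabilityMeasure (volume : Measure UnitAddCircle) :=
  inferInstanceAs (IsProbabilityMeasure AddCircle.haarAddCircle)

variable {d : ℕ}

/-! ### summability of the weight -/

lemma summable_prod {g : ℤ → ℝ} (hg0 : ∀ m, 0 ≤ g m) (hg : Summable g) :
    ∀ n : ℕ, Summable fun k : Fin n → ℤ => ∏ i, g (k i) := by
  intro n
  induction n with
  | zero => exact summable_of_hasFiniteSupport (Set.toFinite _)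
  | succ n ih =>
    rw [← (Fin.consEquiv fun _ => ℤ).summable_iff]
    have h := hg.mul_of_nonneg ih hg0 (fun k => Finset.prod_nonneg fun i _ => hg0 _)
    refine h.congr fun p => ?_
    simp [Fin.prod_univ_succ, Fin.consEquiv]

lemma summable_one_add_abs_inv_sq : Summable fun m : ℤ => ((1 + |(m : ℝ)|) ^ 2)⁻¹ := by
  have h1 : Summable fun m : ℕ => ((1 + (m : ℝ)) ^ 2)⁻¹ := by
    have := (summable_nat_add_iff 1).2 (Real.summable_nat_pow_inv.2 (by norm_num : 1 < 2))
    refine this.congr fun m => ?_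
    push_cast
    rw [add_comm]
  refine Summable.of_nat_of_neg (h1.congr fun m => ?_) (h1.congr fun m => ?_)
  · simp
  · simp

lemma prod_le_wt_pow (k : Fin d → ℤ) : ∏ i, (1 + |(k i : ℝ)|) ^ 2 ≤ wt k ^ (2 * d) := by
  have h : ∀ i ∈ (Finset.univ : Finset (Fin d)), (1 + |(k i : ℝ)|) ^ 2 ≤ wt k ^ 2 := by
    intro i _
    refine pow_le_pow_left₀ (by positivity) ?_ 2
    unfold wt
    have := abs_le_wt k i
    linarith
  calc ∏ i, (1 + |(k i : ℝ)|) ^ 2 ≤ ∏ _i : Fin d, wt k ^ 2 :=
        Finset.prod_le_prod (fun i _ => by positivity) h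
    _ = wt k ^ (2 * d) := by simp [← pow_mul]

/-- `∑ (1+|k|)^(-M) < ∞` for `M ≥ 2 d`. -/
lemma summable_wt_inv {M : ℕ} (hM : 2 * d ≤ M) : Summable fun k : Fin d → ℤ => (wt k ^ M)⁻¹ := by
  have h := summable_prod (fun m => by positivity) summable_one_add_abs_inv_sq d
  refine Summable.of_nonneg_of_le (fun k => by have := wt_pos k; positivity) (fun k => ?_) h
  have h1 := prod_le_wt_pow k
  have h2 : wt k ^ (2 * d) ≤ wt k ^ M := pow_le_pow_right₀ (one_le_wt k) hM
  rw [Finset.prod_inv_distrib]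
  exact inv_anti₀ (Finset.prod_pos fun i _ => by positivity) (h1.trans h2)

/-! ### derivatives of the characters -/

/-- the linear form `h ↦ i k·h`. -/
def lk (k : Fin d → ℤ) : EuclideanSpace ℝ (Fin d) →L[ℝ] ℂ :=
  (I • Complex.ofRealCLM).comp (innerSL ℝ (kv k))

@[simp] lemma lk_apply (k : Fin d → ℤ) (h : EuclideanSpace ℝ (Fin d)) :
    lk k h = I * ((inner ℝ (kv k) h : ℝ) : ℂ) := by
  simp [lk]

lemma norm_lk_le (k : Fin d → ℤ) : ‖lk k‖ ≤ ‖kv k‖ := by
  refine ContinuousLinearMap.opNorm_le_bound _ (norm_nonneg _) fun h => ?_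
  rw [lk_apply, norm_mul, Complex.norm_I, one_mul, Complex.norm_real]
  exact norm_inner_le_norm _ _

lemma hasFDerivAt_ek (k : Fin d → ℤ) (x : EuclideanSpace ℝ (Fin d)) :
    HasFDerivAt (ek k) (ek k x • lk k) x := by
  have h : HasFDerivAt (fun y => lk k y) (lk k) x := (lk k).hasFDerivAt
  have h2 := h.cexp
  have e : (fun y => Complex.exp (lk k y)) = ek k := by
    funext y; rw [lk_apply]; rfl
  have e2 : Complex.exp (lk k x) = ek k x := congrFun e x
  rw [e, e2] at h2
  exact h2

lemma fderiv_ek (k : Fin d → ℤ) : fderiv ℝ (ek (d := d) k) = fun x => ek k x • lk k := by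
  funext x; exact (hasFDerivAt_ek k x).fderiv

/-- `z ↦ z • L` as a continuous real-linear map. -/
def smulL (L : EuclideanSpace ℝ (Fin d) →L[ℝ] ℂ) :
    ℂ →L[ℝ] (EuclideanSpace ℝ (Fin d) →L[ℝ] ℂ) :=
  (ContinuousLinearMap.toSpanSingleton ℂ L).restrictScalars ℝ

lemma norm_smulL (L : EuclideanSpace ℝ (Fin d) →L[ℝ] ℂ) : ‖smulL L‖ ≤ ‖L‖ := by
  refine ContinuousLinearMap.opNorm_le_bound _ (norm_nonneg _) fun z => ?_
  show ‖z • L‖ ≤ _
  rw [norm_smul, mul_comm]

lemma norm_iteratedFDeriv_ek (k : Fin d → ℤ) (m : ℕ) (x : EuclideanSpace ℝ (Fin d)) :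
    ‖iteratedFDeriv ℝ m (ek k) x‖ ≤ ‖kv k‖ ^ m := by
  induction m generalizing x with
  | zero => simp
  | succ m ih =>
    rw [← norm_iteratedFDeriv_fderiv, fderiv_ek]
    have h : (fun x => ek k x • lk k) = (smulL (lk k)) ∘ (ek k) := by
      funext y; rfl
    rw [h]
    refine ((smulL (lk k)).norm_iteratedFDeriv_comp_left (n := m)
      ((contDiff_ek k).contDiffAt.of_le (by exact_mod_cast le_top)) le_rfl).trans ?_
    calc ‖smulL (lk k)‖ * ‖iteratedFDeriv ℝ m (ek k) x‖ ≤ ‖kv k‖ * ‖kv k‖ ^ m := by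
          gcongr
          · exact (norm_smulL _).trans (norm_lk_le k)
          · exact ih x
      _ = ‖kv k‖ ^ (m + 1) := by ring

lemma iteratedFDeriv_two_ek (k : Fin d → ℤ) (x : EuclideanSpace ℝ (Fin d))
    (e f : EuclideanSpace ℝ (Fin d)) :
    iteratedFDeriv ℝ 2 (ek k) x ![e, f] = - (((inner ℝ (kv k) e * inner ℝ (kv k) f : ℝ)) : ℂ) * ek k x := by
  rw [iteratedFDeriv_two_apply, fderiv_ek]
  have h : HasFDerivAt (fun x => ek k x • lk k) (((smulL (lk k))).comp (ek k x • lk k)) x :=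
    (smulL (lk k)).hasFDerivAt.comp x (hasFDerivAt_ek k x)
  rw [h.fderiv]
  simp only [Matrix.cons_val_zero, Matrix.cons_val_one]
  show (((ek k x • lk k) e) • lk k) f = _
  simp only [smul_apply, lk_apply, smul_eq_mul]
  push_cast
  ring_nf
  rw [Complex.I_sq]
  ring

/-! ### synthesis -/

/-- the function with Fourier coefficients `c`. -/
def synth (c : (Fin d → ℤ) → ℂ) (x : EuclideanSpace ℝ (Fin d)) : ℂ := ∑' k, c k * ek k x

lemma summable_term {c : (Fin d → ℤ) → ℂ} (hc : Summable fun k => ‖c k‖)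
    (x : EuclideanSpace ℝ (Fin d)) : Summable fun k => c k * ek k x := by
  refine Summable.of_norm (hc.congr fun k => ?_)
  rw [norm_mul, norm_ek, mul_one]

lemma synth_per (c : (Fin d → ℤ) → ℂ) : Per (synth c) := by
  intro x i
  unfold synth
  refine tsum_congr fun k => ?_
  rw [ek_per k x i]

lemma norm_synth_le {c : (Fin d → ℤ) → ℂ} (hc : Summable fun k => ‖c k‖)
    (x : EuclideanSpace ℝ (Fin d)) : ‖synth c x‖ ≤ ∑' k, ‖c k‖ := by
  unfold synth
  have h : ∀ k, ‖c k * ek k x‖ = ‖c k‖ := fun k => by rw [norm_mul, norm_ek, mul_one]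
  have := norm_tsum_le_tsum_norm (f := fun k => c k * ek k x) (by simpa only [h] using hc)
  simpa only [h] using this

lemma weight_mono {c : (Fin d → ℤ) → ℂ} {M N : ℕ} (hMN : M ≤ N)
    (hc : Summable fun k => wt k ^ N * ‖c k‖) : Summable fun k => wt k ^ M * ‖c k‖ := by
  refine Summable.of_nonneg_of_le (fun k => by have := wt_pos k; positivity) (fun k => ?_) hc
  have := pow_le_pow_right₀ (one_le_wt k) hMN
  gcongr

lemma weight_zero {c : (Fin d → ℤ) → ℂ} {N : ℕ}
    (hc : Summable fun k => wt k ^ N * ‖c k‖) : Summable fun k => ‖c k‖ := by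
  have := weight_mono (Nat.zero_le N) hc
  simpa using this

lemma kv_le_wt (k : Fin d → ℤ) : ‖kv k‖ ≤ wt k := by unfold wt; linarith

lemma contDiff_term (c : (Fin d → ℤ) → ℂ) (N : ℕ∞) (k : Fin d → ℤ) :
    ContDiff ℝ N (fun x => c k * ek k x) :=
  contDiff_const.mul ((contDiff_ek k).of_le (by exact_mod_cast le_top))

lemma norm_iteratedFDeriv_term (c : (Fin d → ℤ) → ℂ) (m : ℕ) (k : Fin d → ℤ)
    (x : EuclideanSpace ℝ (Fin d)) :
    ‖iteratedFDeriv ℝ m (fun x => c k * ek k x) x‖ ≤ wt k ^ m * ‖c k‖ := by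
  have h : (fun x => c k * ek k x) =
      (ContinuousLinearMap.restrictScalars ℝ (ContinuousLinearMap.mul ℂ ℂ (c k))) ∘ (ek k) := by
    funext y; rfl
  rw [h]
  refine ((ContinuousLinearMap.restrictScalars ℝ
    (ContinuousLinearMap.mul ℂ ℂ (c k))).norm_iteratedFDeriv_comp_left (n := m)
      ((contDiff_ek k).contDiffAt.of_le (by exact_mod_cast le_top)) le_rfl).trans ?_
  have h1 : ‖ContinuousLinearMap.restrictScalars ℝ (ContinuousLinearMap.mul ℂ ℂ (c k))‖ ≤ ‖c k‖ := by
    refine ContinuousLinearMap.opNorm_le_bound _ (norm_nonneg _) fun z => ?_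
    show ‖c k * z‖ ≤ _
    rw [norm_mul]
  calc _ ≤ ‖c k‖ * ‖kv k‖ ^ m := by
        gcongr
        exact norm_iteratedFDeriv_ek k m x
    _ ≤ ‖c k‖ * wt k ^ m := by
        gcongr
        exact kv_le_wt k
    _ = _ := by ring

/-- weighted summability gives `C^N`. -/
theorem contDiff_synth {c : (Fin d → ℤ) → ℂ} {N : ℕ}
    (hc : Summable fun k => wt k ^ N * ‖c k‖) : ContDiff ℝ N (synth c) := by
  unfold synth
  have h := contDiff_tsum (𝕜 := ℝ) (f := fun k x => c k * ek k x) (N := (N : ℕ∞))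
    (v := fun m k => wt k ^ m * ‖c k‖) (fun k => contDiff_term c _ k)
    (fun m hm => weight_mono (by exact_mod_cast hm) hc)
    (fun m k x _ => norm_iteratedFDeriv_term c m k x)
  exact h

theorem contDiff_synth_infty {c : (Fin d → ℤ) → ℂ}
    (hc : ∀ N : ℕ, Summable fun k => wt k ^ N * ‖c k‖) : ContDiff ℝ ∞ (synth c) := by
  rw [contDiff_infty]
  exact fun n => contDiff_synth (hc n)

theorem norm_iteratedFDeriv_synth {c : (Fin d → ℤ) → ℂ} {m : ℕ}
    (hc : Summable fun k => wt k ^ m * ‖c k‖) (x : EuclideanSpace ℝ (Fin d)) :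
    ‖iteratedFDeriv ℝ m (synth c) x‖ ≤ ∑' k, wt k ^ m * ‖c k‖ := by
  unfold synth
  rw [iteratedFDeriv_tsum_apply (𝕜 := ℝ) (f := fun k x => c k * ek k x) (N := (m : ℕ∞))
    (v := fun m k => wt k ^ m * ‖c k‖) (fun k => contDiff_term c _ k)
    (fun j hj => weight_mono (by exact_mod_cast hj) hc)
    (fun j k x _ => norm_iteratedFDeriv_term c j k x) le_rfl x]
  have hs : Summable fun k => ‖iteratedFDeriv ℝ m (fun x => c k * ek k x) x‖ :=
    Summable.of_nonneg_of_le (fun k => norm_nonneg _) (fun k => norm_iteratedFDeriv_term c m k x) hc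
  exact (norm_tsum_le_tsum_norm hs).trans
    (hs.tsum_le_tsum (fun k => norm_iteratedFDeriv_term c m k x) hc)

/-- second derivatives of the synthesis. -/
theorem iteratedFDeriv_two_synth {c : (Fin d → ℤ) → ℂ}
    (hc : Summable fun k => wt k ^ 2 * ‖c k‖) (x e f : EuclideanSpace ℝ (Fin d)) :
    iteratedFDeriv ℝ 2 (synth c) x ![e, f] =
      synth (fun k => - (((inner ℝ (kv k) e * inner ℝ (kv k) f : ℝ)) : ℂ) * c k) x := by
  unfold synth
  rw [iteratedFDeriv_tsum_apply (𝕜 := ℝ) (f := fun k x => c k * ek k x) (N := ((2 : ℕ) : ℕ∞))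
    (v := fun m k => wt k ^ m * ‖c k‖) (fun k => contDiff_term c _ k)
    (fun j hj => weight_mono (by exact_mod_cast hj) hc)
    (fun j k x _ => norm_iteratedFDeriv_term c j k x) le_rfl x]
  have hs : Summable fun k => iteratedFDeriv ℝ 2 (fun x => c k * ek k x) x :=
    Summable.of_norm (Summable.of_nonneg_of_le (fun k => norm_nonneg _)
      (fun k => norm_iteratedFDeriv_term c 2 k x) hc)
  have h1 := (ContinuousMultilinearMap.apply ℝ (fun _ : Fin 2 => EuclideanSpace ℝ (Fin d)) ℂ
    ![e, f]).map_tsum hs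
  rw [ContinuousMultilinearMap.apply_apply] at h1
  rw [h1]
  refine tsum_congr fun k => ?_
  rw [ContinuousMultilinearMap.apply_apply]
  have h2 : (fun x => c k * ek k x) = c k • ek (d := d) k := by funext y; rfl
  rw [h2, iteratedFDeriv_const_smul_apply
    ((contDiff_infty.1 (contDiff_ek k) 2).contDiffAt)]
  rw [smul_apply, iteratedFDeriv_two_ek, smul_eq_mul]
  ring

/-! ### coefficients of the synthesis -/

lemma continuous_synth {c : (Fin d → ℤ) → ℂ} (hc : Summable fun k => ‖c k‖) :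
    Continuous (synth c) := by
  have := contDiff_synth (N := 0) (c := c) (by simpa using hc)
  exact this.continuous

lemma cf_ek (l k : Fin d → ℤ) : cf (ek l) k = if l = k then 1 else 0 := by
  have h1 : cf (ek l) k = UnitAddTorus.mFourierCoeff (⇑(UnitAddTorus.mFourier l)) k := by
    unfold cf
    have : tf (ek l) = ⇑(UnitAddTorus.mFourier l) := funext (tf_ek l)
    rw [this]
  rw [h1]
  have h := UnitAddTorus.mFourierBasis_repr (UnitAddTorus.mFourierBasis (d := Fin d) l) k
  rw [HilbertBasis.repr_self, UnitAddTorus.coe_mFourierBasis,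
    UnitAddTorus.mFourierCoeff_toLp] at h
  rw [← h]
  by_cases hm : l = k
  · subst hm; simp
  · simp [hm, Ne.symm hm]

lemma cf_synth {c : (Fin d → ℤ) → ℂ} (hc : Summable fun k => ‖c k‖) (k : Fin d → ℤ) :
    cf (synth c) k = c k := by
  rw [cf_eq_integral (synth_per c)]
  have h1 : ∀ x : Fin d → ℝ, ek (-k) (sc x) * synth c (sc x) =
      ∑' l, c l * (ek (-k) (sc x) * ek l (sc x)) := by
    intro x
    unfold synth
    rw [← tsum_mul_left]
    refine tsum_congr fun l => by ring
  simp_rw [h1]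
  have hcont : ∀ l, Continuous fun x : Fin d → ℝ => c l * (ek (-k) (sc x) * ek l (sc x)) := by
    intro l
    exact continuous_const.mul (((continuous_ek _).comp continuous_sc).mul
      ((continuous_ek _).comp continuous_sc))
  have hn : ∀ l x, ‖c l * (ek (-k) (sc x) * ek l (sc x))‖ = ‖c l‖ := by
    intro l x
    rw [norm_mul, norm_mul, norm_ek, norm_ek]; ring
  rw [← integral_tsum_of_summable_integral_norm]
  · have h2 : ∀ l, ∫ x in ubox (d := d), c l * (ek (-k) (sc x) * ek l (sc x)) =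
        c l * cf (ek l) k := by
      intro l
      rw [cf_eq_integral (ek_per l), ← integral_const_mul]
    simp_rw [h2, cf_ek]
    rw [tsum_eq_single k]
    · simp
    · intro l hl; simp [hl]
  · intro l
    refine Integrable.of_bound (hcont l).aestronglyMeasurable ‖c l‖
      (Eventually.of_forall fun x => (hn l x).le)
  · have h3 : ∀ l, ∫ x in ubox (d := d), ‖c l * (ek (-k) (sc x) * ek l (sc x))‖ = ‖c l‖ := by
      intro l
      simp_rw [hn]
      simp
    simpa only [h3] using hc

/-- periodic continuous functions with summable coefficients are the synthesis of them. -/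
lemma synth_cf {v : EuclideanSpace ℝ (Fin d) → ℂ} (hv : Per v) (hc : Continuous v)
    (hs : Summable (cf v)) : synth (cf v) = v := by
  funext x
  exact (hasSum_cf hv hc hs x).tsum_eq

end Crest.Agent.R086.Tor
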