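import Crest.Agent.R086.TorDefs
import Crest.Agent.R086.TorB

/-!
Row 86 (S0114), node GrowStep (helper263), file A: closure of smooth periodic functions, linearity of
the Fourier coefficients, summability, nonlinear estimates in the two Wiener norms.
-/

set_option autoImplicit false

open MeasureTheory Complex Set
open scoped ContDiff Topology ComplexConjugate
open Crest.AnalysisR.PDE.NLS (IsSmoothPeriodic periodCell)

namespace Crest.Agent.R086.Grow

noncomputable section

/-! ### closure properties -/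

lemma sp_add {v w : R12 → ℂ} (hv : IsSmoothPeriodic v) (hw : IsSmoothPeriodic w) :
    IsSmoothPeriodic (fun x => v x + w x) :=
  ⟨hv.1.add hw.1, fun x i => by simp only [hv.2 x i, hw.2 x i]⟩

lemma sp_sub {v w : R12 → ℂ} (hv : IsSmoothPeriodic v) (hw : IsSmoothPeriodic w) :
    IsSmoothPeriodic (fun x => v x - w x) :=
  ⟨hv.1.sub hw.1, fun x i => by simp only [hv.2 x i, hw.2 x i]⟩

lemma sp_mul {v w : R12 → ℂ} (hv : IsSmoothPeriodic v) (hw : IsSmoothPeriodic w) :
    IsSmoothPeriodic (fun x => v x * w x) :=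
  ⟨hv.1.mul hw.1, fun x i => by simp only [hv.2 x i, hw.2 x i]⟩

lemma sp_const (c : ℂ) : IsSmoothPeriodic (fun _ : R12 => c) :=
  ⟨contDiff_const, fun _ _ => rfl⟩

lemma sp_smul {v : R12 → ℂ} (c : ℂ) (hv : IsSmoothPeriodic v) :
    IsSmoothPeriodic (fun x => c * v x) := sp_mul (sp_const c) hv

lemma sp_conj {v : R12 → ℂ} (hv : IsSmoothPeriodic v) :
    IsSmoothPeriodic (fun x => starRingEnd ℂ (v x)) :=
  ⟨(Complex.conjCLE.contDiff).comp hv.1, fun x i => by simp only [hv.2 x i]⟩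

lemma sp_cont {v : R12 → ℂ} (hv : IsSmoothPeriodic v) : Continuous v := hv.1.continuous

/-! ### Fourier coefficients are linear -/

lemma cell_subset : periodCell ⊆ Metric.closedBall (0 : R12) (Real.sqrt (12 * (2 * Real.pi) ^ 2)) := by
  intro x hx
  rw [mem_closedBall_zero_iff, EuclideanSpace.norm_eq]
  apply Real.sqrt_le_sqrt
  calc ∑ i, ‖x i‖ ^ 2 ≤ ∑ _i : Fin 12, (2 * Real.pi) ^ 2 := by
        apply Finset.sum_le_sum
        intro i _
        have h := hx i
        have h0 : 0 ≤ x i := h.1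
        rw [Real.norm_eq_abs, abs_of_nonneg h0]
        exact pow_le_pow_left₀ h0 h.2.le 2
    _ = 12 * (2 * Real.pi) ^ 2 := by simp

lemma int_cell {f : R12 → ℂ} (hf : Continuous f) : IntegrableOn f periodCell :=
  (hf.continuousOn.integrableOn_compact (isCompact_closedBall 0 _)).mono_set cell_subset

lemma cont_term {v : R12 → ℂ} (hv : Continuous v) (k : Z12) :
    Continuous fun x : R12 => v x * exp (-(I * ((inner ℝ (zv k) x : ℝ) : ℂ))) := by
  refine hv.mul (Complex.continuous_exp.comp ?_)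
  exact (continuous_const.mul (Complex.continuous_ofReal.comp
    (continuous_const.inner continuous_id))).neg

lemma cf_add {v w : R12 → ℂ} (hv : Continuous v) (hw : Continuous w) (k : Z12) :
    cf (fun x => v x + w x) k = cf v k + cf w k := by
  unfold cf
  rw [← mul_add, ← integral_add (int_cell (cont_term hv k)) (int_cell (cont_term hw k))]
  congr 2
  funext x
  ring

lemma cf_sub {v w : R12 → ℂ} (hv : Continuous v) (hw : Continuous w) (k : Z12) :
    cf (fun x => v x - w x) k = cf v k - cf w k := by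
  unfold cf
  rw [← mul_sub, ← integral_sub (int_cell (cont_term hv k)) (int_cell (cont_term hw k))]
  congr 2
  funext x
  ring

lemma cf_smul (c : ℂ) (v : R12 → ℂ) (k : Z12) :
    cf (fun x => c * v x) k = c * cf v k := by
  unfold cf
  have : (fun x : R12 => c * v x * exp (-(I * ((inner ℝ (zv k) x : ℝ) : ℂ))))
      = fun x : R12 => c * (v x * exp (-(I * ((inner ℝ (zv k) x : ℝ) : ℂ)))) := by
    funext x; ring
  rw [this, integral_const_mul]
  ring

/-! ### weights -/

lemma nk_nonneg (k : Z12) : 0 ≤ nk k := norm_nonneg _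

lemma one_add_nk_pos (k : Z12) : 0 < 1 + nk k := by linarith [nk_nonneg k]

lemma summable_inv24 : Summable fun k : Z12 => ((1 + nk k) ^ 24)⁻¹ := by
  have h := @Tor.summable_wt_inv 12 24 (by norm_num)
  exact h

lemma wn_nonneg (N : ℕ) {h : ℝ} (hh : 0 ≤ h) (v : R12 → ℂ) : 0 ≤ wn N h v :=
  tsum_nonneg fun k => by have := nk_nonneg k; positivity

lemma hi_nonneg (s : ℕ) {h : ℝ} (hh : 0 ≤ h) (v : R12 → ℂ) : 0 ≤ hi s h v :=
  tsum_nonneg fun k => by have := nk_nonneg k; positivity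

lemma l1_nonneg (v : R12 → ℂ) : 0 ≤ l1 v := tsum_nonneg fun _ => norm_nonneg _

lemma wn_zero (h : ℝ) (v : R12 → ℂ) : wn 0 h v = l1 v := by simp [wn, l1]

lemma summable_wn (hT : TF1) {v : R12 → ℂ} (hv : IsSmoothPeriodic v) (N : ℕ) {h : ℝ} (h0 : 0 ≤ h)
    (h1 : h ≤ 1) : Summable fun k => (1 + h * nk k) ^ N * ‖cf v k‖ := by
  refine Summable.of_nonneg_of_le (fun k => by have := nk_nonneg k; positivity) (fun k => ?_)
    ((hT v hv).1 N)
  have := nk_nonneg k
  gcongr
  nlinarith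

lemma summable_hi (hT : TF1) {v : R12 → ℂ} (hv : IsSmoothPeriodic v) (s : ℕ) {h : ℝ} (h0 : 0 ≤ h)
    (h1 : h ≤ 1) : Summable fun k => (h * nk k) ^ s * ‖cf v k‖ := by
  refine Summable.of_nonneg_of_le (fun k => by have := nk_nonneg k; positivity) (fun k => ?_)
    ((hT v hv).1 s)
  have := nk_nonneg k
  gcongr
  nlinarith

lemma hi_le_wn (hT : TF1) {v : R12 → ℂ} (hv : IsSmoothPeriodic v) (s : ℕ) {h : ℝ} (h0 : 0 ≤ h)
    (h1 : h ≤ 1) : hi s h v ≤ wn s h v := by
  refine (summable_hi hT hv s h0 h1).tsum_le_tsum (fun k => ?_) (summable_wn hT hv s h0 h1)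
  have := nk_nonneg k
  gcongr
  linarith

lemma term_le_wn (hT : TF1) {v : R12 → ℂ} (hv : IsSmoothPeriodic v) (M : ℕ) (k : Z12) :
    (1 + nk k) ^ M * ‖cf v k‖ ≤ wn M 1 v := by
  have hs := summable_wn hT hv M zero_le_one le_rfl
  have := hs.le_tsum k (fun j _ => by have := nk_nonneg j; positivity)
  simpa [wn] using this

lemma cf_le (hT : TF1) {v : R12 → ℂ} (hv : IsSmoothPeriodic v) (M : ℕ) (k : Z12) :
    ‖cf v k‖ ≤ wn M 1 v * ((1 + nk k) ^ M)⁻¹ := by
  have h1 := term_le_wn hT hv M k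
  have h2 : 0 < (1 + nk k) ^ M := pow_pos (one_add_nk_pos k) _
  rw [← div_eq_mul_inv, le_div_iff₀ h2]
  linarith

lemma cf_le_l1 (hT : TF1) {v : R12 → ℂ} (hv : IsSmoothPeriodic v) (k : Z12) :
    ‖cf v k‖ ≤ l1 v := by
  have h := term_le_wn hT hv 0 k
  rw [wn_zero] at h
  simpa using h

/-- scale `1` versus scale `h ≤ 1`. -/
lemma wn_one_le (hT : TF1) {v : R12 → ℂ} (hv : IsSmoothPeriodic v) (N : ℕ) {h : ℝ} (h0 : 0 < h)
    (h1 : h ≤ 1) : wn N 1 v ≤ (h⁻¹) ^ N * wn N h v := by
  unfold wn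
  rw [← tsum_mul_left]
  refine (summable_wn hT hv N zero_le_one le_rfl).tsum_le_tsum (fun k => ?_)
    ((summable_wn hT hv N h0.le h1).mul_left _)
  have hk := nk_nonneg k
  rw [← mul_assoc, ← mul_pow]
  have : 1 + 1 * nk k ≤ h⁻¹ * (1 + h * nk k) := by
    have e : h⁻¹ * (1 + h * nk k) = h⁻¹ + nk k := by field_simp
    rw [e]
    have : 1 ≤ h⁻¹ := (one_le_inv₀ h0).2 h1
    linarith
  gcongr

/-! ### the nonlinearity -/

/-- `(z z̄)^m z` -/
def pm : ℕ → ℂ → ℂ
  | 0, z => z
  | m + 1, z => z * starRingEnd ℂ z * pm m z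

lemma nl_eq_pm (m : ℕ) (z : ℂ) : nl (2 * m) z = pm m z := by
  induction m with
  | zero => simp [nl, pm]
  | succ m ih =>
    have e : nl (2 * (m + 1)) z = (((‖z‖ ^ 2 : ℝ)) : ℂ) * nl (2 * m) z := by
      unfold nl
      rw [← mul_assoc, ← Complex.ofReal_mul, ← pow_add]
      congr 3
      ring
    rw [e, ih, pm, Complex.mul_conj]
    congr 2
    rw [Complex.normSq_eq_norm_sq]

lemma sp_pm {v : R12 → ℂ} (hv : IsSmoothPeriodic v) (m : ℕ) :
    IsSmoothPeriodic (fun x => pm m (v x)) := by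
  induction m with
  | zero => simpa [pm] using hv
  | succ m ih => exact sp_mul (sp_mul hv (sp_conj hv)) ih

lemma wn_pm (hN : TN) {v : R12 → ℂ} (hv : IsSmoothPeriodic v) (N : ℕ) {h : ℝ} (h0 : 0 ≤ h) {M : ℝ}
    (hM : wn N h v ≤ M) (m : ℕ) : wn N h (fun x => pm m (v x)) ≤ M ^ (2 * m + 1) := by
  have hM0 : 0 ≤ M := (wn_nonneg N h0 v).trans hM
  induction m with
  | zero => simpa [pm] using hM
  | succ m ih =>
    have e1 : wn N h (fun x => v x * starRingEnd ℂ (v x)) ≤ M * M := by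
      refine (hN.wn_mul v _ hv (sp_conj hv) N h h0).trans ?_
      rw [hN.wn_conj v N h]
      exact mul_le_mul hM hM (wn_nonneg N h0 v) hM0
    have e2 := hN.wn_mul _ _ (sp_mul hv (sp_conj hv)) (sp_pm hv m) N h h0
    refine e2.trans ?_
    calc _ ≤ (M * M) * M ^ (2 * m + 1) :=
          mul_le_mul e1 ih (wn_nonneg N h0 _) (by positivity)
      _ = M ^ (2 * (m + 1) + 1) := by ring

lemma wn_add3 (hN : TN) {u v w : R12 → ℂ} (hu : IsSmoothPeriodic u) (hv : IsSmoothPeriodic v)
    (hw : IsSmoothPeriodic w) (N : ℕ) {h : ℝ} (h0 : 0 ≤ h) :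
    wn N h (fun x => u x + v x + w x) ≤ wn N h u + wn N h v + wn N h w :=
  (hN.wn_add _ _ (sp_add hu hv) hw N h h0).trans
    (add_le_add_left (hN.wn_add _ _ hu hv N h h0) _)

lemma hi_add3 (hN : TN) {u v w : R12 → ℂ} (hu : IsSmoothPeriodic u) (hv : IsSmoothPeriodic v)
    (hw : IsSmoothPeriodic w) (N : ℕ) {h : ℝ} (h0 : 0 ≤ h) :
    hi N h (fun x => u x + v x + w x) ≤ hi N h u + hi N h v + hi N h w :=
  (hN.hi_add _ _ (sp_add hu hv) hw N h h0).trans
    (add_le_add_left (hN.hi_add _ _ hu hv N h h0) _)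

/-- telescoping decomposition of the difference -/
lemma pm_diff (m : ℕ) (a b : ℂ) : pm (m + 1) a - pm (m + 1) b
    = (starRingEnd ℂ a * pm m a) * (a - b) + (b * pm m a) * starRingEnd ℂ (a - b)
      + (b * starRingEnd ℂ b) * (pm m a - pm m b) := by
  simp only [pm, map_sub]
  ring

lemma wn_pm_diff (hN : TN) {a b : R12 → ℂ} (ha : IsSmoothPeriodic a) (hb : IsSmoothPeriodic b)
    (N : ℕ) {h : ℝ} (h0 : 0 ≤ h) {M : ℝ} (hMa : wn N h a ≤ M) (hMb : wn N h b ≤ M) (m : ℕ) :
    wn N h (fun x => pm m (a x) - pm m (b x))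
      ≤ (2 * m + 1) * M ^ (2 * m) * wn N h (fun x => a x - b x) := by
  have hM0 : 0 ≤ M := (wn_nonneg N h0 a).trans hMa
  have hab := sp_sub ha hb
  induction m with
  | zero => simp [pm]
  | succ m ih =>
    have e : (fun x => pm (m + 1) (a x) - pm (m + 1) (b x))
        = fun x => (starRingEnd ℂ (a x) * pm m (a x)) * (a x - b x)
          + (b x * pm m (a x)) * starRingEnd ℂ (a x - b x)
          + (b x * starRingEnd ℂ (b x)) * (pm m (a x) - pm m (b x)) := by
      funext x; exact pm_diff m (a x) (b x)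
    have s1 := sp_mul (sp_conj ha) (sp_pm ha m)
    have s2 := sp_mul hb (sp_pm ha m)
    have s3 := sp_mul hb (sp_conj hb)
    have s4 := sp_sub (sp_pm ha m) (sp_pm hb m)
    rw [e]
    have t1 := hN.wn_mul _ _ s1 hab N h h0
    have t2 := hN.wn_mul _ _ s2 (sp_conj hab) N h h0
    have t3 := hN.wn_mul _ _ s3 s4 N h h0
    rw [hN.wn_conj] at t2
    have u1 : wn N h (fun x => starRingEnd ℂ (a x) * pm m (a x)) ≤ M * M ^ (2 * m + 1) := by
      refine (hN.wn_mul _ _ (sp_conj ha) (sp_pm ha m) N h h0).trans ?_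
      rw [hN.wn_conj]
      exact mul_le_mul hMa (wn_pm hN ha N h0 hMa m) (wn_nonneg N h0 _) hM0
    have u2 : wn N h (fun x => b x * pm m (a x)) ≤ M * M ^ (2 * m + 1) := by
      refine (hN.wn_mul _ _ hb (sp_pm ha m) N h h0).trans ?_
      exact mul_le_mul hMb (wn_pm hN ha N h0 hMa m) (wn_nonneg N h0 _) hM0
    have u3 : wn N h (fun x => b x * starRingEnd ℂ (b x)) ≤ M * M := by
      refine (hN.wn_mul _ _ hb (sp_conj hb) N h h0).trans ?_
      rw [hN.wn_conj]
      exact mul_le_mul hMb hMb (wn_nonneg N h0 _) hM0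
    have w0 := wn_nonneg N h0 (fun x => a x - b x)
    have w1 := wn_nonneg N h0 (fun x => pm m (a x) - pm m (b x))
    refine (wn_add3 hN (sp_mul s1 hab) (sp_mul s2 (sp_conj hab)) (sp_mul s3 s4) N h0).trans ?_
    have v1 := t1.trans (mul_le_mul_of_nonneg_right u1 w0)
    have v2 := t2.trans (mul_le_mul_of_nonneg_right u2 w0)
    have v3 := t3.trans (mul_le_mul u3 ih w1 (by positivity))
    refine (add_le_add (add_le_add v1 v2) v3).trans (le_of_eq ?_)
    push_cast
    ring

/-- the coefficient of the top order term (independent of the order `s`) -/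
def cc : ℕ → ℝ
  | 0 => 1
  | m + 1 => 2 * cc m + 4

lemma cc_nonneg (m : ℕ) : 0 ≤ cc m := by
  induction m with
  | zero => simp [cc]
  | succ m ih => simp only [cc]; linarith

lemma l1_pm (hN : TN) {v : R12 → ℂ} (hv : IsSmoothPeriodic v) {M : ℝ}
    (hM : l1 v ≤ M) (m : ℕ) : l1 (fun x => pm m (v x)) ≤ M ^ (2 * m + 1) := by
  have := wn_pm hN hv 0 (h := 0) le_rfl (M := M) (by rwa [wn_zero]) m
  rwa [wn_zero] at this

lemma l1_mul (hN : TN) {v w : R12 → ℂ} (hv : IsSmoothPeriodic v) (hw : IsSmoothPeriodic w) :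
    l1 (fun x => v x * w x) ≤ l1 v * l1 w := by
  have := hN.wn_mul v w hv hw 0 0 le_rfl
  simpa only [wn_zero] using this

lemma l1_conj (hN : TN) (v : R12 → ℂ) : l1 (fun x => starRingEnd ℂ (v x)) = l1 v := by
  have := hN.wn_conj v 0 0
  simpa only [wn_zero] using this

lemma l1_pm_diff (hN : TN) {a b : R12 → ℂ} (ha : IsSmoothPeriodic a) (hb : IsSmoothPeriodic b)
    {M : ℝ} (hMa : l1 a ≤ M) (hMb : l1 b ≤ M) (m : ℕ) :
    l1 (fun x => pm m (a x) - pm m (b x)) ≤ (2 * m + 1) * M ^ (2 * m) * l1 (fun x => a x - b x) := by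
  have := wn_pm_diff hN ha hb 0 (h := 0) le_rfl (M := M) (by rwa [wn_zero]) (by rwa [wn_zero]) m
  simpa only [wn_zero] using this

lemma hi_pm (hN : TN) (s m : ℕ) : ∃ C : ℝ, 0 ≤ C ∧ ∀ v : R12 → ℂ, IsSmoothPeriodic v →
    ∀ h : ℝ, 0 ≤ h → ∀ M : ℝ, 1 ≤ M → l1 v ≤ M →
      hi s h (fun x => pm m (v x)) ≤ C * M ^ (2 * m) * hi s h v := by
  obtain ⟨K, hK0, hK⟩ := hN.hi_mul s
  induction m with
  | zero => exact ⟨1, zero_le_one, fun v hv h h0 M hM hl => by simp [pm]⟩
  | succ m ih =>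
    obtain ⟨C, hC0, hC⟩ := ih
    refine ⟨2 * C + K * (2 + K), by positivity, fun v hv h h0 M hM hl => ?_⟩
    have hM0 : 0 ≤ M := by linarith
    have hh := hi_nonneg s h0 v
    have hl0 := l1_nonneg v
    have e1 : hi s h (fun x => v x * starRingEnd ℂ (v x)) ≤ (2 + K) * M * hi s h v := by
      refine (hK v _ hv (sp_conj hv) h h0).trans ?_
      rw [hN.hi_conj, l1_conj hN]
      have : l1 v * hi s h v ≤ M * hi s h v := mul_le_mul_of_nonneg_right hl hh
      nlinarith [mul_nonneg hK0 (sub_nonneg.2 this)]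
    have e2 : l1 (fun x => v x * starRingEnd ℂ (v x)) ≤ M * M := by
      refine (l1_mul hN hv (sp_conj hv)).trans ?_
      rw [l1_conj hN]
      exact mul_le_mul hl hl hl0 hM0
    have e3 := l1_pm hN hv hl m
    have e4 := hC v hv h h0 M hM hl
    refine (hK _ _ (sp_mul hv (sp_conj hv)) (sp_pm hv m) h h0).trans ?_
    have a1 : 2 * l1 (fun x => v x * starRingEnd ℂ (v x)) * hi s h (fun x => pm m (v x))
        ≤ 2 * (M * M) * (C * M ^ (2 * m) * hi s h v) :=
      mul_le_mul (by linarith) e4 (hi_nonneg s h0 _) (by positivity)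
    have a2 : K * hi s h (fun x => v x * starRingEnd ℂ (v x)) * l1 (fun x => pm m (v x))
        ≤ K * ((2 + K) * M * hi s h v) * M ^ (2 * m + 1) :=
      mul_le_mul (mul_le_mul_of_nonneg_left e1 hK0) e3 (l1_nonneg _) (by positivity)
    refine (add_le_add a1 a2).trans (le_of_eq ?_)
    ring

theorem hi_pm_diff (hN : TN) (s m : ℕ) : ∃ C : ℝ, 0 ≤ C ∧ ∀ a b : R12 → ℂ, IsSmoothPeriodic a →
    IsSmoothPeriodic b → ∀ h : ℝ, 0 ≤ h → ∀ M : ℝ, 1 ≤ M → l1 a ≤ M → l1 b ≤ M →
      hi s h (fun x => pm m (a x) - pm m (b x))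
        ≤ cc m * M ^ (2 * m) * hi s h (fun x => a x - b x)
          + C * M ^ (2 * m) * (hi s h a + hi s h b) * l1 (fun x => a x - b x) := by
  obtain ⟨K, hK0, hK⟩ := hN.hi_mul s
  induction m with
  | zero =>
    refine ⟨0, le_rfl, fun a b ha hb h h0 M hM hla hlb => ?_⟩
    simp [pm, cc]
  | succ m ih =>
    obtain ⟨C, hC0, hC⟩ := ih
    obtain ⟨D, hD0, hD⟩ := hi_pm hN s m
    refine ⟨K * (2 * D + K) + K * (2 * D + K) + (2 * C + K * (2 + K) * (2 * m + 1)), by positivity,
      fun a b ha hb h h0 M hM hla hlb => ?_⟩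
    have hM0 : 0 ≤ M := by linarith
    have hha := hi_nonneg s h0 a
    have hhb := hi_nonneg s h0 b
    have hab := sp_sub ha hb
    have hhd := hi_nonneg s h0 (fun x => a x - b x)
    have hld := l1_nonneg (fun x => a x - b x)
    have e : (fun x => pm (m + 1) (a x) - pm (m + 1) (b x))
        = fun x => (starRingEnd ℂ (a x) * pm m (a x)) * (a x - b x)
          + (b x * pm m (a x)) * starRingEnd ℂ (a x - b x)
          + (b x * starRingEnd ℂ (b x)) * (pm m (a x) - pm m (b x)) := by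
      funext x; exact pm_diff m (a x) (b x)
    have s1 := sp_mul (sp_conj ha) (sp_pm ha m)
    have s2 := sp_mul hb (sp_pm ha m)
    have s3 := sp_mul hb (sp_conj hb)
    have s4 := sp_sub (sp_pm ha m) (sp_pm hb m)
    rw [e]
    have t1 := hK _ _ s1 hab h h0
    have t2 := hK _ _ s2 (sp_conj hab) h h0
    have t3 := hK _ _ s3 s4 h h0
    rw [hN.hi_conj, l1_conj hN] at t2
    have pa := l1_pm hN ha hla m
    have pd := l1_pm_diff hN ha hb hla hlb m
    have qa := hD a ha h h0 M hM hla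
    have qd := hC a b ha hb h h0 M hM hla hlb
    have pa0 := l1_nonneg (fun x => pm m (a x))
    have qa0 := hi_nonneg s h0 (fun x => pm m (a x))
    -- l1 bounds
    have u1 : l1 (fun x => starRingEnd ℂ (a x) * pm m (a x)) ≤ M * M ^ (2 * m + 1) := by
      refine (l1_mul hN (sp_conj ha) (sp_pm ha m)).trans ?_
      rw [l1_conj hN]
      exact mul_le_mul hla pa pa0 hM0
    have u2 : l1 (fun x => b x * pm m (a x)) ≤ M * M ^ (2 * m + 1) :=
      (l1_mul hN hb (sp_pm ha m)).trans (mul_le_mul hlb pa pa0 hM0)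
    have u3 : l1 (fun x => b x * starRingEnd ℂ (b x)) ≤ M * M := by
      refine (l1_mul hN hb (sp_conj hb)).trans ?_
      rw [l1_conj hN]
      exact mul_le_mul hlb hlb (l1_nonneg _) hM0
    -- hi bounds
    have w1 : hi s h (fun x => starRingEnd ℂ (a x) * pm m (a x))
        ≤ (2 * D + K) * M ^ (2 * m + 1) * (hi s h a + hi s h b) := by
      refine (hK _ _ (sp_conj ha) (sp_pm ha m) h h0).trans ?_
      rw [hN.hi_conj, l1_conj hN]
      have a1 : 2 * l1 a * hi s h (fun x => pm m (a x)) ≤ 2 * M * (D * M ^ (2 * m) * hi s h a) :=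
        mul_le_mul (by linarith) qa qa0 (by positivity)
      have a2 : K * hi s h a * l1 (fun x => pm m (a x)) ≤ K * hi s h a * M ^ (2 * m + 1) :=
        mul_le_mul_of_nonneg_left pa (by positivity)
      have a3 : (2 * D + K) * M ^ (2 * m + 1) * hi s h a
          ≤ (2 * D + K) * M ^ (2 * m + 1) * (hi s h a + hi s h b) := by
        gcongr; linarith
      refine (add_le_add a1 a2).trans ((le_of_eq ?_).trans a3)
      ring
    have w2 : hi s h (fun x => b x * pm m (a x))
        ≤ (2 * D + K) * M ^ (2 * m + 1) * (hi s h a + hi s h b) := by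
      refine (hK _ _ hb (sp_pm ha m) h h0).trans ?_
      have a1 : 2 * l1 b * hi s h (fun x => pm m (a x)) ≤ 2 * M * (D * M ^ (2 * m) * hi s h a) :=
        mul_le_mul (by linarith) qa qa0 (by positivity)
      have a2 : K * hi s h b * l1 (fun x => pm m (a x)) ≤ K * hi s h b * M ^ (2 * m + 1) :=
        mul_le_mul_of_nonneg_left pa (by positivity)
      have a3 : 0 ≤ 2 * D * M ^ (2 * m + 1) * hi s h b := by positivity
      have a4 : 0 ≤ K * M ^ (2 * m + 1) * hi s h a := by positivity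
      have e5 : (2 * D + K) * M ^ (2 * m + 1) * (hi s h a + hi s h b)
          = 2 * M * (D * M ^ (2 * m) * hi s h a) + K * hi s h b * M ^ (2 * m + 1)
            + 2 * D * M ^ (2 * m + 1) * hi s h b + K * M ^ (2 * m + 1) * hi s h a := by ring
      rw [e5]
      linarith
    have w3 : hi s h (fun x => b x * starRingEnd ℂ (b x)) ≤ (2 + K) * M * hi s h b := by
      refine (hK b _ hb (sp_conj hb) h h0).trans ?_
      rw [hN.hi_conj, l1_conj hN]
      have : l1 b * hi s h b ≤ M * hi s h b := mul_le_mul_of_nonneg_right hlb hhb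
      nlinarith [mul_nonneg hK0 (sub_nonneg.2 this)]
    have hle : hi s h b ≤ hi s h a + hi s h b := by linarith
    refine (hi_add3 hN (sp_mul s1 hab) (sp_mul s2 (sp_conj hab)) (sp_mul s3 s4) s h0).trans ?_
    set X := hi s h (fun x => a x - b x) with hX
    set L := l1 (fun x => a x - b x) with hL
    set Y := hi s h a + hi s h b with hY
    have hY0 : 0 ≤ Y := by positivity
    have v1 : hi s h (fun x => (starRingEnd ℂ (a x) * pm m (a x)) * (a x - b x))
        ≤ 2 * (M * M ^ (2 * m + 1)) * X + K * ((2 * D + K) * M ^ (2 * m + 1) * Y) * L := by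
      refine t1.trans (add_le_add ?_ ?_)
      · gcongr
      · gcongr
    have v2 : hi s h (fun x => (b x * pm m (a x)) * starRingEnd ℂ (a x - b x))
        ≤ 2 * (M * M ^ (2 * m + 1)) * X + K * ((2 * D + K) * M ^ (2 * m + 1) * Y) * L := by
      refine t2.trans (add_le_add ?_ ?_)
      · gcongr
      · gcongr
    have v3 : hi s h (fun x => (b x * starRingEnd ℂ (b x)) * (pm m (a x) - pm m (b x)))
        ≤ 2 * (M * M) * (cc m * M ^ (2 * m) * X + C * M ^ (2 * m) * Y * L)
          + K * ((2 + K) * M * Y) * ((2 * m + 1) * M ^ (2 * m) * L) := by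
      refine t3.trans (add_le_add ?_ ?_)
      · exact mul_le_mul (by linarith) qd (hi_nonneg s h0 _) (by positivity)
      · refine mul_le_mul (mul_le_mul_of_nonneg_left (w3.trans ?_) hK0) pd (l1_nonneg _)
          (by positivity)
        gcongr
    refine (add_le_add (add_le_add v1 v2) v3).trans ?_
    have hMM : M ^ (2 * m + 1) ≤ M ^ (2 * m + 2) := pow_le_pow_right₀ hM (by omega)
    have z1 : K * ((2 * D + K) * M ^ (2 * m + 1) * Y) * L
        ≤ K * ((2 * D + K) * M ^ (2 * m + 2) * Y) * L := by gcongr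
    have z2 : K * ((2 + K) * M * Y) * ((2 * m + 1) * M ^ (2 * m) * L)
        = K * (2 + K) * (2 * m + 1) * M ^ (2 * m + 1) * Y * L := by ring
    have z3 : K * (2 + K) * (2 * m + 1) * M ^ (2 * m + 1) * Y * L
        ≤ K * (2 + K) * (2 * m + 1) * M ^ (2 * m + 2) * Y * L := by gcongr
    rw [z2]
    have z4 : cc (m + 1) * M ^ (2 * (m + 1)) * X
          + (K * (2 * D + K) + K * (2 * D + K) + (2 * C + K * (2 + K) * (2 * m + 1)))
              * M ^ (2 * (m + 1)) * Y * L
        = 2 * (M * M ^ (2 * m + 1)) * X + 2 * (M * M ^ (2 * m + 1)) * X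
          + 2 * (M * M) * (cc m * M ^ (2 * m) * X + C * M ^ (2 * m) * Y * L)
          + 2 * (K * ((2 * D + K) * M ^ (2 * m + 2) * Y) * L)
          + K * (2 + K) * (2 * m + 1) * M ^ (2 * m + 2) * Y * L := by
      simp only [cc]
      ring
    rw [z4]
    linarith

end

end Crest.Agent.R086.Grow
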