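import Mathlib

/-!
Row 86 (S0114), node GrowStep (helper263), file B: scalar Duhamel inequality, Gronwall inequality with
exponential forcing, a bootstrap lemma.
-/

set_option autoImplicit false

open MeasureTheory Set
open scoped Topology

namespace Crest.Agent.R086.Grow

/-- Duhamel inequality for a scalar equation with dissipative multiplier. -/
lemma norm_le_duhamel {S : ℝ} {c F Ψ μ : ℝ → ℂ} {b : ℝ → ℝ}
    (hΨ : ∀ σ ∈ Icc 0 S, HasDerivWithinAt Ψ (μ σ) (Icc 0 S) σ)
    (hre : ∀ σ ∈ Icc 0 S, ∀ σ' ∈ Icc 0 S, σ' ≤ σ → (Ψ σ).re ≤ (Ψ σ').re)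
    (hc : ∀ σ ∈ Icc 0 S, HasDerivWithinAt c (μ σ * c σ + F σ) (Icc 0 S) σ)
    (hb : ContinuousOn b (Icc 0 S)) (hF : ∀ σ ∈ Icc 0 S, ‖F σ‖ ≤ b σ) :
    ∀ σ ∈ Icc 0 S, ‖c σ‖ ≤ ‖c 0‖ + ∫ r in (0 : ℝ)..σ, b r := by
  intro σ hσ
  have hS : 0 ≤ σ := hσ.1
  have hsub : Icc 0 σ ⊆ Icc 0 S := Icc_subset_Icc_right hσ.2
  have h0 : (0 : ℝ) ∈ Icc 0 S := ⟨le_rfl, hσ.1.trans hσ.2⟩
  -- integrating factor
  set y : ℝ → ℂ := fun r => Complex.exp (-Ψ r) * c r with hy
  have hy' : ∀ r ∈ Icc 0 S, HasDerivWithinAt y (Complex.exp (-Ψ r) * F r) (Icc 0 S) r := by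
    intro r hr
    have h1 : HasDerivWithinAt y (Complex.exp (-Ψ r) * (-μ r) * c r
        + Complex.exp (-Ψ r) * (μ r * c r + F r)) (Icc 0 S) r :=
      (((hΨ r hr).neg).cexp).mul (hc r hr)
    exact h1.congr_deriv (by ring)
  have hyc : ContinuousOn y (Icc 0 σ) := fun r hr =>
    ((hy' r (hsub hr)).continuousWithinAt).mono hsub
  have hΨc : ContinuousOn Ψ (Icc 0 S) := fun r hr => (hΨ r hr).continuousWithinAt
  set g : ℝ → ℝ := fun r => Real.exp (-(Ψ r).re) * b r with hg
  have hgc : ContinuousOn g (Icc 0 S) :=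
    (Real.continuous_exp.comp_continuousOn
      ((Complex.continuous_re.comp_continuousOn hΨc).neg)).mul hb
  have hgi : ∀ r ∈ Icc 0 S, IntervalIntegrable g volume 0 r := fun r hr =>
    (hgc.mono (by rw [uIcc_of_le hr.1]; exact Icc_subset_Icc_right hr.2)).intervalIntegrable
  -- comparison function
  have key : ‖y σ‖ ≤ ‖y 0‖ + ∫ r in (0 : ℝ)..σ, g r := by
    have hB : ContinuousOn (fun r => ‖y 0‖ + ∫ x in (0 : ℝ)..r, g x) (Icc 0 σ) := by
      refine continuousOn_const.add ?_
      have := intervalIntegral.continuousOn_primitive_interval' (hgi σ hσ) (left_mem_uIcc)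
      rwa [uIcc_of_le hS] at this
    refine image_norm_le_of_norm_deriv_right_le_deriv_boundary' (f := y)
      (f' := fun r => Complex.exp (-Ψ r) * F r) (a := 0) (b := σ) hyc ?_ ?_ hB ?_ ?_
      (right_mem_Icc.2 hS) (B' := g)
    · intro r hr
      have hr' : r ∈ Icc 0 S := hsub ⟨hr.1, hr.2.le⟩
      refine (hy' r hr').mono_of_mem_nhdsWithin ?_
      have : r < S := lt_of_lt_of_le hr.2 hσ.2
      exact Filter.mem_of_superset (Icc_mem_nhdsGE this) (Icc_subset_Icc_left hr.1)
    · simp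
    · intro r hr
      have hr' : r ∈ Icc 0 S := hsub ⟨hr.1, hr.2.le⟩
      have hlt : r < S := lt_of_lt_of_le hr.2 hσ.2
      have h1 : HasDerivWithinAt (fun u => ∫ x in (0 : ℝ)..u, g x) (g r) (Ici r) r := by
        refine intervalIntegral.integral_hasDerivWithinAt_right (hgi r hr') ?_ ?_
        · exact (hgc.stronglyMeasurableAtFilter_nhdsWithin measurableSet_Icc r).filter_mono
            (nhdsWithin_le_of_mem (Filter.mem_of_superset (Ioc_mem_nhdsGT hlt)
              (fun x hx => ⟨hr.1.trans hx.1.le, hx.2⟩)))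
        · exact (hgc r hr').mono_of_mem_nhdsWithin
            (Filter.mem_of_superset (Icc_mem_nhdsGE hlt) (Icc_subset_Icc_left hr.1)) |>.mono
              (Ioi_subset_Ici_self)
      exact h1.const_add _
    · intro r hr
      have hr' : r ∈ Icc 0 S := hsub ⟨hr.1, hr.2.le⟩
      rw [norm_mul, Complex.norm_exp, Complex.neg_re]
      exact mul_le_mul_of_nonneg_left (hF r hr') (Real.exp_pos _).le
  -- unwind
  have e1 : ‖c σ‖ = Real.exp ((Ψ σ).re) * ‖y σ‖ := by
    rw [hy]
    simp only [norm_mul, Complex.norm_exp, Complex.neg_re]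
    rw [← mul_assoc, ← Real.exp_add]
    simp
  have e2 : Real.exp ((Ψ σ).re) * ‖y 0‖ ≤ ‖c 0‖ := by
    rw [hy]
    simp only [norm_mul, Complex.norm_exp, Complex.neg_re]
    rw [← mul_assoc, ← Real.exp_add]
    have : Real.exp ((Ψ σ).re + -(Ψ 0).re) ≤ 1 := by
      rw [Real.exp_le_one_iff]
      linarith [hre σ hσ 0 h0 hS]
    nlinarith [norm_nonneg (c 0)]
  have e3 : Real.exp ((Ψ σ).re) * ∫ r in (0 : ℝ)..σ, g r ≤ ∫ r in (0 : ℝ)..σ, b r := by
    rw [← intervalIntegral.integral_const_mul]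
    refine intervalIntegral.integral_mono_on hS ((hgi σ hσ).const_mul _) ?_ ?_
    · exact (hb.mono (by rw [uIcc_of_le hS]; exact hsub)).intervalIntegrable
    · intro r hr
      have hr' := hsub hr
      rw [hg]
      simp only
      rw [← mul_assoc, ← Real.exp_add]
      have h1 : Real.exp ((Ψ σ).re + -(Ψ r).re) ≤ 1 := by
        rw [Real.exp_le_one_iff]
        linarith [hre σ hσ r hr' hr.2]
      have h2 : 0 ≤ b r := (norm_nonneg _).trans (hF r hr')
      nlinarith
  rw [e1]
  calc Real.exp ((Ψ σ).re) * ‖y σ‖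
      ≤ Real.exp ((Ψ σ).re) * (‖y 0‖ + ∫ r in (0 : ℝ)..σ, g r) :=
        mul_le_mul_of_nonneg_left key (Real.exp_pos _).le
    _ ≤ _ := by rw [mul_add]; exact add_le_add e2 e3

/-- Gronwall inequality with exponential forcing. -/
lemma gronwall_exp {S K lam a β : ℝ} {f : ℝ → ℝ} (hK : 0 ≤ K) (hlam : K + 1 ≤ lam) (hβ : 0 ≤ β)
    (hf : ContinuousOn f (Icc 0 S))
    (h : ∀ σ ∈ Icc 0 S, f σ ≤ a + ∫ r in (0 : ℝ)..σ, (K * f r + β * Real.exp (lam * r))) :
    ∀ σ ∈ Icc 0 S, f σ ≤ a * Real.exp (K * σ) + β * Real.exp (lam * σ) := by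
  intro σ hσ
  have hS : 0 ≤ σ := hσ.1
  set w : ℝ → ℝ := fun r => K * f r + β * Real.exp (lam * r) with hw
  have hwc : ContinuousOn w (Icc 0 S) :=
    (continuousOn_const.mul hf).add (by fun_prop)
  have hwi : ∀ r ∈ Icc 0 S, IntervalIntegrable w volume 0 r := fun r hr =>
    (hwc.mono (by rw [uIcc_of_le hr.1]; exact Icc_subset_Icc_right hr.2)).intervalIntegrable
  set g : ℝ → ℝ := fun r => a + ∫ x in (0 : ℝ)..r, w x with hg
  -- B is a supersolution
  set B : ℝ → ℝ := fun r => a * Real.exp (K * r)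
    + β / (lam - K) * (Real.exp (lam * r) - Real.exp (K * r)) with hB
  have hlK : 0 < lam - K := by linarith
  have key : g σ ≤ B σ := by
    have hgc : ContinuousOn g (Icc 0 σ) := by
      refine continuousOn_const.add ?_
      have := intervalIntegral.continuousOn_primitive_interval' (hwi σ hσ) (left_mem_uIcc)
      rwa [uIcc_of_le hS] at this
    set z : ℝ → ℝ := fun r => Real.exp (-(K * r)) * (g r - B r) with hz
    have hzc : ContinuousOn z (Icc 0 σ) := by
      refine ContinuousOn.mul (by fun_prop) (hgc.sub ?_)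
      rw [hB]
      fun_prop
    have hBd : ∀ r, HasDerivAt B (K * B r + β * Real.exp (lam * r)) r := by
      intro r
      have h1 : HasDerivAt (fun r => Real.exp (K * r)) (Real.exp (K * r) * K) r := by
        have := ((hasDerivAt_id r).const_mul K).exp
        simpa using this
      have h2 : HasDerivAt (fun r => Real.exp (lam * r)) (Real.exp (lam * r) * lam) r := by
        have := ((hasDerivAt_id r).const_mul lam).exp
        simpa using this
      have h3 : HasDerivAt B (a * (Real.exp (K * r) * K)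
          + β / (lam - K) * (Real.exp (lam * r) * lam - Real.exp (K * r) * K)) r :=
        (h1.const_mul a).add ((h2.sub h1).const_mul (β / (lam - K)))
      refine h3.congr_deriv ?_
      have hBr : B r = a * Real.exp (K * r)
        + β / (lam - K) * (Real.exp (lam * r) - Real.exp (K * r)) := rfl
      rw [hBr]
      field_simp
      ring
    have hgd : ∀ r ∈ Ico 0 σ, HasDerivWithinAt g (w r) (Ici r) r := by
      intro r hr
      have hr' : r ∈ Icc 0 S := ⟨hr.1, hr.2.le.trans hσ.2⟩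
      have hlt : r < S := lt_of_lt_of_le hr.2 hσ.2
      have h1 : HasDerivWithinAt (fun u => ∫ x in (0 : ℝ)..u, w x) (w r) (Ici r) r := by
        refine intervalIntegral.integral_hasDerivWithinAt_right (hwi r hr') ?_ ?_
        · exact (hwc.stronglyMeasurableAtFilter_nhdsWithin measurableSet_Icc r).filter_mono
            (nhdsWithin_le_of_mem (Filter.mem_of_superset (Ioc_mem_nhdsGT hlt)
              (fun x hx => ⟨hr.1.trans hx.1.le, hx.2⟩)))
        · exact (hwc r hr').mono_of_mem_nhdsWithin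
            (Filter.mem_of_superset (Icc_mem_nhdsGE hlt) (Icc_subset_Icc_left hr.1)) |>.mono
              (Ioi_subset_Ici_self)
      exact h1.const_add _
    have hzd : ∀ r ∈ Ico 0 σ, HasDerivWithinAt z
        (Real.exp (-(K * r)) * (w r - (K * B r + β * Real.exp (lam * r)) - K * (g r - B r)))
        (Ici r) r := by
      intro r hr
      have h1 : HasDerivAt (fun r => Real.exp (-(K * r))) (Real.exp (-(K * r)) * (-K)) r := by
        have := (((hasDerivAt_id r).const_mul K).neg).exp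
        simpa using this
      have h2 : HasDerivWithinAt z (Real.exp (-(K * r)) * (-K) * (g r - B r)
          + Real.exp (-(K * r)) * (w r - (K * B r + β * Real.exp (lam * r)))) (Ici r) r :=
        h1.hasDerivWithinAt.mul ((hgd r hr).sub (hBd r).hasDerivWithinAt)
      exact h2.congr_deriv (by ring)
    have hz0 : z 0 = 0 := by
      rw [hz, hg, hB]
      simp
    have := image_le_of_deriv_right_le_deriv_boundary (f := z)
      (f' := fun r => Real.exp (-(K * r)) * (w r - (K * B r + β * Real.exp (lam * r))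
        - K * (g r - B r))) (a := 0) (b := σ) hzc hzd (B := fun _ => 0) (B' := fun _ => 0)
      (by rw [hz0]) continuousOn_const (fun r _ => hasDerivWithinAt_const _ _ _) ?_
      (right_mem_Icc.2 hS)
    · have h1 : 0 < Real.exp (-(K * σ)) := Real.exp_pos _
      have h2 : Real.exp (-(K * σ)) * (g σ - B σ) ≤ 0 := this
      nlinarith
    · intro r hr
      have hr' : r ∈ Icc 0 S := ⟨hr.1, hr.2.le.trans hσ.2⟩
      have h1 : f r ≤ g r := h r hr'
      have h2 : w r = K * f r + β * Real.exp (lam * r) := rfl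
      have h3 : w r - (K * B r + β * Real.exp (lam * r)) - K * (g r - B r) ≤ 0 := by
        rw [h2]
        nlinarith
      have h4 := Real.exp_pos (-(K * r))
      nlinarith
  refine (h σ hσ).trans (key.trans ?_)
  rw [hB]
  have h1 : β / (lam - K) * (Real.exp (lam * σ) - Real.exp (K * σ)) ≤ β * Real.exp (lam * σ) := by
    have h2 : β / (lam - K) ≤ β := div_le_self hβ (by linarith)
    have h3 : 0 ≤ β / (lam - K) := by positivity
    have h4 := Real.exp_pos (K * σ)
    have h5 := Real.exp_pos (lam * σ)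
    nlinarith
  simp only
  linarith

/-- Bootstrap: a continuous function which is `< 1` at `0` and which improves to `≤ 1/2` on every
interval where it is `≤ 1` stays `≤ 1`. -/
lemma bootstrap {S : ℝ} {f : ℝ → ℝ} (hf : ContinuousOn f (Icc 0 S)) (h0 : f 0 < 1)
    (h : ∀ σ ∈ Icc 0 S, (∀ r ∈ Icc 0 σ, f r ≤ 1) → f σ ≤ 1 / 2) :
    ∀ σ ∈ Icc 0 S, f σ ≤ 1 := by
  by_contra hcon
  push Not at hcon
  obtain ⟨σ, hσ, hσ1⟩ := hcon
  -- first time where f ≥ 1
  set A : Set ℝ := {r ∈ Icc 0 σ | 1 ≤ f r} with hA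
  have hsub : Icc 0 σ ⊆ Icc 0 S := Icc_subset_Icc_right hσ.2
  have hAc : IsCompact A := by
    have hcl : IsClosed A := by
      exact (hf.mono hsub).preimage_isClosed_of_isClosed isClosed_Icc (isClosed_Ici (a := (1 : ℝ)))
    exact isCompact_Icc.of_isClosed_subset hcl (fun r hr => hr.1)
  have hAn : A.Nonempty := ⟨σ, ⟨hσ.1, le_rfl⟩, hσ1.le⟩
  have hm := hAc.sInf_mem hAn
  set m := sInf A with hmdef
  have hmS : m ∈ Icc 0 S := hsub hm.1
  have hbelow : ∀ r ∈ Ico 0 m, f r < 1 := by
    intro r hr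
    by_contra hr1
    push Not at hr1
    have : m ≤ r := csInf_le hAc.bddBelow ⟨⟨hr.1, hr.2.le.trans hm.1.2⟩, hr1⟩
    exact absurd hr.2 (not_lt.2 this)
  have hm0 : 0 < m := by
    rcases eq_or_lt_of_le hm.1.1 with h1 | h1
    · rw [← h1] at hm
      exact absurd hm.2 (not_le.2 h0)
    · exact h1
  -- f m ≤ 1 by continuity
  have hfm : f m ≤ 1 := by
    have hcw : ContinuousWithinAt f (Ico 0 m) m :=
      (hf m hmS).mono (fun r hr => ⟨hr.1, hr.2.le.trans hmS.2⟩)
    have : (𝓝[Ico 0 m] m).NeBot := by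
      rw [← mem_closure_iff_nhdsWithin_neBot, closure_Ico hm0.ne]
      exact ⟨hm0.le, le_rfl⟩
    exact le_of_tendsto hcw (Filter.eventually_of_mem self_mem_nhdsWithin
      (fun r hr => (hbelow r hr).le))
  have := h m hmS (fun r hr => by
    rcases eq_or_lt_of_le hr.2 with h1 | h1
    · rw [h1]; exact hfm
    · exact (hbelow r ⟨hr.1, h1⟩).le)
  linarith [hm.2]

end Crest.Agent.R086.Grow
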