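import Crest.Agent.R086.GrowA
import Crest.Agent.R086.GrowB

/-!
Row 86 (S0114), node GrowStep (helper263), file C: a-priori estimates on one step.
-/

set_option autoImplicit false

open MeasureTheory Complex Set
open scoped ContDiff Topology ComplexConjugate
open Crest.AnalysisR.PDE.NLS (IsSmoothPeriodic periodCell)

namespace Crest.Agent.R086.Grow

noncomputable section

/-! ### abstract weighted sums -/

lemma sum_bound {Z : Type*} {S : ℝ} {c : ℝ → Z → ℂ} {b w : ℝ → Z → ℝ} {G : ℝ → ℝ}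
    (hd : ∀ k, ∀ σ ∈ Icc 0 S, ‖c σ k‖ ≤ ‖c 0 k‖ + ∫ r in (0 : ℝ)..σ, b r k)
    (hb : ∀ k, ContinuousOn (fun r => b r k) (Icc 0 S)) (hb0 : ∀ r ∈ Icc 0 S, ∀ k, 0 ≤ b r k)
    (hw : ∀ k, ContinuousOn (fun r => w r k) (Icc 0 S)) (hw0 : ∀ r ∈ Icc 0 S, ∀ k, 0 ≤ w r k)
    (hanti : ∀ k, ∀ σ ∈ Icc 0 S, ∀ r ∈ Icc 0 S, r ≤ σ → w σ k ≤ w r k)
    (hG : ContinuousOn G (Icc 0 S))
    (hsum : ∀ A : Finset Z, ∀ r ∈ Icc 0 S, ∑ k ∈ A, w r k * b r k ≤ G r)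
    {L : ℝ} (h0 : ∀ A : Finset Z, ∑ k ∈ A, w 0 k * ‖c 0 k‖ ≤ L) :
    ∀ σ ∈ Icc 0 S, ∀ A : Finset Z, ∑ k ∈ A, w σ k * ‖c σ k‖ ≤ L + ∫ r in (0 : ℝ)..σ, G r := by
  intro σ hσ A
  have hS0 : (0 : ℝ) ∈ Icc 0 S := ⟨le_rfl, hσ.1.trans hσ.2⟩
  have hsub : Icc 0 σ ⊆ Icc 0 S := Icc_subset_Icc_right hσ.2
  have hint : ∀ f : ℝ → ℝ, ContinuousOn f (Icc 0 S) → IntervalIntegrable f volume 0 σ := fun f hf =>
    (hf.mono (by rw [uIcc_of_le hσ.1]; exact hsub)).intervalIntegrable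
  have h1 : ∀ k, w σ k * ‖c σ k‖ ≤ w 0 k * ‖c 0 k‖ + ∫ r in (0 : ℝ)..σ, w r k * b r k := by
    intro k
    have e1 : w σ k * ‖c σ k‖ ≤ w σ k * ‖c 0 k‖ + w σ k * ∫ r in (0 : ℝ)..σ, b r k := by
      rw [← mul_add]
      exact mul_le_mul_of_nonneg_left (hd k σ hσ) (hw0 σ hσ k)
    have e2 : w σ k * ‖c 0 k‖ ≤ w 0 k * ‖c 0 k‖ :=
      mul_le_mul_of_nonneg_right (hanti k σ hσ 0 hS0 hσ.1) (norm_nonneg _)
    have e3 : w σ k * ∫ r in (0 : ℝ)..σ, b r k ≤ ∫ r in (0 : ℝ)..σ, w r k * b r k := by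
      rw [← intervalIntegral.integral_const_mul]
      refine intervalIntegral.integral_mono_on hσ.1 ((hint _ (hb k)).const_mul _)
        (hint _ ((hw k).mul (hb k))) fun r hr => ?_
      exact mul_le_mul_of_nonneg_right (hanti k σ hσ r (hsub hr) hr.2) (hb0 r (hsub hr) k)
    linarith
  calc ∑ k ∈ A, w σ k * ‖c σ k‖
      ≤ ∑ k ∈ A, (w 0 k * ‖c 0 k‖ + ∫ r in (0 : ℝ)..σ, w r k * b r k) :=
        Finset.sum_le_sum fun k _ => h1 k
    _ = ∑ k ∈ A, w 0 k * ‖c 0 k‖ + ∫ r in (0 : ℝ)..σ, ∑ k ∈ A, w r k * b r k := by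
        rw [Finset.sum_add_distrib, intervalIntegral.integral_finsetSum]
        intro k _
        exact hint _ ((hw k).mul (hb k))
    _ ≤ L + ∫ r in (0 : ℝ)..σ, G r := by
        refine add_le_add (h0 A) ?_
        refine intervalIntegral.integral_mono_on hσ.1 (hint _ ?_) (hint _ hG)
          fun r hr => hsum A r (hsub hr)
        exact continuousOn_finsetSum A fun k _ => (hw k).mul (hb k)

/-- `∑ (1+|k|)^(-24)` -/
def K24 : ℝ := ∑' k : Z12, ((1 + nk k) ^ 24)⁻¹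

lemma K24_nonneg : 0 ≤ K24 := tsum_nonneg fun k => by have := one_add_nk_pos k; positivity

lemma sum_le_K24 (A : Finset Z12) : ∑ k ∈ A, ((1 + nk k) ^ 24)⁻¹ ≤ K24 :=
  summable_inv24.sum_le_tsum A fun k _ => by have := one_add_nk_pos k; positivity

/-- weighted sums of rapidly decaying continuous families are continuous. -/
lemma continuousOn_wsum {S : ℝ} {c : ℝ → Z12 → ℂ} {w : ℝ → Z12 → ℝ} {N : ℕ} {B : ℝ}
    (hc : ∀ k, ContinuousOn (fun r => c r k) (Icc 0 S))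
    (hB : ∀ r ∈ Icc 0 S, ∀ k, (1 + nk k) ^ (N + 24) * ‖c r k‖ ≤ B)
    (hw : ∀ k, ContinuousOn (fun r => w r k) (Icc 0 S))
    (hw0 : ∀ r ∈ Icc 0 S, ∀ k, 0 ≤ w r k)
    (hwN : ∀ r ∈ Icc 0 S, ∀ k, w r k ≤ (1 + nk k) ^ N) :
    ContinuousOn (fun r => ∑' k, w r k * ‖c r k‖) (Icc 0 S) := by
  refine continuousOn_tsum (u := fun k => B * ((1 + nk k) ^ 24)⁻¹) (fun k => (hw k).mul (hc k).norm)
    (summable_inv24.mul_left B) fun k r hr => ?_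
  have hp : 0 < (1 + nk k) ^ 24 := pow_pos (one_add_nk_pos k) _
  rw [Real.norm_of_nonneg (mul_nonneg (hw0 r hr k) (norm_nonneg _)), ← div_eq_mul_inv,
    le_div_iff₀ hp]
  calc w r k * ‖c r k‖ * (1 + nk k) ^ 24
      ≤ (1 + nk k) ^ N * ‖c r k‖ * (1 + nk k) ^ 24 := by
        gcongr
        exact hwN r hr k
    _ = (1 + nk k) ^ (N + 24) * ‖c r k‖ := by ring
    _ ≤ B := hB r hr k

/-- uniform rapid decay of a family of smooth periodic functions -/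
def UDec (S : ℝ) (V : ℝ → R12 → ℂ) : Prop :=
  ∀ M : ℕ, ∃ B : ℝ, 0 ≤ B ∧ ∀ r ∈ Icc 0 S, ∀ k, (1 + nk k) ^ M * ‖cf (V r) k‖ ≤ B

lemma UDec.sub {S : ℝ} {V W : ℝ → R12 → ℂ} (hV : UDec S V) (hW : UDec S W)
    (sV : ∀ r ∈ Icc 0 S, Continuous (V r)) (sW : ∀ r ∈ Icc 0 S, Continuous (W r)) :
    UDec S (fun r x => V r x - W r x) := by
  intro M
  obtain ⟨B, hB0, hB⟩ := hV M
  obtain ⟨B', hB'0, hB'⟩ := hW M
  refine ⟨B + B', by positivity, fun r hr k => ?_⟩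
  rw [cf_sub (sV r hr) (sW r hr)]
  have h0 : 0 ≤ (1 + nk k) ^ M := (pow_pos (one_add_nk_pos k) _).le
  calc (1 + nk k) ^ M * ‖cf (V r) k - cf (W r) k‖
      ≤ (1 + nk k) ^ M * (‖cf (V r) k‖ + ‖cf (W r) k‖) :=
        mul_le_mul_of_nonneg_left (norm_sub_le _ _) h0
    _ ≤ B + B' := by rw [mul_add]; exact add_le_add (hB r hr k) (hB' r hr k)

/-- plain Wiener norm of a difference tends to zero -/
lemma tendsto_l1_sub {S : ℝ} {V : ℝ → R12 → ℂ} (sV : ∀ r ∈ Icc 0 S, IsSmoothPeriodic (V r))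
    (hV : UDec S V) (hc : ∀ k, ContinuousOn (fun r => cf (V r) k) (Icc 0 S)) {r₀ : ℝ}
    (hr₀ : r₀ ∈ Icc 0 S) :
    Filter.Tendsto (fun r => l1 (fun x => V r x - V r₀ x)) (𝓝[Icc 0 S] r₀) (𝓝 0) := by
  obtain ⟨B, hB0, hB⟩ := hV 24
  have h1 : ContinuousOn (fun r => ∑' k, (1 : ℝ) * ‖(fun r k => cf (V r) k - cf (V r₀) k) r k‖)
      (Icc 0 S) := by
    refine continuousOn_wsum (w := fun _ _ => 1) (N := 0) (B := B + B)
      (fun k => (hc k).sub continuousOn_const) (fun r hr k => ?_) (fun k => continuousOn_const)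
      (fun _ _ _ => zero_le_one) (fun _ _ _ => by simp)
    have h0 : 0 ≤ (1 + nk k) ^ 24 := (pow_pos (one_add_nk_pos k) _).le
    rw [zero_add]
    calc (1 + nk k) ^ 24 * ‖cf (V r) k - cf (V r₀) k‖
        ≤ (1 + nk k) ^ 24 * (‖cf (V r) k‖ + ‖cf (V r₀) k‖) :=
          mul_le_mul_of_nonneg_left (norm_sub_le _ _) h0
      _ ≤ B + B := by rw [mul_add]; exact add_le_add (hB r hr k) (hB r₀ hr₀ k)
  have h2 := h1 r₀ hr₀
  unfold ContinuousWithinAt at h2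
  simp only [sub_self, norm_zero, mul_zero, tsum_zero, one_mul] at h2
  refine h2.congr' ?_
  filter_upwards [self_mem_nhdsWithin] with r hr
  unfold l1
  refine tsum_congr fun k => ?_
  rw [cf_sub (sp_cont (sV r hr)) (sp_cont (sV r₀ hr₀))]

/-- the Fourier coefficients of the nonlinearity are continuous -/
lemma continuousOn_cf_pm (hN : TN) (hT : TF1) {S : ℝ} {V : ℝ → R12 → ℂ}
    (sV : ∀ r ∈ Icc 0 S, IsSmoothPeriodic (V r)) (hV : UDec S V)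
    (hc : ∀ k, ContinuousOn (fun r => cf (V r) k) (Icc 0 S)) (m : ℕ) (k : Z12) :
    ContinuousOn (fun r => cf (fun x => pm m (V r x)) k) (Icc 0 S) := by
  obtain ⟨B, hB0, hB⟩ := hV 24
  have hl : ∀ r ∈ Icc 0 S, l1 (V r) ≤ B * K24 := by
    intro r hr
    unfold l1 K24
    rw [← tsum_mul_left]
    have hs := (hT (V r) (sV r hr)).1 0
    simp only [pow_zero, one_mul] at hs
    refine hs.tsum_le_tsum (fun j => ?_) (summable_inv24.mul_left B)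
    have hp : 0 < (1 + nk j) ^ 24 := pow_pos (one_add_nk_pos j) _
    rw [← div_eq_mul_inv, le_div_iff₀ hp]
    linarith [hB r hr j]
  intro r₀ hr₀
  have ht := tendsto_l1_sub sV hV hc hr₀
  have h1 : Filter.Tendsto (fun r => (2 * m + 1) * (B * K24) ^ (2 * m)
      * l1 (fun x => V r x - V r₀ x)) (𝓝[Icc 0 S] r₀) (𝓝 0) := by
    have := ht.const_mul ((2 * m + 1) * (B * K24) ^ (2 * m))
    simpa using this
  unfold ContinuousWithinAt
  rw [tendsto_iff_norm_sub_tendsto_zero]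
  refine squeeze_zero' (Filter.Eventually.of_forall fun _ => norm_nonneg _) ?_ h1
  filter_upwards [self_mem_nhdsWithin] with r hr
  rw [← cf_sub (sp_cont (sp_pm (sV r hr) m)) (sp_cont (sp_pm (sV r₀ hr₀) m))]
  refine (cf_le_l1 hT (sp_sub (sp_pm (sV r hr) m) (sp_pm (sV r₀ hr₀) m)) k).trans ?_
  exact l1_pm_diff hN (sV r hr) (sV r₀ hr₀) (hl r hr) (hl r₀ hr₀) m

/-! ### the scale -/

lemma hs_pos {τ₀ : ℝ} (h : 0 < τ₀) (σ : ℝ) : 0 < Profile.hs τ₀ σ :=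
  Real.sqrt_pos.2 (by positivity)

lemma hs_le_one {τ₀ : ℝ} (h : 0 < τ₀) (h1 : τ₀ ≤ 1) {σ : ℝ} (hσ : 0 ≤ σ) : Profile.hs τ₀ σ ≤ 1 := by
  unfold Profile.hs
  have : Real.exp (-σ) ≤ 1 := by rw [Real.exp_le_one_iff]; linarith
  have h2 : τ₀ * Real.exp (-σ) ≤ 1 := by nlinarith [Real.exp_pos (-σ)]
  exact (Real.sqrt_le_sqrt h2).trans_eq Real.sqrt_one

lemma hs_eq {τ₀ : ℝ} (h : 0 < τ₀) (σ : ℝ) :
    Profile.hs τ₀ σ = Real.exp (-(σ / 2)) * Real.sqrt τ₀ := by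
  unfold Profile.hs
  rw [Real.sqrt_mul h.le, mul_comm]
  congr 1
  rw [Real.sqrt_eq_iff_mul_self_eq (Real.exp_pos _).le (Real.exp_pos _).le, ← Real.exp_add]
  congr 1
  ring

lemma hs_anti {τ₀ : ℝ} (h : 0 < τ₀) {r σ : ℝ} (hr : r ≤ σ) : Profile.hs τ₀ σ ≤ Profile.hs τ₀ r := by
  unfold Profile.hs
  apply Real.sqrt_le_sqrt
  have : Real.exp (-σ) ≤ Real.exp (-r) := by apply Real.exp_le_exp.2; linarith
  nlinarith

lemma hs_zero (τ₀ : ℝ) : Profile.hs τ₀ 0 = Real.sqrt τ₀ := by simp [Profile.hs]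

lemma continuous_hs (τ₀ : ℝ) : Continuous (Profile.hs τ₀) := by
  unfold Profile.hs; fun_prop

lemma hi_scale {τ₀ : ℝ} (h : 0 < τ₀) (s : ℕ) (σ : ℝ) (v : R12 → ℂ) :
    hi s (Profile.hs τ₀ σ) v = Real.exp (-((s : ℝ) / 2 * σ)) * hi s (Real.sqrt τ₀) v := by
  unfold hi
  rw [← tsum_mul_left]
  refine tsum_congr fun k => ?_
  rw [hs_eq h, mul_assoc, mul_pow, ← Real.exp_nat_mul, mul_assoc]
  congr 2
  ring

end

end Crest.Agent.R086.Grow
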