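import Crest.Agent.R086.GrowC

/-!
Row 86 (S0114), node GrowStep (helper263), file D: the perturbation of a solution of the rescaled
equation: Duhamel, continuity, decay.
-/

set_option autoImplicit false

open MeasureTheory Complex Set
open scoped ContDiff Topology ComplexConjugate
open Crest.AnalysisR.PDE.NLS (IsSmoothPeriodic periodCell)

namespace Crest.Agent.R086.Grow

noncomputable section

open Profile

/-- the profile along the step -/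
def qq {n : ℕ} (P : Profile n) (τ₀ r : ℝ) : R12 → ℂ := P.qt (τ₀ * Real.exp (-r))

/-- the equation of the periodised profile (content of TP2) for one error family `gt` -/
def EqT {n : ℕ} (P : Profile n) (gt : ℝ → R12 → ℂ) : Prop :=
  ∀ (τ₀ : ℝ), 0 < τ₀ → ∀ (s : ℝ) (k : Z12), HasDerivAt (fun s => cf (P.qt (τ₀ * Real.exp (-s))) k)
    ((-(I * ((τ₀ * Real.exp (-s) * nk k ^ 2 : ℝ) : ℂ)) + (I * (P.om : ℂ) - 1 / (n : ℂ)))
        * cf (P.qt (τ₀ * Real.exp (-s))) k - I * cf (fun x => nl n (P.qt (τ₀ * Real.exp (-s)) x)) k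
      - cf (gt (τ₀ * Real.exp (-s))) k) s

lemma tau_pos {τ₀ : ℝ} (h : 0 < τ₀) (r : ℝ) : 0 < τ₀ * Real.exp (-r) := by positivity

lemma tau_le {τ₀ : ℝ} (h : 0 < τ₀) {r : ℝ} (hr : 0 ≤ r) : τ₀ * Real.exp (-r) ≤ τ₀ := by
  have : Real.exp (-r) ≤ 1 := by rw [Real.exp_le_one_iff]; linarith
  nlinarith

section

variable {n : ℕ} (P : Profile n) {τ₀ S : ℝ} {U : ℝ → R12 → ℂ} {gt : ℝ → R12 → ℂ}

lemma sp_qq (h1 : TP1 P) (hτ : 0 < τ₀) (r : ℝ) : IsSmoothPeriodic (qq P τ₀ r) :=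
  (h1.1 _ (tau_pos hτ r)).1

lemma sp_pert (h1 : TP1 P) (hτ : 0 < τ₀) (hU : P.ResSol τ₀ S U) :
    ∀ r ∈ Icc 0 S, IsSmoothPeriodic (P.pert τ₀ U r) := fun r hr =>
  sp_sub (hU.smooth r hr) (sp_qq P h1 hτ r)

/-- the difference of the nonlinearities -/
def DN (m : ℕ) (U : ℝ → R12 → ℂ) (q : ℝ → R12 → ℂ) (r : ℝ) : R12 → ℂ :=
  fun x => pm m (U r x) - pm m (q r x)

lemma udec_U (hT : TF1) (hU : P.ResSol τ₀ S U) : UDec S U := by
  intro M
  obtain ⟨B, hB⟩ := hU.bdd M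
  refine ⟨max B 0, le_max_right _ _, fun r hr k => ?_⟩
  exact ((term_le_wn hT (hU.smooth r hr) M k).trans (hB r hr)).trans (le_max_left _ _)

lemma udec_q (hT : TF1) (h1 : TP1 P) (hτ : 0 < τ₀) (hτ1 : τ₀ ≤ 1) : UDec S (qq P τ₀) := by
  intro M
  obtain ⟨C, hC0, hC⟩ := h1.2 M
  refine ⟨((hs τ₀ S)⁻¹) ^ M * C, by have := hs_pos hτ S; positivity, fun r hr k => ?_⟩
  have hsp := sp_qq P h1 hτ r
  have hp := hs_pos hτ r
  have hp1 := hs_le_one hτ hτ1 hr.1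
  have hpS := hs_pos hτ S
  refine (term_le_wn hT hsp M k).trans ((wn_one_le hT hsp M hp hp1).trans ?_)
  have h2 : wn M (hs τ₀ r) (qq P τ₀ r) ≤ C :=
    (hC _ (tau_pos hτ r) ((tau_le hτ hr.1).trans hτ1)).1
  have h3 : (hs τ₀ r)⁻¹ ≤ (hs τ₀ S)⁻¹ := inv_anti₀ hpS (hs_anti hτ hr.2)
  have h4 := wn_nonneg M hp.le (qq P τ₀ r)
  gcongr

lemma cont_cf_U (hU : P.ResSol τ₀ S U) (k : Z12) :
    ContinuousOn (fun r => cf (U r) k) (Icc 0 S) := fun r hr =>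
  (hU.ode r hr k).continuousWithinAt

lemma cont_cf_q (hg : EqT P gt) (hτ : 0 < τ₀) (k : Z12) :
    ContinuousOn (fun r => cf (qq P τ₀ r) k) (Icc 0 S) := fun r _ =>
  (hg τ₀ hτ r k).continuousAt.continuousWithinAt

lemma udec_pert (hT : TF1) (h1 : TP1 P) (hτ : 0 < τ₀) (hτ1 : τ₀ ≤ 1) (hU : P.ResSol τ₀ S U) :
    UDec S (P.pert τ₀ U) :=
  (udec_U P hT hU).sub (udec_q P hT h1 hτ hτ1) (fun r hr => sp_cont (hU.smooth r hr))
    (fun r _ => sp_cont (sp_qq P h1 hτ r))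

lemma cont_cf_pert (h1 : TP1 P) (hg : EqT P gt) (hτ : 0 < τ₀) (hU : P.ResSol τ₀ S U) (k : Z12) :
    ContinuousOn (fun r => cf (P.pert τ₀ U r) k) (Icc 0 S) := by
  refine ((cont_cf_U P hU k).sub (cont_cf_q P hg hτ k)).congr fun r hr => ?_
  exact cf_sub (sp_cont (hU.smooth r hr)) (sp_cont (sp_qq P h1 hτ r)) k

lemma cont_cf_DN (hN : TN) (hT : TF1) (h1 : TP1 P) (hg : EqT P gt) (hτ : 0 < τ₀) (hτ1 : τ₀ ≤ 1)
    (hU : P.ResSol τ₀ S U) (m : ℕ) (k : Z12) :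
    ContinuousOn (fun r => cf (DN m U (qq P τ₀) r) k) (Icc 0 S) := by
  refine ((continuousOn_cf_pm hN hT hU.smooth (udec_U P hT hU) (cont_cf_U P hU) m k).sub
    (continuousOn_cf_pm hN hT (fun r _ => sp_qq P h1 hτ r) (udec_q P hT h1 hτ hτ1)
      (cont_cf_q P hg hτ) m k)).congr fun r hr => ?_
  exact cf_sub (sp_cont (sp_pm (hU.smooth r hr) m)) (sp_cont (sp_pm (sp_qq P h1 hτ r) m)) k

/-- Duhamel for every coefficient of the perturbation -/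
lemma duhamel_pert (hN : TN) (hT : TF1) (h1 : TP1 P) (hg : EqT P gt) (hτ : 0 < τ₀) (hτ1 : τ₀ ≤ 1)
    (hU : P.ResSol τ₀ S U) {m : ℕ} (hm : n = 2 * m) {γ : Z12 → ℝ}
    (hγ : ∀ r ∈ Icc 0 S, ∀ k, ‖cf (gt (τ₀ * Real.exp (-r))) k‖ ≤ γ k) :
    ∀ k, ∀ σ ∈ Icc 0 S, ‖cf (P.pert τ₀ U σ) k‖ ≤ ‖cf (P.pert τ₀ U 0) k‖
      + ∫ r in (0 : ℝ)..σ, (‖cf (DN m U (qq P τ₀) r) k‖ + γ k) := by
  intro k
  have hn : n ≠ 0 := by have := P.two_le; omega
  have hnr : (0 : ℝ) < (n : ℝ) := Nat.cast_pos.2 (Nat.pos_of_ne_zero hn)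
  -- multiplier and its primitive
  set μ : ℝ → ℂ := fun r => -(I * ((τ₀ * Real.exp (-r) * nk k ^ 2 : ℝ) : ℂ))
    + (I * (P.om : ℂ) - 1 / (n : ℂ)) with hμ
  set Ψ : ℝ → ℂ := fun r => I * ((τ₀ * nk k ^ 2 * Real.exp (-r) : ℝ) : ℂ)
    + (I * (P.om : ℂ) - 1 / (n : ℂ)) * (r : ℂ) with hΨ
  have hΨd : ∀ r, HasDerivAt Ψ (μ r) r := by
    intro r
    have e1 : HasDerivAt (fun r : ℝ => τ₀ * nk k ^ 2 * Real.exp (-r))
        (τ₀ * nk k ^ 2 * (Real.exp (-r) * (-1))) r :=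
      (((hasDerivAt_id r).neg).exp).const_mul _
    have e2 : HasDerivAt (fun r : ℝ => (r : ℂ)) 1 r := by
      simpa using (hasDerivAt_id r).ofReal_comp
    have e3 := (e1.ofReal_comp.const_mul I).add (e2.const_mul (I * (P.om : ℂ) - 1 / (n : ℂ)))
    refine HasDerivAt.congr_deriv (f := Ψ) e3 ?_
    rw [hμ]
    push_cast
    ring
  have hΨre : ∀ r : ℝ, (Ψ r).re = -(1 / (n : ℝ)) * r := by
    intro r
    have e0 : Ψ r = I * ((τ₀ * nk k ^ 2 * Real.exp (-r) : ℝ) : ℂ)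
      + (I * (P.om : ℂ) - 1 / (n : ℂ)) * (r : ℂ) := rfl
    have e1 : (1 / (n : ℂ)) = (((1 / (n : ℝ)) : ℝ) : ℂ) := by push_cast; rfl
    rw [e0, e1]
    generalize τ₀ * nk k ^ 2 * Real.exp (-r) = a
    generalize 1 / (n : ℝ) = b
    simp [Complex.add_re, Complex.mul_re, Complex.sub_re]
  set F : ℝ → ℂ := fun r => -(I * cf (DN m U (qq P τ₀) r) k) + cf (gt (τ₀ * Real.exp (-r))) k with hF
  refine norm_le_duhamel (c := fun r => cf (P.pert τ₀ U r) k) (F := F) (Ψ := Ψ) (μ := μ)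
    (fun r _ => (hΨd r).hasDerivWithinAt) ?_ ?_ ?_ ?_
  · intro σ _ r _ hr
    rw [hΨre, hΨre]
    have : 0 < 1 / (n : ℝ) := by positivity
    nlinarith
  · intro r hr
    have e1 := (hU.ode r hr k).sub ((hg τ₀ hτ r k).hasDerivWithinAt (s := Icc 0 S))
    have e2 : HasDerivWithinAt (fun r => cf (P.pert τ₀ U r) k) _ (Icc 0 S) r :=
      e1.congr (fun y hy => cf_sub (sp_cont (hU.smooth y hy)) (sp_cont (sp_qq P h1 hτ y)) k)
        (cf_sub (sp_cont (hU.smooth r hr)) (sp_cont (sp_qq P h1 hτ r)) k)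
    refine e2.congr_deriv ?_
    have e3 : cf (P.pert τ₀ U r) k = cf (U r) k - cf (P.qt (τ₀ * Real.exp (-r))) k :=
      cf_sub (sp_cont (hU.smooth r hr)) (sp_cont (sp_qq P h1 hτ r)) k
    have e4 : cf (DN m U (qq P τ₀) r) k = cf (fun x => nl n (U r x)) k
        - cf (fun x => nl n (P.qt (τ₀ * Real.exp (-r)) x)) k := by
      have e5 : cf (DN m U (qq P τ₀) r) k = cf (fun x => pm m (U r x)) k
          - cf (fun x => pm m (qq P τ₀ r x)) k :=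
        cf_sub (sp_cont (sp_pm (hU.smooth r hr) m)) (sp_cont (sp_pm (sp_qq P h1 hτ r) m)) k
      have hnl : ∀ z : ℂ, nl n z = pm m z := fun z => by
        rw [← nl_eq_pm m z]; exact congrArg (fun j => nl j z) hm
      rw [e5]
      simp only [hnl, qq]
    rw [hμ, hF]
    simp only
    rw [e3, e4]
    ring
  · exact (cont_cf_DN P hN hT h1 hg hτ hτ1 hU m k).norm.add continuousOn_const
  · intro r hr
    rw [hF]
    simp only
    refine (norm_add_le _ _).trans (add_le_add (le_of_eq ?_) (hγ r hr k))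
    rw [norm_neg, norm_mul, Complex.norm_I, one_mul]

end

end

end Crest.Agent.R086.Grow
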