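import Crest.Agent.R086.GrowD

/-!
Row 86 (S0114), node GrowStep (helper263), file E: low and high norm a-priori estimates.
-/

set_option autoImplicit false

open MeasureTheory Complex Set
open scoped ContDiff Topology ComplexConjugate
open Crest.AnalysisR.PDE.NLS (IsSmoothPeriodic periodCell)

namespace Crest.Agent.R086.Grow

noncomputable section

open Profile

section

variable {n : ℕ} (P : Profile n) {τ₀ S : ℝ} {U : ℝ → R12 → ℂ} {gt : ℝ → R12 → ℂ}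

/-- pointwise bound of the coefficients of the error -/
lemma gt_coef (hT : TF1) {M : ℕ} {Cg : ℝ} (hgs : ∀ τ : ℝ, 0 < τ → IsSmoothPeriodic (gt τ))
    (hCg : ∀ τ : ℝ, 0 < τ → τ ≤ 1 → wn M 1 (gt τ) ≤ Cg * τ) (hCg0 : 0 ≤ Cg)
    (hτ : 0 < τ₀) (hτ1 : τ₀ ≤ 1) : ∀ r ∈ Icc 0 S, ∀ k,
      ‖cf (gt (τ₀ * Real.exp (-r))) k‖ ≤ Cg * τ₀ * ((1 + nk k) ^ M)⁻¹ := by
  intro r hr k
  have hp := tau_pos hτ r
  have hl := tau_le hτ hr.1
  refine (cf_le hT (hgs _ hp) M k).trans ?_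
  have h1 : wn M 1 (gt (τ₀ * Real.exp (-r))) ≤ Cg * τ₀ :=
    (hCg _ hp (hl.trans hτ1)).trans (mul_le_mul_of_nonneg_left hl hCg0)
  have h2 : 0 ≤ ((1 + nk k) ^ M)⁻¹ := by have := one_add_nk_pos k; positivity
  exact mul_le_mul_of_nonneg_right h1 h2

/-- LOW NORM: linear bound as long as it is `≤ 1`. -/
lemma low_bound (hN : TN) (hT : TF1) (h1 : TP1 P) (hg : EqT P gt) (hτ : 0 < τ₀) (hτ1 : τ₀ ≤ 1)
    (hU : P.ResSol τ₀ S U) {m : ℕ} (hm : n = 2 * m) (N : ℕ) {Cq Cg : ℝ} (hCq0 : 0 ≤ Cq)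
    (hCq : ∀ τ : ℝ, 0 < τ → τ ≤ 1 → wn N (Real.sqrt τ) (P.qt τ) ≤ Cq)
    (hgs : ∀ τ : ℝ, 0 < τ → IsSmoothPeriodic (gt τ)) (hCg0 : 0 ≤ Cg)
    (hCg : ∀ τ : ℝ, 0 < τ → τ ≤ 1 → wn (N + 24) 1 (gt τ) ≤ Cg * τ)
    (hle : ∀ r ∈ Icc 0 S, wn N (hs τ₀ r) (P.pert τ₀ U r) ≤ 1) :
    ∀ σ ∈ Icc 0 S, wn N (hs τ₀ σ) (P.pert τ₀ U σ)
      ≤ (wn N (hs τ₀ 0) (P.pert τ₀ U 0) + Cg * K24 * τ₀)
        * Real.exp (((2 * m + 1) * (Cq + 1) ^ (2 * m) + 1) * σ) := by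
  intro σ₁ hσ₁
  set K : ℝ := (2 * m + 1) * (Cq + 1) ^ (2 * m) with hK
  have hK0 : 0 ≤ K := by positivity
  have h0S : (0 : ℝ) ∈ Icc 0 S := ⟨le_rfl, hσ₁.1.trans hσ₁.2⟩
  have hsp := sp_pert P h1 hτ hU
  have hdec := udec_pert P hT h1 hτ hτ1 hU
  have hcc := cont_cf_pert P h1 hg hτ hU
  -- continuity of the low norm
  obtain ⟨B, hB0, hB⟩ := hdec (N + 24)
  have hw : ∀ k : Z12, ContinuousOn (fun r => (1 + hs τ₀ r * nk k) ^ N) (Icc 0 S) := fun k =>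
    ((continuous_const.add ((continuous_hs τ₀).mul continuous_const)).pow N).continuousOn
  have hw0 : ∀ r ∈ Icc 0 S, ∀ k : Z12, 0 ≤ (1 + hs τ₀ r * nk k) ^ N := fun r _ k => by
    have := nk_nonneg k; have := hs_pos hτ r; positivity
  have hwN : ∀ r ∈ Icc 0 S, ∀ k : Z12, (1 + hs τ₀ r * nk k) ^ N ≤ (1 + nk k) ^ N := by
    intro r hr k
    have h2 := nk_nonneg k
    have h3 := hs_pos hτ r
    have h4 := hs_le_one hτ hτ1 hr.1
    gcongr
    nlinarith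
  set f : ℝ → ℝ := fun r => wn N (hs τ₀ r) (P.pert τ₀ U r) with hf
  have hfc : ContinuousOn f (Icc 0 S) :=
    continuousOn_wsum (c := fun r k => cf (P.pert τ₀ U r) k)
      (w := fun r k => (1 + hs τ₀ r * nk k) ^ N) hcc hB hw hw0 hwN
  set β : ℝ := Cg * K24 * τ₀ with hβ
  have hβ0 : 0 ≤ β := by have := K24_nonneg; positivity
  have hγ := gt_coef (S := S) hT hgs hCg hCg0 hτ hτ1
  -- integral inequality
  have key : ∀ σ ∈ Icc 0 S, f σ ≤ f 0 + ∫ r in (0 : ℝ)..σ, (K * f r + β * Real.exp ((K + 1) * r)) := by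
    intro σ hσ
    have hs1 := sum_bound (S := S) (c := fun r k => cf (P.pert τ₀ U r) k)
      (b := fun r k => ‖cf (DN m U (qq P τ₀) r) k‖ + Cg * τ₀ * ((1 + nk k) ^ (N + 24))⁻¹)
      (w := fun r k => (1 + hs τ₀ r * nk k) ^ N)
      (G := fun r => K * f r + β * Real.exp ((K + 1) * r)) (L := f 0)
      (duhamel_pert P hN hT h1 hg hτ hτ1 hU hm hγ)
      (fun k => (cont_cf_DN P hN hT h1 hg hτ hτ1 hU m k).norm.add continuousOn_const)
      (fun r _ k => by have := one_add_nk_pos k; positivity) hw hw0 ?_ ?_ ?_ ?_ σ hσ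
    · refine Real.tsum_le_of_sum_le (fun k => ?_) hs1
      exact mul_nonneg (hw0 σ hσ k) (norm_nonneg _)
    · intro k σ hσ r hr hrσ
      have h2 := nk_nonneg k
      have h3 := hs_pos hτ σ
      have h4 := hs_anti hτ hrσ
      show (1 + hs τ₀ σ * nk k) ^ N ≤ (1 + hs τ₀ r * nk k) ^ N
      gcongr
    · exact (continuousOn_const.mul hfc).add (by fun_prop)
    · intro A r hr
      have hh := hs_pos hτ r
      have hh1 := hs_le_one hτ hτ1 hr.1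
      have hDs : IsSmoothPeriodic (DN m U (qq P τ₀) r) :=
        sp_sub (sp_pm (hU.smooth r hr) m) (sp_pm (sp_qq P h1 hτ r) m)
      -- part 1
      have e1 : ∑ k ∈ A, (1 + hs τ₀ r * nk k) ^ N * ‖cf (DN m U (qq P τ₀) r) k‖ ≤ K * f r := by
        refine ((summable_wn hT hDs N hh.le hh1).sum_le_tsum A (fun k _ =>
          mul_nonneg (hw0 r hr k) (norm_nonneg _))).trans ?_
        have hq1 : wn N (hs τ₀ r) (qq P τ₀ r) ≤ Cq + 1 := by
          have := hCq _ (tau_pos hτ r) ((tau_le hτ hr.1).trans hτ1)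
          have h5 : wn N (hs τ₀ r) (qq P τ₀ r) ≤ Cq := this
          linarith
        have hU1 : wn N (hs τ₀ r) (U r) ≤ Cq + 1 := by
          have e : U r = fun x => qq P τ₀ r x + P.pert τ₀ U r x := by
            funext x; simp only [qq, Profile.pert]; ring
          rw [e]
          refine (hN.wn_add _ _ (sp_qq P h1 hτ r) (hsp r hr) N _ hh.le).trans ?_
          have h5 : wn N (hs τ₀ r) (qq P τ₀ r) ≤ Cq :=
            hCq _ (tau_pos hτ r) ((tau_le hτ hr.1).trans hτ1)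
          linarith [hle r hr]
        exact wn_pm_diff hN (hU.smooth r hr) (sp_qq P h1 hτ r) N hh.le hU1 hq1 m
      -- part 2
      have e2 : ∑ k ∈ A, (1 + hs τ₀ r * nk k) ^ N * (Cg * τ₀ * ((1 + nk k) ^ (N + 24))⁻¹) ≤ β := by
        calc ∑ k ∈ A, (1 + hs τ₀ r * nk k) ^ N * (Cg * τ₀ * ((1 + nk k) ^ (N + 24))⁻¹)
            ≤ ∑ k ∈ A, Cg * τ₀ * ((1 + nk k) ^ 24)⁻¹ := by
              refine Finset.sum_le_sum fun k _ => ?_
              have hp := one_add_nk_pos k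
              have e3 : Cg * τ₀ * ((1 + nk k) ^ 24)⁻¹
                  = (1 + nk k) ^ N * (Cg * τ₀ * ((1 + nk k) ^ (N + 24))⁻¹) := by
                rw [pow_add]; field_simp
              rw [e3]
              exact mul_le_mul_of_nonneg_right (hwN r hr k) (by positivity)
          _ = Cg * τ₀ * ∑ k ∈ A, ((1 + nk k) ^ 24)⁻¹ := by rw [Finset.mul_sum]
          _ ≤ Cg * τ₀ * K24 := mul_le_mul_of_nonneg_left (sum_le_K24 A) (by positivity)
          _ = β := by rw [hβ]; ring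
      have e4 : β ≤ β * Real.exp ((K + 1) * r) := by
        have : 1 ≤ Real.exp ((K + 1) * r) := Real.one_le_exp (mul_nonneg (by linarith) hr.1)
        nlinarith
      simp only [mul_add, Finset.sum_add_distrib]
      exact add_le_add e1 (e2.trans e4)
    · intro A
      exact (summable_wn hT (hsp 0 h0S) N (hs_pos hτ 0).le (hs_le_one hτ hτ1 le_rfl)).sum_le_tsum A
        (fun k _ => mul_nonneg (hw0 0 h0S k) (norm_nonneg _))
  have hgr := gronwall_exp hK0 le_rfl hβ0 hfc key σ₁ hσ₁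
  refine hgr.trans ?_
  have hf0 : 0 ≤ f 0 := wn_nonneg N (hs_pos hτ 0).le _
  have h5 : Real.exp (K * σ₁) ≤ Real.exp ((K + 1) * σ₁) := by
    apply Real.exp_le_exp.2; nlinarith [hσ₁.1]
  have h6 : f 0 * Real.exp (K * σ₁) ≤ f 0 * Real.exp ((K + 1) * σ₁) :=
    mul_le_mul_of_nonneg_left h5 hf0
  calc f 0 * Real.exp (K * σ₁) + β * Real.exp ((K + 1) * σ₁)
      ≤ f 0 * Real.exp ((K + 1) * σ₁) + β * Real.exp ((K + 1) * σ₁) := by linarith
    _ = (f 0 + β) * Real.exp ((K + 1) * σ₁) := by ring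

/-- LOW NORM with bootstrap. -/
lemma low_boot (hN : TN) (hT : TF1) (h1 : TP1 P) (hg : EqT P gt) (hτ : 0 < τ₀) (hτ1 : τ₀ ≤ 1)
    (hU : P.ResSol τ₀ S U) {m : ℕ} (hm : n = 2 * m) (N : ℕ) {Cq Cg : ℝ} (hCq0 : 0 ≤ Cq)
    (hCq : ∀ τ : ℝ, 0 < τ → τ ≤ 1 → wn N (Real.sqrt τ) (P.qt τ) ≤ Cq)
    (hgs : ∀ τ : ℝ, 0 < τ → IsSmoothPeriodic (gt τ)) (hCg0 : 0 ≤ Cg)
    (hCg : ∀ τ : ℝ, 0 < τ → τ ≤ 1 → wn (N + 24) 1 (gt τ) ≤ Cg * τ)
    (h0 : wn N (hs τ₀ 0) (P.pert τ₀ U 0) < 1)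
    (hsm : (wn N (hs τ₀ 0) (P.pert τ₀ U 0) + Cg * K24 * τ₀)
        * Real.exp (((2 * m + 1) * (Cq + 1) ^ (2 * m) + 1) * S) ≤ 1 / 2) :
    ∀ σ ∈ Icc 0 S, wn N (hs τ₀ σ) (P.pert τ₀ U σ) ≤ 1 := by
  have hdec := udec_pert P hT h1 hτ hτ1 hU
  have hcc := cont_cf_pert P h1 hg hτ hU
  obtain ⟨B, hB0, hB⟩ := hdec (N + 24)
  have hfc : ContinuousOn (fun r => wn N (hs τ₀ r) (P.pert τ₀ U r)) (Icc 0 S) := by
    refine continuousOn_wsum (c := fun r k => cf (P.pert τ₀ U r) k)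
      (w := fun r k => (1 + hs τ₀ r * nk k) ^ N) hcc hB ?_ ?_ ?_
    · exact fun k =>
        ((continuous_const.add ((continuous_hs τ₀).mul continuous_const)).pow N).continuousOn
    · exact fun r _ k => by have := nk_nonneg k; have := hs_pos hτ r; positivity
    · intro r hr k
      have h2 := nk_nonneg k
      have h3 := hs_pos hτ r
      have h4 := hs_le_one hτ hτ1 hr.1
      gcongr
      nlinarith
  refine bootstrap hfc h0 fun σ hσ hle => ?_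
  have hsub : Icc 0 σ ⊆ Icc 0 S := Icc_subset_Icc_right hσ.2
  have hU' : P.ResSol τ₀ σ U :=
    ⟨fun r hr => hU.smooth r (hsub hr),
      fun M => (hU.bdd M).imp fun B hB r hr => hB r (hsub hr),
      fun r hr k => (hU.ode r (hsub hr) k).mono hsub⟩
  refine (low_bound P hN hT h1 hg hτ hτ1 hU' hm N hCq0 hCq hgs hCg0 hCg hle σ
    (right_mem_Icc.2 hσ.1)).trans (le_trans ?_ hsm)
  have hf0 : 0 ≤ wn N (hs τ₀ 0) (P.pert τ₀ U 0) := wn_nonneg N (hs_pos hτ 0).le _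
  have := K24_nonneg
  have hK : 0 ≤ (2 * m + 1) * (Cq + 1) ^ (2 * m) + 1 := by positivity
  refine mul_le_mul_of_nonneg_left (Real.exp_le_exp.2 ?_) (by positivity)
  exact mul_le_mul_of_nonneg_left hσ.2 hK

end

end

end Crest.Agent.R086.Grow
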