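import Crest.Agent.R086.GrowE

/-!
Row 86 (S0114), node GrowStep (helper263), file F: high norm a-priori estimate.
-/

set_option autoImplicit false

open MeasureTheory Complex Set
open scoped ContDiff Topology ComplexConjugate
open Crest.AnalysisR.PDE.NLS (IsSmoothPeriodic periodCell)

namespace Crest.Agent.R086.Grow

noncomputable section

open Profile

section

variable {n : ℕ} (P : Profile n) {τ₀ S : ℝ} {U : ℝ → R12 → ℂ} {gt : ℝ → R12 → ℂ}

/-- HIGH NORM. -/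
lemma high_bound (hN : TN) (hT : TF1) (h1 : TP1 P) (hg : EqT P gt) (hτ : 0 < τ₀) (hτ1 : τ₀ ≤ 1)
    (hU : P.ResSol τ₀ S U) {m : ℕ} (hm : n = 2 * m) (N s : ℕ) {Cq Cqs Cg Ch L : ℝ} (hCq0 : 0 ≤ Cq)
    (hCqs0 : 0 ≤ Cqs)
    (hCq : ∀ τ : ℝ, 0 < τ → τ ≤ 1 → wn N (Real.sqrt τ) (P.qt τ) ≤ Cq)
    (hCqs : ∀ τ : ℝ, 0 < τ → τ ≤ 1 → wn s (Real.sqrt τ) (P.qt τ) ≤ Cqs)
    (hgs : ∀ τ : ℝ, 0 < τ → IsSmoothPeriodic (gt τ)) (hCg0 : 0 ≤ Cg)
    (hCg : ∀ τ : ℝ, 0 < τ → τ ≤ 1 → wn (s + 24) 1 (gt τ) ≤ Cg * τ)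
    (hCh0 : 0 ≤ Ch)
    (hCh : ∀ a b : R12 → ℂ, IsSmoothPeriodic a →
      IsSmoothPeriodic b → ∀ h : ℝ, 0 ≤ h → ∀ M : ℝ, 1 ≤ M → l1 a ≤ M → l1 b ≤ M →
        hi s h (fun x => pm m (a x) - pm m (b x))
          ≤ cc m * M ^ (2 * m) * hi s h (fun x => a x - b x)
            + Ch * M ^ (2 * m) * (hi s h a + hi s h b) * l1 (fun x => a x - b x))
    (hs2 : cc m * (Cq + 1) ^ (2 * m) + 1 + 1 ≤ (s : ℝ) / 2)
    (hle : ∀ r ∈ Icc 0 S, wn N (hs τ₀ r) (P.pert τ₀ U r) ≤ 1)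
    (hL0 : 0 ≤ L) (hLle : ∀ r ∈ Icc 0 S, wn N (hs τ₀ r) (P.pert τ₀ U r) ≤ L)
    (hLsm : Ch * (Cq + 1) ^ (2 * m) * L ≤ 1) :
    ∀ σ ∈ Icc 0 S, hi s (hs τ₀ σ) (P.pert τ₀ U σ)
      ≤ Real.exp (-σ) * hi s (hs τ₀ 0) (P.pert τ₀ U 0)
        + (2 * Ch * (Cq + 1) ^ (2 * m) * Cqs * L + Cg * K24 * τ₀) := by
  intro σ₁ hσ₁
  set M : ℝ := Cq + 1 with hM
  have hM1 : 1 ≤ M := by linarith
  set K : ℝ := cc m * M ^ (2 * m) + 1 with hK
  have hcc0 := cc_nonneg m
  have hK0 : 0 ≤ K := by positivity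
  have h0S : (0 : ℝ) ∈ Icc 0 S := ⟨le_rfl, hσ₁.1.trans hσ₁.2⟩
  have hsp := sp_pert P h1 hτ hU
  have hdec := udec_pert P hT h1 hτ hτ1 hU
  have hccf := cont_cf_pert P h1 hg hτ hU
  set ρ : ℝ := Real.sqrt τ₀ with hρ
  have hρ0 : 0 < ρ := Real.sqrt_pos.2 hτ
  have hρ1 : ρ ≤ 1 := (Real.sqrt_le_sqrt hτ1).trans_eq Real.sqrt_one
  obtain ⟨B, hB0, hB⟩ := hdec (s + 24)
  have hw : ∀ k : Z12, ContinuousOn (fun _ : ℝ => (ρ * nk k) ^ s) (Icc 0 S) := fun k =>
    continuousOn_const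
  have hw0 : ∀ r ∈ Icc 0 S, ∀ k : Z12, 0 ≤ (ρ * nk k) ^ s := fun r _ k => by
    have := nk_nonneg k; positivity
  have hwN' : ∀ k : Z12, (ρ * nk k) ^ s ≤ (1 + nk k) ^ s := by
    intro k
    have h2 := nk_nonneg k
    gcongr
    nlinarith
  set f : ℝ → ℝ := fun r => hi s ρ (P.pert τ₀ U r) with hf
  have hfc : ContinuousOn f (Icc 0 S) :=
    continuousOn_wsum (c := fun r k => cf (P.pert τ₀ U r) k)
      (w := fun _ k => (ρ * nk k) ^ s) hccf hB hw hw0 (fun _ _ k => hwN' k)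
  have hK24 := K24_nonneg
  set β : ℝ := 2 * Ch * M ^ (2 * m) * Cqs * L + Cg * K24 * τ₀ with hβ
  have hβ0 : 0 ≤ β := by positivity
  have hγ := gt_coef (S := S) hT hgs hCg hCg0 hτ hτ1
  set lam : ℝ := (s : ℝ) / 2 with hlam
  -- integral inequality
  have key : ∀ σ ∈ Icc 0 S, f σ ≤ f 0 + ∫ r in (0 : ℝ)..σ, (K * f r + β * Real.exp (lam * r)) := by
    intro σ hσ
    have hs1 := sum_bound (S := S) (c := fun r k => cf (P.pert τ₀ U r) k)
      (b := fun r k => ‖cf (DN m U (qq P τ₀) r) k‖ + Cg * τ₀ * ((1 + nk k) ^ (s + 24))⁻¹)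
      (w := fun _ k => (ρ * nk k) ^ s)
      (G := fun r => K * f r + β * Real.exp (lam * r)) (L := f 0)
      (duhamel_pert P hN hT h1 hg hτ hτ1 hU hm hγ)
      (fun k => (cont_cf_DN P hN hT h1 hg hτ hτ1 hU m k).norm.add continuousOn_const)
      (fun r _ k => by have := one_add_nk_pos k; positivity) hw hw0 ?_ ?_ ?_ ?_ σ hσ
    · refine Real.tsum_le_of_sum_le (fun k => ?_) hs1
      exact mul_nonneg (hw0 σ hσ k) (norm_nonneg _)
    · intro k σ hσ r hr hrσ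
      exact le_rfl
    · exact (continuousOn_const.mul hfc).add (by fun_prop)
    · intro A r hr
      have hh := hs_pos hτ r
      have hh1 := hs_le_one hτ hτ1 hr.1
      have hDs : IsSmoothPeriodic (DN m U (qq P τ₀) r) :=
        sp_sub (sp_pm (hU.smooth r hr) m) (sp_pm (sp_qq P h1 hτ r) m)
      have hE1 : 1 ≤ Real.exp (lam * r) := Real.one_le_exp (mul_nonneg (by positivity) hr.1)
      -- sizes
      have hlq : l1 (qq P τ₀ r) ≤ Cq :=
        (hN.l1_le _ (sp_qq P h1 hτ r) N _ hh.le).trans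
          (hCq _ (tau_pos hτ r) ((tau_le hτ hr.1).trans hτ1))
      have hlW : l1 (P.pert τ₀ U r) ≤ L :=
        (hN.l1_le _ (hsp r hr) N _ hh.le).trans (hLle r hr)
      have hlW1 : l1 (P.pert τ₀ U r) ≤ 1 :=
        (hN.l1_le _ (hsp r hr) N _ hh.le).trans (hle r hr)
      have e : U r = fun x => qq P τ₀ r x + P.pert τ₀ U r x := by
        funext x; simp only [qq, Profile.pert]; ring
      have hlU : l1 (U r) ≤ M := by
        rw [e]
        have h6 := hN.wn_add _ _ (sp_qq P h1 hτ r) (hsp r hr) 0 0 le_rfl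
        simp only [wn_zero] at h6
        linarith
      have hhq : hi s ρ (qq P τ₀ r) ≤ Real.exp (lam * r) * Cqs := by
        have h6 := hi_scale hτ s r (qq P τ₀ r)
        have h7 : hi s (hs τ₀ r) (qq P τ₀ r) ≤ Cqs :=
          (hi_le_wn hT (sp_qq P h1 hτ r) s hh.le hh1).trans
            (hCqs _ (tau_pos hτ r) ((tau_le hτ hr.1).trans hτ1))
        have h8 : hi s ρ (qq P τ₀ r) = Real.exp (lam * r) * hi s (hs τ₀ r) (qq P τ₀ r) := by
          rw [h6, ← mul_assoc, ← Real.exp_add]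
          have h80 : lam * r + -((s : ℝ) / 2 * r) = 0 := by rw [hlam]; ring
          rw [h80, Real.exp_zero, one_mul]
        rw [h8]
        exact mul_le_mul_of_nonneg_left h7 (Real.exp_pos _).le
      have hhU : hi s ρ (U r) ≤ Real.exp (lam * r) * Cqs + f r := by
        rw [e]
        refine (hN.hi_add _ _ (sp_qq P h1 hτ r) (hsp r hr) s _ hρ0.le).trans ?_
        exact add_le_add hhq le_rfl
      have hfr : 0 ≤ f r := hi_nonneg s hρ0.le _
      have hl0 := l1_nonneg (P.pert τ₀ U r)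
      -- part 1
      have e1 : ∑ k ∈ A, (ρ * nk k) ^ s * ‖cf (DN m U (qq P τ₀) r) k‖
          ≤ K * f r + 2 * Ch * M ^ (2 * m) * Cqs * L * Real.exp (lam * r) := by
        refine ((summable_hi hT hDs s hρ0.le hρ1).sum_le_tsum A (fun k _ =>
          mul_nonneg (hw0 r hr k) (norm_nonneg _))).trans ?_
        have h9 := hCh (U r) (qq P τ₀ r) (hU.smooth r hr) (sp_qq P h1 hτ r) ρ hρ0.le M hM1 hlU
          (by linarith)
        refine h9.trans ?_
        have h10 : (fun x => U r x - qq P τ₀ r x) = P.pert τ₀ U r := rfl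
        rw [h10]
        have h11 : Ch * M ^ (2 * m) * (hi s ρ (U r) + hi s ρ (qq P τ₀ r)) * l1 (P.pert τ₀ U r)
            ≤ Ch * M ^ (2 * m) * (2 * (Real.exp (lam * r) * Cqs) + f r) * L := by
          refine mul_le_mul (mul_le_mul_of_nonneg_left (by linarith) (by positivity)) hlW hl0
            (by positivity)
        have h12 : Ch * M ^ (2 * m) * (2 * (Real.exp (lam * r) * Cqs) + f r) * L
            = 2 * Ch * M ^ (2 * m) * Cqs * L * Real.exp (lam * r) + (Ch * M ^ (2 * m) * L) * f r := by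
          ring
        have h13 : (Ch * M ^ (2 * m) * L) * f r ≤ 1 * f r := mul_le_mul_of_nonneg_right hLsm hfr
        have h14 : K * f r = cc m * M ^ (2 * m) * f r + 1 * f r := by rw [hK]; ring
        rw [h14]
        have h15 : hi s ρ (P.pert τ₀ U r) = f r := rfl
        rw [h15]
        linarith
      -- part 2
      have e2 : ∑ k ∈ A, (ρ * nk k) ^ s * (Cg * τ₀ * ((1 + nk k) ^ (s + 24))⁻¹)
          ≤ Cg * K24 * τ₀ := by
        calc ∑ k ∈ A, (ρ * nk k) ^ s * (Cg * τ₀ * ((1 + nk k) ^ (s + 24))⁻¹)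
            ≤ ∑ k ∈ A, Cg * τ₀ * ((1 + nk k) ^ 24)⁻¹ := by
              refine Finset.sum_le_sum fun k _ => ?_
              have hp := one_add_nk_pos k
              have e3 : Cg * τ₀ * ((1 + nk k) ^ 24)⁻¹
                  = (1 + nk k) ^ s * (Cg * τ₀ * ((1 + nk k) ^ (s + 24))⁻¹) := by
                rw [pow_add]; field_simp
              rw [e3]
              exact mul_le_mul_of_nonneg_right (hwN' k) (by positivity)
          _ = Cg * τ₀ * ∑ k ∈ A, ((1 + nk k) ^ 24)⁻¹ := by rw [Finset.mul_sum]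
          _ ≤ Cg * τ₀ * K24 := mul_le_mul_of_nonneg_left (sum_le_K24 A) (by positivity)
          _ = Cg * K24 * τ₀ := by ring
      have e4 : Cg * K24 * τ₀ ≤ Cg * K24 * τ₀ * Real.exp (lam * r) := by
        have : 0 ≤ Cg * K24 * τ₀ := by positivity
        nlinarith
      simp only [mul_add, Finset.sum_add_distrib]
      refine (add_le_add e1 (e2.trans e4)).trans (le_of_eq ?_)
      rw [hβ]
      ring
    · intro A
      exact (summable_hi hT (hsp 0 h0S) s hρ0.le hρ1).sum_le_tsum A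
        (fun k _ => mul_nonneg (hw0 0 h0S k) (norm_nonneg _))
  have hgr := gronwall_exp hK0 hs2 hβ0 hfc key σ₁ hσ₁
  have hf0 : 0 ≤ f 0 := hi_nonneg s hρ0.le _
  rw [hi_scale hτ s σ₁, hs_zero]
  have h5 : Real.exp (-(lam * σ₁)) * f σ₁
      ≤ Real.exp (-(lam * σ₁)) * (f 0 * Real.exp (K * σ₁) + β * Real.exp (lam * σ₁)) :=
    mul_le_mul_of_nonneg_left hgr (Real.exp_pos _).le
  refine h5.trans ?_
  have h6 : Real.exp (-(lam * σ₁)) * (f 0 * Real.exp (K * σ₁) + β * Real.exp (lam * σ₁))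
      = Real.exp (-(lam * σ₁) + K * σ₁) * f 0 + β * Real.exp (-(lam * σ₁) + lam * σ₁) := by
    rw [Real.exp_add, Real.exp_add]; ring
  rw [h6]
  have h7 : -(lam * σ₁) + lam * σ₁ = 0 := by ring
  rw [h7, Real.exp_zero, mul_one]
  refine add_le_add (mul_le_mul_of_nonneg_right (Real.exp_le_exp.2 ?_) hf0) le_rfl
  have : K + 1 ≤ lam := hs2
  nlinarith [hσ₁.1]

end

end

end Crest.Agent.R086.Grow
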