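import Crest.Agent.R086.GrowF
import Crest.Agent.R086.TSVar

/-!
Row 86 (S0114), node GrowStep (helper263), file G: existence on the step and the final theorem.
-/

set_option autoImplicit false

open MeasureTheory Complex Set
open scoped ContDiff Topology ComplexConjugate
open Crest.AnalysisR.PDE.NLS (IsSmoothPeriodic periodCell)

namespace Crest.Agent.R086.Grow

noncomputable section

open Profile

set_option maxHeartbeats 1000000 in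
/-- All a-priori estimates of one step. -/
theorem apriori {n : ℕ} (P : Profile n) (N : ℕ) (hN : TN) (hT : TF1) (h1 : TP1 P) (h2 : TP2 P) :
    ∃ s : ℕ, N + 1 ≤ s ∧ ∀ S : ℝ, 1 ≤ S → ∃ C r τ₁ : ℝ, 1 ≤ C ∧ 0 < r ∧ 0 < τ₁ ∧ τ₁ ≤ 1 ∧
      ∀ τ₀ : ℝ, 0 < τ₀ → τ₀ ≤ τ₁ → ∀ S' : ℝ, S' ≤ S → ∀ U, P.ResSol τ₀ S' U →
        wn N (Real.sqrt τ₀) (P.pert τ₀ U 0) ≤ r →
        (∀ σ ∈ Set.Icc 0 S', wn N (hs τ₀ σ) (P.pert τ₀ U σ) ≤ 1 ∧
          wn N (hs τ₀ σ) (P.pert τ₀ U σ) ≤ C * (wn N (Real.sqrt τ₀) (P.pert τ₀ U 0) + τ₀)) ∧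
        (∀ σ ∈ Set.Icc 0 S', hi s (hs τ₀ σ) (P.pert τ₀ U σ) ≤
          Real.exp (-σ) * hi s (Real.sqrt τ₀) (P.pert τ₀ U 0)
            + C * (wn N (Real.sqrt τ₀) (P.pert τ₀ U 0) + τ₀)) := by
  obtain ⟨m, hm0⟩ := P.neven
  have hm : n = 2 * m := by omega
  obtain ⟨gt, hgs, hgb, hg⟩ := h2
  have hgE : EqT P gt := hg
  obtain ⟨Cq, hCq0, hCq'⟩ := h1.2 N
  have hCq : ∀ τ : ℝ, 0 < τ → τ ≤ 1 → wn N (Real.sqrt τ) (P.qt τ) ≤ Cq := fun τ a b =>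
    (hCq' τ a b).1
  set M : ℝ := Cq + 1 with hM
  have hM1 : 1 ≤ M := by linarith
  have hcc0 := cc_nonneg m
  set Kh : ℝ := cc m * M ^ (2 * m) + 1 with hKh
  have hKh0 : 0 ≤ Kh := by positivity
  obtain ⟨s, hs1, hs2⟩ : ∃ s : ℕ, N + 1 ≤ s ∧ Kh + 1 ≤ (s : ℝ) / 2 := by
    refine ⟨max (N + 1) ⌈2 * (Kh + 1)⌉₊, le_max_left _ _, ?_⟩
    have e1 : 2 * (Kh + 1) ≤ (⌈2 * (Kh + 1)⌉₊ : ℝ) := Nat.le_ceil _
    have e2 : ((⌈2 * (Kh + 1)⌉₊ : ℕ) : ℝ) ≤ ((max (N + 1) ⌈2 * (Kh + 1)⌉₊ : ℕ) : ℝ) := by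
      exact_mod_cast le_max_right _ _
    linarith
  obtain ⟨Ch, hCh0, hCh⟩ := hi_pm_diff hN s m
  obtain ⟨Cqs, hCqs0, hCqs'⟩ := h1.2 s
  have hCqs : ∀ τ : ℝ, 0 < τ → τ ≤ 1 → wn s (Real.sqrt τ) (P.qt τ) ≤ Cqs := fun τ a b =>
    (hCqs' τ a b).1
  obtain ⟨Cg1, hCg10, hCg1⟩ := hgb (N + 24)
  obtain ⟨Cg2, hCg20, hCg2⟩ := hgb (s + 24)
  have hK24 := K24_nonneg
  refine ⟨s, hs1, fun S hS => ?_⟩
  set K : ℝ := (2 * m + 1) * M ^ (2 * m) with hK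
  have hK0 : 0 ≤ K := by positivity
  set E : ℝ := Real.exp ((K + 1) * S) with hE
  have hE1 : 1 ≤ E := Real.one_le_exp (by positivity)
  set C1 : ℝ := (1 + Cg1 * K24) * E with hC1
  have hC11 : 1 ≤ C1 := by
    have : 0 ≤ Cg1 * K24 := by positivity
    exact one_le_mul_of_one_le_of_one_le (le_add_of_nonneg_right this) hE1
  set C2 : ℝ := 2 * Ch * M ^ (2 * m) * Cqs * C1 + Cg2 * K24 with hC2
  have hC20 : 0 ≤ C2 := by positivity
  set D : ℝ := Ch * M ^ (2 * m) + 2 with hD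
  have hD2 : 2 ≤ D := by have : 0 ≤ Ch * M ^ (2 * m) := by positivity
                         linarith
  -- size parameter
  obtain ⟨r, hr⟩ : ∃ r : ℝ, r = 1 / (2 * C1 * D) := ⟨_, rfl⟩
  have hr0 : 0 < r := by rw [hr]; positivity
  have hr1 : r ≤ 1 / 4 := by
    rw [hr, div_le_div_iff₀ (by positivity) (by norm_num)]
    nlinarith
  have hrD : C1 * (r + r) = 1 / D := by
    rw [hr]; field_simp; norm_num
  refine ⟨C1 + C2, r, r, by linarith, hr0, hr0, by linarith, ?_⟩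
  intro τ₀ hτ hτr S' hS' U hU hW
  have hτ1 : τ₀ ≤ 1 := by linarith
  rcases lt_or_ge S' 0 with hneg | hS'0
  · constructor
    · intro σ hσ; exact absurd (hσ.1.trans hσ.2) (not_le.2 hneg)
    · intro σ hσ; exact absurd (hσ.1.trans hσ.2) (not_le.2 hneg)
  set w0 : ℝ := wn N (Real.sqrt τ₀) (P.pert τ₀ U 0) with hw0
  have hz : wn N (hs τ₀ 0) (P.pert τ₀ U 0) = w0 := by rw [hs_zero]
  have hw00 : 0 ≤ w0 := wn_nonneg N (Real.sqrt_nonneg _) _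
  -- smallness
  have hlin : ∀ T : ℝ, T ≤ S → (w0 + Cg1 * K24 * τ₀) * Real.exp ((K + 1) * T) ≤ C1 * (w0 + τ₀) := by
    intro T hT'
    have e1 : Real.exp ((K + 1) * T) ≤ E :=
      Real.exp_le_exp.2 (mul_le_mul_of_nonneg_left hT' (by positivity))
    have e2 : 0 ≤ Cg1 * K24 := by positivity
    have e3 : w0 + Cg1 * K24 * τ₀ ≤ (1 + Cg1 * K24) * (w0 + τ₀) := by
      have : 0 ≤ Cg1 * K24 * w0 := by positivity
      nlinarith
    calc (w0 + Cg1 * K24 * τ₀) * Real.exp ((K + 1) * T)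
        ≤ ((1 + Cg1 * K24) * (w0 + τ₀)) * E :=
          mul_le_mul e3 e1 (Real.exp_pos _).le (by positivity)
      _ = C1 * (w0 + τ₀) := by rw [hC1]; ring
  have hsmall : C1 * (w0 + τ₀) ≤ 1 / D := by
    rw [← hrD]
    exact mul_le_mul_of_nonneg_left (add_le_add hW hτr) (by linarith)
  have hD12 : 1 / D ≤ 1 / 2 := by
    rw [div_le_div_iff₀ (by linarith) (by norm_num)]; linarith
  have hboot := low_boot P hN hT h1 hgE hτ hτ1 hU hm N hCq0 hCq hgs hCg10 hCg1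
    (by rw [hz]; linarith) (by rw [hz]; exact (hlin S' hS').trans (hsmall.trans hD12))
  have hlow : ∀ σ ∈ Icc 0 S', wn N (hs τ₀ σ) (P.pert τ₀ U σ) ≤ C1 * (w0 + τ₀) := by
    intro σ hσ
    have := low_bound P hN hT h1 hgE hτ hτ1 hU hm N hCq0 hCq hgs hCg10 hCg1 hboot σ hσ
    rw [hz] at this
    exact this.trans (hlin σ (hσ.2.trans hS'))
  constructor
  · intro σ hσ
    refine ⟨hboot σ hσ, (hlow σ hσ).trans ?_⟩
    exact mul_le_mul_of_nonneg_right (by linarith) (by positivity)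
  · intro σ hσ
    have h3 := high_bound P hN hT h1 hgE hτ hτ1 hU hm N s (L := C1 * (w0 + τ₀)) hCq0 hCqs0 hCq hCqs
      hgs hCg20 hCg2 hCh0 hCh hs2 hboot (by positivity) hlow ?_ σ hσ
    · rw [hs_zero] at h3
      refine h3.trans (add_le_add le_rfl ?_)
      have e1 : 2 * Ch * M ^ (2 * m) * Cqs * (C1 * (w0 + τ₀)) + Cg2 * K24 * τ₀
          ≤ C2 * (w0 + τ₀) := by
        calc 2 * Ch * M ^ (2 * m) * Cqs * (C1 * (w0 + τ₀)) + Cg2 * K24 * τ₀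
            ≤ 2 * Ch * M ^ (2 * m) * Cqs * C1 * (w0 + τ₀) + Cg2 * K24 * (w0 + τ₀) :=
              add_le_add (le_of_eq (mul_assoc _ _ _).symm)
                (mul_le_mul_of_nonneg_left (le_add_of_nonneg_left hw00) (by positivity))
          _ = C2 * (w0 + τ₀) := (add_mul _ _ _).symm
      have e2 : 0 ≤ C1 * (w0 + τ₀) := by positivity
      have e3 : C1 * (w0 + τ₀) + C2 * (w0 + τ₀) = (C1 + C2) * (w0 + τ₀) := (add_mul _ _ _).symm
      exact (e1.trans (le_add_of_nonneg_left e2)).trans (le_of_eq e3)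
    · have e1 : Ch * M ^ (2 * m) ≤ D := by rw [hD]; exact le_add_of_nonneg_right zero_le_two
      have e2 : 0 ≤ Ch * M ^ (2 * m) := by positivity
      calc Ch * (Cq + 1) ^ (2 * m) * (C1 * (w0 + τ₀)) ≤ D * (1 / D) :=
            mul_le_mul e1 hsmall (by positivity) (by linarith)
        _ = 1 := by field_simp

end

end Crest.Agent.R086.Grow
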