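import Crest.Agent.R086.GrowG

/-!
Row 86 (S0114), node GrowStep (helper263), file H: existence on the step and the final theorem.
-/

set_option autoImplicit false

open MeasureTheory Complex Set
open scoped ContDiff Topology ComplexConjugate
open Crest.AnalysisR.PDE.NLS (IsSmoothPeriodic periodCell)

namespace Crest.Agent.R086.Grow

noncomputable section

open Profile

/-- conversion of a solution started at time `0` with blow-up time `τ₀` -/
def conv {n : ℕ} (P : Profile n) (τ₀ : ℝ) (u : ℝ → R12 → ℂ) : ℝ → R12 → ℂ :=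
  fun σ x => (P.amp ⟨τ₀, 0, 0⟩ (τ₀ - τ₀ * Real.exp (-σ)))⁻¹ * u (τ₀ - τ₀ * Real.exp (-σ)) x

lemma conv_resSol {n : ℕ} (P : Profile n) (h1 : TF1) (h2 : TF2) {τ₀ S t : ℝ} (hτ : 0 < τ₀)
    {u : ℝ → R12 → ℂ} (hu : IsSol n (Icc 0 t) u) (ht : t = τ₀ - Real.exp (-S) * τ₀) :
    P.ResSol τ₀ S (conv P τ₀ u) := by
  have := TS.resSol_of_isSol P h1 h2 hτ (⟨τ₀, 0, 0⟩ : Par) (t₀ := 0) (t₁ := t) hu (sub_zero _) ht
  simp only [add_zero] at this
  exact this

lemma l1_smul (hN : TN) (c : ℂ) (v : R12 → ℂ) : l1 (fun x => c * v x) = ‖c‖ * l1 v := by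
  have := hN.wn_smul v c 0 0
  simpa only [wn_zero] using this

theorem growStep {n : ℕ} (P : Profile n) (N : ℕ) (hN : TN) (h1 : TF1) (h2 : TF2) (h3 : TC3)
    (hP1 : TP1 P) (hP2 : TP2 P) : GrowStep P N := by
  obtain ⟨s, hs1, hap⟩ := apriori P N hN h1 hP1 hP2
  refine ⟨s, hs1, fun S hS => ?_⟩
  obtain ⟨C, r, τ₁, hC, hr, hτ₁, hτ₁1, hap⟩ := hap S hS
  refine ⟨C, r, τ₁, hC, hr, hτ₁, hτ₁1, fun τ₀ hτ hττ W₀ hW₀ hrW => ?_⟩
  have hτ1 : τ₀ ≤ 1 := hττ.trans hτ₁1
  have hn0 : n ≠ 0 := by have := P.two_le; omega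
  set a : Par := ⟨τ₀, 0, 0⟩ with ha
  have hsq : IsSmoothPeriodic (P.qt τ₀) := (hP1.1 τ₀ hτ).1
  set u₀ : R12 → ℂ := fun x => P.amp a 0 * (P.qt τ₀ x + W₀ x) with hu₀
  have hu₀s : IsSmoothPeriodic u₀ := sp_smul _ (sp_add hsq hW₀)
  have hamp0 : P.amp a 0 ≠ 0 := TS.amp_ne_zero P a 0 (by simpa [ha] using hτ)
  -- initial value of the converted solution
  have hinit : ∀ v : ℝ → R12 → ℂ, v 0 = u₀ → ∀ x, conv P τ₀ v 0 x = P.qt τ₀ x + W₀ x := by
    intro v hv x
    have e0 : τ₀ - τ₀ * Real.exp (-0) = 0 := by simp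
    unfold conv
    rw [e0, hv, hu₀]
    show (P.amp a 0)⁻¹ * (P.amp a 0 * (P.qt τ₀ x + W₀ x)) = _
    rw [← mul_assoc, inv_mul_cancel₀ hamp0, one_mul]
  have hpert : ∀ v : ℝ → R12 → ℂ, v 0 = u₀ → P.pert τ₀ (conv P τ₀ v) 0 = W₀ := by
    intro v hv
    funext x
    have e0 : τ₀ * Real.exp (-0) = τ₀ := by simp
    unfold Profile.pert
    rw [hinit v hv x, e0]
    ring
  obtain ⟨Cq, hCq0, hCq⟩ := hP1.2 N
  set R : ℝ := (Real.exp (-S) * τ₀) ^ (-(1 / (n : ℝ))) * (Cq + 1) with hR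
  have hR0 : 0 < R := mul_pos (Real.rpow_pos_of_pos (by positivity) _) (by linarith)
  have hES : Real.exp (-S) ≤ 1 := by rw [Real.exp_le_one_iff]; linarith
  obtain ⟨u, hu, hu0⟩ := h3 n P.neven P.two_le 0 (τ₀ - Real.exp (-S) * τ₀) R u₀ (by nlinarith) hR0
    hu₀s (by
      intro t ht v hv hv0
      have hpos : 0 < τ₀ - t := by
        have := ht.2
        have : 0 < Real.exp (-S) * τ₀ := by positivity
        linarith
      set S' : ℝ := -Real.log ((τ₀ - t) / τ₀) with hS'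
      have hexp : Real.exp (-S') = (τ₀ - t) / τ₀ := by
        rw [hS', neg_neg, Real.exp_log (by positivity)]
      have hS'0 : 0 ≤ S' := by
        have : (τ₀ - t) / τ₀ ≤ 1 := by rw [div_le_one hτ]; linarith [ht.1]
        have := Real.log_nonpos (by positivity) this
        linarith
      have hS'S : S' ≤ S := by
        have e1 : Real.exp (-S) ≤ Real.exp (-S') := by
          rw [hexp, le_div_iff₀ hτ]; linarith [ht.2]
        have := Real.exp_le_exp.1 e1
        linarith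
      have htS : t = τ₀ - Real.exp (-S') * τ₀ := by
        rw [hexp]; field_simp; ring
      have htS' : τ₀ - τ₀ * Real.exp (-S') = t := by rw [htS]; ring
      have hV := conv_resSol P h1 h2 hτ hv htS
      have hest := (hap τ₀ hτ hττ S' hS'S _ hV (by rw [hpert v hv0]; exact hrW)).1 S'
        (right_mem_Icc.2 hS'0)
      have hhp := hs_pos hτ S'
      -- l1 of the rescaled solution
      have hVs : IsSmoothPeriodic (conv P τ₀ v S') := hV.smooth S' (right_mem_Icc.2 hS'0)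
      have hl : l1 (conv P τ₀ v S') ≤ Cq + 1 := by
        have e : conv P τ₀ v S' = fun x => qq P τ₀ S' x + P.pert τ₀ (conv P τ₀ v) S' x := by
          funext x; simp only [qq, Profile.pert]; ring
        have hps := sp_pert P hP1 hτ hV S' (right_mem_Icc.2 hS'0)
        have hqs := sp_qq P hP1 hτ S'
        refine (hN.l1_le _ hVs N _ hhp.le).trans ?_
        rw [e]
        refine (hN.wn_add _ _ hqs hps N _ hhp.le).trans ?_
        have e2 : wn N (hs τ₀ S') (qq P τ₀ S') ≤ Cq :=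
          (hCq _ (tau_pos hτ S') ((tau_le hτ hS'0).trans hτ1)).1
        exact add_le_add e2 hest.1
      have hvt : v t = fun x => P.amp a t * conv P τ₀ v S' x := by
        funext x
        unfold conv
        rw [htS']
        have hne : P.amp a t ≠ 0 := TS.amp_ne_zero P a t (by simpa [ha] using hpos)
        show v t x = P.amp a t * ((P.amp a t)⁻¹ * v t x)
        rw [← mul_assoc, mul_inv_cancel₀ hne, one_mul]
      rw [hvt, l1_smul hN, TS.norm_amp P a t (by simpa [ha] using hpos)]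
      refine mul_le_mul ?_ hl (l1_nonneg _) (Real.rpow_nonneg (by positivity) _)
      refine Real.rpow_le_rpow_of_nonpos (by positivity) ?_ ?_
      · have : a.T = τ₀ := rfl
        rw [this]
        linarith [ht.2]
      · have : 0 < (n : ℝ) := Nat.cast_pos.2 (Nat.pos_of_ne_zero hn0)
        have : 0 < 1 / (n : ℝ) := by positivity
        linarith)
  have hV := conv_resSol P h1 h2 hτ hu rfl
  have hp := hpert u hu0
  obtain ⟨hA, hB⟩ := hap τ₀ hτ hττ S le_rfl _ hV (by rw [hp]; exact hrW)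
  rw [hp] at hA hB
  exact ⟨conv P τ₀ u, hV, hinit u hu0, hA, hB⟩

end

end Crest.Agent.R086.Grow
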