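import Mathlib
import Crest.Agent.R086.ABIface
import Crest.Agent.R086.A2Data
import Crest.Agent.R086.ALower
import Crest.Agent.R086.A4Out
import Crest.Agent.R086.FxAll

/-!
Row 86, Part A (helper522): final assembly `partA : PartA`.
-/

set_option autoImplicit false

open Complex Set

namespace Crest.Agent.R086.A

/-- 444's `W` at `a = -i om`, `b = 6` is 592's `W om`. -/
theorem fo_eq_Ur {om r : ℝ} (hr : 0 < r) : fo 0 (-(I * om)) r = A3.Ur om r := by
  have h0 : (0 : ℝ) < r ^ 2 / 4 := by positivity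
  unfold A3.Ur
  rw [A3.W_eq om h0]
  unfold fo JCx.W
  simp only [JInt.J, JCx.J]
  have e1 : -(I * (om : ℂ)) + ((0 : ℕ) : ℂ) / 2 = -(I * om) := by push_cast; ring
  have e2 : ((0 : ℕ) : ℂ) + 6 - (-(I * (om : ℂ)) + ((0 : ℕ) : ℂ) / 2) - 2 = 4 + I * om := by
    push_cast; ring
  have e3 : -(I * (om : ℂ)) + ((0 : ℕ) : ℂ) / 2 + 1 = 1 - I * om := by push_cast; ring
  have e4 : -(I * (om : ℂ)) + ((0 : ℕ) : ℂ) / 2 + 2 = 2 - I * om := by push_cast; ring
  have e5 : -(I * (om : ℂ)) + ((0 : ℕ) : ℂ) / 2 + 1 - (((0 : ℕ) : ℂ) + 6) = -5 - I * om := by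
    push_cast; ring
  rw [e5, e2, e3, e4, pow_zero, one_mul]
  rfl

theorem partA : PartA := by
  obtain ⟨om, R, hom, hrho, hR, -, -, hfo, hfo1, hJ, -, -, hnd⟩ := A2.data
  have h1 := hom.1
  have h2 := hom.2
  have h3 := hrho.1
  have h4 := hrho.2
  have hj5 : A3.j5 om (R ^ 2 / 4) = 0 := hJ
  have hW := A4.export_wr hR (by linarith : om ≠ 0) hfo1
    (fun l _ => A4.thmV l om (by positivity)) (Fx.certs h1 h2 h3 h4) (A4.outside (by linarith) (by linarith) (by linarith) (by linarith))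
  obtain ⟨w1, w2, w3, w4, w5, w6, w7⟩ := hW
  exact ⟨{
    om := om
    R := R
    om_mem := hom
    rho_mem := hrho
    R_pos := hR
    fo_ne := hfo
    fo1_zero := hfo1
    nondeg := hnd
    anti := by
      have h := A3.norm_strictAnti (by linarith) (by linarith) hR hj5
      intro x hx y hy hxy
      have := h hx hy hxy
      simp only at this ⊢
      rw [fo_eq_Ur (hR.trans_le hx), fo_eq_Ur (hR.trans_le hy)]
      exact this
    lower := by
      intro r hr
      rw [fo_eq_Ur hR, fo_eq_Ur (hR.trans_le hr)]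
      exact A3.lower h1 h2 hR h3 h4 hj5 hr
    wr_ne := w1
    zero0 := w2
    zero1 := w3
    zero2 := w4
    simple0 := w5
    simple1 := w6
    simple2 := w7 }⟩

end Crest.Agent.R086.A
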