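import Crest.Agent.R086.PartB
import Crest.Agent.R086.BExtFin

/-! # Row 86: Part B, final theorem (helper651) -/

set_option autoImplicit false

namespace Crest.Agent.R086.B

/-- **PART B**: from the limit data of Part A, the sequence of finite-`n` profiles with all bounds. -/
theorem partB (D : A.AData) : Nonempty (BData D.om D.R (BLim.U D)) :=
  partB_of_ext D (fun rho h rX => BExt.extStmt D rho rX h)

end Crest.Agent.R086.B
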