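import Crest.Agent.R086.Defs

set_option autoImplicit false
open MeasureTheory
open scoped ContDiff
open Crest.AnalysisR.PDE.NLS

namespace Crest.Agent.R086

/-- Assembly of S0114 from the two targets. -/
theorem top (h1 : ProfileThm) (h2 : NonlinearThm) (p₀ : ℕ) :
    ∃ p : ℕ, p₀ ≤ p ∧ Odd p ∧ 3 ≤ p ∧ ∃ k : ℕ, 8 < k ∧ ∃ U : Set (Crest.AnalysisR.PDE.NLS.R12 → ℂ), U.Nonempty ∧
      (∀ v ∈ U, IsSmoothPeriodic v) ∧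
      (∀ u₀ ∈ U, ∃ δ : ℝ, 0 < δ ∧ ∀ v : Crest.AnalysisR.PDE.NLS.R12 → ℂ, IsSmoothPeriodic v → sobolevDistSq k v u₀ < δ → v ∈ U) ∧
      ∀ u₀ ∈ U, ∃ T : ℝ, 0 < T ∧ ∃ u : ℝ → Crest.AnalysisR.PDE.NLS.R12 → ℂ, IsClassicalSolution p T u ∧ u 0 = u₀ ∧
        ∃ xs : Crest.AnalysisR.PDE.NLS.R12, ∃ c₀ : ℝ, 0 < c₀ ∧
          Filter.Tendsto (fun t : ℝ => (T - t) ^ (1 / ((p : ℝ) - 1)) * ‖u t xs‖)
            (nhdsWithin T (Set.Iio T)) (nhds c₀) := by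
  obtain ⟨n, hn, P, hP⟩ := h1 p₀
  have hB := h2 n P hP
  refine ⟨n + 1, by omega, P.neven.add_one, by have := P.two_le; omega, hB⟩

end Crest.Agent.R086
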