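import Crest.Agent.R086.SHFinal
import Crest.Agent.R086.BCIface
import Crest.Agent.R086.Top

/-!
Row 86: assembly of `ProfileThm` from Part B (`BData`) and Part C (`CGood`) (helper512).
-/

set_option autoImplicit false

open MeasureTheory Complex Set Filter Topology

namespace Crest.Agent.R086

/-- `ProfileThm` from the output of Part B and Part C. -/
theorem profileThm_of_BData {om0 R : ℝ} {U : ℝ → ℂ} (B : BData om0 R U) (h : B.CGood) :
    ProfileThm := by
  intro n₀
  have h1 : ∀ᶠ j in atTop, n₀ ≤ B.nn j := B.nn_tendsto.eventually_ge_atTop n₀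
  obtain ⟨j, hj1, hj2⟩ := (h1.and h).exists
  exact ⟨B.nn j, hj1, B.P j, specGood_of_modeGood (B.P j) (by norm_num) hj2⟩

/-- S0114 from Parts B, C, D. -/
theorem S0114_of {om0 R : ℝ} {U : ℝ → ℂ} (B : BData om0 R U) (hC : B.CGood) (hD : NonlinearThm)
    (p₀ : ℕ) :
    ∃ p : ℕ, p₀ ≤ p ∧ Odd p ∧ 3 ≤ p ∧ BlowupConcl p := by
  obtain ⟨n, hn, P, hP⟩ := profileThm_of_BData B hC p₀
  exact ⟨n + 1, by omega, P.neven.add_one, by have := P.two_le; omega, hD n P hP⟩

end Crest.Agent.R086
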