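import Crest.Agent.R086.Modul4

/-!
Row 86 (S0114), Part D-torus, node Modul (helper544): final theorem `modul : Modul P N s`.
-/

set_option autoImplicit false

open MeasureTheory Complex Set Filter
open scoped ContDiff Topology
open Crest.AnalysisR.PDE.NLS (IsSmoothPeriodic)

namespace Crest.Agent.R086.MOD

noncomputable section

variable {n : ℕ} (P : Profile n)

theorem tn : TN := TNl.tn_of tf1 tf2

theorem cpow_eq (τ l : ℝ) (hτ : 0 < τ) (hl : 0 < l) (z : ℂ) :
    ((τ * l : ℝ) : ℂ) ^ z = ((τ : ℝ) : ℂ) ^ z * exp (z * ((Real.log l : ℝ) : ℂ)) := by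
  have h1 : ((τ * l : ℝ) : ℂ) ≠ 0 := by exact_mod_cast (mul_pos hτ hl).ne'
  have h2 : ((τ : ℝ) : ℂ) ≠ 0 := by exact_mod_cast hτ.ne'
  rw [Complex.cpow_def_of_ne_zero h1, Complex.cpow_def_of_ne_zero h2, ← Complex.exp_add,
    ← Complex.ofReal_log (mul_pos hτ hl).le, ← Complex.ofReal_log hτ.le,
    Real.log_mul hτ.ne' hl.ne']
  congr 1
  push_cast
  ring

theorem norm_amp (a : Par) (t : ℝ) (h : 0 < a.T - t) :
    ‖P.amp a t‖ = (a.T - t) ^ (-(1 / (n : ℝ))) := by
  unfold Profile.amp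
  rw [norm_mul, Complex.norm_cpow_eq_rpow_re_of_pos h]
  have h1 : ‖exp (I * (a.th : ℂ))‖ = 1 := by
    rw [mul_comm, Complex.norm_exp_ofReal_mul_I]
  rw [h1, one_mul]
  congr 1
  exact zz_re P

/-- the difference in the original variables -/
theorem diff_eq (a : Par) (t : ℝ) (b : MIx → ℝ) (h : 0 < a.T - t) (hb : |b (some none)| ≤ 1 / 4)
    (x : R12) :
    P.prof (Profile.shift a b t) t x - P.prof a t x - ∑ m, (b m : ℂ) * P.pmode a m t x =
      P.amp a t * D0 P b (a.T - t) (x + (-a.x)) := by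
  have hT : (Profile.shift a b t).T - t = (a.T - t) * lam (b (some none)) 1 := by
    simp only [Profile.shift, lam]; ring
  have hl : 0 < lam (b (some none)) 1 := by
    have := (lam_bounds hb (θ := 1) ⟨zero_le_one, le_rfl⟩).1; linarith
  have hamp : P.amp (Profile.shift a b t) t = P.amp a t * EE (zz P) (b (some none)) (b none) 1 := by
    unfold Profile.amp
    rw [hT, cpow_eq _ _ h hl]
    unfold EE
    rw [Complex.exp_add]
    have h1 : exp (I * ((Profile.shift a b t).th : ℂ)) = exp (I * (a.th : ℂ)) * exp (I * (b none : ℂ)) := by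
      rw [← Complex.exp_add]
      simp only [Profile.shift]
      congr 1
      push_cast
      ring
    rw [h1]
    have h2 : -(1 / (n : ℂ)) + I * (P.om : ℂ) = zz P := rfl
    rw [h2]
    push_cast
    ring
  have hx : x - (Profile.shift a b t).x = (x + (-a.x)) + Real.sqrt (a.T - t) • bx b := by
    simp only [Profile.shift, bx]
    abel
  unfold Profile.prof Profile.pmode D0
  rw [hamp, hT, hx, sub_eq_add_neg x a.x, mul_sub, mul_sub, Finset.mul_sum]
  congr 1
  · ring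
  · apply Finset.sum_congr rfl
    intro m _
    ring

theorem tsum_le_core {M0 : ℕ} {K : ℝ} {c : Z12 → ℂ} {h0 : ℝ}
    (hK : ∀ F : Finset Z12, ∑ k ∈ F, (1 + h0 * nk k) ^ M0 * ‖c k‖ ≤ K)
    (w : Z12 → ℝ) (hw0 : ∀ k, 0 ≤ w k) (hw : ∀ k, w k ≤ (1 + h0 * nk k) ^ M0) :
    ∑' k, w k * ‖c k‖ ≤ K := by
  apply Real.tsum_le_of_sum_le
  · intro k; exact mul_nonneg (hw0 k) (norm_nonneg _)
  · intro F
    refine le_trans (Finset.sum_le_sum fun k _ => ?_) (hK F)
    exact mul_le_mul_of_nonneg_right (hw k) (norm_nonneg _)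

theorem one_add_pow_le3 {β : ℝ} (h0 : 0 ≤ β) (h1 : β ≤ 1) (m : ℕ) :
    (1 + β) ^ m ≤ 1 + 3 ^ m * β := by
  induction m with
  | zero => simp; linarith
  | succ m ih =>
    rw [pow_succ, pow_succ]
    have h3 : (1 : ℝ) ≤ 3 ^ m := one_le_pow₀ (by norm_num)
    have h4 : (1 + β) ^ m * (1 + β) ≤ (1 + 3 ^ m * β) * (1 + β) :=
      mul_le_mul_of_nonneg_right ih (by linarith)
    refine h4.trans ?_
    nlinarith [mul_nonneg (by linarith : (0 : ℝ) ≤ 3 ^ m) h0,
      mul_nonneg (mul_nonneg (by linarith : (0 : ℝ) ≤ 3 ^ m) h0) (by linarith : (0 : ℝ) ≤ 1 - β)]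

/-- change of scale -/
theorem scale_w (N s : ℕ) (μ : ℝ) (hμ : 0 < μ) {τ τ' β : ℝ} (hτ : 0 < τ) (hτ' : 0 < τ')
    (hβ0 : 0 ≤ β) (hβ1 : β ≤ 1) (h : τ' ≤ τ * (1 + β)) (hn : 0 < 1 / (n : ℝ)) (hn1 : 1 / (n : ℝ) ≤ 1)
    (w : R12 → ℂ) (hw : IsSmoothPeriodic w) :
    nrm n N s μ τ' w ≤ (1 + 3 ^ (1 + N + s) * β) * nrm n N s μ τ w := by
  have hnk : ∀ k : Z12, 0 ≤ nk k := fun k => norm_nonneg _
  have hrd := TNl.rd_cf tf1 hw
  have hs : 0 < Real.sqrt τ := Real.sqrt_pos.2 hτ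
  have hsq : Real.sqrt τ' ≤ (1 + β) * Real.sqrt τ := by
    have h1 : τ' ≤ (1 + β) ^ 2 * τ := by nlinarith [mul_nonneg hβ0 hτ.le]
    calc Real.sqrt τ' ≤ Real.sqrt ((1 + β) ^ 2 * τ) := Real.sqrt_le_sqrt h1
      _ = (1 + β) * Real.sqrt τ := by
        rw [Real.sqrt_mul (by positivity), Real.sqrt_sq (by linarith)]
  have h1β : 0 ≤ 1 + β := by linarith
  have hwn : wn N (Real.sqrt τ') w ≤ (1 + β) ^ N * wn N (Real.sqrt τ) w := by
    unfold wn
    rw [← tsum_mul_left]
    apply Summable.tsum_le_tsum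
    · intro k
      rw [← mul_assoc, ← mul_pow]
      apply mul_le_mul_of_nonneg_right _ (norm_nonneg _)
      apply pow_le_pow_left₀
      · have := hnk k; positivity
      · have := mul_le_mul_of_nonneg_right hsq (hnk k)
        nlinarith [hnk k]
    · exact hrd.summable_wt N (Real.sqrt_nonneg _)
    · exact (hrd.summable_wt N (Real.sqrt_nonneg _)).mul_left _
  have hhi : hi s (Real.sqrt τ') w ≤ (1 + β) ^ s * hi s (Real.sqrt τ) w := by
    unfold hi
    rw [← tsum_mul_left]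
    apply Summable.tsum_le_tsum
    · intro k
      rw [← mul_assoc, ← mul_pow]
      apply mul_le_mul_of_nonneg_right _ (norm_nonneg _)
      apply pow_le_pow_left₀
      · have := hnk k; positivity
      · have := mul_le_mul_of_nonneg_right hsq (hnk k)
        linarith
    · exact hrd.summable_hi s (Real.sqrt_nonneg _)
    · exact (hrd.summable_hi s (Real.sqrt_nonneg _)).mul_left _
  have hwn0 : 0 ≤ wn N (Real.sqrt τ) w := tsum_nonneg fun k => by
    have := hnk k; positivity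
  have hhi0 : 0 ≤ hi s (Real.sqrt τ) w := tsum_nonneg fun k => by
    have := hnk k; positivity
  have hpow1 : (1 + β) ^ N ≤ (1 + β) ^ (N + s) := pow_le_pow_right₀ (by linarith) (by omega)
  have hpow2 : (1 + β) ^ s ≤ (1 + β) ^ (N + s) := pow_le_pow_right₀ (by linarith) (by omega)
  have hnn : nn N s μ (Real.sqrt τ') w ≤ (1 + β) ^ (N + s) * nn N s μ (Real.sqrt τ) w := by
    unfold nn
    have e1 := hwn.trans (mul_le_mul_of_nonneg_right hpow1 hwn0)
    have e2 := mul_le_mul_of_nonneg_left (hhi.trans (mul_le_mul_of_nonneg_right hpow2 hhi0)) hμ.le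
    calc _ ≤ (1 + β) ^ (N + s) * wn N (Real.sqrt τ) w +
          μ * ((1 + β) ^ (N + s) * hi s (Real.sqrt τ) w) := add_le_add e1 e2
      _ = _ := by ring
  have hnn0 : 0 ≤ nn N s μ (Real.sqrt τ) w := by unfold nn; positivity
  have hr : τ' ^ (1 / (n : ℝ)) ≤ (1 + β) * τ ^ (1 / (n : ℝ)) := by
    calc τ' ^ (1 / (n : ℝ)) ≤ (τ * (1 + β)) ^ (1 / (n : ℝ)) :=
          Real.rpow_le_rpow hτ'.le h hn.le
      _ = τ ^ (1 / (n : ℝ)) * (1 + β) ^ (1 / (n : ℝ)) := Real.mul_rpow hτ.le h1β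
      _ ≤ τ ^ (1 / (n : ℝ)) * (1 + β) := by
          apply mul_le_mul_of_nonneg_left _ (Real.rpow_nonneg hτ.le _)
          calc (1 + β) ^ (1 / (n : ℝ)) ≤ (1 + β) ^ (1 : ℝ) :=
                Real.rpow_le_rpow_of_exponent_le (by linarith) hn1
            _ = 1 + β := Real.rpow_one _
      _ = _ := by ring
  unfold nrm
  have hr0 : 0 ≤ τ ^ (1 / (n : ℝ)) := Real.rpow_nonneg hτ.le _
  calc τ' ^ (1 / (n : ℝ)) * nn N s μ (Real.sqrt τ') w
      ≤ ((1 + β) * τ ^ (1 / (n : ℝ))) * ((1 + β) ^ (N + s) * nn N s μ (Real.sqrt τ) w) := by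
        apply mul_le_mul hr hnn _ (by positivity)
        unfold nn
        have a1 : 0 ≤ wn N (Real.sqrt τ') w := tsum_nonneg fun k => by
          have := hnk k; positivity
        have a2 : 0 ≤ hi s (Real.sqrt τ') w := tsum_nonneg fun k => by
          have := hnk k; positivity
        positivity
    _ = (1 + β) ^ (1 + N + s) * (τ ^ (1 / (n : ℝ)) * nn N s μ (Real.sqrt τ) w) := by
        rw [show 1 + N + s = (N + s) + 1 by ring, pow_succ]; ring
    _ ≤ _ := mul_le_mul_of_nonneg_right (one_add_pow_le3 hβ0 hβ1 _) (mul_nonneg hr0 hnn0)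

/-- **node Modul** -/
theorem _root_.Crest.Agent.R086.modul (N s : ℕ) : Modul P N s := by
  obtain ⟨hn0, hn1⟩ := one_div_n P
  obtain ⟨K, hK0, hK⟩ := core P (N + s)
  refine ⟨1 + 8 * K + 3 ^ (1 + N + s), 1, 1 / 4, ?_, one_pos, by norm_num, le_rfl, ?_⟩
  · have : (0 : ℝ) ≤ 3 ^ (1 + N + s) := by positivity
    linarith
  intro μ hμ hμ1 a t hτ hτ1 b β hβ hb
  have hβ0 : 0 ≤ β := (abs_nonneg _).trans (hb none)
  have hbT : |b (some none)| ≤ 1 / 4 := (hb _).trans hβ
  set τ : ℝ := a.T - t with hτdef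
  have hT : (Profile.shift a b t).T - t = τ * lam (b (some none)) 1 := by
    simp only [Profile.shift, lam]; ring
  obtain ⟨hl1, hl2⟩ := lam_bounds hbT (θ := 1) ⟨zero_le_one, le_rfl⟩
  have hl : 0 < lam (b (some none)) 1 := by linarith
  have hτ' : 0 < τ * lam (b (some none)) 1 := mul_pos hτ hl
  have h3 : (0 : ℝ) ≤ 3 ^ (1 + N + s) := by positivity
  refine ⟨?_, fun w hw => ?_⟩
  · rw [hT]
    have hs : 0 < Real.sqrt τ := Real.sqrt_pos.2 hτ
    have hfun : (fun x => P.prof (Profile.shift a b t) t x - P.prof a t x -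
        ∑ m, (b m : ℂ) * P.pmode a m t x) =
        fun x => P.amp a t * (fun y => D0 P b τ (y + (-a.x))) x := by
      funext x
      exact diff_eq P a t b hτ hbT x
    rw [hfun]
    have hnk : ∀ k : Z12, 0 ≤ nk k := fun k => norm_nonneg _
    have hsp := (D0_facts P b τ).1
    set h' := Real.sqrt (τ * lam (b (some none)) 1) with hh'
    have hh0 : 0 ≤ h' := Real.sqrt_nonneg _
    have hh2 : h' ≤ 2 * Real.sqrt τ := by
      calc h' ≤ Real.sqrt (2 ^ 2 * τ) := Real.sqrt_le_sqrt (by nlinarith)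
        _ = 2 * Real.sqrt τ := by rw [Real.sqrt_mul (by norm_num), Real.sqrt_sq (by norm_num)]
    have hcore := hK τ hτ hτ1 b β hβ hb
    have hw1 : wn N h' (D0 P b τ) ≤ K * (β ^ 2 + Real.sqrt τ * β) := by
      apply tsum_le_core hcore (fun k => (1 + h' * nk k) ^ N)
      · intro k; have := hnk k; positivity
      · intro k
        have h0 := hnk k
        calc (1 + h' * nk k) ^ N ≤ (1 + 2 * Real.sqrt τ * nk k) ^ N :=
              pow_le_pow_left₀ (by positivity) (by nlinarith [mul_le_mul_of_nonneg_right hh2 h0]) _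
          _ ≤ (1 + 2 * Real.sqrt τ * nk k) ^ (N + s) :=
              pow_le_pow_right₀ (by nlinarith [mul_nonneg hs.le h0]) (by omega)
    have hw2 : hi s h' (D0 P b τ) ≤ K * (β ^ 2 + Real.sqrt τ * β) := by
      apply tsum_le_core hcore (fun k => (h' * nk k) ^ s)
      · intro k; have := hnk k; positivity
      · intro k
        have h0 := hnk k
        calc (h' * nk k) ^ s ≤ (1 + 2 * Real.sqrt τ * nk k) ^ s :=
              pow_le_pow_left₀ (by positivity) (by nlinarith [mul_le_mul_of_nonneg_right hh2 h0]) _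
          _ ≤ (1 + 2 * Real.sqrt τ * nk k) ^ (N + s) :=
              pow_le_pow_right₀ (by nlinarith [mul_nonneg hs.le h0]) (by omega)
    have hsp' : IsSmoothPeriodic (fun y => D0 P b τ (y + (-a.x))) :=
      (TNl.cf_trans tf1 tf2 hsp (-a.x)).1
    unfold nrm nn
    rw [← hh', tn.wn_smul, tn.hi_smul, tn.wn_trans _ hsp, tn.hi_trans _ hsp,
      norm_amp P a t hτ]
    have hX : 0 ≤ K * (β ^ 2 + Real.sqrt τ * β) := by positivity
    have hA0 : 0 ≤ τ ^ (-(1 / (n : ℝ))) := Real.rpow_nonneg hτ.le _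
    have e1 : τ ^ (-(1 / (n : ℝ))) * wn N h' (D0 P b τ) +
        μ * (τ ^ (-(1 / (n : ℝ))) * hi s h' (D0 P b τ)) ≤
        τ ^ (-(1 / (n : ℝ))) * (2 * (K * (β ^ 2 + Real.sqrt τ * β))) := by
      have e2 := mul_le_mul_of_nonneg_left hw1 hA0
      have e3 := mul_le_mul_of_nonneg_left hw2 hA0
      have hhi0 : 0 ≤ τ ^ (-(1 / (n : ℝ))) * hi s h' (D0 P b τ) := by
        apply mul_nonneg hA0
        exact tsum_nonneg fun k => by have := hnk k; positivity
      nlinarith
    have e4 : (τ * lam (b (some none)) 1) ^ (1 / (n : ℝ)) ≤ τ ^ (1 / (n : ℝ)) * 2 := by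
      rw [Real.mul_rpow hτ.le hl.le]
      apply mul_le_mul_of_nonneg_left _ (Real.rpow_nonneg hτ.le _)
      calc (lam (b (some none)) 1) ^ (1 / (n : ℝ)) ≤ (2 : ℝ) ^ (1 / (n : ℝ)) :=
            Real.rpow_le_rpow hl.le (by linarith) hn0.le
        _ ≤ (2 : ℝ) ^ (1 : ℝ) := Real.rpow_le_rpow_of_exponent_le (by norm_num) hn1
        _ = 2 := Real.rpow_one _
    have e5 : τ ^ (1 / (n : ℝ)) * τ ^ (-(1 / (n : ℝ))) = 1 := by
      rw [← Real.rpow_add hτ]; simp
    have e6 : Real.sqrt τ * β ≤ β ^ 2 + τ := by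
      have : Real.sqrt τ ^ 2 = τ := Real.sq_sqrt hτ.le
      nlinarith [sq_nonneg (Real.sqrt τ - β), sq_nonneg (Real.sqrt τ)]
    have hpos : 0 ≤ τ ^ (-(1 / (n : ℝ))) * wn N h' (D0 P b τ) +
        μ * (τ ^ (-(1 / (n : ℝ))) * hi s h' (D0 P b τ)) := by
      have a1 : 0 ≤ wn N h' (D0 P b τ) := tsum_nonneg fun k => by have := hnk k; positivity
      have a2 : 0 ≤ hi s h' (D0 P b τ) := tsum_nonneg fun k => by have := hnk k; positivity
      positivity
    calc _ ≤ (τ ^ (1 / (n : ℝ)) * 2) *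
          (τ ^ (-(1 / (n : ℝ))) * (2 * (K * (β ^ 2 + Real.sqrt τ * β)))) :=
          mul_le_mul e4 e1 hpos (by positivity)
      _ = (τ ^ (1 / (n : ℝ)) * τ ^ (-(1 / (n : ℝ)))) * (4 * K * (β ^ 2 + Real.sqrt τ * β)) := by ring
      _ = 4 * K * (β ^ 2 + Real.sqrt τ * β) := by rw [e5, one_mul]
      _ ≤ 4 * K * (2 * (β ^ 2 + τ)) := by
          apply mul_le_mul_of_nonneg_left _ (by positivity)
          linarith
      _ ≤ (1 + 8 * K + 3 ^ (1 + N + s)) * (β ^ 2 + τ ^ (1 : ℝ)) := by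
          rw [Real.rpow_one]
          have : 0 ≤ β ^ 2 + τ := by positivity
          nlinarith [mul_nonneg h3 this]
  · rw [hT]
    have h1 : τ * lam (b (some none)) 1 ≤ τ * (1 + β) := by
      apply mul_le_mul_of_nonneg_left _ hτ.le
      have := (abs_le.1 (hb (some none))).1
      unfold lam; linarith
    have h2 := scale_w (n := n) N s μ hμ hτ hτ' hβ0 (by linarith) h1 hn0 hn1 w hw
    refine h2.trans ?_
    apply mul_le_mul_of_nonneg_right
    · have : 3 ^ (1 + N + s) * β ≤ (1 + 8 * K + 3 ^ (1 + N + s)) * β := by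
        apply mul_le_mul_of_nonneg_right _ hβ0
        linarith
      linarith
    · unfold nrm nn
      have a1 : 0 ≤ wn N (Real.sqrt τ) w := tsum_nonneg fun k => by
        have : 0 ≤ nk k := norm_nonneg _
        positivity
      have a2 : 0 ≤ hi s (Real.sqrt τ) w := tsum_nonneg fun k => by
        have : 0 ≤ nk k := norm_nonneg _
        positivity
      positivity

end

end Crest.Agent.R086.MOD
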