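import Crest.Agent.R086.Ann
import Crest.Agent.R086.SymCalc

/-!
# Row 86, Part D torus, node TP3 (helper893).
-/

set_option autoImplicit false

open MeasureTheory Complex Filter
open scoped ContDiff Topology
open Crest.AnalysisR.PDE.NLS (IsSmoothPeriodic)

namespace Crest.Agent.R086.Perz

/-- complex-valued cut-offs -/
noncomputable def c0 (x : R12) : ℂ := ((chi0 x : ℝ) : ℂ)
noncomputable def c1 (x : R12) : ℂ := ((chi1 x : ℝ) : ℂ)
noncomputable def c2 (x : R12) : ℂ := ((chi2 x : ℝ) : ℂ)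

theorem c0_smooth : ContDiff ℝ ∞ c0 := Complex.ofRealCLM.contDiff.comp chi0.contDiff
theorem c1_smooth : ContDiff ℝ ∞ c1 := Complex.ofRealCLM.contDiff.comp chi1.contDiff
theorem c2_smooth : ContDiff ℝ ∞ c2 := Complex.ofRealCLM.contDiff.comp chi2.contDiff

theorem c0_ps : PS c0 := fun x hx => by
  have : chi0 x = 0 := chi0.zero_of_le_dist (by simpa [chi0, dist_eq_norm] using hx)
  simp [c0, this]
theorem c1_ps : PS c1 := fun x hx => by
  have : chi1 x = 0 := chi1.zero_of_le_dist (by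
    simp only [chi1, dist_zero_right]; linarith)
  simp [c1, this]
theorem c2_ps : PS c2 := fun x hx => by
  have : chi2 x = 0 := chi2.zero_of_le_dist (by
    simp only [chi2, dist_zero_right]; linarith)
  simp [c2, this]

theorem c0_one {x : R12} (hx : ‖x‖ ≤ 1) : c0 x = 1 := by
  have : chi0 x = 1 := chi0.one_of_mem_closedBall (by simpa [chi0] using hx)
  simp [c0, this]
theorem c1_one {x : R12} (hx : ‖x‖ ≤ 1 / 2) : c1 x = 1 := by
  have : chi1 x = 1 := chi1.one_of_mem_closedBall (by simpa [chi1] using hx)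
  simp [c1, this]
theorem c2_one {x : R12} (hx : ‖x‖ ≤ 1 / 4) : c2 x = 1 := by
  have : chi2 x = 1 := chi2.one_of_mem_closedBall (by simpa [chi2] using hx)
  simp [c2, this]

theorem c0_ge (x : R12) : 0 ≤ chi0 x := chi0.nonneg

variable {n : ℕ} (P : Profile n)

theorem normpow_c0 (x : R12) (z : ℂ) (k : ℕ) :
    ((‖c0 x * z‖ ^ k : ℝ) : ℂ) = c0 x ^ k * ((‖z‖ ^ k : ℝ) : ℂ) := by
  rw [norm_mul, mul_pow]
  have : ‖c0 x‖ = chi0 x := by
    simp only [c0, Complex.norm_real]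
    exact Real.norm_of_nonneg (c0_ge x)
  rw [this]
  simp only [c0]
  push_cast
  ring

theorem sym_normpow : Sym 2 (fun y => ((‖P.Q y‖ ^ n : ℝ) : ℂ)) := by
  have h := (P.symV1).const_mul ((1 + (n : ℂ) / 2)⁻¹)
  refine h.congr fun y => ?_
  have hn : (1 + (n : ℂ) / 2) ≠ 0 := by
    have h1 : ((1 + (n : ℝ) / 2 : ℝ) : ℂ) ≠ 0 := by
      exact_mod_cast (by positivity : (1 + (n : ℝ) / 2) ≠ 0)
    push_cast at h1
    exact h1
  show (1 + (n : ℂ) / 2)⁻¹ * ((1 + (n : ℂ) / 2) * _) = _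
  rw [← mul_assoc, inv_mul_cancel₀ hn, one_mul]

theorem sym_v2 : Sym 2 (fun y => ((‖P.Q y‖ ^ (n - 2) : ℝ) : ℂ) * P.Q y ^ 2) := by
  have h := (P.symV2).const_mul (((n : ℂ) / 2)⁻¹)
  refine h.congr fun y => ?_
  have hn : ((n : ℂ) / 2) ≠ 0 := by
    have : (n : ℂ) ≠ 0 := by
      have := P.two_le
      exact_mod_cast (by omega : n ≠ 0)
    simpa using this
  show ((n : ℂ) / 2)⁻¹ * (((n : ℂ) / 2) * _ * _) = _
  rw [← mul_assoc, ← mul_assoc, inv_mul_cancel₀ hn, one_mul]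

theorem qt_eq (τ : ℝ) : P.qt τ = perz (fun x => c0 x * P.Q ((Real.sqrt τ)⁻¹ • x)) := rfl

theorem mt_eq (m : MIx) (τ : ℝ) :
    P.mt m τ = perz (fun x => c0 x * P.mode1 m ((Real.sqrt τ)⁻¹ • x)) := rfl

theorem tp3 : TP3 P := by
  intro N
  -- cut-offs vanishing near the centre
  have hψs : ContDiff ℝ ∞ (fun x => (1 - c2 x) * c0 x ^ n) :=
    (contDiff_const.sub c2_smooth).mul (c0_smooth.pow n)
  have hn0 : n ≠ 0 := by have := P.two_le; omega
  have hψps : PS (fun x => (1 - c2 x) * c0 x ^ n) := fun x hx => by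
    simp [c0_ps x hx, hn0]
  have hψ0 : ∀ x : R12, ‖x‖ ≤ 1 / 4 → (1 - c2 x) * c0 x ^ n = 0 := fun x hx => by
    simp [c2_one hx]
  have hφs : ContDiff ℝ ∞ (fun x => c0 x - c1 x) := c0_smooth.sub c1_smooth
  have hφps : PS (fun x => c0 x - c1 x) := fun x hx => by simp [c0_ps x hx, c1_ps x hx]
  have hφ0 : ∀ x : R12, ‖x‖ ≤ 1 / 2 → c0 x - c1 x = 0 := fun x hx => by
    simp [c0_one (by linarith : ‖x‖ ≤ 1), c1_one hx]
  obtain ⟨A, hA0, hA⟩ := ann_wn (by norm_num : (0:ℝ) ≤ 2) hψs hψps (by norm_num : (0:ℝ) < 1/4)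
    hψ0 (sym_normpow P) N
  obtain ⟨B, hB0, hB⟩ := ann_wn (by norm_num : (0:ℝ) ≤ 2) hψs hψps (by norm_num : (0:ℝ) < 1/4)
    hψ0 (sym_v2 P) N
  have hnpos : (0:ℝ) < n := by exact_mod_cast Nat.pos_of_ne_zero hn0
  have hM : ∀ m : MIx, ∃ C : ℝ, 0 ≤ C ∧ ∀ τ : ℝ, 0 < τ →
      wn N 1 (perz (fun x => (c0 x - c1 x) * P.mode1 m ((Real.sqrt τ)⁻¹ • x)))
        ≤ C * τ ^ ((2 / (n : ℝ)) / 2) := fun m =>
    ann_wn (by positivity) hφs hφps (by norm_num : (0:ℝ) < 1/2) hφ0 (P.symMode1 m) N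
  choose M hM0 hM using hM
  refine ⟨A + B + ∑ m, M m, by
    have := Finset.sum_nonneg (s := Finset.univ) fun m _ => hM0 m
    positivity, fun τ hτ hτ1 => ⟨?_, ?_, fun m => ?_⟩⟩
  · have e : (fun x => (1 - perz (fun x => ((chi2 x : ℝ) : ℂ)) x) * ((‖P.qt τ x‖ ^ n : ℝ) : ℂ))
        = perz (fun x => ((1 - c2 x) * c0 x ^ n) *
          ((‖P.Q ((Real.sqrt τ)⁻¹ • x)‖ ^ n : ℝ) : ℂ)) := by
      funext x
      obtain ⟨k, hk⟩ := perz_point x
      rw [show perz (fun x => ((chi2 x : ℝ) : ℂ)) x = _ from hk c2 c2_ps, qt_eq,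
        hk _ (c0_ps.mul_left), hk _ (hψps.mul_left), normpow_c0]
      ring
    rw [e]
    refine (hA τ hτ).trans ?_
    rw [show (2:ℝ) / 2 = 1 by norm_num, Real.rpow_one]
    refine mul_le_mul_of_nonneg_right ?_ hτ.le
    have := Finset.sum_nonneg (s := Finset.univ) fun m _ => hM0 m
    linarith
  · have e : (fun x => (1 - perz (fun x => ((chi2 x : ℝ) : ℂ)) x) *
        (((‖P.qt τ x‖ ^ (n - 2) : ℝ) : ℂ) * P.qt τ x ^ 2))
        = perz (fun x => ((1 - c2 x) * c0 x ^ n) *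
          (((‖P.Q ((Real.sqrt τ)⁻¹ • x)‖ ^ (n - 2) : ℝ) : ℂ) *
            P.Q ((Real.sqrt τ)⁻¹ • x) ^ 2)) := by
      funext x
      obtain ⟨k, hk⟩ := perz_point x
      rw [show perz (fun x => ((chi2 x : ℝ) : ℂ)) x = _ from hk c2 c2_ps, qt_eq,
        hk _ (c0_ps.mul_left), hk _ (hψps.mul_left), normpow_c0]
      have e2 : c0 (x - (2 * Real.pi) • zv k) ^ n = c0 (x - (2 * Real.pi) • zv k) ^ (n - 2) *
          c0 (x - (2 * Real.pi) • zv k) ^ 2 := by
        rw [← pow_add]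
        congr 1
        have := P.two_le
        omega
      rw [e2]
      ring
    rw [e]
    refine (hB τ hτ).trans ?_
    rw [show (2:ℝ) / 2 = 1 by norm_num, Real.rpow_one]
    refine mul_le_mul_of_nonneg_right ?_ hτ.le
    have := Finset.sum_nonneg (s := Finset.univ) fun m _ => hM0 m
    linarith
  · have e : (fun x => P.mt m τ x
        - perz (fun x => ((chi1 x : ℝ) : ℂ) * P.mode1 m ((Real.sqrt τ)⁻¹ • x)) x)
        = perz (fun x => (c0 x - c1 x) * P.mode1 m ((Real.sqrt τ)⁻¹ • x)) := by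
      funext x
      obtain ⟨k, hk⟩ := perz_point x
      rw [mt_eq, hk _ (c0_ps.mul_left), hk _ (hφps.mul_left),
        show perz (fun x => ((chi1 x : ℝ) : ℂ) * P.mode1 m ((Real.sqrt τ)⁻¹ • x)) x = _ from
          hk _ (PS.mul_left (ψ := c1) c1_ps (G := fun x => P.mode1 m ((Real.sqrt τ)⁻¹ • x)))]
      simp only [c1]
      ring
    rw [e]
    refine (hM m τ hτ).trans ?_
    rw [show (2 / (n : ℝ)) / 2 = 1 / (n : ℝ) by ring]
    refine mul_le_mul_of_nonneg_right ?_ (by positivity)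
    have := Finset.single_le_sum (f := M) (fun m _ => hM0 m) (Finset.mem_univ m)
    linarith

end Crest.Agent.R086.Perz
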