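import Crest.Agent.R086.PZ
import Crest.Agent.R086.SymCalc

/-!
Row 86, Part D-torus, node TP1 (helper732).
-/

set_option autoImplicit false

open MeasureTheory Complex Filter Topology
open scoped ContDiff
open Crest.AnalysisR.PDE.NLS (IsSmoothPeriodic periodCell)

namespace Crest.Agent.R086

/-- NODE TP1 -/
theorem tp1 {n : ℕ} (P : Profile n) : TP1 P := by
  have hsm : ContDiff ℝ ∞ (fun x : R12 => ((chi0 x : ℝ) : ℂ)) := PZ.chi_smooth chi0
  have hs : ∀ z : R12, 3 ≤ ‖z‖ → ((chi0 z : ℝ) : ℂ) = 0 := fun z hz =>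
    PZ.chi_zero chi0 (by norm_num [chi0]) hz
  have hQ := P.symQ
  have hm := P.symMode1
  have hδ := P.delta_pos
  refine ⟨fun τ _ => ⟨?_, fun m => ?_⟩, fun N => ?_⟩
  · exact PZ.smoothPeriodic_scaled hQ.1 hsm hs _
  · exact PZ.smoothPeriodic_scaled (hm m).1 hsm hs _
  · obtain ⟨C, hC, hw⟩ := PZ.wn_rep_fixed hsm hs N 1 le_rfl
    obtain ⟨aQ, haQ⟩ := hQ.rep hδ
    choose am ham using fun m => (hm m).rep hδ
    have hx : ∀ a : R12 → ℂ, 0 ≤ PZ.xn N a := fun a => integral_nonneg fun ξ => by positivity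
    refine ⟨C * PZ.xn N aQ + ∑ m, C * PZ.xn N (am m), ?_, fun τ hτ hτ1 => ⟨?_, fun m => ?_⟩⟩
    · have := hx aQ
      have : 0 ≤ ∑ m, C * PZ.xn N (am m) := Finset.sum_nonneg fun m _ => mul_nonneg hC (hx _)
      positivity
    · have h1 := (hw (Real.sqrt τ) (Real.sqrt τ) (Real.sqrt_pos.2 hτ) (Real.sqrt_nonneg _)
        (by rw [one_mul]) (Real.sqrt_le_one.2 hτ1) aQ P.Q (haQ N)).2
      have : 0 ≤ ∑ m, C * PZ.xn N (am m) := Finset.sum_nonneg fun m _ => mul_nonneg hC (hx _)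
      exact h1.trans (by linarith)
    · have h1 := (hw (Real.sqrt τ) (Real.sqrt τ) (Real.sqrt_pos.2 hτ) (Real.sqrt_nonneg _)
        (by rw [one_mul]) (Real.sqrt_le_one.2 hτ1) (am m) (P.mode1 m) (ham m N)).2
      have h2 : C * PZ.xn N (am m) ≤ ∑ m, C * PZ.xn N (am m) :=
        Finset.single_le_sum (f := fun m => C * PZ.xn N (am m))
          (fun i _ => mul_nonneg hC (hx _)) (Finset.mem_univ m)
      have h3 := mul_nonneg hC (hx aQ)
      exact h1.trans (by linarith)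

end Crest.Agent.R086
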