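import Crest.Agent.R086.NSFarB
import Crest.Agent.R086.TP3
import Crest.Agent.R086.TPOne
import Crest.Agent.R086.TF

/-! Row 86, NearStep: the combination of the near and the far part (helper148). -/

set_option autoImplicit false

open MeasureTheory Complex Filter
open scoped ContDiff Topology
open Crest.AnalysisR.PDE.NLS (IsSmoothPeriodic periodCell)

namespace Crest.Agent.R086.NSF

open Profile TB Perz

noncomputable section

theorem wn_sum_le (hTN : TN) {ι : Type*} (t : Finset ι) {F : ι → R12 → ℂ}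
    (hF : ∀ i ∈ t, IsSmoothPeriodic (F i)) (N : ℕ) {h : ℝ} (hh : 0 ≤ h) :
    wn N h (fun x => ∑ i ∈ t, F i x) ≤ ∑ i ∈ t, wn N h (F i) := by
  classical
  induction t using Finset.induction_on with
  | empty => simp [wn_zero]
  | insert a t ha ih =>
    simp only [Finset.sum_insert ha]
    refine (hTN.wn_add (F a) (fun x => ∑ i ∈ t, F i x) (hF a (Finset.mem_insert_self a t))
      (sp_sum t fun i hi => hF i (Finset.mem_insert_of_mem hi)) N h hh).trans ?_
    exact add_le_add le_rfl (ih fun i hi => hF i (Finset.mem_insert_of_mem hi))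

variable {n : ℕ} (P : Profile n) {N : ℕ}

theorem c12 (z : R12) : c1 z * c2 z = c2 z := by
  by_cases h : ‖z‖ ≤ 1 / 2
  · rw [c1_one h, one_mul]
  · have : c2 z = 0 := PZ.chi_zero chi2 (r := 1 / 2) (by norm_num [chi2]) (not_le.1 h).le
    rw [this, mul_zero]

/-- decomposition of the perturbation minus the modes -/
theorem decomp {τ : ℝ} (hτ : 0 < τ) {W : R12 → ℂ} (hW : IsSmoothPeriodic W) (b : MIx → ℝ) (x : R12) :
    W x - ∑ m, (b m : ℂ) * P.mt m τ x =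
      Yc x * W x + (perz (fun x => c1 x *
        (fun y => zn τ W y - ∑ m, (b m : ℂ) * P.mode1 m y) ((Real.sqrt τ)⁻¹ • x)) x +
        ∑ m, (-(b m : ℂ)) * (P.mt m τ x
          - perz (fun x => ((chi1 x : ℝ) : ℂ) * P.mode1 m ((Real.sqrt τ)⁻¹ • x)) x)) := by
  obtain ⟨k, hk⟩ := perz_point x
  set z : R12 := x - (2 * Real.pi) • zv k with hz
  have e1 : Yc x = 1 - c2 z := by
    unfold Yc
    rw [show perz (fun x => ((chi2 x : ℝ) : ℂ)) x = _ from hk c2 c2_ps]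
  have e2 : W x = W z := by
    have := (per_of hW).add_int k z
    rw [← this]
    congr 1
    rw [hz]
    exact (sub_add_cancel _ _).symm
  have e3 := hk (fun x => c1 x *
        (fun y => zn τ W y - ∑ m, (b m : ℂ) * P.mode1 m y) ((Real.sqrt τ)⁻¹ • x))
        (PS.mul_left (ψ := c1) c1_ps
          (G := fun x => (fun y => zn τ W y - ∑ m, (b m : ℂ) * P.mode1 m y) ((Real.sqrt τ)⁻¹ • x)))
  have e4 : ∀ m, perz (fun x => ((chi1 x : ℝ) : ℂ) * P.mode1 m ((Real.sqrt τ)⁻¹ • x)) x =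
      c1 z * P.mode1 m ((Real.sqrt τ)⁻¹ • z) := fun m =>
    hk _ (PS.mul_left (ψ := c1) c1_ps (G := fun x => P.mode1 m ((Real.sqrt τ)⁻¹ • x)))
  have hs : Real.sqrt τ ≠ 0 := (Real.sqrt_pos.2 hτ).ne'
  have e5 : zn τ W ((Real.sqrt τ)⁻¹ • z) = c2 z * W z := by
    unfold zn
    rw [smul_smul, mul_inv_cancel₀ hs, one_smul]
    rfl
  rw [e3, e1]
  simp only [e4]
  rw [e5, e2]
  have e6 : ∀ m, (-(b m : ℂ)) * (P.mt m τ x - c1 z * P.mode1 m ((Real.sqrt τ)⁻¹ • z)) =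
      -((b m : ℂ) * P.mt m τ x) + c1 z * ((b m : ℂ) * P.mode1 m ((Real.sqrt τ)⁻¹ • z)) := fun m => by
    ring
  simp only [e6]
  rw [Finset.sum_add_distrib, Finset.sum_neg_distrib, ← Finset.mul_sum]
  have := c12 z
  linear_combination (-W z) * this

set_option maxHeartbeats 1000000 in
theorem nearStep_of (h1 : TF1) (h2 : TF2) (hP1 : TP1 P) (hP3 : TP3 P) (hNear : NearLin P N)
    (hFar : FarStep P N) : NearStep P N := by
  intro s hNs κ hκ S₁
  have hTN : TN := TNl.tn_of h1 h2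
  have hn0 : 0 < n := lt_of_lt_of_le (by norm_num) P.two_le
  have hnR : (0:ℝ) < n := by exact_mod_cast hn0
  obtain ⟨K, hK0, hK⟩ := PZ.wn_rep_fixed (χ := c1) c1_smooth
    (fun z hz => c1_ps z (by linarith)) N 1 le_rfl
  obtain ⟨C₀, hC₀, hF⟩ := hFar s hNs
  obtain ⟨S₂, hS₂⟩ := hNear s hNs (κ / (2 * (K + 1))) (by positivity)
  obtain ⟨Cp, hCp0, hCp⟩ := hP3 N
  set S : ℝ := max (max S₁ 1) (max S₂ (n * Real.log (2 * C₀ / κ))) with hSdef
  have hSS1 : S₁ ≤ S := (le_max_left _ _).trans (le_max_left _ _)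
  have hS1 : 1 ≤ S := (le_max_right _ _).trans (le_max_left _ _)
  have hSS2 : S₂ ≤ S := (le_max_left _ _).trans (le_max_right _ _)
  have hSlog : n * Real.log (2 * C₀ / κ) ≤ S := (le_max_right _ _).trans (le_max_right _ _)
  have hexp : C₀ * Real.exp (-S / n) ≤ κ / 2 := by
    have hpos : 0 < 2 * C₀ / κ := by positivity
    have h3 : Real.log (2 * C₀ / κ) ≤ S / n := by
      rw [le_div_iff₀ hnR]; linarith
    have h4 : Real.exp (-S / n) ≤ (2 * C₀ / κ)⁻¹ := by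
      rw [← Real.exp_log hpos, ← Real.exp_neg]
      refine Real.exp_le_exp.2 ?_
      rw [neg_div]
      linarith
    calc C₀ * Real.exp (-S / n) ≤ C₀ * (2 * C₀ / κ)⁻¹ :=
          mul_le_mul_of_nonneg_left h4 (by linarith)
      _ = κ / 2 := by field_simp
  obtain ⟨CF, hCF1, hFS⟩ := hF S (by linarith)
  obtain ⟨CN, hCN1, hNS⟩ := hS₂ S hSS2 hS1
  refine ⟨S, hSS1, hS1, CF + K * CN + 14 * (CN * Cp) + CN, ?_, ?_⟩
  · have : 0 ≤ K * CN := by positivity
    have : 0 ≤ 14 * (CN * Cp) := by positivity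
    linarith
  intro τ₀ hτ hτ1 U hU L H hH0 hL1 hL hH
  obtain ⟨b, hb, a, haR, haI⟩ := hNS τ₀ hτ hτ1 U hU L H hH0 hL1 hL hH
  have hfar := hFS τ₀ hτ hτ1 U hU L H hH0 hL1 hL hH
  have hS0 : (0:ℝ) ≤ S := by linarith
  have hL0 : 0 ≤ L := (wn_nonneg N (hs_nonneg τ₀ 0) _).trans (hL 0 ⟨le_rfl, hS0⟩)
  set τ : ℝ := τ₀ * Real.exp (-S) with hτdef
  have hτp : 0 < τ := mul_pos hτ (Real.exp_pos _)
  have hττ : τ ≤ τ₀ := by
    have h3 := Real.exp_le_one_iff.2 (neg_nonpos.2 hS0)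
    nlinarith
  have hτ1' : τ ≤ 1 := hττ.trans hτ1
  have hh : hs τ₀ S = Real.sqrt τ := rfl
  have hh0 : 0 ≤ hs τ₀ S := hs_nonneg _ _
  have hh1 : hs τ₀ S ≤ 1 := hs_le_one hτ.le hτ1 hS0
  have hsp : 0 < Real.sqrt τ := Real.sqrt_pos.2 hτp
  set W : R12 → ℂ := P.pert τ₀ U S with hWdef
  have sW : IsSmoothPeriodic W := sp_sub (hU.smooth S ⟨hS0, le_rfl⟩) (hP1.1 _ hτp).1
  set f : R12 → ℂ := fun y => zn τ W y - ∑ m, (b m : ℂ) * P.mode1 m y with hf
  have hfs : ContDiff ℝ ∞ f := by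
    refine ContDiff.sub ?_ (ContDiff.sum fun m _ => contDiff_const.mul (P.symMode1 m).1)
    unfold zn
    exact (c2_smooth.comp (contDiff_const_smul _)).mul (sW.1.comp (contDiff_const_smul _))
  have sf : IsSmoothPeriodic (perz fun x => c1 x * f ((Real.sqrt τ)⁻¹ • x)) :=
    PZ.smoothPeriodic_scaled hfs c1_smooth (fun z hz => c1_ps z (by linarith)) _
  have se : ∀ m, IsSmoothPeriodic (fun x => P.mt m τ x
      - perz (fun x => ((chi1 x : ℝ) : ℂ) * P.mode1 m ((Real.sqrt τ)⁻¹ • x)) x) := fun m =>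
    sp_sub ((hP1.1 _ hτp).2 m) (PZ.smoothPeriodic_scaled (P.symMode1 m).1 c1_smooth
      (fun z hz => c1_ps z (by linarith)) _)
  refine ⟨b, fun m => ?_, ?_⟩
  · have h3 := hb m
    have h4 : 0 ≤ Real.sqrt τ₀ * H := mul_nonneg (Real.sqrt_nonneg _) hH0
    have h5 : 0 ≤ CF + K * CN + 14 * (CN * Cp) := by
      have : 0 ≤ K * CN := by positivity
      have : 0 ≤ 14 * (CN * Cp) := by positivity
      linarith
    calc |b m| ≤ CN * L := h3
      _ ≤ (CF + K * CN + 14 * (CN * Cp) + CN) * (L + Real.sqrt τ₀ * H + τ₀) := by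
        nlinarith [mul_nonneg h5 (add_nonneg (add_nonneg hL0 h4) hτ.le),
          mul_nonneg (by linarith : 0 ≤ CN) (add_nonneg h4 hτ.le)]
  · have e : (fun x => W x - ∑ m, (b m : ℂ) * P.mt m τ x) = fun x =>
        Yc x * W x + (perz (fun x => c1 x * f ((Real.sqrt τ)⁻¹ • x)) x +
        ∑ m, (-(b m : ℂ)) * (P.mt m τ x
          - perz (fun x => ((chi1 x : ℝ) : ℂ) * P.mode1 m ((Real.sqrt τ)⁻¹ • x)) x)) := by
      funext x
      exact decomp P hτp sW b x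
    rw [e]
    have sS : IsSmoothPeriodic (fun x => ∑ m, (-(b m : ℂ)) * (P.mt m τ x
          - perz (fun x => ((chi1 x : ℝ) : ℂ) * P.mode1 m ((Real.sqrt τ)⁻¹ • x)) x)) :=
      sp_sum Finset.univ fun m _ => sp_cmul (se m) _
    have a1 := hTN.wn_add _ _ (sp_mul sp_Yc sW) (sp_add sf sS) N (hs τ₀ S) hh0
    have a2 := hTN.wn_add _ _ sf sS N (hs τ₀ S) hh0
    have a3 := wn_sum_le hTN Finset.univ (F := fun (m : MIx) x => (-(b m : ℂ)) * (P.mt m τ x
          - perz (fun x => ((chi1 x : ℝ) : ℂ) * P.mode1 m ((Real.sqrt τ)⁻¹ • x)) x))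
          (fun m _ => sp_cmul (se m) _) N hh0
    have b1 : wn N (hs τ₀ S) (fun x => Yc x * W x) ≤
        C₀ * Real.exp (-S / n) * wn N (Real.sqrt τ₀) (P.pert τ₀ U 0)
            + CF * (L ^ 2 + Real.sqrt τ₀ * (L + H) + τ₀) := hfar
    have b2 := (hK (Real.sqrt τ) (hs τ₀ S) hsp hh0 (by rw [hh, one_mul]) hh1 a f haR).2
    have b2' : wn N (hs τ₀ S) (perz fun x => c1 x * f ((Real.sqrt τ)⁻¹ • x)) ≤
        K * (κ / (2 * (K + 1)) * wn N (Real.sqrt τ₀) (P.pert τ₀ U 0)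
          + CN * (L ^ 2 + Real.sqrt τ₀ * (L + H) + τ₀)) :=
      b2.trans (mul_le_mul_of_nonneg_left haI hK0)
    have hpow : τ ^ (1 / (n:ℝ)) ≤ τ₀ ^ (1 / (n:ℝ)) := Real.rpow_le_rpow hτp.le hττ (by positivity)
    have hpow0 : 0 ≤ τ ^ (1 / (n:ℝ)) := Real.rpow_nonneg hτp.le _
    have b3 : ∑ m, wn N (hs τ₀ S) (fun x => (-(b m : ℂ)) * (P.mt m τ x
          - perz (fun x => ((chi1 x : ℝ) : ℂ) * P.mode1 m ((Real.sqrt τ)⁻¹ • x)) x)) ≤
        14 * (CN * Cp) * (τ₀ ^ (1 / (n:ℝ)) * L) := by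
      have b4 : ∀ m : MIx, wn N (hs τ₀ S) (fun x => (-(b m : ℂ)) * (P.mt m τ x
          - perz (fun x => ((chi1 x : ℝ) : ℂ) * P.mode1 m ((Real.sqrt τ)⁻¹ • x)) x)) ≤
          (CN * Cp) * (τ₀ ^ (1 / (n:ℝ)) * L) := by
        intro m
        rw [hTN.wn_smul, norm_neg, Complex.norm_real, Real.norm_eq_abs]
        have c1' := hTN.wn_mono _ (se m) N (hs τ₀ S) 1 hh0 hh1
        have c2' := (hCp τ hτp hτ1').2.2 m
        calc |b m| * _ ≤ (CN * L) * (Cp * τ₀ ^ (1 / (n:ℝ))) := by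
              refine mul_le_mul (hb m) ((c1'.trans c2').trans
                (mul_le_mul_of_nonneg_left hpow hCp0)) (wn_nonneg N hh0 _) (by positivity)
          _ = _ := by ring
      refine (Finset.sum_le_sum fun m _ => b4 m).trans_eq ?_
      rw [Finset.sum_const, nsmul_eq_mul]
      have : ((Finset.univ : Finset MIx).card : ℝ) = 14 := by
        simp [MIx]
      rw [this]; ring
    have hw0 := wn_nonneg N (Real.sqrt_nonneg τ₀) (P.pert τ₀ U 0)
    have hX : 0 ≤ L ^ 2 + Real.sqrt τ₀ * (L + H) + τ₀ := by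
      have i2 : 0 ≤ Real.sqrt τ₀ * (L + H) := mul_nonneg (Real.sqrt_nonneg _) (by linarith)
      have := sq_nonneg L
      linarith [hτ.le]
    have hZ : 0 ≤ τ₀ ^ (1 / (n:ℝ)) * L := mul_nonneg (Real.rpow_nonneg hτ.le _) hL0
    have k1 : K * (κ / (2 * (K + 1))) ≤ κ / 2 := by
      rw [mul_div_assoc', div_le_div_iff₀ (by positivity) (by norm_num)]
      nlinarith
    have k2 : K * (κ / (2 * (K + 1)) * wn N (Real.sqrt τ₀) (P.pert τ₀ U 0)) ≤
        κ / 2 * wn N (Real.sqrt τ₀) (P.pert τ₀ U 0) := by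
      rw [← mul_assoc]
      exact mul_le_mul_of_nonneg_right k1 hw0
    have k3 : C₀ * Real.exp (-S / n) * wn N (Real.sqrt τ₀) (P.pert τ₀ U 0) ≤
        κ / 2 * wn N (Real.sqrt τ₀) (P.pert τ₀ U 0) := mul_le_mul_of_nonneg_right hexp hw0
    have hKC : 0 ≤ K * CN := by positivity
    have hCC : 0 ≤ 14 * (CN * Cp) := by positivity
    set w0 := wn N (Real.sqrt τ₀) (P.pert τ₀ U 0) with hw0def
    set X := L ^ 2 + Real.sqrt τ₀ * (L + H) + τ₀ with hXdef
    set Z := τ₀ ^ (1 / (n:ℝ)) * L with hZdef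
    have tot : wn N (hs τ₀ S) (fun x =>
        Yc x * W x + (perz (fun x => c1 x * f ((Real.sqrt τ)⁻¹ • x)) x +
        ∑ m, (-(b m : ℂ)) * (P.mt m τ x
          - perz (fun x => ((chi1 x : ℝ) : ℂ) * P.mode1 m ((Real.sqrt τ)⁻¹ • x)) x))) ≤
        κ * w0 + CF * X + K * (CN * X) + 14 * (CN * Cp) * Z := by
      refine a1.trans ?_
      have := a2.trans (add_le_add b2' (a3.trans b3))
      linarith [mul_add K (κ / (2 * (K + 1)) * w0) (CN * X)]
    refine tot.trans ?_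
    have id1 : (CF + K * CN + 14 * (CN * Cp) + CN) * (X + Z) =
        CF * X + K * (CN * X) + 14 * (CN * Cp) * Z +
        (CF * Z + K * CN * Z + 14 * (CN * Cp) * X + CN * X + CN * Z) := by ring
    have id2 := mul_nonneg (by linarith : 0 ≤ CF) hZ
    have id3 := mul_nonneg hKC hZ
    have id4 := mul_nonneg hCC hX
    have id5 := mul_nonneg (by linarith : 0 ≤ CN) hX
    have id6 := mul_nonneg (by linarith : 0 ≤ CN) hZ
    linarith [id1, id2, id3, id4, id5, id6]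

/-- NearStep from the near estimate and the two facts on the profile. -/
theorem nearStep (hP2 : TP2 P) (hNear : NearLin P N) : NearStep P N :=
  nearStep_of P tf1 tf2 (tp1 P) (Perz.tp3 P) hNear (farStep P tf1 tf2 (tp1 P) hP2 (Perz.tp3 P))

end

end Crest.Agent.R086.NSF
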