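import Crest.Agent.R086.TC5

/-!
Row 86, part D-torus, node TC2 (helper327): uniqueness.
-/

set_option autoImplicit false

noncomputable section

open scoped BigOperators ComplexConjugate ContDiff ENNReal Topology
open Filter MeasureTheory Complex Set
open Crest.AnalysisR.PDE.NLS (IsSmoothPeriodic periodCell sobolevDistSq IsClassicalSolution)

namespace Crest.Agent.R086

namespace TU

lemma pow_sub_le (hTN : TN) {a b : R12 → ℂ} (ha : IsSmoothPeriodic a) (hb : IsSmoothPeriodic b)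
    {R : ℝ} (h1 : wn 0 0 a ≤ R) (h2 : wn 0 0 b ≤ R) (j : ℕ) :
    wn 0 0 (fun x => a x ^ (j + 1) - b x ^ (j + 1)) ≤
      (j + 1) * R ^ j * wn 0 0 (fun x => a x - b x) := by
  have hR : 0 ≤ R := (TB.wn_nonneg 0 le_rfl a).trans h1
  have hD := TB.wn_nonneg 0 (le_refl (0 : ℝ)) (fun x => a x - b x)
  induction j with
  | zero => simp
  | succ j ih =>
    have e : (fun x => a x ^ (j + 1 + 1) - b x ^ (j + 1 + 1)) =
        fun x => a x * (a x ^ (j + 1) - b x ^ (j + 1)) + (a x - b x) * b x ^ (j + 1) := by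
      funext x; ring
    rw [e]
    have s1 : IsSmoothPeriodic (fun x => a x ^ (j + 1) - b x ^ (j + 1)) :=
      TB.sp_sub (TB.sp_pow ha _) (TB.sp_pow hb _)
    have s2 : IsSmoothPeriodic (fun x => a x - b x) := TB.sp_sub ha hb
    have s3 : IsSmoothPeriodic (fun x => b x ^ (j + 1)) := TB.sp_pow hb _
    have m1 := hTN.wn_mul a _ ha s1 0 0 le_rfl
    have m2 := hTN.wn_mul _ _ s2 s3 0 0 le_rfl
    have m3 := TCl.wn_pow_le hTN hb 0 (le_refl (0 : ℝ)) j
    refine (hTN.wn_add _ _ (TB.sp_mul ha s1) (TB.sp_mul s2 s3) 0 0 le_rfl).trans ?_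
    have n1 := TB.wn_nonneg 0 (le_refl (0 : ℝ)) (fun x => a x ^ (j + 1) - b x ^ (j + 1))
    have n2 := TB.wn_nonneg 0 (le_refl (0 : ℝ)) b
    have m4 : wn 0 0 (fun x => b x ^ (j + 1)) ≤ R ^ (j + 1) :=
      m3.trans (pow_le_pow_left₀ n2 h2 _)
    calc wn 0 0 (fun x => a x * (a x ^ (j + 1) - b x ^ (j + 1))) +
          wn 0 0 (fun x => (a x - b x) * b x ^ (j + 1))
        ≤ R * ((j + 1) * R ^ j * wn 0 0 (fun x => a x - b x)) +
          wn 0 0 (fun x => a x - b x) * R ^ (j + 1) := by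
          refine add_le_add (m1.trans ?_) (m2.trans ?_)
          · exact mul_le_mul h1 ih n1 hR
          · exact mul_le_mul_of_nonneg_left m4 hD
      _ = _ := by push_cast; ring

lemma nl_sub_le (hTN : TN) {n : ℕ} (hn : Even n) (hn2 : 2 ≤ n) {a b : R12 → ℂ}
    (ha : IsSmoothPeriodic a) (hb : IsSmoothPeriodic b)
    {R : ℝ} (h1 : wn 0 0 a ≤ R) (h2 : wn 0 0 b ≤ R) :
    wn 0 0 (fun x => nl n (a x) - nl n (b x)) ≤ (n + 1) * R ^ n * wn 0 0 (fun x => a x - b x) := by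
  obtain ⟨m, rfl⟩ := hn
  obtain ⟨j, rfl⟩ : ∃ j, m = j + 1 := ⟨m - 1, by omega⟩
  have hR : 0 ≤ R := (TB.wn_nonneg 0 le_rfl a).trans h1
  have hac := TB.sp_conj ha
  have hbc := TB.sp_conj hb
  have hD := TB.wn_nonneg 0 (le_refl (0 : ℝ)) (fun x => a x - b x)
  have e : (fun x => nl (j + 1 + (j + 1)) (a x) - nl (j + 1 + (j + 1)) (b x)) =
      fun x => (a x ^ (j + 1 + 1) - b x ^ (j + 1 + 1)) * (starRingEnd ℂ (a x)) ^ (j + 1) +
        b x ^ (j + 1 + 1) * ((starRingEnd ℂ (a x)) ^ (j + 1) - (starRingEnd ℂ (b x)) ^ (j + 1)) := by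
    funext x
    rw [← two_mul, TB.nl_eq, TB.nl_eq]
    ring
  rw [e]
  have s1 : IsSmoothPeriodic (fun x => a x ^ (j + 1 + 1) - b x ^ (j + 1 + 1)) :=
    TB.sp_sub (TB.sp_pow ha _) (TB.sp_pow hb _)
  have s2 : IsSmoothPeriodic (fun x => (starRingEnd ℂ (a x)) ^ (j + 1)) := TB.sp_pow hac _
  have s3 : IsSmoothPeriodic (fun x => b x ^ (j + 1 + 1)) := TB.sp_pow hb _
  have s4 : IsSmoothPeriodic
      (fun x => (starRingEnd ℂ (a x)) ^ (j + 1) - (starRingEnd ℂ (b x)) ^ (j + 1)) :=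
    TB.sp_sub (TB.sp_pow hac _) (TB.sp_pow hbc _)
  have c1 : wn 0 0 (fun x => starRingEnd ℂ (a x)) = wn 0 0 a := hTN.wn_conj a 0 0
  have c2 : wn 0 0 (fun x => starRingEnd ℂ (b x)) = wn 0 0 b := hTN.wn_conj b 0 0
  have c3 : wn 0 0 (fun x => starRingEnd ℂ (a x) - starRingEnd ℂ (b x)) =
      wn 0 0 (fun x => a x - b x) := by
    have := hTN.wn_conj (fun x => a x - b x) 0 0
    simpa using this
  have p1 := pow_sub_le hTN ha hb h1 h2 (j + 1)
  have p2 := pow_sub_le hTN hac hbc (c1.le.trans h1) (c2.le.trans h2) j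
  rw [c3] at p2
  have q1 : wn 0 0 (fun x => (starRingEnd ℂ (a x)) ^ (j + 1)) ≤ R ^ (j + 1) :=
    (TCl.wn_pow_le hTN hac 0 (le_refl (0 : ℝ)) j).trans
      (pow_le_pow_left₀ (TB.wn_nonneg 0 le_rfl _) (c1.le.trans h1) _)
  have q2 : wn 0 0 (fun x => b x ^ (j + 1 + 1)) ≤ R ^ (j + 1 + 1) :=
    (TCl.wn_pow_le hTN hb 0 (le_refl (0 : ℝ)) (j + 1)).trans
      (pow_le_pow_left₀ (TB.wn_nonneg 0 le_rfl _) h2 _)
  refine (hTN.wn_add _ _ (TB.sp_mul s1 s2) (TB.sp_mul s3 s4) 0 0 le_rfl).trans ?_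
  refine (add_le_add (hTN.wn_mul _ _ s1 s2 0 0 le_rfl) (hTN.wn_mul _ _ s3 s4 0 0 le_rfl)).trans ?_
  calc _ ≤ ((((j + 1 : ℕ) : ℝ) + 1) * R ^ (j + 1) * wn 0 0 (fun x => a x - b x)) * R ^ (j + 1) +
        R ^ (j + 1 + 1) * (((j : ℝ) + 1) * R ^ j * wn 0 0 (fun x => a x - b x)) := by
        refine add_le_add ?_ ?_
        · exact mul_le_mul p1 q1 (TB.wn_nonneg 0 le_rfl _) (by positivity)
        · exact mul_le_mul q2 p2 (TB.wn_nonneg 0 le_rfl _) (by positivity)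
    _ = _ := by push_cast; ring

/-- the plain Wiener distance. -/
lemma sum_le_wn (h1 : TF1) {v : R12 → ℂ} (hv : IsSmoothPeriodic v) (F : Finset Z12) :
    ∑ k ∈ F, ‖cf v k‖ ≤ wn 0 0 v := by
  have hs := TB.summable_cf h1 hv
  have := hs.sum_le_tsum F (fun k _ => norm_nonneg _)
  rw [← TB.l1_eq_wn]
  exact this

lemma wn_le_of_sum (h1 : TF1) {v : R12 → ℂ} (hv : IsSmoothPeriodic v) {C : ℝ}
    (h : ∀ F : Finset Z12, ∑ k ∈ F, ‖cf v k‖ ≤ C) : wn 0 0 v ≤ C := by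
  have hs := TB.summable_cf h1 hv
  rw [← TB.l1_eq_wn]
  exact hs.tsum_le_of_sum_le h

/-- unimodular factor -/
def ph (k : Z12) (t : ℝ) : ℂ := cexp (((nk k ^ 2 * t : ℝ) : ℂ) * I)

lemma norm_ph (k : Z12) (t : ℝ) : ‖ph k t‖ = 1 := Complex.norm_exp_ofReal_mul_I _

lemma hasDerivAt_ph (k : Z12) (t : ℝ) : HasDerivAt (ph k) (I * ((nk k ^ 2 : ℝ) : ℂ) * ph k t) t := by
  have h1 : HasDerivAt (fun t : ℝ => ((nk k ^ 2 * t : ℝ) : ℂ)) ((nk k ^ 2 : ℝ) : ℂ) t := by
    have := ((hasDerivAt_id t).const_mul (nk k ^ 2)).ofReal_comp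
    simpa using this
  have h2 := (h1.mul_const I).cexp
  have e : cexp (((nk k ^ 2 * t : ℝ) : ℂ) * I) * (((nk k ^ 2 : ℝ) : ℂ) * I) =
      I * ((nk k ^ 2 : ℝ) : ℂ) * ph k t := by
    unfold ph; ring
  rw [e] at h2
  exact h2

lemma step (h1 : TF1) (_h2 : TF2) (hTN : TN) {n : ℕ} (hn : Even n) (hn2 : 2 ≤ n) {t₀ t₁ a b : ℝ}
    {u v : ℝ → R12 → ℂ} (hu : IsSol n (Icc t₀ t₁) u) (hv : IsSol n (Icc t₀ t₁) v)
    (ha : t₀ ≤ a) (hb : b ≤ t₁) (hab : u a = v a) {R M : ℝ}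
    (hR : ∀ t ∈ Icc t₀ t₁, wn 0 0 (u t) ≤ R ∧ wn 0 0 (v t) ≤ R)
    (hM : ∀ t ∈ Icc a b, wn 0 0 (fun x => u t x - v t x) ≤ M) :
    ∀ t ∈ Icc a b, wn 0 0 (fun x => u t x - v t x) ≤ ((n + 1) * R ^ n * M) * (t - a) := by
  have hsub : Icc a b ⊆ Icc t₀ t₁ := Icc_subset_Icc ha hb
  intro t ht
  have hst : IsSmoothPeriodic (fun x => u t x - v t x) :=
    TB.sp_sub (hu.smooth t (hsub ht)) (hv.smooth t (hsub ht))
  refine wn_le_of_sum h1 hst fun F => ?_
  let c : Z12 → ℝ → ℂ := fun k s => ph k s * (cf (u s) k - cf (v s) k)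
  let g : Z12 → ℝ → ℂ := fun k s =>
    ph k s * (-(I * (cf (fun x => nl n (u s x)) k - cf (fun x => nl n (v s x)) k)))
  let f : ℝ → PiLp 1 (fun _ : F => ℂ) := fun s => WithLp.toLp 1 fun k : F => c k s
  let f' : ℝ → PiLp 1 (fun _ : F => ℂ) := fun s => WithLp.toLp 1 fun k : F => g k s
  have hder : ∀ s ∈ Icc a b, HasDerivWithinAt f (f' s) (Icc a b) s := by
    intro s hs
    have hk : ∀ k : Z12, HasDerivWithinAt (c k) (g k s) (Icc a b) s := by
      intro k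
      have d1 := (hu.ode s (hsub hs) k).mono hsub
      have d2 := (hv.ode s (hsub hs) k).mono hsub
      have d3 := ((hasDerivAt_ph k s).hasDerivWithinAt (s := Icc a b)).mul (d1.sub d2)
      refine d3.congr_deriv ?_
      simp only [Pi.sub_apply, g]
      ring
    have hp : HasDerivWithinAt (fun s => fun k : F => c k s) (fun k : F => g k s) (Icc a b) s :=
      hasDerivWithinAt_pi.2 fun k => hk k
    exact ((PiLp.continuousLinearEquiv 1 ℝ (fun _ : F => ℂ)).symm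
      : (F → ℂ) →L[ℝ] PiLp 1 (fun _ : F => ℂ)).hasFDerivAt.comp_hasDerivWithinAt s hp
  have hbound : ∀ s ∈ Ico a b, ‖f' s‖ ≤ (n + 1) * R ^ n * M := by
    intro s hs
    have hs' := hsub (Ico_subset_Icc_self hs)
    rw [PiLp.norm_eq_of_L1]
    have su := hu.smooth s hs'
    have sv := hv.smooth s hs'
    have snu := TB.sp_nl hn su
    have snv := TB.sp_nl hn sv
    have e1 : ∀ k : F, ‖f' s k‖ = ‖cf (fun x => nl n (u s x) - nl n (v s x)) k‖ := by
      intro k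
      have : f' s k = ph k s * (-(I * (cf (fun x => nl n (u s x)) k - cf (fun x => nl n (v s x)) k))) :=
        rfl
      rw [this, norm_mul, norm_ph, one_mul, norm_neg, norm_mul, Complex.norm_I, one_mul]
      congr 1
      rw [cf_eq_tor (per_of snu), cf_eq_tor (per_of snv), cf_eq_tor (per_of (TB.sp_sub snu snv)),
        Tor.cf_sub (per_of snu) snu.1.continuous (per_of snv) snv.1.continuous]
    simp_rw [e1]
    rw [Finset.sum_coe_sort F (fun k => ‖cf (fun x => nl n (u s x) - nl n (v s x)) k‖)]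
    refine (sum_le_wn h1 (TB.sp_sub snu snv) F).trans ?_
    refine (nl_sub_le hTN hn hn2 su sv (hR s hs').1 (hR s hs').2).trans ?_
    have hR0 : 0 ≤ R := (TB.wn_nonneg 0 le_rfl _).trans (hR s hs').1
    exact mul_le_mul_of_nonneg_left (hM s (Ico_subset_Icc_self hs)) (by positivity)
  have hmv := norm_image_sub_le_of_norm_deriv_le_segment' hder hbound t ht
  have hfa : f a = 0 := by
    ext k
    show ph k a * (cf (u a) k - cf (v a) k) = 0
    rw [hab]; simp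
  rw [hfa, sub_zero, PiLp.norm_eq_of_L1] at hmv
  have e2 : ∀ k : F, ‖f t k‖ = ‖cf (fun x => u t x - v t x) k‖ := by
    intro k
    have : f t k = ph k t * (cf (u t) k - cf (v t) k) := rfl
    have su := hu.smooth t (hsub ht)
    have sv := hv.smooth t (hsub ht)
    rw [this, norm_mul, norm_ph, one_mul, cf_eq_tor (per_of su), cf_eq_tor (per_of sv),
      cf_eq_tor (per_of hst),
      Tor.cf_sub (per_of su) su.1.continuous (per_of sv) sv.1.continuous]
  simp_rw [e2] at hmv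
  rw [Finset.sum_coe_sort F (fun k => ‖cf (fun x => u t x - v t x) k‖)] at hmv
  exact hmv

lemma eq_of_wn_zero (hTN : TN) {v w : R12 → ℂ} (hv : IsSmoothPeriodic v) (hw : IsSmoothPeriodic w)
    (h : wn 0 0 (fun x => v x - w x) ≤ 0) : v = w := by
  funext x
  have := hTN.sup_le _ (TB.sp_sub hv hw) x
  rw [TB.l1_eq_wn] at this
  have h0 : ‖v x - w x‖ ≤ 0 := this.trans h
  exact sub_eq_zero.1 (norm_le_zero_iff.1 h0)

theorem tc2_of (h1 : TF1) (h2 : TF2) (hTN : TN) : TC2 := by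
  intro n hn hn2 t₀ t₁ u v hu hv h0
  rcases lt_or_ge t₁ t₀ with hlt | hle
  · intro t ht
    exact absurd (ht.1.trans ht.2) (not_le.2 hlt)
  obtain ⟨B, hB⟩ := hu.bdd 0 (Icc t₀ t₁) subset_rfl isCompact_Icc
  obtain ⟨B', hB'⟩ := hv.bdd 0 (Icc t₀ t₁) subset_rfl isCompact_Icc
  have e01 : ∀ w : R12 → ℂ, wn 0 1 w = wn 0 0 w := fun w => by simp [wn]
  set R : ℝ := max (max B B') 1 with hRdef
  have hR : ∀ t ∈ Icc t₀ t₁, wn 0 0 (u t) ≤ R ∧ wn 0 0 (v t) ≤ R := by
    intro t ht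
    have b1 := hB t ht
    have b2 := hB' t ht
    rw [e01] at b1 b2
    exact ⟨b1.trans ((le_max_left _ _).trans (le_max_left _ _)),
      b2.trans ((le_max_right _ _).trans (le_max_left _ _))⟩
  have hR1 : 1 ≤ R := le_max_right _ _
  set L : ℝ := (n + 1) * R ^ n with hL
  have hLpos : 0 < L := by positivity
  set ε : ℝ := 1 / (2 * L) with hε
  have hεpos : 0 < ε := by positivity
  -- local statement
  have hloc : ∀ a b, t₀ ≤ a → b ≤ t₁ → b ≤ a + ε → u a = v a → ∀ t ∈ Icc a b, u t = v t := by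
    intro a b ha hb hbe hab t ht
    have hsub : Icc a b ⊆ Icc t₀ t₁ := Icc_subset_Icc ha hb
    have hiter : ∀ m : ℕ, ∀ s ∈ Icc a b, wn 0 0 (fun x => u s x - v s x) ≤ (2 * R) * (1 / 2) ^ m := by
      intro m
      induction m with
      | zero =>
        intro s hs
        have := TB.wn_sub_le hTN (hu.smooth s (hsub hs)) (hv.smooth s (hsub hs)) 0 (le_refl (0 : ℝ))
        have := hR s (hsub hs)
        simp only [pow_zero, mul_one]
        linarith [this.1, this.2]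
      | succ m ih =>
        intro s hs
        have h3 := step h1 h2 hTN hn hn2 hu hv ha hb hab hR ih s hs
        refine h3.trans ?_
        have hs2 : s - a ≤ ε := by linarith [hs.2]
        have hs3 : 0 ≤ s - a := by linarith [hs.1]
        calc (↑n + 1) * R ^ n * (2 * R * (1 / 2) ^ m) * (s - a)
            ≤ (↑n + 1) * R ^ n * (2 * R * (1 / 2) ^ m) * ε := by
              apply mul_le_mul_of_nonneg_left hs2; positivity
          _ = (L * ε) * (2 * R * (1 / 2) ^ m) := by rw [hL]; ring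
          _ = (2 * R) * (1 / 2) ^ (m + 1) := by
              have : L * ε = 1 / 2 := by rw [hε]; field_simp
              rw [this, pow_succ]; ring
    refine eq_of_wn_zero hTN (hu.smooth t (hsub ht)) (hv.smooth t (hsub ht)) ?_
    have hlim : Tendsto (fun m : ℕ => (2 * R) * (1 / 2 : ℝ) ^ m) atTop (𝓝 ((2 * R) * 0)) :=
      (tendsto_pow_atTop_nhds_zero_of_lt_one (by norm_num) (by norm_num)).const_mul _
    rw [mul_zero] at hlim
    exact ge_of_tendsto' hlim fun m => hiter m t ht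
  -- iterate
  have hind : ∀ j : ℕ, ∀ t ∈ Icc t₀ t₁, t ≤ t₀ + j * ε → u t = v t := by
    intro j
    induction j with
    | zero =>
      intro t ht htj
      have : t = t₀ := le_antisymm (by simpa using htj) ht.1
      rw [this, h0]
    | succ j ih =>
      intro t ht htj
      rcases le_or_gt t (t₀ + j * ε) with h | h
      · exact ih t ht h
      · have ha : t₀ + j * ε ∈ Icc t₀ t₁ := ⟨by nlinarith [mul_nonneg (Nat.cast_nonneg j : (0:ℝ) ≤ j) hεpos.le], h.le.trans ht.2⟩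
        refine hloc (t₀ + j * ε) t ha.1 ht.2 ?_ (ih _ ha le_rfl) t ⟨h.le, le_rfl⟩
        push_cast at htj
        linarith
  intro t ht
  obtain ⟨j, hj⟩ := exists_nat_ge ((t₁ - t₀) / ε)
  refine hind j t ht ?_
  rw [div_le_iff₀ hεpos] at hj
  linarith [ht.2]

end TU

theorem tc2 : TC2 := TU.tc2_of tf1 tf2 tn

end Crest.Agent.R086
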