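import Crest.Agent.R086.TorDefs

/-!
# Row 86, node TN: norms of products of torus functions (helper384)
-/

set_option autoImplicit false

open MeasureTheory Complex
open scoped ContDiff Topology
open Crest.AnalysisR.PDE.NLS (IsSmoothPeriodic periodCell sobolevDistSq IsClassicalSolution)

namespace Crest.Agent.R086.TNl

noncomputable section

/-! ### lattice -/

theorem zv_add (k l : Z12) : zv (k + l) = zv k + zv l := by
  ext i; simp [zv]

theorem zv_neg (k : Z12) : zv (-k) = -zv k := by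
  ext i; simp [zv]

theorem nk_nonneg (k : Z12) : 0 ≤ nk k := norm_nonneg _

theorem nk_add_le (k l : Z12) : nk (k + l) ≤ nk k + nk l := by
  unfold nk; rw [zv_add]; exact norm_add_le _ _

theorem nk_neg (k : Z12) : nk (-k) = nk k := by
  unfold nk; rw [zv_neg, norm_neg]

/-- the character -/
def ec (k : Z12) (x : R12) : ℂ := exp (I * ((inner ℝ (zv k) x : ℝ) : ℂ))

theorem norm_ec (k : Z12) (x : R12) : ‖ec k x‖ = 1 := by
  unfold ec; rw [mul_comm, Complex.norm_exp_ofReal_mul_I]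

theorem ec_add (k l : Z12) (x : R12) : ec (k + l) x = ec k x * ec l x := by
  unfold ec
  rw [← Complex.exp_add, zv_add, inner_add_left]
  congr 1; push_cast; ring

theorem ec_add_right (k : Z12) (x a : R12) : ec k (x + a) = ec k x * ec k a := by
  unfold ec
  rw [← Complex.exp_add, inner_add_right]
  congr 1; push_cast; ring

/-! ### rapidly decaying sequences -/

/-- rapidly decaying sequences -/
def RD (c : Z12 → ℂ) : Prop := ∀ N : ℕ, Summable fun k => (1 + nk k) ^ N * ‖c k‖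

theorem RD.summable_norm {c : Z12 → ℂ} (h : RD c) : Summable fun k => ‖c k‖ := by
  simpa using h 0

theorem RD.summable_wt {c : Z12 → ℂ} (hc : RD c) (N : ℕ) {h : ℝ} (hh : 0 ≤ h) :
    Summable fun k => (1 + h * nk k) ^ N * ‖c k‖ := by
  refine Summable.of_nonneg_of_le (fun k => ?_) (fun k => ?_) ((hc N).mul_left ((1 + h) ^ N))
  · have := mul_nonneg hh (nk_nonneg k); positivity
  · have h0 := nk_nonneg k
    have h1 : 1 + h * nk k ≤ (1 + h) * (1 + nk k) := by nlinarith
    have h2 : 0 ≤ 1 + h * nk k := by have := mul_nonneg hh h0; positivity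
    calc (1 + h * nk k) ^ N * ‖c k‖ ≤ ((1 + h) * (1 + nk k)) ^ N * ‖c k‖ :=
          mul_le_mul_of_nonneg_right (pow_le_pow_left₀ h2 h1 N) (norm_nonneg _)
      _ = (1 + h) ^ N * ((1 + nk k) ^ N * ‖c k‖) := by rw [mul_pow]; ring

theorem RD.summable_hi {c : Z12 → ℂ} (hc : RD c) (s : ℕ) {h : ℝ} (hh : 0 ≤ h) :
    Summable fun k => (h * nk k) ^ s * ‖c k‖ := by
  refine Summable.of_nonneg_of_le (fun k => ?_) (fun k => ?_) (hc.summable_wt s hh)
  · have := mul_nonneg hh (nk_nonneg k); positivity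
  · have h0 := mul_nonneg hh (nk_nonneg k)
    exact mul_le_mul_of_nonneg_right (pow_le_pow_left₀ h0 (by linarith) s) (norm_nonneg _)

theorem RD.of_norm_le {c d : Z12 → ℂ} (hc : RD c) (h : ∀ k, ‖d k‖ ≤ ‖c k‖) : RD d := fun N =>
  Summable.of_nonneg_of_le (fun k => by have := nk_nonneg k; positivity)
    (fun k => mul_le_mul_of_nonneg_left (h k) (by have := nk_nonneg k; positivity)) (hc N)

theorem RD.add {c d : Z12 → ℂ} (hc : RD c) (hd : RD d) : RD fun k => c k + d k := fun N => by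
  refine Summable.of_nonneg_of_le (fun k => by have := nk_nonneg k; positivity) (fun k => ?_)
    ((hc N).add (hd N))
  rw [← mul_add]
  exact mul_le_mul_of_nonneg_left (norm_add_le _ _) (by have := nk_nonneg k; positivity)

/-! ### convolution of sequences -/

/-- convolution -/
def cz (c d : Z12 → ℂ) (m : Z12) : ℂ := ∑' k, c k * d (m - k)

/-- `(k, l) ↦ (k + l, k)` -/
def shEq : Z12 × Z12 ≃ Z12 × Z12 where
  toFun p := (p.1 + p.2, p.1)
  invFun q := (q.2, q.1 - q.2)
  left_inv p := by simp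
  right_inv q := by simp

/-- weighted bound for a convolution -/
theorem conv_bound {c d : Z12 → ℂ} {F : Z12 → ℝ} (hF : ∀ m, 0 ≤ F m)
    {H : Z12 × Z12 → ℝ} (hH : Summable H)
    (hle : ∀ k l, F (k + l) * (‖c k‖ * ‖d l‖) ≤ H (k, l)) :
    Summable (fun m => F m * ‖cz c d m‖) ∧ ∑' m, F m * ‖cz c d m‖ ≤ ∑' p, H p := by
  have h1 : Summable fun p : Z12 × Z12 => F (p.1 + p.2) * (‖c p.1‖ * ‖d p.2‖) :=
    Summable.of_nonneg_of_le (fun p => mul_nonneg (hF _) (by positivity))
      (fun p => hle p.1 p.2) hH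
  have h2 : Summable fun q : Z12 × Z12 => F q.1 * (‖c q.2‖ * ‖d (q.1 - q.2)‖) := by
    have := (shEq.symm.summable_iff (f := fun p : Z12 × Z12 =>
      F (p.1 + p.2) * (‖c p.1‖ * ‖d p.2‖))).2 h1
    refine this.congr fun q => ?_
    simp [shEq]
  have h3 : ∀ m, Summable fun k => F m * (‖c k‖ * ‖d (m - k)‖) := fun m => h2.prod_factor m
  have h4 : ∀ m, F m * ‖cz c d m‖ ≤ ∑' k, F m * (‖c k‖ * ‖d (m - k)‖) := by
    intro m
    have e : F m * ‖cz c d m‖ = ‖∑' k, (F m : ℂ) * (c k * d (m - k))‖ := by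
      rw [tsum_mul_left, norm_mul, Complex.norm_real, Real.norm_of_nonneg (hF m)]; rfl
    rw [e]
    have h5 : ∀ k, ‖(F m : ℂ) * (c k * d (m - k))‖ = F m * (‖c k‖ * ‖d (m - k)‖) := fun k => by
      rw [norm_mul, norm_mul, Complex.norm_real, Real.norm_of_nonneg (hF m)]
    have h6 := norm_tsum_le_tsum_norm (f := fun k => (F m : ℂ) * (c k * d (m - k))) (by
      simp only [h5]; exact h3 m)
    simpa only [h5] using h6
  have h7 : Summable fun m => ∑' k, F m * (‖c k‖ * ‖d (m - k)‖) := h2.prod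
  have h8 : Summable (fun m => F m * ‖cz c d m‖) :=
    Summable.of_nonneg_of_le (fun m => mul_nonneg (hF m) (norm_nonneg _)) h4 h7
  refine ⟨h8, ?_⟩
  calc ∑' m, F m * ‖cz c d m‖ ≤ ∑' m, ∑' k, F m * (‖c k‖ * ‖d (m - k)‖) :=
        h8.tsum_le_tsum h4 h7
    _ = ∑' q : Z12 × Z12, F q.1 * (‖c q.2‖ * ‖d (q.1 - q.2)‖) := (h2.tsum_prod).symm
    _ = ∑' p : Z12 × Z12, F (p.1 + p.2) * (‖c p.1‖ * ‖d p.2‖) := by
        rw [← shEq.tsum_eq (fun q : Z12 × Z12 => F q.1 * (‖c q.2‖ * ‖d (q.1 - q.2)‖))]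
        simp [shEq]
    _ ≤ ∑' p, H p := h1.tsum_le_tsum (fun p => hle p.1 p.2) hH

/-- product bound with submultiplicative weight -/
theorem conv_bound_mul {c d : Z12 → ℂ} {F : Z12 → ℝ} (hF : ∀ m, 0 ≤ F m)
    (hsub : ∀ k l, F (k + l) ≤ F k * F l) (hc : Summable fun k => F k * ‖c k‖)
    (hd : Summable fun k => F k * ‖d k‖) :
    Summable (fun m => F m * ‖cz c d m‖) ∧
      ∑' m, F m * ‖cz c d m‖ ≤ (∑' k, F k * ‖c k‖) * ∑' k, F k * ‖d k‖ := by
  have hH : Summable fun p : Z12 × Z12 => (F p.1 * ‖c p.1‖) * (F p.2 * ‖d p.2‖) :=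
    hc.mul_of_nonneg hd (fun k => mul_nonneg (hF k) (norm_nonneg _))
      (fun k => mul_nonneg (hF k) (norm_nonneg _))
  obtain ⟨h1, h2⟩ := conv_bound hF hH (c := c) (d := d) (fun k l => by
    calc F (k + l) * (‖c k‖ * ‖d l‖) ≤ F k * F l * (‖c k‖ * ‖d l‖) :=
          mul_le_mul_of_nonneg_right (hsub k l) (by positivity)
      _ = _ := by ring)
  refine ⟨h1, h2.trans_eq ?_⟩
  rw [hc.tsum_mul_tsum hd hH]

theorem RD.cz {c d : Z12 → ℂ} (hc : RD c) (hd : RD d) : RD (cz c d) := fun N =>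
  (conv_bound_mul (F := fun k => (1 + nk k) ^ N)
    (fun k => by have := nk_nonneg k; positivity) (fun k l => by
      rw [← mul_pow]
      have h1 := nk_nonneg k
      have h2 := nk_nonneg l
      refine pow_le_pow_left₀ (by have := nk_nonneg (k + l); positivity) ?_ N
      have := nk_add_le k l
      nlinarith [mul_nonneg h1 h2]) (hc N) (hd N)).1

/-- the product family in convolution order -/
def pf (c d : Z12 → ℂ) (x : R12) (q : Z12 × Z12) : ℂ := c q.2 * d (q.1 - q.2) * ec q.1 x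

theorem pf_shEq (c d : Z12 → ℂ) (x : R12) (p : Z12 × Z12) :
    (c p.1 * ec p.1 x) * (d p.2 * ec p.2 x) = pf c d x (shEq p) := by
  unfold pf
  have h1 : (shEq p).1 = p.1 + p.2 := rfl
  have h2 : (shEq p).2 = p.1 := rfl
  rw [h1, h2, add_sub_cancel_left, ec_add]
  ring

theorem tsum_pf (c d : Z12 → ℂ) (x : R12) (m : Z12) :
    ∑' k, pf c d x (m, k) = cz c d m * ec m x := by
  show ∑' k, c k * d (m - k) * ec m x = (∑' k, c k * d (m - k)) * ec m x
  exact tsum_mul_right

theorem summable_ec {c : Z12 → ℂ} (hc : RD c) (x : R12) : Summable fun k => ‖c k * ec k x‖ := by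
  have e : (fun k => ‖c k * ec k x‖) = fun k => ‖c k‖ := by
    funext k; rw [norm_mul, norm_ec, mul_one]
  rw [e]; exact hc.summable_norm

theorem summable_pf {c d : Z12 → ℂ} (hc : RD c) (hd : RD d) (x : R12) :
    Summable (pf c d x) := by
  have hp := summable_mul_of_summable_norm (f := fun k => c k * ec k x)
    (g := fun k => d k * ec k x) (summable_ec hc x) (summable_ec hd x)
  have hp' : Summable (pf c d x ∘ shEq) := by
    have e : (pf c d x ∘ shEq) = fun p : Z12 × Z12 => (c p.1 * ec p.1 x) * (d p.2 * ec p.2 x) := by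
      funext p; exact (pf_shEq c d x p).symm
    rw [e]
    exact hp
  exact shEq.summable_iff.1 hp'

theorem series_mul_aux {c d : Z12 → ℂ} (hc : RD c) (hd : RD d) (x : R12) :
    (∑' k, c k * ec k x) * (∑' k, d k * ec k x) = ∑' q, pf c d x q := by
  have h1 := tsum_mul_tsum_of_summable_norm (summable_ec hc x) (summable_ec hd x)
  rw [h1, tsum_congr (pf_shEq c d x)]
  exact shEq.tsum_eq (pf c d x)

/-- the product of two absolutely convergent series -/
theorem series_mul {c d : Z12 → ℂ} (hc : RD c) (hd : RD d) (x : R12) :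
    (∑' k, c k * ec k x) * (∑' k, d k * ec k x) = ∑' m, cz c d m * ec m x := by
  have h1 : ∑' q, pf c d x q = ∑' m, ∑' k, pf c d x (m, k) := (summable_pf hc hd x).tsum_prod
  have h2 : ∑' m, ∑' k, pf c d x (m, k) = ∑' m, cz c d m * ec m x :=
    tsum_congr fun m => tsum_pf c d x m
  exact (series_mul_aux hc hd x).trans (h1.trans h2)

/-! ### coefficients -/

theorem rd_cf (h1 : TF1) {v : R12 → ℂ} (hv : IsSmoothPeriodic v) : RD (cf v) := (h1 v hv).1

theorem series_cf (h1 : TF1) {v : R12 → ℂ} (hv : IsSmoothPeriodic v) (x : R12) :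
    v x = ∑' k, cf v k * ec k x := (h1 v hv).2 x

/-- a function given by a rapidly decaying series is smooth periodic with these coefficients -/
theorem cf_unique (h2 : TF2) {c : Z12 → ℂ} (hc : RD c) {v : R12 → ℂ}
    (hv : ∀ x, v x = ∑' k, c k * ec k x) : IsSmoothPeriodic v ∧ cf v = c := by
  obtain ⟨w, hw, hcw, hx⟩ := h2 c hc
  have e : v = w := funext fun x => by rw [hv, hx]; rfl
  subst e
  exact ⟨hw, funext hcw⟩

theorem cf_add (h1 : TF1) (h2 : TF2) {v w : R12 → ℂ} (hv : IsSmoothPeriodic v)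
    (hw : IsSmoothPeriodic w) : IsSmoothPeriodic (fun x => v x + w x) ∧
      cf (fun x => v x + w x) = fun k => cf v k + cf w k := by
  refine cf_unique h2 ((rd_cf h1 hv).add (rd_cf h1 hw)) fun x => ?_
  rw [series_cf h1 hv, series_cf h1 hw, ← Summable.tsum_add]
  · refine tsum_congr fun k => ?_
    ring
  · refine Summable.of_norm ?_
    simpa only [norm_mul, norm_ec, mul_one] using (rd_cf h1 hv).summable_norm
  · refine Summable.of_norm ?_
    simpa only [norm_mul, norm_ec, mul_one] using (rd_cf h1 hw).summable_norm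

theorem cf_mul (h1 : TF1) (h2 : TF2) {v w : R12 → ℂ} (hv : IsSmoothPeriodic v)
    (hw : IsSmoothPeriodic w) : IsSmoothPeriodic (fun x => v x * w x) ∧
      cf (fun x => v x * w x) = cz (cf v) (cf w) := by
  refine cf_unique h2 ((rd_cf h1 hv).cz (rd_cf h1 hw)) fun x => ?_
  rw [series_cf h1 hv, series_cf h1 hw, series_mul (rd_cf h1 hv) (rd_cf h1 hw)]

theorem cf_trans (h1 : TF1) (h2 : TF2) {v : R12 → ℂ} (hv : IsSmoothPeriodic v) (a : R12) :
    IsSmoothPeriodic (fun x => v (x + a)) ∧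
      cf (fun x => v (x + a)) = fun k => cf v k * ec k a := by
  refine cf_unique h2 ((rd_cf h1 hv).of_norm_le fun k => ?_) fun x => ?_
  · rw [norm_mul, norm_ec, mul_one]
  · rw [series_cf h1 hv]
    refine tsum_congr fun k => ?_
    rw [ec_add_right]; ring

theorem cf_smul (v : R12 → ℂ) (c : ℂ) (k : Z12) : cf (fun x => c * v x) k = c * cf v k := by
  unfold cf
  have e : ∀ x : R12, c * v x * exp (-(I * ((inner ℝ (zv k) x : ℝ) : ℂ))) =
      c * (v x * exp (-(I * ((inner ℝ (zv k) x : ℝ) : ℂ)))) := fun x => by ring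
  simp only [e]
  rw [integral_const_mul]; ring

theorem cf_conj (v : R12 → ℂ) (k : Z12) :
    cf (fun x => starRingEnd ℂ (v x)) k = starRingEnd ℂ (cf v (-k)) := by
  unfold cf
  rw [map_mul, map_inv₀, Complex.conj_ofReal, ← integral_conj]
  congr 1
  refine integral_congr_ae (Filter.Eventually.of_forall fun x => ?_)
  simp only
  rw [map_mul, ← Complex.exp_conj, zv_neg, inner_neg_left]
  congr 2
  simp

/-- the elementary inequality `(a+b)^s ≤ 2 b^s + C a^s` -/
theorem pow_add_le (s : ℕ) : ∃ C : ℝ, 0 ≤ C ∧ ∀ a b : ℝ, 0 ≤ a → 0 ≤ b →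
    (a + b) ^ s ≤ 2 * b ^ s + C * a ^ s := by
  -- choose `δ > 0` with `(1+δ)^s ≤ 2`
  obtain ⟨δ, hδ, hδ2⟩ : ∃ δ : ℝ, 0 < δ ∧ (1 + δ) ^ s ≤ 2 := by
    have hc : ContinuousAt (fun δ : ℝ => (1 + δ) ^ s) 0 := by fun_prop
    have h1 : ∀ᶠ δ in 𝓝 (0 : ℝ), (1 + δ) ^ s < 2 := by
      have := hc.eventually_lt (continuousAt_const (y := (2 : ℝ))) (by simp)
      exact this
    have h2 : ∀ᶠ δ in 𝓝[>] (0 : ℝ), (1 + δ) ^ s < 2 ∧ 0 < δ :=
      (h1.filter_mono nhdsWithin_le_nhds).and self_mem_nhdsWithin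
    obtain ⟨δ, h3, h4⟩ := h2.exists
    exact ⟨δ, h4, h3.le⟩
  refine ⟨(1 + 1 / δ) ^ s, by positivity, fun a b ha hb => ?_⟩
  by_cases h : a ≤ δ * b
  · calc (a + b) ^ s ≤ ((1 + δ) * b) ^ s := pow_le_pow_left₀ (by positivity) (by linarith) s
      _ = (1 + δ) ^ s * b ^ s := mul_pow _ _ _
      _ ≤ 2 * b ^ s := mul_le_mul_of_nonneg_right hδ2 (by positivity)
      _ ≤ 2 * b ^ s + (1 + 1 / δ) ^ s * a ^ s := by
        have : 0 ≤ (1 + 1 / δ) ^ s * a ^ s := by positivity
        linarith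
  · push Not at h
    have h1 : b ≤ 1 / δ * a := by
      rw [div_mul_eq_mul_div, one_mul, le_div_iff₀ hδ]; linarith
    calc (a + b) ^ s ≤ ((1 + 1 / δ) * a) ^ s := pow_le_pow_left₀ (by positivity) (by linarith) s
      _ = (1 + 1 / δ) ^ s * a ^ s := mul_pow _ _ _
      _ ≤ 2 * b ^ s + (1 + 1 / δ) ^ s * a ^ s := by
        have : 0 ≤ 2 * b ^ s := by positivity
        linarith

/-- NODE TN -/
theorem tn_of (h1 : TF1) (h2 : TF2) : TN where
  sup_le v hv x := by
    rw [series_cf h1 hv]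
    refine (norm_tsum_le_tsum_norm ?_).trans_eq ?_
    · simpa only [norm_mul, norm_ec, mul_one] using (rd_cf h1 hv).summable_norm
    · unfold l1
      simp only [norm_mul, norm_ec, mul_one]
  l1_le v hv N h hh := by
    unfold l1 wn
    refine (rd_cf h1 hv).summable_norm.tsum_le_tsum (fun k => ?_)
      ((rd_cf h1 hv).summable_wt N hh)
    have := mul_nonneg hh (nk_nonneg k)
    nlinarith [one_le_pow₀ (M₀ := ℝ) (a := 1 + h * nk k) (by linarith) (n := N),
      norm_nonneg (cf v k)]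
  wn_add v w hv hw N h hh := by
    unfold wn
    rw [(cf_add h1 h2 hv hw).2, ← ((rd_cf h1 hv).summable_wt N hh).tsum_add
      ((rd_cf h1 hw).summable_wt N hh)]
    refine (((rd_cf h1 hv).add (rd_cf h1 hw)).summable_wt N hh).tsum_le_tsum (fun k => ?_)
      (((rd_cf h1 hv).summable_wt N hh).add ((rd_cf h1 hw).summable_wt N hh))
    rw [← mul_add]
    have := mul_nonneg hh (nk_nonneg k)
    exact mul_le_mul_of_nonneg_left (norm_add_le _ _) (by positivity)
  hi_add v w hv hw s h hh := by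
    unfold hi
    rw [(cf_add h1 h2 hv hw).2, ← ((rd_cf h1 hv).summable_hi s hh).tsum_add
      ((rd_cf h1 hw).summable_hi s hh)]
    refine (((rd_cf h1 hv).add (rd_cf h1 hw)).summable_hi s hh).tsum_le_tsum (fun k => ?_)
      (((rd_cf h1 hv).summable_hi s hh).add ((rd_cf h1 hw).summable_hi s hh))
    rw [← mul_add]
    have := mul_nonneg hh (nk_nonneg k)
    exact mul_le_mul_of_nonneg_left (norm_add_le _ _) (by positivity)
  wn_smul v c N h := by
    unfold wn
    rw [← tsum_mul_left]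
    refine tsum_congr fun k => ?_
    rw [cf_smul, norm_mul]; ring
  hi_smul v c s h := by
    unfold hi
    rw [← tsum_mul_left]
    refine tsum_congr fun k => ?_
    rw [cf_smul, norm_mul]; ring
  wn_conj v N h := by
    unfold wn
    rw [← (Equiv.neg Z12).tsum_eq fun k => (1 + h * nk k) ^ N * ‖cf v k‖]
    refine tsum_congr fun k => ?_
    rw [cf_conj, RCLike.norm_conj, Equiv.neg_apply, nk_neg]
  hi_conj v s h := by
    unfold hi
    rw [← (Equiv.neg Z12).tsum_eq fun k => (h * nk k) ^ s * ‖cf v k‖]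
    refine tsum_congr fun k => ?_
    rw [cf_conj, RCLike.norm_conj, Equiv.neg_apply, nk_neg]
  wn_trans v hv a N h := by
    unfold wn
    rw [(cf_trans h1 h2 hv a).2]
    refine tsum_congr fun k => ?_
    rw [norm_mul, norm_ec, mul_one]
  hi_trans v hv a s h := by
    unfold hi
    rw [(cf_trans h1 h2 hv a).2]
    refine tsum_congr fun k => ?_
    rw [norm_mul, norm_ec, mul_one]
  wn_mul v w hv hw N h hh := by
    unfold wn
    rw [(cf_mul h1 h2 hv hw).2]
    refine (conv_bound_mul (F := fun k => (1 + h * nk k) ^ N) (fun k => ?_) (fun k l => ?_)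
      ((rd_cf h1 hv).summable_wt N hh) ((rd_cf h1 hw).summable_wt N hh)).2
    · have := mul_nonneg hh (nk_nonneg k); positivity
    · rw [← mul_pow]
      have h3 := mul_nonneg hh (nk_nonneg k)
      have h4 := mul_nonneg hh (nk_nonneg l)
      have h5 := mul_nonneg hh (nk_nonneg (k + l))
      refine pow_le_pow_left₀ (by positivity) ?_ N
      have := mul_le_mul_of_nonneg_left (nk_add_le k l) hh
      nlinarith [mul_nonneg h3 h4]
  hi_mul s := by
    obtain ⟨C, hC, hab⟩ := pow_add_le s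
    refine ⟨C, hC, fun v w hv hw h hh => ?_⟩
    unfold hi l1
    rw [(cf_mul h1 h2 hv hw).2]
    have hv0 := (rd_cf h1 hv).summable_norm
    have hw0 := (rd_cf h1 hw).summable_norm
    have hvs := (rd_cf h1 hv).summable_hi s hh
    have hws := (rd_cf h1 hw).summable_hi s hh
    have hnn : ∀ (u : R12 → ℂ) (k : Z12), 0 ≤ (h * nk k) ^ s * ‖cf u k‖ := fun u k => by
      have := mul_nonneg hh (nk_nonneg k); positivity
    have hA : Summable fun p : Z12 × Z12 => ‖cf v p.1‖ * ((h * nk p.2) ^ s * ‖cf w p.2‖) :=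
      hv0.mul_of_nonneg hws (fun k => norm_nonneg _) (hnn w)
    have hB : Summable fun p : Z12 × Z12 => ((h * nk p.1) ^ s * ‖cf v p.1‖) * ‖cf w p.2‖ :=
      hvs.mul_of_nonneg hw0 (hnn v) (fun k => norm_nonneg _)
    refine (conv_bound (F := fun k => (h * nk k) ^ s)
      (H := fun p => 2 * (‖cf v p.1‖ * ((h * nk p.2) ^ s * ‖cf w p.2‖)) +
        C * (((h * nk p.1) ^ s * ‖cf v p.1‖) * ‖cf w p.2‖)) (fun k => ?_)
      ((hA.mul_left 2).add (hB.mul_left C)) (fun k l => ?_)).2.trans_eq ?_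
    · have := mul_nonneg hh (nk_nonneg k); positivity
    · have h3 := mul_nonneg hh (nk_nonneg k)
      have h4 := mul_nonneg hh (nk_nonneg l)
      have h5 := mul_nonneg hh (nk_nonneg (k + l))
      have h6 : h * nk (k + l) ≤ h * nk k + h * nk l := by
        rw [← mul_add]; exact mul_le_mul_of_nonneg_left (nk_add_le k l) hh
      have h7 : (h * nk (k + l)) ^ s ≤ 2 * (h * nk l) ^ s + C * (h * nk k) ^ s :=
        (pow_le_pow_left₀ h5 h6 s).trans (hab _ _ h3 h4)
      calc (h * nk (k + l)) ^ s * (‖cf v k‖ * ‖cf w l‖) ≤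
            (2 * (h * nk l) ^ s + C * (h * nk k) ^ s) * (‖cf v k‖ * ‖cf w l‖) :=
            mul_le_mul_of_nonneg_right h7 (by positivity)
        _ = _ := by ring
    · rw [(hA.mul_left 2).tsum_add (hB.mul_left C), tsum_mul_left, tsum_mul_left,
        ← hv0.tsum_mul_tsum hws hA, ← hvs.tsum_mul_tsum hw0 hB]
      ring
  wn_mono v hv N h h' hh hhh := by
    unfold wn
    refine ((rd_cf h1 hv).summable_wt N hh).tsum_le_tsum (fun k => ?_)
      ((rd_cf h1 hv).summable_wt N (hh.trans hhh))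
    have h3 := mul_nonneg hh (nk_nonneg k)
    have h4 := mul_le_mul_of_nonneg_right hhh (nk_nonneg k)
    exact mul_le_mul_of_nonneg_right (pow_le_pow_left₀ (by positivity) (by linarith) N)
      (norm_nonneg _)

end

end Crest.Agent.R086.TNl
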