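import Crest.Agent.R086.TorDefs

/-! Row 86, PART D-TORUS: shared elementary lemmas about `TorDefs` (helper277). -/

set_option autoImplicit false

open MeasureTheory Complex
open scoped ContDiff Topology
open Crest.AnalysisR.PDE.NLS (IsSmoothPeriodic periodCell sobolevDistSq IsClassicalSolution)

namespace Crest.Agent.R086

namespace TB

theorem nk_nonneg (k : Z12) : 0 ≤ nk k := norm_nonneg _

theorem one_le_w (N : ℕ) {h : ℝ} (hh : 0 ≤ h) (k : Z12) : 1 ≤ (1 + h * nk k) ^ N :=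
  one_le_pow₀ (by nlinarith [nk_nonneg k, mul_nonneg hh (nk_nonneg k)])

theorem w_nonneg (N : ℕ) {h : ℝ} (hh : 0 ≤ h) (k : Z12) : 0 ≤ (1 + h * nk k) ^ N :=
  zero_le_one.trans (one_le_w N hh k)

theorem hw_nonneg (s : ℕ) {h : ℝ} (hh : 0 ≤ h) (k : Z12) : 0 ≤ (h * nk k) ^ s :=
  pow_nonneg (mul_nonneg hh (nk_nonneg k)) _

theorem wn_nonneg (N : ℕ) {h : ℝ} (hh : 0 ≤ h) (v : R12 → ℂ) : 0 ≤ wn N h v :=
  tsum_nonneg fun k => mul_nonneg (w_nonneg N hh k) (norm_nonneg _)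

theorem hi_nonneg (s : ℕ) {h : ℝ} (hh : 0 ≤ h) (v : R12 → ℂ) : 0 ≤ hi s h v :=
  tsum_nonneg fun k => mul_nonneg (hw_nonneg s hh k) (norm_nonneg _)

theorem l1_nonneg (v : R12 → ℂ) : 0 ≤ l1 v := tsum_nonneg fun _ => norm_nonneg _

theorem nn_nonneg (N s : ℕ) {μ h : ℝ} (hμ : 0 ≤ μ) (hh : 0 ≤ h) (v : R12 → ℂ) :
    0 ≤ nn N s μ h v :=
  add_nonneg (wn_nonneg N hh v) (mul_nonneg hμ (hi_nonneg s hh v))

theorem nrm_nonneg (n N s : ℕ) {μ : ℝ} (hμ : 0 ≤ μ) {τ : ℝ} (hτ : 0 ≤ τ) (v : R12 → ℂ) :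
    0 ≤ nrm n N s μ τ v :=
  mul_nonneg (Real.rpow_nonneg hτ _) (nn_nonneg N s hμ (Real.sqrt_nonneg _) v)

theorem wn_zero (N : ℕ) (h : ℝ) : wn N h (fun _ => 0) = 0 := by
  simp [wn, cf]

theorem hi_zero (s : ℕ) (h : ℝ) : hi s h (fun _ => 0) = 0 := by
  simp [hi, cf]

theorem nrm_zero (n N s : ℕ) (μ τ : ℝ) : nrm n N s μ τ (fun _ => 0) = 0 := by
  simp [nrm, nn, wn_zero, hi_zero]

/-! ### summability -/

theorem summable_of_le_one (hTF : TF1) {v : R12 → ℂ} (hv : IsSmoothPeriodic v) (N : ℕ) :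
    Summable fun k => (1 + nk k) ^ N * ‖cf v k‖ := (hTF v hv).1 N

theorem w_le (N M : ℕ) (hNM : N ≤ M) {h H : ℝ} (hh : 0 ≤ h) (hH : h ≤ H) (k : Z12) :
    (1 + h * nk k) ^ N ≤ (1 + H * nk k) ^ M := by
  have h0 : 1 + h * nk k ≤ 1 + H * nk k := by nlinarith [nk_nonneg k]
  have h1 : 0 ≤ 1 + h * nk k := by nlinarith [nk_nonneg k, mul_nonneg hh (nk_nonneg k)]
  have h2 : (1 : ℝ) ≤ 1 + H * nk k := by
    nlinarith [nk_nonneg k, mul_nonneg (hh.trans hH) (nk_nonneg k)]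
  exact (pow_le_pow_left₀ h1 h0 N).trans (pow_le_pow_right₀ h2 hNM)

theorem w_le_max (N : ℕ) {h : ℝ} (hh : 0 ≤ h) (k : Z12) :
    (1 + h * nk k) ^ N ≤ (max 1 h) ^ N * (1 + nk k) ^ N := by
  rw [← mul_pow]
  refine pow_le_pow_left₀ (by nlinarith [nk_nonneg k, mul_nonneg hh (nk_nonneg k)]) ?_ N
  have h1 : (1 : ℝ) ≤ max 1 h := le_max_left _ _
  have h2 : h ≤ max 1 h := le_max_right _ _
  nlinarith [nk_nonneg k, mul_le_mul_of_nonneg_right h2 (nk_nonneg k)]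

theorem summable_wn (hTF : TF1) {v : R12 → ℂ} (hv : IsSmoothPeriodic v) (N : ℕ) {h : ℝ}
    (hh : 0 ≤ h) : Summable fun k => (1 + h * nk k) ^ N * ‖cf v k‖ := by
  refine Summable.of_nonneg_of_le (fun k => mul_nonneg (w_nonneg N hh k) (norm_nonneg _))
    (fun k => ?_) (((hTF v hv).1 N).mul_left ((max 1 h) ^ N))
  calc (1 + h * nk k) ^ N * ‖cf v k‖ ≤ ((max 1 h) ^ N * (1 + nk k) ^ N) * ‖cf v k‖ :=
        mul_le_mul_of_nonneg_right (w_le_max N hh k) (norm_nonneg _)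
    _ = (max 1 h) ^ N * ((1 + nk k) ^ N * ‖cf v k‖) := by ring

theorem hw_le_w (s : ℕ) {h : ℝ} (hh : 0 ≤ h) (k : Z12) :
    (h * nk k) ^ s ≤ (1 + h * nk k) ^ s :=
  pow_le_pow_left₀ (mul_nonneg hh (nk_nonneg k)) (by linarith) s

theorem summable_hi (hTF : TF1) {v : R12 → ℂ} (hv : IsSmoothPeriodic v) (s : ℕ) {h : ℝ}
    (hh : 0 ≤ h) : Summable fun k => (h * nk k) ^ s * ‖cf v k‖ :=
  Summable.of_nonneg_of_le (fun k => mul_nonneg (hw_nonneg s hh k) (norm_nonneg _))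
    (fun k => mul_le_mul_of_nonneg_right (hw_le_w s hh k) (norm_nonneg _))
    (summable_wn hTF hv s hh)

theorem summable_cf (hTF : TF1) {v : R12 → ℂ} (hv : IsSmoothPeriodic v) :
    Summable fun k => ‖cf v k‖ := by
  simpa using (hTF v hv).1 0

theorem wn_le_wn (hTF : TF1) {v : R12 → ℂ} (hv : IsSmoothPeriodic v) {N M : ℕ} (hNM : N ≤ M)
    {h H : ℝ} (hh : 0 ≤ h) (hH : h ≤ H) : wn N h v ≤ wn M H v :=
  (summable_wn hTF hv N hh).tsum_le_tsum
    (fun k => mul_le_mul_of_nonneg_right (w_le N M hNM hh hH k) (norm_nonneg _))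
    (summable_wn hTF hv M (hh.trans hH))

theorem hi_le_wn (hTF : TF1) {v : R12 → ℂ} (hv : IsSmoothPeriodic v) (s : ℕ) {h : ℝ}
    (hh : 0 ≤ h) : hi s h v ≤ wn s h v :=
  (summable_hi hTF hv s hh).tsum_le_tsum
    (fun k => mul_le_mul_of_nonneg_right (hw_le_w s hh k) (norm_nonneg _))
    (summable_wn hTF hv s hh)

theorem hi_le_wn' (hTF : TF1) {v : R12 → ℂ} (hv : IsSmoothPeriodic v) {s M : ℕ} (hsM : s ≤ M)
    {h H : ℝ} (hh : 0 ≤ h) (hH : h ≤ H) : hi s h v ≤ wn M H v :=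
  (hi_le_wn hTF hv s hh).trans (wn_le_wn hTF hv hsM hh hH)

/-- `hi s h v = (h/H)^s * hi s H v`. -/
theorem hi_scale (s : ℕ) (h H : ℝ) (hH : H ≠ 0) (v : R12 → ℂ) :
    hi s h v = (h / H) ^ s * hi s H v := by
  unfold hi
  rw [← tsum_mul_left]
  refine tsum_congr fun k => ?_
  rw [← mul_assoc, ← mul_pow, show h / H * (H * nk k) = h * nk k by field_simp]

/-- the intermediate weight `N+1` is controlled by the two norms. -/
theorem wn_succ_le (hTF : TF1) {v : R12 → ℂ} (hv : IsSmoothPeriodic v) {N s : ℕ}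
    (hs : N + 1 ≤ s) {h : ℝ} (hh : 0 ≤ h) :
    wn (N + 1) h v ≤ 2 ^ (N + 1) * (wn N h v + hi s h v) := by
  have h1 := summable_wn hTF hv N hh
  have h2 := summable_hi hTF hv s hh
  have key : ∀ k : Z12, (1 + h * nk k) ^ (N + 1) ≤
      2 ^ (N + 1) * ((1 + h * nk k) ^ N + (h * nk k) ^ s) := by
    intro k
    have hx : 0 ≤ h * nk k := mul_nonneg hh (nk_nonneg k)
    rcases le_total (h * nk k) 1 with h3 | h3
    · have : (1 + h * nk k) ^ (N + 1) ≤ 2 ^ (N + 1) :=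
        pow_le_pow_left₀ (by linarith) (by linarith) _
      have h4 : 1 ≤ (1 + h * nk k) ^ N + (h * nk k) ^ s := by
        have := one_le_w N hh k
        have := hw_nonneg s hh k
        linarith
      calc (1 + h * nk k) ^ (N + 1) ≤ 2 ^ (N + 1) * 1 := by simpa using this
        _ ≤ _ := mul_le_mul_of_nonneg_left h4 (by positivity)
    · have : (1 + h * nk k) ^ (N + 1) ≤ (2 * (h * nk k)) ^ (N + 1) :=
        pow_le_pow_left₀ (by linarith) (by linarith) _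
      have h4 : (h * nk k) ^ (N + 1) ≤ (h * nk k) ^ s := pow_le_pow_right₀ h3 hs
      have h5 := w_nonneg N hh k
      calc (1 + h * nk k) ^ (N + 1) ≤ 2 ^ (N + 1) * (h * nk k) ^ (N + 1) := by
            rw [← mul_pow]; exact this
        _ ≤ _ := mul_le_mul_of_nonneg_left (by linarith) (by positivity)
  calc wn (N + 1) h v
      ≤ ∑' k, 2 ^ (N + 1) * (((1 + h * nk k) ^ N + (h * nk k) ^ s) * ‖cf v k‖) := by
        refine (summable_wn hTF hv (N + 1) hh).tsum_le_tsum (fun k => ?_) ?_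
        · rw [← mul_assoc]
          exact mul_le_mul_of_nonneg_right (key k) (norm_nonneg _)
        · refine Summable.mul_left _ ((h1.add h2).congr fun k => by ring)
    _ = _ := by
        rw [tsum_mul_left]
        congr 1
        rw [wn, hi, ← h1.tsum_add h2]
        exact tsum_congr fun k => by ring

/-! ### closure of smooth periodic functions -/

theorem sp_const (c : ℂ) : IsSmoothPeriodic (fun _ : R12 => c) :=
  ⟨contDiff_const, fun _ _ => rfl⟩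

theorem sp_add {v w : R12 → ℂ} (hv : IsSmoothPeriodic v) (hw : IsSmoothPeriodic w) :
    IsSmoothPeriodic (fun x => v x + w x) :=
  ⟨hv.1.add hw.1, fun x i => by simp only [hv.2 x i, hw.2 x i]⟩

theorem sp_sub {v w : R12 → ℂ} (hv : IsSmoothPeriodic v) (hw : IsSmoothPeriodic w) :
    IsSmoothPeriodic (fun x => v x - w x) :=
  ⟨hv.1.sub hw.1, fun x i => by simp only [hv.2 x i, hw.2 x i]⟩

theorem sp_neg {v : R12 → ℂ} (hv : IsSmoothPeriodic v) : IsSmoothPeriodic (fun x => -v x) :=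
  ⟨hv.1.neg, fun x i => by simp only [hv.2 x i]⟩

theorem sp_mul {v w : R12 → ℂ} (hv : IsSmoothPeriodic v) (hw : IsSmoothPeriodic w) :
    IsSmoothPeriodic (fun x => v x * w x) :=
  ⟨hv.1.mul hw.1, fun x i => by simp only [hv.2 x i, hw.2 x i]⟩

theorem sp_cmul {v : R12 → ℂ} (hv : IsSmoothPeriodic v) (c : ℂ) :
    IsSmoothPeriodic (fun x => c * v x) := sp_mul (sp_const c) hv

theorem sp_conj {v : R12 → ℂ} (hv : IsSmoothPeriodic v) :
    IsSmoothPeriodic (fun x => starRingEnd ℂ (v x)) :=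
  ⟨Complex.conjCLE.contDiff.comp hv.1, fun x i => by simp only [hv.2 x i]⟩

theorem sp_pow {v : R12 → ℂ} (hv : IsSmoothPeriodic v) (m : ℕ) :
    IsSmoothPeriodic (fun x => v x ^ m) :=
  ⟨hv.1.pow m, fun x i => by simp only [hv.2 x i]⟩

theorem sp_trans {v : R12 → ℂ} (hv : IsSmoothPeriodic v) (a : R12) :
    IsSmoothPeriodic (fun x => v (x + a)) :=
  ⟨hv.1.comp (contDiff_id.add contDiff_const), fun x i => by
    have := hv.2 (x + a) i
    show v (x + EuclideanSpace.single i (2 * Real.pi) + a) = v (x + a)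
    rw [add_right_comm]
    exact this⟩

theorem sp_trans_sub {v : R12 → ℂ} (hv : IsSmoothPeriodic v) (a : R12) :
    IsSmoothPeriodic (fun x => v (x - a)) := by
  simpa [sub_eq_add_neg] using sp_trans hv (-a)

theorem sp_sum {ι : Type*} (s : Finset ι) {f : ι → R12 → ℂ} (h : ∀ i ∈ s, IsSmoothPeriodic (f i)) :
    IsSmoothPeriodic (fun x => ∑ i ∈ s, f i x) :=
  ⟨ContDiff.sum fun i hi => (h i hi).1, fun x j =>
    Finset.sum_congr rfl fun i hi => (h i hi).2 x j⟩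

/-- for even `n = 2m`, `|z|^n z = z^(m+1) (conj z)^m`. -/
theorem nl_eq (m : ℕ) (z : ℂ) : nl (2 * m) z = z ^ (m + 1) * (starRingEnd ℂ z) ^ m := by
  unfold nl
  have h : ((‖z‖ ^ (2 * m) : ℝ) : ℂ) = (z * starRingEnd ℂ z) ^ m := by
    rw [Complex.mul_conj, Complex.normSq_eq_norm_sq, pow_mul]
    push_cast
    rfl
  rw [h, mul_pow, pow_succ]
  ring

theorem sp_nl {n : ℕ} (hn : Even n) {v : R12 → ℂ} (hv : IsSmoothPeriodic v) :
    IsSmoothPeriodic (fun x => nl n (v x)) := by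
  obtain ⟨m, rfl⟩ := hn
  have : (fun x => nl (m + m) (v x)) = fun x => v x ^ (m + 1) * (starRingEnd ℂ (v x)) ^ m := by
    funext x
    rw [← two_mul, nl_eq]
  rw [this]
  exact sp_mul (sp_pow hv _) (sp_pow (sp_conj hv) m)

theorem sp_normpow {n : ℕ} (hn : Even n) {v : R12 → ℂ} (hv : IsSmoothPeriodic v) :
    IsSmoothPeriodic (fun x => ((‖v x‖ ^ n : ℝ) : ℂ)) := by
  obtain ⟨m, rfl⟩ := hn
  have : (fun x => ((‖v x‖ ^ (m + m) : ℝ) : ℂ)) = fun x => (v x * starRingEnd ℂ (v x)) ^ m := by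
    funext x
    rw [Complex.mul_conj, Complex.normSq_eq_norm_sq, ← two_mul, pow_mul]
    push_cast
    rfl
  rw [this]
  exact sp_pow (sp_mul hv (sp_conj hv)) m

/-! ### norm inequalities (from `TN`, `TF1`) -/

theorem l1_eq_wn (v : R12 → ℂ) : l1 v = wn 0 0 v := by simp [l1, wn]

theorem wn_neg (hTN : TN) (v : R12 → ℂ) (N : ℕ) (h : ℝ) : wn N h (fun x => -v x) = wn N h v := by
  have := hTN.wn_smul v (-1) N h
  simpa using this

theorem hi_neg (hTN : TN) (v : R12 → ℂ) (s : ℕ) (h : ℝ) : hi s h (fun x => -v x) = hi s h v := by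
  have := hTN.hi_smul v (-1) s h
  simpa using this

theorem wn_sub_le (hTN : TN) {v w : R12 → ℂ} (hv : IsSmoothPeriodic v) (hw : IsSmoothPeriodic w)
    (N : ℕ) {h : ℝ} (hh : 0 ≤ h) : wn N h (fun x => v x - w x) ≤ wn N h v + wn N h w := by
  have := hTN.wn_add v (fun x => -w x) hv (sp_neg hw) N h hh
  rw [wn_neg hTN] at this
  simpa [sub_eq_add_neg] using this

theorem hi_sub_le (hTN : TN) {v w : R12 → ℂ} (hv : IsSmoothPeriodic v) (hw : IsSmoothPeriodic w)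
    (s : ℕ) {h : ℝ} (hh : 0 ≤ h) : hi s h (fun x => v x - w x) ≤ hi s h v + hi s h w := by
  have := hTN.hi_add v (fun x => -w x) hv (sp_neg hw) s h hh
  rw [hi_neg hTN] at this
  simpa [sub_eq_add_neg] using this

theorem nn_add_le (hTN : TN) {v w : R12 → ℂ} (hv : IsSmoothPeriodic v) (hw : IsSmoothPeriodic w)
    (N s : ℕ) {μ h : ℝ} (hμ : 0 ≤ μ) (hh : 0 ≤ h) :
    nn N s μ h (fun x => v x + w x) ≤ nn N s μ h v + nn N s μ h w := by
  unfold nn
  have h1 := hTN.wn_add v w hv hw N h hh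
  have h2 := mul_le_mul_of_nonneg_left (hTN.hi_add v w hv hw s h hh) hμ
  linarith

theorem nrm_add_le (hTN : TN) {v w : R12 → ℂ} (hv : IsSmoothPeriodic v) (hw : IsSmoothPeriodic w)
    (n N s : ℕ) {μ τ : ℝ} (hμ : 0 ≤ μ) (hτ : 0 ≤ τ) :
    nrm n N s μ τ (fun x => v x + w x) ≤ nrm n N s μ τ v + nrm n N s μ τ w := by
  unfold nrm
  rw [← mul_add]
  exact mul_le_mul_of_nonneg_left (nn_add_le hTN hv hw N s hμ (Real.sqrt_nonneg _))
    (Real.rpow_nonneg hτ _)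

theorem nrm_smul (hTN : TN) (v : R12 → ℂ) (c : ℂ) (n N s : ℕ) (μ τ : ℝ) :
    nrm n N s μ τ (fun x => c * v x) = ‖c‖ * nrm n N s μ τ v := by
  unfold nrm nn
  rw [hTN.wn_smul, hTN.hi_smul]
  ring

theorem nrm_neg (hTN : TN) (v : R12 → ℂ) (n N s : ℕ) (μ τ : ℝ) :
    nrm n N s μ τ (fun x => -v x) = nrm n N s μ τ v := by
  have := nrm_smul hTN v (-1) n N s μ τ
  simpa using this

theorem nrm_sub_le (hTN : TN) {v w : R12 → ℂ} (hv : IsSmoothPeriodic v) (hw : IsSmoothPeriodic w)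
    (n N s : ℕ) {μ τ : ℝ} (hμ : 0 ≤ μ) (hτ : 0 ≤ τ) :
    nrm n N s μ τ (fun x => v x - w x) ≤ nrm n N s μ τ v + nrm n N s μ τ w := by
  have := nrm_add_le hTN hv (sp_neg hw) n N s hμ hτ
  rw [nrm_neg hTN] at this
  simpa [sub_eq_add_neg] using this

theorem nrm_tri (hTN : TN) {u v w : R12 → ℂ} (hu : IsSmoothPeriodic u) (hv : IsSmoothPeriodic v)
    (hw : IsSmoothPeriodic w) (n N s : ℕ) {μ τ : ℝ} (hμ : 0 ≤ μ) (hτ : 0 ≤ τ) :
    nrm n N s μ τ (fun x => u x - w x)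
      ≤ nrm n N s μ τ (fun x => u x - v x) + nrm n N s μ τ (fun x => v x - w x) := by
  have := nrm_add_le hTN (sp_sub hu hv) (sp_sub hv hw) n N s hμ hτ
  simpa using this

theorem nrm_trans (hTN : TN) {v : R12 → ℂ} (hv : IsSmoothPeriodic v) (a : R12) (n N s : ℕ)
    (μ τ : ℝ) : nrm n N s μ τ (fun x => v (x + a)) = nrm n N s μ τ v := by
  unfold nrm nn
  rw [hTN.wn_trans v hv, hTN.hi_trans v hv]

/-- the scaled norm controls the scaled sup norm -/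
theorem sup_le_nrm (hTN : TN) {v : R12 → ℂ} (hv : IsSmoothPeriodic v) (n N s : ℕ) {μ τ : ℝ}
    (hμ : 0 ≤ μ) (hτ : 0 ≤ τ) (x : R12) : τ ^ (1 / (n : ℝ)) * ‖v x‖ ≤ nrm n N s μ τ v := by
  unfold nrm nn
  refine mul_le_mul_of_nonneg_left ?_ (Real.rpow_nonneg hτ _)
  have h1 := hTN.sup_le v hv x
  have h2 := hTN.l1_le v hv N (Real.sqrt τ) (Real.sqrt_nonneg _)
  have h3 := mul_nonneg hμ (hi_nonneg s (Real.sqrt_nonneg τ) v)
  linarith

/-- Sobolev control of `nrm` at a fixed scale `τ ≤ 1`. -/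
theorem nrm_le_sobolev (hTF : TF1) (hTF3 : TF3) (n N s : ℕ) (hs : N ≤ s) :
    ∃ C : ℝ, 0 ≤ C ∧ ∀ (μ τ : ℝ), 0 ≤ μ → μ ≤ 1 → 0 ≤ τ → τ ≤ 1 → ∀ v w : R12 → ℂ,
      IsSmoothPeriodic v → IsSmoothPeriodic w →
      nrm n N s μ τ (fun x => v x - w x) ≤ C * Real.sqrt (sobolevDistSq (s + 14) v w) := by
  obtain ⟨C, hC, h⟩ := hTF3 s
  refine ⟨2 * C, by positivity, fun μ τ hμ hμ1 hτ hτ1 v w hv hw => ?_⟩
  have h0 := h v w hv hw
  have hvw := sp_sub hv hw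
  have hsq : Real.sqrt τ ≤ 1 := by
    rw [show (1 : ℝ) = Real.sqrt 1 by simp]
    exact Real.sqrt_le_sqrt hτ1
  have h1 : wn N (Real.sqrt τ) (fun x => v x - w x) ≤ wn s 1 (fun x => v x - w x) :=
    wn_le_wn hTF hvw hs (Real.sqrt_nonneg _) hsq
  have h2 : hi s (Real.sqrt τ) (fun x => v x - w x) ≤ wn s 1 (fun x => v x - w x) :=
    hi_le_wn' hTF hvw le_rfl (Real.sqrt_nonneg _) hsq
  have h3 : nn N s μ (Real.sqrt τ) (fun x => v x - w x) ≤ 2 * wn s 1 (fun x => v x - w x) := by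
    unfold nn
    have h4 := hi_nonneg s (Real.sqrt_nonneg τ) (fun x => v x - w x)
    nlinarith
  have h5 : τ ^ (1 / (n : ℝ)) ≤ 1 := Real.rpow_le_one hτ hτ1 (by positivity)
  have h6 : 0 ≤ nn N s μ (Real.sqrt τ) (fun x => v x - w x) :=
    nn_nonneg N s hμ (Real.sqrt_nonneg _) _
  have h7 : 0 ≤ τ ^ (1 / (n : ℝ)) := Real.rpow_nonneg hτ _
  unfold nrm
  nlinarith

end TB

end Crest.Agent.R086
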