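import Crest.Agent.R086.DCls
import Crest.Agent.R086.TN
import Crest.Agent.R086.TorBasic
import Crest.Agent.R086.TF

/-!
Row 86, part D-torus, node TC5 (helper327): coefficientwise solutions are classical
(from helper232's `DCls.classical_of_coeff`).
-/

set_option autoImplicit false

noncomputable section

open scoped BigOperators ComplexConjugate ContDiff ENNReal Topology
open Filter MeasureTheory Complex Set
open Crest.AnalysisR.PDE.NLS (IsSmoothPeriodic periodCell sobolevDistSq IsClassicalSolution)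

namespace Crest.Agent.R086

namespace TCl

lemma wn_pow_le (hTN : TN) {v : R12 → ℂ} (hv : IsSmoothPeriodic v) (N : ℕ) {h : ℝ} (hh : 0 ≤ h)
    (m : ℕ) : wn N h (fun x => v x ^ (m + 1)) ≤ wn N h v ^ (m + 1) := by
  induction m with
  | zero => simp
  | succ m ih =>
    have h1 := hTN.wn_mul (fun x => v x ^ (m + 1)) v (TB.sp_pow hv _) hv N h hh
    have h2 : (fun x => v x ^ (m + 1) * v x) = fun x => v x ^ (m + 1 + 1) := by
      funext x; rw [pow_succ (v x) (m + 1)]
    rw [h2] at h1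
    refine h1.trans ?_
    rw [pow_succ (wn N h v) (m + 1)]
    exact mul_le_mul_of_nonneg_right ih (TB.wn_nonneg N hh v)

lemma wn_nl_le (hTN : TN) {n : ℕ} (hn : Even n) (hn2 : 2 ≤ n) {v : R12 → ℂ}
    (hv : IsSmoothPeriodic v) (N : ℕ) {h : ℝ} (hh : 0 ≤ h) :
    wn N h (fun x => nl n (v x)) ≤ wn N h v ^ (n + 1) := by
  obtain ⟨m, rfl⟩ := hn
  obtain ⟨j, rfl⟩ : ∃ j, m = j + 1 := ⟨m - 1, by omega⟩
  have e : (fun x => nl (j + 1 + (j + 1)) (v x)) =
      fun x => v x ^ (j + 1 + 1) * (starRingEnd ℂ (v x)) ^ (j + 1) := by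
    funext x
    rw [← two_mul, TB.nl_eq]
  rw [e]
  have hc := TB.sp_conj hv
  refine (hTN.wn_mul _ _ (TB.sp_pow hv (j + 1 + 1)) (TB.sp_pow hc (j + 1)) N h hh).trans ?_
  have h1 := wn_pow_le hTN hv N hh (j + 1)
  have h2 := wn_pow_le hTN hc N hh j
  have h3 := hTN.wn_conj v N h
  have h0 := TB.wn_nonneg N hh v
  calc wn N h (fun x => v x ^ (j + 1 + 1)) * wn N h (fun x => (starRingEnd ℂ (v x)) ^ (j + 1))
      ≤ wn N h v ^ (j + 1 + 1) * wn N h v ^ (j + 1) := by
        refine mul_le_mul h1 ?_ (TB.wn_nonneg N hh _) (by positivity)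
        rw [← h3]; exact h2
    _ = wn N h v ^ (j + 1 + (j + 1) + 1) := by rw [← pow_add]; congr 1; ring

lemma term_le (h1 : TF1) {v : R12 → ℂ} (hv : IsSmoothPeriodic v) (N : ℕ) (k : Z12) :
    (1 + nk k) ^ N * ‖cf v k‖ ≤ wn N 1 v := by
  have hs := (h1 v hv).1 N
  have hs' : Summable fun k => (1 + 1 * nk k) ^ N * ‖cf v k‖ := by simpa using hs
  have := hs'.le_tsum k (fun j _ => mul_nonneg (TB.w_nonneg N zero_le_one j) (norm_nonneg _))
  rw [one_mul] at this
  exact this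

lemma series (h1 : TF1) {v : R12 → ℂ} (hv : IsSmoothPeriodic v) (x : R12) :
    v x = ∑' k, cf v k * DCls.ek k x := (h1 v hv).2 x

lemma summable_series (h1 : TF1) {v : R12 → ℂ} (hv : IsSmoothPeriodic v) (x : R12) :
    Summable fun k => cf v k * DCls.ek k x := by
  refine Summable.of_norm ?_
  have := (h1 v hv).1 0
  simp only [pow_zero, one_mul] at this
  refine this.congr fun k => ?_
  rw [norm_mul, DCls.norm_ek, mul_one]

/-- time derivative of the coefficients. -/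
def dcf (n : ℕ) (u : ℝ → R12 → ℂ) (t : ℝ) (k : Z12) : ℂ :=
  -(I * ((nk k ^ 2 : ℝ) : ℂ)) * cf (u t) k - I * cf (fun x => nl n (u t x)) k

theorem tc5_of (h1 : TF1) (hTN : TN) : TC5 := by
  intro n hn hn2 T u hT hu
  have hJ : ∀ t0 < T, Icc (0 : ℝ) t0 ⊆ Ico 0 T := fun t0 ht0 s hs => ⟨hs.1, lt_of_le_of_lt hs.2 ht0⟩
  have hcc : ∀ k, ContinuousOn (fun t => cf (u t) k) (Ico 0 T) := fun k t ht =>
    (hu.ode t ht k).continuousWithinAt
  -- continuity in time, space fixed
  have hcx : ∀ x, ContinuousOn (fun t => u t x) (Ico 0 T) := by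
    intro x t ht
    obtain ⟨t0, ht0, ht0T⟩ := exists_between ht.2
    obtain ⟨B, hB⟩ := hu.bdd 13 (Icc 0 t0) (hJ t0 ht0T) isCompact_Icc
    have hc : ContinuousOn (fun t => ∑' k, cf (u t) k * DCls.ek k x) (Icc 0 t0) := by
      refine continuousOn_tsum (u := fun k => B * (DCls.wt k ^ 13)⁻¹) (fun k => ?_)
        ((DCls.summable_wt_inv le_rfl).mul_left B) (fun k s hs => ?_)
      · exact ((hcc k).mono (hJ t0 ht0T)).mul continuousOn_const
      · rw [norm_mul, DCls.norm_ek, mul_one]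
        apply DCls.bound_to_inv
        exact (term_le h1 (hu.smooth s (hJ t0 ht0T hs)) 13 k).trans (hB s hs)
    have hc2 : ContinuousOn (fun t => u t x) (Icc 0 t0) :=
      hc.congr fun s hs => series h1 (hu.smooth s (hJ t0 ht0T hs)) x
    refine (hc2 t ⟨ht.1, ht0.le⟩).mono_of_mem_nhdsWithin ?_
    rw [mem_nhdsWithin]
    exact ⟨Iio t0, isOpen_Iio, ht0, fun r hr => ⟨hr.2.1, le_of_lt hr.1⟩⟩
  have hsup : ∀ t0 < T, ∃ B, 0 ≤ B ∧ ∀ t ∈ Icc 0 t0, ∀ x, ‖u t x‖ ≤ B := by
    intro t0 ht0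
    obtain ⟨B, hB⟩ := hu.bdd 0 (Icc 0 t0) (hJ t0 ht0) isCompact_Icc
    refine ⟨max B 0, le_max_right _ _, fun t ht x => le_trans ?_ (le_max_left _ _)⟩
    have ht' := hu.smooth t (hJ t0 ht0 ht)
    exact ((hTN.sup_le _ ht' x).trans (hTN.l1_le _ ht' 0 1 zero_le_one)).trans (hB t ht)
  -- continuity of the coefficients of the nonlinearity
  have hcn : ∀ k, ContinuousOn (fun t => cf (fun x => nl n (u t x)) k) (Ioo 0 T) := by
    intro k
    have hper : ∀ t ∈ Ioo 0 T, Tor.Per (fun x => nl n (u t x)) := fun t ht =>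
      (TB.sp_nl hn (hu.smooth t ⟨ht.1.le, ht.2⟩)).2
    have hcont : ContinuousOn (fun t => ∫ x in Tor.ubox (d := 12),
        Tor.ek (-k) (Tor.sc x) * nl n (u t (Tor.sc x))) (Ioo 0 T) := by
      intro t ht
      refine ContinuousAt.continuousWithinAt ?_
      obtain ⟨t0, ht0, ht0T⟩ := exists_between ht.2
      obtain ⟨B, hB0, hB⟩ := hsup t0 ht0T
      have hnear : ∀ᶠ s in 𝓝 t, s ∈ Ioo 0 t0 := Ioo_mem_nhds ht.1 ht0
      refine continuousAt_of_dominated (bound := fun _ => B ^ n * B) ?_ ?_ ?_ ?_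
      · filter_upwards [hnear] with s hs
        have hsm := TB.sp_nl hn (hu.smooth s (hJ t0 ht0T ⟨hs.1.le, hs.2.le⟩))
        exact (((Tor.continuous_ek _).comp Tor.continuous_sc).mul
          (hsm.1.continuous.comp Tor.continuous_sc)).aestronglyMeasurable
      · filter_upwards [hnear] with s hs
        refine Eventually.of_forall fun x => ?_
        rw [norm_mul, Tor.norm_ek, one_mul]
        unfold nl
        rw [norm_mul, Complex.norm_real, Real.norm_eq_abs, abs_of_nonneg (by positivity)]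
        have := hB s ⟨hs.1.le, hs.2.le⟩ (Tor.sc x)
        gcongr
      · exact integrable_const _
      · refine Eventually.of_forall fun x => ?_
        have hx : ContinuousAt (fun s => u s (Tor.sc x)) t :=
          (hcx (Tor.sc x)).continuousAt (Ico_mem_nhds ht.1 ht.2)
        refine continuousAt_const.mul ?_
        unfold nl
        exact (Complex.continuous_ofReal.continuousAt.comp (hx.norm.pow n)).mul hx
    refine hcont.congr fun t ht => ?_
    simp only
    rw [cf_eq_tor (hper t ht), Tor.cf_eq_integral (hper t ht)]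
  refine DCls.classical_of_coeff (T := T) (c := fun t k => cf (u t) k) (d := dcf n u) (n + 1) u
    (fun t ht x => series h1 (hu.smooth t ht) x) ?_ ?_ hcc ?_ ?_ ?_
  · intro t0 ht0
    obtain ⟨B, hB⟩ := hu.bdd 15 (Icc 0 t0) (hJ t0 ht0) isCompact_Icc
    exact ⟨B, fun t ht k => (term_le h1 (hu.smooth t (hJ t0 ht0 ht)) 15 k).trans (hB t ht)⟩
  · intro t0 ht0
    obtain ⟨B, hB⟩ := hu.bdd 15 (Icc 0 t0) (hJ t0 ht0) isCompact_Icc
    obtain ⟨B', hB'⟩ := hu.bdd 13 (Icc 0 t0) (hJ t0 ht0) isCompact_Icc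
    refine ⟨B + (max B' 0) ^ (n + 1), fun t ht k => ?_⟩
    have hsm := hu.smooth t (hJ t0 ht0 ht)
    have a1 := (term_le h1 hsm 15 k).trans (hB t ht)
    have a2 := (term_le h1 (TB.sp_nl hn hsm) 13 k).trans (wn_nl_le hTN hn hn2 hsm 13 zero_le_one)
    have a3 : wn 13 1 (u t) ^ (n + 1) ≤ (max B' 0) ^ (n + 1) :=
      pow_le_pow_left₀ (TB.wn_nonneg 13 zero_le_one _) ((hB' t ht).trans (le_max_left _ _)) _
    have hw := DCls.wt_pos k
    have hk : nk k ≤ DCls.wt k := by
      show ‖DCls.kv k‖ ≤ 1 + ‖DCls.kv k‖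
      linarith
    have hk0 := TB.nk_nonneg k
    have b1 : ‖dcf n u t k‖ ≤ nk k ^ 2 * ‖cf (u t) k‖ + ‖cf (fun x => nl n (u t x)) k‖ := by
      unfold dcf
      refine (norm_sub_le _ _).trans ?_
      rw [norm_mul, norm_neg, norm_mul, Complex.norm_I, one_mul, Complex.norm_real, norm_mul,
        Complex.norm_I, one_mul, Real.norm_eq_abs, abs_of_nonneg (by positivity)]
    calc DCls.wt k ^ 13 * ‖dcf n u t k‖
        ≤ DCls.wt k ^ 13 * (nk k ^ 2 * ‖cf (u t) k‖ + ‖cf (fun x => nl n (u t x)) k‖) := by gcongr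
      _ ≤ DCls.wt k ^ 13 * (DCls.wt k ^ 2 * ‖cf (u t) k‖ + ‖cf (fun x => nl n (u t x)) k‖) := by
          gcongr
      _ = (1 + nk k) ^ 15 * ‖cf (u t) k‖ + (1 + nk k) ^ 13 * ‖cf (fun x => nl n (u t x)) k‖ := by
          have : DCls.wt k = 1 + nk k := rfl
          rw [this]; ring
      _ ≤ B + (max B' 0) ^ (n + 1) := add_le_add a1 (a2.trans a3)
  · intro k
    unfold dcf
    refine (continuousOn_const.mul ((hcc k).mono fun t ht => ⟨ht.1.le, ht.2⟩)).sub
      (continuousOn_const.mul (hcn k))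
  · intro k t ht
    exact (hu.ode t ⟨ht.1.le, ht.2⟩ k).hasDerivAt (Ico_mem_nhds ht.1 ht.2)
  · intro t ht x
    have hsm := hu.smooth t ⟨ht.1.le, ht.2⟩
    have hsn := TB.sp_nl hn hsm
    -- summability
    have s2 : Summable fun k => ((‖DCls.kv k‖ ^ 2 : ℝ) : ℂ) * (cf (u t) k * DCls.ek k x) := by
      refine Summable.of_norm ?_
      refine Summable.of_nonneg_of_le (fun k => norm_nonneg _) (fun k => ?_) ((h1 _ hsm).1 2)
      rw [norm_mul, norm_mul, DCls.norm_ek, mul_one, Complex.norm_real, Real.norm_eq_abs,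
        abs_of_nonneg (by positivity)]
      have hk : ‖DCls.kv k‖ ≤ 1 + nk k := by
        show ‖DCls.kv k‖ ≤ 1 + ‖DCls.kv k‖
        linarith
      gcongr
    have s3 := summable_series h1 hsn x
    have e1 : ∀ k, dcf n u t k * DCls.ek k x =
        -(I * (((‖DCls.kv k‖ ^ 2 : ℝ) : ℂ) * (cf (u t) k * DCls.ek k x))) -
          I * (cf (fun x => nl n (u t x)) k * DCls.ek k x) := by
      intro k
      have : nk k = ‖DCls.kv k‖ := rfl
      unfold dcf
      rw [this]
      ring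
    simp_rw [e1]
    rw [Summable.tsum_sub (s2.mul_left I).neg (s3.mul_left I), tsum_neg, tsum_mul_left,
      tsum_mul_left, ← series h1 hsn x]
    have hnl : nl n (u t x) = ((‖u t x‖ ^ (n + 1 - 1) : ℝ) : ℂ) * u t x := by
      rw [Nat.add_sub_cancel]; rfl
    rw [← hnl]
    linear_combination (-(∑' k, ((‖DCls.kv k‖ ^ 2 : ℝ) : ℂ) * (cf (u t) k * DCls.ek k x)) -
      nl n (u t x)) * Complex.I_sq

end TCl

theorem tn : TN := TNl.tn_of tf1 tf2

theorem tc5 : TC5 := TCl.tc5_of tf1 tn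

end Crest.Agent.R086
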