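import Crest.Agent.R086.TCB

/-!
Row 86 (S0114), TC nodes (helper232), file C: local existence (TC1).
-/

set_option autoImplicit false

open MeasureTheory Complex Set Filter Topology
open scoped NNReal

noncomputable section

namespace Crest.Agent.R086.TC

open Crest.Agent.R086.Wie
open Crest.AnalysisR.PDE.NLS (IsSmoothPeriodic)

/-! ### Picard in the interaction picture -/

theorem exists_curve (m : ℕ) {R : ℝ} (hR : 0 < R) (a0 : A) (h0 : ‖a0‖ ≤ R) (t0 ε : ℝ) (hε : 0 ≤ ε)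
    (hεR : (2 * R) ^ (2 * m + 1) * ε ≤ R) :
    ∃ a : ℝ → A, a t0 = a0 ∧ (∀ t ∈ Icc t0 (t0 + ε), ‖a t‖ ≤ 2 * R) ∧
      ∀ t ∈ Icc t0 (t0 + ε), HasDerivWithinAt a (F m t (a t)) (Icc t0 (t0 + ε)) t := by
  have ht0 : t0 ∈ Icc t0 (t0 + ε) := ⟨le_rfl, by linarith⟩
  have hball : ∀ x ∈ Metric.closedBall a0 R, ‖x‖ ≤ 2 * R := by
    intro x hx
    rw [mem_closedBall_iff_norm] at hx
    calc ‖x‖ = ‖(x - a0) + a0‖ := by rw [sub_add_cancel]
      _ ≤ ‖x - a0‖ + ‖a0‖ := norm_add_le _ _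
      _ ≤ 2 * R := by linarith
  let Rn : ℝ≥0 := ⟨R, hR.le⟩
  let K : ℝ≥0 := ⟨(2 * m + 1) * (2 * R) ^ (2 * m), by positivity⟩
  let L : ℝ≥0 := ⟨(2 * R) ^ (2 * m + 1), by positivity⟩
  have hf : IsPicardLindelof (F m) (⟨t0, ht0⟩ : Icc t0 (t0 + ε)) a0 Rn 0 L K := by
    refine ⟨?_, ?_, ?_, ?_⟩
    · intro t _
      refine LipschitzOnWith.of_dist_le_mul fun x hx y hy => ?_
      rw [dist_eq_norm, dist_eq_norm]
      exact norm_F_sub_le m t x y (hball x hx) (hball y hy)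
    · intro x _
      exact continuousOn_F m (b := fun _ => x) continuousOn_const
    · intro t _ x hx
      refine (norm_F_le m t x).trans ?_
      change ‖x‖ ^ (2 * m + 1) ≤ (2 * R) ^ (2 * m + 1)
      have := hball x hx
      gcongr
    · have h1 : max (t0 + ε - t0) (t0 - t0) = ε := by
        rw [sub_self, add_sub_cancel_left, max_eq_left hε]
      change (2 * R) ^ (2 * m + 1) * max (t0 + ε - t0) (t0 - t0) ≤ R - 0
      rw [h1]; linarith
  obtain ⟨α, hα⟩ := ODE.FunSpace.exists_isFixedPt_next hf (Metric.mem_closedBall_self le_rfl)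
  have hval : α.compProj t0 = a0 := by
    have := ODE.FunSpace.compProj_val (α := α) (t := ⟨t0, ht0⟩)
    rw [this, ← hα, ODE.FunSpace.next_apply₀]
  refine ⟨α.compProj, hval, ?_, ?_⟩
  · intro t _
    exact hball _ (α.compProj_mem_closedBall hf.mul_max_le)
  · intro t ht
    refine (ODE.hasDerivWithinAt_picard_Icc ht0 hf.continuousOn_uncurry
      α.continuous_compProj.continuousOn (fun _ _ => α.compProj_mem_closedBall hf.mul_max_le)
      a0 ht).congr_of_mem ?_ ht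
    intro t' ht'
    nth_rw 1 [← hα]
    rw [ODE.FunSpace.compProj_of_mem ht', ODE.FunSpace.next_apply]

/-! ### persistence -/

lemma TW.norm_P_F_le {K : ℝ} (hK : 0 ≤ K) (W : TW K) (m : ℕ) (t : ℝ) {ρ : ℝ} (a : A)
    (ha : ‖a‖ ≤ ρ) : ‖W.P (F m t a)‖ ≤ tk K m * ρ ^ (2 * m) * ‖W.P a‖ := by
  have h1 : ‖W.P (F m t a)‖ = ‖W.P (Nl m (U t a))‖ := by
    rw [F, ContinuousLinearMap.map_smul, norm_smul, norm_neg, Complex.norm_I, one_mul, W.norm_P_U]
  rw [h1]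
  refine (W.tame_Nl hK m _).trans ?_
  rw [norm_U, W.norm_P_U]
  have := tk_nonneg hK m
  gcongr

theorem persist {K : ℝ} (hK : 0 ≤ K) (W : TW K) (m : ℕ) {t0 t1 ρ : ℝ} {a : ℝ → A}
    (hρ : ∀ t ∈ Icc t0 t1, ‖a t‖ ≤ ρ)
    (hd : ∀ t ∈ Icc t0 t1, HasDerivWithinAt a (F m t (a t)) (Icc t0 t1) t) :
    ∀ t ∈ Icc t0 t1, ‖W.P (a t)‖ ≤ ‖W.P (a t0)‖ * Real.exp (tk K m * ρ ^ (2 * m) * (t - t0)) := by
  intro t ht
  have hP : ∀ s ∈ Icc t0 t1,
      HasDerivWithinAt (fun s => W.P (a s)) (W.P (F m s (a s))) (Icc t0 t1) s := by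
    intro s hs
    exact ((W.P.restrictScalars ℝ).hasFDerivAt (x := a s)).comp_hasDerivWithinAt s (hd s hs)
  have hc : ContinuousOn (fun s => W.P (a s)) (Icc t0 t1) := fun s hs =>
    (hP s hs).continuousWithinAt
  have := norm_le_gronwallBound_of_norm_deriv_right_le (f := fun s => W.P (a s))
    (f' := fun s => W.P (F m s (a s))) (δ := ‖W.P (a t0)‖) (K := tk K m * ρ ^ (2 * m)) (ε := 0)
    hc (fun x hx => (hP x ⟨hx.1, hx.2.le⟩).mono_of_mem_nhdsWithin (Icc_mem_nhdsGE_of_mem hx))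
    le_rfl (fun x hx => by
      rw [add_zero]
      exact W.norm_P_F_le hK m x _ (hρ x ⟨hx.1, hx.2.le⟩)) t ht
  rwa [gronwallBound_ε0] at this

/-! ### decay and the bridge to functions -/

/-- rapid decay -/
def Dec (a : A) : Prop := ∀ M : ℕ, Summable fun k => (1 + nk k) ^ M * ‖co a k‖

/-- weighted norms -/
def wA (M : ℕ) (a : A) : ℝ := ∑' k, (1 + nk k) ^ M * ‖co a k‖

lemma dec_Nl_aux (m : ℕ) (a : A) (M : ℕ) (ha : Summable fun k => (1 + nk k) ^ M * ‖co a k‖) :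
    (Summable fun k => (1 + nk k) ^ M * ‖co (Nl m a) k‖) ∧
      wA M (Nl m a) ≤ tk (2 ^ M) m * ‖a‖ ^ (2 * m) * wA M a := by
  refine summable_of_trW M (Nl m a) (fun R hR => ?_)
  have hK : (0 : ℝ) ≤ 2 ^ M := by positivity
  refine ((trW M R hR).tame_Nl hK m a).trans ?_
  have h1 := trW_norm_le M R hR a ha
  have := tk_nonneg hK m
  unfold wA
  gcongr

lemma Dec.Nl {a : A} (ha : Dec a) (m : ℕ) : Dec (Nl m a) := fun M => (dec_Nl_aux m a M (ha M)).1

lemma exists_fun (hF2 : TF2) {a : A} (ha : Dec a) :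
    ∃ v : R12 → ℂ, IsSmoothPeriodic v ∧ (∀ k, cf v k = co a k) ∧ ∀ x, v x = syn a x :=
  hF2 (co a) ha

lemma dec_summable {a : Z12 → ℂ} (ha : ∀ M : ℕ, Summable fun k => (1 + nk k) ^ M * ‖a k‖) :
    Summable fun k => ‖a k‖ := by simpa using ha 0

/-- the element of a smooth periodic function -/
def hat (hF1 : TF1) (v : R12 → ℂ) (hv : IsSmoothPeriodic v) : A :=
  mkA (cf v) (dec_summable (hF1 v hv).1)

lemma co_hat (hF1 : TF1) (v : R12 → ℂ) (hv : IsSmoothPeriodic v) (k : Z12) :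
    co (hat hF1 v hv) k = cf v k := co_mk _ _ _

lemma dec_hat (hF1 : TF1) (v : R12 → ℂ) (hv : IsSmoothPeriodic v) : Dec (hat hF1 v hv) := fun M => by
  simpa only [co_hat] using (hF1 v hv).1 M

lemma syn_hat (hF1 : TF1) (v : R12 → ℂ) (hv : IsSmoothPeriodic v) (x : R12) :
    syn (hat hF1 v hv) x = v x := by
  rw [syn, (hF1 v hv).2 x]
  exact tsum_congr (fun k => by rw [co_hat]; rfl)

lemma norm_hat (hF1 : TF1) (v : R12 → ℂ) (hv : IsSmoothPeriodic v) : ‖hat hF1 v hv‖ = l1 v :=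
  norm_mkA _ _

lemma wA_hat (hF1 : TF1) (v : R12 → ℂ) (hv : IsSmoothPeriodic v) (M : ℕ) :
    wA M (hat hF1 v hv) = wn M 1 v := by
  unfold wA wn
  exact tsum_congr (fun k => by rw [co_hat, one_mul])

lemma cf_nl_syn (hF2 : TF2) (m : ℕ) {a : A} (ha : Dec a) (k : Z12) :
    cf (fun x => nl (2 * m) (syn a x)) k = co (Nl m a) k := by
  obtain ⟨z, -, hz, hz2⟩ := exists_fun hF2 (ha.Nl m)
  rw [← hz k]
  congr 1
  ext x
  rw [hz2, syn_Nl]

lemma cf_nl (hF1 : TF1) (hF2 : TF2) (m : ℕ) (v : R12 → ℂ) (hv : IsSmoothPeriodic v) (k : Z12) :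
    cf (fun x => nl (2 * m) (v x)) k = co (Nl m (hat hF1 v hv)) k := by
  rw [← cf_nl_syn hF2 m (dec_hat hF1 v hv) k]
  congr 1
  ext x
  rw [syn_hat]

lemma eq_of_cf (hF1 : TF1) {v w : R12 → ℂ} (hv : IsSmoothPeriodic v) (hw : IsSmoothPeriodic w)
    (h : ∀ k, cf v k = cf w k) : v = w := by
  ext x
  rw [(hF1 v hv).2 x, (hF1 w hw).2 x]
  exact tsum_congr (fun k => by rw [h k])

lemma wA_U (M : ℕ) (t : ℝ) (a : A) : wA M (U t a) = wA M a := by
  unfold wA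
  exact tsum_congr (fun k => by rw [co_U, norm_mul, norm_ph, one_mul])

lemma Dec.U {a : A} (ha : Dec a) (t : ℝ) : Dec (U t a) := fun M => by
  refine (ha M).congr (fun k => ?_)
  rw [co_U, norm_mul, norm_ph, one_mul]

/-- time derivative of coefficients from the interaction picture -/
lemma hasDerivWithinAt_co (m : ℕ) {J : Set ℝ} {a : ℝ → A} {t : ℝ}
    (hd : HasDerivWithinAt a (F m t (a t)) J t) (k : Z12) :
    HasDerivWithinAt (fun s => co (U s (a s)) k)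
      (-(I * ((nk k ^ 2 : ℝ) : ℂ)) * co (U t (a t)) k - I * co (Nl m (U t (a t))) k) J t := by
  have h1 : HasDerivWithinAt (fun s => co (a s) k) (co (F m t (a t)) k) J t :=
    (((coL k).restrictScalars ℝ).hasFDerivAt (x := a t)).comp_hasDerivWithinAt t hd
  have h2 : HasDerivAt (fun s : ℝ => ph s k) (-(I * ((nk k ^ 2 : ℝ) : ℂ)) * ph t k) t := by
    unfold ph
    generalize -(I * ((nk k ^ 2 : ℝ) : ℂ)) = z
    have h3 : HasDerivAt (fun s : ℝ => z * (s : ℂ)) z t := by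
      simpa using (Complex.ofRealCLM.hasDerivAt (x := t)).const_mul z
    have h4 := h3.cexp
    rw [mul_comm _ z] at h4
    exact h4
  have h5 := h2.hasDerivWithinAt.mul h1
  have h6 : (fun s => co (U s (a s)) k) = fun s => ph s k * co (a s) k := by
    ext s; rw [co_U]
  rw [h6]
  refine h5.congr_deriv ?_
  rw [F, co_smul, co_U, co_U]
  have h7 : ph t k * ph (-t) k = 1 := by rw [← ph_add, add_neg_cancel, ph_zero]
  linear_combination (-I * co (Nl m (U t (a t))) k) * h7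

/-- an `A`-valued curve with decay gives an `IsSol` -/
theorem isSol_of_curve (hF2 : TF2) (m : ℕ) {t0 t1 ρ : ℝ} {a : ℝ → A}
    (hρ : ∀ t ∈ Icc t0 t1, ‖a t‖ ≤ ρ) (h0 : Dec (a t0))
    (hd : ∀ t ∈ Icc t0 t1, HasDerivWithinAt a (F m t (a t)) (Icc t0 t1) t) :
    ∃ u : ℝ → R12 → ℂ, IsSol (2 * m) (Icc t0 t1) u ∧
      ∀ t ∈ Icc t0 t1, ∀ k, cf (u t) k = co (U t (a t)) k := by
  classical
  have hb : ∀ M : ℕ, ∀ t ∈ Icc t0 t1, (Summable fun k => (1 + nk k) ^ M * ‖co (a t) k‖) ∧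
      wA M (a t) ≤ wA M (a t0) * Real.exp (tk (2 ^ M) m * ρ ^ (2 * m) * (t - t0)) := by
    intro M t ht
    refine summable_of_trW M (a t) (fun R hR => ?_)
    refine (persist (by positivity) (trW M R hR) m hρ hd t ht).trans ?_
    have := trW_norm_le M R hR (a t0) (h0 M)
    unfold wA
    gcongr
  have hdec : ∀ t ∈ Icc t0 t1, Dec (a t) := fun t ht M => (hb M t ht).1
  have hex : ∀ t : ℝ, ∃ v : R12 → ℂ, t ∈ Icc t0 t1 → IsSmoothPeriodic v ∧
      (∀ k, cf v k = co (U t (a t)) k) ∧ ∀ x, v x = syn (U t (a t)) x := by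
    intro t
    by_cases ht : t ∈ Icc t0 t1
    · obtain ⟨v, hv⟩ := exists_fun hF2 ((hdec t ht).U t)
      exact ⟨v, fun _ => hv⟩
    · exact ⟨0, fun h => absurd h ht⟩
  choose u hu using hex
  refine ⟨u, ⟨?_, ?_, ?_⟩, ?_⟩
  · intro t ht; exact (hu t ht).1
  · intro N K hKJ _
    refine ⟨wA N (a t0) * Real.exp (tk (2 ^ N) m * |ρ| ^ (2 * m) * (t1 - t0)), fun t ht => ?_⟩
    have ht' := hKJ ht
    have h1 : wn N 1 (u t) = wA N (a t) := by
      rw [← wA_U N t (a t)]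
      unfold wn wA
      exact tsum_congr (fun k => by rw [(hu t ht').2.1 k, one_mul])
    rw [h1]
    refine (hb N t ht').2.trans ?_
    have h2 : 0 ≤ wA N (a t0) := tsum_nonneg fun k => by have := nk_nonneg k; positivity
    have h3 := tk_nonneg (K := (2 : ℝ) ^ N) (by positivity) m
    have h4 : ρ ^ (2 * m) ≤ |ρ| ^ (2 * m) := by
      rw [← abs_pow]; exact le_abs_self _
    have h5 : 0 ≤ t - t0 := by linarith [ht'.1]
    have h6 : t - t0 ≤ t1 - t0 := by linarith [ht'.2]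
    gcongr
  · intro t ht k
    have h1 := hasDerivWithinAt_co m (hd t ht) k
    have h2 : cf (fun x => nl (2 * m) (u t x)) k = co (Nl m (U t (a t))) k := by
      rw [← cf_nl_syn hF2 m ((hdec t ht).U t) k]
      congr 1
      ext x
      rw [(hu t ht).2.2 x]
    rw [h2, (hu t ht).2.1 k]
    refine h1.congr (fun s hs => (hu s hs).2.1 k) ((hu t ht).2.1 k)
  · intro t ht k
    exact (hu t ht).2.1 k

/-- TC1 -/
theorem tc1 (hF1 : TF1) (hF2 : TF2) : TC1 := by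
  intro n hn hn2
  obtain ⟨m, hm⟩ := hn
  have hnm : n = 2 * m := by omega
  subst hnm
  refine ⟨((2 : ℝ) ^ (2 * m + 1))⁻¹, by positivity, ?_⟩
  intro R hR u₀ hu₀ hl t₀
  set ε : ℝ := ((2 : ℝ) ^ (2 * m + 1))⁻¹ / R ^ (2 * m) with hε
  have hε0 : 0 ≤ ε := by positivity
  have hεR : (2 * R) ^ (2 * m + 1) * ε ≤ R := by
    rw [hε, mul_pow]
    have h1 : (2 : ℝ) ^ (2 * m + 1) ≠ 0 := by positivity
    have h2 : R ^ (2 * m) ≠ 0 := by positivity
    refine le_of_eq ?_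
    field_simp
    ring
  set v₀ : A := U (-t₀) (hat hF1 u₀ hu₀) with hv₀
  have hv₀R : ‖v₀‖ ≤ R := by rw [hv₀, norm_U, norm_hat]; exact hl
  obtain ⟨a, ha0, hab, had⟩ := exists_curve m hR v₀ hv₀R t₀ ε hε0 hεR
  have hdec0 : Dec (a t₀) := by
    rw [ha0, hv₀]; exact (dec_hat hF1 u₀ hu₀).U _
  obtain ⟨u, hu, huc⟩ := isSol_of_curve hF2 m hab hdec0 had
  refine ⟨u, hu, ?_⟩
  have ht0 : t₀ ∈ Icc t₀ (t₀ + ε) := ⟨le_rfl, by linarith⟩
  refine eq_of_cf hF1 (hu.smooth t₀ ht0) hu₀ (fun k => ?_)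
  rw [huc t₀ ht0 k, ha0, hv₀, U_U_neg, co_hat]

end Crest.Agent.R086.TC
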