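import Crest.Agent.R086.TorDefs

/-!
Row 86, PART D-TORUS, flow nodes (helper367): gluing of coefficientwise solutions, and
`TC1 → TC2 → TC3` (continuation under an a-priori bound).
-/

set_option autoImplicit false

open MeasureTheory Complex Set
open scoped ContDiff Topology
open Crest.AnalysisR.PDE.NLS (IsSmoothPeriodic periodCell sobolevDistSq IsClassicalSolution)

namespace Crest.Agent.R086.TCG

variable {n : ℕ}

theorem isSol_mono {J J' : Set ℝ} {u : ℝ → R12 → ℂ} (h : IsSol n J u) (hJ : J' ⊆ J) :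
    IsSol n J' u where
  smooth t ht := h.smooth t (hJ ht)
  bdd N K hK hKc := h.bdd N K (hK.trans hJ) hKc
  ode t ht k := (h.ode t (hJ ht) k).mono hJ

theorem isSol_congr {J : Set ℝ} {u w : ℝ → R12 → ℂ} (h : IsSol n J u) (hw : ∀ t ∈ J, w t = u t) :
    IsSol n J w where
  smooth t ht := by rw [hw t ht]; exact h.smooth t ht
  bdd N K hK hKc := by
    obtain ⟨B, hB⟩ := h.bdd N K hK hKc
    exact ⟨B, fun t ht => by rw [hw t (hK ht)]; exact hB t ht⟩
  ode t ht k := by
    rw [hw t ht]
    refine (h.ode t ht k).congr (fun s hs => ?_) ?_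
    · simp only [hw s hs]
    · simp only [hw t ht]

theorem isSol_singleton {t₀ : ℝ} {u₀ : R12 → ℂ} (h : IsSmoothPeriodic u₀) :
    IsSol n (Icc t₀ t₀) (fun _ => u₀) where
  smooth _ _ := h
  bdd N _ _ _ := ⟨wn N 1 u₀, fun _ _ => le_rfl⟩
  ode t ht k := by
    rw [Icc_self] at ht ⊢
    rw [mem_singleton_iff] at ht
    subst ht
    exact HasFDerivWithinAt.of_subsingleton subsingleton_singleton

/-- the glued curve -/
noncomputable def glue (b : ℝ) (u w : ℝ → R12 → ℂ) : ℝ → R12 → ℂ := fun t =>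
  if t ≤ b then u t else w t

theorem glue_left {b t : ℝ} {u w : ℝ → R12 → ℂ} (h : t ≤ b) : glue b u w t = u t := if_pos h

theorem glue_right {b t : ℝ} {u w : ℝ → R12 → ℂ} (hb : u b = w b) (h : b ≤ t) :
    glue b u w t = w t := by
  rcases eq_or_lt_of_le h with h0 | h0
  · subst h0; rw [glue_left le_rfl, hb]
  · exact if_neg (not_le.2 h0)

/-- a curve which solves on two consecutive closed intervals solves on the union. -/
theorem isSol_union {a b c : ℝ} (hab : a ≤ b) (hbc : b ≤ c) {v : ℝ → R12 → ℂ}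
    (hu' : IsSol n (Icc a b) v) (hw' : IsSol n (Icc b c) v) : IsSol n (Icc a c) v := by
  have hun : Icc a b ∪ Icc b c = Icc a c := Icc_union_Icc_eq_Icc hab hbc
  refine ⟨fun t ht => ?_, fun N K hK hKc => ?_, fun t ht k => ?_⟩
  · rw [← hun] at ht
    rcases ht with h | h
    · exact hu'.smooth t h
    · exact hw'.smooth t h
  · obtain ⟨B1, hB1⟩ := hu'.bdd N (K ∩ Icc a b) inter_subset_right (hKc.inter isCompact_Icc)
    obtain ⟨B2, hB2⟩ := hw'.bdd N (K ∩ Icc b c) inter_subset_right (hKc.inter isCompact_Icc)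
    refine ⟨max B1 B2, fun t ht => ?_⟩
    have h := hK ht
    rw [← hun] at h
    rcases h with h | h
    · exact (hB1 t ⟨ht, h⟩).trans (le_max_left _ _)
    · exact (hB2 t ⟨ht, h⟩).trans (le_max_right _ _)
  · rw [← hun]
    refine HasDerivWithinAt.union ?_ ?_
    · by_cases h : t ∈ Icc a b
      · exact hu'.ode t h k
      · refine HasFDerivWithinAt.of_notMem_closure ?_
        rwa [isClosed_Icc.closure_eq]
    · by_cases h : t ∈ Icc b c
      · exact hw'.ode t h k
      · refine HasFDerivWithinAt.of_notMem_closure ?_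
        rwa [isClosed_Icc.closure_eq]

/-- two solutions on consecutive closed intervals glue to a solution. -/
theorem isSol_glue {a b c : ℝ} (hab : a ≤ b) (hbc : b ≤ c) {u w : ℝ → R12 → ℂ}
    (hu : IsSol n (Icc a b) u) (hw : IsSol n (Icc b c) w) (hb : u b = w b) :
    IsSol n (Icc a c) (glue b u w) :=
  isSol_union hab hbc (isSol_congr hu fun _ ht => glue_left ht.2)
    (isSol_congr hw fun _ ht => glue_right hb ht.1)

/-- **TC3 from TC1** (uniqueness is not needed). -/
theorem tc3_of' (h1 : TC1) : TC3 := by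
  intro n hn h2n t₀ t₁ R u₀ h01 hR hu₀ hap
  obtain ⟨c, hc, h1⟩ := h1 n hn h2n
  set h : ℝ := c / R ^ n with hh
  have hpos : 0 < h := by positivity
  have key : ∀ j : ℕ, ∃ u, IsSol n (Icc t₀ (min (t₀ + j * h) t₁)) u ∧ u t₀ = u₀ := by
    intro j
    induction j with
    | zero =>
      refine ⟨fun _ => u₀, ?_, rfl⟩
      have : min (t₀ + ((0 : ℕ) : ℝ) * h) t₁ = t₀ := by simp [h01]
      rw [this]
      exact isSol_singleton hu₀
    | succ j ih =>
      obtain ⟨u, hu, hu0⟩ := ih
      set s := min (t₀ + j * h) t₁ with hs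
      have hs0 : t₀ ≤ s := le_min (by have : (0:ℝ) ≤ j * h := by positivity
                                      linarith) h01
      have hs1 : s ≤ t₁ := min_le_right _ _
      have hle := hap s ⟨hs0, hs1⟩ u hu hu0
      obtain ⟨w, hw, hw0⟩ := h1 R hR (u s) (hu.smooth s ⟨hs0, le_rfl⟩) hle s
      refine ⟨glue s u w, ?_, ?_⟩
      · refine isSol_mono (isSol_glue hs0 (by linarith : s ≤ s + h) hu hw hw0.symm) ?_
        refine Icc_subset_Icc_right ?_
        rw [hs]
        push_cast
        rcases le_total (t₀ + j * h) t₁ with h3 | h3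
        · rw [min_eq_left h3]
          refine (min_le_left _ _).trans ?_
          linarith
        · rw [min_eq_right h3]
          refine (min_le_right _ _).trans ?_
          linarith
      · rw [glue_left hs0, hu0]
  obtain ⟨j, hj⟩ := exists_nat_gt ((t₁ - t₀) / h)
  obtain ⟨u, hu, hu0⟩ := key j
  have : min (t₀ + j * h) t₁ = t₁ := by
    apply min_eq_right
    rw [div_lt_iff₀ hpos] at hj
    linarith
  rw [this] at hu
  exact ⟨u, hu, hu0⟩

theorem tc3_of (h1 : TC1) (_h2 : TC2) : TC3 := tc3_of' h1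

/-- **TC4** (gluing along an increasing sequence of times). -/
theorem tc4 : TC4 := by
  classical
  intro n _ _ t T u ht0 htm htT hsol hcomp
  have hlt : ∀ x, x < T → ∃ j, x < t j := fun x hx => (htT.eventually (lt_mem_nhds hx)).exists
  have htle : ∀ j, t j < T := fun j =>
    lt_of_lt_of_le (htm (Nat.lt_succ_self j)) (htm.monotone.ge_of_tendsto htT (j + 1))
  set v : ℝ → R12 → ℂ := fun x =>
    if h : ∃ j, x ≤ t (j + 1) then u (Nat.find h) x else u 0 x with hv
  have hval : ∀ j, ∀ x ∈ Icc (t j) (t (j + 1)), v x = u j x := by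
    intro j x hx
    have hex : ∃ j, x ≤ t (j + 1) := ⟨j, hx.2⟩
    simp only [hv, dif_pos hex]
    have hf1 : x ≤ t (Nat.find hex + 1) := Nat.find_spec hex
    have hf2 : Nat.find hex ≤ j := Nat.find_min' hex hx.2
    rcases eq_or_lt_of_le hf2 with h | h
    · rw [h]
    · -- then `x = t j` and `find = j - 1`
      have h1 : t (Nat.find hex + 1) ≤ t j := htm.monotone h
      have h2 : x = t j := le_antisymm (hf1.trans h1) hx.1
      have h3 : t (Nat.find hex + 1) = t j := le_antisymm h1 (h2 ▸ hf1)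
      have h4 : Nat.find hex + 1 = j := htm.injective h3
      have h5 := hcomp (Nat.find hex)
      rw [h4, ← h2] at h5
      exact h5
  have hpos : ∀ j, 0 ≤ t j := fun j => ht0 ▸ htm.monotone (Nat.zero_le j)
  have hJ : ∀ J, IsSol n (Icc 0 (t (J + 1))) v := by
    intro J
    induction J with
    | zero =>
      rw [← ht0]
      exact isSol_congr (hsol 0) (hval 0)
    | succ J ih =>
      exact isSol_union (hpos (J + 1)) (htm (Nat.lt_succ_self _)).le ih
        (isSol_congr (hsol (J + 1)) (hval (J + 1)))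
  have hJ' : ∀ x, x < T → ∃ J, x < t (J + 1) := by
    intro x hx
    obtain ⟨j, hj⟩ := hlt x hx
    exact ⟨j, hj.trans (htm (Nat.lt_succ_self j))⟩
  refine ⟨v, ⟨fun x hx => ?_, fun N K hK hKc => ?_, fun x hx k => ?_⟩, hval⟩
  · obtain ⟨J, hJx⟩ := hJ' x hx.2
    exact (hJ J).smooth x ⟨hx.1, hJx.le⟩
  · rcases K.eq_empty_or_nonempty with h0 | h0
    · subst h0
      exact ⟨0, fun t ht => absurd ht (notMem_empty t)⟩
    · obtain ⟨m, hm, hmax⟩ := hKc.exists_isMaxOn h0 continuousOn_id
      obtain ⟨J, hJm⟩ := hJ' m (hK hm).2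
      refine (hJ J).bdd N K (fun x hx => ⟨(hK hx).1, ?_⟩) hKc
      exact (hmax hx : x ≤ m).trans hJm.le
  · obtain ⟨J, hJx⟩ := hJ' x hx.2
    refine ((hJ J).ode x ⟨hx.1, hJx.le⟩ k).mono_of_mem_nhdsWithin ?_
    have : Iio (t (J + 1)) ∈ 𝓝 x := Iio_mem_nhds hJx
    filter_upwards [nhdsWithin_le_nhds this, self_mem_nhdsWithin] with y hy1 hy2
    exact ⟨hy2.1, (mem_Iio.1 hy1).le⟩

end Crest.Agent.R086.TCG
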