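import Crest.Agent.R086.TorDefs

/-! Row 86, NearStep (helper148): closure of smooth periodic functions and the quadratic
remainder estimate of the nonlinearity in the weighted Wiener norms. -/

set_option autoImplicit false

open MeasureTheory Complex
open scoped ContDiff Topology
open Crest.AnalysisR.PDE.NLS (IsSmoothPeriodic)

namespace Crest.Agent.R086.NS

/-! ### closure properties of smooth periodic functions -/

theorem sp_add {v w : R12 → ℂ} (hv : IsSmoothPeriodic v) (hw : IsSmoothPeriodic w) :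
    IsSmoothPeriodic (fun x => v x + w x) :=
  ⟨hv.1.add hw.1, fun x i => by simp only [hv.2 x i, hw.2 x i]⟩

theorem sp_sub {v w : R12 → ℂ} (hv : IsSmoothPeriodic v) (hw : IsSmoothPeriodic w) :
    IsSmoothPeriodic (fun x => v x - w x) :=
  ⟨hv.1.sub hw.1, fun x i => by simp only [hv.2 x i, hw.2 x i]⟩

theorem sp_mul {v w : R12 → ℂ} (hv : IsSmoothPeriodic v) (hw : IsSmoothPeriodic w) :
    IsSmoothPeriodic (fun x => v x * w x) :=
  ⟨hv.1.mul hw.1, fun x i => by simp only [hv.2 x i, hw.2 x i]⟩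

theorem sp_const (c : ℂ) : IsSmoothPeriodic (fun _ => c) :=
  ⟨contDiff_const, fun _ _ => rfl⟩

theorem sp_smul (c : ℂ) {v : R12 → ℂ} (hv : IsSmoothPeriodic v) :
    IsSmoothPeriodic (fun x => c * v x) := sp_mul (sp_const c) hv

theorem sp_conj {v : R12 → ℂ} (hv : IsSmoothPeriodic v) :
    IsSmoothPeriodic (fun x => starRingEnd ℂ (v x)) :=
  ⟨Complex.conjCLE.contDiff.comp hv.1, fun x i => by simp only [hv.2 x i]⟩

theorem sp_pow {v : R12 → ℂ} (hv : IsSmoothPeriodic v) (k : ℕ) :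
    IsSmoothPeriodic (fun x => v x ^ k) :=
  ⟨hv.1.pow k, fun x i => by simp only [hv.2 x i]⟩

theorem sp_sum {ι : Type*} (s : Finset ι) (F : ι → R12 → ℂ) (h : ∀ i ∈ s, IsSmoothPeriodic (F i)) :
    IsSmoothPeriodic (fun x => ∑ i ∈ s, F i x) := by
  refine ⟨ContDiff.sum fun i hi => (h i hi).1, fun x j => ?_⟩
  exact Finset.sum_congr rfl fun i hi => (h i hi).2 x j

/-- `|z|^(2k) = z^k conj z^k` -/
theorem normpow (z : ℂ) (k : ℕ) : ((‖z‖ ^ (2 * k) : ℝ) : ℂ) = z ^ k * (starRingEnd ℂ z) ^ k := by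
  rw [← mul_pow, Complex.mul_conj', pow_mul]
  push_cast
  rfl

theorem sp_normpow {v : R12 → ℂ} (hv : IsSmoothPeriodic v) {n : ℕ} (hn : Even n) :
    IsSmoothPeriodic (fun x => ((‖v x‖ ^ n : ℝ) : ℂ)) := by
  obtain ⟨k, hk⟩ := hn
  have h1 : (fun x => ((‖v x‖ ^ n : ℝ) : ℂ)) = fun x => v x ^ k * (starRingEnd ℂ (v x)) ^ k := by
    funext x
    rw [← normpow, hk, two_mul]
  rw [h1]
  exact sp_mul (sp_pow hv k) (sp_pow (sp_conj hv) k)

theorem sp_nl {v : R12 → ℂ} (hv : IsSmoothPeriodic v) {n : ℕ} (hn : Even n) :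
    IsSmoothPeriodic (fun x => nl n (v x)) :=
  sp_mul (sp_normpow hv hn) hv

theorem wn_nonneg (N : ℕ) {h : ℝ} (hh : 0 ≤ h) (v : R12 → ℂ) : 0 ≤ wn N h v := by
  refine tsum_nonneg fun k => ?_
  have : 0 ≤ nk k := norm_nonneg _
  positivity

/-- derivative of the nonlinearity at `q` in direction `w` -/
noncomputable def DNq (n : ℕ) (q w : R12 → ℂ) (x : R12) : ℂ :=
  (1 + (n : ℂ) / 2) * ((‖q x‖ ^ n : ℝ) : ℂ) * w x +
    ((n : ℂ) / 2) * (((‖q x‖ ^ (n - 2) : ℝ) : ℂ) * q x ^ 2) * starRingEnd ℂ (w x)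

/-- uniform bounds of order `p` in `w` -/
def Bd (B : ℝ) (p : ℕ) (F : (R12 → ℂ) → (R12 → ℂ) → (R12 → ℂ)) : Prop :=
  ∃ C : ℝ, 0 ≤ C ∧ ∀ (N : ℕ) (h : ℝ), 0 ≤ h → ∀ q w : R12 → ℂ, IsSmoothPeriodic q →
    IsSmoothPeriodic w → wn N h q ≤ B → wn N h w ≤ B →
      IsSmoothPeriodic (F q w) ∧ wn N h (F q w) ≤ C * wn N h w ^ p

section
variable {B : ℝ} (hTN : TN)

include hTN

theorem Bd.mul {p p' : ℕ} {F G : (R12 → ℂ) → (R12 → ℂ) → (R12 → ℂ)} (hF : Bd B p F)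
    (hG : Bd B p' G) : Bd B (p + p') (fun q w x => F q w x * G q w x) := by
  obtain ⟨C, hC0, hC⟩ := hF
  obtain ⟨D, hD0, hD⟩ := hG
  refine ⟨C * D, by positivity, fun N h hh q w hq hw h1 h2 => ?_⟩
  obtain ⟨a1, a2⟩ := hC N h hh q w hq hw h1 h2
  obtain ⟨b1, b2⟩ := hD N h hh q w hq hw h1 h2
  refine ⟨sp_mul a1 b1, ?_⟩
  have hw0 := wn_nonneg N hh w
  calc _ ≤ wn N h (F q w) * wn N h (G q w) := hTN.wn_mul _ _ a1 b1 N h hh
    _ ≤ (C * wn N h w ^ p) * (D * wn N h w ^ p') := by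
        gcongr
        exact wn_nonneg N hh _
    _ = _ := by rw [pow_add]; ring

theorem Bd.add {p : ℕ} {F G : (R12 → ℂ) → (R12 → ℂ) → (R12 → ℂ)} (hF : Bd B p F)
    (hG : Bd B p G) : Bd B p (fun q w x => F q w x + G q w x) := by
  obtain ⟨C, hC0, hC⟩ := hF
  obtain ⟨D, hD0, hD⟩ := hG
  refine ⟨C + D, by positivity, fun N h hh q w hq hw h1 h2 => ?_⟩
  obtain ⟨a1, a2⟩ := hC N h hh q w hq hw h1 h2
  obtain ⟨b1, b2⟩ := hD N h hh q w hq hw h1 h2
  refine ⟨sp_add a1 b1, (hTN.wn_add _ _ a1 b1 N h hh).trans ?_⟩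
  rw [add_mul]
  exact add_le_add a2 b2

theorem Bd.smul {p : ℕ} (c : ℂ) {F : (R12 → ℂ) → (R12 → ℂ) → (R12 → ℂ)} (hF : Bd B p F) :
    Bd B p (fun q w x => c * F q w x) := by
  obtain ⟨C, hC0, hC⟩ := hF
  refine ⟨‖c‖ * C, by positivity, fun N h hh q w hq hw h1 h2 => ?_⟩
  obtain ⟨a1, a2⟩ := hC N h hh q w hq hw h1 h2
  refine ⟨sp_smul c a1, ?_⟩
  rw [hTN.wn_smul, mul_assoc]
  exact mul_le_mul_of_nonneg_left a2 (norm_nonneg c)

omit hTN in
theorem Bd.down {p : ℕ} (hB : 0 ≤ B) {F : (R12 → ℂ) → (R12 → ℂ) → (R12 → ℂ)} (hF : Bd B (p + 1) F) :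
    Bd B p F := by
  obtain ⟨C, hC0, hC⟩ := hF
  refine ⟨C * B, by positivity, fun N h hh q w hq hw h1 h2 => ?_⟩
  obtain ⟨a1, a2⟩ := hC N h hh q w hq hw h1 h2
  refine ⟨a1, a2.trans ?_⟩
  have hw0 := wn_nonneg N hh w
  have : 0 ≤ wn N h w ^ p := by positivity
  rw [pow_succ]
  calc C * (wn N h w ^ p * wn N h w) ≤ C * (wn N h w ^ p * B) := by gcongr
    _ = _ := by ring

omit hTN in
theorem Bd.q (hB : 0 ≤ B) : Bd B 0 (fun q _ x => q x) :=
  ⟨B, hB, fun N h hh q w hq hw h1 h2 => ⟨hq, by simpa using h1⟩⟩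

omit hTN in
theorem Bd.w : Bd B 1 (fun _ w x => w x) :=
  ⟨1, zero_le_one, fun N h hh q w hq hw h1 h2 => ⟨hw, by simp⟩⟩

theorem Bd.cq (hB : 0 ≤ B) : Bd B 0 (fun q _ x => starRingEnd ℂ (q x)) :=
  ⟨B, hB, fun N h hh q w hq hw h1 h2 => ⟨sp_conj hq, by rw [hTN.wn_conj]; simpa using h1⟩⟩

theorem Bd.cw : Bd B 1 (fun _ w x => starRingEnd ℂ (w x)) :=
  ⟨1, zero_le_one, fun N h hh q w hq hw h1 h2 => ⟨sp_conj hw, by rw [hTN.wn_conj]; simp⟩⟩

omit hTN in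
theorem Bd.congr {p : ℕ} {F G : (R12 → ℂ) → (R12 → ℂ) → (R12 → ℂ)} (hF : Bd B p F)
    (h : ∀ q w x, F q w x = G q w x) : Bd B p G := by
  have : F = G := by funext q w x; exact h q w x
  rwa [← this]

theorem Bd.powmul {p : ℕ} {E F : (R12 → ℂ) → (R12 → ℂ) → (R12 → ℂ)} (hE : Bd B 0 E) (hF : Bd B p F)
    (a : ℕ) : Bd B p (fun q w x => E q w x ^ a * F q w x) := by
  induction a with
  | zero => exact hF.congr fun q w x => by ring
  | succ a ih =>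
    have := Bd.mul hTN hE ih
    rw [zero_add] at this
    exact this.congr fun q w x => by ring

/-- second order Taylor remainder of powers; `E` of order 0, `F` of order 1. -/
theorem Bd.taylor (hB : 0 ≤ B) {E F : (R12 → ℂ) → (R12 → ℂ) → (R12 → ℂ)} (hE : Bd B 0 E) (hF : Bd B 1 F)
    (a : ℕ) : Bd B 2 (fun q w x => (E q w x + F q w x) ^ (a + 1) - E q w x ^ (a + 1)
      - ((a + 1 : ℕ) : ℂ) * (E q w x ^ a * F q w x)) := by
  induction a with
  | zero =>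
    have := Bd.smul hTN 0 (Bd.mul hTN hF hF)
    exact this.congr fun q w x => by
      push_cast
      ring
  | succ a ih =>
    have h1 := Bd.mul hTN (Bd.add hTN hE (hF.down hB)) ih
    rw [zero_add] at h1
    have h2 := Bd.smul hTN (((a + 1 : ℕ) : ℂ)) (Bd.powmul hTN hE (Bd.mul hTN hF hF) a)
    exact (Bd.add hTN h1 h2).congr fun q w x => by
      push_cast
      ring

/-- REM: quadratic remainder of the nonlinearity. -/
theorem rem {n : ℕ} (hn : Even n) (hn2 : 2 ≤ n) (hB : 0 ≤ B) : ∃ C : ℝ, 0 ≤ C ∧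
    ∀ (N : ℕ) (h : ℝ), 0 ≤ h → ∀ q w : R12 → ℂ, IsSmoothPeriodic q →
      IsSmoothPeriodic w → wn N h q ≤ B → wn N h w ≤ B →
      IsSmoothPeriodic (fun x => nl n (q x + w x) - nl n (q x) - DNq n q w x) ∧
      wn N h (fun x => nl n (q x + w x) - nl n (q x) - DNq n q w x) ≤ C * wn N h w ^ 2 := by
  obtain ⟨k, hk⟩ := hn
  obtain ⟨j, rfl⟩ : ∃ j, k = j + 1 := ⟨k - 1, by omega⟩
  have hk' : n = 2 * (j + 1) := by omega
  have hq := Bd.q hB
  have hw := Bd.w (B := B)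
  have hcq := Bd.cq hTN hB
  have hcw := Bd.cw hTN (B := B)
  -- X = (q+w)^(j+2), Y = conj^(j+1)
  have hX2 := Bd.taylor hTN hB hq hw (j + 1)
  have hX1 := Bd.smul hTN (((j + 2 : ℕ) : ℂ)) (Bd.powmul hTN hq hw (j + 1))
  have hX0 := Bd.powmul hTN hq hq (j + 1)
  have hY2 := Bd.taylor hTN hB hcq hcw j
  have hY1 := Bd.smul hTN (((j + 1 : ℕ) : ℂ)) (Bd.powmul hTN hcq hcw j)
  have hY0 := Bd.powmul hTN hcq hcq j
  have t1 := Bd.mul hTN hX1 hY1
  have t2 := (Bd.mul hTN hX1 hY2).down hB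
  have t3 := Bd.mul hTN hX2 hY0
  have t4 := (Bd.mul hTN hX2 hY1).down hB
  have t5 := ((Bd.mul hTN hX2 hY2).down hB).down hB
  have t6 := Bd.mul hTN hX0 hY2
  rw [zero_add] at t6
  have tot := Bd.add hTN (Bd.add hTN (Bd.add hTN (Bd.add hTN (Bd.add hTN t1 t2) t3) t4) t5) t6
  have fin : Bd B 2 (fun q w x => nl n (q x + w x) - nl n (q x) - DNq n q w x) := by
    refine tot.congr fun q w x => ?_
    unfold nl DNq
    have e1 : n - 2 = 2 * j := by omega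
    rw [e1, hk', normpow, normpow, normpow]
    simp only [map_add]
    push_cast
    ring
  exact fin

end

end Crest.Agent.R086.NS
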