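import Crest.Agent.R086.TorDefs

/-!
# Row 86, Part D torus (helper893): periodisation `perz` of functions vanishing for `‖x‖ ≥ 2`.

Key fact `perz_loc`: near every point `x₀` all periodisations are the same translate.
-/

set_option autoImplicit false

open MeasureTheory Complex Filter
open scoped ContDiff Topology
open Crest.AnalysisR.PDE.NLS (IsSmoothPeriodic)

namespace Crest.Agent.R086.Perz

/-- vanishing outside the ball of radius 2 -/
def PS (f : R12 → ℂ) : Prop := ∀ x : R12, 2 ≤ ‖x‖ → f x = 0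

theorem zv_sub (k l : Z12) : zv (k - l) = zv k - zv l := by
  ext i
  simp [zv]

theorem zv_add (k l : Z12) : zv (k + l) = zv k + zv l := by
  ext i
  simp [zv]

theorem one_le_norm_zv {k : Z12} (hk : k ≠ 0) : 1 ≤ ‖zv k‖ := by
  obtain ⟨i, hi⟩ := Function.ne_iff.1 hk
  have h1 : (1 : ℝ) ≤ |(k i : ℝ)| := by
    have : (1 : ℤ) ≤ |k i| := Int.one_le_abs hi
    exact_mod_cast this
  have h2 : ‖(zv k) i‖ ≤ ‖zv k‖ := PiLp.norm_apply_le (zv k) i
  have h3 : ‖(zv k) i‖ = |(k i : ℝ)| := by simp [zv]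
  linarith

/-- two lattice translates cannot both be within distance `3` -/
theorem zv_unique {x : R12} {k l : Z12} (hk : ‖x - (2 * Real.pi) • zv k‖ ≤ 3)
    (hl : ‖x - (2 * Real.pi) • zv l‖ ≤ 3) : k = l := by
  by_contra hne
  have h1 : 1 ≤ ‖zv (k - l)‖ := one_le_norm_zv (sub_ne_zero.2 hne)
  have h2 : ‖(2 * Real.pi) • zv (k - l)‖ ≤ 6 := by
    have e : (2 * Real.pi) • zv (k - l)
        = (x - (2 * Real.pi) • zv l) - (x - (2 * Real.pi) • zv k) := by
      rw [zv_sub, smul_sub]; abel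
    rw [e]
    exact (norm_sub_le _ _).trans (by linarith)
  rw [norm_smul, Real.norm_of_nonneg (by positivity)] at h2
  have := Real.pi_gt_three
  nlinarith

/-- near every point all periodisations are the same translate -/
theorem perz_loc (x₀ : R12) : ∃ k₀ : Z12, ∀ᶠ x in 𝓝 x₀, ∀ f : R12 → ℂ, PS f →
    perz f x = f (x - (2 * Real.pi) • zv k₀) := by
  have hpi := Real.pi_gt_d2
  by_cases h : ∃ k₀ : Z12, ‖x₀ - (2 * Real.pi) • zv k₀‖ < 3
  · obtain ⟨k₀, hk₀⟩ := h
    refine ⟨k₀, ?_⟩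
    have hU : {x : R12 | ‖x - (2 * Real.pi) • zv k₀‖ < 3} ∈ 𝓝 x₀ :=
      (isOpen_lt (by fun_prop) continuous_const).mem_nhds hk₀
    filter_upwards [hU] with x hx f hf
    unfold perz
    refine tsum_eq_single k₀ fun k hk => hf _ ?_
    by_contra hlt
    push Not at hlt
    exact hk (zv_unique (by linarith) (le_of_lt hx))
  · push Not at h
    refine ⟨0, ?_⟩
    have hU : {x : R12 | ‖x - x₀‖ < 1 / 2} ∈ 𝓝 x₀ :=
      (isOpen_lt (by fun_prop) continuous_const).mem_nhds (by simp)
    filter_upwards [hU] with x hx f hf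
    have hz : ∀ k : Z12, f (x - (2 * Real.pi) • zv k) = 0 := by
      intro k
      refine hf _ ?_
      have h1 := h k
      have h2 : ‖x₀ - (2 * Real.pi) • zv k‖ ≤ ‖x - (2 * Real.pi) • zv k‖ + ‖x - x₀‖ := by
        have : x₀ - (2 * Real.pi) • zv k = (x - (2 * Real.pi) • zv k) - (x - x₀) := by abel
        rw [this]
        exact norm_sub_le _ _
      have h3 : ‖x - x₀‖ < 1 / 2 := hx
      linarith
    unfold perz
    simp only [hz, tsum_zero]

/-- pointwise version -/
theorem perz_point (x : R12) : ∃ k₀ : Z12, ∀ f : R12 → ℂ, PS f →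
    perz f x = f (x - (2 * Real.pi) • zv k₀) := by
  obtain ⟨k₀, h⟩ := perz_loc x
  exact ⟨k₀, h.self_of_nhds⟩

theorem perz_of_norm_le {f : R12 → ℂ} (hf : PS f) {x : R12} (hx : ‖x‖ ≤ 3) : perz f x = f x := by
  unfold perz
  have h0 : ‖x - (2 * Real.pi) • zv 0‖ ≤ 3 := by
    have : zv 0 = 0 := by ext i; simp [zv]
    rw [this, smul_zero, sub_zero]
    exact hx
  rw [tsum_eq_single (0 : Z12)]
  · have : zv 0 = 0 := by ext i; simp [zv]
    rw [this, smul_zero, sub_zero]
  · intro k hk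
    refine hf _ ?_
    by_contra hlt
    push Not at hlt
    exact hk (zv_unique (by linarith) h0)

/-- any pointwise identity between functions in `PS` passes to the periodisations -/
theorem perz_mul {f g : R12 → ℂ} (hf : PS f) (hg : PS g) (x : R12) :
    perz (fun y => f y * g y) x = perz f x * perz g x := by
  obtain ⟨k, hk⟩ := perz_point x
  rw [hk f hf, hk g hg, hk (fun y => f y * g y) (fun y hy => by simp [hf y hy])]

theorem perz_add {f g : R12 → ℂ} (hf : PS f) (hg : PS g) (x : R12) :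
    perz (fun y => f y + g y) x = perz f x + perz g x := by
  obtain ⟨k, hk⟩ := perz_point x
  rw [hk f hf, hk g hg, hk (fun y => f y + g y) (fun y hy => by simp [hf y hy, hg y hy])]

theorem perz_sub {f g : R12 → ℂ} (hf : PS f) (hg : PS g) (x : R12) :
    perz (fun y => f y - g y) x = perz f x - perz g x := by
  obtain ⟨k, hk⟩ := perz_point x
  rw [hk f hf, hk g hg, hk (fun y => f y - g y) (fun y hy => by simp [hf y hy, hg y hy])]

theorem perz_const_mul {f : R12 → ℂ} (c : ℂ) (hf : PS f) (x : R12) :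
    perz (fun y => c * f y) x = c * perz f x := by
  obtain ⟨k, hk⟩ := perz_point x
  rw [hk f hf, hk (fun y => c * f y) (fun y hy => by simp [hf y hy])]

theorem perz_conj {f : R12 → ℂ} (hf : PS f) (x : R12) :
    perz (fun y => starRingEnd ℂ (f y)) x = starRingEnd ℂ (perz f x) := by
  obtain ⟨k, hk⟩ := perz_point x
  rw [hk f hf, hk (fun y => starRingEnd ℂ (f y)) (fun y hy => by simp [hf y hy])]

theorem perz_comp {f : R12 → ℂ} (Φ : ℂ → ℂ) (h0 : Φ 0 = 0) (hf : PS f) (x : R12) :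
    perz (fun y => Φ (f y)) x = Φ (perz f x) := by
  obtain ⟨k, hk⟩ := perz_point x
  rw [hk f hf, hk (fun y => Φ (f y)) (fun y hy => by simp [hf y hy, h0])]

theorem perz_comp₂ {f g : R12 → ℂ} (Φ : ℂ → ℂ → ℂ) (h0 : Φ 0 0 = 0) (hf : PS f) (hg : PS g)
    (x : R12) : perz (fun y => Φ (f y) (g y)) x = Φ (perz f x) (perz g x) := by
  obtain ⟨k, hk⟩ := perz_point x
  rw [hk f hf, hk g hg, hk (fun y => Φ (f y) (g y)) (fun y hy => by simp [hf y hy, hg y hy, h0])]

theorem perz_nl {f : R12 → ℂ} (n : ℕ) (hf : PS f) (x : R12) :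
    perz (fun y => nl n (f y)) x = nl n (perz f x) :=
  perz_comp (nl n) (by simp [nl]) hf x

theorem contDiff_perz {f : R12 → ℂ} (hs : ContDiff ℝ ∞ f) (hf : PS f) :
    ContDiff ℝ ∞ (perz f) := by
  rw [contDiff_iff_contDiffAt]
  intro x₀
  obtain ⟨k, hk⟩ := perz_loc x₀
  have h1 : perz f =ᶠ[𝓝 x₀] fun x => f (x - (2 * Real.pi) • zv k) :=
    hk.mono fun x hx => hx f hf
  refine ContDiffAt.congr_of_eventuallyEq ?_ h1
  exact (hs.comp (contDiff_id.sub contDiff_const)).contDiffAt

theorem iteratedFDeriv_perz {f : R12 → ℂ} (hf : PS f) (j : ℕ) (x₀ : R12) :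
    ∃ y, iteratedFDeriv ℝ j (perz f) x₀ = iteratedFDeriv ℝ j f y := by
  obtain ⟨k, hk⟩ := perz_loc x₀
  have h1 : perz f =ᶠ[𝓝 x₀] fun x => f (x - (2 * Real.pi) • zv k) :=
    hk.mono fun x hx => hx f hf
  refine ⟨x₀ - (2 * Real.pi) • zv k, ?_⟩
  rw [(h1.iteratedFDeriv ℝ j).eq_of_nhds, iteratedFDeriv_comp_sub]

theorem perz_periodic {f : R12 → ℂ} (x : R12) (i : Fin 12) :
    perz f (x + EuclideanSpace.single i (2 * Real.pi)) = perz f x := by
  unfold perz
  have hs : zv (Pi.single i 1) = EuclideanSpace.single i (1 : ℝ) := by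
    ext j
    by_cases h : j = i
    · subst h; simp [zv]
    · simp [zv, h]
  have he : ∀ k : Z12, f (x + EuclideanSpace.single i (2 * Real.pi) - (2 * Real.pi) • zv k)
      = f (x - (2 * Real.pi) • zv (k - Pi.single i 1)) := by
    intro k
    congr 1
    rw [zv_sub, hs, smul_sub]
    have h2 : (2 * Real.pi) • (EuclideanSpace.single i (1 : ℝ) : R12)
        = EuclideanSpace.single i (2 * Real.pi) := by
      ext j
      by_cases h : j = i
      · subst h; simp
      · simp [h]
    rw [h2]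
    abel
  simp only [he]
  exact (Equiv.subRight (Pi.single i 1 : Z12)).tsum_eq
    (fun k => f (x - (2 * Real.pi) • zv k))

theorem isSmoothPeriodic_perz {f : R12 → ℂ} (hs : ContDiff ℝ ∞ f) (hf : PS f) :
    IsSmoothPeriodic (perz f) :=
  ⟨contDiff_perz hs hf, fun x i => perz_periodic x i⟩

end Crest.Agent.R086.Perz
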