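import Crest.Agent.R086.TK1
import Crest.Agent.R086.TF

/-!
Row 86, node NearStep, file TK2 (helper501): windowed transforms, products, conjugates.
-/

set_option autoImplicit false

open MeasureTheory Complex Filter Topology
open scoped ContDiff FourierTransform RealInnerProductSpace
open Crest.AnalysisR.PDE.NLS (IsSmoothPeriodic periodCell)

namespace Crest.Agent.R086.TK

noncomputable section

/-- `chi2` as a complex function -/
def c2 (x : R12) : ℂ := ((chi2 x : ℝ) : ℂ)

lemma cut_c2 : Cut c2 where
  smooth := by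
    unfold c2
    exact Complex.ofRealCLM.contDiff.comp chi2.contDiff
  supp := by
    have h := chi2.hasCompactSupport
    exact h.comp_left (g := fun r : ℝ => (r : ℂ)) (by simp)

lemma norm_c2_le (x : R12) : ‖c2 x‖ ≤ 1 := by
  unfold c2
  rw [Complex.norm_real, Real.norm_of_nonneg chi2.nonneg]
  exact chi2.le_one

/-- scaling -/
lemma cw_scale {h : ℝ} (hh : 0 < h) (f : R12 → ℂ) (ξ : R12) :
    cw (fun y => f (h • y)) ξ = (((h ^ 12)⁻¹ : ℝ) : ℂ) * cw f (h⁻¹ • ξ) := by
  unfold cw
  have h1 : ∀ y : R12, ch (-ξ) y * f (h • y)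
      = (fun x => ch (-(h⁻¹ • ξ)) x * f x) (h • y) := by
    intro y
    simp only
    congr 1
    unfold ch
    rw [inner_neg_left, inner_neg_left, inner_smul_left, inner_smul_right]
    simp only [conj_trivial]
    rw [← mul_assoc, inv_mul_cancel₀ hh.ne', one_mul]
  rw [integral_congr_ae (Eventually.of_forall h1),
    Measure.integral_comp_smul volume (fun x => ch (-(h⁻¹ • ξ)) x * f x) h]
  simp only [finrank_euclideanSpace, Fintype.card_fin]
  rw [abs_of_pos (by positivity), real_smul]
  ring

/-- windowed transform of a periodic function -/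
lemma cw_window {χ : R12 → ℂ} (hχ : Cut χ) {v : R12 → ℂ} (hv : IsSmoothPeriodic v) (η : R12) :
    HasSum (fun k => cf v k * cw χ (η - zv k)) (cw (fun x => χ x * v x) η) := by
  obtain ⟨hs, hx⟩ := tf1 v hv
  have hs0 : Summable fun k => ‖cf v k‖ := by simpa using hs 0
  have hF : ∀ k : Z12, Integrable (fun x => cf v k * (ch (-(η - zv k)) x * χ x)) := by
    intro k
    refine Integrable.const_mul ?_ _
    refine hχ.integrable.bdd_mul (c := 1) (continuous_ch_right _).aestronglyMeasurable ?_
    exact Eventually.of_forall fun x => (norm_ch _ x).le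
  have hn : Summable fun k : Z12 => ∫ x, ‖cf v k * (ch (-(η - zv k)) x * χ x)‖ := by
    have : ∀ k : Z12, ∫ x, ‖cf v k * (ch (-(η - zv k)) x * χ x)‖ = ‖cf v k‖ * ∫ x, ‖χ x‖ := by
      intro k
      rw [← integral_const_mul]
      refine integral_congr_ae (Eventually.of_forall fun x => ?_)
      simp only [norm_mul, norm_ch, one_mul]
    simp only [this]
    exact hs0.mul_right _
  have h1 := hasSum_integral_of_summable_integral_norm hF hn
  have h2 : ∀ k : Z12, cf v k * cw χ (η - zv k) = c12 * ∫ x, cf v k * (ch (-(η - zv k)) x * χ x) := by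
    intro k
    unfold cw
    rw [integral_const_mul]
    ring
  have h3 : cw (fun x => χ x * v x) η = c12 * ∫ x, ∑' k, cf v k * (ch (-(η - zv k)) x * χ x) := by
    unfold cw
    congr 1
    refine integral_congr_ae (Eventually.of_forall fun x => ?_)
    simp only
    rw [hx x, ← tsum_mul_left, ← tsum_mul_left]
    congr 1
    ext k
    have : ch (-(η - zv k)) x = ch (-η) x * exp (I * ((inner ℝ (zv k) x : ℝ) : ℂ)) := by
      rw [show -(η - zv k) = -η + zv k by abel, ch_add_left]
      rfl
    rw [this]
    ring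
  rw [h3]
  simp only [h2]
  exact h1.mul_left _

/-- near density as a lattice sum -/
lemma cw_zn {τ : ℝ} (hτ : 0 < τ) {v : R12 → ℂ} (hv : IsSmoothPeriodic v) (ξ : R12) :
    cw (zn τ v) ξ = (((Real.sqrt τ ^ 12)⁻¹ : ℝ) : ℂ) *
      ∑' k, cf v k * cw c2 ((Real.sqrt τ)⁻¹ • ξ - zv k) := by
  have h1 : zn τ v = fun y => (fun x => c2 x * v x) (Real.sqrt τ • y) := rfl
  rw [h1, cw_scale (Real.sqrt_pos.2 hτ) (fun x => c2 x * v x), (cw_window cut_c2 hv _).tsum_eq]

/-- smoothness and support of the blown-up near part -/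
lemma cut_zn {τ : ℝ} (hτ : 0 < τ) {v : R12 → ℂ} (hv : IsSmoothPeriodic v) : Cut (zn τ v) where
  smooth := by
    have h1 : ContDiff ℝ ∞ v := hv.1
    have h2 : zn τ v = fun y => (fun x => c2 x * v x) (Real.sqrt τ • y) := rfl
    rw [h2]
    exact (cut_c2.smooth.mul h1).comp (contDiff_const_smul _)
  supp := by
    have h2 : zn τ v = fun y => (fun x => c2 x * v x) (Real.sqrt τ • y) := rfl
    rw [h2]
    have h3 : HasCompactSupport (fun x => c2 x * v x) := cut_c2.supp.mul_right
    exact h3.comp_smul (Real.sqrt_pos.2 hτ).ne'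

/-- transform of a product -/
lemma cw_mul {V v z : R12 → ℂ} {N : ℕ} (hV : Rep N v V) (hz : Continuous z)
    (hzs : HasCompactSupport z) (η : R12) :
    cw (fun y => V y * z y) η = cv v (cw z) η := by
  have hv : Integrable v := by
    refine hV.1.mono ?_ (Eventually.of_forall fun ξ => ?_)
    · have h1 := hV.1.aestronglyMeasurable
      have h2 : v = fun ξ => ((((1 + ‖ξ‖) ^ N : ℝ) : ℂ))⁻¹ * ((((1 + ‖ξ‖) ^ N : ℝ) : ℂ) * v ξ) := by
        ext ξ
        have : (((1 + ‖ξ‖) ^ N : ℝ) : ℂ) ≠ 0 := by
          have : (0:ℝ) < (1 + ‖ξ‖) ^ N := by positivity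
          exact_mod_cast this.ne'
        rw [inv_mul_cancel_left₀ this]
      rw [h2]
      refine AEStronglyMeasurable.mul ?_ h1
      have : Continuous (fun ξ : R12 => ((((1 + ‖ξ‖) ^ N : ℝ) : ℂ))⁻¹) := by
        refine Continuous.inv₀ (by fun_prop) fun ξ => ?_
        have : (0:ℝ) < (1 + ‖ξ‖) ^ N := by positivity
        exact_mod_cast this.ne'
      exact this.aestronglyMeasurable
    · rw [norm_mul, Complex.norm_real, Real.norm_of_nonneg (by positivity)]
      have : (1:ℝ) ≤ (1 + ‖ξ‖) ^ N := one_le_pow₀ (by linarith [norm_nonneg ξ])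
      nlinarith [norm_nonneg (v ξ)]
  have hzi : Integrable z := hz.integrable_of_hasCompactSupport hzs
  have h1 : cv v (cw z) η = ∫ ξ, v ξ * cw z (η - ξ) := by
    unfold cv
    rw [← integral_sub_left_eq_self (fun ξ => v ξ * cw z (η - ξ)) volume η]
    refine integral_congr_ae (Eventually.of_forall fun ξ => ?_)
    simp
  rw [h1]
  have h2 : ∀ ξ, v ξ * cw z (η - ξ) = c12 * ∫ y, v ξ * (ch (-(η - ξ)) y * z y) := by
    intro ξ
    unfold cw
    rw [integral_const_mul]
    ring
  rw [integral_congr_ae (Eventually.of_forall h2), integral_const_mul]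
  unfold cw
  congr 1
  have hsw : Integrable (Function.uncurry fun (ξ y : R12) => v ξ * (ch (-(η - ξ)) y * z y))
      (volume.prod volume) := by
    have h3 : Integrable (fun p : R12 × R12 => v p.1 * z p.2) (volume.prod volume) :=
      hv.mul_prod hzi
    have h4 : (Function.uncurry fun (ξ y : R12) => v ξ * (ch (-(η - ξ)) y * z y))
        = fun p : R12 × R12 => ch (-(η - p.1)) p.2 * (v p.1 * z p.2) := by
      ext p
      simp only [Function.uncurry]
      ring
    rw [h4]
    refine h3.bdd_mul (c := 1) ?_ (Eventually.of_forall fun p => (norm_ch _ _).le)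
    have : Continuous (fun p : R12 × R12 => ch (-(η - p.1)) p.2) :=
      continuous_ch.comp (by fun_prop : Continuous fun p : R12 × R12 => (-(η - p.1), p.2))
    exact this.aestronglyMeasurable
  rw [integral_integral_swap hsw]
  refine integral_congr_ae (Eventually.of_forall fun y => ?_)
  simp only
  rw [hV.2 y, ← integral_mul_const, ← integral_const_mul]
  refine integral_congr_ae (Eventually.of_forall fun ξ => ?_)
  simp only
  rw [show -(η - ξ) = -η + ξ by abel, ch_add_left]
  show ch (-η) y * (ch ξ y * v ξ * z y) = _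
  ring

/-- conjugate -/
lemma cw_conj (z : R12 → ℂ) (η : R12) :
    cw (fun y => (starRingEnd ℂ) (z y)) η = (starRingEnd ℂ) (cw z (-η)) := by
  unfold cw
  rw [map_mul, ← integral_conj]
  have h1 : (starRingEnd ℂ) c12 = c12 := by
    unfold c12
    rw [map_inv₀, Complex.conj_ofReal]
  rw [h1]
  congr 1
  refine integral_congr_ae (Eventually.of_forall fun y => ?_)
  simp only [map_mul]
  congr 1
  unfold ch
  rw [← Complex.exp_conj, map_mul, conj_I, Complex.conj_ofReal, neg_neg, inner_neg_left]
  push_cast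
  ring_nf

/-- smooth compactly supported functions are represented by their transform -/
lemma rep_cw {z : R12 → ℂ} (h : Cut z) (N : ℕ) : Rep N (cw z) z := by
  constructor
  · have h1 := h.cw_integrable_pow N
    have h2 : (fun ξ : R12 => (((1 + ‖ξ‖) ^ N : ℝ) : ℂ) * cw z ξ)
        = fun ξ => (((1 + ‖ξ‖) ^ N : ℝ) : ℂ) * cw z ξ := rfl
    have hc := h.cw_continuous
    refine (integrable_norm_iff (by fun_prop : Continuous _).aestronglyMeasurable).1 ?_
    refine h1.congr (Eventually.of_forall fun ξ => ?_)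
    simp only [norm_mul, Complex.norm_real]
    rw [Real.norm_of_nonneg (by positivity)]
  · intro y
    exact (h.inversion y).symm

end

end Crest.Agent.R086.TK
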