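import Crest.Agent.R086.TKDefs3
import Crest.Agent.R086.TK2
import Crest.Agent.R086.GrowA
import Crest.Agent.R086.NSRem
import Crest.Agent.R086.TF
import Crest.Agent.R086.PerzAlg

/-!
Row 86, NearLin: the identity (E), `EIdStmt` (helper893).
-/

set_option autoImplicit false

open MeasureTheory Complex Set
open scoped ContDiff Topology
open Crest.AnalysisR.PDE.NLS (IsSmoothPeriodic periodCell)

namespace Crest.Agent.R086.TK

open Profile

noncomputable section

/-- window sums of smooth periodic functions converge -/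
lemma summable_win {v : R12 → ℂ} (hv : IsSmoothPeriodic v) (η : R12) :
    Summable fun k : Z12 => cf v k * cw c2 (η - zv k) := by
  obtain ⟨C, hC0, hC⟩ := cut_c2.cw_decay 0
  have hs0 : Summable fun k => ‖cf v k‖ := by simpa using (tf1 v hv).1 0
  refine Summable.of_norm_bounded (hs0.mul_right C) fun k => ?_
  rw [norm_mul]
  gcongr
  simpa using hC (η - zv k)

/-- `Jd` of the coefficients of a smooth periodic function -/
lemma Jd_cf {τ₀ s : ℝ} (hτ : 0 < τ₀ * Real.exp (-s)) {v : R12 → ℂ} (hv : IsSmoothPeriodic v)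
    (ξ : R12) : Jd (cw c2) (hs τ₀ s) (cf v) ξ = cw (zn (τ₀ * Real.exp (-s)) v) ξ := by
  rw [cw_zn hτ hv]
  rfl

/-- near the centre the periodised profile is the profile -/
lemma chi2_qt {n : ℕ} (P : Profile n) {τ : ℝ} (hτ : 0 < τ) {y : R12}
    (hy : chi2 (Real.sqrt τ • y) ≠ 0) : P.qt τ (Real.sqrt τ • y) = P.Q y := by
  have h1 : ‖Real.sqrt τ • y‖ < 1 / 2 := by
    by_contra hlt
    push Not at hlt
    refine hy (chi2.zero_of_le_dist ?_)
    rw [dist_zero_right]
    exact hlt
  have hps : Perz.PS (fun x : R12 => ((chi0 x : ℝ) : ℂ) * P.Q ((Real.sqrt τ)⁻¹ • x)) := by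
    intro x hx
    have : chi0 x = 0 := chi0.zero_of_le_dist (by rw [dist_zero_right]; exact hx)
    simp only [this, ofReal_zero, zero_mul]
  show perz (fun x : R12 => ((chi0 x : ℝ) : ℂ) * P.Q ((Real.sqrt τ)⁻¹ • x)) _ = _
  rw [Perz.perz_of_norm_le hps (by linarith)]
  have h2 : chi0 (Real.sqrt τ • y) = 1 := by
    refine chi0.one_of_mem_closedBall ?_
    rw [mem_closedBall_zero_iff]
    show ‖Real.sqrt τ • y‖ ≤ 1
    linarith
  have h3 : Real.sqrt τ ≠ 0 := (Real.sqrt_pos.2 hτ).ne'
  simp only [h2, smul_smul, inv_mul_cancel₀ h3, one_smul, ofReal_one, one_mul]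

/-- the near part of the linearised nonlinearity -/
lemma zn_dnl {n : ℕ} (P : Profile n) {τ : ℝ} (hτ : 0 < τ) (W : R12 → ℂ) (y : R12) :
    zn τ (fun x => dnl n (P.qt τ x) (W x)) y
      = P.V1 y * zn τ W y + P.V2 y * (starRingEnd ℂ) (zn τ W y) := by
  unfold zn
  by_cases hy : chi2 (Real.sqrt τ • y) = 0
  · simp [hy]
  · beta_reduce
    rw [chi2_qt P hτ hy, map_mul, Complex.conj_ofReal]
    unfold dnl Profile.V1 Profile.V2
    ring

lemma V1_cont {n : ℕ} (P : Profile n) : Continuous P.V1 := by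
  unfold Profile.V1
  have := P.smooth.continuous
  fun_prop

lemma V2_cont {n : ℕ} (P : Profile n) : Continuous P.V2 := by
  unfold Profile.V2
  have := P.smooth.continuous
  fun_prop

lemma cw_add {f g : R12 → ℂ} (hf : Integrable f) (hg : Integrable g) (ξ : R12) :
    cw (fun y => f y + g y) ξ = cw f ξ + cw g ξ := by
  unfold cw
  rw [← mul_add, ← integral_add]
  · congr 1
    refine integral_congr_ae (Filter.Eventually.of_forall fun y => ?_)
    simp only
    ring
  · exact hf.bdd_mul (c := 1) (continuous_ch_right _).aestronglyMeasurable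
      (Filter.Eventually.of_forall fun x => (norm_ch _ x).le)
  · exact hg.bdd_mul (c := 1) (continuous_ch_right _).aestronglyMeasurable
      (Filter.Eventually.of_forall fun x => (norm_ch _ x).le)

/-- transform of `V1 z + V2 conj z` -/
lemma cw_pot {n : ℕ} (P : Profile n) (T : Pot P) {z : R12 → ℂ} (hz : Cut z) (ξ : R12) :
    cw (fun y => P.V1 y * z y + P.V2 y * (starRingEnd ℂ) (z y)) ξ
      = cv T.v1 (cw z) ξ + cv T.v2 (cr (cw z)) ξ := by
  have hzc := hz.continuous
  have hcc : Continuous fun y => (starRingEnd ℂ) (z y) := Complex.continuous_conj.comp hzc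
  have hcs : HasCompactSupport fun y => (starRingEnd ℂ) (z y) :=
    hz.supp.comp_left (g := fun w : ℂ => (starRingEnd ℂ) w) (map_zero _)
  have i1 : Integrable fun y => P.V1 y * z y :=
    ((V1_cont P).mul hzc).integrable_of_hasCompactSupport hz.supp.mul_left
  have i2 : Integrable fun y => P.V2 y * (starRingEnd ℂ) (z y) :=
    ((V2_cont P).mul hcc).integrable_of_hasCompactSupport hcs.mul_left
  rw [cw_add i1 i2, cw_mul (T.rep_v1 0) hzc hz.supp, cw_mul (T.rep_v2 0) hcc hcs]
  have e : cw (fun y => (starRingEnd ℂ) (z y)) = cr (cw z) := funext fun η => cw_conj z η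
  rw [e]

/-- transform of `V1 conj z + V2c z` -/
lemma cw_potc {n : ℕ} (P : Profile n) (T : Pot P) {z : R12 → ℂ} (hz : Cut z) (ξ : R12) :
    cw (fun y => P.V1 y * (starRingEnd ℂ) (z y) + P.V2c y * z y) ξ
      = cv T.v1 (cr (cw z)) ξ + cv T.v2c (cw z) ξ := by
  have hzc := hz.continuous
  have hcc : Continuous fun y => (starRingEnd ℂ) (z y) := Complex.continuous_conj.comp hzc
  have hcs : HasCompactSupport fun y => (starRingEnd ℂ) (z y) :=
    hz.supp.comp_left (g := fun w : ℂ => (starRingEnd ℂ) w) (map_zero _)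
  have hV2c : Continuous P.V2c := by
    unfold Profile.V2c
    have := P.smooth.continuous
    have h2 := Complex.continuous_conj.comp this
    simp only [Function.comp_def] at h2
    fun_prop
  have i1 : Integrable fun y => P.V1 y * (starRingEnd ℂ) (z y) :=
    ((V1_cont P).mul hcc).integrable_of_hasCompactSupport hcs.mul_left
  have i2 : Integrable fun y => P.V2c y * z y :=
    (hV2c.mul hzc).integrable_of_hasCompactSupport hz.supp.mul_left
  rw [cw_add i1 i2, cw_mul (T.rep_v1 0) hcc hcs, cw_mul (T.rep_v2c 0) hzc hz.supp]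
  have e : cw (fun y => (starRingEnd ℂ) (z y)) = cr (cw z) := funext fun η => cw_conj z η
  rw [e]

lemma conj_V1 {n : ℕ} (P : Profile n) (y : R12) : (starRingEnd ℂ) (P.V1 y) = P.V1 y := by
  unfold Profile.V1
  simp only [map_mul, map_add, map_one, map_div₀, Complex.conj_ofReal, Complex.conj_natCast,
    map_ofNat]

lemma conj_V2 {n : ℕ} (P : Profile n) (y : R12) : (starRingEnd ℂ) (P.V2 y) = P.V2c y := by
  unfold Profile.V2 Profile.V2c
  simp only [map_mul, map_div₀, Complex.conj_ofReal, Complex.conj_natCast, map_ofNat, map_pow]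

/-- (E) -/
theorem eId : EIdStmt := by
  intro n P T hTP gt hG τ₀ S hτ₀ hτ₁ hS U hU s hs'
  set τ := τ₀ * Real.exp (-s) with hτdef
  have hτ : 0 < τ := by positivity
  set W := P.pert τ₀ U s with hW
  have sU : IsSmoothPeriodic (U s) := hU.smooth s hs'
  have sq : IsSmoothPeriodic (P.qt τ) := (hTP.1 τ hτ).1
  have sW : IsSmoothPeriodic W := NS.sp_sub sU sq
  have sg : IsSmoothPeriodic (gt τ) := hG.smooth τ hτ
  have hneven := P.neven
  have hn2 : Even (n - 2) := (Nat.even_sub P.two_le).2 (by simp [hneven])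
  have snU : IsSmoothPeriodic (fun x => nl n (U s x)) := NS.sp_nl sU hneven
  have snq : IsSmoothPeriodic (fun x => nl n (P.qt τ x)) := NS.sp_nl sq hneven
  have sd : IsSmoothPeriodic (fun x => dnl n (P.qt τ x) (W x)) := by
    unfold dnl
    refine NS.sp_add (NS.sp_mul (NS.sp_mul (NS.sp_const _) (NS.sp_normpow sq hneven)) sW) ?_
    exact NS.sp_mul (NS.sp_mul (NS.sp_mul (NS.sp_const _) (NS.sp_normpow sq hn2))
      (NS.sp_pow sq 2)) (NS.sp_conj sW)
  have hUW : ∀ x, P.qt τ x + W x = U s x := by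
    intro x
    rw [hW]
    unfold Profile.pert
    rw [← hτdef]
    ring
  have snr : IsSmoothPeriodic (fun x => nl n (P.qt τ x + W x) - nl n (P.qt τ x)
      - dnl n (P.qt τ x) (W x)) := by
    have : (fun x => nl n (P.qt τ x + W x) - nl n (P.qt τ x) - dnl n (P.qt τ x) (W x))
        = fun x => nl n (U s x) - nl n (P.qt τ x) - dnl n (P.qt τ x) (W x) := by
      funext x; rw [hUW]
    rw [this]
    exact NS.sp_sub (NS.sp_sub snU snq) sd
  -- the coefficients
  have hcoef : ∀ k, Gf P gt τ₀ U s k = Ef P gt τ₀ U s k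
      + (-I) * cf (fun x => dnl n (P.qt τ x) (W x)) k := by
    intro k
    have e1 : cf (fun x => nl n (P.qt τ x + W x) - nl n (P.qt τ x)
        - dnl n (P.qt τ x) (W x)) k
        = cf (fun x => nl n (U s x)) k - cf (fun x => nl n (P.qt τ x)) k
          - cf (fun x => dnl n (P.qt τ x) (W x)) k := by
      have : (fun x => nl n (P.qt τ x + W x) - nl n (P.qt τ x) - dnl n (P.qt τ x) (W x))
          = fun x => (nl n (U s x) - nl n (P.qt τ x)) - dnl n (P.qt τ x) (W x) := by
        funext x; rw [hUW]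
      rw [this, Grow.cf_sub (NS.sp_sub snU snq).1.continuous sd.1.continuous,
        Grow.cf_sub snU.1.continuous snq.1.continuous]
    unfold Gf Ef
    rw [← hτdef, ← hW, e1]
    ring
  have hE : Ef P gt τ₀ U s = fun k => -I * cf (fun x => nl n (P.qt τ x + W x)
      - nl n (P.qt τ x) - dnl n (P.qt τ x) (W x)) k + cf (gt τ) k := rfl
  have hsumE : ∀ η, Summable fun k => Ef P gt τ₀ U s k * cw c2 (η - zv k) := by
    intro η
    have h1 := ((summable_win snr η).mul_left (-I)).add (summable_win sg η)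
    refine h1.congr fun k => ?_
    rw [hE]
    ring
  have hzc : Cut (zn τ W) := cut_zn hτ sW
  constructor
  · intro ξ
    have h1 : Jd (cw c2) (hs τ₀ s) (Gf P gt τ₀ U s) ξ
        = Jd (cw c2) (hs τ₀ s) (Ef P gt τ₀ U s) ξ
          + (-I) * Jd (cw c2) (hs τ₀ s) (cf (fun x => dnl n (P.qt τ x) (W x))) ξ := by
      unfold Jd
      have h2 : ∀ k, Gf P gt τ₀ U s k * cw c2 ((hs τ₀ s)⁻¹ • ξ - zv k)
          = Ef P gt τ₀ U s k * cw c2 ((hs τ₀ s)⁻¹ • ξ - zv k)
            + (-I) * (cf (fun x => dnl n (P.qt τ x) (W x)) k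
              * cw c2 ((hs τ₀ s)⁻¹ • ξ - zv k)) := by
        intro k
        rw [hcoef k]
        ring
      rw [tsum_congr h2, Summable.tsum_add (hsumE _) ((summable_win sd _).mul_left _),
        tsum_mul_left]
      ring
    rw [h1, Jd_cf hτ sd, ← hτdef]
    have h3 : zn τ (fun x => dnl n (P.qt τ x) (W x))
        = fun y => P.V1 y * zn τ W y + P.V2 y * (starRingEnd ℂ) (zn τ W y) :=
      funext fun y => zn_dnl P hτ W y
    rw [h3, cw_pot P T hzc]
    ring
  · intro ξ
    rw [← cw_pot P T hzc, ← cw_conj, ← cw_potc P T hzc]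
    congr 1
    funext y
    rw [map_add, map_mul, map_mul, conj_V1, conj_V2, Complex.conj_conj]

end

end Crest.Agent.R086.TK
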