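import Crest.Agent.R086.TorDefs
import Crest.Agent.R086.DLIface

/-!
Row 86 (S0114), node NearStep (helper501 + helper148): split of `NearStep P N`.
-/

set_option autoImplicit false

open MeasureTheory Complex
open scoped ContDiff Topology
open Crest.AnalysisR.PDE.NLS (IsSmoothPeriodic periodCell)

namespace Crest.Agent.R086

open Profile

noncomputable section

/-- derivative of `nl n` at `q` in direction `w` -/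
def dnl (n : ℕ) (q w : ℂ) : ℂ :=
  (1 + (n : ℂ) / 2) * ((‖q‖ ^ n : ℝ) : ℂ) * w
    + (n : ℂ) / 2 * ((‖q‖ ^ (n - 2) : ℝ) : ℂ) * q ^ 2 * (starRingEnd ℂ) w

/-- (REM) quadratic estimate of the remainder of the nonlinearity, uniformly in the scale `h`. -/
def RemEst (n N : ℕ) : Prop := ∀ B : ℝ, ∃ C : ℝ, 0 ≤ C ∧ ∀ h : ℝ, 0 ≤ h → ∀ q w : R12 → ℂ,
  IsSmoothPeriodic q → IsSmoothPeriodic w → wn N h q ≤ B → wn N h w ≤ 1 →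
    wn N h (fun x => nl n (q x + w x) - nl n (q x) - dnl n (q x) (w x)) ≤ C * wn N h w ^ 2

/-- the blown-up near part `y ↦ chi2(√τ y) v(√τ y)` -/
def zn (τ : ℝ) (v : R12 → ℂ) (y : R12) : ℂ :=
  ((chi2 (Real.sqrt τ • y) : ℝ) : ℂ) * v (Real.sqrt τ • y)

/-- (NEAR) the near part of the perturbation at the end of the step, modulo the modes, in the
density norm (helper501). -/
def NearLin {n : ℕ} (P : Profile n) (N : ℕ) : Prop :=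
  ∀ s : ℕ, N + 1 ≤ s → ∀ κ : ℝ, 0 < κ → ∃ S₂ : ℝ, ∀ S : ℝ, S₂ ≤ S → 1 ≤ S → ∃ C : ℝ, 1 ≤ C ∧
    ∀ τ₀ : ℝ, 0 < τ₀ → τ₀ ≤ 1 → ∀ U, P.ResSol τ₀ S U → ∀ L H : ℝ, 0 ≤ H → L ≤ 1 →
      (∀ σ ∈ Set.Icc 0 S, wn N (hs τ₀ σ) (P.pert τ₀ U σ) ≤ L) →
      (∀ σ ∈ Set.Icc 0 S, hi s (hs τ₀ σ) (P.pert τ₀ U σ) ≤ H) →
      ∃ b : MIx → ℝ, (∀ m, |b m| ≤ C * L) ∧ ∃ a : R12 → ℂ,
        Rep N a (fun y => zn (τ₀ * Real.exp (-S)) (P.pert τ₀ U S) y - ∑ m, (b m : ℂ) * P.mode1 m y) ∧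
        ∫ ξ : R12, (1 + ‖ξ‖) ^ N * ‖a ξ‖ ≤ κ * wn N (Real.sqrt τ₀) (P.pert τ₀ U 0)
          + C * (L ^ 2 + Real.sqrt τ₀ * (L + H) + τ₀)

/-- (FAR) the far part at the end of the step (helper148); `C₀` does not depend on `S`. -/
def FarStep {n : ℕ} (P : Profile n) (N : ℕ) : Prop :=
  ∀ s : ℕ, N + 1 ≤ s → ∃ C₀ : ℝ, 1 ≤ C₀ ∧ ∀ S : ℝ, 0 ≤ S → ∃ C : ℝ, 1 ≤ C ∧
    ∀ τ₀ : ℝ, 0 < τ₀ → τ₀ ≤ 1 → ∀ U, P.ResSol τ₀ S U → ∀ L H : ℝ, 0 ≤ H → L ≤ 1 →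
      (∀ σ ∈ Set.Icc 0 S, wn N (hs τ₀ σ) (P.pert τ₀ U σ) ≤ L) →
      (∀ σ ∈ Set.Icc 0 S, hi s (hs τ₀ σ) (P.pert τ₀ U σ) ≤ H) →
        wn N (hs τ₀ S)
            (fun x => (1 - perz (fun x => ((chi2 x : ℝ) : ℂ)) x) * P.pert τ₀ U S x)
          ≤ C₀ * Real.exp (-S / n) * wn N (Real.sqrt τ₀) (P.pert τ₀ U 0)
            + C * (L ^ 2 + Real.sqrt τ₀ * (L + H) + τ₀)

/-- (TP2c) `TP2` with continuity of the coefficients of the error in time. -/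
def TP2c {n : ℕ} (P : Profile n) : Prop :=
  ∃ gt : ℝ → R12 → ℂ, (∀ τ : ℝ, 0 < τ → IsSmoothPeriodic (gt τ)) ∧
  (∀ N : ℕ, ∃ C : ℝ, 0 ≤ C ∧ ∀ τ : ℝ, 0 < τ → τ ≤ 1 → wn N 1 (gt τ) ≤ C * τ) ∧
  (∀ k : Z12, ContinuousOn (fun τ => cf (gt τ) k) (Set.Ioi 0)) ∧
  ∀ (τ₀ : ℝ), 0 < τ₀ → ∀ (s : ℝ) (k : Z12), HasDerivAt (fun s => cf (P.qt (τ₀ * Real.exp (-s))) k)
    ((-(I * ((τ₀ * Real.exp (-s) * nk k ^ 2 : ℝ) : ℂ)) + (I * (P.om : ℂ) - 1 / (n : ℂ)))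
        * cf (P.qt (τ₀ * Real.exp (-s))) k - I * cf (fun x => nl n (P.qt (τ₀ * Real.exp (-s)) x)) k
      - cf (gt (τ₀ * Real.exp (-s))) k) s

end

end Crest.Agent.R086
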