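import Crest.Agent.R086.TP2
import Crest.Agent.R086.TKDefs

/-! Row 86 (helper718): TP2 with continuity of the error coefficients. -/

set_option autoImplicit false

open MeasureTheory Complex Filter
open scoped ContDiff Topology
open Crest.AnalysisR.PDE.NLS (IsSmoothPeriodic)

namespace Crest.Agent.R086.TP

open Crest.Agent.R086 Crest.Agent.R086.Perz Crest.Agent.R086.PF

lemma cut_of_PS {φ : R12 → ℂ} (h1 : ContDiff ℝ ∞ φ) (h2 : PS φ) : Cut φ := ⟨h1, PS_cpt h2⟩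

lemma FF_cont {φ f : R12 → ℂ} (hφ : Cut φ) (hf : ContDiff ℝ ∞ f) (k : Z12) :
    ContinuousOn (fun τ : ℝ => FF 0 φ f τ k) (Set.Ioi 0) := fun τ hτ =>
  (hasDerivAt_FF (z := 0) hφ hf (Set.mem_Ioi.1 hτ) k).continuousAt.continuousWithinAt

theorem cont_gt {n : ℕ} (P : Profile n) (k : Z12) :
    ContinuousOn (fun τ => Crest.Agent.R086.cf (perz (ge P τ)) k) (Set.Ioi 0) := by
  have h : ∀ τ : ℝ, Crest.Agent.R086.cf (perz (ge P τ)) k = I * (τ : ℂ) * (∑ j : Fin 12, FF 0 (D2 j) P.Q τ k) +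
    2 * I * ((Real.sqrt τ : ℝ) : ℂ) *
      (∑ j : Fin 12, FF 0 (D1 j) (fun y => fderiv ℝ P.Q y (ei j)) τ k) +
    I * FF 0 (XN1 n) (NQ P) τ k := by
    intro τ
    rw [cfPerz _ (ge_smooth P τ) (ge_PS P τ), fc_ge, FF0]
  simp only [h]
  have hs : ContinuousOn (fun τ : ℝ => ((Real.sqrt τ : ℝ) : ℂ)) (Set.Ioi 0) :=
    (Complex.continuous_ofReal.comp Real.continuous_sqrt).continuousOn
  have ht : ContinuousOn (fun τ : ℝ => (τ : ℂ)) (Set.Ioi 0) := Complex.continuous_ofReal.continuousOn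
  refine ((((continuousOn_const.mul ht).mul (continuousOn_finset_sum _ fun j _ => ?_)).add
    ((continuousOn_const.mul hs).mul (continuousOn_finset_sum _ fun j _ => ?_)))).add
    (continuousOn_const.mul ?_)
  · exact FF_cont (cut_of_PS (D2_smooth j) (D2_PS j)) P.smooth k
  · exact FF_cont (cut_of_PS (D1_smooth j) (D1_PS j)) (smooth_fderiv P.smooth j) k
  · exact FF_cont (cut_of_PS (XN1_smooth n) (XN1_PS n)) P.symNN.1 k

/-- TP2 with continuity. -/
theorem tp2c {n : ℕ} (P : Profile n) : TP2c P :=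
  ⟨fun τ => perz (ge P τ), fun τ _ => isSmoothPeriodic_perz (ge_smooth P τ) (ge_PS P τ),
    fun N => ge_bound P tn annStmt N, fun k => cont_gt P k,
    fun τ₀ hτ₀ s k => tp2_eq P cfPerz τ₀ hτ₀ s k⟩

end Crest.Agent.R086.TP
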