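import Crest.Agent.R086.TK4
import Crest.Agent.R086.TKE
import Crest.Agent.R086.DLTop
import Crest.Agent.R086.TP2c
import Crest.Agent.R086.TPOne
import Crest.Agent.R086.TN

/-!
Row 86, NearLin, unconditional (helper501).
-/

set_option autoImplicit false

namespace Crest.Agent.R086.TK

/-- NEAR part, unconditional: for every large regularity index. -/
theorem nearLin {n : ℕ} (P : Profile n) (hP : P.SpecGood N0) :
    ∃ N1 : ℕ, ∀ N, N1 ≤ N → NearLin P N := by
  obtain ⟨T⟩ := potStmt n P
  obtain ⟨N1, hN1⟩ := TS.linStep DL.lin DL.forced P T hP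
  refine ⟨N1, fun N hN => ?_⟩
  obtain ⟨D⟩ := DC.linStmt n P T N
  exact nearLin_of eId (TNl.tn_of tf1 tf2) P (tp1 P) (TP.tp2c P) T N D (hN1 N hN D)

end Crest.Agent.R086.TK
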