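import Crest.Agent.R086.TSVar

/-!
Row 86, node TS / OneStep (helper264): `GrowStep` + `NearStep` ⟹ `OneStep`.
-/

set_option autoImplicit false

open MeasureTheory Complex Set
open scoped ContDiff Topology
open Crest.AnalysisR.PDE.NLS (IsSmoothPeriodic periodCell sobolevDistSq IsClassicalSolution)

namespace Crest.Agent.R086.TS

/-! ### norms -/

lemma nk_nonneg (k : Z12) : 0 ≤ nk k := norm_nonneg _

lemma wn_nonneg (N : ℕ) {h : ℝ} (hh : 0 ≤ h) (v : R12 → ℂ) : 0 ≤ wn N h v := by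
  unfold wn
  refine tsum_nonneg fun k => ?_
  have := nk_nonneg k
  positivity

lemma hi_nonneg (s : ℕ) {h : ℝ} (hh : 0 ≤ h) (v : R12 → ℂ) : 0 ≤ hi s h v := by
  unfold hi
  refine tsum_nonneg fun k => ?_
  have := nk_nonneg k
  positivity

lemma hi_le_wn (h1 : TF1) (s : ℕ) {h : ℝ} (hh : 0 ≤ h) (hh1 : h ≤ 1) {v : R12 → ℂ}
    (hv : IsSmoothPeriodic v) : hi s h v ≤ wn s h v := by
  have hs := (h1 v hv).1 s
  have hb : ∀ k : Z12, (1 + h * nk k) ^ s * ‖cf v k‖ ≤ (1 + nk k) ^ s * ‖cf v k‖ := by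
    intro k
    have h0 := nk_nonneg k
    have : h * nk k ≤ nk k := by nlinarith
    gcongr
  have hs1 : Summable fun k : Z12 => (1 + h * nk k) ^ s * ‖cf v k‖ :=
    Summable.of_nonneg_of_le (fun k => by have := nk_nonneg k; positivity) hb hs
  have hb2 : ∀ k : Z12, (h * nk k) ^ s * ‖cf v k‖ ≤ (1 + h * nk k) ^ s * ‖cf v k‖ := by
    intro k
    have h0 := nk_nonneg k
    have h3 : 0 ≤ h * nk k := mul_nonneg hh h0
    gcongr
    linarith
  have hs2 : Summable fun k : Z12 => (h * nk k) ^ s * ‖cf v k‖ :=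
    Summable.of_nonneg_of_le (fun k => by have := nk_nonneg k; positivity) hb2 hs1
  exact hs2.tsum_le_tsum hb2 hs1

lemma hi_sub_le (hN : TN) (s : ℕ) {h : ℝ} (hh : 0 ≤ h) {v w : R12 → ℂ}
    (hv : IsSmoothPeriodic v) (hw : IsSmoothPeriodic w) :
    hi s h (fun x => v x - w x) ≤ hi s h v + hi s h w := by
  have e : (fun x => v x - w x) = fun x => v x + (-1) * w x := by funext x; ring
  have h2 := hN.hi_add v (fun x => (-1) * w x) hv (isp_smul hw _) s h hh
  rw [e]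
  refine h2.trans ?_
  rw [hN.hi_smul]
  simp

lemma hi_zero (s : ℕ) (h : ℝ) : hi s h (fun _ => (0 : ℂ)) = 0 := by
  unfold hi cf
  simp

lemma hi_sum_le (hN : TN) (s : ℕ) {h : ℝ} (hh : 0 ≤ h) {ι : Type*} (t : Finset ι) (c : ι → ℂ)
    {v : ι → R12 → ℂ} (hv : ∀ i, IsSmoothPeriodic (v i)) :
    hi s h (fun x => ∑ i ∈ t, c i * v i x) ≤ ∑ i ∈ t, ‖c i‖ * hi s h (v i) := by
  classical
  induction t using Finset.induction_on with
  | empty => simp [hi_zero]
  | insert i t hi' ih =>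
    simp only [Finset.sum_insert hi']
    have h3 := hN.hi_add (fun x => c i * v i x) (fun x => ∑ i ∈ t, c i * v i x)
      (isp_smul (hv i) _) (isp_sum t fun i => isp_smul (hv i) _) s h hh
    rw [hN.hi_smul] at h3
    linarith

/-! ### OneStep -/

lemma elem_facts {q τ p δ : ℝ} (hqq : q * q = τ) (hq1 : q ≤ 1) (hp0 : 0 < p)
    (hp1 : p ≤ 1) (hτp : τ ≤ p) (hδ1 : δ ≤ 1) (hτ0 : 0 < τ) (hτ1 : τ ≤ 1) :
    τ ≤ δ ^ 2 + p ∧ δ * δ ≤ δ ^ 2 + p ∧ q * δ ≤ δ ^ 2 + p ∧ q * τ ≤ δ ^ 2 + p ∧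
      p * δ ≤ δ ^ 2 + p ∧ p * τ ≤ δ ^ 2 + p ∧ δ * τ ≤ δ ^ 2 + p ∧ τ * τ ≤ δ ^ 2 + p := by
  have h1 := sq_nonneg δ
  have h2 := sq_nonneg (q - δ)
  have h3 := sq_nonneg (p - δ)
  have h4 : p * p ≤ 1 * p := mul_le_mul_of_nonneg_right hp1 hp0.le
  refine ⟨by linarith, by nlinarith, by nlinarith, ?_, by nlinarith, ?_, ?_, ?_⟩
  · have : q * τ ≤ 1 * τ := mul_le_mul_of_nonneg_right hq1 hτ0.le
    linarith
  · have : p * τ ≤ 1 * τ := mul_le_mul_of_nonneg_right hp1 hτ0.le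
    linarith
  · have : δ * τ ≤ 1 * τ := mul_le_mul_of_nonneg_right hδ1 hτ0.le
    linarith
  · have : τ * τ ≤ 1 * τ := mul_le_mul_of_nonneg_right hτ1 hτ0.le
    linarith

set_option maxHeartbeats 1600000 in
theorem oneStep {n : ℕ} (P : Profile n) (N : ℕ) (h1 : TF1) (h2 : TF2) (hN : TN) (hP1 : TP1 P)
    (hG : GrowStep P N) (hNear : NearStep P N) : ∃ s, N + 1 ≤ s ∧ OneStep P N s := by
  have hn2 : 2 ≤ n := P.two_le
  have hn0 : (0 : ℝ) < n := by have : 0 < n := by omega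
                               exact_mod_cast this
  obtain ⟨s, hs21, hG⟩ := hG
  obtain ⟨S, hS4, hS1, CN, hCN, hNear⟩ := hNear s hs21 (1 / 32) (by norm_num) 4
  obtain ⟨CG, rG, τG, hCG, hrG, hτG, hτG1, hG⟩ := hG S hS1
  obtain ⟨CT, hCT0, hCT⟩ := hP1.2 s
  set C' : ℝ := CG + 14 * CT * CN * CG with hC'
  have hC'1 : 1 ≤ C' := by
    have : 0 ≤ 14 * CT * CN * CG := by positivity
    rw [hC']; linarith
  set μ : ℝ := 1 / (16 * C') with hμ
  have hμ0 : 0 < μ := by positivity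
  have hμ1 : μ ≤ 1 := by
    rw [hμ, div_le_one (by positivity)]; linarith
  have hμC : μ * C' = 1 / 16 := by rw [hμ]; field_simp
  set K : ℝ := 4 * CG ^ 2 + 6 * CG + 1 / μ + 1 with hK
  have hμi : 1 ≤ 1 / μ := by rw [le_div_iff₀ hμ0]; linarith
  have hK1 : 1 ≤ K := by
    have : 0 ≤ 4 * CG ^ 2 + 6 * CG + 1 / μ := by positivity
    rw [hK]; linarith
  have hK2' : 2 * CG + 1 / μ + 1 ≤ K := by
    have h3 : 0 ≤ 4 * CG ^ 2 := by positivity
    have h4 : 0 ≤ 4 * CG := by linarith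
    rw [hK]; linarith
  set C : ℝ := 1 + 3 * CG + 14 * CT * CN * (2 * K) + 2 * CN * K with hC
  have hCN : 0 < CN := by linarith
  have hCG0 : 0 < CG := by linarith
  have hC1 : 1 ≤ C := by
    have : 0 ≤ 3 * CG + 14 * CT * CN * (2 * K) + 2 * CN * K := by positivity
    rw [hC]; linarith
  refine ⟨s, hs21, μ, S, C, 1 / (n : ℝ), min rG (1 / (2 * CG)), min τG (1 / (2 * CG)), hμ0, hμ1, hS1,
    hC1, by positivity, by positivity, by positivity, (min_le_left _ _).trans hτG1, ?_⟩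
  intro a t₀ hτ₀ hτ₀1 u₀ hu₀ δ hδr hδ
  set τ₀ : ℝ := a.T - t₀ with hτdef
  have hτG' : τ₀ ≤ τG := hτ₀1.trans (min_le_left _ _)
  have hτCG : τ₀ ≤ 1 / (2 * CG) := hτ₀1.trans (min_le_right _ _)
  have hτ1 : τ₀ ≤ 1 := hτG'.trans hτG1
  -- the initial perturbation
  set A₀ : ℂ := P.amp a t₀ with hA₀
  have hA₀ne : A₀ ≠ 0 := amp_ne_zero P a t₀ hτ₀
  set W₀ : R12 → ℂ := fun y => A₀⁻¹ * u₀ (y + a.x) - P.qt τ₀ y with hW₀
  have hqt : IsSmoothPeriodic (P.qt τ₀) := (hP1.1 τ₀ hτ₀).1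
  have hW₀s : IsSmoothPeriodic W₀ := isp_sub (isp_smul (isp_trans hu₀ _) _) hqt
  have hW₀n : nn N s μ (Real.sqrt τ₀) W₀ ≤ δ := by
    refine le_of_eq_of_le ?_ hδ
    rw [← nrm_gauge h1 h2 P hW₀s a hτ₀]
    congr 1
    funext x
    simp only [hW₀, Profile.prof, ← hA₀, ← hτdef, sub_add_cancel]
    field_simp
  have hsq0 : 0 ≤ Real.sqrt τ₀ := Real.sqrt_nonneg _
  set l0 : ℝ := wn N (Real.sqrt τ₀) W₀ with hl0
  set h0 : ℝ := hi s (Real.sqrt τ₀) W₀ with hh0
  have hl0n : 0 ≤ l0 := wn_nonneg _ hsq0 _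
  have hh0n : 0 ≤ h0 := hi_nonneg _ hsq0 _
  have hlh : l0 + μ * h0 ≤ δ := hW₀n
  have hμh0 : 0 ≤ μ * h0 := mul_nonneg hμ0.le hh0n
  have hl0δ : l0 ≤ δ := by linarith
  have hδ0 : 0 ≤ δ := hl0n.trans hl0δ
  have hδrG : δ ≤ rG := hδr.trans (min_le_left _ _)
  have hδCG : δ ≤ 1 / (2 * CG) := hδr.trans (min_le_right _ _)
  have hδ1 : δ ≤ 1 := by
    refine hδCG.trans ?_
    rw [div_le_one (by positivity)]; linarith
  obtain ⟨U, hU, hU0, hlo, hhi⟩ := hG τ₀ hτ₀ hτG' W₀ hW₀s (hl0δ.trans hδrG)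
  set L : ℝ := CG * (l0 + τ₀) with hL
  set H : ℝ := h0 + CG * (l0 + τ₀) with hH
  have hL1 : L ≤ 1 := by
    have : l0 + τ₀ ≤ 1 / CG := by
      have e : 1 / CG = 1 / (2 * CG) + 1 / (2 * CG) := by field_simp; norm_num
      rw [e]; linarith
    calc L ≤ CG * (1 / CG) := by rw [hL]; gcongr
      _ = 1 := by field_simp
  have hL0 : 0 ≤ L := by positivity
  have hH0 : 0 ≤ H := by positivity
  have hpert0 : P.pert τ₀ U 0 = W₀ := by
    funext x
    simp only [Profile.pert, neg_zero, Real.exp_zero, mul_one]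
    rw [hU0 x]; ring
  obtain ⟨b, hb, hlow⟩ := hNear τ₀ hτ₀ hτ1 U hU L H hH0 hL1 (fun σ hσ => (hlo σ hσ).2)
    (fun σ hσ => by
      refine (hhi σ hσ).trans ?_
      have : Real.exp (-σ) ≤ 1 := by rw [Real.exp_le_one_iff]; linarith [hσ.1]
      rw [hH]
      have := mul_le_mul_of_nonneg_right this hh0n
      linarith)
  rw [hpert0, ← hl0] at hlow
  -- elementary facts
  set q : ℝ := Real.sqrt τ₀ with hq
  have hqq : q * q = τ₀ := Real.mul_self_sqrt hτ₀.le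
  have hq1 : q ≤ 1 := by rw [hq]; exact Real.sqrt_le_one.2 hτ1
  set p : ℝ := τ₀ ^ (1 / (n : ℝ)) with hp
  have hp0 : 0 < p := Real.rpow_pos_of_pos hτ₀ _
  have hp1 : p ≤ 1 := Real.rpow_le_one hτ₀.le hτ1 (by positivity)
  have hτp : τ₀ ≤ p := by
    have : τ₀ ^ (1 : ℝ) ≤ τ₀ ^ (1 / (n : ℝ)) := by
      apply Real.rpow_le_rpow_of_exponent_ge hτ₀ hτ1
      rw [div_le_one hn0]
      exact_mod_cast (by omega : 1 ≤ n)
    rwa [Real.rpow_one] at this
  set E : ℝ := δ ^ 2 + p with hE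
  have hE0 : 0 ≤ E := by positivity
  obtain ⟨e_τ, e_δδ, e_qδ, e_qτ, e_pδ, e_pτ, e_δτ, e_ττ⟩ :=
    elem_facts hqq hq1 hp0 hp1 hτp hδ1 hτ₀ hτ1
  rw [← hE] at e_τ e_δδ e_qδ e_qτ e_pδ e_pτ e_δτ e_ττ
  have hh0δ : h0 ≤ (1 / μ) * δ := by
    have : μ * h0 ≤ δ := by linarith
    rw [one_div, ← div_eq_inv_mul, le_div_iff₀ hμ0]; linarith
  have e_qh : q * h0 ≤ (1 / μ) * E := by
    calc q * h0 ≤ q * ((1 / μ) * δ) := mul_le_mul_of_nonneg_left hh0δ hsq0
      _ = (1 / μ) * (q * δ) := by ring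
      _ ≤ (1 / μ) * E := mul_le_mul_of_nonneg_left e_qδ (by positivity)
  have e_LL : L ^ 2 ≤ 4 * CG ^ 2 * E := by
    have h3 : L ≤ CG * (δ + τ₀) := by rw [hL]; gcongr
    calc L ^ 2 ≤ (CG * (δ + τ₀)) ^ 2 := by gcongr
      _ = CG ^ 2 * (δ * δ + 2 * (δ * τ₀) + τ₀ * τ₀) := by ring
      _ ≤ CG ^ 2 * (4 * E) := by gcongr; linarith
      _ = 4 * CG ^ 2 * E := by ring
  have e_qL : q * L ≤ 2 * CG * E := by
    have h3 : L ≤ CG * (δ + τ₀) := by rw [hL]; gcongr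
    calc q * L ≤ q * (CG * (δ + τ₀)) := by gcongr
      _ = CG * (q * δ + q * τ₀) := by ring
      _ ≤ CG * (E + E) := by gcongr
      _ = 2 * CG * E := by ring
  have e_qH : q * H ≤ (2 * CG + 1 / μ) * E := by
    have e : q * H = q * h0 + q * L := by rw [hH, hL]; ring
    rw [e]
    have : (2 * CG + 1 / μ) * E = 2 * CG * E + 1 / μ * E := by ring
    linarith
  have e_pL : p * L ≤ 2 * CG * E := by
    have h3 : L ≤ CG * (δ + τ₀) := by rw [hL]; gcongr
    calc p * L ≤ p * (CG * (δ + τ₀)) := by gcongr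
      _ = CG * (p * δ + p * τ₀) := by ring
      _ ≤ CG * (E + E) := by gcongr
      _ = 2 * CG * E := by ring
  -- the low norm at the end
  have hlow' : wn N (Profile.hs τ₀ S)
      (fun x => P.pert τ₀ U S x - ∑ m, (b m : ℂ) * P.mt m (τ₀ * Real.exp (-S)) x)
      ≤ (1 / 32) * l0 + CN * (K * E) := by
    refine hlow.trans ?_
    have : L ^ 2 + q * (L + H) + τ₀ + p * L ≤ K * E := by
      have e : K * E = 4 * CG ^ 2 * E + 2 * CG * E + (2 * CG + 1 / μ) * E + E + 2 * CG * E := by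
        rw [hK]; ring
      rw [e, mul_add]
      linarith
    have := mul_le_mul_of_nonneg_left this hCN.le
    linarith
  -- smoothness and size of the modes
  have hτS : 0 < τ₀ * Real.exp (-S) := by positivity
  have hexpS : Real.exp (-S) ≤ 1 / 32 := by
    have h4 : Real.exp (-S) ≤ Real.exp (-4) := Real.exp_le_exp.2 (by linarith)
    have h5 : Real.exp (-4) ≤ 1 / 32 := by
      rw [Real.exp_neg, inv_eq_one_div]
      apply one_div_le_one_div_of_le (by norm_num)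
      have h6 : (2.7 : ℝ) ≤ Real.exp 1 := by linarith [Real.exp_one_gt_d9]
      have h7 : Real.exp 4 = Real.exp 1 ^ 4 := by rw [← Real.exp_nat_mul]; norm_num
      rw [h7]
      calc (32 : ℝ) ≤ 2.7 ^ 4 := by norm_num
        _ ≤ Real.exp 1 ^ 4 := by gcongr
    exact h4.trans h5
  have hτS1 : τ₀ * Real.exp (-S) ≤ 1 := by
    have : Real.exp (-S) ≤ 1 := by linarith
    calc τ₀ * Real.exp (-S) ≤ 1 * 1 := by gcongr
      _ = 1 := one_mul 1
  have hmts : ∀ m, IsSmoothPeriodic (P.mt m (τ₀ * Real.exp (-S))) := (hP1.1 _ hτS).2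
  have hhsS0 : 0 ≤ Profile.hs τ₀ S := Real.sqrt_nonneg _
  have hhsS1 : Profile.hs τ₀ S ≤ 1 := by unfold Profile.hs; exact Real.sqrt_le_one.2 hτS1
  have hmth : ∀ m, hi s (Profile.hs τ₀ S) (P.mt m (τ₀ * Real.exp (-S))) ≤ CT := fun m =>
    (hi_le_wn h1 s hhsS0 hhsS1 (hmts m)).trans ((hCT _ hτS hτS1).2 m)
  have hSS : S ∈ Icc 0 S := ⟨by linarith, le_rfl⟩
  have hqts : ∀ σ : ℝ, IsSmoothPeriodic (P.qt (τ₀ * Real.exp (-σ))) := fun σ =>
    (hP1.1 _ (by positivity)).1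
  have hperts : ∀ σ ∈ Icc 0 S, IsSmoothPeriodic (P.pert τ₀ U σ) := fun σ hσ =>
    isp_sub (hU.smooth σ hσ) (hqts σ)
  have hsums : IsSmoothPeriodic (fun x => ∑ m, (b m : ℂ) * P.mt m (τ₀ * Real.exp (-S)) x) :=
    isp_sum _ fun m => isp_smul (hmts m) _
  set β : ℝ := CN * (L + q * H + τ₀) with hβ
  have hβ0 : 0 ≤ β := by positivity
  have hhigh : hi s (Profile.hs τ₀ S)
      (fun x => P.pert τ₀ U S x - ∑ m, (b m : ℂ) * P.mt m (τ₀ * Real.exp (-S)) x)
      ≤ (1 / 32) * h0 + CG * (l0 + τ₀) + 14 * CT * β := by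
    refine (hi_sub_le hN s hhsS0 (hperts S hSS) hsums).trans ?_
    have h3 := hi_sum_le hN s hhsS0 Finset.univ (fun m => (b m : ℂ)) hmts
    have h4 : ∑ m : MIx, ‖(b m : ℂ)‖ * hi s (Profile.hs τ₀ S) (P.mt m (τ₀ * Real.exp (-S))) ≤ 14 * CT * β := by
      calc ∑ m : MIx, ‖(b m : ℂ)‖ * hi s (Profile.hs τ₀ S) (P.mt m (τ₀ * Real.exp (-S)))
          ≤ ∑ m : MIx, β * CT := by
            apply Finset.sum_le_sum
            intro m _
            apply mul_le_mul _ (hmth m) (hi_nonneg _ hhsS0 _) hβ0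
            rw [Complex.norm_real, Real.norm_eq_abs]
            exact hb m
        _ = 14 * CT * β := by
            rw [Finset.sum_const, Finset.card_univ, show Fintype.card MIx = 14 from by
              simp [MIx, Fintype.card_option]]
            simp only [nsmul_eq_mul]
            push_cast
            ring
    have h5 := hhi S hSS
    have h6 : Real.exp (-S) * h0 ≤ (1 / 32) * h0 := mul_le_mul_of_nonneg_right hexpS hh0n
    linarith
  have hbβ : ∀ m, |b m| ≤ C * (δ + p) := by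
    intro m
    refine (hb m).trans ?_
    have h3 : L + q * H + τ₀ ≤ K * (δ + p) := by
      have hX : 0 ≤ δ + p := by positivity
      have i1 : L ≤ CG * (δ + p) := by rw [hL]; gcongr
      have i2 : q * H ≤ H := by
        calc q * H ≤ 1 * H := by gcongr
          _ = H := one_mul H
      have i3 : H ≤ (1 / μ) * (δ + p) + CG * (δ + p) := by
        rw [hH]
        have i4 : (1 / μ) * δ ≤ (1 / μ) * (δ + p) := by gcongr; linarith
        have i5 : CG * (l0 + τ₀) ≤ CG * (δ + p) := by gcongr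
        linarith
      have i6 : τ₀ ≤ δ + p := by linarith
      have i7 : (2 * CG + 1 / μ + 1) * (δ + p) ≤ K * (δ + p) := by
        apply mul_le_mul_of_nonneg_right _ hX
        exact hK2'
      have i8 : (2 * CG + 1 / μ + 1) * (δ + p)
          = CG * (δ + p) + ((1 / μ) * (δ + p) + CG * (δ + p)) + (δ + p) := by ring
      linarith
    calc CN * (L + q * H + τ₀) ≤ CN * (K * (δ + p)) := by gcongr
      _ = (CN * K) * (δ + p) := by ring
      _ ≤ C * (δ + p) := by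
        apply mul_le_mul_of_nonneg_right _ (by positivity)
        have i1 : 0 ≤ CN * K := by positivity
        have i2 : 0 ≤ 14 * CT * CN * (2 * K) := by positivity
        rw [hC]
        linarith
  -- combine
  have hcomb : nn N s μ (Profile.hs τ₀ S)
      (fun x => P.pert τ₀ U S x - ∑ m, (b m : ℂ) * P.mt m (τ₀ * Real.exp (-S)) x)
      ≤ (1 / 8) * δ + C * E := by
    unfold nn
    have i1 := mul_le_mul_of_nonneg_left hhigh hμ0.le
    -- expand β
    have i2 : μ * ((1 / 32) * h0 + CG * (l0 + τ₀) + 14 * CT * β)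
        = (1 / 32) * (μ * h0) + μ * C' * (l0 + τ₀) + 14 * CT * CN * (μ * (q * H) + μ * τ₀) := by
      rw [hβ, hC', hL]; ring
    have i3 : μ * (q * H) ≤ K * E := by
      calc μ * (q * H) ≤ 1 * (q * H) := by gcongr
        _ = q * H := one_mul _
        _ ≤ (2 * CG + 1 / μ) * E := e_qH
        _ ≤ K * E := by
          apply mul_le_mul_of_nonneg_right _ hE0
          linarith [hK2']
    have i4 : μ * τ₀ ≤ K * E := by
      calc μ * τ₀ ≤ 1 * E := by gcongr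
        _ ≤ K * E := by gcongr
    have i5 : 14 * CT * CN * (μ * (q * H) + μ * τ₀) ≤ 14 * CT * CN * (2 * K) * E := by
      have : μ * (q * H) + μ * τ₀ ≤ 2 * K * E := by linarith
      calc 14 * CT * CN * (μ * (q * H) + μ * τ₀) ≤ 14 * CT * CN * (2 * K * E) := by gcongr
        _ = 14 * CT * CN * (2 * K) * E := by ring
    have i6 : CN * (K * E) ≤ 2 * CN * K * E := by
      have i66 : 0 ≤ CN * (K * E) := by positivity
      have i67 : 2 * CN * K * E = CN * (K * E) + CN * (K * E) := by ring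
      linarith
    have i7 : C * E = E + 3 * CG * E + 14 * CT * CN * (2 * K) * E + 2 * CN * K * E := by
      rw [hC]; ring
    have i8 : 0 ≤ 3 * CG * E := by positivity
    rw [i2, hμC] at i1
    rw [i7]
    have i9 : (1 / 16 : ℝ) * (l0 + τ₀) ≤ (1 / 16) * δ + E := by linarith
    linarith
  -- the solution
  have ht1 : a.T - Real.exp (-S) * (a.T - t₀) = a.T - Real.exp (-S) * τ₀ := rfl
  refine ⟨a.T - Real.exp (-S) * (a.T - t₀),
    fun t x => P.amp a t * U (sg a.T τ₀ t) (x - a.x), rfl,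
    isSol_of_resSol P h1 h2 hτ₀ hU a hτdef.symm ht1, ?_, ?_, b, hbβ, ?_⟩
  · funext x
    have : sg a.T τ₀ t₀ = 0 := by
      unfold sg; rw [← hτdef, div_self hτ₀.ne', Real.log_one]
    show P.amp a t₀ * U (sg a.T τ₀ t₀) (x - a.x) = u₀ x
    rw [this, hU0, ← hA₀]
    simp only [hW₀, sub_add_cancel]
    field_simp
    ring
  · intro t ht
    obtain ⟨hT, hσ⟩ := sg_mem hτ₀ hτdef.symm ht1 ht
    have e : (fun x => P.amp a t * U (sg a.T τ₀ t) (x - a.x) - P.prof a t x)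
        = fun x => P.amp a t * P.pert τ₀ U (sg a.T τ₀ t) (x - a.x) := by
      funext x
      simp only [Profile.prof, Profile.pert, exp_neg_sg hτ₀ hT]
      ring
    show nrm n N s μ (a.T - t) (fun x => P.amp a t * U (sg a.T τ₀ t) (x - a.x) - P.prof a t x) ≤ _
    rw [e, nrm_gauge h1 h2 P (hperts _ hσ) a hT]
    have ehs : Real.sqrt (a.T - t) = Profile.hs τ₀ (sg a.T τ₀ t) := by
      unfold Profile.hs; rw [exp_neg_sg hτ₀ hT]
    rw [ehs]
    unfold nn
    have j1 := (hlo _ hσ).2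
    have j2 := hhi _ hσ
    have j3 : Real.exp (-(sg a.T τ₀ t)) ≤ 1 := by
      rw [Real.exp_le_one_iff]; linarith [hσ.1]
    have j4 : Real.exp (-(sg a.T τ₀ t)) * h0 ≤ 1 * h0 := mul_le_mul_of_nonneg_right j3 hh0n
    have j5 : μ * hi s (Profile.hs τ₀ (sg a.T τ₀ t)) (P.pert τ₀ U (sg a.T τ₀ t))
        ≤ μ * (h0 + CG * (l0 + τ₀)) := mul_le_mul_of_nonneg_left (by linarith) hμ0.le
    have j6 : μ * (CG * (l0 + τ₀)) ≤ 1 * (CG * (l0 + τ₀)) :=
      mul_le_mul_of_nonneg_right hμ1 (by positivity)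
    have j7 : CG * (l0 + τ₀) ≤ CG * (δ + p) := by gcongr
    have j8 : C * (δ + p) = (δ + p) + 3 * (CG * (δ + p))
        + 14 * CT * CN * (2 * K) * (δ + p) + 2 * CN * K * (δ + p) := by
      rw [hC]; ring
    have j9 : 0 ≤ 14 * CT * CN * (2 * K) * (δ + p) + 2 * CN * K * (δ + p) := by positivity
    have j10 : 0 ≤ CG * (δ + p) := by positivity
    rw [j8]
    have j11 : μ * (h0 + CG * (l0 + τ₀)) = μ * h0 + μ * (CG * (l0 + τ₀)) := by ring
    linarith
  · set t₁ : ℝ := a.T - Real.exp (-S) * (a.T - t₀) with ht₁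
    have hTt : a.T - t₁ = τ₀ * Real.exp (-S) := by rw [ht₁, ← hτdef]; ring
    have hT : 0 < a.T - t₁ := by rw [hTt]; positivity
    have hsg : sg a.T τ₀ t₁ = S := by
      unfold sg
      rw [hTt, div_mul_eq_div_div, div_self hτ₀.ne', one_div, ← Real.exp_neg, neg_neg, Real.log_exp]
    have e : (fun x => P.amp a t₁ * U (sg a.T τ₀ t₁) (x - a.x) - P.prof a t₁ x
          - ∑ m, (b m : ℂ) * P.pmode a m t₁ x)
        = fun x => P.amp a t₁ * (fun y => P.pert τ₀ U S y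
            - ∑ m, (b m : ℂ) * P.mt m (τ₀ * Real.exp (-S)) y) (x - a.x) := by
      funext x
      simp only [Profile.prof, Profile.pert, Profile.pmode, hTt, hsg]
      rw [mul_sub, mul_sub, Finset.mul_sum]
      congr 1
      refine Finset.sum_congr rfl fun m _ => by ring
    show nrm n N s μ (a.T - t₁) (fun x => P.amp a t₁ * U (sg a.T τ₀ t₁) (x - a.x) - P.prof a t₁ x
          - ∑ m, (b m : ℂ) * P.pmode a m t₁ x) ≤ _
    rw [e, nrm_gauge h1 h2 P (isp_sub (hperts S hSS) hsums) a hT]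
    have ehs : Real.sqrt (a.T - t₁) = Profile.hs τ₀ S := by unfold Profile.hs; rw [hTt]
    rw [ehs]
    exact hcomb

end Crest.Agent.R086.TS
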