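import Crest.Agent.R086.TorTop
import Crest.Agent.R086.TC2
import Crest.Agent.R086.TC5
import Crest.Agent.R086.TCC
import Crest.Agent.R086.TCGlue
import Crest.Agent.R086.TF
import Crest.Agent.R086.TPOne
import Crest.Agent.R086.TP2c
import Crest.Agent.R086.TP3
import Crest.Agent.R086.TSOne
import Crest.Agent.R086.Final
import Crest.Agent.R086.Modul
import Crest.Agent.R086.GrowH
import Crest.Agent.R086.NSFin
import Crest.Agent.R086.TK5

/-! Row 86, PART D: `NonlinearThm`, unconditional (helper277). -/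

set_option autoImplicit false

namespace Crest.Agent.R086

theorem growStep {n : ℕ} (P : Profile n) (N : ℕ) : GrowStep P N :=
  Grow.growStep P N tn tf1 tf2 (TCG.tc3_of' (TC.tc1 tf1 tf2)) (tp1 P) (TP.tp2 P)

theorem exists_nearStep {n : ℕ} (P : Profile n) (hP : P.SpecGood N0) : ∃ N, NearStep P N := by
  obtain ⟨N1, h⟩ := TK.nearLin P hP
  exact ⟨N1, NSF.nearStep P (TP.tp2 P) (h N1 le_rfl)⟩

/-- PART D of row 86. -/
theorem nonlinearThm : NonlinearThm :=
  nonlinear_of (fun _ P hP => exists_nearStep P hP) (fun _ P N => growStep P N)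
    (fun _ P N hG hN => TS.oneStep P N tf1 tf2 tn (tp1 P) hG hN)
    (fun _ P N s => modul P N s)
    (fun _ P N s hs hO hM => TI.final P N s hs tn tf1 tf3 TCG.tc4 tc5 (tp1 P) hO hM)

end Crest.Agent.R086
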