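import Crest.Agent.R086.PartC
import Crest.Agent.R086.TopC
import Crest.Agent.R086.TorFinal
import Crest.Agent.R086.PartBFin
import Crest.Agent.R086.PartA
import Crest.Agent.R086.BLimit

/-! Row 86: FINAL ASSEMBLY: Part A, Part B, Part C, Part D give S0114. -/

set_option autoImplicit false

open MeasureTheory Complex Set Filter Topology
open scoped ContDiff

namespace Crest.Agent.R086

theorem main (p₀ : ℕ) : ∃ p : ℕ, p₀ ≤ p ∧ Odd p ∧ 3 ≤ p ∧ BlowupConcl p := by
  obtain ⟨D⟩ := A.partA
  obtain ⟨B⟩ := B.partB D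
  exact S0114_of B (partC D _ (BLim.limitProfile D) B) nonlinearThm p₀

end Crest.Agent.R086
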