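import Crest.Agent.R086.TorDefs

/-!
Row 86 (S0114), Part D-torus, node Modul (helper544), part 1:
the coefficient integrals `G ψ f σ k`, their `σ`-derivative and integration by parts.
-/

set_option autoImplicit false

open MeasureTheory Complex Set Filter
open scoped ContDiff Topology

namespace Crest.Agent.R086.MOD

noncomputable section

/-- smooth cut-offs supported in the ball of radius 2 -/
def Good (ψ : R12 → ℂ) : Prop := ContDiff ℝ ∞ ψ ∧ ∀ x : R12, 2 ≤ ‖x‖ → ψ x = 0

/-- `e^{-ik·x}` -/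
def ek (k : Z12) (x : R12) : ℂ := exp (-(I * ((inner ℝ (zv k) x : ℝ) : ℂ)))

/-- coefficient integral `(2π)^{-12} ∫ ψ(x) f(x/σ) e^{-ik·x} dx` -/
def G (ψ f : R12 → ℂ) (σ : ℝ) (k : Z12) : ℂ :=
  ((((2 * Real.pi) ^ 12 : ℝ)) : ℂ)⁻¹ * ∫ x : R12, ψ x * f (σ⁻¹ • x) * ek k x

theorem norm_ek (k : Z12) (x : R12) : ‖ek k x‖ = 1 := by
  unfold ek
  rw [Complex.norm_exp]
  simp

theorem contDiff_ek (k : Z12) : ContDiff ℝ ∞ (ek k) := by
  unfold ek
  apply ContDiff.cexp
  apply ContDiff.neg
  apply contDiff_const.mul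
  exact Complex.ofRealCLM.contDiff.comp (contDiff_const.inner ℝ contDiff_id)

theorem Good.hasCompactSupport {ψ : R12 → ℂ} (h : Good ψ) : HasCompactSupport ψ := by
  apply HasCompactSupport.intro (isCompact_closedBall (0 : R12) 2)
  intro x hx
  apply h.2
  simp only [Metric.mem_closedBall, dist_zero_right, not_le] at hx
  exact hx.le

theorem integrable_G {ψ f : R12 → ℂ} (h : Good ψ) (hf : Continuous f) (σ : ℝ) (k : Z12) :
    Integrable (fun x : R12 => ψ x * f (σ⁻¹ • x) * ek k x) := by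
  apply Continuous.integrable_of_hasCompactSupport
  · exact (h.1.continuous.mul (hf.comp (continuous_const_smul _))).mul (contDiff_ek k).continuous
  · exact (h.hasCompactSupport.mul_right (f' := fun x => f (σ⁻¹ • x))).mul_right

theorem continuous_eul {f : R12 → ℂ} (hf : ContDiff ℝ 1 f) : Continuous (eul f) := by
  unfold eul
  exact (hf.continuous_fderiv (by norm_num)).clm_apply continuous_id

/-- `d/dσ G ψ f σ = -σ⁻¹ G ψ (eul f) σ` -/
theorem hasDerivAt_G {ψ f : R12 → ℂ} (h : Good ψ) (hf : ContDiff ℝ 1 f) {σ : ℝ} (hσ : 0 < σ)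
    (k : Z12) : HasDerivAt (fun s => G ψ f s k) (-(σ : ℂ)⁻¹ * G ψ (eul f) σ k) σ := by
  have heul := continuous_eul hf
  have hcomp : IsCompact (Icc (σ / 2) (2 * σ) ×ˢ Metric.closedBall (0 : R12) 2) :=
    isCompact_Icc.prod (isCompact_closedBall _ _)
  have hinv : ContinuousOn (fun q : ℝ × R12 => q.1⁻¹)
      (Icc (σ / 2) (2 * σ) ×ˢ Metric.closedBall (0 : R12) 2) := by
    apply ContinuousOn.inv₀ continuous_fst.continuousOn
    rintro ⟨s, x⟩ ⟨hs, -⟩
    have : 0 < s := lt_of_lt_of_le (by positivity) hs.1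
    exact this.ne'
  have hcont : ContinuousOn (fun q : ℝ × R12 =>
      ψ q.2 * (-((q.1⁻¹ : ℝ) : ℂ) * eul f (q.1⁻¹ • q.2)) * ek k q.2)
      (Icc (σ / 2) (2 * σ) ×ˢ Metric.closedBall (0 : R12) 2) := by
    apply ContinuousOn.mul
    · apply ContinuousOn.mul (h.1.continuous.comp continuous_snd).continuousOn
      apply ContinuousOn.mul
      · exact (Complex.continuous_ofReal.comp_continuousOn hinv).neg
      · exact heul.comp_continuousOn (hinv.smul continuous_snd.continuousOn)
    · exact ((contDiff_ek k).continuous.comp continuous_snd).continuousOn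
  obtain ⟨B, hB⟩ := hcomp.exists_bound_of_continuousOn hcont
  have hs : Ioo (σ / 2) (2 * σ) ∈ 𝓝 σ := Ioo_mem_nhds (by linarith) (by linarith)
  have hmain := hasDerivAt_integral_of_dominated_loc_of_deriv_le (μ := (volume : Measure R12))
    (F := fun (s : ℝ) (x : R12) => ψ x * f (s⁻¹ • x) * ek k x)
    (F' := fun (s : ℝ) (x : R12) => ψ x * (-((s⁻¹ : ℝ) : ℂ) * eul f (s⁻¹ • x)) * ek k x)
    (x₀ := σ) (s := Ioo (σ / 2) (2 * σ))
    (bound := (Metric.closedBall (0 : R12) 2).indicator (fun _ => B)) hs ?_ ?_ ?_ ?_ ?_ ?_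
  · have h2 := hmain.2.const_mul ((((2 * Real.pi) ^ 12 : ℝ)) : ℂ)⁻¹
    have e : -(σ : ℂ)⁻¹ * G ψ (eul f) σ k = ((((2 * Real.pi) ^ 12 : ℝ)) : ℂ)⁻¹ *
        ∫ x : R12, ψ x * (-((σ⁻¹ : ℝ) : ℂ) * eul f (σ⁻¹ • x)) * ek k x := by
      unfold G
      rw [mul_left_comm, ← integral_const_mul]
      congr 1
      apply integral_congr_ae
      filter_upwards with x
      push_cast
      ring
    rw [e]
    exact h2
  · filter_upwards with s
    exact (integrable_G h hf.continuous s k).aestronglyMeasurable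
  · exact integrable_G h hf.continuous σ k
  · apply Continuous.aestronglyMeasurable
    exact (h.1.continuous.mul (continuous_const.mul (heul.comp (continuous_const_smul _)))).mul
      (contDiff_ek k).continuous
  · filter_upwards with x
    intro s hs
    by_cases hx : x ∈ Metric.closedBall (0 : R12) 2
    · rw [Set.indicator_of_mem hx]
      exact hB (s, x) ⟨Ioo_subset_Icc_self hs, hx⟩
    · rw [Set.indicator_of_notMem hx]
      have : ψ x = 0 := by
        apply h.2
        simp only [Metric.mem_closedBall, dist_zero_right, not_le] at hx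
        exact hx.le
      rw [this]; simp
  · rw [integrable_indicator_iff Metric.isClosed_closedBall.measurableSet]
    exact integrableOn_const (by exact (measure_closedBall_lt_top).ne)
  · filter_upwards with x
    intro s hs
    have hs0 : 0 < s := lt_of_lt_of_le (by positivity) hs.1.le
    have h1 : HasDerivAt (fun s : ℝ => s⁻¹ • x) ((-(s ^ 2)⁻¹) • x) s :=
      (hasDerivAt_inv hs0.ne').smul_const x
    have h2 : HasFDerivAt f (fderiv ℝ f (s⁻¹ • x)) (s⁻¹ • x) :=
      (hf.differentiable (by norm_num)).differentiableAt.hasFDerivAt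
    have h3 := h2.comp_hasDerivAt s h1
    have h4 : fderiv ℝ f (s⁻¹ • x) ((-(s ^ 2)⁻¹) • x) = -((s⁻¹ : ℝ) : ℂ) * eul f (s⁻¹ • x) := by
      unfold eul
      have : (-(s ^ 2)⁻¹) • x = (-s⁻¹) • (s⁻¹ • x) := by
        rw [smul_smul]; congr 1; field_simp
      rw [this, map_smul, Complex.real_smul]
      push_cast
      ring
    rw [h4] at h3
    exact (h3.const_mul (ψ x)).mul_const (ek k x)

theorem Good.dderiv {ψ : R12 → ℂ} (h : Good ψ) (v : R12) : Good (fun x => fderiv ℝ ψ x v) := by
  refine ⟨?_, ?_⟩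
  · exact (h.1.fderiv_right (m := ∞) (by simp)).clm_apply contDiff_const
  · intro x hx
    -- the derivative vanishes on the closed set where `ψ = 0`... by continuity from outside
    have hcl : ∀ y : R12, 2 < ‖y‖ → fderiv ℝ ψ y = 0 := by
      intro y hy
      have hev : ψ =ᶠ[𝓝 y] fun _ => 0 := by
        filter_upwards [(isOpen_lt continuous_const continuous_norm).mem_nhds hy] with z hz
        exact h.2 z (le_of_lt hz)
      rw [hev.fderiv_eq]; simp
    have hcont : Continuous (fderiv ℝ ψ) := h.1.continuous_fderiv (by simp)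
    have hx0 : x ≠ 0 := by
      intro h0; rw [h0] at hx; simp at hx; linarith
    have hlim : Tendsto (fun t : ℝ => fderiv ℝ ψ (t • x)) (𝓝[>] 1) (𝓝 (fderiv ℝ ψ x)) := by
      have h1 : Continuous (fun t : ℝ => fderiv ℝ ψ (t • x)) :=
        hcont.comp (continuous_id.smul continuous_const)
      have h2 := h1.tendsto 1
      rw [one_smul] at h2
      exact h2.mono_left nhdsWithin_le_nhds
    have hzero : fderiv ℝ ψ x = 0 := by
      apply tendsto_nhds_unique hlim
      apply tendsto_const_nhds.congr'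
      filter_upwards [self_mem_nhdsWithin] with t ht
      symm
      apply hcl
      rw [norm_smul, Real.norm_of_nonneg (le_of_lt (lt_trans one_pos ht))]
      have ht' : (1 : ℝ) < t := ht
      have : 0 < ‖x‖ := norm_pos_iff.2 hx0
      nlinarith
    simp only [hzero]
    rfl

theorem hasFDerivAt_ek (k : Z12) (x : R12) :
    fderiv ℝ (ek k) x = (-(I * ek k x)) • (Complex.ofRealCLM.comp (innerSL ℝ (zv k))) := by
  have h1 : HasFDerivAt (fun x : R12 => -(I * ((inner ℝ (zv k) x : ℝ) : ℂ)))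
      (-(I • (Complex.ofRealCLM.comp (innerSL ℝ (zv k) : R12 →L[ℝ] ℝ)))) x := by
    apply HasFDerivAt.neg
    have := (Complex.ofRealCLM.comp (innerSL ℝ (zv k) : R12 →L[ℝ] ℝ)).hasFDerivAt (x := x)
    exact this.const_mul I
  have h2 := h1.cexp
  have h3 : fderiv ℝ (ek k) x = _ := h2.fderiv
  rw [h3]
  ext v
  simp [ek]
  ring

/-- integration by parts: `i k_v G ψ f = G (∂_v ψ) f + σ⁻¹ G ψ (∂_v f)` -/
theorem ibp {ψ f : R12 → ℂ} (h : Good ψ) (hf : ContDiff ℝ 1 f) {σ : ℝ} (hσ : 0 < σ)
    (k : Z12) (v : R12) :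
    I * ((inner ℝ (zv k) v : ℝ) : ℂ) * G ψ f σ k =
      G (fun x => fderiv ℝ ψ x v) f σ k + (σ : ℂ)⁻¹ * G ψ (fun y => fderiv ℝ f y v) σ k := by
  have hψ1 : ContDiff ℝ 1 ψ := h.1.of_le (by exact_mod_cast le_top)
  have hfs : ContDiff ℝ 1 (fun x : R12 => f (σ⁻¹ • x)) := hf.comp (contDiff_const_smul _)
  have hprod : ContDiff ℝ 1 (fun x : R12 => ψ x * f (σ⁻¹ • x)) := hψ1.mul hfs
  have hek : ContDiff ℝ 1 (ek k) := (contDiff_ek k).of_le (by exact_mod_cast le_top)
  have hcs : HasCompactSupport (fun x : R12 => ψ x * f (σ⁻¹ • x)) :=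
    h.hasCompactSupport.mul_right (f' := fun x => f (σ⁻¹ • x))
  have hdf : ∀ x : R12, fderiv ℝ (fun x : R12 => f (σ⁻¹ • x)) x v =
      (σ : ℂ)⁻¹ * fderiv ℝ f (σ⁻¹ • x) v := by
    intro x
    have h2 : HasFDerivAt f (fderiv ℝ f (σ⁻¹ • x)) (σ⁻¹ • x) :=
      (hf.differentiable (by norm_num)).differentiableAt.hasFDerivAt
    have h3 : HasFDerivAt (fun x : R12 => σ⁻¹ • x) (σ⁻¹ • ContinuousLinearMap.id ℝ R12) x :=
      (hasFDerivAt_id x).const_smul σ⁻¹
    have h4 := h2.comp x h3
    have h5 : fderiv ℝ (fun x : R12 => f (σ⁻¹ • x)) x = _ := h4.fderiv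
    rw [h5]
    simp
  have hdp : ∀ x : R12, fderiv ℝ (fun x : R12 => ψ x * f (σ⁻¹ • x)) x v =
      fderiv ℝ ψ x v * f (σ⁻¹ • x) + (σ : ℂ)⁻¹ * (ψ x * fderiv ℝ f (σ⁻¹ • x) v) := by
    intro x
    rw [fderiv_fun_mul (hψ1.differentiable (by norm_num)).differentiableAt
      (hfs.differentiable (by norm_num)).differentiableAt]
    simp only [add_apply, smul_apply, smul_eq_mul, hdf x]
    ring
  have key := integral_mul_fderiv_eq_neg_fderiv_mul_of_integrable (μ := (volume : Measure R12))
    (f := fun x : R12 => ψ x * f (σ⁻¹ • x)) (g := ek k) (v := v) ?_ ?_ ?_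
    (fun x _ => (hprod.differentiable (by norm_num)).differentiableAt)
    (fun x _ => (hek.differentiable (by norm_num)).differentiableAt)
  · have e1 : ∫ x, (ψ x * f (σ⁻¹ • x)) * fderiv ℝ (ek k) x v =
        -(I * ((inner ℝ (zv k) v : ℝ) : ℂ)) * ∫ x, ψ x * f (σ⁻¹ • x) * ek k x := by
      rw [← integral_const_mul]
      apply integral_congr_ae
      filter_upwards with x
      rw [hasFDerivAt_ek]
      simp
      ring
    have e2 : ∫ x, fderiv ℝ (fun x : R12 => ψ x * f (σ⁻¹ • x)) x v * ek k x =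
        (∫ x, fderiv ℝ ψ x v * f (σ⁻¹ • x) * ek k x) +
          (σ : ℂ)⁻¹ * ∫ x, ψ x * fderiv ℝ f (σ⁻¹ • x) v * ek k x := by
      rw [← integral_const_mul, ← integral_add]
      · apply integral_congr_ae
        filter_upwards with x
        rw [hdp x]
        ring
      · exact integrable_G (h.dderiv v) hf.continuous σ k
      · apply Integrable.const_mul
        exact integrable_G (f := fun y => fderiv ℝ f y v) h
          ((hf.continuous_fderiv (by norm_num)).clm_apply continuous_const) σ k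
    rw [e1, e2] at key
    unfold G
    have : I * ((inner ℝ (zv k) v : ℝ) : ℂ) * ∫ x, ψ x * f (σ⁻¹ • x) * ek k x =
        (∫ x, fderiv ℝ ψ x v * f (σ⁻¹ • x) * ek k x) +
          (σ : ℂ)⁻¹ * ∫ x, ψ x * fderiv ℝ f (σ⁻¹ • x) v * ek k x := by
      linear_combination -key
    linear_combination ((((2 * Real.pi) ^ 12 : ℝ)) : ℂ)⁻¹ * this
  · apply Continuous.integrable_of_hasCompactSupport
    · exact ((hprod.continuous_fderiv (by norm_num)).clm_apply continuous_const).mul
        (contDiff_ek k).continuous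
    · exact (hcs.fderiv_apply (𝕜 := ℝ) v).mul_right
  · apply Continuous.integrable_of_hasCompactSupport
    · exact hprod.continuous.mul ((hek.continuous_fderiv (by norm_num)).clm_apply continuous_const)
    · exact hcs.mul_right
  · apply Continuous.integrable_of_hasCompactSupport
    · exact hprod.continuous.mul (contDiff_ek k).continuous
    · exact hcs.mul_right

end

end Crest.Agent.R086.MOD
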