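import Crest.Agent.R086.Modul1

/-!
Row 86 (S0114), Part D-torus, node Modul (helper544), part 2:
second order Taylor expansion of the coefficient curve.
-/

set_option autoImplicit false

open MeasureTheory Complex Set Filter
open scoped ContDiff Topology

namespace Crest.Agent.R086.MOD

noncomputable section

/-- weighted second order Taylor estimate -/
theorem taylor2 {ι : Type*} (F : Finset ι) (w : ι → ℝ) (hw : ∀ k, 0 ≤ w k)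
    (c c1 c2 : ι → ℝ → ℂ) (M : ℝ)
    (h0 : ∀ k ∈ F, ∀ θ ∈ Icc (0 : ℝ) 1, HasDerivAt (c k) (c1 k θ) θ)
    (h1 : ∀ k ∈ F, ∀ θ ∈ Icc (0 : ℝ) 1, HasDerivAt (c1 k) (c2 k θ) θ)
    (hM : ∀ θ ∈ Icc (0 : ℝ) 1, ∑ k ∈ F, w k * ‖c2 k θ‖ ≤ M) :
    ∑ k ∈ F, w k * ‖c k 1 - c k 0 - c1 k 0‖ ≤ M := by
  set d : ι → ℂ := fun k => c k 1 - c k 0 - c1 k 0 with hd
  have hu : ∀ k, ∃ u : ℂ, ‖u‖ ≤ 1 ∧ u * d k = (‖d k‖ : ℂ) := by
    intro k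
    by_cases hk : d k = 0
    · exact ⟨0, by simp, by simp [hk]⟩
    · have hn : (‖d k‖ : ℂ) ≠ 0 := by exact_mod_cast norm_ne_zero_iff.2 hk
      refine ⟨starRingEnd ℂ (d k) / ‖d k‖, ?_, ?_⟩
      · rw [norm_div, RCLike.norm_conj, Complex.norm_real, norm_norm,
          div_self (norm_ne_zero_iff.2 hk)]
      · rw [div_mul_eq_mul_div, mul_comm, Complex.mul_conj, Complex.normSq_eq_norm_sq]
        push_cast
        field_simp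
  choose u hu1 hu2 using hu
  set φ : ℝ → ℂ := fun θ => ∑ k ∈ F, (w k : ℂ) * u k * c k θ with hφ
  set φ1 : ℝ → ℂ := fun θ => ∑ k ∈ F, (w k : ℂ) * u k * c1 k θ with hφ1
  have hM0 : 0 ≤ M := by
    refine le_trans ?_ (hM 0 ⟨le_rfl, zero_le_one⟩)
    exact Finset.sum_nonneg (fun k _ => mul_nonneg (hw k) (norm_nonneg _))
  have dφ : ∀ θ ∈ Icc (0 : ℝ) 1, HasDerivAt φ (φ1 θ) θ := by
    intro θ hθ
    exact HasDerivAt.fun_sum (fun k hk => (h0 k hk θ hθ).const_mul _)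
  have dφ1 : ∀ θ ∈ Icc (0 : ℝ) 1,
      HasDerivAt φ1 (∑ k ∈ F, (w k : ℂ) * u k * c2 k θ) θ := by
    intro θ hθ
    exact HasDerivAt.fun_sum (fun k hk => (h1 k hk θ hθ).const_mul _)
  have hb : ∀ θ ∈ Icc (0 : ℝ) 1, ‖∑ k ∈ F, (w k : ℂ) * u k * c2 k θ‖ ≤ M := by
    intro θ hθ
    refine (norm_sum_le _ _).trans (le_trans ?_ (hM θ hθ))
    apply Finset.sum_le_sum
    intro k _
    rw [norm_mul, norm_mul, Complex.norm_real, Real.norm_of_nonneg (hw k)]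
    have := hu1 k
    have h2 := norm_nonneg (c2 k θ)
    have h3 := hw k
    nlinarith [mul_nonneg h3 h2]
  have s1 : ∀ θ ∈ Icc (0 : ℝ) 1, ‖φ1 θ - φ1 0‖ ≤ M := by
    intro θ hθ
    have := (convex_Icc (0 : ℝ) 1).norm_image_sub_le_of_norm_hasDerivWithin_le
      (f := φ1) (f' := fun θ => ∑ k ∈ F, (w k : ℂ) * u k * c2 k θ) (C := M)
      (fun x hx => (dφ1 x hx).hasDerivWithinAt) hb ⟨le_rfl, zero_le_one⟩ hθ
    refine this.trans ?_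
    rw [sub_zero, Real.norm_of_nonneg hθ.1]
    nlinarith [hθ.2]
  have s2 : ‖(φ 1 - (1 : ℝ) • φ1 0) - (φ 0 - (0 : ℝ) • φ1 0)‖ ≤ M * ‖(1 : ℝ) - 0‖ := by
    apply (convex_Icc (0 : ℝ) 1).norm_image_sub_le_of_norm_hasDerivWithin_le
      (f := fun θ : ℝ => φ θ - θ • φ1 0) (f' := fun θ => φ1 θ - (1 : ℝ) • φ1 0) (C := M)
    · intro x hx
      apply HasDerivAt.hasDerivWithinAt
      exact (dφ x hx).fun_sub ((hasDerivAt_id x).smul_const (φ1 0))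
    · intro x hx
      rw [one_smul]
      exact s1 x hx
    · exact ⟨le_rfl, zero_le_one⟩
    · exact ⟨zero_le_one, le_rfl⟩
  have s3 : (φ 1 - (1 : ℝ) • φ1 0) - (φ 0 - (0 : ℝ) • φ1 0) =
      ((∑ k ∈ F, w k * ‖d k‖ : ℝ) : ℂ) := by
    rw [one_smul, zero_smul, sub_zero]
    simp only [hφ, hφ1]
    push_cast
    rw [← Finset.sum_sub_distrib, ← Finset.sum_sub_distrib]
    apply Finset.sum_congr rfl
    intro k _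
    rw [← hu2 k, hd]
    ring
  rw [s3, Complex.norm_real, sub_zero, norm_one, mul_one] at s2
  exact (le_abs_self _).trans s2

/-! ### the coefficient curve -/

/-- `1 - θ bT` -/
def lam (bT θ : ℝ) : ℝ := 1 - θ * bT

theorem lam_bounds {bT θ : ℝ} (hb : |bT| ≤ 1 / 4) (hθ : θ ∈ Icc (0 : ℝ) 1) :
    3 / 4 ≤ lam bT θ ∧ lam bT θ ≤ 5 / 4 := by
  have h := abs_le.1 hb
  unfold lam
  constructor <;> nlinarith [hθ.1, hθ.2]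

theorem hasDerivAt_lam (bT θ : ℝ) : HasDerivAt (lam bT) (-bT) θ := by
  unfold lam
  have := ((hasDerivAt_id θ).mul_const bT).const_sub 1
  simpa using this

/-- exponential factor -/
def EE (z : ℂ) (bT A θ : ℝ) : ℂ := exp (I * (θ : ℂ) * (A : ℂ) + z * ((Real.log (lam bT θ) : ℝ) : ℂ))

/-- logarithmic derivative of `EE` -/
def pp (z : ℂ) (bT A θ : ℝ) : ℂ := I * (A : ℂ) - z * (((bT * (lam bT θ)⁻¹ : ℝ)) : ℂ)

theorem hasDerivAt_EE (z : ℂ) {bT : ℝ} (A : ℝ) {θ : ℝ} (hl : 0 < lam bT θ) :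
    HasDerivAt (EE z bT A) (pp z bT A θ * EE z bT A θ) θ := by
  have h1 : HasDerivAt (fun θ : ℝ => I * (θ : ℂ) * (A : ℂ)) (I * (A : ℂ)) θ := by
    have := ((Complex.ofRealCLM.hasDerivAt (x := θ)).const_mul I).mul_const (A : ℂ)
    simpa using this
  have h2 : HasDerivAt (fun θ : ℝ => ((Real.log (lam bT θ) : ℝ) : ℂ))
      (((-bT / lam bT θ : ℝ)) : ℂ) θ :=
    ((hasDerivAt_lam bT θ).log hl.ne').ofReal_comp
  have h3 := (h1.add (h2.const_mul z)).cexp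
  have h4 : (exp ((fun θ : ℝ => I * (θ : ℂ) * (A : ℂ)) θ +
      (fun y : ℝ => z * ((Real.log (lam bT y) : ℝ) : ℂ)) θ)) = EE z bT A θ := rfl
  refine h3.congr_deriv ?_
  change EE z bT A θ * (I * (A : ℂ) + z * (((-bT / lam bT θ : ℝ)) : ℂ)) = _
  unfold pp
  push_cast
  ring

theorem hasDerivAt_inv_lam {bT θ : ℝ} (hl : 0 < lam bT θ) :
    HasDerivAt (fun θ => (lam bT θ)⁻¹) (bT * ((lam bT θ)⁻¹) ^ 2) θ := by
  have := (hasDerivAt_lam bT θ).inv hl.ne'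
  refine this.congr_deriv ?_
  field_simp

theorem hasDerivAt_pp (z : ℂ) {bT : ℝ} (A : ℝ) {θ : ℝ} (hl : 0 < lam bT θ) :
    HasDerivAt (pp z bT A) (-(z * ((bT ^ 2 * ((lam bT θ)⁻¹) ^ 2 : ℝ) : ℂ))) θ := by
  have h1 := ((hasDerivAt_inv_lam hl).const_mul bT).ofReal_comp
  have h2 := (h1.const_mul z).const_sub (I * (A : ℂ))
  refine h2.congr_deriv ?_
  push_cast
  ring

/-- the scale `σ(θ) = √(τ (1 - θ bT))` -/
def sg (τ bT θ : ℝ) : ℝ := Real.sqrt (τ * lam bT θ)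

theorem sg_pos {τ bT θ : ℝ} (hτ : 0 < τ) (hl : 0 < lam bT θ) : 0 < sg τ bT θ :=
  Real.sqrt_pos.2 (mul_pos hτ hl)

theorem hasDerivAt_sg {τ bT θ : ℝ} (hτ : 0 < τ) (hl : 0 < lam bT θ) :
    HasDerivAt (sg τ bT) (-(τ * bT) / (2 * sg τ bT θ)) θ := by
  have h1 := (hasDerivAt_lam bT θ).const_mul τ
  have h2 := h1.sqrt (mul_pos hτ hl).ne'
  refine h2.congr_deriv ?_
  unfold sg
  ring

theorem hasDerivAt_Gsg {ψ f : R12 → ℂ} (h : Good ψ) (hf : ContDiff ℝ 1 f) {τ bT θ : ℝ}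
    (hτ : 0 < τ) (hl : 0 < lam bT θ) (k : Z12) :
    HasDerivAt (fun θ => G ψ f (sg τ bT θ) k)
      (((bT * (lam bT θ)⁻¹ / 2 : ℝ) : ℂ) * G ψ (eul f) (sg τ bT θ) k) θ := by
  have hσ := sg_pos hτ hl
  have h1 := hasDerivAt_G h hf hσ k
  have h2 := h1.scomp θ (hasDerivAt_sg hτ hl)
  refine h2.congr_deriv ?_
  rw [Complex.real_smul, ← mul_assoc]
  congr 1
  have hsq : sg τ bT θ ^ 2 = τ * lam bT θ := Real.sq_sqrt (mul_pos hτ hl).le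
  have hσc : (sg τ bT θ : ℂ) ≠ 0 := by exact_mod_cast hσ.ne'
  have hreal : -(τ * bT) / (2 * sg τ bT θ) * (-(sg τ bT θ)⁻¹) = bT * (lam bT θ)⁻¹ / 2 := by
    have h3 : -(τ * bT) / (2 * sg τ bT θ) * (-(sg τ bT θ)⁻¹) = (τ * bT) / (2 * sg τ bT θ ^ 2) := by
      field_simp
    rw [h3, hsq]
    field_simp
  rw [← hreal]
  push_cast
  ring

/-- first derivative of the curve -/
def C1 (z : ℂ) (bT A : ℝ) (g0 g1 : ℝ → ℂ) (θ : ℝ) : ℂ :=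
  EE z bT A θ * (pp z bT A θ * g0 θ + ((bT * (lam bT θ)⁻¹ / 2 : ℝ) : ℂ) * g1 θ)

/-- second derivative of the curve -/
def C2 (z : ℂ) (bT A : ℝ) (g0 g1 g2 : ℝ → ℂ) (θ : ℝ) : ℂ :=
  EE z bT A θ * ((pp z bT A θ) ^ 2 * g0 θ
    + 2 * (pp z bT A θ * (((bT * (lam bT θ)⁻¹ / 2 : ℝ) : ℂ) * g1 θ))
    - z * ((bT ^ 2 * ((lam bT θ)⁻¹) ^ 2 : ℝ) : ℂ) * g0 θ
    + ((bT ^ 2 * ((lam bT θ)⁻¹) ^ 2 / 2 : ℝ) : ℂ) * g1 θ
    + ((bT * (lam bT θ)⁻¹ / 2 : ℝ) : ℂ) ^ 2 * g2 θ)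

theorem hasDerivAt_C0 (z : ℂ) {bT : ℝ} (A : ℝ) {θ : ℝ} (hl : 0 < lam bT θ) {g0 g1 : ℝ → ℂ}
    (hg0 : HasDerivAt g0 (((bT * (lam bT θ)⁻¹ / 2 : ℝ) : ℂ) * g1 θ) θ) :
    HasDerivAt (fun θ => EE z bT A θ * g0 θ) (C1 z bT A g0 g1 θ) θ := by
  refine ((hasDerivAt_EE z A hl).fun_mul hg0).congr_deriv ?_
  unfold C1
  ring

theorem hasDerivAt_C1 (z : ℂ) {bT : ℝ} (A : ℝ) {θ : ℝ} (hl : 0 < lam bT θ) {g0 g1 g2 : ℝ → ℂ}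
    (hg0 : HasDerivAt g0 (((bT * (lam bT θ)⁻¹ / 2 : ℝ) : ℂ) * g1 θ) θ)
    (hg1 : HasDerivAt g1 (((bT * (lam bT θ)⁻¹ / 2 : ℝ) : ℂ) * g2 θ) θ) :
    HasDerivAt (C1 z bT A g0 g1) (C2 z bT A g0 g1 g2 θ) θ := by
  have h1 : HasDerivAt (fun θ => ((bT * (lam bT θ)⁻¹ / 2 : ℝ) : ℂ))
      ((bT * (bT * ((lam bT θ)⁻¹) ^ 2) / 2 : ℝ) : ℂ) θ :=
    (((hasDerivAt_inv_lam hl).const_mul bT).div_const 2).ofReal_comp
  have h2 := (hasDerivAt_EE z A hl).fun_mul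
    (((hasDerivAt_pp z A hl).fun_mul hg0).fun_add (h1.fun_mul hg1))
  refine h2.congr_deriv ?_
  unfold C2
  push_cast
  ring

theorem norm_EE_le {z : ℂ} {bT A θ : ℝ} (hz0 : z.re ≤ 0) (hz : -1 ≤ z.re) (hb : |bT| ≤ 1 / 4)
    (hθ : θ ∈ Icc (0 : ℝ) 1) : ‖EE z bT A θ‖ ≤ 2 := by
  obtain ⟨h1, h2⟩ := lam_bounds hb hθ
  unfold EE
  rw [Complex.norm_exp]
  have h3 : (I * (θ : ℂ) * (A : ℂ) + z * ((Real.log (lam bT θ) : ℝ) : ℂ)).re =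
      z.re * Real.log (lam bT θ) := by
    simp
  rw [h3]
  have hl : 0 < lam bT θ := by linarith
  have h4 : 1 - (lam bT θ)⁻¹ ≤ Real.log (lam bT θ) := Real.one_sub_inv_le_log_of_pos hl
  have h5 : (lam bT θ)⁻¹ ≤ 4 / 3 := by
    rw [inv_le_comm₀ hl (by norm_num)]; norm_num; linarith
  have h6 : z.re * Real.log (lam bT θ) ≤ 1 / 3 := by nlinarith
  have h7 : Real.exp (1 / 3) ≤ 2 := by
    have : (1 / 3 : ℝ) ≤ Real.log 2 := by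
      have := Real.log_two_gt_d9; linarith
    calc Real.exp (1 / 3) ≤ Real.exp (Real.log 2) := Real.exp_le_exp.2 this
      _ = 2 := Real.exp_log (by norm_num)
  exact (Real.exp_le_exp.2 h6).trans h7

theorem sq_expand (a Z : ℝ) : (a + 2 * Z + 1) ^ 2 = (a + 2 * Z) ^ 2 + 2 * (a + 2 * Z) + 1 := by ring

theorem norm_C2_le {z : ℂ} {bT A θ β a Z : ℝ} (hz0 : z.re ≤ 0) (hz : -1 ≤ z.re) (hZ : ‖z‖ ≤ Z)
    (hb : |bT| ≤ β) (hβ : β ≤ 1 / 4) (hA : |A| ≤ β * a) (ha : 1 ≤ a) (hZ1 : 1 ≤ Z)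
    (hθ : θ ∈ Icc (0 : ℝ) 1) (g0 g1 g2 : ℝ → ℂ) :
    ‖C2 z bT A g0 g1 g2 θ‖ ≤
      2 * β ^ 2 * (a + 2 * Z + 1) ^ 2 * (‖g0 θ‖ + ‖g1 θ‖ + ‖g2 θ‖) := by
  have hb4 : |bT| ≤ 1 / 4 := hb.trans hβ
  have hβ0 : 0 ≤ β := (abs_nonneg _).trans hb
  obtain ⟨hl1, hl2⟩ := lam_bounds hb4 hθ
  have hl : 0 < lam bT θ := by linarith
  have hE := norm_EE_le (A := A) hz0 hz hb4 hθ
  have hu0 : 0 < (lam bT θ)⁻¹ := inv_pos.2 hl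
  have hu : (lam bT θ)⁻¹ ≤ 4 / 3 := by
    rw [inv_le_comm₀ hl (by norm_num)]; norm_num; linarith
  set u := (lam bT θ)⁻¹ with hudef
  have hbu : |bT * u| ≤ β * (4 / 3) := by
    rw [abs_mul, abs_of_pos hu0]
    exact mul_le_mul hb hu hu0.le hβ0
  have hp : ‖pp z bT A θ‖ ≤ β * (a + 2 * Z) := by
    unfold pp
    refine (norm_sub_le _ _).trans ?_
    rw [norm_mul, norm_mul, Complex.norm_I, Complex.norm_real, Complex.norm_real, one_mul,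
      Real.norm_eq_abs, Real.norm_eq_abs, ← hudef]
    have h1 : ‖z‖ * |bT * u| ≤ Z * (β * (4 / 3)) :=
      mul_le_mul hZ hbu (abs_nonneg _) (by linarith)
    nlinarith [mul_nonneg hβ0 (by linarith : (0 : ℝ) ≤ Z)]
  have hc1 : ‖((bT * u / 2 : ℝ) : ℂ)‖ ≤ β := by
    rw [Complex.norm_real, Real.norm_eq_abs, abs_div, abs_two]
    linarith
  have hbb : bT ^ 2 * u ^ 2 ≤ 2 * β ^ 2 := by
    have h1 : bT ^ 2 * u ^ 2 = |bT * u| ^ 2 := by rw [sq_abs]; ring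
    rw [h1]
    nlinarith [abs_nonneg (bT * u)]
  have hbb0 : 0 ≤ bT ^ 2 * u ^ 2 := by positivity
  have hc2 : ‖((bT ^ 2 * u ^ 2 : ℝ) : ℂ)‖ ≤ 2 * β ^ 2 := by
    rw [Complex.norm_real, Real.norm_of_nonneg hbb0]; exact hbb
  have hc3 : ‖((bT ^ 2 * u ^ 2 / 2 : ℝ) : ℂ)‖ ≤ β ^ 2 := by
    rw [Complex.norm_real, Real.norm_of_nonneg (by positivity)]; linarith
  have hg0 := norm_nonneg (g0 θ)
  have hg1 := norm_nonneg (g1 θ)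
  have hg2 := norm_nonneg (g2 θ)
  have t1 : ‖(pp z bT A θ) ^ 2 * g0 θ‖ ≤ (β * (a + 2 * Z)) ^ 2 * ‖g0 θ‖ := by
    rw [norm_mul, norm_pow]
    gcongr
  have t2 : ‖2 * (pp z bT A θ * (((bT * u / 2 : ℝ) : ℂ) * g1 θ))‖ ≤
      2 * (β * (a + 2 * Z) * (β * ‖g1 θ‖)) := by
    rw [norm_mul, norm_mul, norm_mul, Complex.norm_ofNat]
    gcongr
  have t3 : ‖z * ((bT ^ 2 * u ^ 2 : ℝ) : ℂ) * g0 θ‖ ≤ Z * (2 * β ^ 2) * ‖g0 θ‖ := by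
    rw [norm_mul, norm_mul]
    gcongr
  have t4 : ‖((bT ^ 2 * u ^ 2 / 2 : ℝ) : ℂ) * g1 θ‖ ≤ β ^ 2 * ‖g1 θ‖ := by
    rw [norm_mul]
    gcongr
  have t5 : ‖((bT * u / 2 : ℝ) : ℂ) ^ 2 * g2 θ‖ ≤ β ^ 2 * ‖g2 θ‖ := by
    rw [norm_mul, norm_pow]
    gcongr
  unfold C2
  rw [norm_mul]
  have hsum : ‖(pp z bT A θ) ^ 2 * g0 θ
    + 2 * (pp z bT A θ * (((bT * u / 2 : ℝ) : ℂ) * g1 θ))
    - z * ((bT ^ 2 * u ^ 2 : ℝ) : ℂ) * g0 θ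
    + ((bT ^ 2 * u ^ 2 / 2 : ℝ) : ℂ) * g1 θ
    + ((bT * u / 2 : ℝ) : ℂ) ^ 2 * g2 θ‖ ≤
      β ^ 2 * (a + 2 * Z + 1) ^ 2 * (‖g0 θ‖ + ‖g1 θ‖ + ‖g2 θ‖) := by
    have n1 := norm_add_le ((pp z bT A θ) ^ 2 * g0 θ
      + 2 * (pp z bT A θ * (((bT * u / 2 : ℝ) : ℂ) * g1 θ))
      - z * ((bT ^ 2 * u ^ 2 : ℝ) : ℂ) * g0 θ
      + ((bT ^ 2 * u ^ 2 / 2 : ℝ) : ℂ) * g1 θ) (((bT * u / 2 : ℝ) : ℂ) ^ 2 * g2 θ)
    have n2 := norm_add_le ((pp z bT A θ) ^ 2 * g0 θ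
      + 2 * (pp z bT A θ * (((bT * u / 2 : ℝ) : ℂ) * g1 θ))
      - z * ((bT ^ 2 * u ^ 2 : ℝ) : ℂ) * g0 θ) (((bT ^ 2 * u ^ 2 / 2 : ℝ) : ℂ) * g1 θ)
    have n3 := norm_sub_le ((pp z bT A θ) ^ 2 * g0 θ
      + 2 * (pp z bT A θ * (((bT * u / 2 : ℝ) : ℂ) * g1 θ)))
      (z * ((bT ^ 2 * u ^ 2 : ℝ) : ℂ) * g0 θ)
    have n4 := norm_add_le ((pp z bT A θ) ^ 2 * g0 θ)
      (2 * (pp z bT A θ * (((bT * u / 2 : ℝ) : ℂ) * g1 θ)))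
    have hβ2 : 0 ≤ β ^ 2 := by positivity
    have hq : 0 ≤ a + 2 * Z := by linarith
    have hq1 : (a + 2 * Z) ^ 2 + 2 * Z ≤ (a + 2 * Z + 1) ^ 2 := by linarith [hq, sq_expand a Z]
    have hq2 : 2 * (a + 2 * Z) + 1 ≤ (a + 2 * Z + 1) ^ 2 := by
      linarith [sq_expand a Z, sq_nonneg (a + 2 * Z)]
    have hq3 : 1 ≤ (a + 2 * Z + 1) ^ 2 := by linarith [sq_expand a Z, sq_nonneg (a + 2 * Z)]
    have k0 : (β * (a + 2 * Z)) ^ 2 * ‖g0 θ‖ + Z * (2 * β ^ 2) * ‖g0 θ‖ ≤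
        β ^ 2 * (a + 2 * Z + 1) ^ 2 * ‖g0 θ‖ := by
      have := mul_le_mul_of_nonneg_right (mul_le_mul_of_nonneg_left hq1 hβ2) hg0
      refine le_trans (le_of_eq ?_) this
      ring
    have k1 : 2 * (β * (a + 2 * Z) * (β * ‖g1 θ‖)) + β ^ 2 * ‖g1 θ‖ ≤
        β ^ 2 * (a + 2 * Z + 1) ^ 2 * ‖g1 θ‖ := by
      have := mul_le_mul_of_nonneg_right (mul_le_mul_of_nonneg_left hq2 hβ2) hg1
      refine le_trans (le_of_eq ?_) this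
      ring
    have k2 : β ^ 2 * ‖g2 θ‖ ≤ β ^ 2 * (a + 2 * Z + 1) ^ 2 * ‖g2 θ‖ := by
      have := mul_le_mul_of_nonneg_right (mul_le_mul_of_nonneg_left hq3 hβ2) hg2
      refine le_trans (le_of_eq ?_) this
      ring
    linarith
  have hR : 0 ≤ β ^ 2 * (a + 2 * Z + 1) ^ 2 * (‖g0 θ‖ + ‖g1 θ‖ + ‖g2 θ‖) := by positivity
  calc _ ≤ 2 * (β ^ 2 * (a + 2 * Z + 1) ^ 2 * (‖g0 θ‖ + ‖g1 θ‖ + ‖g2 θ‖)) :=
        mul_le_mul hE hsum (norm_nonneg _) (by norm_num)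
    _ = _ := by ring

end

end Crest.Agent.R086.MOD
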