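import Crest.Agent.R086.Sym
import Crest.Agent.R086.TorDefs

/-!
Row 86, Part D-torus, periodisation tool (helper732).
-/

set_option autoImplicit false
set_option linter.style.longLine false

open MeasureTheory Complex Filter Topology
open scoped ContDiff FourierTransform
open Crest.AnalysisR.PDE.NLS (IsSmoothPeriodic periodCell)

namespace Crest.Agent.R086.PZ

noncomputable section

/-- weighted `L¹` norm of a density -/
def xn (N : ℕ) (a : R12 → ℂ) : ℝ := ∫ ξ : R12, (1 + ‖ξ‖) ^ N * ‖a ξ‖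

@[simp] theorem zv_apply (k : Z12) (i : Fin 12) : zv k i = (k i : ℝ) := rfl

theorem zv_add (k l : Z12) : zv (k + l) = zv k + zv l := by
  ext i; simp

theorem zv_sub (k l : Z12) : zv (k - l) = zv k - zv l := by
  ext i; simp

theorem zv_neg (k : Z12) : zv (-k) = -zv k := by
  ext i; simp

/-- distinct lattice points have distance at least one -/
theorem one_le_norm_zv {k : Z12} (hk : k ≠ 0) : 1 ≤ ‖zv k‖ := by
  obtain ⟨i, hi⟩ : ∃ i, k i ≠ 0 := by
    by_contra h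
    push Not at h
    exact hk (funext h)
  have h1 : ‖zv k i‖ ≤ ‖zv k‖ := PiLp.norm_apply_le (zv k) i
  refine le_trans ?_ h1
  rw [zv_apply, Real.norm_eq_abs, ← Int.cast_abs]
  exact_mod_cast Int.one_le_abs hi

/-! ### local structure of periodisations -/

theorem loc (x0 : R12) : ∃ k0 : Z12, ∀ F : R12 → ℂ, (∀ z, 3 ≤ ‖z‖ → F z = 0) →
    ∀ x, ‖x - x0‖ < 1 / 8 → perz F x = F (x - (2 * Real.pi) • zv k0) := by
  by_cases h : ∃ k0 : Z12, ‖x0 - (2 * Real.pi) • zv k0‖ < 3 + 1 / 8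
  · obtain ⟨k0, hk0⟩ := h
    refine ⟨k0, fun F hF x hx => ?_⟩
    unfold perz
    refine tsum_eq_single k0 fun k hk => hF _ ?_
    have h1 : 1 ≤ ‖zv (k - k0)‖ := one_le_norm_zv (sub_ne_zero.2 hk)
    have h2 : ‖(2 * Real.pi) • zv (k - k0)‖ = 2 * Real.pi * ‖zv (k - k0)‖ := by
      rw [norm_smul, Real.norm_of_nonneg (by positivity)]
    have h3 : (2 * Real.pi) • zv (k - k0) =
        (x0 - (2 * Real.pi) • zv k0) + (x - x0) - (x - (2 * Real.pi) • zv k) := by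
      rw [zv_sub, smul_sub]; abel
    have h4 : ‖(2 * Real.pi) • zv (k - k0)‖ ≤
        ‖x0 - (2 * Real.pi) • zv k0‖ + ‖x - x0‖ + ‖x - (2 * Real.pi) • zv k‖ := by
      rw [h3]
      exact (norm_sub_le _ _).trans (by gcongr; exact norm_add_le _ _)
    have h5 := Real.pi_gt_d2
    nlinarith
  · push Not at h
    refine ⟨0, fun F hF x hx => ?_⟩
    have h1 : ∀ k : Z12, F (x - (2 * Real.pi) • zv k) = 0 := by
      intro k
      refine hF _ ?_
      have h2 := h k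
      have h3 : ‖x0 - (2 * Real.pi) • zv k‖ ≤ ‖x - (2 * Real.pi) • zv k‖ + ‖x - x0‖ := by
        have : x0 - (2 * Real.pi) • zv k = (x - (2 * Real.pi) • zv k) - (x - x0) := by abel
        rw [this]
        exact norm_sub_le _ _
      linarith
    unfold perz
    simp only [h1, tsum_zero]

theorem perz_zero_of {F : R12 → ℂ} (hs : ∀ z, 3 ≤ ‖z‖ → F z = 0) {x : R12} (hx : ‖x‖ < 3 + 1 / 4) :
    perz F x = F x := by
  unfold perz
  rw [tsum_eq_single (0 : Z12)]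
  · congr 1
    have : zv (0 : Z12) = 0 := by ext i; simp
    rw [this]; simp
  · intro k hk
    refine hs _ ?_
    have h1 : 1 ≤ ‖zv k‖ := one_le_norm_zv hk
    have h2 : ‖(2 * Real.pi) • zv k‖ = 2 * Real.pi * ‖zv k‖ := by
      rw [norm_smul, Real.norm_of_nonneg (by positivity)]
    have h4 : ‖(2 * Real.pi) • zv k‖ ≤ ‖x‖ + ‖x - (2 * Real.pi) • zv k‖ := by
      have : (2 * Real.pi) • zv k = x - (x - (2 * Real.pi) • zv k) := by abel
      rw [this]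
      refine (norm_sub_le _ _).trans ?_
      rw [← this]
    have h5 := Real.pi_gt_d2
    nlinarith

/-- periodicity -/
theorem perz_periodic (F : R12 → ℂ) (x : R12) (k : Z12) :
    perz F (x + (2 * Real.pi) • zv k) = perz F x := by
  unfold perz
  rw [← (Equiv.addRight k).tsum_eq]
  congr 1
  funext j
  congr 1
  simp only [Equiv.coe_addRight]
  rw [zv_add, smul_add]
  abel

theorem zv_single (i : Fin 12) : (2 * Real.pi) • zv (Pi.single i 1) =
    EuclideanSpace.single i (2 * Real.pi) := by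
  ext j
  by_cases h : j = i
  · subst h; simp
  · simp [h]

theorem smoothPeriodic {F : R12 → ℂ} (hF : ContDiff ℝ ∞ F) (hs : ∀ z, 3 ≤ ‖z‖ → F z = 0) :
    IsSmoothPeriodic (perz F) := by
  refine ⟨?_, fun x i => ?_⟩
  · rw [contDiff_iff_contDiffAt]
    intro x0
    obtain ⟨k0, hk0⟩ := loc x0
    have h1 : ContDiffAt ℝ ∞ (fun x => F (x - (2 * Real.pi) • zv k0)) x0 :=
      (hF.comp (contDiff_id.sub contDiff_const)).contDiffAt
    refine h1.congr_of_eventuallyEq ?_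
    filter_upwards [Metric.ball_mem_nhds x0 (by norm_num : (0:ℝ) < 1 / 8)] with x hx
    exact hk0 F hs x (by simpa [dist_eq_norm] using hx)
  · rw [← zv_single]
    exact perz_periodic F x _

/-! ### unfolding -/

/-- the cube `[0,L)^12` -/
def cell (L : ℝ) : Set R12 := {x | ∀ i : Fin 12, x i ∈ Set.Ico 0 L}

theorem cell_two_pi : cell (2 * Real.pi) = periodCell := rfl

theorem measurableSet_cell (L : ℝ) : MeasurableSet (cell L) := by
  have : cell L = ⋂ i : Fin 12, (fun x : R12 => x i) ⁻¹' (Set.Ico 0 L) := by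
    ext x; simp [cell]
  rw [this]
  refine MeasurableSet.iInter fun i => ?_
  have hc : Continuous fun x : R12 => x i := by fun_prop
  exact hc.measurable measurableSet_Ico

theorem exists_cell {L : ℝ} (hL : 0 < L) (x : R12) : ∃ j : Z12, x - L • zv j ∈ cell L := by
  refine ⟨fun i => ⌊x i / L⌋, fun i => ?_⟩
  have h1 : (x - L • zv (fun i => ⌊x i / L⌋)) i = x i - L * (⌊x i / L⌋ : ℝ) := by simp
  rw [h1]
  have h2 := Int.floor_le (x i / L)
  have h3 := Int.lt_floor_add_one (x i / L)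
  have h4 : L * (x i / L) = x i := mul_div_cancel₀ _ hL.ne'
  constructor
  · nlinarith
  · nlinarith

theorem cell_unique {L : ℝ} (hL : 0 < L) {x : R12} {j k : Z12} (hj : x - L • zv j ∈ cell L)
    (hk : x - L • zv k ∈ cell L) : j = k := by
  funext i
  have h1 := hj i
  have h2 := hk i
  have e1 : (x - L • zv j) i = x i - L * (j i : ℝ) := by simp
  have e2 : (x - L • zv k) i = x i - L * (k i : ℝ) := by simp
  rw [e1] at h1
  rw [e2] at h2
  have h3 : (j i : ℝ) < k i + 1 := by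
    by_contra hcon
    push Not at hcon
    nlinarith [h1.1, h1.2, h2.1, h2.2, mul_le_mul_of_nonneg_left hcon hL.le]
  have h4 : (k i : ℝ) < j i + 1 := by
    by_contra hcon
    push Not at hcon
    nlinarith [h1.1, h1.2, h2.1, h2.2, mul_le_mul_of_nonneg_left hcon hL.le]
  have h5 : j i < k i + 1 := by exact_mod_cast h3
  have h6 : k i < j i + 1 := by exact_mod_cast h4
  omega

/-- translated cells -/
def tcell (L : ℝ) (j : Z12) : Set R12 := (fun x => x - L • zv j) ⁻¹' cell L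

theorem measurableSet_tcell (L : ℝ) (j : Z12) : MeasurableSet (tcell L j) :=
  (by fun_prop : Measurable fun x : R12 => x - L • zv j) (measurableSet_cell L)

theorem iUnion_tcell {L : ℝ} (hL : 0 < L) : ⋃ j : Z12, tcell L j = Set.univ := by
  ext x
  simp only [Set.mem_iUnion, Set.mem_univ, iff_true]
  exact exists_cell hL x

theorem disjoint_tcell {L : ℝ} (hL : 0 < L) : Pairwise (Function.onFun Disjoint (tcell L)) := by
  intro j k hjk
  rw [Function.onFun, Set.disjoint_left]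
  intro x hx hx'
  exact hjk (cell_unique hL hx hx')

theorem setIntegral_tcell {E : Type*} [NormedAddCommGroup E] [NormedSpace ℝ E] (L : ℝ) (j : Z12)
    (G : R12 → E) : ∫ x in tcell L j, G x = ∫ x in cell L, G (x + L • zv j) := by
  rw [← integral_indicator (measurableSet_tcell L j), ← integral_indicator (measurableSet_cell L),
    ← integral_add_right_eq_self _ (L • zv j)]
  refine integral_congr_ae (Eventually.of_forall fun x => ?_)
  have hm : (x + L • zv j ∈ tcell L j) ↔ x ∈ cell L := by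
    simp [tcell]
  by_cases hx : x ∈ cell L
  · simp only [Set.indicator, hm, hx, if_true]
  · simp only [Set.indicator, hm, hx, if_false]

theorem hasSum_unfold {E : Type*} [NormedAddCommGroup E] [NormedSpace ℝ E] {L : ℝ} (hL : 0 < L)
    {G : R12 → E} (hG : Integrable G) :
    HasSum (fun j : Z12 => ∫ x in cell L, G (x + L • zv j)) (∫ x, G x) := by
  have h1 := hasSum_integral_iUnion (μ := (volume : Measure R12)) (f := G)
    (measurableSet_tcell L) (disjoint_tcell hL) hG.integrableOn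
  rw [iUnion_tcell hL, setIntegral_univ] at h1
  have h2 : (fun j : Z12 => ∫ x in cell L, G (x + L • zv j)) =
      fun j => ∫ x in tcell L j, G x := by
    funext j
    rw [setIntegral_tcell]
  rw [h2]
  exact h1

/-- `⟨zv k, 2π zv j⟩ ∈ 2πℤ` -/
theorem exp_period (k j : Z12) : exp (-(I * ((inner ℝ (zv k) ((2 * Real.pi) • zv j) : ℝ) : ℂ))) = 1 := by
  have h1 : inner ℝ (zv k) ((2 * Real.pi) • zv j) = ((∑ i, k i * j i : ℤ) : ℝ) * (2 * Real.pi) := by
    rw [real_inner_smul_right, PiLp.inner_apply]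
    simp only [zv_apply, RCLike.inner_apply, conj_trivial]
    push_cast
    rw [mul_comm]
    congr 1
    refine Finset.sum_congr rfl fun i _ => ?_
    ring
  rw [h1]
  have h2 : -(I * ((((∑ i, k i * j i : ℤ) : ℝ) * (2 * Real.pi) : ℝ) : ℂ)) =
      ((-(∑ i, k i * j i) : ℤ) : ℂ) * (2 * Real.pi * I) := by
    push_cast
    ring
  rw [h2]
  exact Complex.exp_int_mul_two_pi_mul_I _

theorem integrable_of_supp {E : Type*} [NormedAddCommGroup E] {F : R12 → E} (hF : Continuous F)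
    (hs : ∀ z, 3 ≤ ‖z‖ → F z = 0) : Integrable F := by
  refine hF.integrable_of_hasCompactSupport ?_
  refine HasCompactSupport.intro (isCompact_closedBall (0 : R12) 3) fun y hy => hs y ?_
  have : 3 < ‖y‖ := by simpa using hy
  exact this.le

theorem perz_eq_neg (F : R12 → ℂ) (x : R12) : perz F x = ∑' k : Z12, F (x + (2 * Real.pi) • zv k) := by
  unfold perz
  rw [← (Equiv.neg Z12).tsum_eq]
  congr 1
  funext k
  congr 1
  simp only [Equiv.neg_apply, zv_neg, smul_neg, sub_neg_eq_add]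

theorem cf_perz {F : R12 → ℂ} (hF : Continuous F) (hs : ∀ z, 3 ≤ ‖z‖ → F z = 0) (k : Z12) :
    cf (perz F) k = ((((2 * Real.pi) ^ 12 : ℝ)) : ℂ)⁻¹ *
      ∫ x : R12, F x * exp (-(I * ((inner ℝ (zv k) x : ℝ) : ℂ))) := by
  unfold cf
  congr 1
  set G : R12 → ℂ := fun x => F x * exp (-(I * ((inner ℝ (zv k) x : ℝ) : ℂ))) with hG
  have hGc : Continuous G := by
    simp only [hG]; fun_prop
  have hGs : ∀ z, 3 ≤ ‖z‖ → G z = 0 := fun z hz => by simp only [hG, hs z hz, zero_mul]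
  have hGi : Integrable G := integrable_of_supp hGc hGs
  have hpi : 0 < 2 * Real.pi := by positivity
  have h1 := (hasSum_unfold hpi hGi).tsum_eq
  rw [← h1]
  have h2 : ∀ x : R12, perz F x * exp (-(I * ((inner ℝ (zv k) x : ℝ) : ℂ))) =
      ∑' j : Z12, G (x + (2 * Real.pi) • zv j) := by
    intro x
    rw [perz_eq_neg, ← tsum_mul_right]
    congr 1
    funext j
    simp only [hG]
    rw [inner_add_right, Complex.ofReal_add, mul_add, neg_add, Complex.exp_add, exp_period, mul_one]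
  rw [← cell_two_pi]
  simp_rw [h2]
  symm
  refine integral_tsum_of_summable_integral_norm (fun j => ?_) ?_
  · exact (hGi.comp_add_right ((2 * Real.pi) • zv j)).integrableOn
  · exact (hasSum_unfold hpi hGi.norm).summable

/-! ### lattice sums -/

theorem volume_cell {L : ℝ} (hL : 0 ≤ L) : (volume : Measure R12).real (cell L) = L ^ 12 := by
  have h1 : cell L = (WithLp.ofLp : R12 → (Fin 12 → ℝ)) ⁻¹' (Set.univ.pi fun _ => Set.Ico 0 L) := by
    ext x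
    simp [cell]
  have h2 := (PiLp.volume_preserving_ofLp (Fin 12)).measure_preimage
    (s := Set.univ.pi fun _ => Set.Ico 0 L)
    (MeasurableSet.univ_pi fun _ => measurableSet_Ico).nullMeasurableSet
  rw [measureReal_def, h1, h2, Real.volume_pi_Ico_toReal]
  · simp
  · intro i; exact hL

theorem norm_le_of_cell {x : R12} (hx : x ∈ cell 1) : ‖x‖ ≤ 4 := by
  rw [EuclideanSpace.norm_eq]
  have h1 : ∑ i, ‖x i‖ ^ 2 ≤ ∑ _i : Fin 12, (1:ℝ) := by
    refine Finset.sum_le_sum fun i _ => ?_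
    have h2 := hx i
    rw [Real.norm_of_nonneg h2.1]
    have := h2.2
    have := h2.1
    nlinarith
  have h3 : ∑ _i : Fin 12, (1:ℝ) = 12 := by simp
  rw [h3] at h1
  calc √(∑ i, ‖x i‖ ^ 2) ≤ √(4 ^ 2) := Real.sqrt_le_sqrt (by linarith)
    _ = 4 := by rw [Real.sqrt_sq (by norm_num)]

/-- uniform bound for shifted lattice sums -/
theorem lattice_sum : ∃ A : ℝ, 0 ≤ A ∧ ∀ η : R12,
    (Summable fun k : Z12 => ((1 + ‖zv k - η‖) ^ 13)⁻¹) ∧
    ∑' k : Z12, ((1 + ‖zv k - η‖) ^ 13)⁻¹ ≤ A := by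
  have hint13 : Integrable (fun ξ : R12 => (1 + ‖ξ‖) ^ (-(13 : ℝ))) := by
    apply integrable_one_add_norm
    rw [SymX.finrank12]; norm_num
  have hc : ∀ ξ : R12, (1 + ‖ξ‖) ^ (-(13:ℝ)) = ((1 + ‖ξ‖) ^ 13)⁻¹ := by
    intro ξ
    rw [Real.rpow_neg (by positivity)]
    norm_cast
  simp_rw [hc] at hint13
  set J : ℝ := ∫ ξ : R12, ((1 + ‖ξ‖) ^ 13)⁻¹ with hJ
  have hJ0 : 0 ≤ J := integral_nonneg fun ξ => by positivity
  refine ⟨5 ^ 13 * J, by positivity, fun η => ?_⟩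
  set G : R12 → ℝ := fun x => ((1 + ‖x - η‖) ^ 13)⁻¹ with hG
  have hGi : Integrable G := hint13.comp_sub_right η
  have hGJ : ∫ x, G x = J := by
    simp only [hG, hJ]
    exact integral_sub_right_eq_self (fun x : R12 => ((1 + ‖x‖) ^ 13)⁻¹) η
  have hu := hasSum_unfold one_pos hGi
  have hcell : (volume : Measure R12).real (cell 1) = 1 := by rw [volume_cell zero_le_one]; norm_num
  have hpt : ∀ k : Z12, ((1 + ‖zv k - η‖) ^ 13)⁻¹ ≤ 5 ^ 13 * ∫ x in cell 1, G (x + (1:ℝ) • zv k) := by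
    intro k
    have h1 : ∫ _ in cell 1, ((1 + ‖zv k - η‖) ^ 13)⁻¹ = ((1 + ‖zv k - η‖) ^ 13)⁻¹ := by
      rw [setIntegral_const, hcell, one_smul]
    rw [← h1, ← integral_const_mul]
    have hfin : (volume : Measure R12) (cell 1) ≠ ⊤ := by
      intro h
      rw [measureReal_def, h] at hcell
      simp at hcell
    refine setIntegral_mono_on (integrableOn_const hfin) ?_ (measurableSet_cell 1) fun x hx => ?_
    · exact ((hGi.comp_add_right ((1:ℝ) • zv k)).const_mul _).integrableOn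
    · have h2 := norm_le_of_cell hx
      simp only [hG, one_smul]
      have h3 : ‖x + zv k - η‖ ≤ ‖zv k - η‖ + 4 := by
        have : x + zv k - η = x + (zv k - η) := by abel
        rw [this]
        exact (norm_add_le _ _).trans (by linarith)
      have h4 : 1 + ‖x + zv k - η‖ ≤ 5 * (1 + ‖zv k - η‖) := by
        linarith [norm_nonneg (zv k - η)]
      have h5 : (1 + ‖x + zv k - η‖) ^ 13 ≤ 5 ^ 13 * (1 + ‖zv k - η‖) ^ 13 := by
        rw [← mul_pow]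
        gcongr
      rw [inv_eq_one_div, ← div_eq_mul_inv, div_le_div_iff₀ (by positivity) (by positivity), one_mul]
      exact h5
  have hs : Summable fun k : Z12 => ((1 + ‖zv k - η‖) ^ 13)⁻¹ :=
    Summable.of_nonneg_of_le (fun k => by positivity) hpt (hu.summable.mul_left _)
  refine ⟨hs, ?_⟩
  calc ∑' k : Z12, ((1 + ‖zv k - η‖) ^ 13)⁻¹
      ≤ ∑' k : Z12, 5 ^ 13 * ∫ x in cell 1, G (x + (1:ℝ) • zv k) :=
        hs.tsum_le_tsum hpt (hu.summable.mul_left _)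
    _ = 5 ^ 13 * J := by rw [tsum_mul_left, hu.tsum_eq, hGJ]

/-! ### Fourier transforms of cut-offs -/

/-- `∫ χ(x) e^{-iη·x} dx` -/
def chat (χ : R12 → ℂ) (η : R12) : ℂ := ∫ x : R12, χ x * exp (-(I * ((inner ℝ η x : ℝ) : ℂ)))

theorem chat_eq (χ : R12 → ℂ) (η : R12) : chat χ η = 𝓕 χ ((2 * Real.pi)⁻¹ • η) := by
  unfold chat
  rw [Real.fourier_eq']
  refine integral_congr_ae (Eventually.of_forall fun x => ?_)
  simp only
  have hpi : (0 : ℝ) < 2 * Real.pi := by positivity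
  have h1 : -2 * Real.pi * inner ℝ x ((2 * Real.pi)⁻¹ • η) = -inner ℝ η x := by
    rw [real_inner_smul_right, real_inner_comm]
    have : -2 * Real.pi * ((2 * Real.pi)⁻¹ * inner ℝ η x) =
        -((2 * Real.pi) * (2 * Real.pi)⁻¹) * inner ℝ η x := by ring
    rw [this, mul_inv_cancel₀ hpi.ne']
    ring
  rw [h1, smul_eq_mul, mul_comm (χ x)]
  congr 2
  push_cast
  ring

theorem chat_bound (M : ℕ) : ∃ C : ℝ, 0 ≤ C ∧ ∀ (χ : R12 → ℂ) (B : ℝ), ContDiff ℝ ∞ χ →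
    (∀ z : R12, 3 ≤ ‖z‖ → χ z = 0) → (∀ m ≤ M, ∀ y, ‖iteratedFDeriv ℝ m χ y‖ ≤ B) →
    ∀ η : R12, (1 + ‖η‖) ^ M * ‖chat χ η‖ ≤ C * B := by
  obtain ⟨C, hC, h⟩ := SymX.fourier_bound M
  refine ⟨(2 * Real.pi) ^ M * C, by positivity, fun χ B hχ hs hB η => ?_⟩
  have h1 := h χ B hχ (fun y hy => hs y (by linarith)) hB ((2 * Real.pi)⁻¹ • η)
  have hpi : (0 : ℝ) < 2 * Real.pi := by positivity
  have hpi1 : (1 : ℝ) ≤ 2 * Real.pi := by linarith [Real.pi_gt_three]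
  rw [chat_eq]
  have h3 : 1 + ‖η‖ ≤ (2 * Real.pi) * (1 + ‖(2 * Real.pi)⁻¹ • η‖) := by
    rw [norm_smul, norm_inv, Real.norm_of_nonneg hpi.le, mul_add, ← mul_assoc,
      mul_inv_cancel₀ hpi.ne', one_mul]
    linarith
  calc (1 + ‖η‖) ^ M * ‖𝓕 χ ((2 * Real.pi)⁻¹ • η)‖
      ≤ ((2 * Real.pi) * (1 + ‖(2 * Real.pi)⁻¹ • η‖)) ^ M * ‖𝓕 χ ((2 * Real.pi)⁻¹ • η)‖ := by gcongr
    _ = (2 * Real.pi) ^ M * ((1 + ‖(2 * Real.pi)⁻¹ • η‖) ^ M * ‖𝓕 χ ((2 * Real.pi)⁻¹ • η)‖) := by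
        rw [mul_pow]; ring
    _ ≤ (2 * Real.pi) ^ M * (C * B) := by gcongr
    _ = (2 * Real.pi) ^ M * C * B := by ring

theorem cf_perz' {F : R12 → ℂ} (hF : Continuous F) (hs : ∀ z, 3 ≤ ‖z‖ → F z = 0) (k : Z12) :
    cf (perz F) k = ((((2 * Real.pi) ^ 12 : ℝ)) : ℂ)⁻¹ * chat F (zv k) := cf_perz hF hs k

theorem norm_pref : ‖((((2 * Real.pi) ^ 12 : ℝ)) : ℂ)⁻¹‖ ≤ 1 := by
  rw [norm_inv, Complex.norm_real, Real.norm_of_nonneg (by positivity)]
  refine inv_le_one_of_one_le₀ (one_le_pow₀ ?_)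
  linarith [Real.pi_gt_three]

/-- direct bound for periodised test functions -/
theorem wn_smooth (N : ℕ) : ∃ C : ℝ, 0 ≤ C ∧ ∀ (F : R12 → ℂ) (B : ℝ), ContDiff ℝ ∞ F →
    (∀ z : R12, 3 ≤ ‖z‖ → F z = 0) → (∀ m ≤ N + 13, ∀ y, ‖iteratedFDeriv ℝ m F y‖ ≤ B) →
    ∀ h : ℝ, 0 ≤ h → h ≤ 1 →
    (Summable fun k => (1 + h * nk k) ^ N * ‖cf (perz F) k‖) ∧ wn N h (perz F) ≤ C * B := by
  obtain ⟨C, hC, hb⟩ := chat_bound (N + 13)
  obtain ⟨A, hA, hl⟩ := lattice_sum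
  refine ⟨C * A, by positivity, fun F B hF hs hB h hh hh1 => ?_⟩
  have hB0 : 0 ≤ B := (norm_nonneg _).trans (hB 0 (Nat.zero_le _) 0)
  have hpt : ∀ k : Z12, (1 + h * nk k) ^ N * ‖cf (perz F) k‖ ≤ C * B * ((1 + ‖zv k - 0‖) ^ 13)⁻¹ := by
    intro k
    have h1 := hb F B hF hs hB (zv k)
    rw [cf_perz' hF.continuous hs, norm_mul, sub_zero, ← div_eq_mul_inv, le_div_iff₀ (by positivity)]
    have h0 : 0 ≤ nk k := norm_nonneg _
    have h2 : 1 + h * nk k ≤ 1 + ‖zv k‖ := by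
      have : h * nk k ≤ 1 * nk k := by gcongr
      simpa [nk] using this
    have h3 : 0 ≤ 1 + h * nk k := by positivity
    calc (1 + h * nk k) ^ N * (‖((((2 * Real.pi) ^ 12 : ℝ)) : ℂ)⁻¹‖ * ‖chat F (zv k)‖) *
          (1 + ‖zv k‖) ^ 13
        ≤ (1 + ‖zv k‖) ^ N * (1 * ‖chat F (zv k)‖) * (1 + ‖zv k‖) ^ 13 := by
          gcongr
          exact norm_pref
      _ = (1 + ‖zv k‖) ^ (N + 13) * ‖chat F (zv k)‖ := by rw [pow_add]; ring
      _ ≤ C * B := h1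
  have hsum := (hl 0).1.mul_left (C * B)
  have hs' : Summable fun k => (1 + h * nk k) ^ N * ‖cf (perz F) k‖ := by
    refine Summable.of_nonneg_of_le (fun k => ?_) hpt hsum
    have h0 : 0 ≤ nk k := norm_nonneg _
    positivity
  refine ⟨hs', ?_⟩
  calc wn N h (perz F) ≤ ∑' k : Z12, C * B * ((1 + ‖zv k - 0‖) ^ 13)⁻¹ :=
        hs'.tsum_le_tsum hpt hsum
    _ = C * B * ∑' k : Z12, ((1 + ‖zv k - 0‖) ^ 13)⁻¹ := tsum_mul_left
    _ ≤ C * B * A := by
        have := (hl 0).2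
        gcongr
    _ = C * A * B := by ring

theorem _root_.Crest.Agent.R086.Rep.continuous {N : ℕ} {a f : R12 → ℂ} (h : Rep N a f) :
    Continuous f := by
  have h1 : f = fun y => ∫ ξ : R12, exp (I * ((inner ℝ ξ y : ℝ) : ℂ)) * a ξ := funext h.2
  rw [h1]
  have hi := SymX.integrable_of_wt h.1
  refine continuous_of_dominated (bound := fun ξ => ‖a ξ‖) (fun y => ?_) (fun y => ?_) hi.norm ?_
  · refine AEStronglyMeasurable.mul ?_ hi.1
    exact (by fun_prop : Measurable fun ξ : R12 => exp (I * ((inner ℝ ξ y : ℝ) : ℂ))).aestronglyMeasurable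
  · refine Eventually.of_forall fun ξ => ?_
    rw [norm_mul, SymX.norm_expI, one_mul]
  · refine Eventually.of_forall fun ξ => ?_
    fun_prop

/-- exchange of integrations -/
theorem chat_mul {N : ℕ} {a f χ : R12 → ℂ} (h : Rep N a f) (hχ : Continuous χ)
    (hs : ∀ z : R12, 3 ≤ ‖z‖ → χ z = 0) {σ : ℝ} (η : R12) :
    chat (fun x => χ x * f (σ⁻¹ • x)) η = ∫ ξ : R12, a ξ * chat χ (η - σ⁻¹ • ξ) := by
  have hi := SymX.integrable_of_wt h.1
  have hχi : Integrable χ := integrable_of_supp hχ hs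
  have e1 : ∀ x : R12, (χ x * f (σ⁻¹ • x)) * exp (-(I * ((inner ℝ η x : ℝ) : ℂ))) =
      ∫ ξ : R12, a ξ * (χ x * exp (-(I * ((inner ℝ (η - σ⁻¹ • ξ) x : ℝ) : ℂ)))) := by
    intro x
    rw [h.2 (σ⁻¹ • x), mul_assoc, mul_comm (∫ ξ : R12, _), ← mul_assoc, ← integral_const_mul]
    refine integral_congr_ae (Eventually.of_forall fun ξ => ?_)
    simp only
    have h2 : inner ℝ (η - σ⁻¹ • ξ) x = inner ℝ η x - inner ℝ ξ (σ⁻¹ • x) := by
      rw [inner_sub_left, real_inner_smul_left, real_inner_smul_right]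
    have h3 : exp (-(I * ((inner ℝ (η - σ⁻¹ • ξ) x : ℝ) : ℂ))) =
        exp (-(I * ((inner ℝ η x : ℝ) : ℂ))) * exp (I * ((inner ℝ ξ (σ⁻¹ • x) : ℝ) : ℂ)) := by
      rw [← Complex.exp_add, h2]
      congr 1
      push_cast
      ring
    rw [h3]
    ring
  unfold chat
  simp_rw [e1]
  rw [integral_integral_swap]
  · refine integral_congr_ae (Eventually.of_forall fun ξ => ?_)
    simp only
    rw [integral_const_mul]
  · have h4 : Integrable (fun p : R12 × R12 => χ p.1 * a p.2) (volume.prod volume) :=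
      hχi.mul_prod hi
    refine h4.mono ?_ (Eventually.of_forall fun p => ?_)
    · have h5 : AEStronglyMeasurable (fun p : R12 × R12 =>
          exp (-(I * ((inner ℝ (η - σ⁻¹ • p.2) p.1 : ℝ) : ℂ)))) (volume.prod volume) :=
        (by fun_prop : Continuous fun p : R12 × R12 =>
          exp (-(I * ((inner ℝ (η - σ⁻¹ • p.2) p.1 : ℝ) : ℂ)))).aestronglyMeasurable
      refine (h4.1.mul h5).congr (Eventually.of_forall fun p => ?_)
      simp only [Function.uncurry, Pi.mul_apply]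
      ring
    · simp only [Function.uncurry]
      have h6 : ‖exp (-(I * ((inner ℝ (η - σ⁻¹ • p.2) p.1 : ℝ) : ℂ)))‖ = 1 := by
        rw [Complex.norm_exp]
        simp
      rw [norm_mul, norm_mul, h6, mul_one, norm_mul, mul_comm]

/-- coefficients of `perz (χ f(σ⁻¹·))` -/
theorem cf_scaled {f χ : R12 → ℂ} (hf : Continuous f) (hχ : Continuous χ)
    (hs : ∀ z : R12, 3 ≤ ‖z‖ → χ z = 0) (σ : ℝ) (k : Z12) :
    cf (perz fun x => χ x * f (σ⁻¹ • x)) k = ((((2 * Real.pi) ^ 12 : ℝ)) : ℂ)⁻¹ *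
      ∫ x : R12, (χ x * f (σ⁻¹ • x)) * exp (-(I * ((inner ℝ (zv k) x : ℝ) : ℂ))) :=
  cf_perz (F := fun x => χ x * f (σ⁻¹ • x)) (by fun_prop)
    (fun z hz => by simp only [hs z hz, zero_mul]) k

theorem cf_scaled' {N : ℕ} {a f χ : R12 → ℂ} (h : Rep N a f) (hχ : Continuous χ)
    (hs : ∀ z : R12, 3 ≤ ‖z‖ → χ z = 0) (σ : ℝ) (k : Z12) :
    cf (perz fun x => χ x * f (σ⁻¹ • x)) k = ((((2 * Real.pi) ^ 12 : ℝ)) : ℂ)⁻¹ *
      ∫ ξ : R12, a ξ * chat χ (zv k - σ⁻¹ • ξ) := by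
  rw [← chat_mul h hχ hs]
  exact cf_scaled h.continuous hχ hs σ k

/-- **Main bound**: Wiener norms of periodised scaled functions. -/
theorem wn_rep (N : ℕ) (K : ℝ) (hK : 1 ≤ K) : ∃ C : ℝ, 0 ≤ C ∧ ∀ (χ : R12 → ℂ) (B : ℝ),
    ContDiff ℝ ∞ χ → (∀ z : R12, 3 ≤ ‖z‖ → χ z = 0) →
    (∀ m ≤ N + 13, ∀ y, ‖iteratedFDeriv ℝ m χ y‖ ≤ B) →
    ∀ σ h : ℝ, 0 < σ → 0 ≤ h → h ≤ K * σ → h ≤ K → ∀ a f : R12 → ℂ, Rep N a f →
    (Summable fun k => (1 + h * nk k) ^ N * ‖cf (perz fun x => χ x * f (σ⁻¹ • x)) k‖) ∧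
    wn N h (perz fun x => χ x * f (σ⁻¹ • x)) ≤ C * B * xn N a := by
  obtain ⟨C, hC, hb⟩ := chat_bound (N + 13)
  obtain ⟨A, hA, hl⟩ := lattice_sum
  refine ⟨K ^ N * C * A, by positivity, fun χ B hχ hs hB σ h hσ hh hhσ hhK a f hf => ?_⟩
  have hB0 : 0 ≤ B := (norm_nonneg _).trans (hB 0 (Nat.zero_le _) 0)
  have hK0 : 0 ≤ K := by linarith
  have hai := SymX.integrable_wt_norm hf.1
  set u : Z12 → R12 → ℝ := fun k ξ => ((1 + ‖ξ‖) ^ N * ‖a ξ‖) * ((1 + ‖zv k - σ⁻¹ • ξ‖) ^ 13)⁻¹ with hu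
  have hui : ∀ k, Integrable (u k) := by
    intro k
    refine hai.mono ?_ (Eventually.of_forall fun ξ => ?_)
    · refine hai.1.mul ?_
      refine Measurable.aestronglyMeasurable ?_
      fun_prop
    · simp only [hu]
      rw [norm_mul]
      have h1 : ‖((1 + ‖zv k - σ⁻¹ • ξ‖) ^ 13)⁻¹‖ ≤ 1 := by
        rw [norm_inv, Real.norm_of_nonneg (by positivity)]
        exact inv_le_one_of_one_le₀ (one_le_pow₀ (by linarith [norm_nonneg (zv k - σ⁻¹ • ξ)]))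
      nlinarith [norm_nonneg ((1 + ‖ξ‖) ^ N * ‖a ξ‖)]
  have hpt : ∀ k : Z12, (1 + h * nk k) ^ N * ‖cf (perz fun x => χ x * f (σ⁻¹ • x)) k‖ ≤
      K ^ N * C * B * ∫ ξ, u k ξ := by
    intro k
    rw [cf_scaled' hf hχ.continuous hs, norm_mul]
    have h0 : 0 ≤ nk k := norm_nonneg _
    have h1 : ‖∫ ξ : R12, a ξ * chat χ (zv k - σ⁻¹ • ξ)‖ ≤ ∫ ξ : R12, ‖a ξ‖ * ‖chat χ (zv k - σ⁻¹ • ξ)‖ := by
      refine (norm_integral_le_integral_norm _).trans (le_of_eq ?_)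
      simp only [norm_mul]
    have hw : 0 ≤ (1 + h * nk k) ^ N := by positivity
    calc (1 + h * nk k) ^ N * (‖((((2 * Real.pi) ^ 12 : ℝ)) : ℂ)⁻¹‖ *
          ‖∫ ξ : R12, a ξ * chat χ (zv k - σ⁻¹ • ξ)‖)
        ≤ (1 + h * nk k) ^ N * (1 * ∫ ξ : R12, ‖a ξ‖ * ‖chat χ (zv k - σ⁻¹ • ξ)‖) := by
          gcongr
          exact norm_pref
      _ = ∫ ξ : R12, (1 + h * nk k) ^ N * (‖a ξ‖ * ‖chat χ (zv k - σ⁻¹ • ξ)‖) := by
          rw [one_mul, integral_const_mul]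
      _ ≤ ∫ ξ : R12, K ^ N * C * B * u k ξ := by
          refine integral_mono_of_nonneg (Eventually.of_forall fun ξ => by positivity)
            ((hui k).const_mul _) (Eventually.of_forall fun ξ => ?_)
          simp only [hu]
          have h2 := hb χ B hχ hs hB (zv k - σ⁻¹ • ξ)
          set r : ℝ := ‖zv k - σ⁻¹ • ξ‖ with hr
          have hr0 : 0 ≤ r := norm_nonneg _
          have h3 : nk k ≤ r + σ⁻¹ * ‖ξ‖ := by
            have e : zv k = (zv k - σ⁻¹ • ξ) + σ⁻¹ • ξ := by abel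
            calc nk k = ‖zv k‖ := rfl
              _ = ‖(zv k - σ⁻¹ • ξ) + σ⁻¹ • ξ‖ := by rw [← e]
              _ ≤ r + ‖σ⁻¹ • ξ‖ := norm_add_le _ _
              _ = r + σ⁻¹ * ‖ξ‖ := by
                rw [norm_smul, norm_inv, Real.norm_of_nonneg hσ.le]
          have h4 : h * σ⁻¹ ≤ K := by
            rw [← div_eq_mul_inv, div_le_iff₀ hσ]
            exact hhσ
          have h5 : 1 + h * nk k ≤ K * ((1 + ‖ξ‖) * (1 + r)) := by
            have e1 : h * nk k ≤ h * r + h * σ⁻¹ * ‖ξ‖ := by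
              have := mul_le_mul_of_nonneg_left h3 hh
              linarith [this]
            have e2 : h * r ≤ K * r := by gcongr
            have e3 : h * σ⁻¹ * ‖ξ‖ ≤ K * ‖ξ‖ := by gcongr
            have e4 : 0 ≤ K * (‖ξ‖ * r) := by positivity
            nlinarith
          have h6 : (1 + h * nk k) ^ N ≤ K ^ N * ((1 + ‖ξ‖) ^ N * (1 + r) ^ N) := by
            rw [← mul_pow, ← mul_pow]
            exact pow_le_pow_left₀ (by positivity) h5 N
          have h7 : (1 + r) ^ N * ‖chat χ (zv k - σ⁻¹ • ξ)‖ ≤ C * B * ((1 + r) ^ 13)⁻¹ := by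
            rw [← div_eq_mul_inv, le_div_iff₀ (by positivity)]
            calc (1 + r) ^ N * ‖chat χ (zv k - σ⁻¹ • ξ)‖ * (1 + r) ^ 13
                = (1 + r) ^ (N + 13) * ‖chat χ (zv k - σ⁻¹ • ξ)‖ := by rw [pow_add]; ring
              _ ≤ C * B := h2
          calc (1 + h * nk k) ^ N * (‖a ξ‖ * ‖chat χ (zv k - σ⁻¹ • ξ)‖)
              ≤ (K ^ N * ((1 + ‖ξ‖) ^ N * (1 + r) ^ N)) * (‖a ξ‖ * ‖chat χ (zv k - σ⁻¹ • ξ)‖) := by
                gcongr
            _ = K ^ N * ((1 + ‖ξ‖) ^ N * ‖a ξ‖) * ((1 + r) ^ N * ‖chat χ (zv k - σ⁻¹ • ξ)‖) := by ring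
            _ ≤ K ^ N * ((1 + ‖ξ‖) ^ N * ‖a ξ‖) * (C * B * ((1 + r) ^ 13)⁻¹) := by gcongr
            _ = K ^ N * C * B * ((1 + ‖ξ‖) ^ N * ‖a ξ‖ * ((1 + r) ^ 13)⁻¹) := by ring
      _ = K ^ N * C * B * ∫ ξ, u k ξ := integral_const_mul _ _
  have hfin : ∀ s : Finset Z12, ∑ k ∈ s, (1 + h * nk k) ^ N *
      ‖cf (perz fun x => χ x * f (σ⁻¹ • x)) k‖ ≤ K ^ N * C * A * B * xn N a := by
    intro s
    calc ∑ k ∈ s, (1 + h * nk k) ^ N * ‖cf (perz fun x => χ x * f (σ⁻¹ • x)) k‖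
        ≤ ∑ k ∈ s, K ^ N * C * B * ∫ ξ, u k ξ := Finset.sum_le_sum fun k _ => hpt k
      _ = K ^ N * C * B * ∫ ξ, ∑ k ∈ s, u k ξ := by
          rw [← Finset.mul_sum, integral_finsetSum _ fun k _ => hui k]
      _ ≤ K ^ N * C * B * ∫ ξ : R12, ((1 + ‖ξ‖) ^ N * ‖a ξ‖) * A := by
          have : ∫ ξ, ∑ k ∈ s, u k ξ ≤ ∫ ξ : R12, ((1 + ‖ξ‖) ^ N * ‖a ξ‖) * A := by
            refine integral_mono (integrable_finsetSum _ fun k _ => hui k) (hai.mul_const A)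
              fun ξ => ?_
            simp only [hu]
            rw [← Finset.mul_sum]
            have h8 : ∑ k ∈ s, ((1 + ‖zv k - σ⁻¹ • ξ‖) ^ 13)⁻¹ ≤ A :=
              ((hl (σ⁻¹ • ξ)).1.sum_le_tsum s fun k _ => by positivity).trans (hl (σ⁻¹ • ξ)).2
            gcongr
          gcongr
      _ = K ^ N * C * A * B * xn N a := by
          rw [integral_mul_const]
          unfold xn
          ring
  have hnn : ∀ k : Z12, 0 ≤ (1 + h * nk k) ^ N * ‖cf (perz fun x => χ x * f (σ⁻¹ • x)) k‖ := by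
    intro k
    have h0 : 0 ≤ nk k := norm_nonneg _
    positivity
  refine ⟨summable_of_sum_le hnn hfin, ?_⟩
  exact Real.tsum_le_of_sum_le hnn hfin

/-! ### far region -/

/-- scaled symbols on annuli -/
theorem scale_bound {δ : ℝ} {f : R12 → ℂ} (hf : Sym δ f) {r0 : ℝ} (hr0 : 0 < r0) (hr1 : r0 ≤ 1) (k : ℕ) :
    ∃ E : ℝ, 0 ≤ E ∧ ∀ R : ℝ, 1 ≤ R → ∀ z : R12, r0 ≤ ‖z‖ → ‖z‖ ≤ 4 →
      ‖iteratedFDeriv ℝ k (fun x => f (R • x)) z‖ ≤ E * R ^ (-δ) := by
  obtain ⟨D, hD⟩ := hf.2 k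
  refine ⟨max D 0 * (5 ^ |(-δ - k)| + r0 ^ (-δ - k)), by positivity, fun R hR z hz1 hz4 => ?_⟩
  have hR0 : 0 < R := lt_of_lt_of_le one_pos hR
  have h1 := iteratedFDeriv_comp_const_smul (𝕜 := ℝ) (i := k) R (hf.1.of_le (by exact_mod_cast le_top))
  rw [h1, norm_smul, norm_pow, Real.norm_of_nonneg hR0.le]
  have h2 := hD (R • z)
  rw [norm_smul, Real.norm_of_nonneg hR0.le] at h2
  have hz0 : 0 ≤ R * ‖z‖ := by positivity
  have hrz : r0 * R ≤ R * ‖z‖ := by nlinarith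
  have h3 : (1 + R * ‖z‖) ^ (-δ - k) ≤ (5 ^ |(-δ - k)| + r0 ^ (-δ - k)) * R ^ (-δ - k) := by
    have p1 : 0 ≤ r0 ^ (-δ - k) * R ^ (-δ - k) := by positivity
    have p2 : 0 ≤ (5:ℝ) ^ |(-δ - k)| * R ^ (-δ - k) := by positivity
    rcases le_total 0 (-δ - k) with hs | hs
    · have e1 : (1 + R * ‖z‖) ^ (-δ - k) ≤ 5 ^ |(-δ - k)| * R ^ (-δ - k) := by
        rw [abs_of_nonneg hs, ← Real.mul_rpow (by norm_num) hR0.le]
        refine Real.rpow_le_rpow (by positivity) ?_ hs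
        nlinarith
      rw [add_mul]
      linarith
    · have e1 : (1 + R * ‖z‖) ^ (-δ - k) ≤ r0 ^ (-δ - k) * R ^ (-δ - k) := by
        rw [← Real.mul_rpow hr0.le hR0.le]
        exact Real.rpow_le_rpow_of_nonpos (by positivity) (by linarith) hs
      rw [add_mul]
      linarith
  have h4 : R ^ k * R ^ (-δ - k) = R ^ (-δ) := by
    rw [← Real.rpow_natCast R k, ← Real.rpow_add hR0]
    congr 1
    ring
  calc R ^ k * ‖iteratedFDeriv ℝ k f (R • z)‖
      ≤ R ^ k * (D * (1 + R * ‖z‖) ^ (-δ - k)) := by gcongr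
    _ ≤ R ^ k * (max D 0 * ((5 ^ |(-δ - k)| + r0 ^ (-δ - k)) * R ^ (-δ - k))) := by
        have : 0 ≤ (1 + R * ‖z‖) ^ (-δ - k) := by positivity
        have h5 : D * (1 + R * ‖z‖) ^ (-δ - k) ≤ max D 0 * (1 + R * ‖z‖) ^ (-δ - k) :=
          mul_le_mul_of_nonneg_right (le_max_left _ _) this
        have h6 : max D 0 * (1 + R * ‖z‖) ^ (-δ - k) ≤
            max D 0 * ((5 ^ |(-δ - k)| + r0 ^ (-δ - k)) * R ^ (-δ - k)) :=
          mul_le_mul_of_nonneg_left h3 (le_max_right _ _)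
        exact mul_le_mul_of_nonneg_left (h5.trans h6) (by positivity)
    _ = max D 0 * (5 ^ |(-δ - k)| + r0 ^ (-δ - k)) * (R ^ k * R ^ (-δ - k)) := by ring
    _ = max D 0 * (5 ^ |(-δ - k)| + r0 ^ (-δ - k)) * R ^ (-δ) := by rw [h4]

/-- derivatives of `χ f(σ⁻¹·)` if `χ` vanishes near `0` -/
theorem far_deriv {δ : ℝ} {f : R12 → ℂ} (hf : Sym δ f) {χ : R12 → ℂ} (hχ : ContDiff ℝ ∞ χ)
    (hs : ∀ z : R12, 3 ≤ ‖z‖ → χ z = 0) {r0 : ℝ} (hr0 : 0 < r0) (hr : ∀ z : R12, ‖z‖ ≤ r0 → χ z = 0)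
    (M : ℕ) : ∃ C : ℝ, 0 ≤ C ∧ ∀ σ : ℝ, 0 < σ → σ ≤ 1 → ∀ m ≤ M, ∀ y : R12,
      ‖iteratedFDeriv ℝ m (fun x => χ x * f (σ⁻¹ • x)) y‖ ≤ C * σ ^ δ := by
  have hr0' : 0 < min r0 1 := lt_min hr0 one_pos
  choose E hE0 hE using fun k => scale_bound hf hr0' (min_le_right r0 1) k
  choose A hA0 hA using fun m => SymX.deriv_bdd hχ (fun y hy => hs y (by linarith)) m
  set Bm : ℕ → ℝ := fun m => ∑ i ∈ Finset.range (m + 1), (m.choose i : ℝ) * A i * E (m - i) with hBm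
  have hBm0 : ∀ m, 0 ≤ Bm m := fun m => Finset.sum_nonneg fun i _ => by
    have := hA0 i; have := hE0 (m - i); positivity
  refine ⟨∑ m ∈ Finset.range (M + 1), Bm m, Finset.sum_nonneg fun m _ => hBm0 m,
    fun σ hσ hσ1 m hm y => ?_⟩
  have hσp : 0 ≤ σ ^ δ := by positivity
  have hR : 1 ≤ σ⁻¹ := (one_le_inv₀ hσ).2 hσ1
  have hpow : (σ⁻¹) ^ (-δ) = σ ^ δ := by
    rw [Real.inv_rpow hσ.le, Real.rpow_neg hσ.le, inv_inv]
  have hBle : Bm m * σ ^ δ ≤ (∑ m ∈ Finset.range (M + 1), Bm m) * σ ^ δ := by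
    refine mul_le_mul_of_nonneg_right ?_ hσp
    exact Finset.single_le_sum (f := Bm) (fun i _ => hBm0 i) (Finset.mem_range.2 (by omega))
  have hnn : 0 ≤ (∑ m ∈ Finset.range (M + 1), Bm m) * σ ^ δ :=
    mul_nonneg (Finset.sum_nonneg fun m _ => hBm0 m) hσp
  rcases lt_or_ge ‖y‖ r0 with hy | hy
  · have h1 : (fun z : R12 => χ z * f (σ⁻¹ • z)) =ᶠ[𝓝 y] fun _ => (0 : ℂ) := by
      have : {z : R12 | ‖z‖ < r0} ∈ 𝓝 y := (isOpen_lt continuous_norm continuous_const).mem_nhds hy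
      filter_upwards [this] with z hz
      rw [hr z (le_of_lt hz), zero_mul]
    rw [(h1.iteratedFDeriv ℝ m).eq_of_nhds]
    simp only [iteratedFDeriv_fun_zero, Pi.zero_apply, norm_zero]
    exact hnn
  rcases lt_or_ge 3 ‖y‖ with hy3 | hy3
  · have h1 : (fun z : R12 => χ z * f (σ⁻¹ • z)) =ᶠ[𝓝 y] fun _ => (0 : ℂ) := by
      have : {z : R12 | 3 < ‖z‖} ∈ 𝓝 y := (isOpen_lt continuous_const continuous_norm).mem_nhds hy3
      filter_upwards [this] with z hz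
      rw [hs z (le_of_lt hz), zero_mul]
    rw [(h1.iteratedFDeriv ℝ m).eq_of_nhds]
    simp only [iteratedFDeriv_fun_zero, Pi.zero_apply, norm_zero]
    exact hnn
  have hl := norm_iteratedFDeriv_mul_le (𝕜 := ℝ) (N := ∞) hχ
    (hf.1.comp (contDiff_const_smul σ⁻¹)) y (n := m) (by exact_mod_cast le_top)
  refine hl.trans (le_trans ?_ hBle)
  calc ∑ i ∈ Finset.range (m + 1), (m.choose i : ℝ) * ‖iteratedFDeriv ℝ i χ y‖ *
        ‖iteratedFDeriv ℝ (m - i) (f ∘ fun x => σ⁻¹ • x) y‖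
      ≤ ∑ i ∈ Finset.range (m + 1), (m.choose i : ℝ) * A i * (E (m - i) * σ ^ δ) := by
        refine Finset.sum_le_sum fun i _ => ?_
        have h7 := hA i y
        have h8 := hE (m - i) σ⁻¹ hR y (le_trans (min_le_left _ _) hy) (by linarith)
        rw [hpow] at h8
        have h9 := hA0 i
        gcongr
        exact h8
    _ = Bm m * σ ^ δ := by
        simp only [hBm]
        rw [Finset.sum_mul]
        refine Finset.sum_congr rfl fun i _ => ?_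
        ring

theorem scaled_smooth {f χ : R12 → ℂ} (hf : ContDiff ℝ ∞ f) (hχ : ContDiff ℝ ∞ χ) (σ : ℝ) :
    ContDiff ℝ ∞ (fun x => χ x * f (σ⁻¹ • x)) :=
  hχ.mul (hf.comp (contDiff_const_smul σ⁻¹))

theorem smoothPeriodic_scaled {f χ : R12 → ℂ} (hf : ContDiff ℝ ∞ f) (hχ : ContDiff ℝ ∞ χ)
    (hs : ∀ z : R12, 3 ≤ ‖z‖ → χ z = 0) (σ : ℝ) :
    IsSmoothPeriodic (perz fun x => χ x * f (σ⁻¹ • x)) :=
  smoothPeriodic (scaled_smooth hf hχ σ) fun z hz => by simp only [hs z hz, zero_mul]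

/-- if the cut-off vanishes near `0`, the periodised scaled symbol is `O(σ^δ)` -/
theorem wn_far {δ : ℝ} {f : R12 → ℂ} (hf : Sym δ f) {χ : R12 → ℂ} (hχ : ContDiff ℝ ∞ χ)
    (hs : ∀ z : R12, 3 ≤ ‖z‖ → χ z = 0) {r0 : ℝ} (hr0 : 0 < r0) (hr : ∀ z : R12, ‖z‖ ≤ r0 → χ z = 0)
    (N : ℕ) : ∃ C : ℝ, 0 ≤ C ∧ ∀ σ : ℝ, 0 < σ → σ ≤ 1 → ∀ h : ℝ, 0 ≤ h → h ≤ 1 →
      (Summable fun k => (1 + h * nk k) ^ N * ‖cf (perz fun x => χ x * f (σ⁻¹ • x)) k‖) ∧
      wn N h (perz fun x => χ x * f (σ⁻¹ • x)) ≤ C * σ ^ δ := by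
  obtain ⟨C, hC, hw⟩ := wn_smooth N
  obtain ⟨D, hD, hd⟩ := far_deriv hf hχ hs hr0 hr (N + 13)
  refine ⟨C * D, by positivity, fun σ hσ hσ1 h hh hh1 => ?_⟩
  have h1 := hw (fun x => χ x * f (σ⁻¹ • x)) (D * σ ^ δ) (scaled_smooth hf.1 hχ σ)
    (fun z hz => by simp only [hs z hz, zero_mul]) (fun m hm y => hd σ hσ hσ1 m hm y) h hh hh1
  refine ⟨h1.1, h1.2.trans (le_of_eq (by ring))⟩

/-- the cut-off `chi0` as a complex function -/
theorem chi_smooth (χ : ContDiffBump (0 : R12)) : ContDiff ℝ ∞ (fun x : R12 => ((χ x : ℝ) : ℂ)) :=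
  (Complex.ofRealCLM.contDiff).comp χ.contDiff

theorem chi_zero (χ : ContDiffBump (0 : R12)) {r : ℝ} (h : χ.rOut ≤ r) {z : R12} (hz : r ≤ ‖z‖) :
    ((χ z : ℝ) : ℂ) = 0 := by
  have : χ z = 0 := χ.zero_of_le_dist (by simpa using h.trans hz)
  rw [this, Complex.ofReal_zero]

theorem chi_one (χ : ContDiffBump (0 : R12)) {z : R12} (hz : ‖z‖ ≤ χ.rIn) :
    ((χ z : ℝ) : ℂ) = 1 := by
  have : χ z = 1 := χ.one_of_mem_closedBall (by simpa using hz)
  rw [this, Complex.ofReal_one]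

/-- uniform bound with a fixed cut-off -/
theorem wn_rep_fixed {χ : R12 → ℂ} (hχ : ContDiff ℝ ∞ χ) (hs : ∀ z : R12, 3 ≤ ‖z‖ → χ z = 0)
    (N : ℕ) (K : ℝ) (hK : 1 ≤ K) : ∃ C : ℝ, 0 ≤ C ∧
    ∀ σ h : ℝ, 0 < σ → 0 ≤ h → h ≤ K * σ → h ≤ K → ∀ a f : R12 → ℂ, Rep N a f →
    (Summable fun k => (1 + h * nk k) ^ N * ‖cf (perz fun x => χ x * f (σ⁻¹ • x)) k‖) ∧
    wn N h (perz fun x => χ x * f (σ⁻¹ • x)) ≤ C * xn N a := by
  obtain ⟨C, hC, hw⟩ := wn_rep N K hK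
  choose A hA0 hA using fun m => SymX.deriv_bdd hχ (fun y hy => hs y (by linarith)) m
  refine ⟨C * ∑ m ∈ Finset.range (N + 13 + 1), A m,
    mul_nonneg hC (Finset.sum_nonneg fun i _ => hA0 i), fun σ h h1 h2 h3 h4 a f hf => ?_⟩
  refine hw χ _ hχ hs (fun m hm y => (hA m y).trans (Finset.single_le_sum (f := A)
    (fun i _ => hA0 i) (Finset.mem_range.2 (by omega)))) σ h h1 h2 h3 h4 a f hf

end

end Crest.Agent.R086.PZ
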