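import Crest.Agent.R086.Modul2
import Crest.Agent.R086.PZ
import Crest.Agent.R086.TN
import Crest.Agent.R086.TF
import Crest.Agent.R086.SymCalc

/-!
Row 86 (S0114), Part D-torus, node Modul (helper544), part 3: coefficients of the orbit.
-/

set_option autoImplicit false

open MeasureTheory Complex Set Filter
open scoped ContDiff Topology
open Crest.AnalysisR.PDE.NLS (IsSmoothPeriodic)

namespace Crest.Agent.R086.MOD

noncomputable section

/-! ### bounds for the coefficient integrals -/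

theorem cf_perz_G {ψ f : R12 → ℂ} (h : Good ψ) (hf : Continuous f) (σ : ℝ) (k : Z12) :
    cf (perz fun x => ψ x * f (σ⁻¹ • x)) k = G ψ f σ k :=
  PZ.cf_scaled hf h.1.continuous (fun z hz => h.2 z (by linarith)) σ k

theorem bd {ψ f : R12 → ℂ} (h : Good ψ) (N : ℕ) (hf : InX N f) :
    ∃ C : ℝ, 0 ≤ C ∧ ∀ σ h' : ℝ, 0 < σ → 0 ≤ h' → h' ≤ 4 * σ → h' ≤ 4 → ∀ F : Finset Z12,
      ∑ k ∈ F, (1 + h' * nk k) ^ N * ‖G ψ f σ k‖ ≤ C := by
  obtain ⟨a, ha⟩ := hf
  obtain ⟨C, hC, hw⟩ := PZ.wn_rep N 4 (by norm_num)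
  have hB : ∃ B : ℝ, 0 ≤ B ∧ ∀ m ≤ N + 13, ∀ y, ‖iteratedFDeriv ℝ m ψ y‖ ≤ B := by
    have h1 := fun m => SymX.deriv_bdd h.1 (fun y hy => h.2 y (by linarith)) m
    choose D hD0 hD using h1
    refine ⟨∑ m ∈ Finset.range (N + 14), D m, Finset.sum_nonneg fun m _ => hD0 m, fun m hm y => ?_⟩
    refine (hD m y).trans ?_
    exact Finset.single_le_sum (fun i _ => hD0 i) (Finset.mem_range.2 (by omega))
  obtain ⟨B, hB0, hB⟩ := hB
  have hcont : Continuous f := ha.continuous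
  refine ⟨C * B * PZ.xn N a, ?_, fun σ h' hσ h0 h1 h2 F => ?_⟩
  · have : 0 ≤ PZ.xn N a := integral_nonneg fun ξ => by positivity
    positivity
  · obtain ⟨hs, hle⟩ := hw ψ B h.1 (fun z hz => h.2 z (by linarith)) hB σ h' hσ h0 h1 h2 a f ha
    simp only [cf_perz_G h hcont] at hs
    refine (hs.sum_le_tsum F fun k _ => ?_).trans ?_
    · have : 0 ≤ nk k := norm_nonneg _
      positivity
    · refine le_trans (le_of_eq ?_) hle
      unfold wn
      simp only [cf_perz_G h hcont]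

/-! ### linearity of `G` -/

theorem G_lin (ψ : R12 → ℂ) (h : Good ψ) (f g : R12 → ℂ) (hf : Continuous f) (hg : Continuous g)
    (c d : ℂ) (σ : ℝ) (k : Z12) :
    G ψ (fun y => c * f y + d * g y) σ k = c * G ψ f σ k + d * G ψ g σ k := by
  unfold G
  have : ∫ x : R12, ψ x * (c * f (σ⁻¹ • x) + d * g (σ⁻¹ • x)) * ek k x =
      c * (∫ x : R12, ψ x * f (σ⁻¹ • x) * ek k x) + d * ∫ x : R12, ψ x * g (σ⁻¹ • x) * ek k x := by
    rw [← integral_const_mul, ← integral_const_mul, ← integral_add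
      ((integrable_G h hf σ k).const_mul c) ((integrable_G h hg σ k).const_mul d)]
    apply integral_congr_ae
    filter_upwards with x
    ring
  rw [this]
  ring

theorem G_smul (ψ f : R12 → ℂ) (c : ℂ) (σ : ℝ) (k : Z12) :
    G ψ (fun y => c * f y) σ k = c * G ψ f σ k := by
  unfold G
  have : ∫ x : R12, ψ x * (c * f (σ⁻¹ • x)) * ek k x =
      c * (∫ x : R12, ψ x * f (σ⁻¹ • x) * ek k x) := by
    rw [← integral_const_mul]
    apply integral_congr_ae
    filter_upwards with x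
    ring
  rw [this]
  ring

/-- the translation vector -/
def bx (b : MIx → ℝ) : R12 := WithLp.toLp 2 (fun j => b (some (some j)))

theorem bx_sum (b : MIx → ℝ) : bx b = ∑ j : Fin 12, (b (some (some j))) • ei j := by
  have := Sym.sum_coord (bx b)
  exact this

theorem norm_bx {b : MIx → ℝ} {β : ℝ} (hb : ∀ m, |b m| ≤ β) : ‖bx b‖ ≤ 4 * β := by
  have hβ : 0 ≤ β := (abs_nonneg _).trans (hb none)
  rw [EuclideanSpace.norm_eq]
  apply Real.sqrt_le_iff.2
  refine ⟨by positivity, ?_⟩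
  calc ∑ i, ‖(bx b) i‖ ^ 2 ≤ ∑ _i : Fin 12, β ^ 2 := by
        apply Finset.sum_le_sum
        intro i _
        have : ‖(bx b) i‖ ≤ β := hb (some (some i))
        gcongr
    _ = 12 * β ^ 2 := by simp
    _ ≤ (4 * β) ^ 2 := by nlinarith [sq_nonneg β]

theorem G_deriv_right (ψ : R12 → ℂ) (h : Good ψ) (f : R12 → ℂ) (hf : ContDiff ℝ 1 f)
    (b : MIx → ℝ) (σ : ℝ) (k : Z12) :
    G ψ (fun y => fderiv ℝ f y (bx b)) σ k =
      ∑ j : Fin 12, (b (some (some j)) : ℂ) * G ψ (fun y => fderiv ℝ f y (ei j)) σ k := by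
  have hc : ∀ v : R12, Continuous (fun y => fderiv ℝ f y v) := fun v =>
    (hf.continuous_fderiv (by norm_num)).clm_apply continuous_const
  unfold G
  simp only [mul_left_comm _ ((((2 * Real.pi) ^ 12 : ℝ)) : ℂ)⁻¹]
  rw [← Finset.mul_sum]
  congr 1
  simp only [← integral_const_mul]
  rw [← integral_finsetSum]
  · apply integral_congr_ae
    filter_upwards with x
    rw [bx_sum, map_sum]
    simp only [map_smul, Complex.real_smul, Finset.mul_sum, Finset.sum_mul]
    apply Finset.sum_congr rfl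
    intro j _
    ring
  · intro j _
    exact (integrable_G h (hc (ei j)) σ k).const_mul _

theorem G_deriv_left (ψ : R12 → ℂ) (h : Good ψ) (f : R12 → ℂ) (hf : Continuous f)
    (b : MIx → ℝ) (σ : ℝ) (k : Z12) :
    G (fun x => fderiv ℝ ψ x (bx b)) f σ k =
      ∑ j : Fin 12, (b (some (some j)) : ℂ) * G (fun x => fderiv ℝ ψ x (ei j)) f σ k := by
  unfold G
  simp only [mul_left_comm _ ((((2 * Real.pi) ^ 12 : ℝ)) : ℂ)⁻¹]
  rw [← Finset.mul_sum]
  congr 1
  simp only [← integral_const_mul]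
  rw [← integral_finsetSum]
  · apply integral_congr_ae
    filter_upwards with x
    rw [bx_sum, map_sum]
    simp only [map_smul, Complex.real_smul, Finset.sum_mul]
    apply Finset.sum_congr rfl
    intro j _
    ring
  · intro j _
    exact (integrable_G (h.dderiv (ei j)) hf σ k).const_mul _

/-! ### the orbit -/

/-- complex valued cut-off -/
def ch (x : R12) : ℂ := ((chi0 x : ℝ) : ℂ)

theorem good_ch : Good ch := by
  refine ⟨Complex.ofRealCLM.contDiff.comp chi0.contDiff, fun x hx => ?_⟩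
  unfold ch
  rw [chi0.zero_of_le_dist]
  · simp
  · simpa [chi0] using hx

variable {n : ℕ} (P : Profile n)

/-- exponent -/
def zz : ℂ := -(1 / (n : ℂ)) + I * (P.om : ℂ)

theorem zz_re : (zz P).re = -(1 / (n : ℝ)) := by
  unfold zz
  have : (1 / (n : ℂ)) = ((1 / (n : ℝ) : ℝ) : ℂ) := by push_cast; rfl
  rw [this]
  simp

include P in
theorem one_div_n : 0 < 1 / (n : ℝ) ∧ 1 / (n : ℝ) ≤ 1 := by
  have h1 := P.n_pos
  have h2 := P.two_le
  have h3 : (2 : ℝ) ≤ n := by exact_mod_cast h2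
  refine ⟨by positivity, ?_⟩
  rw [div_le_one h1]; linarith

theorem zz_re_bounds : (zz P).re ≤ 0 ∧ -1 ≤ (zz P).re := by
  obtain ⟨h1, h2⟩ := one_div_n P
  rw [zz_re]
  constructor <;> linarith

/-- the phase of the coefficient -/
def AA (b : MIx → ℝ) (τ : ℝ) (k : Z12) : ℝ := b none + Real.sqrt τ * inner ℝ (zv k) (bx b)

/-- normalised difference -/
def D0 (b : MIx → ℝ) (τ : ℝ) (X : R12) : ℂ :=
  EE (zz P) (b (some none)) (b none) 1 * P.qt (τ * lam (b (some none)) 1) (X + Real.sqrt τ • bx b)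
    - P.qt τ X - ∑ m, (b m : ℂ) * P.mt m τ X

theorem smul_sp {v : R12 → ℂ} (hv : IsSmoothPeriodic v) (c : ℂ) :
    IsSmoothPeriodic (fun x => c * v x) :=
  ⟨contDiff_const.mul hv.1, fun x i => by simp only [hv.2 x i]⟩

theorem cf_zero_fun (k : Z12) : cf (fun _ => (0 : ℂ)) k = 0 := by
  unfold cf; simp

theorem sum_sp {ι : Type*} (s : Finset ι) (v : ι → R12 → ℂ) (hv : ∀ m, IsSmoothPeriodic (v m)) :
    IsSmoothPeriodic (fun x => ∑ m ∈ s, v m x) ∧
      ∀ k, cf (fun x => ∑ m ∈ s, v m x) k = ∑ m ∈ s, cf (v m) k := by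
  classical
  induction s using Finset.induction_on with
  | empty =>
    refine ⟨⟨by simpa using contDiff_const, fun x i => by simp⟩, fun k => ?_⟩
    simp only [Finset.sum_empty]
    exact cf_zero_fun k
  | insert a s ha ih =>
    simp only [Finset.sum_insert ha]
    have h := TNl.cf_add tf1 tf2 (hv a) ih.1
    refine ⟨h.1, fun k => ?_⟩
    rw [h.2]
    simp only
    rw [ih.2 k]

theorem sub_sp {v w : R12 → ℂ} (hv : IsSmoothPeriodic v) (hw : IsSmoothPeriodic w) :
    IsSmoothPeriodic (fun x => v x - w x) ∧ ∀ k, cf (fun x => v x - w x) k = cf v k - cf w k := by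
  have h := TNl.cf_add tf1 tf2 hv (smul_sp hw (-1))
  have e : (fun x => v x - w x) = fun x => v x + (-1) * w x := by ext x; ring
  rw [e]
  refine ⟨h.1, fun k => ?_⟩
  rw [h.2]
  simp only
  rw [TNl.cf_smul]
  ring

theorem sp_qt {τ : ℝ} : IsSmoothPeriodic (P.qt τ) := by
  unfold Profile.qt
  apply PZ.smoothPeriodic
  · exact (good_ch.1).mul (P.smooth.comp (contDiff_const_smul _))
  · intro z hz
    have := good_ch.2 z (by linarith)
    unfold ch at this
    rw [this, zero_mul]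

theorem contDiff_mode1 (m : MIx) : ContDiff ℝ ∞ (P.mode1 m) := (P.symMode1 m).1

theorem sp_mt (m : MIx) {τ : ℝ} : IsSmoothPeriodic (P.mt m τ) := by
  unfold Profile.mt
  apply PZ.smoothPeriodic
  · exact (good_ch.1).mul ((contDiff_mode1 P m).comp (contDiff_const_smul _))
  · intro z hz
    have := good_ch.2 z (by linarith)
    unfold ch at this
    rw [this, zero_mul]

theorem cf_qt (τ : ℝ) (k : Z12) : cf (P.qt τ) k = G ch P.Q (Real.sqrt τ) k :=
  cf_perz_G good_ch P.smooth.continuous _ k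

theorem cf_mt (m : MIx) (τ : ℝ) (k : Z12) : cf (P.mt m τ) k = G ch (P.mode1 m) (Real.sqrt τ) k :=
  cf_perz_G good_ch (contDiff_mode1 P m).continuous _ k

theorem EE_shift (z : ℂ) (bT A A' : ℝ) :
    EE z bT A 1 * exp (I * (A' : ℂ)) = EE z bT (A + A') 1 := by
  unfold EE
  rw [← Complex.exp_add]
  congr 1
  push_cast
  ring

theorem D0_facts (b : MIx → ℝ) (τ : ℝ) : IsSmoothPeriodic (D0 P b τ) ∧ ∀ k,
    cf (D0 P b τ) k = EE (zz P) (b (some none)) (AA b τ k) 1 *
        G ch P.Q (sg τ (b (some none)) 1) k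
      - G ch P.Q (Real.sqrt τ) k - ∑ m, (b m : ℂ) * G ch (P.mode1 m) (Real.sqrt τ) k := by
  have h1 := TNl.cf_trans tf1 tf2 (sp_qt P (τ := τ * lam (b (some none)) 1)) (Real.sqrt τ • bx b)
  have h2 := smul_sp h1.1 (EE (zz P) (b (some none)) (b none) 1)
  have h3 := sub_sp h2 (sp_qt P (τ := τ))
  have h4 := sum_sp Finset.univ (fun m x => (b m : ℂ) * P.mt m τ x)
    (fun m => smul_sp (sp_mt P m (τ := τ)) (b m))
  have h5 := sub_sp h3.1 h4.1
  refine ⟨h5.1, fun k => ?_⟩
  have e := h5.2 k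
  unfold D0
  rw [e, h3.2 k, h4.2 k, TNl.cf_smul, h1.2]
  simp only [TNl.cf_smul, cf_qt, cf_mt]
  congr 2
  have e1 : TNl.ec k (Real.sqrt τ • bx b) = exp (I * ((Real.sqrt τ * inner ℝ (zv k) (bx b) : ℝ) : ℂ)) := by
    unfold TNl.ec
    rw [real_inner_smul_right]
  rw [e1]
  have e2 : EE (zz P) (b (some none)) (AA b τ k) 1 =
      EE (zz P) (b (some none)) (b none) 1 *
        exp (I * ((Real.sqrt τ * inner ℝ (zv k) (bx b) : ℝ) : ℂ)) := by
    rw [EE_shift]; rfl
  rw [e2]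
  have e3 : sg τ (b (some none)) 1 = Real.sqrt (τ * lam (b (some none)) 1) := rfl
  rw [e3]
  ring

end

end Crest.Agent.R086.MOD
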