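import Crest.Agent.R086.Modul3

/-!
Row 86 (S0114), Part D-torus, node Modul (helper544), part 4: the core estimate.
-/

set_option autoImplicit false

open MeasureTheory Complex Set Filter
open scoped ContDiff Topology
open Crest.AnalysisR.PDE.NLS (IsSmoothPeriodic)

namespace Crest.Agent.R086.MOD

noncomputable section

variable {n : ℕ} (P : Profile n)

theorem lam_zero (bT : ℝ) : lam bT 0 = 1 := by unfold lam; ring

theorem sg_zero (τ bT : ℝ) : sg τ bT 0 = Real.sqrt τ := by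
  unfold sg; rw [lam_zero, mul_one]

theorem EE_zero (z : ℂ) (bT A : ℝ) : EE z bT A 0 = 1 := by
  unfold EE; rw [lam_zero]; simp

/-- the curve of coefficients -/
def cc (b : MIx → ℝ) (τ : ℝ) (k : Z12) (θ : ℝ) : ℂ :=
  EE (zz P) (b (some none)) (AA b τ k) θ * G ch P.Q (sg τ (b (some none)) θ) k

def cc1 (b : MIx → ℝ) (τ : ℝ) (k : Z12) (θ : ℝ) : ℂ :=
  C1 (zz P) (b (some none)) (AA b τ k) (fun θ => G ch P.Q (sg τ (b (some none)) θ) k)
    (fun θ => G ch (eul P.Q) (sg τ (b (some none)) θ) k) θ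

def cc2 (b : MIx → ℝ) (τ : ℝ) (k : Z12) (θ : ℝ) : ℂ :=
  C2 (zz P) (b (some none)) (AA b τ k) (fun θ => G ch P.Q (sg τ (b (some none)) θ) k)
    (fun θ => G ch (eul P.Q) (sg τ (b (some none)) θ) k)
    (fun θ => G ch (eul (eul P.Q)) (sg τ (b (some none)) θ) k) θ

theorem smooth_eulQ : ContDiff ℝ ∞ (eul P.Q) := P.symQ.eul.1
theorem smooth_eul2Q : ContDiff ℝ ∞ (eul (eul P.Q)) := P.symQ.eul.eul.1

/-- exact coefficient identity -/
theorem cf_D0 (b : MIx → ℝ) {τ : ℝ} (hτ : 0 < τ) (k : Z12) :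
    cf (D0 P b τ) k = (cc P b τ k 1 - cc P b τ k 0 - cc1 P b τ k 0) +
      (Real.sqrt τ : ℂ) * ∑ j : Fin 12, (b (some (some j)) : ℂ) *
        G (fun x => fderiv ℝ ch x (ei j)) P.Q (Real.sqrt τ) k := by
  have hs : 0 < Real.sqrt τ := Real.sqrt_pos.2 hτ
  have hsc : (Real.sqrt τ : ℂ) ≠ 0 := by exact_mod_cast hs.ne'
  have hQ1 : ContDiff ℝ 1 P.Q := P.smooth.of_le (by exact_mod_cast le_top)
  rw [(D0_facts P b τ).2 k]
  -- the modes
  have hm0 : G ch (P.mode1 none) (Real.sqrt τ) k = I * G ch P.Q (Real.sqrt τ) k :=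
    G_smul ch P.Q I _ k
  have hm1 : G ch (P.mode1 (some none)) (Real.sqrt τ) k =
      ((1 : ℂ) / n - I * P.om) * G ch P.Q (Real.sqrt τ) k + (1 / 2) * G ch (eul P.Q) (Real.sqrt τ) k :=
    G_lin ch good_ch P.Q (eul P.Q) P.smooth.continuous (smooth_eulQ P).continuous _ _ _ k
  have hm2 : ∀ j, G ch (P.mode1 (some (some j))) (Real.sqrt τ) k =
      G ch (fun y => fderiv ℝ P.Q y (ei j)) (Real.sqrt τ) k := fun j => rfl
  have hsum : ∑ m, (b m : ℂ) * G ch (P.mode1 m) (Real.sqrt τ) k =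
      (b none : ℂ) * (I * G ch P.Q (Real.sqrt τ) k) +
      ((b (some none) : ℂ) * (((1 : ℂ) / n - I * P.om) * G ch P.Q (Real.sqrt τ) k +
        (1 / 2) * G ch (eul P.Q) (Real.sqrt τ) k) +
        G ch (fun y => fderiv ℝ P.Q y (bx b)) (Real.sqrt τ) k) := by
    rw [Fintype.sum_option, Fintype.sum_option, hm0, hm1, G_deriv_right ch good_ch P.Q hQ1 b]
    simp only [hm2]
  have hibp := ibp good_ch hQ1 hs k (bx b)
  rw [G_deriv_left ch good_ch P.Q P.smooth.continuous b] at hibp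
  have hc1 : cc1 P b τ k 0 = (I * (AA b τ k : ℂ) - zz P * (b (some none) : ℂ)) *
      G ch P.Q (Real.sqrt τ) k + (b (some none) / 2 : ℂ) * G ch (eul P.Q) (Real.sqrt τ) k := by
    unfold cc1 C1 pp
    simp only [EE_zero, lam_zero, sg_zero]
    push_cast
    ring
  have hc0 : cc P b τ k 0 = G ch P.Q (Real.sqrt τ) k := by
    unfold cc
    rw [EE_zero, sg_zero, one_mul]
  rw [hsum, hc1, hc0]
  unfold cc AA zz
  push_cast
  have h2 : (Real.sqrt τ : ℂ) * ∑ j : Fin 12, (b (some (some j)) : ℂ) *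
        G (fun x => fderiv ℝ ch x (ei j)) P.Q (Real.sqrt τ) k =
      (Real.sqrt τ : ℂ) * (I * ((inner ℝ (zv k) (bx b) : ℝ) : ℂ) * G ch P.Q (Real.sqrt τ) k) -
        G ch (fun y => fderiv ℝ P.Q y (bx b)) (Real.sqrt τ) k := by
    rw [hibp, mul_add, ← mul_assoc (Real.sqrt τ : ℂ) ((Real.sqrt τ : ℂ)⁻¹), mul_inv_cancel₀ hsc,
      one_mul]
    ring
  rw [h2]
  ring

theorem abs_AA {b : MIx → ℝ} {β τ : ℝ} (hb : ∀ m, |b m| ≤ β) (k : Z12) :
    |AA b τ k| ≤ β * (1 + 4 * (Real.sqrt τ * nk k)) := by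
  have hβ : 0 ≤ β := (abs_nonneg _).trans (hb none)
  unfold AA
  have h1 : |inner ℝ (zv k) (bx b)| ≤ nk k * (4 * β) := by
    refine (abs_real_inner_le_norm _ _).trans ?_
    have := norm_bx hb
    have h0 : 0 ≤ ‖zv k‖ := norm_nonneg _
    exact mul_le_mul_of_nonneg_left this h0
  calc |b none + Real.sqrt τ * inner ℝ (zv k) (bx b)|
      ≤ |b none| + |Real.sqrt τ * inner ℝ (zv k) (bx b)| := abs_add_le _ _
    _ ≤ β + Real.sqrt τ * (nk k * (4 * β)) := by
        rw [abs_mul, abs_of_nonneg (Real.sqrt_nonneg τ)]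
        have := mul_le_mul_of_nonneg_left h1 (Real.sqrt_nonneg τ)
        linarith [hb none]
    _ = _ := by ring

/-- **core estimate** -/
theorem core (M0 : ℕ) : ∃ K : ℝ, 0 ≤ K ∧ ∀ τ : ℝ, 0 < τ → τ ≤ 1 → ∀ (b : MIx → ℝ) (β : ℝ),
    β ≤ 1 / 4 → (∀ m, |b m| ≤ β) → ∀ F : Finset Z12,
      ∑ k ∈ F, (1 + (2 * Real.sqrt τ) * nk k) ^ M0 * ‖cf (D0 P b τ) k‖ ≤
        K * (β ^ 2 + Real.sqrt τ * β) := by
  have hQ1 : ContDiff ℝ 1 P.Q := P.smooth.of_le (by exact_mod_cast le_top)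
  have hE1 : ContDiff ℝ 1 (eul P.Q) := (smooth_eulQ P).of_le (by exact_mod_cast le_top)
  have hδ := P.delta_pos
  obtain ⟨B0, hB0, hb0⟩ := bd good_ch (M0 + 2) (Sym.inX P.symQ hδ (M0 + 2))
  obtain ⟨B1, hB1, hb1⟩ := bd good_ch (M0 + 2) (Sym.inX P.symQ.eul hδ (M0 + 2))
  obtain ⟨B2, hB2, hb2⟩ := bd good_ch (M0 + 2) (Sym.inX P.symQ.eul.eul hδ (M0 + 2))
  have hj := fun j : Fin 12 => bd (good_ch.dderiv (ei j)) M0 (Sym.inX P.symQ hδ M0)
  choose Bj hBj hbj using hj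
  set Z : ℝ := 1 + ‖zz P‖ with hZ
  have hZ1 : 1 ≤ Z := by rw [hZ]; linarith [norm_nonneg (zz P)]
  obtain ⟨hz0, hz1⟩ := zz_re_bounds P
  set K1 : ℝ := 2 * (2 + 2 * Z) ^ 2 * (B0 + B1 + B2) with hK1
  set K2 : ℝ := ∑ j, Bj j with hK2
  have hK10 : 0 ≤ K1 := by positivity
  have hK20 : 0 ≤ K2 := Finset.sum_nonneg fun j _ => hBj j
  refine ⟨K1 + K2, by positivity, fun τ hτ hτ1 b β hβ hb F => ?_⟩
  have hβ0 : 0 ≤ β := (abs_nonneg _).trans (hb none)
  have hs : 0 < Real.sqrt τ := Real.sqrt_pos.2 hτ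
  have hs1 : Real.sqrt τ ≤ 1 := Real.sqrt_le_one.2 hτ1
  have hbT : |b (some none)| ≤ 1 / 4 := (hb _).trans hβ
  have hl : ∀ θ ∈ Icc (0 : ℝ) 1, 0 < lam (b (some none)) θ := fun θ hθ => by
    have := (lam_bounds hbT hθ).1; linarith
  have hnk : ∀ k : Z12, 0 ≤ nk k := fun k => norm_nonneg _
  have hw : ∀ k : Z12, 0 ≤ (1 + (2 * Real.sqrt τ) * nk k) ^ M0 := fun k => by
    have := hnk k; positivity
  -- Taylor part
  have hT : ∑ k ∈ F, (1 + (2 * Real.sqrt τ) * nk k) ^ M0 *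
      ‖cc P b τ k 1 - cc P b τ k 0 - cc1 P b τ k 0‖ ≤ K1 * β ^ 2 := by
    apply taylor2 F (fun k => (1 + (2 * Real.sqrt τ) * nk k) ^ M0) hw (cc P b τ) (cc1 P b τ)
      (cc2 P b τ)
    · intro k _ θ hθ
      exact hasDerivAt_C0 (zz P) (AA b τ k) (hl θ hθ) (hasDerivAt_Gsg good_ch hQ1 hτ (hl θ hθ) k)
    · intro k _ θ hθ
      exact hasDerivAt_C1 (zz P) (AA b τ k) (hl θ hθ) (hasDerivAt_Gsg good_ch hQ1 hτ (hl θ hθ) k)
        (hasDerivAt_Gsg good_ch hE1 hτ (hl θ hθ) k)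
    · intro θ hθ
      obtain ⟨hl1, hl2⟩ := lam_bounds hbT hθ
      have hσ : 0 < sg τ (b (some none)) θ := sg_pos hτ (hl θ hθ)
      have hσ2 : 2 * Real.sqrt τ ≤ 4 * sg τ (b (some none)) θ := by
        have h1 : Real.sqrt τ ≤ 2 * sg τ (b (some none)) θ := by
          rw [show 2 * sg τ (b (some none)) θ = Real.sqrt (4 * (τ * lam (b (some none)) θ)) by
            unfold sg
            rw [Real.sqrt_mul (by norm_num : (0:ℝ) ≤ 4)]
            congr 1
            rw [show (4 : ℝ) = 2 ^ 2 by norm_num, Real.sqrt_sq (by norm_num)]]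
          apply Real.sqrt_le_sqrt
          nlinarith
        linarith
      have h24 : 2 * Real.sqrt τ ≤ 4 := by linarith
      have e0 := hb0 (sg τ (b (some none)) θ) (2 * Real.sqrt τ) hσ (by positivity) hσ2 h24 F
      have e1 := hb1 (sg τ (b (some none)) θ) (2 * Real.sqrt τ) hσ (by positivity) hσ2 h24 F
      have e2 := hb2 (sg τ (b (some none)) θ) (2 * Real.sqrt τ) hσ (by positivity) hσ2 h24 F
      have hterm : ∀ k ∈ F, (1 + (2 * Real.sqrt τ) * nk k) ^ M0 * ‖cc2 P b τ k θ‖ ≤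
          2 * β ^ 2 * (2 + 2 * Z) ^ 2 *
            ((1 + (2 * Real.sqrt τ) * nk k) ^ (M0 + 2) * ‖G ch P.Q (sg τ (b (some none)) θ) k‖ +
             (1 + (2 * Real.sqrt τ) * nk k) ^ (M0 + 2) * ‖G ch (eul P.Q) (sg τ (b (some none)) θ) k‖ +
             (1 + (2 * Real.sqrt τ) * nk k) ^ (M0 + 2) *
              ‖G ch (eul (eul P.Q)) (sg τ (b (some none)) θ) k‖) := by
        intro k _
        have hnk0 := hnk k
        have ht : 0 ≤ Real.sqrt τ * nk k := by positivity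
        have h3 := norm_C2_le (z := zz P) (bT := b (some none)) (A := AA b τ k) (θ := θ) (β := β)
          (a := 1 + 4 * (Real.sqrt τ * nk k)) (Z := Z) hz0 hz1
          (by rw [hZ]; linarith) (hb _) hβ (abs_AA hb k) (by linarith) hZ1 hθ
          (fun θ => G ch P.Q (sg τ (b (some none)) θ) k)
          (fun θ => G ch (eul P.Q) (sg τ (b (some none)) θ) k)
          (fun θ => G ch (eul (eul P.Q)) (sg τ (b (some none)) θ) k)
        have h4 : (1 + 4 * (Real.sqrt τ * nk k) + 2 * Z + 1) ^ 2 ≤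
            (2 + 2 * Z) ^ 2 * (1 + (2 * Real.sqrt τ) * nk k) ^ 2 := by
          rw [← mul_pow]
          apply pow_le_pow_left₀ (by positivity)
          nlinarith
        have hg : 0 ≤ ‖G ch P.Q (sg τ (b (some none)) θ) k‖ +
            ‖G ch (eul P.Q) (sg τ (b (some none)) θ) k‖ +
            ‖G ch (eul (eul P.Q)) (sg τ (b (some none)) θ) k‖ := by positivity
        calc (1 + (2 * Real.sqrt τ) * nk k) ^ M0 * ‖cc2 P b τ k θ‖
            ≤ (1 + (2 * Real.sqrt τ) * nk k) ^ M0 *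
              (2 * β ^ 2 * (1 + 4 * (Real.sqrt τ * nk k) + 2 * Z + 1) ^ 2 *
                (‖G ch P.Q (sg τ (b (some none)) θ) k‖ +
            ‖G ch (eul P.Q) (sg τ (b (some none)) θ) k‖ +
            ‖G ch (eul (eul P.Q)) (sg τ (b (some none)) θ) k‖)) :=
              mul_le_mul_of_nonneg_left h3 (hw k)
          _ ≤ (1 + (2 * Real.sqrt τ) * nk k) ^ M0 *
              (2 * β ^ 2 * ((2 + 2 * Z) ^ 2 * (1 + (2 * Real.sqrt τ) * nk k) ^ 2) *
                (‖G ch P.Q (sg τ (b (some none)) θ) k‖ +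
            ‖G ch (eul P.Q) (sg τ (b (some none)) θ) k‖ +
            ‖G ch (eul (eul P.Q)) (sg τ (b (some none)) θ) k‖)) := by
              apply mul_le_mul_of_nonneg_left _ (hw k)
              apply mul_le_mul_of_nonneg_right _ hg
              exact mul_le_mul_of_nonneg_left h4 (by positivity)
          _ = _ := by rw [pow_add]; ring
      refine (Finset.sum_le_sum hterm).trans ?_
      rw [← Finset.mul_sum, Finset.sum_add_distrib, Finset.sum_add_distrib]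
      have hc : 0 ≤ 2 * β ^ 2 * (2 + 2 * Z) ^ 2 := by positivity
      refine (mul_le_mul_of_nonneg_left (add_le_add (add_le_add e0 e1) e2) hc).trans (le_of_eq ?_)
      rw [hK1]; ring
  -- cut-off part
  have hC : ∑ k ∈ F, (1 + (2 * Real.sqrt τ) * nk k) ^ M0 *
      ‖(Real.sqrt τ : ℂ) * ∑ j : Fin 12, (b (some (some j)) : ℂ) *
        G (fun x => fderiv ℝ ch x (ei j)) P.Q (Real.sqrt τ) k‖ ≤ K2 * (Real.sqrt τ * β) := by
    have h1 : ∀ k ∈ F, (1 + (2 * Real.sqrt τ) * nk k) ^ M0 *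
        ‖(Real.sqrt τ : ℂ) * ∑ j : Fin 12, (b (some (some j)) : ℂ) *
          G (fun x => fderiv ℝ ch x (ei j)) P.Q (Real.sqrt τ) k‖ ≤
        (Real.sqrt τ * β) * ∑ j : Fin 12, (1 + (2 * Real.sqrt τ) * nk k) ^ M0 *
          ‖G (fun x => fderiv ℝ ch x (ei j)) P.Q (Real.sqrt τ) k‖ := by
      intro k _
      rw [norm_mul, Complex.norm_real, Real.norm_of_nonneg hs.le]
      have h2 : ‖∑ j : Fin 12, (b (some (some j)) : ℂ) *
          G (fun x => fderiv ℝ ch x (ei j)) P.Q (Real.sqrt τ) k‖ ≤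
          β * ∑ j : Fin 12, ‖G (fun x => fderiv ℝ ch x (ei j)) P.Q (Real.sqrt τ) k‖ := by
        rw [Finset.mul_sum]
        refine (norm_sum_le _ _).trans (Finset.sum_le_sum fun j _ => ?_)
        rw [norm_mul, Complex.norm_real, Real.norm_eq_abs]
        exact mul_le_mul_of_nonneg_right (hb _) (norm_nonneg _)
      calc _ ≤ (1 + (2 * Real.sqrt τ) * nk k) ^ M0 * (Real.sqrt τ * (β *
          ∑ j : Fin 12, ‖G (fun x => fderiv ℝ ch x (ei j)) P.Q (Real.sqrt τ) k‖)) := by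
            apply mul_le_mul_of_nonneg_left _ (hw k)
            exact mul_le_mul_of_nonneg_left h2 hs.le
        _ = _ := by rw [← Finset.mul_sum]; ring
    refine (Finset.sum_le_sum h1).trans ?_
    rw [← Finset.mul_sum, Finset.sum_comm]
    have h3 : ∑ j : Fin 12, ∑ k ∈ F, (1 + (2 * Real.sqrt τ) * nk k) ^ M0 *
          ‖G (fun x => fderiv ℝ ch x (ei j)) P.Q (Real.sqrt τ) k‖ ≤ K2 := by
      rw [hK2]
      apply Finset.sum_le_sum
      intro j _
      exact hbj j (Real.sqrt τ) (2 * Real.sqrt τ) hs (by positivity) (by linarith) (by linarith) F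
    calc (Real.sqrt τ * β) * _ ≤ (Real.sqrt τ * β) * K2 :=
          mul_le_mul_of_nonneg_left h3 (by positivity)
      _ = _ := by ring
  have hfin : ∑ k ∈ F, (1 + (2 * Real.sqrt τ) * nk k) ^ M0 * ‖cf (D0 P b τ) k‖ ≤
      K1 * β ^ 2 + K2 * (Real.sqrt τ * β) := by
    refine le_trans ?_ (add_le_add hT hC)
    rw [← Finset.sum_add_distrib]
    apply Finset.sum_le_sum
    intro k _
    rw [cf_D0 P b hτ k, ← mul_add]
    exact mul_le_mul_of_nonneg_left (norm_add_le _ _) (hw k)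
  refine hfin.trans ?_
  have h5 : 0 ≤ β ^ 2 := by positivity
  have h6 : 0 ≤ Real.sqrt τ * β := by positivity
  nlinarith [mul_nonneg hK10 h6, mul_nonneg hK20 h5]

end

end Crest.Agent.R086.MOD
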