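import Crest.Agent.R086.TorBasic

/-!
Row 86, node Modul, second clause (helper333): comparison of the norms at scales `τ` and `τ (1 - b_T)`.
-/

set_option autoImplicit false

open MeasureTheory Complex Set Filter Topology
open scoped ContDiff
open Crest.AnalysisR.PDE.NLS (IsSmoothPeriodic)

namespace Crest.Agent.R086.ModulN

open Profile

theorem pow_one_add_le (m : ℕ) {β : ℝ} (h0 : 0 ≤ β) (h1 : β ≤ 1) :
    (1 + β) ^ m ≤ 1 + 3 ^ m * β := by
  induction m with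
  | zero => simp; linarith
  | succ m ih =>
    have h3 : (1:ℝ) ≤ 3 ^ m := one_le_pow₀ (by norm_num)
    calc (1 + β) ^ (m + 1) = (1 + β) ^ m * (1 + β) := pow_succ _ _
      _ ≤ (1 + 3 ^ m * β) * (1 + β) := mul_le_mul_of_nonneg_right ih (by linarith)
      _ ≤ 1 + 3 ^ (m + 1) * β := by
        have h4 : (3:ℝ) ^ (m + 1) = 3 * 3 ^ m := by ring
        rw [h4]
        nlinarith [mul_nonneg (by positivity : (0:ℝ) ≤ 3 ^ m) h0,
          mul_nonneg (mul_nonneg (by positivity : (0:ℝ) ≤ 3 ^ m) h0) (by linarith : 0 ≤ 1 - β),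
          mul_nonneg (by linarith : (0:ℝ) ≤ 3 ^ m - 1) h0]

/-- `wn` under change of scale by a factor `≤ 1 + β`. -/
theorem wn_scale_le (hTF : TF1) {w : R12 → ℂ} (hw : IsSmoothPeriodic w) (N : ℕ) {h h' β : ℝ}
    (hβ : 0 ≤ β) (hh : 0 ≤ h) (hh' : 0 ≤ h') (hle : h' ≤ (1 + β) * h) :
    wn N h' w ≤ (1 + β) ^ N * wn N h w := by
  unfold wn
  rw [← tsum_mul_left]
  refine (TB.summable_wn hTF hw N hh').tsum_le_tsum (fun k => ?_)
    ((TB.summable_wn hTF hw N hh).mul_left _)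
  rw [← mul_assoc, ← mul_pow]
  refine mul_le_mul_of_nonneg_right (pow_le_pow_left₀ ?_ ?_ N) (norm_nonneg _)
  · have := TB.nk_nonneg k
    positivity
  · have := TB.nk_nonneg k
    nlinarith [mul_le_mul_of_nonneg_right hle this]

theorem hi_scale_le (hTF : TF1) {w : R12 → ℂ} (hw : IsSmoothPeriodic w) (s : ℕ) {h h' β : ℝ}
    (hβ : 0 ≤ β) (hh : 0 ≤ h) (hh' : 0 ≤ h') (hle : h' ≤ (1 + β) * h) :
    hi s h' w ≤ (1 + β) ^ s * hi s h w := by
  unfold hi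
  rw [← tsum_mul_left]
  refine (TB.summable_hi hTF hw s hh').tsum_le_tsum (fun k => ?_)
    ((TB.summable_hi hTF hw s hh).mul_left _)
  rw [← mul_assoc, ← mul_pow]
  refine mul_le_mul_of_nonneg_right (pow_le_pow_left₀ ?_ ?_ s) (norm_nonneg _)
  · have := TB.nk_nonneg k
    positivity
  · have := TB.nk_nonneg k
    nlinarith [mul_le_mul_of_nonneg_right hle this]

/-- the second clause of `Modul` -/
theorem clause2 (hTF : TF1) {n : ℕ} (hn : 2 ≤ n) (N s : ℕ) {μ : ℝ} (hμ : 0 ≤ μ) (a : Par) {t : ℝ}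
    (hat : 0 < a.T - t) (b : MIx → ℝ) {β : ℝ} (hβ1 : β ≤ 1) (hb : ∀ m, |b m| ≤ β)
    {w : R12 → ℂ} (hw : IsSmoothPeriodic w) :
    nrm n N s μ ((shift a b t).T - t) w ≤ (1 + 3 ^ (N + s + 1) * β) * nrm n N s μ (a.T - t) w := by
  have hβ : 0 ≤ β := (abs_nonneg _).trans (hb none)
  set τ := a.T - t with hτ
  set lam : ℝ := 1 - b (some none) with hlam
  have hT : (shift a b t).T - t = lam * τ := by
    simp only [shift, hlam, hτ]; ring
  have hb1 := abs_le.1 (hb (some none))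
  have hlam0 : 0 ≤ lam := by rw [hlam]; linarith [hb1.2]
  have hlam1 : lam ≤ 1 + β := by rw [hlam]; linarith [hb1.1]
  have h1β : 1 ≤ 1 + β := by linarith
  rw [hT]
  have hsq : Real.sqrt (lam * τ) ≤ (1 + β) * Real.sqrt τ := by
    rw [Real.sqrt_mul hlam0]
    refine mul_le_mul_of_nonneg_right ?_ (Real.sqrt_nonneg _)
    calc Real.sqrt lam ≤ Real.sqrt ((1 + β) ^ 2) :=
          Real.sqrt_le_sqrt (hlam1.trans (by nlinarith))
      _ = 1 + β := Real.sqrt_sq (by linarith)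
  have h1 := wn_scale_le hTF hw N hβ (Real.sqrt_nonneg τ) (Real.sqrt_nonneg (lam * τ)) hsq
  have h2 := hi_scale_le hTF hw s hβ (Real.sqrt_nonneg τ) (Real.sqrt_nonneg (lam * τ)) hsq
  have h3 : (lam * τ) ^ (1 / (n : ℝ)) ≤ (1 + β) * τ ^ (1 / (n : ℝ)) := by
    rw [Real.mul_rpow hlam0 hat.le]
    refine mul_le_mul_of_nonneg_right ?_ (Real.rpow_nonneg hat.le _)
    have hn1 : (1:ℝ) / n ≤ 1 := by
      rw [div_le_one (by positivity)]
      exact_mod_cast (by omega : 1 ≤ n)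
    calc lam ^ (1 / (n : ℝ)) ≤ (1 + β) ^ (1 / (n : ℝ)) :=
          Real.rpow_le_rpow hlam0 hlam1 (by positivity)
      _ ≤ (1 + β) ^ (1 : ℝ) := Real.rpow_le_rpow_of_exponent_le h1β hn1
      _ = 1 + β := Real.rpow_one _
  have hw0 := TB.wn_nonneg N (Real.sqrt_nonneg τ) w
  have hh0 := TB.hi_nonneg s (Real.sqrt_nonneg τ) w
  have hpN : (1 + β) ^ N ≤ (1 + β) ^ (N + s) := pow_le_pow_right₀ h1β (by omega)
  have hps : (1 + β) ^ s ≤ (1 + β) ^ (N + s) := pow_le_pow_right₀ h1β (by omega)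
  have h4 : nn N s μ (Real.sqrt (lam * τ)) w ≤ (1 + β) ^ (N + s) * nn N s μ (Real.sqrt τ) w := by
    unfold nn
    rw [mul_add]
    refine add_le_add (h1.trans (mul_le_mul_of_nonneg_right hpN hw0)) ?_
    calc μ * hi s (Real.sqrt (lam * τ)) w ≤ μ * ((1 + β) ^ s * hi s (Real.sqrt τ) w) :=
          mul_le_mul_of_nonneg_left h2 hμ
      _ ≤ μ * ((1 + β) ^ (N + s) * hi s (Real.sqrt τ) w) :=
          mul_le_mul_of_nonneg_left (mul_le_mul_of_nonneg_right hps hh0) hμ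
      _ = _ := by ring
  have hnn0 : 0 ≤ nn N s μ (Real.sqrt (lam * τ)) w := TB.nn_nonneg N s hμ (Real.sqrt_nonneg _) w
  have hnn1 : 0 ≤ nn N s μ (Real.sqrt τ) w := TB.nn_nonneg N s hμ (Real.sqrt_nonneg _) w
  have hτ0 : 0 ≤ τ ^ (1 / (n : ℝ)) := Real.rpow_nonneg hat.le _
  unfold nrm
  calc (lam * τ) ^ (1 / (n : ℝ)) * nn N s μ (Real.sqrt (lam * τ)) w
      ≤ ((1 + β) * τ ^ (1 / (n : ℝ))) * ((1 + β) ^ (N + s) * nn N s μ (Real.sqrt τ) w) :=
        mul_le_mul h3 h4 hnn0 (by positivity)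
    _ = (1 + β) ^ (N + s + 1) * (τ ^ (1 / (n : ℝ)) * nn N s μ (Real.sqrt τ) w) := by ring
    _ ≤ (1 + 3 ^ (N + s + 1) * β) * (τ ^ (1 / (n : ℝ)) * nn N s μ (Real.sqrt τ) w) :=
        mul_le_mul_of_nonneg_right (pow_one_add_le _ hβ hβ1) (by positivity)

end Crest.Agent.R086.ModulN
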