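import Crest.Agent.R086.NSRem
import Crest.Agent.R086.TKDefs

/-! Row 86, NearStep (helper148): `RemEst` of TKDefs from `TN`. -/

set_option autoImplicit false

open Crest.AnalysisR.PDE.NLS (IsSmoothPeriodic)

namespace Crest.Agent.R086.NS

theorem dnl_eq (n : ℕ) (q w : R12 → ℂ) (x : R12) : dnl n (q x) (w x) = DNq n q w x := by
  unfold dnl DNq
  ring

theorem remEst (hTN : TN) {n : ℕ} (hn : Even n) (hn2 : 2 ≤ n) (N : ℕ) : RemEst n N := by
  intro B
  obtain ⟨C, hC0, hC⟩ := rem hTN (B := max B 1) hn hn2 (le_trans zero_le_one (le_max_right _ _))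
  refine ⟨C, hC0, fun h hh q w hq hw h1 h2 => ?_⟩
  have := (hC N h hh q w hq hw (h1.trans (le_max_left _ _)) (h2.trans (le_max_right _ _))).2
  have e : (fun x => nl n (q x + w x) - nl n (q x) - dnl n (q x) (w x)) =
      fun x => nl n (q x + w x) - nl n (q x) - DNq n q w x := by
    funext x
    rw [dnl_eq]
  rw [e]
  exact this

end Crest.Agent.R086.NS
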