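import Crest.Agent.R086.NSFarA
import Crest.Agent.R086.NSRem2
import Crest.Agent.R086.TorBasic
import Crest.Agent.R086.PZ

/-! Row 86, node FarStep of NearStep (helper148). -/

set_option autoImplicit false

open MeasureTheory Complex Filter
open scoped ContDiff Topology
open Crest.AnalysisR.PDE.NLS (IsSmoothPeriodic periodCell)

namespace Crest.Agent.R086.NSF

open Profile TB

noncomputable section

/-- `1 - perz chi2` -/
def Yc : R12 → ℂ := fun x => 1 - perz (fun x => ((chi2 x : ℝ) : ℂ)) x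

theorem sp_chi2 : IsSmoothPeriodic (perz (fun x => ((chi2 x : ℝ) : ℂ))) :=
  PZ.smoothPeriodic (PZ.chi_smooth chi2) fun z hz =>
    PZ.chi_zero chi2 (r := 3) (by norm_num [chi2]) hz

theorem sp_Yc : IsSmoothPeriodic Yc := sp_sub (sp_const 1) sp_chi2

theorem cf_sub (h1 : TF1) (h2 : TF2) {v w : R12 → ℂ} (hv : IsSmoothPeriodic v)
    (hw : IsSmoothPeriodic w) (k : Z12) : cf (fun x => v x - w x) k = cf v k - cf w k := by
  have e : (fun x => v x - w x) = fun x => v x + (-1) * w x := by funext x; ring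
  rw [e, (TNl.cf_add h1 h2 hv (sp_cmul hw (-1))).2]
  simp only [TNl.cf_smul]
  ring

theorem wcf_le (h1 : TF1) {v : R12 → ℂ} (hv : IsSmoothPeriodic v) (N : ℕ) {h : ℝ} (hh : 0 ≤ h)
    (k : Z12) : (1 + h * nk k) ^ N * ‖cf v k‖ ≤ wn N h v :=
  (summable_wn h1 hv N hh).le_tsum k fun j _ =>
    mul_nonneg (w_nonneg N hh j) (norm_nonneg _)

theorem cf_le (h1 : TF1) {v : R12 → ℂ} (hv : IsSmoothPeriodic v) (k : Z12) :
    ‖cf v k‖ ≤ wn 0 1 v := by
  simpa using wcf_le h1 hv 0 zero_le_one k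

theorem wn_pow_mul (hTN : TN) {v w : R12 → ℂ} (hv : IsSmoothPeriodic v) (hw : IsSmoothPeriodic w)
    (N : ℕ) {h : ℝ} (hh : 0 ≤ h) (a : ℕ) :
    wn N h (fun x => v x ^ a * w x) ≤ wn N h v ^ a * wn N h w := by
  induction a with
  | zero => simp
  | succ a ih =>
    have e : (fun x => v x ^ (a + 1) * w x) = fun x => v x * (v x ^ a * w x) := by
      funext x; ring
    rw [e]
    refine (hTN.wn_mul v _ hv (sp_mul (sp_pow hv a) hw) N h hh).trans ?_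
    calc wn N h v * wn N h (fun x => v x ^ a * w x)
        ≤ wn N h v * (wn N h v ^ a * wn N h w) :=
          mul_le_mul_of_nonneg_left ih (wn_nonneg N hh v)
      _ = _ := by ring

theorem wn_nl_le (hTN : TN) {n : ℕ} (hn : Even n) {v : R12 → ℂ} (hv : IsSmoothPeriodic v)
    (N : ℕ) {h : ℝ} (hh : 0 ≤ h) : wn N h (fun x => nl n (v x)) ≤ wn N h v ^ (n + 1) := by
  obtain ⟨m, hm⟩ := hn
  have e : (fun x => nl n (v x)) = fun x => v x ^ m * ((starRingEnd ℂ (v x)) ^ m * v x) := by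
    funext x
    rw [hm, ← two_mul, nl_eq]; ring
  rw [e]
  have h1 := wn_pow_mul hTN hv (sp_mul (sp_pow (sp_conj hv) m) hv) N hh m
  have h2 := wn_pow_mul hTN (sp_conj hv) hv N hh m
  rw [hTN.wn_conj] at h2
  refine h1.trans ((mul_le_mul_of_nonneg_left h2 (pow_nonneg (wn_nonneg N hh v) m)).trans_eq ?_)
  rw [hm]; ring

/-- from the scaled norm to the unscaled norm -/
theorem wn_one_le (h1 : TF1) {v : R12 → ℂ} (hv : IsSmoothPeriodic v) (N : ℕ) {η h : ℝ} (hη : 0 < η)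
    (hh : η ≤ h) (hh1 : h ≤ 1) : wn N 1 v ≤ (η⁻¹) ^ N * wn N h v := by
  have hh0 : 0 ≤ h := hη.le.trans hh
  unfold wn
  rw [← tsum_mul_left]
  refine (summable_wn h1 hv N zero_le_one).tsum_le_tsum (fun k => ?_)
    ((summable_wn h1 hv N hh0).mul_left _)
  rw [← mul_assoc, ← mul_pow]
  refine mul_le_mul_of_nonneg_right (pow_le_pow_left₀ ?_ ?_ N) (norm_nonneg _)
  · have := nk_nonneg k; positivity
  · have h3 := nk_nonneg k
    have h4 : 1 ≤ η⁻¹ := (one_le_inv₀ hη).2 (hh.trans hh1)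
    have h5 : nk k ≤ η⁻¹ * (h * nk k) := by
      rw [← mul_assoc]
      have : 1 ≤ η⁻¹ * h := by
        rw [inv_mul_eq_div, le_div_iff₀ hη]; linarith
      nlinarith
    nlinarith

/-- the multiplier -/
def Lam (om νn τ₀ r : ℝ) (k : Z12) : ℂ :=
  -(I * ((τ₀ * Real.exp (-r) * nk k ^ 2 : ℝ) : ℂ)) + (I * (om : ℂ) - (νn : ℂ))

/-- the commutator kernel -/
def Ker (τ : ℝ) (a W : Z12 → ℂ) (j l : Z12) : ℂ :=
  a j * (-(I * ((τ * (nk l ^ 2 - nk (j + l) ^ 2) : ℝ) : ℂ))) * W l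

theorem ker_norm {h : ℝ} (hh : 0 ≤ h) (hh1 : h ≤ 1) (a W : Z12 → ℂ) (N : ℕ) (j l : Z12) :
    (1 + h * nk (j + l)) ^ N * ‖Ker (h ^ 2) a W j l‖ ≤
      (2 * h) * (((1 + 1 * nk j) ^ (N + 2) * ‖a j‖) * ((1 + h * nk l) ^ (N + 1) * ‖W l‖)) := by
  have hj := nk_nonneg j
  have hl := nk_nonneg l
  have hjl := nk_nonneg (j + l)
  have t1 : nk (j + l) ≤ nk j + nk l := TNl.nk_add_le j l
  have t2 : nk l ≤ nk j + nk (j + l) := by
    have := TNl.nk_add_le (-j) (j + l)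
    rw [TNl.nk_neg] at this
    simpa using this
  have hk : ‖Ker (h ^ 2) a W j l‖ ≤ ‖a j‖ * (2 * h * ((1 + 1 * nk j) ^ 2 * (1 + h * nk l))) * ‖W l‖ := by
    unfold Ker
    rw [norm_mul, norm_mul, norm_neg, norm_mul, Complex.norm_I, one_mul, Complex.norm_real]
    refine mul_le_mul_of_nonneg_right (mul_le_mul_of_nonneg_left ?_ (norm_nonneg _)) (norm_nonneg _)
    rw [Real.norm_eq_abs, abs_mul, abs_of_nonneg (by positivity : 0 ≤ h ^ 2)]
    have h3 : |nk l ^ 2 - nk (j + l) ^ 2| ≤ nk j * (2 * nk l + nk j) := by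
      rw [abs_le]
      constructor <;> nlinarith
    have h4 : h * nk j * nk j ≤ nk j * nk j := by nlinarith [mul_nonneg hj hj]
    calc h ^ 2 * |nk l ^ 2 - nk (j + l) ^ 2| ≤ h ^ 2 * (nk j * (2 * nk l + nk j)) :=
          mul_le_mul_of_nonneg_left h3 (by positivity)
      _ = h * (2 * nk j * (h * nk l) + h * nk j * nk j) := by ring
      _ ≤ h * (2 * ((1 + 1 * nk j) ^ 2 * (1 + h * nk l))) := by
          refine mul_le_mul_of_nonneg_left ?_ hh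
          have h5 : 0 ≤ h * nk l := mul_nonneg hh hl
          nlinarith [mul_nonneg hj h5, mul_nonneg (mul_nonneg hj hj) h5, mul_nonneg hj hj]
      _ = _ := by ring
  have hw : (1 + h * nk (j + l)) ^ N ≤ (1 + 1 * nk j) ^ N * (1 + h * nk l) ^ N := by
    rw [← mul_pow]
    refine pow_le_pow_left₀ (by positivity) ?_ N
    have h5 : 0 ≤ h * nk l := mul_nonneg hh hl
    have h6 : h * nk (j + l) ≤ h * nk j + h * nk l := by nlinarith
    have h7 : h * nk j ≤ nk j := by nlinarith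
    nlinarith [mul_nonneg hj h5]
  calc (1 + h * nk (j + l)) ^ N * ‖Ker (h ^ 2) a W j l‖
      ≤ ((1 + 1 * nk j) ^ N * (1 + h * nk l) ^ N) *
        (‖a j‖ * (2 * h * ((1 + 1 * nk j) ^ 2 * (1 + h * nk l))) * ‖W l‖) := by
        gcongr
    _ = _ := by ring

/-- bound of the commutator part -/
theorem comm_bound (h1 : TF1) {h : ℝ} (hh : 0 ≤ h) (hh1 : h ≤ 1) {Y W : R12 → ℂ}
    (hY : IsSmoothPeriodic Y) (hW : IsSmoothPeriodic W) (N : ℕ) :
    Summable (fun m => (1 + h * nk m) ^ N * ‖∑' j, Ker (h ^ 2) (cf Y) (cf W) j (m - j)‖) ∧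
    ∑' m, (1 + h * nk m) ^ N * ‖∑' j, Ker (h ^ 2) (cf Y) (cf W) j (m - j)‖ ≤
      2 * h * (wn (N + 2) 1 Y * wn (N + 1) h W) := by
  have s1 := summable_wn h1 hY (N + 2) zero_le_one
  have s2 := summable_wn h1 hW (N + 1) hh
  have hH : Summable fun p : Z12 × Z12 =>
      ((1 + 1 * nk p.1) ^ (N + 2) * ‖cf Y p.1‖) * ((1 + h * nk p.2) ^ (N + 1) * ‖cf W p.2‖) :=
    s1.mul_of_nonneg s2 (fun k => mul_nonneg (w_nonneg _ zero_le_one k) (norm_nonneg _))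
      (fun k => mul_nonneg (w_nonneg _ hh k) (norm_nonneg _))
  obtain ⟨a1, a2⟩ := ker_bound (K := Ker (h ^ 2) (cf Y) (cf W)) (F := fun m => (1 + h * nk m) ^ N)
    (fun m => w_nonneg N hh m) (hH.mul_left (2 * h)) (fun k l => ker_norm hh hh1 _ _ N k l)
  refine ⟨a1, a2.trans_eq ?_⟩
  rw [tsum_mul_left, ← s1.tsum_mul_tsum s2 hH]
  rfl

/-- the source `-i (nl U - nl q) + g` -/
def src (n : ℕ) (U q g : R12 → ℂ) (x : R12) : ℂ := -I * (nl n (U x) - nl n (q x)) + g x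

theorem sp_src {n : ℕ} (hn : Even n) {U q g : R12 → ℂ} (hU : IsSmoothPeriodic U)
    (hq : IsSmoothPeriodic q) (hg : IsSmoothPeriodic g) : IsSmoothPeriodic (src n U q g) :=
  sp_add (sp_cmul (sp_sub (sp_nl hn hU) (sp_nl hn hq)) (-I)) hg

theorem cf_src (h1 : TF1) (h2 : TF2) {n : ℕ} (hn : Even n) {U q g : R12 → ℂ}
    (hU : IsSmoothPeriodic U) (hq : IsSmoothPeriodic q) (hg : IsSmoothPeriodic g) (k : Z12) :
    cf (src n U q g) k = -I * (cf (fun x => nl n (U x)) k - cf (fun x => nl n (q x)) k) + cf g k := by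
  have e : src n U q g = fun x => (fun x => -I * (nl n (U x) - nl n (q x))) x + g x := rfl
  rw [e, (TNl.cf_add h1 h2 (sp_cmul (sp_sub (sp_nl hn hU) (sp_nl hn hq)) (-I)) hg).2]
  simp only [TNl.cf_smul]
  rw [cf_sub h1 h2 (sp_nl hn hU) (sp_nl hn hq)]

/-- crude bound of the source, for differentiability only -/
theorem src_crude (h1 : TF1) (hTN : TN) {n : ℕ} (hn : Even n) {U q g : R12 → ℂ}
    (hU : IsSmoothPeriodic U) (hq : IsSmoothPeriodic q) (hg : IsSmoothPeriodic g) {B : ℝ}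
    (b1 : wn 0 1 U ≤ B) (b2 : wn 0 1 q ≤ B) (b3 : wn 0 1 g ≤ B) (k : Z12) :
    ‖cf (src n U q g) k‖ ≤ B ^ (n + 1) + B ^ (n + 1) + B := by
  refine (cf_le h1 (sp_src hn hU hq hg) k).trans ?_
  have e : src n U q g = fun x => (fun x => -I * (nl n (U x) - nl n (q x))) x + g x := rfl
  rw [e]
  refine (hTN.wn_add _ _ (sp_cmul (sp_sub (sp_nl hn hU) (sp_nl hn hq)) (-I)) hg 0 1
    zero_le_one).trans ?_
  refine add_le_add ?_ b3
  rw [hTN.wn_smul, norm_neg, Complex.norm_I, one_mul]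
  refine (wn_sub_le hTN (sp_nl hn hU) (sp_nl hn hq) 0 zero_le_one).trans ?_
  refine add_le_add ((wn_nl_le hTN hn hU 0 zero_le_one).trans ?_)
    ((wn_nl_le hTN hn hq 0 zero_le_one).trans ?_)
  · exact pow_le_pow_left₀ (wn_nonneg 0 zero_le_one _) b1 _
  · exact pow_le_pow_left₀ (wn_nonneg 0 zero_le_one _) b2 _

/-- the source times `Yc` is small -/
theorem src_far (h1 : TF1) (hTN : TN) {n : ℕ} (hn : Even n) (hn2 : 2 ≤ n) (N : ℕ)
    {h : ℝ} (hh : 0 ≤ h) (hh1 : h ≤ 1) {q W g : R12 → ℂ}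
    (hq : IsSmoothPeriodic q) (hW : IsSmoothPeriodic W) (hg : IsSmoothPeriodic g)
    {CR Cp Cg τ L : ℝ}
    (hR : wn N h (fun x => nl n (q x + W x) - nl n (q x) - dnl n (q x) (W x)) ≤ CR * L ^ 2)
    (hp1 : wn N 1 (fun x => Yc x * ((‖q x‖ ^ n : ℝ) : ℂ)) ≤ Cp * τ)
    (hp2 : wn N 1 (fun x => Yc x * (((‖q x‖ ^ (n - 2) : ℝ) : ℂ) * q x ^ 2)) ≤ Cp * τ)
    (hgb : wn N 1 g ≤ Cg * τ) (hL : wn N h W ≤ L) (hL0 : 0 ≤ L) :
    wn N h (fun x => Yc x * src n (fun x => q x + W x) q g x) ≤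
      wn N 1 Yc * CR * L ^ 2 + (1 + n) * Cp * τ * L + wn N 1 Yc * (Cg * τ) := by
  have hn' : Even (n - 2) := by
    obtain ⟨m, hm⟩ := hn
    exact ⟨m - 1, by omega⟩
  have sR : IsSmoothPeriodic (fun x => nl n (q x + W x) - nl n (q x) - dnl n (q x) (W x)) := by
    refine sp_sub (sp_sub (sp_nl hn (sp_add hq hW)) (sp_nl hn hq)) ?_
    unfold dnl
    exact sp_add (sp_mul (sp_cmul (sp_normpow hn hq) _) hW)
      (sp_mul (sp_mul (sp_cmul (sp_normpow hn' hq) _) (sp_pow hq 2)) (sp_conj hW))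
  set A : R12 → ℂ := fun x => Yc x * ((‖q x‖ ^ n : ℝ) : ℂ) with hA
  set B : R12 → ℂ := fun x => Yc x * (((‖q x‖ ^ (n - 2) : ℝ) : ℂ) * q x ^ 2) with hB
  have sA : IsSmoothPeriodic A := sp_mul sp_Yc (sp_normpow hn hq)
  have sB : IsSmoothPeriodic B := sp_mul sp_Yc (sp_mul (sp_normpow hn' hq) (sp_pow hq 2))
  have e : (fun x => Yc x * src n (fun x => q x + W x) q g x) = fun x =>
      ((-I) * (Yc x * (nl n (q x + W x) - nl n (q x) - dnl n (q x) (W x))) +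
      ((-I * (1 + (n : ℂ) / 2)) * (A x * W x) + (-I * ((n : ℂ) / 2)) * (B x * (starRingEnd ℂ) (W x))))
      + Yc x * g x := by
    funext x
    simp only [src, dnl, hA, hB]
    ring
  rw [e]
  have w1 : wn N h Yc ≤ wn N 1 Yc := hTN.wn_mono Yc sp_Yc N h 1 hh hh1
  have hY0 := wn_nonneg N hh Yc
  have hY1 := wn_nonneg N zero_le_one Yc
  have sAW := sp_mul sA hW
  have sBW := sp_mul sB (sp_conj hW)
  have a1 := hTN.wn_add _ _ (sp_add (sp_cmul (sp_mul sp_Yc sR) (-I))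
    (sp_add (sp_cmul sAW (-I * (1 + (n : ℂ) / 2))) (sp_cmul sBW (-I * ((n : ℂ) / 2)))))
    (sp_mul sp_Yc hg) N h hh
  have a2 := hTN.wn_add _ _ (sp_cmul (sp_mul sp_Yc sR) (-I))
    (sp_add (sp_cmul sAW (-I * (1 + (n : ℂ) / 2))) (sp_cmul sBW (-I * ((n : ℂ) / 2)))) N h hh
  have a3 := hTN.wn_add _ _ (sp_cmul sAW (-I * (1 + (n : ℂ) / 2)))
    (sp_cmul sBW (-I * ((n : ℂ) / 2))) N h hh
  rw [hTN.wn_smul] at a2
  rw [hTN.wn_smul, hTN.wn_smul] at a3
  have n1 : ‖-I‖ = 1 := by rw [norm_neg, Complex.norm_I]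
  have n2 : ‖-I * (1 + (n : ℂ) / 2)‖ = 1 + (n : ℝ) / 2 := by
    rw [norm_mul, n1, one_mul]
    have : (1 + (n : ℂ) / 2) = ((1 + (n : ℝ) / 2 : ℝ) : ℂ) := by push_cast; ring
    rw [this, Complex.norm_real, Real.norm_of_nonneg (by positivity)]
  have n3 : ‖-I * ((n : ℂ) / 2)‖ = (n : ℝ) / 2 := by
    rw [norm_mul, n1, one_mul]
    have : ((n : ℂ) / 2) = (((n : ℝ) / 2 : ℝ) : ℂ) := by push_cast; ring
    rw [this, Complex.norm_real, Real.norm_of_nonneg (by positivity)]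
  rw [n1, one_mul] at a2
  rw [n2, n3] at a3
  have b1 : wn N h (fun x => Yc x * (nl n (q x + W x) - nl n (q x) - dnl n (q x) (W x))) ≤
      wn N 1 Yc * (CR * L ^ 2) :=
    (hTN.wn_mul _ _ sp_Yc sR N h hh).trans (mul_le_mul w1 hR (wn_nonneg N hh _) hY1)
  have c1 : wn N h A ≤ Cp * τ := (hTN.wn_mono A sA N h 1 hh hh1).trans hp1
  have c2 : wn N h B ≤ Cp * τ := (hTN.wn_mono B sB N h 1 hh hh1).trans hp2
  have hCp : 0 ≤ Cp * τ := (wn_nonneg N hh A).trans c1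
  have b2 : wn N h (fun x => A x * W x) ≤ Cp * τ * L :=
    (hTN.wn_mul _ _ sA hW N h hh).trans (mul_le_mul c1 hL (wn_nonneg N hh _) hCp)
  have b3 : wn N h (fun x => B x * (starRingEnd ℂ) (W x)) ≤ Cp * τ * L := by
    refine (hTN.wn_mul _ _ sB (sp_conj hW) N h hh).trans ?_
    rw [hTN.wn_conj]
    exact mul_le_mul c2 hL (wn_nonneg N hh _) hCp
  have b4 : wn N h (fun x => Yc x * g x) ≤ wn N 1 Yc * (Cg * τ) :=
    (hTN.wn_mul _ _ sp_Yc hg N h hh).trans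
      (mul_le_mul w1 ((hTN.wn_mono g hg N h 1 hh hh1).trans hgb) (wn_nonneg N hh _) hY1)
  have hn0 : (0:ℝ) ≤ n := Nat.cast_nonneg n
  have b2' := mul_le_mul_of_nonneg_left b2 (by positivity : (0:ℝ) ≤ 1 + (n:ℝ) / 2)
  have b3' := mul_le_mul_of_nonneg_left b3 (by positivity : (0:ℝ) ≤ (n:ℝ) / 2)
  refine a1.trans ?_
  nlinarith [a1, a2, a3, b1, b2', b3', b4]

end

end Crest.Agent.R086.NSF
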