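import Crest.Agent.R086.TKDefs
import Crest.Agent.R086.TN

/-! Row 86, FarStep (helper148): coefficient-level analysis. -/

set_option autoImplicit false

open Complex Filter
open scoped Topology

namespace Crest.Agent.R086.NSF

noncomputable section

/-- differentiation of a convolution with a fixed summable sequence -/
theorem hasDeriv_cz {S : ℝ} {a : Z12 → ℂ} (ha : Summable fun k => ‖a k‖) {W D : ℝ → Z12 → ℂ}
    {B M : ℝ} (hW : ∀ r ∈ Set.Icc 0 S, ∀ j, ‖W r j‖ ≤ B)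
    (hD : ∀ r ∈ Set.Icc 0 S, ∀ j, ‖D r j‖ ≤ M)
    (hder : ∀ r ∈ Set.Icc 0 S, ∀ j, HasDerivWithinAt (fun r => W r j) (D r j) (Set.Icc 0 S) r) :
    ∀ r ∈ Set.Icc 0 S, ∀ k,
      HasDerivWithinAt (fun r => TNl.cz a (W r) k) (TNl.cz a (D r) k) (Set.Icc 0 S) r := by
  intro r hr k
  rw [hasDerivWithinAt_iff_tendsto_slope]
  have hM0 : 0 ≤ M := (norm_nonneg _).trans (hD r hr 0)
  have hB0 : 0 ≤ B := (norm_nonneg _).trans (hW r hr 0)
  have hsum : ∀ t ∈ Set.Icc 0 S, Summable fun j => a j * W t (k - j) := fun t ht => by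
    refine Summable.of_norm_bounded (ha.mul_right B) fun j => ?_
    rw [norm_mul]
    exact mul_le_mul_of_nonneg_left (hW t ht _) (norm_nonneg _)
  have hev : ∀ᶠ t in 𝓝[Set.Icc 0 S \ {r}] r, t ∈ Set.Icc 0 S \ {r} := self_mem_nhdsWithin
  have hslope : ∀ t ∈ Set.Icc 0 S \ {r}, slope (fun r => TNl.cz a (W r) k) r t =
      ∑' j, a j * slope (fun r => W r (k - j)) r t := by
    intro t ht
    rw [slope_def_module]
    unfold TNl.cz
    rw [← (hsum t ht.1).tsum_sub (hsum r hr), ← tsum_const_smul'']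
    refine tsum_congr fun j => ?_
    rw [slope_def_module]
    simp only [real_smul]
    ring
  have hlim : Tendsto (fun t => ∑' j, a j * slope (fun r => W r (k - j)) r t)
      (𝓝[Set.Icc 0 S \ {r}] r) (𝓝 (∑' j, a j * D r (k - j))) := by
    refine tendsto_tsum_of_dominated_convergence (bound := fun j => ‖a j‖ * M) (ha.mul_right M)
      (fun j => ?_) ?_
    · have := hasDerivWithinAt_iff_tendsto_slope.1 (hder r hr (k - j))
      exact this.const_mul (a j)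
    · filter_upwards [hev] with t ht j
      rw [norm_mul]
      refine mul_le_mul_of_nonneg_left ?_ (norm_nonneg _)
      have h1 := (convex_Icc (0:ℝ) S).norm_image_sub_le_of_norm_hasDerivWithin_le
        (f := fun r => W r (k - j)) (f' := fun r => D r (k - j)) (C := M)
        (fun x hx => hder x hx (k - j)) (fun x hx => hD x hx (k - j)) hr ht.1
      have h2 : 0 < ‖t - r‖ := norm_pos_iff.2 (sub_ne_zero.2 ht.2)
      rw [slope_def_module, norm_smul, norm_inv, inv_mul_le_iff₀ h2]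
      linarith [mul_comm M ‖t - r‖]
  refine hlim.congr' ?_
  filter_upwards [hev] with t ht
  exact (hslope t ht).symm

/-- weighted bound for a general kernel -/
theorem ker_bound {K : Z12 → Z12 → ℂ} {F : Z12 → ℝ} (hF : ∀ m, 0 ≤ F m)
    {H : Z12 × Z12 → ℝ} (hH : Summable H)
    (hle : ∀ k l, F (k + l) * ‖K k l‖ ≤ H (k, l)) :
    Summable (fun m => F m * ‖∑' k, K k (m - k)‖) ∧ ∑' m, F m * ‖∑' k, K k (m - k)‖ ≤ ∑' p, H p := by
  have h1 : Summable fun p : Z12 × Z12 => F (p.1 + p.2) * ‖K p.1 p.2‖ :=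
    Summable.of_nonneg_of_le (fun p => mul_nonneg (hF _) (by positivity))
      (fun p => hle p.1 p.2) hH
  have h2 : Summable fun q : Z12 × Z12 => F q.1 * ‖K q.2 (q.1 - q.2)‖ := by
    have := (TNl.shEq.symm.summable_iff (f := fun p : Z12 × Z12 =>
      F (p.1 + p.2) * ‖K p.1 p.2‖)).2 h1
    refine this.congr fun q => ?_
    simp [TNl.shEq]
  have h3 : ∀ m, Summable fun k => F m * ‖K k (m - k)‖ := fun m => h2.prod_factor m
  have h4 : ∀ m, F m * ‖∑' k, K k (m - k)‖ ≤ ∑' k, F m * ‖K k (m - k)‖ := by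
    intro m
    have e : F m * ‖∑' k, K k (m - k)‖ = ‖∑' k, (F m : ℂ) * K k (m - k)‖ := by
      rw [tsum_mul_left, norm_mul, Complex.norm_real, Real.norm_of_nonneg (hF m)]
    rw [e]
    have h5 : ∀ k, ‖(F m : ℂ) * K k (m - k)‖ = F m * ‖K k (m - k)‖ := fun k => by
      rw [norm_mul, Complex.norm_real, Real.norm_of_nonneg (hF m)]
    have h6 := norm_tsum_le_tsum_norm (f := fun k => (F m : ℂ) * K k (m - k)) (by
      simp only [h5]; exact h3 m)
    simpa only [h5] using h6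
  have h7 : Summable fun m => ∑' k, F m * ‖K k (m - k)‖ := h2.prod
  have h8 : Summable (fun m => F m * ‖∑' k, K k (m - k)‖) :=
    Summable.of_nonneg_of_le (fun m => mul_nonneg (hF m) (norm_nonneg _)) h4 h7
  refine ⟨h8, ?_⟩
  calc ∑' m, F m * ‖∑' k, K k (m - k)‖ ≤ ∑' m, ∑' k, F m * ‖K k (m - k)‖ :=
        h8.tsum_le_tsum h4 h7
    _ = ∑' q : Z12 × Z12, F q.1 * ‖K q.2 (q.1 - q.2)‖ := (h2.tsum_prod).symm
    _ = ∑' p : Z12 × Z12, F (p.1 + p.2) * ‖K p.1 p.2‖ := by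
        rw [← TNl.shEq.tsum_eq (fun q : Z12 × Z12 => F q.1 * ‖K q.2 (q.1 - q.2)‖)]
        simp [TNl.shEq]
    _ ≤ ∑' p, H p := h1.tsum_le_tsum (fun p => hle p.1 p.2) hH

/-- the scale `√(τ₀ e^{-r})` is nonnegative, decreasing -/
theorem hs_nonneg (τ₀ r : ℝ) : 0 ≤ Profile.hs τ₀ r := Real.sqrt_nonneg _

theorem hs_anti {τ₀ : ℝ} (h : 0 ≤ τ₀) {r r' : ℝ} (hr : r ≤ r') : Profile.hs τ₀ r' ≤ Profile.hs τ₀ r := by
  unfold Profile.hs
  exact Real.sqrt_le_sqrt (mul_le_mul_of_nonneg_left (Real.exp_le_exp.2 (by linarith)) h)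

theorem hs_le_one {τ₀ : ℝ} (h : 0 ≤ τ₀) (h1 : τ₀ ≤ 1) {r : ℝ} (hr : 0 ≤ r) : Profile.hs τ₀ r ≤ 1 := by
  unfold Profile.hs
  rw [Real.sqrt_le_one]
  have := Real.exp_le_one_iff.2 (neg_nonpos.2 hr)
  have := Real.exp_pos (-r)
  nlinarith

theorem hs_zero (τ₀ : ℝ) : Profile.hs τ₀ 0 = Real.sqrt τ₀ := by simp [Profile.hs]

theorem hs_sq {τ₀ : ℝ} (h : 0 ≤ τ₀) (r : ℝ) : Profile.hs τ₀ r ^ 2 = τ₀ * Real.exp (-r) := by
  unfold Profile.hs
  exact Real.sq_sqrt (by positivity)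

theorem hs_le_sqrt {τ₀ : ℝ} (h : 0 ≤ τ₀) {r : ℝ} (hr : 0 ≤ r) : Profile.hs τ₀ r ≤ Real.sqrt τ₀ := by
  rw [← hs_zero]; exact hs_anti h hr

/-- the damped transport: bound at the end of the step -/
theorem transport {om νn τ₀ S : ℝ} (hν : 0 ≤ νn) (hτ : 0 ≤ τ₀) (hS : 0 ≤ S) (N : ℕ)
    {v F : ℝ → Z12 → ℂ}
    (hode : ∀ r ∈ Set.Icc 0 S, ∀ k, HasDerivWithinAt (fun r => v r k)
      ((-(I * ((τ₀ * Real.exp (-r) * nk k ^ 2 : ℝ) : ℂ)) + (I * (om : ℂ) - (νn : ℂ))) * v r k + F r k)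
      (Set.Icc 0 S) r)
    {Φ V0 : ℝ} (hF : ∀ r ∈ Set.Icc 0 S, ∀ K : Finset Z12,
      ∑ k ∈ K, (1 + Profile.hs τ₀ r * nk k) ^ N * ‖F r k‖ ≤ Φ)
    (h0 : ∀ K : Finset Z12, ∑ k ∈ K, (1 + Profile.hs τ₀ 0 * nk k) ^ N * ‖v 0 k‖ ≤ V0)
    (K : Finset Z12) :
    ∑ k ∈ K, (1 + Profile.hs τ₀ S * nk k) ^ N * ‖v S k‖ ≤ Real.exp (-(S * νn)) * V0 + Φ * S := by
  classical
  set A : Z12 → ℝ → ℂ := fun k r => I * ((τ₀ * Real.exp (-r) * nk k ^ 2 : ℝ) : ℂ) +
    (I * (om : ℂ) - (νn : ℂ)) * (r : ℂ) with hA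
  have hA' : ∀ k r, HasDerivAt (A k)
      (-(I * ((τ₀ * Real.exp (-r) * nk k ^ 2 : ℝ) : ℂ)) + (I * (om : ℂ) - (νn : ℂ))) r := by
    intro k r
    have h1 : HasDerivAt (fun r : ℝ => τ₀ * Real.exp (-r) * nk k ^ 2)
        (-(τ₀ * Real.exp (-r) * nk k ^ 2)) r := by
      have h2 : HasDerivAt (fun r : ℝ => Real.exp (-r)) (Real.exp (-r) * (-1)) r :=
        (hasDerivAt_neg r).exp
      exact ((h2.const_mul τ₀).mul_const (nk k ^ 2)).congr_deriv (by ring)
    refine ((h1.ofReal_comp.const_mul I).add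
      (((hasDerivAt_id r).ofReal_comp).const_mul (I * (om : ℂ) - (νn : ℂ)))).congr_deriv ?_
    push_cast
    ring
  have hre : ∀ k r, (A k r).re = -νn * r := by
    intro k r
    simp only [hA]
    rw [Complex.add_re, Complex.re_mul_ofReal, Complex.re_mul_ofReal, Complex.sub_re,
      Complex.re_mul_ofReal, Complex.I_re, Complex.ofReal_re]
    ring
  set w : Z12 → ℝ := fun k => (1 + Profile.hs τ₀ S * nk k) ^ N with hw
  have hw0 : ∀ k, 0 ≤ w k := fun k => by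
    have := mul_nonneg (hs_nonneg τ₀ S) (TNl.nk_nonneg k)
    simp only [hw]; positivity
  have hwr : ∀ r ∈ Set.Icc 0 S, ∀ k, w k ≤ (1 + Profile.hs τ₀ r * nk k) ^ N := fun r hr k => by
    have h1 := mul_nonneg (hs_nonneg τ₀ S) (TNl.nk_nonneg k)
    have h2 := mul_le_mul_of_nonneg_right (hs_anti hτ hr.2) (TNl.nk_nonneg k)
    exact pow_le_pow_left₀ (by positivity) (by linarith) N
  -- phases
  set θ : Z12 → ℂ := fun k => if v S k = 0 then 0 else (‖v S k‖ : ℂ) * (v S k)⁻¹ with hθ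
  have hθ1 : ∀ k, θ k * v S k = (‖v S k‖ : ℂ) := by
    intro k
    by_cases h : v S k = 0
    · simp [hθ, h]
    · simp only [hθ, if_neg h]; rw [mul_assoc, inv_mul_cancel₀ h, mul_one]
  have hθ2 : ∀ k, ‖θ k‖ ≤ 1 := by
    intro k
    by_cases h : v S k = 0
    · simp [hθ, h]
    · simp only [hθ, if_neg h]
      rw [norm_mul, norm_inv, Complex.norm_real, norm_norm,
        mul_inv_cancel₀ (norm_ne_zero_iff.2 h)]
  set φ : ℝ → ℂ := fun r => ∑ k ∈ K, θ k * (w k : ℂ) * (exp (A k S - A k r) * v r k) with hφ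
  have hφ' : ∀ r ∈ Set.Icc 0 S, HasDerivWithinAt φ
      (∑ k ∈ K, θ k * (w k : ℂ) * (exp (A k S - A k r) * F r k)) (Set.Icc 0 S) r := by
    intro r hr
    have h1 : ∀ k ∈ K, HasDerivWithinAt
        (fun r => θ k * (w k : ℂ) * (exp (A k S - A k r) * v r k))
        (θ k * (w k : ℂ) * (exp (A k S - A k r) * F r k)) (Set.Icc 0 S) r := by
      intro k _
      have h2 : HasDerivWithinAt (fun r => exp (A k S - A k r))
          (exp (A k S - A k r) *
            (-(-(I * ((τ₀ * Real.exp (-r) * nk k ^ 2 : ℝ) : ℂ)) + (I * (om : ℂ) - (νn : ℂ)))))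
          (Set.Icc 0 S) r := by
        have := ((hA' k r).const_sub (A k S)).cexp
        exact this.hasDerivWithinAt
      exact ((h2.mul (hode r hr k)).const_mul (θ k * (w k : ℂ))).congr_deriv (by ring)
    have h2 := HasDerivWithinAt.sum h1
    have e : φ = ∑ k ∈ K, fun r => θ k * (w k : ℂ) * (exp (A k S - A k r) * v r k) := by
      funext r
      simp only [hφ, Finset.sum_apply]
    rw [e]
    exact h2
  have hexp : ∀ r ∈ Set.Icc 0 S, ∀ k, ‖exp (A k S - A k r)‖ ≤ 1 := by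
    intro r hr k
    rw [Complex.norm_exp, Complex.sub_re, hre, hre]
    rw [Real.exp_le_one_iff]
    nlinarith [hr.2]
  have hbd : ∀ r ∈ Set.Icc 0 S, ‖∑ k ∈ K, θ k * (w k : ℂ) * (exp (A k S - A k r) * F r k)‖ ≤ Φ := by
    intro r hr
    refine (norm_sum_le _ _).trans ((Finset.sum_le_sum fun k _ => ?_).trans (hF r hr K))
    rw [norm_mul, norm_mul, norm_mul, Complex.norm_real, Real.norm_of_nonneg (hw0 k)]
    have a1 := hθ2 k
    have a2 := hexp r hr k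
    have a3 := hwr r hr k
    have a4 := hw0 k
    calc ‖θ k‖ * w k * (‖exp (A k S - A k r)‖ * ‖F r k‖)
        ≤ 1 * w k * (1 * ‖F r k‖) := by gcongr
      _ = w k * ‖F r k‖ := by ring
      _ ≤ _ := mul_le_mul_of_nonneg_right a3 (norm_nonneg _)
  have hmv := norm_image_sub_le_of_norm_deriv_le_segment' (f := φ) (a := 0) (b := S) hφ'
    (fun r hr => hbd r ⟨hr.1, hr.2.le⟩) S ⟨hS, le_rfl⟩
  have hφS : φ S = ((∑ k ∈ K, w k * ‖v S k‖ : ℝ) : ℂ) := by
    simp only [hφ, sub_self, Complex.exp_zero, one_mul]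
    push_cast
    refine Finset.sum_congr rfl fun k _ => ?_
    rw [← hθ1 k]; ring
  have hφ0 : ‖φ 0‖ ≤ Real.exp (-(S * νn)) * V0 := by
    have h1 : ‖φ 0‖ ≤ ∑ k ∈ K, Real.exp (-(S * νn)) * ((1 + Profile.hs τ₀ 0 * nk k) ^ N * ‖v 0 k‖) := by
      refine (norm_sum_le _ _).trans (Finset.sum_le_sum fun k _ => ?_)
      rw [norm_mul, norm_mul, norm_mul, Complex.norm_real, Real.norm_of_nonneg (hw0 k)]
      have a1 := hθ2 k
      have a2 : ‖exp (A k S - A k 0)‖ = Real.exp (-(S * νn)) := by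
        rw [Complex.norm_exp, Complex.sub_re, hre, hre]
        congr 1; ring
      have a3 := hwr 0 ⟨le_rfl, hS⟩ k
      have a4 := hw0 k
      rw [a2]
      calc ‖θ k‖ * w k * (Real.exp (-(S * νn)) * ‖v 0 k‖)
          ≤ 1 * (1 + Profile.hs τ₀ 0 * nk k) ^ N * (Real.exp (-(S * νn)) * ‖v 0 k‖) := by
            gcongr
        _ = _ := by ring
    refine h1.trans ?_
    rw [← Finset.mul_sum]
    exact mul_le_mul_of_nonneg_left (h0 K) (Real.exp_pos _).le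
  have hnn : 0 ≤ ∑ k ∈ K, w k * ‖v S k‖ :=
    Finset.sum_nonneg fun k _ => mul_nonneg (hw0 k) (norm_nonneg _)
  have h9 : ‖φ S‖ = ∑ k ∈ K, w k * ‖v S k‖ := by
    rw [hφS, Complex.norm_real, Real.norm_of_nonneg hnn]
  rw [← h9]
  have := norm_sub_norm_le (φ S) (φ 0)
  rw [sub_zero] at hmv
  linarith

end

end Crest.Agent.R086.NSF
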