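import Crest.Agent.R086.NSFar

/-! Row 86, node FarStep of NearStep (helper148): the theorem. -/

set_option autoImplicit false

open MeasureTheory Complex Filter
open scoped ContDiff Topology
open Crest.AnalysisR.PDE.NLS (IsSmoothPeriodic periodCell)

namespace Crest.Agent.R086.NSF

open Profile TB

noncomputable section

/-- convolution with the damped right side: commutator form -/
theorem cz_lin {om νn τ₀ r τ : ℝ} (hτ : τ = τ₀ * Real.exp (-r)) {a W G : Z12 → ℂ}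
    {B BG : ℝ} (ha : Summable fun k => ‖a k‖)
    (hW : ∀ k, ‖W k‖ ≤ B) (hW2 : ∀ k, ‖Lam om νn τ₀ r k * W k‖ ≤ B) (hG : ∀ k, ‖G k‖ ≤ BG) (k : Z12) :
    TNl.cz a (fun k => Lam om νn τ₀ r k * W k + G k) k =
      Lam om νn τ₀ r k * TNl.cz a W k + (∑' j, Ker τ a W j (k - j) + TNl.cz a G k) := by
  have s1 : Summable fun j => a j * W (k - j) := by
    refine Summable.of_norm_bounded (ha.mul_right B) fun j => ?_
    rw [norm_mul]
    exact mul_le_mul_of_nonneg_left (hW _) (norm_nonneg _)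
  have s2 : Summable fun j => a j * (Lam om νn τ₀ r (k - j) * W (k - j)) := by
    refine Summable.of_norm_bounded (ha.mul_right B) fun j => ?_
    rw [norm_mul]
    exact mul_le_mul_of_nonneg_left (hW2 _) (norm_nonneg _)
  have s3 : Summable fun j => a j * G (k - j) := by
    refine Summable.of_norm_bounded (ha.mul_right BG) fun j => ?_
    rw [norm_mul]
    exact mul_le_mul_of_nonneg_left (hG _) (norm_nonneg _)
  have hK : ∀ j, Ker τ a W j (k - j) =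
      a j * (Lam om νn τ₀ r (k - j) * W (k - j)) - Lam om νn τ₀ r k * (a j * W (k - j)) := by
    intro j
    unfold Ker Lam
    rw [add_sub_cancel, hτ]
    push_cast
    ring
  have s4 : Summable fun j => Ker τ a W j (k - j) := by
    simp only [hK]
    exact s2.sub (s1.mul_left _)
  have e : ∀ j, a j * (Lam om νn τ₀ r (k - j) * W (k - j) + G (k - j)) =
      Lam om νn τ₀ r k * (a j * W (k - j)) + (Ker τ a W j (k - j) + a j * G (k - j)) := by
    intro j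
    rw [hK]; ring
  unfold TNl.cz
  simp only [e]
  rw [(s1.mul_left _).tsum_add (s4.add s3), s4.tsum_add s3, tsum_mul_left]

variable {n : ℕ} (P : Profile n) {N : ℕ}

set_option maxHeartbeats 1000000 in
theorem farStep (h1 : TF1) (h2 : TF2) (hP1 : TP1 P) (hP2 : TP2 P) (hP3 : TP3 P) : FarStep P N := by
  intro s hNs
  have hTN : TN := TNl.tn_of h1 h2
  have hn : Even n := P.neven
  have hn2 : 2 ≤ n := P.two_le
  refine ⟨max 1 (wn N 1 Yc), le_max_left _ _, fun S hS => ?_⟩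
  obtain ⟨Cq, hCq0, hCq⟩ := hP1.2 N
  obtain ⟨Cq2, hCq20, hCq2⟩ := hP1.2 2
  obtain ⟨gt, hgsm, hgb, hgode⟩ := hP2
  obtain ⟨Cg, hCg0, hCg⟩ := hgb N
  obtain ⟨Cg1, hCg10, hCg1⟩ := hgb 0
  obtain ⟨Cp, hCp0, hCp⟩ := hP3 N
  obtain ⟨CR, hCR0, hCR⟩ := NS.remEst hTN hn hn2 N Cq
  set Y1 : ℝ := wn N 1 Yc with hY1
  set A1 : ℝ := wn (N + 2) 1 Yc with hA1
  have hY10 : 0 ≤ Y1 := wn_nonneg N zero_le_one Yc
  have hA10 : 0 ≤ A1 := wn_nonneg (N + 2) zero_le_one Yc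
  set C' : ℝ := Y1 * CR + (1 + n) * Cp + Y1 * Cg + 2 * A1 * 2 ^ (N + 1) with hC'
  have hn0 : (0:ℝ) ≤ n := Nat.cast_nonneg n
  have hC'0 : 0 ≤ C' := by positivity
  refine ⟨1 + C' * S, by nlinarith [mul_nonneg hC'0 hS], ?_⟩
  intro τ₀ hτ hτ1 U hU L H hH0 hL1 hL hH
  have hL0 : 0 ≤ L := (wn_nonneg N (hs_nonneg τ₀ 0) _).trans (hL 0 ⟨le_rfl, hS⟩)
  -- scales
  have hτr : ∀ r, 0 < τ₀ * Real.exp (-r) := fun r => mul_pos hτ (Real.exp_pos _)
  have hτr1 : ∀ r ∈ Set.Icc 0 S, τ₀ * Real.exp (-r) ≤ 1 := fun r hr => by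
    have h3 := Real.exp_le_one_iff.2 (neg_nonpos.2 hr.1)
    have h4 := Real.exp_pos (-r)
    nlinarith
  have hτrτ : ∀ r ∈ Set.Icc 0 S, τ₀ * Real.exp (-r) ≤ τ₀ := fun r hr => by
    have h3 := Real.exp_le_one_iff.2 (neg_nonpos.2 hr.1)
    nlinarith
  -- smoothness
  have sq : ∀ r, IsSmoothPeriodic (P.qt (τ₀ * Real.exp (-r))) := fun r => (hP1.1 _ (hτr r)).1
  have sU : ∀ r ∈ Set.Icc 0 S, IsSmoothPeriodic (U r) := hU.smooth
  have sW : ∀ r ∈ Set.Icc 0 S, IsSmoothPeriodic (P.pert τ₀ U r) := fun r hr =>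
    sp_sub (sU r hr) (sq r)
  have sg : ∀ r, IsSmoothPeriodic (gt (τ₀ * Real.exp (-r))) := fun r => hgsm _ (hτr r)
  -- the source
  set G : ℝ → R12 → ℂ := fun r => src n (U r) (P.qt (τ₀ * Real.exp (-r))) (gt (τ₀ * Real.exp (-r)))
    with hG
  have sG : ∀ r ∈ Set.Icc 0 S, IsSmoothPeriodic (G r) := fun r hr =>
    sp_src hn (sU r hr) (sq r) (sg r)
  -- crude bounds
  obtain ⟨BU, hBU⟩ := hU.bdd 2
  have hη : 0 < hs τ₀ S := Real.sqrt_pos.2 (hτr S)
  have hBq : ∀ r ∈ Set.Icc 0 S, wn 2 1 (P.qt (τ₀ * Real.exp (-r))) ≤ ((hs τ₀ S)⁻¹) ^ 2 * Cq2 := by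
    intro r hr
    refine (wn_one_le h1 (sq r) 2 hη (hs_anti hτ.le hr.2) (hs_le_one hτ.le hτ1 hr.1)).trans ?_
    exact mul_le_mul_of_nonneg_left (hCq2 _ (hτr r) (hτr1 r hr)).1 (by positivity)
  set B : ℝ := max (max BU (((hs τ₀ S)⁻¹) ^ 2 * Cq2)) Cg1 with hB
  have w02 : ∀ v : R12 → ℂ, IsSmoothPeriodic v → wn 0 1 v ≤ wn 2 1 v := fun v hv =>
    wn_le_wn h1 hv (by norm_num) zero_le_one le_rfl
  have hBG : ∀ r ∈ Set.Icc 0 S, ∀ k, ‖cf (G r) k‖ ≤ B ^ (n + 1) + B ^ (n + 1) + B := by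
    intro r hr k
    refine src_crude h1 hTN hn (sU r hr) (sq r) (sg r) ?_ ?_ ?_ k
    · exact (w02 _ (sU r hr)).trans ((hBU r hr).trans ((le_max_left _ _).trans (le_max_left _ _)))
    · exact (w02 _ (sq r)).trans ((hBq r hr).trans ((le_max_right _ _).trans (le_max_left _ _)))
    · refine (hCg1 _ (hτr r) (hτr1 r hr)).trans (le_trans ?_ (le_max_right _ _))
      have := hτr1 r hr
      nlinarith
  have hBW : ∀ r ∈ Set.Icc 0 S, wn 2 1 (P.pert τ₀ U r) ≤ B + B := by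
    intro r hr
    refine (wn_sub_le hTN (sU r hr) (sq r) 2 zero_le_one).trans (add_le_add ?_ ?_)
    · exact (hBU r hr).trans ((le_max_left _ _).trans (le_max_left _ _))
    · exact (hBq r hr).trans ((le_max_right _ _).trans (le_max_left _ _))
  have hW2 : ∀ r ∈ Set.Icc 0 S, ∀ k, (1 + nk k) ^ 2 * ‖cf (P.pert τ₀ U r) k‖ ≤ B + B := by
    intro r hr k
    have := wcf_le h1 (sW r hr) 2 zero_le_one k
    rw [one_mul] at this
    exact this.trans (hBW r hr)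
  have hBB : 0 ≤ B + B := (wn_nonneg 2 zero_le_one _).trans (hBW 0 ⟨le_rfl, hS⟩)
  have hWb : ∀ r ∈ Set.Icc 0 S, ∀ k, ‖cf (P.pert τ₀ U r) k‖ ≤ (1 + |P.om| + 1 / n) * (B + B) := by
    intro r hr k
    have h3 := hW2 r hr k
    have h4 : ‖cf (P.pert τ₀ U r) k‖ ≤ (1 + nk k) ^ 2 * ‖cf (P.pert τ₀ U r) k‖ :=
      le_mul_of_one_le_left (norm_nonneg _) (one_le_pow₀ (by linarith [nk_nonneg k]))
    have h5 : (B + B) ≤ (1 + |P.om| + 1 / n) * (B + B) := by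
      refine le_mul_of_one_le_left hBB ?_
      have := abs_nonneg P.om
      have : (0:ℝ) ≤ 1 / n := by positivity
      linarith
    linarith
  have hLamb : ∀ r ∈ Set.Icc 0 S, ∀ k, ‖Lam P.om (1 / n) τ₀ r k * cf (P.pert τ₀ U r) k‖ ≤
      (1 + |P.om| + 1 / n) * (B + B) := by
    intro r hr k
    have h3 : ‖Lam P.om (1 / n) τ₀ r k‖ ≤ (1 + |P.om| + 1 / n) * (1 + nk k) ^ 2 := by
      unfold Lam
      have e1 : ‖-(I * ((τ₀ * Real.exp (-r) * nk k ^ 2 : ℝ) : ℂ))‖ ≤ nk k ^ 2 := by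
        rw [norm_neg, norm_mul, Complex.norm_I, one_mul, Complex.norm_real, Real.norm_of_nonneg
          (mul_nonneg (hτr r).le (sq_nonneg _))]
        have := hτr1 r hr
        nlinarith [sq_nonneg (nk k)]
      have e2 : ‖I * (P.om : ℂ) - ((1 / n : ℝ) : ℂ)‖ ≤ |P.om| + 1 / n := by
        refine (norm_sub_le _ _).trans (add_le_add ?_ ?_)
        · rw [norm_mul, Complex.norm_I, one_mul, Complex.norm_real, Real.norm_eq_abs]
        · rw [Complex.norm_real, Real.norm_of_nonneg (by positivity)]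
      refine (norm_add_le _ _).trans ((add_le_add e1 e2).trans ?_)
      have h5 := nk_nonneg k
      have h6 := abs_nonneg P.om
      have h7 : (0:ℝ) ≤ 1 / n := by positivity
      have h8 : 1 ≤ (1 + nk k) ^ 2 := one_le_pow₀ (by linarith)
      nlinarith [mul_nonneg (add_nonneg h6 h7) (sub_nonneg.2 h8)]
    rw [norm_mul]
    calc ‖Lam P.om (1 / n) τ₀ r k‖ * ‖cf (P.pert τ₀ U r) k‖
        ≤ ((1 + |P.om| + 1 / n) * (1 + nk k) ^ 2) * ‖cf (P.pert τ₀ U r) k‖ :=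
          mul_le_mul_of_nonneg_right h3 (norm_nonneg _)
      _ = (1 + |P.om| + 1 / n) * ((1 + nk k) ^ 2 * ‖cf (P.pert τ₀ U r) k‖) := by ring
      _ ≤ _ := mul_le_mul_of_nonneg_left (hW2 r hr k) (by
          have := abs_nonneg P.om
          have : (0:ℝ) ≤ 1 / n := by positivity
          linarith)
  -- the ODE of `W`
  have hodeW : ∀ r ∈ Set.Icc 0 S, ∀ k, HasDerivWithinAt (fun r => cf (P.pert τ₀ U r) k)
      (Lam P.om (1 / n) τ₀ r k * cf (P.pert τ₀ U r) k + cf (G r) k) (Set.Icc 0 S) r := by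
    intro r hr k
    have d1 := hU.ode r hr k
    have d2 := (hgode τ₀ hτ r k).hasDerivWithinAt (s := Set.Icc 0 S)
    have d3 := d1.sub d2
    have e0 : ∀ r ∈ Set.Icc 0 S, cf (P.pert τ₀ U r) k =
        cf (U r) k - cf (P.qt (τ₀ * Real.exp (-r))) k := fun r hr =>
      cf_sub h1 h2 (sU r hr) (sq r) k
    refine (d3.congr (fun r hr => e0 r hr) (e0 r hr)).congr_deriv ?_
    rw [e0 r hr]
    simp only [hG]
    rw [cf_src h1 h2 hn (sU r hr) (sq r) (sg r)]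
    unfold Lam
    push_cast
    ring
  -- the localised equation
  have ha : Summable fun k => ‖cf Yc k‖ := summable_cf h1 sp_Yc
  have hodev : ∀ r ∈ Set.Icc 0 S, ∀ k, HasDerivWithinAt
      (fun r => TNl.cz (cf Yc) (cf (P.pert τ₀ U r)) k)
      (TNl.cz (cf Yc) (fun k => Lam P.om (1 / n) τ₀ r k * cf (P.pert τ₀ U r) k + cf (G r) k) k)
      (Set.Icc 0 S) r :=
    hasDeriv_cz ha (W := fun r => cf (P.pert τ₀ U r))
      (D := fun r k => Lam P.om (1 / n) τ₀ r k * cf (P.pert τ₀ U r) k + cf (G r) k) hWb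
      (fun r hr k => (norm_add_le _ _).trans (add_le_add (hLamb r hr k) (hBG r hr k))) hodeW
  set F : ℝ → Z12 → ℂ := fun r k =>
    ∑' j, Ker (τ₀ * Real.exp (-r)) (cf Yc) (cf (P.pert τ₀ U r)) j (k - j) +
      TNl.cz (cf Yc) (cf (G r)) k with hF
  have hode : ∀ r ∈ Set.Icc 0 S, ∀ k, HasDerivWithinAt
      (fun r => TNl.cz (cf Yc) (cf (P.pert τ₀ U r)) k)
      ((-(I * ((τ₀ * Real.exp (-r) * nk k ^ 2 : ℝ) : ℂ)) +
        (I * (P.om : ℂ) - ((1 / n : ℝ) : ℂ))) * TNl.cz (cf Yc) (cf (P.pert τ₀ U r)) k + F r k)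
      (Set.Icc 0 S) r := by
    intro r hr k
    refine (hodev r hr k).congr_deriv ?_
    exact cz_lin rfl ha (hWb r hr) (hLamb r hr) (hBG r hr) k
  -- bound of the forcing
  set Φ : ℝ := 2 * Real.sqrt τ₀ * (A1 * (2 ^ (N + 1) * (L + H))) +
    (Y1 * CR * L ^ 2 + (1 + n) * Cp * τ₀ * L + Y1 * (Cg * τ₀)) with hΦ
  have hFb : ∀ r ∈ Set.Icc 0 S, ∀ K : Finset Z12,
      ∑ k ∈ K, (1 + hs τ₀ r * nk k) ^ N * ‖F r k‖ ≤ Φ := by
    intro r hr K
    have hh := hs_nonneg τ₀ r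
    have hh1 := hs_le_one hτ.le hτ1 hr.1
    have eτ := hs_sq hτ.le r
    obtain ⟨c1, c2⟩ := comm_bound h1 hh hh1 sp_Yc (sW r hr) N
    have sYG : IsSmoothPeriodic (fun x => Yc x * G r x) := sp_mul sp_Yc (sG r hr)
    have ecz : TNl.cz (cf Yc) (cf (G r)) = cf (fun x => Yc x * G r x) :=
      (TNl.cf_mul h1 h2 sp_Yc (sG r hr)).2.symm
    have s1 := summable_wn h1 sYG N hh
    have h3 : ∑ k ∈ K, (1 + hs τ₀ r * nk k) ^ N * ‖F r k‖ ≤
        ∑ k ∈ K, ((1 + hs τ₀ r * nk k) ^ N *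
          ‖∑' j, Ker (hs τ₀ r ^ 2) (cf Yc) (cf (P.pert τ₀ U r)) j (k - j)‖ +
          (1 + hs τ₀ r * nk k) ^ N * ‖cf (fun x => Yc x * G r x) k‖) := by
      refine Finset.sum_le_sum fun k _ => ?_
      rw [← mul_add]
      refine mul_le_mul_of_nonneg_left ?_ (w_nonneg N hh k)
      simp only [hF]
      rw [ecz, eτ]
      exact norm_add_le _ _
    refine h3.trans ?_
    rw [Finset.sum_add_distrib]
    refine add_le_add ?_ ?_
    · refine (c1.sum_le_tsum K fun k _ => mul_nonneg (w_nonneg N hh k) (norm_nonneg _)).trans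
        (c2.trans ?_)
      have h4 : wn (N + 1) (hs τ₀ r) (P.pert τ₀ U r) ≤ 2 ^ (N + 1) * (L + H) :=
        (wn_succ_le h1 (sW r hr) hNs hh).trans
          (mul_le_mul_of_nonneg_left (add_le_add (hL r hr) (hH r hr)) (by positivity))
      have h5 := hs_le_sqrt hτ.le hr.1
      have h6 : A1 * wn (N + 1) (hs τ₀ r) (P.pert τ₀ U r) ≤ A1 * (2 ^ (N + 1) * (L + H)) :=
        mul_le_mul_of_nonneg_left h4 hA10
      have h7 : 0 ≤ A1 * wn (N + 1) (hs τ₀ r) (P.pert τ₀ U r) :=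
        mul_nonneg hA10 (wn_nonneg _ hh _)
      exact mul_le_mul (by linarith) h6 h7 (by positivity)
    · refine (s1.sum_le_tsum K fun k _ => mul_nonneg (w_nonneg N hh k) (norm_nonneg _)).trans ?_
      have eU : U r = fun x => P.qt (τ₀ * Real.exp (-r)) x + P.pert τ₀ U r x := by
        funext x; simp only [Profile.pert]; ring
      have eG : (fun x => Yc x * G r x) = fun x => Yc x * src n
          (fun x => P.qt (τ₀ * Real.exp (-r)) x + P.pert τ₀ U r x)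
          (P.qt (τ₀ * Real.exp (-r))) (gt (τ₀ * Real.exp (-r))) x := by
        simp only [hG]
        rw [← eU]
      have hLr := hL r hr
      have hrem := hCR (hs τ₀ r) hh (P.qt (τ₀ * Real.exp (-r))) (P.pert τ₀ U r) (sq r) (sW r hr)
        (hCq _ (hτr r) (hτr1 r hr)).1 (hLr.trans hL1)
      have hrem' := hrem.trans (mul_le_mul_of_nonneg_left
        (pow_le_pow_left₀ (wn_nonneg N hh _) hLr 2) hCR0)
      obtain ⟨p1, p2, -⟩ := hCp _ (hτr r) (hτr1 r hr)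
      have hfar := src_far h1 hTN hn hn2 N hh hh1 (sq r) (sW r hr) (sg r) hrem' p1 p2
        (hCg _ (hτr r) (hτr1 r hr)) hLr hL0
      show wn N (hs τ₀ r) (fun x => Yc x * G r x) ≤ _
      rw [eG]
      refine hfar.trans ?_
      have h8 := hτrτ r hr
      have h9 : (1 + n) * Cp * (τ₀ * Real.exp (-r)) * L ≤ (1 + n) * Cp * τ₀ * L := by
        gcongr
      have h10 : Y1 * (Cg * (τ₀ * Real.exp (-r))) ≤ Y1 * (Cg * τ₀) := by
        gcongr
      linarith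
  -- initial value
  have hmul : ∀ r ∈ Set.Icc 0 S, TNl.cz (cf Yc) (cf (P.pert τ₀ U r)) =
      cf (fun x => Yc x * P.pert τ₀ U r x) := fun r hr =>
    (TNl.cf_mul h1 h2 sp_Yc (sW r hr)).2.symm
  have m0 : (0:ℝ) ∈ Set.Icc 0 S := ⟨le_rfl, hS⟩
  have mS : S ∈ Set.Icc 0 S := ⟨hS, le_rfl⟩
  have h0 : ∀ K : Finset Z12, ∑ k ∈ K, (1 + hs τ₀ 0 * nk k) ^ N *
      ‖TNl.cz (cf Yc) (cf (P.pert τ₀ U 0)) k‖ ≤ Y1 * wn N (Real.sqrt τ₀) (P.pert τ₀ U 0) := by
    intro K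
    rw [hmul 0 m0]
    have sYW := sp_mul sp_Yc (sW 0 m0)
    refine ((summable_wn h1 sYW N (hs_nonneg τ₀ 0)).sum_le_tsum K fun k _ =>
      mul_nonneg (w_nonneg N (hs_nonneg τ₀ 0) k) (norm_nonneg _)).trans ?_
    show wn N (hs τ₀ 0) (fun x => Yc x * P.pert τ₀ U 0 x) ≤ _
    refine (hTN.wn_mul _ _ sp_Yc (sW 0 m0) N _ (hs_nonneg τ₀ 0)).trans ?_
    rw [hs_zero]
    refine mul_le_mul_of_nonneg_right ?_ (wn_nonneg N (Real.sqrt_nonneg _) _)
    refine hTN.wn_mono Yc sp_Yc N _ 1 (Real.sqrt_nonneg _) ?_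
    rw [← hs_zero]
    exact hs_le_one hτ.le hτ1 le_rfl
  have htr := transport (νn := 1 / n) (by positivity) hτ.le hS N hode hFb h0
  have hfin : wn N (hs τ₀ S) (fun x => Yc x * P.pert τ₀ U S x) ≤
      Real.exp (-(S * (1 / n))) * (Y1 * wn N (Real.sqrt τ₀) (P.pert τ₀ U 0)) + Φ * S := by
    refine Real.tsum_le_of_sum_le (fun k => mul_nonneg (w_nonneg N (hs_nonneg τ₀ S) k)
      (norm_nonneg _)) fun K => ?_
    have := htr K
    rw [hmul S mS] at this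
    exact this
  refine hfin.trans ?_
  have e1 : Real.exp (-(S * (1 / n))) = Real.exp (-S / n) := by congr 1; ring
  rw [e1]
  have hsq0 := Real.sqrt_nonneg τ₀
  have hw0 := wn_nonneg N (Real.sqrt_nonneg τ₀) (P.pert τ₀ U 0)
  have hΦC : Φ ≤ C' * (L ^ 2 + Real.sqrt τ₀ * (L + H) + τ₀) := by
    have i1 : (1 + n) * Cp * τ₀ * L ≤ (1 + n) * Cp * τ₀ :=
      mul_le_of_le_one_right (by positivity) hL1
    have i2 : 0 ≤ Real.sqrt τ₀ * (L + H) := mul_nonneg hsq0 (by linarith)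
    have i3 : 0 ≤ L ^ 2 := sq_nonneg L
    have j1 : 0 ≤ Y1 * CR := by positivity
    have j2 : 0 ≤ (1 + n) * Cp := by positivity
    have j3 : 0 ≤ Y1 * Cg := by positivity
    have j4 : 0 ≤ 2 * A1 * 2 ^ (N + 1) := by positivity
    have k1 := mul_nonneg j1 (add_nonneg i2 hτ.le)
    have k2 := mul_nonneg j2 (add_nonneg i3 i2)
    have k3 := mul_nonneg j3 (add_nonneg i3 i2)
    have k4 := mul_nonneg j4 (add_nonneg i3 hτ.le)
    have id1 : C' * (L ^ 2 + Real.sqrt τ₀ * (L + H) + τ₀) - Φ =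
        Y1 * CR * (Real.sqrt τ₀ * (L + H) + τ₀) + (1 + n) * Cp * (L ^ 2 + Real.sqrt τ₀ * (L + H)) +
        Y1 * Cg * (L ^ 2 + Real.sqrt τ₀ * (L + H)) + 2 * A1 * 2 ^ (N + 1) * (L ^ 2 + τ₀) +
        ((1 + n) * Cp * τ₀ - (1 + n) * Cp * τ₀ * L) := by
      rw [hΦ, hC']; ring
    linarith [id1, i1, k1, k2, k3, k4]
  have i4 : 0 ≤ L ^ 2 + Real.sqrt τ₀ * (L + H) + τ₀ := by
    have i2 : 0 ≤ Real.sqrt τ₀ * (L + H) := mul_nonneg hsq0 (by linarith)
    have := sq_nonneg L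
    linarith [hτ.le]
  have hexp := Real.exp_pos (-S / n)
  refine add_le_add ?_ ?_
  · calc Real.exp (-S / n) * (Y1 * wn N (Real.sqrt τ₀) (P.pert τ₀ U 0))
        = Y1 * Real.exp (-S / n) * wn N (Real.sqrt τ₀) (P.pert τ₀ U 0) := by ring
      _ ≤ max 1 Y1 * Real.exp (-S / n) * wn N (Real.sqrt τ₀) (P.pert τ₀ U 0) := by
        gcongr
        exact le_max_right _ _
  · calc Φ * S ≤ C' * (L ^ 2 + Real.sqrt τ₀ * (L + H) + τ₀) * S :=
          mul_le_mul_of_nonneg_right hΦC hS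
      _ ≤ (1 + C' * S) * (L ^ 2 + Real.sqrt τ₀ * (L + H) + τ₀) := by nlinarith

end

end Crest.Agent.R086.NSF
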