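import Crest.Agent.R086.Defs

/-!
# Row 86, Part D torus, family lemmas PF (helper893), file 1: Fourier coefficients of compactly supported
functions, integration by parts.
-/

set_option autoImplicit false

open MeasureTheory Complex
open scoped ContDiff

namespace Crest.Agent.R086.PF

/-- frequencies -/
abbrev K : Type := Fin 12 → ℤ

/-- lattice vector in `R12` -/
noncomputable def kv (k : K) : R12 := WithLp.toLp 2 (fun i => (k i : ℝ))

@[simp] theorem kv_apply (k : K) (i : Fin 12) : kv k i = (k i : ℝ) := rfl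

theorem inner_kv_ei (k : K) (j : Fin 12) : inner ℝ (kv k) (ei j) = (k j : ℝ) := by
  simp [ei, PiLp.inner_apply, kv]

/-- `(2π)^{-12}` -/
noncomputable def cst : ℂ := (((2 * Real.pi) ^ 12 : ℝ) : ℂ)⁻¹

/-- `e^{-i k·x}` -/
noncomputable def em (k : K) (x : R12) : ℂ := exp (-(I * ((inner ℝ (kv k) x : ℝ) : ℂ)))

theorem norm_em (k : K) (x : R12) : ‖em k x‖ = 1 := by
  unfold em
  rw [show -(I * ((inner ℝ (kv k) x : ℝ) : ℂ)) = ((-(inner ℝ (kv k) x) : ℝ) : ℂ) * I by
    push_cast; ring]
  exact Complex.norm_exp_ofReal_mul_I _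

theorem contDiff_em (k : K) {n : WithTop ℕ∞} : ContDiff ℝ n (em k) := by
  unfold em
  have h1 : ContDiff ℝ n (fun x : R12 => (inner ℝ (kv k) x : ℝ)) :=
    (innerSL ℝ (kv k)).contDiff
  have h2 : ContDiff ℝ n (fun x : R12 => ((inner ℝ (kv k) x : ℝ) : ℂ)) :=
    Complex.ofRealCLM.contDiff.comp h1
  exact ((contDiff_const.mul h2).neg).cexp

theorem continuous_em (k : K) : Continuous (em k) := (contDiff_em k (n := 0)).continuous

theorem fderiv_em (k : K) (x v : R12) :
    fderiv ℝ (em k) x v = -(I * ((inner ℝ (kv k) v : ℝ) : ℂ)) * em k x := by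
  have h1 : HasFDerivAt (fun x : R12 => (inner ℝ (kv k) x : ℝ)) (innerSL ℝ (kv k)) x :=
    (innerSL ℝ (kv k)).hasFDerivAt
  have h2 : HasFDerivAt (fun x : R12 => ((inner ℝ (kv k) x : ℝ) : ℂ))
      (Complex.ofRealCLM.comp (innerSL ℝ (kv k))) x :=
    Complex.ofRealCLM.hasFDerivAt.comp x h1
  have h3 := ((h2.const_mul I).neg).cexp
  have h4 : HasFDerivAt (em k) _ x := h3
  rw [h4.fderiv]
  simp [em]
  ring

/-- the Fourier coefficient of the `2π`-periodisation of `g` -/
noncomputable def fc (g : R12 → ℂ) (k : K) : ℂ := cst * ∫ x : R12, em k x * g x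

/-- continuous with compact support: the class where `fc` is additive -/
theorem int_em {g : R12 → ℂ} (hg : Continuous g) (hc : HasCompactSupport g) (k : K) :
    Integrable (fun x => em k x * g x) :=
  ((continuous_em k).mul hg).integrable_of_hasCompactSupport hc.mul_left

theorem fc_add {g h : R12 → ℂ} (hg : Continuous g) (hgc : HasCompactSupport g)
    (hh : Continuous h) (hhc : HasCompactSupport h) (k : K) :
    fc (fun x => g x + h x) k = fc g k + fc h k := by
  unfold fc
  rw [← mul_add, ← integral_add (int_em hg hgc k) (int_em hh hhc k)]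
  simp only [mul_add]

theorem fc_const_mul (c : ℂ) (g : R12 → ℂ) (k : K) :
    fc (fun x => c * g x) k = c * fc g k := by
  unfold fc
  rw [show (fun x => em k x * (c * g x)) = fun x => c * (em k x * g x) by
    funext x; ring, integral_const_mul]
  ring

theorem fc_sum {ι : Type*} (s : Finset ι) (g : ι → R12 → ℂ)
    (hg : ∀ i ∈ s, Continuous (g i)) (hc : ∀ i ∈ s, HasCompactSupport (g i)) (k : K) :
    fc (fun x => ∑ i ∈ s, g i x) k = ∑ i ∈ s, fc (g i) k := by
  unfold fc
  rw [← Finset.mul_sum, ← integral_finsetSum s (fun i hi => int_em (hg i hi) (hc i hi) k)]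
  simp only [Finset.mul_sum]

/-- integration by parts -/
theorem fc_fderiv {g : R12 → ℂ} (hg : ContDiff ℝ 1 g) (hc : HasCompactSupport g) (k : K)
    (j : Fin 12) :
    fc (fun x => fderiv ℝ g x (ei j)) k = I * (k j : ℂ) * fc g k := by
  have hgd : Continuous fun x => fderiv ℝ g x (ei j) :=
    (hg.continuous_fderiv one_ne_zero).clm_apply continuous_const
  have hcd : HasCompactSupport fun x => fderiv ℝ g x (ei j) :=
    (hc.fderiv ℝ).comp_left (g := fun L : R12 →L[ℝ] ℂ => L (ei j)) (by simp)
  have hed : ∀ x, fderiv ℝ (em k) x (ei j) = -(I * (k j : ℂ)) * em k x := by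
    intro x
    rw [fderiv_em, inner_kv_ei]
    push_cast
    rfl
  have h := integral_mul_fderiv_eq_neg_fderiv_mul_of_integrable (𝕜 := ℂ) (μ := volume)
    (f := em k) (g := g) (v := ei j) ?_ ?_ (int_em hg.continuous hc k) ?_ ?_
  · unfold fc
    rw [h]
    simp only [hed]
    rw [show (fun x => -(I * (k j : ℂ)) * em k x * g x)
      = fun x => -(I * (k j : ℂ)) * (em k x * g x) by funext x; ring, integral_const_mul]
    ring
  · simp only [hed]
    have := (int_em hg.continuous hc k).const_mul (-(I * (k j : ℂ)))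
    refine this.congr (Filter.Eventually.of_forall fun x => ?_)
    simp only []
    ring
  · exact int_em hgd hcd k
  · intro x _
    exact (contDiff_em k (n := 1)).differentiable one_ne_zero x
  · intro x _
    exact hg.differentiable one_ne_zero x

end Crest.Agent.R086.PF
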