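import Crest.Agent.R086.PF1

/-!
# Row 86, Part D torus, family lemmas PF (helper893), file 2: the functions `φ · S_τ f`.
-/

set_option autoImplicit false

open MeasureTheory Complex
open scoped ContDiff

namespace Crest.Agent.R086.PF

/-- `S_τ f (x) = τ^z f(x/√τ)` -/
noncomputable def SS (z : ℂ) (τ : ℝ) (f : R12 → ℂ) (x : R12) : ℂ :=
  (τ : ℂ) ^ z * f ((Real.sqrt τ)⁻¹ • x)

/-- Fourier coefficients of `φ · S_τ f` -/
noncomputable def FF (z : ℂ) (φ f : R12 → ℂ) (τ : ℝ) (k : K) : ℂ :=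
  fc (fun x => φ x * SS z τ f x) k

/-- the class of cut-offs -/
structure Cut (φ : R12 → ℂ) : Prop where
  smooth : ContDiff ℝ ∞ φ
  cpt : HasCompactSupport φ

theorem Cut.fderiv {φ : R12 → ℂ} (h : Cut φ) (j : Fin 12) :
    Cut (fun x => fderiv ℝ φ x (ei j)) where
  smooth := (h.smooth.fderiv_right (m := ∞) (by simp)).clm_apply contDiff_const
  cpt := (h.cpt.fderiv ℝ).comp_left (g := fun L : R12 →L[ℝ] ℂ => L (ei j)) (by simp)

theorem smooth_fderiv {f : R12 → ℂ} (h : ContDiff ℝ ∞ f) (j : Fin 12) :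
    ContDiff ℝ ∞ (fun x => fderiv ℝ f x (ei j)) :=
  (h.fderiv_right (m := ∞) (by simp)).clm_apply contDiff_const

theorem contDiff_SS {z : ℂ} {τ : ℝ} {f : R12 → ℂ} {n : WithTop ℕ∞} (h : ContDiff ℝ n f) :
    ContDiff ℝ n (SS z τ f) := by
  unfold SS
  exact contDiff_const.mul (h.comp (contDiff_const_smul _))

theorem continuous_SS {z : ℂ} {τ : ℝ} {f : R12 → ℂ} (h : Continuous f) :
    Continuous (SS z τ f) := by
  unfold SS
  fun_prop

theorem fderiv_SS {z : ℂ} {τ : ℝ} {f : R12 → ℂ} (h : ContDiff ℝ ∞ f) (x v : R12) :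
    fderiv ℝ (SS z τ f) x v =
      ((Real.sqrt τ)⁻¹ : ℝ) * SS z τ (fun y => fderiv ℝ f y v) x := by
  have h1 : HasFDerivAt f (fderiv ℝ f ((Real.sqrt τ)⁻¹ • x)) ((Real.sqrt τ)⁻¹ • x) :=
    (h.differentiable (by simp) _).hasFDerivAt
  have h2 : HasFDerivAt (fun x : R12 => (Real.sqrt τ)⁻¹ • x)
      ((Real.sqrt τ)⁻¹ • ContinuousLinearMap.id ℝ R12) x :=
    ((Real.sqrt τ)⁻¹ • ContinuousLinearMap.id ℝ R12).hasFDerivAt
  have h3 : HasFDerivAt (SS z τ f) _ x := (h1.comp x h2).const_mul ((τ : ℂ) ^ z)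
  rw [h3.fderiv]
  simp [SS]
  ring

/-- product rule and integration by parts: `i k_j F(φ,f) = F(∂_jφ,f) + τ^{-1/2} F(φ,∂_j f)` -/
theorem FF_ik {z : ℂ} {φ f : R12 → ℂ} (hφ : Cut φ) (hf : ContDiff ℝ ∞ f) (τ : ℝ) (k : K)
    (j : Fin 12) :
    I * (k j : ℂ) * FF z φ f τ k = FF z (fun x => fderiv ℝ φ x (ei j)) f τ k
      + (((Real.sqrt τ)⁻¹ : ℝ) : ℂ) * FF z φ (fun y => fderiv ℝ f y (ei j)) τ k := by
  have hs : ContDiff ℝ 1 (fun x => φ x * SS z τ f x) :=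
    ((hφ.smooth.mul (contDiff_SS hf)).of_le (by exact_mod_cast le_top))
  have hc : HasCompactSupport (fun x => φ x * SS z τ f x) := hφ.cpt.mul_right
  unfold FF
  rw [← fc_fderiv hs hc k j, ← fc_const_mul, ← fc_add]
  · congr 1
    funext x
    have h1 : DifferentiableAt ℝ φ x := hφ.smooth.differentiable (by simp) x
    have h2 : DifferentiableAt ℝ (SS z τ f) x := (contDiff_SS hf).differentiable (by simp) x
    rw [show (fun x => φ x * SS z τ f x) = φ * SS z τ f from rfl, fderiv_mul h1 h2]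
    simp only [add_apply, smul_apply, smul_eq_mul]
    rw [fderiv_SS hf]
    ring
  · exact ((hφ.fderiv j).smooth.continuous.mul (contDiff_SS hf).continuous)
  · exact (hφ.fderiv j).cpt.mul_right
  · exact continuous_const.mul
      (hφ.smooth.continuous.mul (contDiff_SS (smooth_fderiv hf j)).continuous)
  · exact (hφ.cpt.mul_right).mul_left

theorem FF_add_right {z : ℂ} {φ f g : R12 → ℂ} (hφ : Cut φ) (hf : Continuous f)
    (hg : Continuous g) (τ : ℝ) (k : K) :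
    FF z φ (fun y => f y + g y) τ k = FF z φ f τ k + FF z φ g τ k := by
  unfold FF
  rw [← fc_add (g := fun x => φ x * SS z τ f x) (h := fun x => φ x * SS z τ g x)
    (hφ.smooth.continuous.mul (continuous_SS hf)) hφ.cpt.mul_right
    (hφ.smooth.continuous.mul (continuous_SS hg)) hφ.cpt.mul_right]
  congr 1
  funext x
  simp only [SS]
  ring

theorem FF_const_right {z : ℂ} {φ f : R12 → ℂ} (c : ℂ) (τ : ℝ) (k : K) :
    FF z φ (fun y => c * f y) τ k = c * FF z φ f τ k := by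
  unfold FF
  rw [← fc_const_mul]
  congr 1
  funext x
  simp only [SS]
  ring

theorem FF_sum_right {z : ℂ} {φ : R12 → ℂ} {ι : Type*} (s : Finset ι) (f : ι → R12 → ℂ)
    (hφ : Cut φ) (hf : ∀ i ∈ s, Continuous (f i)) (τ : ℝ) (k : K) :
    FF z φ (fun y => ∑ i ∈ s, f i y) τ k = ∑ i ∈ s, FF z φ (f i) τ k := by
  unfold FF
  rw [← fc_sum s (fun i x => φ x * SS z τ (f i) x)
    (fun i hi => hφ.smooth.continuous.mul (continuous_SS (hf i hi)))
    (fun i _ => hφ.cpt.mul_right)]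
  congr 1
  funext x
  simp only [SS, Finset.mul_sum]

theorem FF_add_left {z : ℂ} {φ ψ f : R12 → ℂ} (hφ : Cut φ) (hψ : Cut ψ) (hf : Continuous f)
    (τ : ℝ) (k : K) :
    FF z (fun y => φ y + ψ y) f τ k = FF z φ f τ k + FF z ψ f τ k := by
  unfold FF
  rw [← fc_add (g := fun x => φ x * SS z τ f x) (h := fun x => ψ x * SS z τ f x)
    (hφ.smooth.continuous.mul (continuous_SS hf)) hφ.cpt.mul_right
    (hψ.smooth.continuous.mul (continuous_SS hf)) hψ.cpt.mul_right]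
  congr 1
  funext x
  ring

/-- second derivatives are symmetric sums: `lap f = ∑ ∂_j∂_j f` -/
theorem lap_eq {f : R12 → ℂ} (hf : ContDiff ℝ ∞ f) (y : R12) :
    lap f y = ∑ j : Fin 12, fderiv ℝ (fun x => fderiv ℝ f x (ei j)) y (ei j) := by
  unfold lap
  refine Finset.sum_congr rfl fun j _ => ?_
  rw [iteratedFDeriv_two_apply]
  have h1 : DifferentiableAt ℝ (fderiv ℝ f) y :=
    ((hf.fderiv_right (m := ∞) (by simp)).differentiable (by simp)) y
  have h2 : HasFDerivAt (fun x => fderiv ℝ f x (ei j)) _ y :=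
    h1.hasFDerivAt.clm_apply (hasFDerivAt_const (ei j) y)
  rw [h2.fderiv]
  simp

/-- `|k|²` -/
noncomputable def ksq (k : K) : ℝ := ∑ j : Fin 12, (k j : ℝ) ^ 2

theorem ksq_eq (k : K) : ksq k = ‖kv k‖ ^ 2 := by
  rw [EuclideanSpace.norm_eq, Real.sq_sqrt (by positivity)]
  simp [ksq, kv]

/-- `-|k|² F(φ,f) = F(Δφ,f) + 2τ^{-1/2} ∑ F(∂_jφ,∂_jf) + τ^{-1} F(φ,Δf)` -/
theorem FF_ksq {z : ℂ} {φ f : R12 → ℂ} (hφ : Cut φ) (hf : ContDiff ℝ ∞ f) {τ : ℝ} (hτ : 0 < τ)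
    (k : K) :
    -((ksq k : ℝ) : ℂ) * FF z φ f τ k =
      (∑ j : Fin 12, FF z (fun x => fderiv ℝ (fun x => fderiv ℝ φ x (ei j)) x (ei j)) f τ k)
      + 2 * (((Real.sqrt τ)⁻¹ : ℝ) : ℂ) *
        (∑ j : Fin 12, FF z (fun x => fderiv ℝ φ x (ei j)) (fun y => fderiv ℝ f y (ei j)) τ k)
      + ((τ⁻¹ : ℝ) : ℂ) * FF z φ (lap f) τ k := by
  have h1 : FF z φ (lap f) τ k = ∑ j : Fin 12,
      FF z φ (fun y => fderiv ℝ (fun x => fderiv ℝ f x (ei j)) y (ei j)) τ k := by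
    rw [← FF_sum_right _ _ hφ
      (fun j _ => (smooth_fderiv (smooth_fderiv hf j) j).continuous)]
    congr 1
    funext y
    exact lap_eq hf y
  have hs : ((τ⁻¹ : ℝ) : ℂ) = (((Real.sqrt τ)⁻¹ : ℝ) : ℂ) * (((Real.sqrt τ)⁻¹ : ℝ) : ℂ) := by
    rw [← Complex.ofReal_mul, ← mul_inv, Real.mul_self_sqrt hτ.le]
  have h2 : ∀ j : Fin 12, -((k j : ℂ) ^ 2) * FF z φ f τ k =
      FF z (fun x => fderiv ℝ (fun x => fderiv ℝ φ x (ei j)) x (ei j)) f τ k
      + 2 * (((Real.sqrt τ)⁻¹ : ℝ) : ℂ) *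
        FF z (fun x => fderiv ℝ φ x (ei j)) (fun y => fderiv ℝ f y (ei j)) τ k
      + ((τ⁻¹ : ℝ) : ℂ) *
        FF z φ (fun y => fderiv ℝ (fun x => fderiv ℝ f x (ei j)) y (ei j)) τ k := by
    intro j
    have e1 := FF_ik (z := z) hφ hf τ k j
    have e2 := FF_ik (z := z) (hφ.fderiv j) hf τ k j
    have e3 := FF_ik (z := z) hφ (smooth_fderiv hf j) τ k j
    have e4 : -((k j : ℂ) ^ 2) * FF z φ f τ k
        = I * (k j : ℂ) * (I * (k j : ℂ) * FF z φ f τ k) := by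
      ring_nf
      simp
    rw [e4, e1, mul_add, e2, hs]
    have e5 : I * (k j : ℂ) * ((((Real.sqrt τ)⁻¹ : ℝ) : ℂ) *
        FF z φ (fun y => fderiv ℝ f y (ei j)) τ k) = (((Real.sqrt τ)⁻¹ : ℝ) : ℂ) *
        (I * (k j : ℂ) * FF z φ (fun y => fderiv ℝ f y (ei j)) τ k) := by ring
    rw [e5, e3]
    ring
  rw [h1]
  unfold ksq
  push_cast
  rw [← Finset.sum_neg_distrib, Finset.sum_mul, Finset.mul_sum, Finset.mul_sum,
    ← Finset.sum_add_distrib, ← Finset.sum_add_distrib]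
  refine Finset.sum_congr rfl fun j _ => ?_
  exact_mod_cast h2 j

end Crest.Agent.R086.PF
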