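import Crest.Agent.R086.PF2

/-!
# Row 86, Part D torus, family lemmas PF (helper893), file 3: derivative in `τ`.
-/

set_option autoImplicit false

open MeasureTheory Complex Filter Topology
open scoped ContDiff

namespace Crest.Agent.R086.PF

/-- `D_z f = -z f + ½ y·∇f`; for `z = -1/n + i om`, `D_z Q` is the time mode -/
noncomputable def Dz (z : ℂ) (f : R12 → ℂ) (y : R12) : ℂ := -z * f y + (1 / 2) * eul f y

theorem smooth_eul {f : R12 → ℂ} (h : ContDiff ℝ ∞ f) : ContDiff ℝ ∞ (eul f) := by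
  unfold eul
  exact (h.fderiv_right (m := ∞) (by simp)).clm_apply contDiff_id

theorem smooth_Dz {z : ℂ} {f : R12 → ℂ} (h : ContDiff ℝ ∞ f) : ContDiff ℝ ∞ (Dz z f) := by
  unfold Dz
  exact (contDiff_const.mul h).add (contDiff_const.mul (smooth_eul h))

theorem hasDerivAt_SS {z : ℂ} {f : R12 → ℂ} (hf : ContDiff ℝ ∞ f) {τ : ℝ} (hτ : 0 < τ)
    (x : R12) :
    HasDerivAt (fun τ : ℝ => SS z τ f x) (-((τ⁻¹ : ℝ) : ℂ) * SS z τ (Dz z f) x) τ := by
  have hsq : 0 < Real.sqrt τ := Real.sqrt_pos.2 hτ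
  have hτc : (τ : ℂ) ≠ 0 := by exact_mod_cast hτ.ne'
  have h1 : HasDerivAt (fun τ : ℝ => (τ : ℂ) ^ z) (z * (τ : ℂ) ^ (z - 1)) τ := by
    have := (hasDerivAt_id (τ : ℂ)).cpow_const (c := z) (Or.inl (by simpa using hτ))
    simpa using this.comp_ofReal
  have h2 : HasDerivAt (fun τ : ℝ => (Real.sqrt τ)⁻¹)
      (-(1 / (2 * Real.sqrt τ)) / (Real.sqrt τ) ^ 2) τ :=
    (Real.hasDerivAt_sqrt hτ.ne').inv hsq.ne'
  have h3 : HasDerivAt (fun τ : ℝ => (Real.sqrt τ)⁻¹ • x)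
      ((-(1 / (2 * Real.sqrt τ)) / (Real.sqrt τ) ^ 2) • x) τ := h2.smul_const x
  have h4 : HasFDerivAt f (fderiv ℝ f ((Real.sqrt τ)⁻¹ • x)) ((Real.sqrt τ)⁻¹ • x) :=
    (hf.differentiable (by simp) _).hasFDerivAt
  have h5 := h1.mul (h4.comp_hasDerivAt τ h3)
  refine h5.congr_deriv ?_
  have e1 : (τ : ℂ) ^ (z - 1) = (τ : ℂ) ^ z * (τ : ℂ)⁻¹ := by
    rw [Complex.cpow_sub _ _ hτc, Complex.cpow_one]
    rfl
  have e2 : ((Real.sqrt τ : ℝ) : ℂ) ^ 2 = (τ : ℂ) := by
    rw [← Complex.ofReal_pow, Real.sq_sqrt hτ.le]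
  have hsc : ((Real.sqrt τ : ℝ) : ℂ) ≠ 0 := by exact_mod_cast hsq.ne'
  simp only [SS, Dz, eul, map_smul, Complex.real_smul, e1, Function.comp_apply]
  push_cast
  rw [e2]
  field_simp
  ring

theorem continuousOn_SS {z : ℂ} {f : R12 → ℂ} (hf : Continuous f) :
    ContinuousOn (fun p : ℝ × R12 => SS z p.1 f p.2) (Set.Ioi 0 ×ˢ Set.univ) := by
  intro p hp
  have hp1 : 0 < p.1 := hp.1
  have h1 : ContinuousAt (fun p : ℝ × R12 => ((p.1 : ℝ) : ℂ) ^ z) p :=
    (Complex.continuousAt_ofReal_cpow_const p.1 z (Or.inr hp1.ne')).comp continuousAt_fst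
  have h2 : ContinuousAt (fun p : ℝ × R12 => (Real.sqrt p.1)⁻¹ • p.2) p :=
    ((Real.continuous_sqrt.continuousAt.comp continuousAt_fst).inv₀
      (Real.sqrt_pos.2 hp1).ne').smul continuousAt_snd
  exact (h1.mul (hf.continuousAt.comp h2)).continuousWithinAt

theorem hasDerivAt_FF {z : ℂ} {φ f : R12 → ℂ} (hφ : Cut φ) (hf : ContDiff ℝ ∞ f) {τ : ℝ}
    (hτ : 0 < τ) (k : K) :
    HasDerivAt (fun τ : ℝ => FF z φ f τ k) (-((τ⁻¹ : ℝ) : ℂ) * FF z φ (Dz z f) τ k) τ := by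
  set S : Set R12 := tsupport φ with hS
  have hSc : IsCompact S := hφ.cpt
  set F : ℝ → R12 → ℂ := fun τ x => em k x * (φ x * SS z τ f x) with hF
  set F' : ℝ → R12 → ℂ := fun τ x =>
    em k x * (φ x * (-((τ⁻¹ : ℝ) : ℂ) * SS z τ (Dz z f) x)) with hF'
  have hc : ContinuousOn (fun p : ℝ × R12 => F' p.1 p.2) (Set.Ioi 0 ×ˢ Set.univ) := by
    refine ((continuous_em k).comp continuous_snd).continuousOn.mul
      ((hφ.smooth.continuous.comp continuous_snd).continuousOn.mul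
        (ContinuousOn.mul ?_ (continuousOn_SS (smooth_Dz hf).continuous)))
    refine ContinuousOn.neg ?_
    refine Complex.continuous_ofReal.comp_continuousOn ?_
    exact continuous_fst.continuousOn.inv₀ (fun p hp => (show (0:ℝ) < p.1 from hp.1).ne')
  have hcomp : IsCompact (Set.Icc (τ / 2) (2 * τ) ×ˢ S) := isCompact_Icc.prod hSc
  have hsub : Set.Icc (τ / 2) (2 * τ) ×ˢ S ⊆ Set.Ioi 0 ×ˢ Set.univ := by
    rintro ⟨a, b⟩ ⟨ha, _⟩
    exact ⟨lt_of_lt_of_le (by positivity) ha.1, trivial⟩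
  obtain ⟨C, hC⟩ := hcomp.exists_bound_of_continuousOn (hc.mono hsub)
  have hzero : ∀ x ∉ S, φ x = 0 := fun x hx => image_eq_zero_of_notMem_tsupport hx
  have hnb : Set.Icc (τ / 2) (2 * τ) ∈ 𝓝 τ := Icc_mem_nhds (by linarith) (by linarith)
  have key := hasDerivAt_integral_of_dominated_loc_of_deriv_le (μ := volume) (F := F) (F' := F')
    (x₀ := τ) (s := Set.Icc (τ / 2) (2 * τ)) (bound := Set.indicator S (fun _ => |C|)) hnb
    ?_ ?_ ?_ ?_ ?_ ?_
  · have h2 := key.2.const_mul cst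
    refine HasDerivAt.congr_deriv h2 ?_
    unfold FF fc
    simp only [hF']
    rw [show (fun x => em k x * (φ x * (-((τ⁻¹ : ℝ) : ℂ) * SS z τ (Dz z f) x)))
      = fun x => -((τ⁻¹ : ℝ) : ℂ) * (em k x * (φ x * SS z τ (Dz z f) x)) by
        funext x; ring, integral_const_mul]
    ring
  · refine Filter.Eventually.of_forall fun τ' => ?_
    exact ((continuous_em k).mul
      (hφ.smooth.continuous.mul (continuous_SS hf.continuous))).aestronglyMeasurable
  · exact int_em (hφ.smooth.continuous.mul (continuous_SS hf.continuous)) hφ.cpt.mul_right k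
  · exact ((continuous_em k).mul (hφ.smooth.continuous.mul (continuous_const.mul
      (continuous_SS (smooth_Dz hf).continuous)))).aestronglyMeasurable
  · refine Filter.Eventually.of_forall fun x τ' hτ' => ?_
    by_cases hx : x ∈ S
    · rw [Set.indicator_of_mem hx]
      exact (hC (τ', x) ⟨hτ', hx⟩).trans (le_abs_self C)
    · rw [Set.indicator_of_notMem hx]
      simp [hF', hzero x hx]
  · rw [integrable_indicator_iff hSc.measurableSet]
    exact integrableOn_const hSc.measure_lt_top.ne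
  · refine Filter.Eventually.of_forall fun x τ' hτ' => ?_
    have hp : 0 < τ' := lt_of_lt_of_le (by positivity) hτ'.1
    have h1 := hasDerivAt_SS (z := z) hf hp x
    exact (h1.const_mul (φ x)).const_mul (em k x)

end Crest.Agent.R086.PF
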