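import Crest.Agent.R086.BDefs

/-!
Row 86, part B exports for part C (helper548): facts on `P = |v|^n`, `sigma = Re (v1/v)`, `tau = Im (v1/v)`
for radial profiles close in `C^1([0,8])` to the obstacle profile `U`.
-/

set_option autoImplicit false

open Complex Set Filter Topology

namespace Crest.Agent.R086.PF

open Crest.Agent.R086.B

/-- logarithmic derivative -/
noncomputable def ld (v v1 : ℝ → ℂ) (r : ℝ) : ℂ := v1 r / v r
noncomputable def sg (v v1 : ℝ → ℂ) (r : ℝ) : ℝ := (v1 r / v r).re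
noncomputable def ta (v v1 : ℝ → ℂ) (r : ℝ) : ℝ := (v1 r / v r).im

/-! ### derivatives -/

lemma hasDerivAt_ld {n : ℕ} {om eps : ℝ} {v v1 : ℝ → ℂ} {r : ℝ} (hr : 0 < r)
    (h : HasDerivAt v (v1 r) r ∧ HasDerivAt v1 (-(11 / (r : ℂ) + I * r / 2) * v1 r -
      ((om : ℂ) + I * eps) * v r + ((‖v r‖ ^ n : ℝ) : ℂ) * v r) r) (hv : v r ≠ 0) :
    HasDerivAt (ld v v1) (-(11 / (r : ℂ) + I * r / 2) * ld v v1 r - ((om : ℂ) + I * eps)
      + ((‖v r‖ ^ n : ℝ) : ℂ) - (ld v v1 r) ^ 2) r := by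
  have h2 := h.2.div h.1 hv
  refine (h2.congr_deriv ?_)
  unfold ld
  have hr' : (r : ℂ) ≠ 0 := by exact_mod_cast hr.ne'
  field_simp

lemma hasDerivAt_sg {n : ℕ} {om eps : ℝ} {v v1 : ℝ → ℂ} {r : ℝ} (hr : 0 < r)
    (h : HasDerivAt v (v1 r) r ∧ HasDerivAt v1 (-(11 / (r : ℂ) + I * r / 2) * v1 r -
      ((om : ℂ) + I * eps) * v r + ((‖v r‖ ^ n : ℝ) : ℂ) * v r) r) (hv : v r ≠ 0) :
    HasDerivAt (sg v v1) (-(11 / r) * sg v v1 r + (r / 2) * ta v v1 r - om + ‖v r‖ ^ n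
      - (sg v v1 r) ^ 2 + (ta v v1 r) ^ 2) r := by
  have h1 := hasDerivAt_ld hr h hv
  have h2 := (Complex.reCLM.hasFDerivAt.comp_hasDerivAt r h1)
  refine (h2.congr_deriv ?_)
  have hr' : (r : ℂ) ≠ 0 := by exact_mod_cast hr.ne'
  have e : (11 / (r : ℂ)) = (((11 / r : ℝ)) : ℂ) := by push_cast; ring
  have e2 : I * (r : ℂ) / 2 = (((r / 2 : ℝ)) : ℂ) * I := by push_cast; ring
  set m := ld v v1 r with hm
  have hs : sg v v1 r = m.re := rfl
  have ht : ta v v1 r = m.im := rfl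
  rw [hs, ht, e, e2]
  simp only [Complex.reCLM_apply, Complex.sub_re, Complex.add_re, Complex.neg_re, Complex.mul_re,
    Complex.ofReal_re, Complex.ofReal_im, Complex.I_re, Complex.I_im, Complex.add_im, Complex.mul_im,
    Complex.neg_im, sq]
  ring

lemma hasDerivAt_ta {n : ℕ} {om eps : ℝ} {v v1 : ℝ → ℂ} {r : ℝ} (hr : 0 < r)
    (h : HasDerivAt v (v1 r) r ∧ HasDerivAt v1 (-(11 / (r : ℂ) + I * r / 2) * v1 r -
      ((om : ℂ) + I * eps) * v r + ((‖v r‖ ^ n : ℝ) : ℂ) * v r) r) (hv : v r ≠ 0) :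
    HasDerivAt (ta v v1) (-(11 / r) * ta v v1 r - (r / 2) * sg v v1 r - eps
      - 2 * sg v v1 r * ta v v1 r) r := by
  have h1 := hasDerivAt_ld hr h hv
  have h2 := (Complex.imCLM.hasFDerivAt.comp_hasDerivAt r h1)
  refine (h2.congr_deriv ?_)
  have e : (11 / (r : ℂ)) = (((11 / r : ℝ)) : ℂ) := by push_cast; ring
  have e2 : I * (r : ℂ) / 2 = (((r / 2 : ℝ)) : ℂ) * I := by push_cast; ring
  set m := ld v v1 r with hm
  have hs : sg v v1 r = m.re := rfl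
  have ht : ta v v1 r = m.im := rfl
  rw [hs, ht, e, e2]
  simp only [Complex.imCLM_apply, Complex.sub_im, Complex.add_im, Complex.neg_im, Complex.mul_im,
    Complex.ofReal_re, Complex.ofReal_im, Complex.I_re, Complex.I_im, Complex.add_re, Complex.mul_re,
    Complex.neg_re, sq]
  ring

/-- derivative of `‖v‖` -/
lemma hasDerivAt_norm {v v1 : ℝ → ℂ} {r : ℝ} (h : HasDerivAt v (v1 r) r) (hv : v r ≠ 0) :
    HasDerivAt (fun s => ‖v s‖) (sg v v1 r * ‖v r‖) r := by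
  have h1 := h.norm_sq
  have hpos : ‖v r‖ ^ 2 ≠ 0 := by positivity
  have h2 := h1.sqrt hpos
  have e : (fun s => Real.sqrt (‖v s‖ ^ 2)) = fun s => ‖v s‖ := by
    funext s; exact Real.sqrt_sq (norm_nonneg _)
  rw [e] at h2
  refine h2.congr_deriv ?_
  rw [Real.sqrt_sq (norm_nonneg _)]
  have hn : ‖v r‖ ≠ 0 := norm_ne_zero_iff.mpr hv
  have hin : inner ℝ (v r) (v1 r) = sg v v1 r * ‖v r‖ ^ 2 := by
    unfold sg
    rw [Complex.inner]
    have : v1 r = (v1 r / v r) * v r := by field_simp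
    conv_lhs => rw [this]
    rw [show (v1 r / v r * v r * (starRingEnd ℂ) (v r)) = (v1 r / v r) * ((starRingEnd ℂ) (v r) * v r) by ring,
      ← Complex.normSq_eq_conj_mul_self, Complex.re_mul_ofReal, Complex.normSq_eq_norm_sq]
  rw [hin]
  field_simp

lemma hasDerivAt_P {v v1 : ℝ → ℂ} {r : ℝ} (n : ℕ) (h : HasDerivAt v (v1 r) r) (hv : v r ≠ 0) :
    HasDerivAt (fun s => ‖v s‖ ^ n) (n * sg v v1 r * ‖v r‖ ^ n) r := by
  have h1 := (hasDerivAt_norm h hv).pow n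
  refine h1.congr_deriv ?_
  rcases n with _ | n
  · simp
  · simp only [Nat.add_sub_cancel]
    push_cast
    rw [pow_succ]
    ring

/-- derivative of `log P` written as `n log ‖v‖` -/
lemma hasDerivAt_A {v v1 : ℝ → ℂ} {r : ℝ} (n : ℕ) (h : HasDerivAt v (v1 r) r) (hv : v r ≠ 0) :
    HasDerivAt (fun s => n * Real.log ‖v s‖) (n * sg v v1 r) r := by
  have hn : ‖v r‖ ≠ 0 := norm_ne_zero_iff.mpr hv
  have h1 := ((hasDerivAt_norm h hv).log hn).const_mul (n : ℝ)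
  refine h1.congr_deriv ?_
  field_simp

/-! ### elementary lemmas -/

lemma mono_Icc {f f1 : ℝ → ℝ} {a b : ℝ} (hc : ContinuousOn f (Icc a b))
    (hd : ∀ r ∈ Ioo a b, HasDerivAt f (f1 r) r) (hn : ∀ r ∈ Ioo a b, 0 ≤ f1 r) {x y : ℝ}
    (hx : x ∈ Icc a b) (hy : y ∈ Icc a b) (hxy : x ≤ y) : f x ≤ f y := by
  have := monotoneOn_of_deriv_nonneg (convex_Icc a b) hc
    (by rw [interior_Icc]; exact fun r hr => (hd r hr).differentiableAt.differentiableWithinAt)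
    (by rw [interior_Icc]; intro r hr; rw [(hd r hr).deriv]; exact hn r hr)
  exact this hx hy hxy

/-- a critical point with positive second derivative is not an interior maximum -/
lemma no_max {a a1 : ℝ → ℝ} {l u x c : ℝ} (hx : x ∈ Ioo l u)
    (hd : ∀ r ∈ Ioo l u, HasDerivAt a (a1 r) r) (h0 : a1 x = 0) (h2 : HasDerivAt a1 c x) (hc : 0 < c) :
    ∃ y ∈ Ioo l u, a x < a y := by
  -- `a1 > 0` on a right neighbourhood of `x`
  have h3 : ∀ᶠ y in 𝓝[>] x, 0 < a1 y := by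
    have h4 := h2.hasDerivWithinAt (s := Ioi x)
    rw [hasDerivWithinAt_iff_tendsto_slope] at h4
    have h5 : ∀ᶠ y in 𝓝[Ioi x \ {x}] x, 0 < slope a1 x y := h4.eventually (eventually_gt_nhds hc)
    have h6 : Ioi x \ {x} = Ioi x := by
      ext z; simp only [Set.mem_sdiff, mem_Ioi, mem_singleton_iff]
      constructor
      · exact fun h => h.1
      · exact fun h => ⟨h, ne_of_gt h⟩
    rw [h6] at h5
    filter_upwards [h5, self_mem_nhdsWithin] with y hy hy2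
    rw [slope_def_field, h0] at hy
    have hyx : 0 < y - x := sub_pos.mpr hy2
    have := (div_pos_iff_of_pos_right hyx).mp hy
    linarith
  rw [eventually_nhdsWithin_iff] at h3
  obtain ⟨d, hd0, hd1⟩ := Metric.eventually_nhds_iff.mp h3
  set y := min (x + d / 2) ((x + u) / 2) with hy
  have hxy : x < y := by
    rw [hy]; apply lt_min <;> linarith [hx.2]
  have hyu : y < u := by
    have : y ≤ (x + u) / 2 := min_le_right _ _
    linarith [hx.2]
  have hyd : y ≤ x + d / 2 := min_le_left _ _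
  refine ⟨y, ⟨lt_trans hx.1 hxy, hyu⟩, ?_⟩
  have hsub : ∀ z ∈ Icc x y, z ∈ Ioo l u := fun z hz => ⟨lt_of_lt_of_le hx.1 hz.1, lt_of_le_of_lt hz.2 hyu⟩
  have hcont : ContinuousOn a (Icc x y) := fun z hz => (hd z (hsub z hz)).continuousAt.continuousWithinAt
  obtain ⟨z, hz, hze⟩ := exists_hasDerivAt_eq_slope a a1 hxy hcont
    (fun z hz => hd z (hsub z ⟨hz.1.le, hz.2.le⟩))
  have hzp : 0 < a1 z := by
    apply hd1 _ hz.1
    rw [Real.dist_eq, abs_of_pos (by linarith [hz.1])]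
    linarith [hz.2]
  rw [hze] at hzp
  have := (div_pos_iff_of_pos_right (by linarith : 0 < y - x)).mp hzp
  linarith

/-! ### the engine: one solution with smallness hypotheses -/

/-- hypotheses on one solution. `rs` = right end of the region where everything is small,
`s` = smallness of `sigma`, `e` = smallness of `eps` and `om - om0`. -/
structure Eng (n : ℕ) (om0 om eps : ℝ) (v v1 : ℝ → ℂ) (T rs s e : ℝ) : Prop where
  sol : IsSol n om eps v v1 (Ioo 0 T)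
  cv : ContinuousOn v (Icc 0 T)
  cv1 : ContinuousOn v1 (Icc 0 T)
  v10 : v1 0 = 0
  low : ∀ r ∈ Icc (0 : ℝ) T, 1 / 2 ≤ ‖v r‖
  up : ∀ r ∈ Icc (0 : ℝ) T, ‖v r‖ ≤ 9 / 8
  rs0 : 0 < rs
  rs8 : rs < T
  T8 : T ≤ 8
  sig : ∀ r ∈ Icc (0 : ℝ) rs, |sg v v1 r| ≤ s
  sigr : ∀ r ∈ Icc rs T, sg v v1 r < 0
  s0 : 0 ≤ s
  s1 : s ≤ 1
  e0 : 0 ≤ e
  e1 : e ≤ 1
  eps0 : 0 ≤ eps
  epse : eps ≤ e
  ome : |om - om0| ≤ e

namespace Eng

variable {n : ℕ} {om0 om eps : ℝ} {v v1 : ℝ → ℂ} {T rs s e : ℝ}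

lemma vne (h : Eng n om0 om eps v v1 T rs s e) {r : ℝ} (hr : r ∈ Icc (0 : ℝ) T) : v r ≠ 0 := by
  have := h.low r hr
  intro h0
  rw [h0, norm_zero] at this
  norm_num at this

lemma cld (h : Eng n om0 om eps v v1 T rs s e) : ContinuousOn (ld v v1) (Icc 0 T) :=
  h.cv1.div h.cv (fun _ hr => h.vne hr)

lemma csg (h : Eng n om0 om eps v v1 T rs s e) : ContinuousOn (sg v v1) (Icc 0 T) :=
  Complex.continuous_re.comp_continuousOn h.cld

lemma cta (h : Eng n om0 om eps v v1 T rs s e) : ContinuousOn (ta v v1) (Icc 0 T) :=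
  Complex.continuous_im.comp_continuousOn h.cld

/-- `|tau| <= 2 (s + e) r` on `[0, rs]` -/
lemma tau_le (h : Eng n om0 om eps v v1 T rs s e) {r : ℝ} (hr : r ∈ Icc (0 : ℝ) rs) :
    |ta v v1 r| ≤ 2 * (4 * s + e) * r := by
  -- the function `g = r^11 |v|^2 tau` and the comparison `± C r^12`
  set C : ℝ := (81 / 64) * (4 * s + e) / 12 with hC
  have hse : 0 ≤ 4 * s + e := by linarith [h.s0, h.e0]
  have key : ∀ t : ℝ, |t| = 1 → t * (r ^ 11 * ‖v r‖ ^ 2 * ta v v1 r) ≤ C * r ^ 12 := by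
    intro t ht
    have hm := mono_Icc (a := 0) (b := rs) (f := fun x => C * x ^ 12 - t * (x ^ 11 * ‖v x‖ ^ 2 * ta v v1 x))
      (f1 := fun x => C * (12 * x ^ 11) - t * (-(x ^ 11 * ‖v x‖ ^ 2) * (x / 2 * sg v v1 x + eps)))
      ?_ ?_ ?_ (x := 0) (y := r) ⟨le_refl _, h.rs0.le⟩ hr hr.1
    · simp only [ne_eq, OfNat.ofNat_ne_zero, not_false_eq_true, zero_pow, mul_zero, zero_mul, sub_zero] at hm
      linarith
    · have hcv : ContinuousOn (fun x => ‖v x‖ ^ 2) (Icc 0 rs) :=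
        (h.cv.mono (Icc_subset_Icc_right h.rs8.le)).norm.pow 2
      have hct : ContinuousOn (ta v v1) (Icc 0 rs) := h.cta.mono (Icc_subset_Icc_right h.rs8.le)
      exact (by fun_prop : ContinuousOn (fun x : ℝ => C * x ^ 12) (Icc 0 rs)).sub
        (continuousOn_const.mul (((by fun_prop : ContinuousOn (fun x : ℝ => x ^ 11) (Icc 0 rs)).mul hcv).mul hct))
    · intro x hx
      have hx8 : x ∈ Ioo (0 : ℝ) T := ⟨hx.1, lt_trans hx.2 h.rs8⟩
      have hx8' : x ∈ Icc (0 : ℝ) T := ⟨hx8.1.le, hx8.2.le⟩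
      have hd := h.sol x hx8
      have hvn := h.vne hx8'
      have d1 := hasDerivAt_ta hx.1 hd hvn
      have d2 := hasDerivAt_P 2 hd.1 hvn
      have d3 : HasDerivAt (fun x : ℝ => x ^ 11) (11 * x ^ 10) x := by
        simpa using hasDerivAt_pow 11 x
      have d4 : HasDerivAt (fun x : ℝ => x ^ 12) (12 * x ^ 11) x := by
        simpa using hasDerivAt_pow 12 x
      have d5 := (d4.const_mul C).sub (((d3.mul d2).mul d1).const_mul t)
      refine d5.congr_deriv ?_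
      have hx0 : x ≠ 0 := hx.1.ne'
      simp only [Pi.mul_apply]
      field_simp
      push_cast
      ring
    · intro x hx
      have hx8' : x ∈ Icc (0 : ℝ) T := ⟨hx.1.le, (lt_trans hx.2 h.rs8).le⟩
      have hxs : x ∈ Icc (0 : ℝ) rs := ⟨hx.1.le, hx.2.le⟩
      have h1 := h.sig x hxs
      have h2 : |x / 2 * sg v v1 x + eps| ≤ 4 * s + e := by
        have hx2 : |x / 2| ≤ 4 := by rw [abs_of_pos (by linarith [hx.1])]; linarith [hx8'.2, h.T8]
        calc |x / 2 * sg v v1 x + eps| ≤ |x / 2 * sg v v1 x| + |eps| := abs_add_le _ _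
          _ ≤ 4 * s + e := by
              rw [abs_mul, abs_of_nonneg h.eps0]
              have := mul_le_mul hx2 h1 (abs_nonneg _) (by norm_num)
              linarith [h.epse]
      have h3 : ‖v x‖ ^ 2 ≤ 81 / 64 := by
        have := h.up x hx8'
        have h0 := norm_nonneg (v x)
        nlinarith
      have hx11 : 0 ≤ x ^ 11 := pow_nonneg hx.1.le _
      have h4 : |t * (-(x ^ 11 * ‖v x‖ ^ 2) * (x / 2 * sg v v1 x + eps))| ≤ x ^ 11 * (81 / 64) * (4 * s + e) := by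
        rw [abs_mul, ht, one_mul, abs_mul, abs_neg, abs_of_nonneg (by positivity : 0 ≤ x ^ 11 * ‖v x‖ ^ 2)]
        apply mul_le_mul _ h2 (abs_nonneg _) (by positivity)
        exact mul_le_mul_of_nonneg_left h3 hx11
      have h5 := le_abs_self (t * (-(x ^ 11 * ‖v x‖ ^ 2) * (x / 2 * sg v v1 x + eps)))
      have h6 : C * (12 * x ^ 11) = x ^ 11 * (81 / 64) * (4 * s + e) := by rw [hC]; ring
      linarith
  rcases eq_or_lt_of_le hr.1 with h0 | h0
  · rw [← h0]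
    have : ta v v1 0 = 0 := by unfold ta; rw [h.v10]; simp
    rw [this]; simp
  have hr8 : r ∈ Icc (0 : ℝ) T := ⟨hr.1, hr.2.trans h.rs8.le⟩
  have hl := h.low r hr8
  have k1 := key 1 (by simp)
  have k2 := key (-1) (by simp)
  have h12 : r ^ 12 = r ^ 11 * r := by ring
  have hp11 : 0 < r ^ 11 := by positivity
  have hn2 : 1 / 4 ≤ ‖v r‖ ^ 2 := by nlinarith
  have habs : ‖v r‖ ^ 2 * |ta v v1 r| ≤ C * r := by
    have : |ta v v1 r| = ta v v1 r ∨ |ta v v1 r| = -ta v v1 r := abs_choice _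
    rcases this with h7 | h7
    · rw [h7]
      have : r ^ 11 * (‖v r‖ ^ 2 * ta v v1 r) ≤ r ^ 11 * (C * r) := by rw [h12] at k1; linarith
      exact le_of_mul_le_mul_left this hp11
    · rw [h7]
      have : r ^ 11 * (‖v r‖ ^ 2 * -ta v v1 r) ≤ r ^ 11 * (C * r) := by rw [h12] at k2; linarith
      exact le_of_mul_le_mul_left this hp11
  have h8 : (1 / 4) * |ta v v1 r| ≤ C * r :=
    le_trans (mul_le_mul_of_nonneg_right hn2 (abs_nonneg _)) habs
  have h9 : 4 * C ≤ 2 * (4 * s + e) := by rw [hC]; nlinarith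
  nlinarith [mul_le_mul_of_nonneg_right h9 hr.1]

/-- bound on `tau'` -/
lemma tau1_le (h : Eng n om0 om eps v v1 T rs s e) {r : ℝ} (hr : r ∈ Ioo (0 : ℝ) rs) :
    |-(11 / r) * ta v v1 r - (r / 2) * sg v v1 r - eps - 2 * sg v v1 r * ta v v1 r| ≤ 55 * (4 * s + e) := by
  have ht := h.tau_le ⟨hr.1.le, hr.2.le⟩
  have hs := h.sig r ⟨hr.1.le, hr.2.le⟩
  have hr8 : r ≤ 8 := (lt_trans hr.2 h.rs8).le.trans h.T8
  have hK : 0 ≤ 4 * s + e := by linarith [h.s0, h.e0]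
  have h1 : |-(11 / r) * ta v v1 r| ≤ 22 * (4 * s + e) := by
    rw [abs_mul, abs_neg, abs_of_pos (div_pos (by norm_num) hr.1), div_mul_eq_mul_div, div_le_iff₀ hr.1]
    nlinarith
  have h2 : |(r / 2) * sg v v1 r| ≤ 4 * s := by
    rw [abs_mul, abs_of_pos (by linarith [hr.1] : 0 < r / 2)]
    exact mul_le_mul (by linarith) hs (abs_nonneg _) (by norm_num)
  have ht8 : |ta v v1 r| ≤ 16 * (4 * s + e) := by
    refine ht.trans ?_
    nlinarith
  have h3 : |2 * sg v v1 r * ta v v1 r| ≤ 32 * (4 * s + e) := by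
    rw [abs_mul, abs_mul, abs_two]
    have : |sg v v1 r| ≤ 1 := hs.trans h.s1
    have := mul_le_mul this ht8 (abs_nonneg _) (by norm_num)
    nlinarith [abs_nonneg (sg v v1 r), abs_nonneg (ta v v1 r)]
  have h4 : |eps| ≤ e := by rw [abs_of_nonneg h.eps0]; exact h.epse
  calc |-(11 / r) * ta v v1 r - (r / 2) * sg v v1 r - eps - 2 * sg v v1 r * ta v v1 r|
      ≤ |-(11 / r) * ta v v1 r| + |(r / 2) * sg v v1 r| + |eps| + |2 * sg v v1 r * ta v v1 r| := by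
        refine (abs_sub _ _).trans ?_
        gcongr
        refine (abs_sub _ _).trans ?_
        gcongr
        exact abs_sub _ _
    _ ≤ 55 * (4 * s + e) := by linarith [h.s0, h.e0]

/-- `om_eff` is close to `om0` -/
lemma omeff (h : Eng n om0 om eps v v1 T rs s e) (hK1 : 4 * s + e ≤ 1 / 16) {r : ℝ} (hr : r ∈ Icc (0 : ℝ) rs) :
    |om - (r / 2) * ta v v1 r - (ta v v1 r) ^ 2 - om0| ≤ 81 * (4 * s + e) := by
  have ht := h.tau_le hr
  have hr8 : r ≤ 8 := (hr.2.trans h.rs8.le).trans h.T8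
  have hK : 0 ≤ 4 * s + e := by linarith [h.s0, h.e0]
  have ht8 : |ta v v1 r| ≤ 16 * (4 * s + e) := by
    refine ht.trans ?_
    nlinarith
  have h1 : |(r / 2) * ta v v1 r| ≤ 64 * (4 * s + e) := by
    rw [abs_mul, abs_of_nonneg (by linarith [hr.1] : 0 ≤ r / 2)]
    calc r / 2 * |ta v v1 r| ≤ 4 * (16 * (4 * s + e)) :=
          mul_le_mul (by linarith) ht8 (abs_nonneg _) (by norm_num)
      _ = _ := by ring
  have h2 : (ta v v1 r) ^ 2 ≤ 16 * (4 * s + e) := by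
    rw [← sq_abs]
    have : |ta v v1 r| ≤ 1 := by linarith
    nlinarith [abs_nonneg (ta v v1 r)]
  have h3 := abs_le.mp h1
  have h4 := abs_le.mp h.ome
  have h5 := sq_nonneg (ta v v1 r)
  rw [abs_le]
  constructor <;> linarith [h.s0, h.e0, h3.1, h3.2, h4.1, h4.2]

/-- **log-derivative of `P` is small from above** -/
lemma a_le (h : Eng n om0 om eps v v1 T rs s e) {η : ℝ} (hη : 0 < η) (hom0 : 0 < om0) (hn : 0 < n)
    (hK1 : 4 * s + e ≤ 1 / 16) (hK2 : 200 * (4 * s + e) ≤ om0) (hK3 : 3000 * (4 * s + e) < η * om0)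
    {r : ℝ} (hr : r ∈ Icc (0 : ℝ) T) : n * sg v v1 r ≤ η := by
  by_contra hcon
  push Not at hcon
  have hnR : (0 : ℝ) < n := by exact_mod_cast hn
  have hK : 0 ≤ 4 * s + e := by linarith [h.s0, h.e0]
  obtain ⟨x, hx, hmax⟩ := isCompact_Icc.exists_isMaxOn (⟨r, hr⟩ : (Icc (0 : ℝ) T).Nonempty) h.csg
  have hxr : sg v v1 r ≤ sg v v1 x := hmax hr
  have hpos : 0 < sg v v1 x := by
    have : 0 < sg v v1 r := by
      by_contra h0
      push Not at h0
      have : (n : ℝ) * sg v v1 r ≤ 0 := mul_nonpos_of_nonneg_of_nonpos hnR.le h0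
      linarith
    linarith
  have hx0 : x ≠ 0 := by
    intro h0
    rw [h0] at hpos
    have : sg v v1 0 = 0 := by unfold sg; rw [h.v10]; simp
    linarith
  have hx0' : 0 < x := lt_of_le_of_ne hx.1 (Ne.symm hx0)
  have hxs : x < rs := by
    by_contra h0
    push Not at h0
    have := h.sigr x ⟨h0, hx.2⟩
    linarith
  have hxI : x ∈ Ioo (0 : ℝ) rs := ⟨hx0', hxs⟩
  have hxs' : x ∈ Icc (0 : ℝ) rs := ⟨hx0'.le, hxs.le⟩
  have hx8 : x ∈ Ioo (0 : ℝ) T := ⟨hx0', lt_trans hxs h.rs8⟩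
  have hvn := h.vne hx
  have hd := h.sol x hx8
  set S1 : ℝ → ℝ := fun x => -(11 / x) * sg v v1 x + (x / 2) * ta v v1 x - om + ‖v x‖ ^ n
      - (sg v v1 x) ^ 2 + (ta v v1 x) ^ 2 with hS1
  have dS : ∀ y ∈ Ioo (0 : ℝ) rs, HasDerivAt (sg v v1) (S1 y) y := by
    intro y hy
    have hy8 : y ∈ Ioo (0 : ℝ) T := ⟨hy.1, lt_trans hy.2 h.rs8⟩
    exact hasDerivAt_sg hy.1 (h.sol y hy8) (h.vne ⟨hy8.1.le, hy8.2.le⟩)
  have hlm : IsLocalMax (sg v v1) x := by
    have : Icc (0 : ℝ) T ∈ 𝓝 x := Icc_mem_nhds hx8.1 hx8.2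
    exact hmax.isLocalMax this
  have hcrit : S1 x = 0 := hlm.hasDerivAt_eq_zero (dS x hxI)
  -- derivative of S1 at x
  have dsg := dS x hxI
  have dta := hasDerivAt_ta hx0' hd hvn
  have dP := hasDerivAt_P n hd.1 hvn
  set t1 := -(11 / x) * ta v v1 x - (x / 2) * sg v v1 x - eps - 2 * sg v v1 x * ta v v1 x with ht1
  have dinv : HasDerivAt (fun y : ℝ => -(11 / y)) (11 / x ^ 2) x := by
    have := ((hasDerivAt_inv hx0).const_mul 11).neg
    refine (this.congr_deriv ?_).congr_of_eventuallyEq ?_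
    · field_simp
    · filter_upwards with y
      simp only [Pi.neg_apply, div_eq_mul_inv]
  have dhalf : HasDerivAt (fun y : ℝ => y / 2) (1 / 2) x := by
    simpa using (hasDerivAt_id x).div_const 2
  have dS1 : HasDerivAt S1 ((11 / x ^ 2 * sg v v1 x + -(11 / x) * S1 x) + (1 / 2 * ta v v1 x + x / 2 * t1)
      + n * sg v v1 x * ‖v x‖ ^ n - 2 * sg v v1 x * S1 x + 2 * ta v v1 x * t1) x := by
    have d1 := (((((dinv.mul dsg).add (dhalf.mul dta)).sub_const om).add dP).sub (dsg.pow 2)).add (dta.pow 2)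
    refine d1.congr_deriv ?_
    simp only [Nat.cast_ofNat, Nat.add_one_sub_one, pow_one]
  -- positivity
  have hP : om0 / 2 ≤ ‖v x‖ ^ n := by
    have h1 := abs_le.mp (h.omeff hK1 hxs')
    have h2 : ‖v x‖ ^ n = (om - (x / 2) * ta v v1 x - (ta v v1 x) ^ 2) + (sg v v1 x) ^ 2 + 11 / x * sg v v1 x := by
      have := hcrit
      simp only [hS1] at this
      linarith
    have h3 : 0 ≤ 11 / x * sg v v1 x := by positivity
    have h4 := sq_nonneg (sg v v1 x)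
    rw [h2]
    linarith [h1.1]
  have ht := h.tau_le hxs'
  have ht8 : |ta v v1 x| ≤ 16 * (4 * s + e) := by
    refine ht.trans ?_
    nlinarith [hx.2.trans h.T8]
  have ht1b : |t1| ≤ 55 * (4 * s + e) := h.tau1_le hxI
  have b1 : |1 / 2 * ta v v1 x| ≤ 8 * (4 * s + e) := by
    rw [abs_mul, abs_of_pos (by norm_num : (0 : ℝ) < 1 / 2)]; linarith
  have b2 : |x / 2 * t1| ≤ 220 * (4 * s + e) := by
    rw [abs_mul, abs_of_pos (by linarith : 0 < x / 2)]
    calc x / 2 * |t1| ≤ 4 * (55 * (4 * s + e)) :=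
          mul_le_mul (by linarith [hx.2.trans h.T8]) ht1b (abs_nonneg _) (by norm_num)
      _ = _ := by ring
  have b3 : |2 * ta v v1 x * t1| ≤ 110 * (4 * s + e) := by
    rw [abs_mul, abs_mul, abs_two]
    have h1 : |ta v v1 x| ≤ 1 := by linarith
    have := mul_le_mul h1 ht1b (abs_nonneg _) (by norm_num)
    nlinarith
  have b4 : η * (om0 / 2) ≤ n * sg v v1 x * ‖v x‖ ^ n := by
    have : η ≤ n * sg v v1 x := by
      have := mul_le_mul_of_nonneg_left hxr hnR.le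
      linarith
    exact mul_le_mul this hP (by linarith) (by positivity)
  have b5 : 0 ≤ 11 / x ^ 2 * sg v v1 x := by positivity
  have hc : 0 < (11 / x ^ 2 * sg v v1 x + -(11 / x) * S1 x) + (1 / 2 * ta v v1 x + x / 2 * t1)
      + n * sg v v1 x * ‖v x‖ ^ n - 2 * sg v v1 x * S1 x + 2 * ta v v1 x * t1 := by
    rw [hcrit]
    have c1 := (abs_le.mp b1).1
    have c2 := (abs_le.mp b2).1
    have c3 := (abs_le.mp b3).1
    nlinarith
  obtain ⟨y, hy, hlt⟩ := no_max hxI dS hcrit dS1 hc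
  have : sg v v1 y ≤ sg v v1 x := hmax (⟨hy.1.le, (lt_trans hy.2 h.rs8).le⟩ : y ∈ Icc (0 : ℝ) T)
  linarith

lemma A_growth (h : Eng n om0 om eps v v1 T rs s e) {a0 : ℝ} (ha : ∀ r ∈ Icc (0 : ℝ) T, n * sg v v1 r ≤ a0)
    {x y : ℝ} (hx : x ∈ Icc (0 : ℝ) T) (hy : y ∈ Icc (0 : ℝ) T) (hxy : x ≤ y) :
    n * Real.log ‖v y‖ ≤ n * Real.log ‖v x‖ + a0 * (y - x) := by
  have hm := mono_Icc (a := 0) (b := T) (f := fun z => a0 * z - n * Real.log ‖v z‖)
    (f1 := fun z => a0 - n * sg v v1 z) ?_ ?_ ?_ hx hy hxy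
  · linarith
  · refine (by fun_prop : ContinuousOn (fun z : ℝ => a0 * z) (Icc 0 T)).sub (continuousOn_const.mul ?_)
    exact h.cv.norm.log (fun z hz => norm_ne_zero_iff.mpr (h.vne hz))
  · intro z hz
    have hz' : z ∈ Icc (0 : ℝ) T := ⟨hz.1.le, hz.2.le⟩
    have d1 := hasDerivAt_A n (h.sol z hz).1 (h.vne hz')
    have d2 : HasDerivAt (fun z : ℝ => a0 * z) a0 z := by simpa using (hasDerivAt_id z).const_mul a0
    exact d2.sub d1
  · intro z hz
    have := ha z ⟨hz.1.le, hz.2.le⟩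
    linarith

lemma A_low (h : Eng n om0 om eps v v1 T rs s e)
    {x y : ℝ} (hx : x ∈ Icc (0 : ℝ) rs) (hy : y ∈ Icc (0 : ℝ) rs) (hxy : x ≤ y) :
    n * Real.log ‖v x‖ ≤ n * Real.log ‖v y‖ + n * s * (y - x) := by
  have hm := mono_Icc (a := 0) (b := rs) (f := fun z => n * s * z + n * Real.log ‖v z‖)
    (f1 := fun z => n * s + n * sg v v1 z) ?_ ?_ ?_ hx hy hxy
  · linarith
  · refine (by fun_prop : ContinuousOn (fun z : ℝ => n * s * z) (Icc 0 rs)).add (continuousOn_const.mul ?_)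
    exact (h.cv.mono (Icc_subset_Icc_right h.rs8.le)).norm.log
      (fun z hz => norm_ne_zero_iff.mpr (h.vne ⟨hz.1, hz.2.trans h.rs8.le⟩))
  · intro z hz
    have hz' : z ∈ Icc (0 : ℝ) T := ⟨hz.1.le, (lt_trans hz.2 h.rs8).le⟩
    have d1 := hasDerivAt_A n (h.sol z ⟨hz.1, lt_trans hz.2 h.rs8⟩).1 (h.vne hz')
    have d2 : HasDerivAt (fun z : ℝ => n * s * z) (n * s) z := by
      simpa using (hasDerivAt_id z).const_mul ((n : ℝ) * s)
    exact d2.add d1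
  · intro z hz
    have := (abs_le.mp (h.sig z ⟨hz.1.le, hz.2.le⟩)).1
    have hn0 : (0 : ℝ) ≤ n := Nat.cast_nonneg n
    nlinarith

lemma P_eq_exp (h : Eng n om0 om eps v v1 T rs s e) {x : ℝ} (hx : x ∈ Icc (0 : ℝ) T) :
    ‖v x‖ ^ n = Real.exp (n * Real.log ‖v x‖) := by
  have hp : 0 < ‖v x‖ := by linarith [h.low x hx]
  rw [← Real.log_pow, Real.exp_log (pow_pos hp n)]

lemma P_growth (h : Eng n om0 om eps v v1 T rs s e) {a0 : ℝ} (ha : ∀ r ∈ Icc (0 : ℝ) T, n * sg v v1 r ≤ a0)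
    (ha0 : 0 ≤ a0)
    {x y : ℝ} (hx : x ∈ Icc (0 : ℝ) T) (hy : y ∈ Icc (0 : ℝ) T) (hxy : x ≤ y) :
    ‖v y‖ ^ n ≤ ‖v x‖ ^ n * Real.exp (8 * a0) := by
  rw [h.P_eq_exp hx, h.P_eq_exp hy, ← Real.exp_add]
  apply Real.exp_le_exp.mpr
  have h1 := h.A_growth ha hx hy hxy
  have h2 : a0 * (y - x) ≤ 8 * a0 := by
    have : y - x ≤ 8 := by linarith [hx.1, hy.2, h.T8]
    nlinarith
  linarith

/-- upper bound for `P` on `[0, rs]` -/
lemma P_le_core (h : Eng n om0 om eps v v1 T rs s e) {η a0 : ℝ}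
    (ha : ∀ r ∈ Icc (0 : ℝ) T, n * sg v v1 r ≤ a0) (ha0 : 0 ≤ a0) (haη : 100 * a0 ≤ η)
    (hη : 0 < η) (hη1 : η ≤ 1) (hom0 : 0 < om0) (hom1 : om0 ≤ 1 / 2) (hn : 0 < n) (hnr : 1 ≤ n * rs)
    (hK1 : 4 * s + e ≤ 1 / 16) (hK4 : 1000 * (4 * s + e) ≤ η)
    {r : ℝ} (hr : r ∈ Icc (0 : ℝ) rs) : ‖v r‖ ^ n ≤ om0 + η := by
  have hnR : (0 : ℝ) < n := by exact_mod_cast hn
  have hK : 0 ≤ 4 * s + e := by linarith [h.s0, h.e0]
  have hs0 := h.s0
  have he0 := h.e0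
  -- step 1
  have step1 : ∀ r ∈ Icc (0 : ℝ) rs, 1 ≤ n * r → ‖v r‖ ^ n ≤ om0 + η / 2 := by
    intro r hr hnr1
    by_contra hcon
    push Not at hcon
    have hr0 : 0 < r := by
      by_contra h0
      push Not at h0
      nlinarith
    have hr8 : r ∈ Icc (0 : ℝ) T := ⟨hr.1, hr.2.trans h.rs8.le⟩
    have hexp : Real.exp (8 * a0) ≤ 1 + 16 * a0 := by
      have h1 : |8 * a0| ≤ 1 := by rw [abs_of_nonneg (by linarith)]; linarith
      have := Real.abs_exp_sub_one_le h1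
      rw [abs_of_nonneg (by linarith : 0 ≤ 8 * a0)] at this
      linarith [(abs_le.mp this).2]
    have hPx : ∀ x ∈ Ioo (0 : ℝ) r, om0 + η / 4 ≤ ‖v x‖ ^ n := by
      intro x hx
      have hx8 : x ∈ Icc (0 : ℝ) T := ⟨hx.1.le, hx.2.le.trans hr8.2⟩
      have h1 := h.P_growth ha ha0 hx8 hr8 hx.2.le
      have hPx0 : 0 ≤ ‖v x‖ ^ n := by positivity
      by_contra h2
      push Not at h2
      have h3 : ‖v x‖ ^ n * Real.exp (8 * a0) ≤ (om0 + η / 4) * (1 + 16 * a0) :=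
        mul_le_mul h2.le hexp (Real.exp_pos _).le (by linarith)
      nlinarith
    have hm := mono_Icc (a := 0) (b := r) (f := fun x => x ^ 11 * sg v v1 x - η / 96 * x ^ 12)
      (f1 := fun x => x ^ 11 * (11 / x * sg v v1 x + (-(11 / x) * sg v v1 x + (x / 2) * ta v v1 x - om + ‖v x‖ ^ n
      - (sg v v1 x) ^ 2 + (ta v v1 x) ^ 2)) - η / 96 * (12 * x ^ 11)) ?_ ?_ ?_ (x := 0) (y := r)
      ⟨le_refl _, hr0.le⟩ ⟨hr0.le, le_refl _⟩ hr0.le
    · simp only [ne_eq, OfNat.ofNat_ne_zero, not_false_eq_true, zero_pow, mul_zero, zero_mul, sub_zero] at hm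
      have h12 : r ^ 12 = r ^ 11 * r := by ring
      have hp : 0 < r ^ 11 := by positivity
      have h1 : r ^ 11 * (η / 96 * r) ≤ r ^ 11 * sg v v1 r := by rw [h12] at hm; linarith
      have h2 := le_of_mul_le_mul_left h1 hp
      have h3 := ha r hr8
      have h4 : n * (η / 96 * r) ≤ a0 := le_trans (mul_le_mul_of_nonneg_left h2 hnR.le) h3
      nlinarith
    · have hct : ContinuousOn (sg v v1) (Icc 0 r) := h.csg.mono (Icc_subset_Icc_right hr8.2)
      exact ((by fun_prop : ContinuousOn (fun x : ℝ => x ^ 11) (Icc 0 r)).mul hct).sub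
        (by fun_prop : ContinuousOn (fun x : ℝ => η / 96 * x ^ 12) (Icc 0 r))
    · intro x hx
      have hx8 : x ∈ Ioo (0 : ℝ) T := ⟨hx.1, lt_of_lt_of_le hx.2 hr8.2⟩
      have d1 := hasDerivAt_sg hx.1 (h.sol x hx8) (h.vne ⟨hx8.1.le, hx8.2.le⟩)
      have d3 : HasDerivAt (fun x : ℝ => x ^ 11) (11 * x ^ 10) x := by
        simpa using hasDerivAt_pow 11 x
      have d4 : HasDerivAt (fun x : ℝ => x ^ 12) (12 * x ^ 11) x := by
        simpa using hasDerivAt_pow 12 x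
      have d5 := (d3.mul d1).sub (d4.const_mul (η / 96))
      refine d5.congr_deriv ?_
      have hx0 : x ≠ 0 := hx.1.ne'
      field_simp
    · intro x hx
      have hxs : x ∈ Icc (0 : ℝ) rs := ⟨hx.1.le, hx.2.le.trans hr.2⟩
      have h1 := hPx x hx
      have h2 := abs_le.mp (h.omeff hK1 hxs)
      have h3 : (sg v v1 x) ^ 2 ≤ s := by
        rw [← sq_abs]
        have h4 := h.sig x hxs
        have h5 := h.s1
        nlinarith [abs_nonneg (sg v v1 x)]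
      have hp : 0 ≤ x ^ 11 := pow_nonneg hx.1.le _
      have h6 : η / 8 ≤ 11 / x * sg v v1 x + (-(11 / x) * sg v v1 x + (x / 2) * ta v v1 x - om + ‖v x‖ ^ n
        - (sg v v1 x) ^ 2 + (ta v v1 x) ^ 2) := by
        linarith [h2.2]
      nlinarith [mul_le_mul_of_nonneg_left h6 hp]
  by_cases hc : 1 ≤ n * r
  · exact (step1 r hr hc).trans (by linarith)
  push Not at hc
  have hinv : (n : ℝ) * (1 / n) = 1 := by field_simp
  have h1n : (1 / (n : ℝ)) ∈ Icc (0 : ℝ) rs := by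
    constructor
    · positivity
    · rw [div_le_iff₀ hnR]; linarith
  have hr1n : r ≤ 1 / n := by rw [le_div_iff₀ hnR]; linarith
  have h1 := step1 (1 / n) h1n (by rw [hinv])
  have h2 := h.A_low hr h1n hr1n
  have hr8 : r ∈ Icc (0 : ℝ) T := ⟨hr.1, hr.2.trans h.rs8.le⟩
  have h8 : (1 / (n : ℝ)) ∈ Icc (0 : ℝ) T := ⟨h1n.1, h1n.2.trans h.rs8.le⟩
  have h3 : ‖v r‖ ^ n ≤ ‖v (1 / n)‖ ^ n * Real.exp s := by
    rw [h.P_eq_exp hr8, h.P_eq_exp h8, ← Real.exp_add]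
    apply Real.exp_le_exp.mpr
    have h4 : n * s * (1 / n - r) ≤ s := by
      have : n * s * (1 / n - r) = s * (n * (1 / n)) - s * (n * r) := by ring
      rw [this, hinv]
      nlinarith [hr.1, mul_nonneg hs0 (mul_nonneg hnR.le hr.1)]
    linarith
  have hexp : Real.exp s ≤ 1 + 2 * s := by
    have h1 : |s| ≤ 1 := by rw [abs_of_nonneg hs0]; exact h.s1
    have := Real.abs_exp_sub_one_le h1
    rw [abs_of_nonneg hs0] at this
    linarith [(abs_le.mp this).2]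
  have h5 : ‖v (1 / n)‖ ^ n * Real.exp s ≤ (om0 + η / 2) * (1 + 2 * s) :=
    mul_le_mul h1 hexp (Real.exp_pos _).le (by linarith)
  nlinarith

/-- lower bound for `P` on `[0, R1 - d]` -/
lemma P_ge_core (h : Eng n om0 om eps v v1 T rs s e) {η a0 R1 d : ℝ}
    (ha : ∀ r ∈ Icc (0 : ℝ) T, n * sg v v1 r ≤ a0) (ha0 : 0 ≤ a0) (haη : 100 * a0 ≤ η)
    (hη : 0 < η) (hη1 : η ≤ 1) (hom1 : om0 ≤ 1 / 2)
    (hR1 : R1 ≤ rs) (hd : 0 < d) (hRd : 1 / 2 ≤ R1 - d) (hsd : 8 * s < η * d)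
    (hK1 : 4 * s + e ≤ 1 / 16) (hK4 : 1000 * (4 * s + e) ≤ η)
    {r : ℝ} (hr : r ∈ Icc (0 : ℝ) (R1 - d)) : om0 - η ≤ ‖v r‖ ^ n := by
  by_contra hcon
  push Not at hcon
  have hs0 := h.s0
  have he0 := h.e0
  have hrs8 := h.rs8
  have hr8 : r ∈ Icc (0 : ℝ) T := ⟨hr.1, by linarith [hr.2]⟩
  have hexp : Real.exp (8 * a0) ≤ 1 + 16 * a0 := by
    have h1 : |8 * a0| ≤ 1 := by rw [abs_of_nonneg (by linarith)]; linarith
    have := Real.abs_exp_sub_one_le h1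
    rw [abs_of_nonneg (by linarith : 0 ≤ 8 * a0)] at this
    linarith [(abs_le.mp this).2]
  have hPr : 0 ≤ ‖v r‖ ^ n := by positivity
  have hPx : ∀ x ∈ Icc (R1 - d) R1, ‖v x‖ ^ n ≤ om0 - η / 2 := by
    intro x hx
    have hx8 : x ∈ Icc (0 : ℝ) T := ⟨by linarith [hx.1], by linarith [hx.2]⟩
    have h1 := h.P_growth ha ha0 hr8 hx8 (hr.2.trans hx.1)
    have h3 : ‖v r‖ ^ n * Real.exp (8 * a0) ≤ (om0 - η) * (1 + 16 * a0) :=
      mul_le_mul hcon.le hexp (Real.exp_pos _).le (by linarith)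
    nlinarith
  have hm := mono_Icc (a := R1 - d) (b := R1) (f := fun x => -(sg v v1 x) - η / 4 * x)
    (f1 := fun x => -(-(11 / x) * sg v v1 x + (x / 2) * ta v v1 x - om + ‖v x‖ ^ n
      - (sg v v1 x) ^ 2 + (ta v v1 x) ^ 2) - η / 4) ?_ ?_ ?_ (x := R1 - d) (y := R1)
      ⟨le_refl _, by linarith⟩ ⟨by linarith, le_refl _⟩ (by linarith)
  · have hm := hm
    have h1 := abs_le.mp (h.sig (R1 - d) ⟨by linarith, by linarith⟩)
    have h2 := abs_le.mp (h.sig R1 ⟨by linarith, by linarith⟩)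
    nlinarith [h1.1, h1.2, h2.1, h2.2]
  · have hct : ContinuousOn (sg v v1) (Icc (R1 - d) R1) :=
      h.csg.mono (Icc_subset_Icc (by linarith) (by linarith))
    exact hct.neg.sub (by fun_prop : ContinuousOn (fun x : ℝ => η / 4 * x) (Icc (R1 - d) R1))
  · intro x hx
    have hx0 : 0 < x := by linarith [hx.1]
    have hx8 : x ∈ Ioo (0 : ℝ) T := ⟨hx0, by linarith [hx.2]⟩
    have d1 := hasDerivAt_sg hx0 (h.sol x hx8) (h.vne ⟨hx8.1.le, hx8.2.le⟩)
    have d2 : HasDerivAt (fun z : ℝ => η / 4 * z) (η / 4) x := by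
      simpa using (hasDerivAt_id x).const_mul (η / 4)
    exact d1.neg.sub d2
  · intro x hx
    have hx0 : 1 / 2 < x := by linarith [hx.1]
    have hxs : x ∈ Icc (0 : ℝ) rs := ⟨by linarith, by linarith [hx.2]⟩
    have h1 := hPx x ⟨hx.1.le, hx.2.le⟩
    have h2 := abs_le.mp (h.omeff hK1 hxs)
    have h3 := h.sig x hxs
    have h4 : |11 / x * sg v v1 x| ≤ 22 * s := by
      rw [abs_mul, abs_of_pos (by positivity : 0 < 11 / x)]
      have : 11 / x ≤ 22 := by rw [div_le_iff₀ (by linarith)]; linarith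
      exact mul_le_mul this h3 (abs_nonneg _) (by norm_num)
    have h5 := (abs_le.mp h4).1
    have h6 := sq_nonneg (sg v v1 x)
    linarith [h2.1]

end Eng

/-! ### limit profile and the final theorem -/

/-- the facts on the limit profile which are used (on an interval `[0, T]`, `R < T ≤ 8`) -/
structure Lim (R om0 T : ℝ) (U U1 : ℝ → ℂ) : Prop where
  R1 : 1 ≤ R
  RT : R < T
  T8 : T ≤ 8
  o0 : 0 < om0
  o1 : om0 ≤ 1 / 2
  cU : ContinuousOn U (Icc 0 T)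
  cU1 : ContinuousOn U1 (Icc 0 T)
  core : ∀ r ∈ Icc (0 : ℝ) R, U r = 1
  core1 : ∀ r ∈ Icc (0 : ℝ) R, U1 r = 0
  low : ∀ r ∈ Icc (0 : ℝ) T, 3 / 5 ≤ ‖U r‖
  le : ∀ r ∈ Icc (0 : ℝ) T, ‖U r‖ ≤ 1
  neg : ∀ r ∈ Ioc R T, (U1 r / U r).re < 0

/-- closeness of the logarithmic derivatives -/
lemma ld_close {a b A B : ℂ} {δ M : ℝ} (ha : 1 / 2 ≤ ‖a‖) (hA : 3 / 5 ≤ ‖A‖) (hA1 : ‖A‖ ≤ 1)
    (hB : ‖B‖ ≤ M) (h1 : ‖a - A‖ ≤ δ) (h2 : ‖b - B‖ ≤ δ) : ‖b / a - B / A‖ ≤ 4 * (1 + M) * δ := by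
  have ha0 : a ≠ 0 := norm_ne_zero_iff.mp (by linarith)
  have hA0 : A ≠ 0 := norm_ne_zero_iff.mp (by linarith)
  have hδ : 0 ≤ δ := (norm_nonneg _).trans h1
  have hM : 0 ≤ M := (norm_nonneg _).trans hB
  have e : b / a - B / A = ((b - B) * A - B * (a - A)) / (a * A) := by
    field_simp
    ring
  rw [e, norm_div, norm_mul]
  have h3 : ‖(b - B) * A - B * (a - A)‖ ≤ (1 + M) * δ := by
    refine (norm_sub_le _ _).trans ?_
    rw [norm_mul, norm_mul]
    have h4 : ‖b - B‖ * ‖A‖ ≤ δ * 1 := mul_le_mul h2 hA1 (norm_nonneg _) hδ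
    have h5 : ‖B‖ * ‖a - A‖ ≤ M * δ := mul_le_mul hB h1 (norm_nonneg _) hM
    linarith
  have h6 : 3 / 10 ≤ ‖a‖ * ‖A‖ := by
    have : (1 / 2 : ℝ) * (3 / 5) ≤ ‖a‖ * ‖A‖ := mul_le_mul ha hA (by norm_num) (norm_nonneg _)
    linarith
  rw [div_le_iff₀ (by linarith)]
  have h7 : (1 + M) * δ ≤ 4 * (1 + M) * δ * (3 / 10) := by nlinarith [mul_nonneg hM hδ]
  refine h3.trans (h7.trans ?_)
  exact mul_le_mul_of_nonneg_left h6 (by positivity)

/-- construction of the engine -/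
lemma mkEng {R om0 T : ℝ} {U U1 : ℝ → ℂ} (L : Lim R om0 T U U1) {s : ℝ} (hs : 0 < s) (hs1 : s ≤ 1) :
    ∃ rs δ : ℝ, R < rs ∧ rs < T ∧ 0 < δ ∧ δ ≤ s ∧ ∀ (n : ℕ) (om eps : ℝ) (v v1 : ℝ → ℂ),
      |om - om0| ≤ δ → 0 ≤ eps → eps ≤ δ → IsSol n om eps v v1 (Ioo 0 T) →
      ContinuousOn v (Icc 0 T) → ContinuousOn v1 (Icc 0 T) → v1 0 = 0 →
      (∀ r ∈ Icc (0 : ℝ) T, ‖v r - U r‖ ≤ δ ∧ ‖v1 r - U1 r‖ ≤ δ) →
      Eng n om0 om eps v v1 T rs s δ := by
  obtain ⟨M0, hM0⟩ := isCompact_Icc.exists_bound_of_continuousOn L.cU1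
  set M : ℝ := max M0 0 with hMdef
  have hM : ∀ r ∈ Icc (0 : ℝ) T, ‖U1 r‖ ≤ M := fun r hr => (hM0 r hr).trans (le_max_left _ _)
  have hMn : 0 ≤ M := le_max_right _ _
  have hR1 := L.R1
  have hRT := L.RT
  have hUne : ∀ r ∈ Icc (0 : ℝ) T, U r ≠ 0 := fun r hr => by
    have := L.low r hr
    exact norm_ne_zero_iff.mp (by linarith)
  set g : ℝ → ℝ := fun r => (U1 r / U r).re with hg
  have hgc : ContinuousOn g (Icc 0 T) :=
    Complex.continuous_re.comp_continuousOn (L.cU1.div L.cU hUne)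
  have hRI : R ∈ Icc (0 : ℝ) T := ⟨by linarith, hRT.le⟩
  have hgR : ∀ r ∈ Icc (0 : ℝ) R, g r = 0 := by
    intro r hr
    simp only [hg, L.core1 r hr, zero_div, Complex.zero_re]
  have hcR := (hgc R hRI)
  rw [Metric.continuousWithinAt_iff] at hcR
  obtain ⟨d, hd0, hd⟩ := hcR (s / 2) (by positivity)
  set rs : ℝ := min ((R + T) / 2) (R + d / 2) with hrs
  have hrs1 : R < rs := lt_min (by linarith) (by linarith)
  have hrs2 : rs < T := (min_le_left _ _).trans_lt (by linarith)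
  have hrs3 : rs ≤ R + d / 2 := min_le_right _ _
  have hgs : ∀ r ∈ Icc (0 : ℝ) rs, |g r| ≤ s / 2 := by
    intro r hr
    rcases le_total r R with h | h
    · rw [hgR r ⟨hr.1, h⟩, abs_zero]; positivity
    · have h1 := hd (x := r) ⟨hr.1, hr.2.trans hrs2.le⟩ (by
        rw [Real.dist_eq, abs_of_nonneg (by linarith)]; linarith [hr.2])
      rw [Real.dist_eq, hgR R ⟨by linarith, le_refl _⟩, sub_zero] at h1
      exact h1.le
  obtain ⟨x, hx, hmax⟩ := isCompact_Icc.exists_isMaxOn (⟨rs, ⟨le_refl _, hrs2.le⟩⟩ : (Icc rs T).Nonempty)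
    (hgc.mono (Icc_subset_Icc_left (by linarith : (0 : ℝ) ≤ rs)))
  have hgx : g x < 0 := L.neg x ⟨hrs1.trans_le hx.1, hx.2⟩
  set μ : ℝ := -(g x) with hμ
  have hμ0 : 0 < μ := by rw [hμ]; linarith
  have hgμ : ∀ r ∈ Icc rs T, g r ≤ -μ := by
    intro r hr
    have : g r ≤ g x := hmax hr
    rw [hμ]; linarith
  set δ : ℝ := min (min s (1 / 10)) (min (s / (8 * (1 + M))) (μ / (8 * (1 + M)))) with hδ
  have hδ0 : 0 < δ := by
    rw [hδ]
    refine lt_min (lt_min hs (by norm_num)) (lt_min ?_ ?_) <;> positivity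
  have hδ1 : δ ≤ s := (min_le_left _ _).trans (min_le_left _ _)
  have hδ2 : δ ≤ 1 / 10 := (min_le_left _ _).trans (min_le_right _ _)
  have hδ3 : 4 * (1 + M) * δ ≤ s / 2 := by
    have : δ ≤ s / (8 * (1 + M)) := (min_le_right _ _).trans (min_le_left _ _)
    rw [le_div_iff₀ (by positivity)] at this
    linarith
  have hδ4 : 4 * (1 + M) * δ ≤ μ / 2 := by
    have : δ ≤ μ / (8 * (1 + M)) := (min_le_right _ _).trans (min_le_right _ _)
    rw [le_div_iff₀ (by positivity)] at this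
    linarith
  refine ⟨rs, δ, hrs1, hrs2, hδ0, hδ1, ?_⟩
  intro n om eps v v1 hom he0 he1 hsol hv hv1 hv10 hcl
  have hlow : ∀ r ∈ Icc (0 : ℝ) T, 1 / 2 ≤ ‖v r‖ := by
    intro r hr
    have h1 := L.low r hr
    have h2 := (hcl r hr).1
    have h3 : ‖U r‖ ≤ ‖v r‖ + ‖v r - U r‖ := by
      have := norm_sub_le (v r) (v r - U r)
      simpa using this
    linarith
  have hclose : ∀ r ∈ Icc (0 : ℝ) T, |sg v v1 r - g r| ≤ 4 * (1 + M) * δ := by
    intro r hr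
    have h1 := ld_close (hlow r hr) (L.low r hr) (L.le r hr) (hM r hr) (hcl r hr).1 (hcl r hr).2
    have h2 := Complex.abs_re_le_norm (v1 r / v r - U1 r / U r)
    rw [Complex.sub_re] at h2
    exact h2.trans h1
  exact
    { sol := hsol
      cv := hv
      cv1 := hv1
      v10 := hv10
      low := hlow
      up := by
        intro r hr
        have h1 := L.le r hr
        have h2 := (hcl r hr).1
        have h3 : ‖v r‖ ≤ ‖U r‖ + ‖v r - U r‖ := by
          have := norm_add_le (U r) (v r - U r)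
          simpa using this
        linarith
      rs0 := by linarith
      rs8 := hrs2
      T8 := L.T8
      sig := by
        intro r hr
        have h1 := hclose r ⟨hr.1, hr.2.trans hrs2.le⟩
        have h2 := hgs r hr
        have h3 := abs_le.mp h1
        have h4 := abs_le.mp h2
        rw [abs_le]
        constructor <;> linarith
      sigr := by
        intro r hr
        have h1 := abs_le.mp (hclose r ⟨by linarith [hr.1], hr.2⟩)
        have h2 := hgμ r hr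
        linarith [h1.2]
      s0 := hs.le
      s1 := hs1
      e0 := hδ0.le
      e1 := by linarith
      eps0 := he0
      epse := he1
      ome := hom }

/-- **MAIN THEOREM**: facts on `P = |v|^n`, `sigma`, `tau` for all solutions `C¹`-close to the limit profile -/
theorem pfacts {R om0 T : ℝ} {U U1 : ℝ → ℂ} (L : Lim R om0 T U U1) {η : ℝ} (hη : 0 < η) :
    ∃ δ : ℝ, 0 < δ ∧ ∃ n0 : ℕ, ∀ n : ℕ, n0 ≤ n → ∀ (om : ℝ) (v v1 : ℝ → ℂ),
      |om - om0| ≤ δ → IsSol n om (1 / n) v v1 (Ioo 0 T) →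
      ContinuousOn v (Icc 0 T) → ContinuousOn v1 (Icc 0 T) → v1 0 = 0 →
      (∀ r ∈ Icc (0 : ℝ) T, ‖v r - U r‖ ≤ δ ∧ ‖v1 r - U1 r‖ ≤ δ) →
      (∀ r ∈ Icc (0 : ℝ) T, 1 / 2 ≤ ‖v r‖) ∧
      (∀ r ∈ Icc (0 : ℝ) R, |sg v v1 r| ≤ η) ∧
      (∀ r ∈ Icc (0 : ℝ) R, |ta v v1 r| ≤ η * r) ∧
      (∀ r ∈ Icc (0 : ℝ) T, n * sg v v1 r ≤ η) ∧
      (∀ r ∈ Icc (0 : ℝ) T, ‖v r‖ ^ n ≤ om0 + η) ∧
      (∀ r ∈ Icc (0 : ℝ) (R - η), om0 - η ≤ ‖v r‖ ^ n) := by
  set η1 : ℝ := min η (1 / 2) with hη1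
  have h10 : 0 < η1 := by rw [hη1]; exact lt_min hη (by norm_num)
  have h11 : η1 ≤ η := min_le_left _ _
  have h12 : η1 ≤ 1 / 2 := min_le_right _ _
  have ho0 := L.o0
  have ho1 := L.o1
  have hR1 := L.R1
  have hRT := L.RT
  set s : ℝ := η1 ^ 2 * om0 / 2000000 with hs
  have hs0 : 0 < s := by rw [hs]; positivity
  have hq1 : η1 ^ 2 * om0 ≤ η1 * om0 := by nlinarith [mul_pos h10 ho0]
  have hq2 : η1 ^ 2 * om0 ≤ om0 := by nlinarith [mul_pos h10 ho0]
  have hq3 : η1 ^ 2 * om0 ≤ η1 := by nlinarith [mul_pos h10 ho0]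
  have hq4 : η1 ^ 2 * om0 ≤ η1 ^ 2 := by nlinarith [sq_nonneg η1]
  have hsη : s ≤ η1 := by rw [hs]; linarith
  obtain ⟨rs, δ, hrs1, hrs2, hδ0, hδs, hE⟩ := mkEng L hs0 (by linarith : s ≤ 1)
  refine ⟨δ, hδ0, max 1 ⌈1 / δ⌉₊, ?_⟩
  intro n hn om v v1 hom hsol hv hv1 hv10 hcl
  have hn1 : 1 ≤ n := (le_max_left _ _).trans hn
  have hn2 : 1 / δ ≤ n := (Nat.le_ceil _).trans (by exact_mod_cast (le_max_right _ _).trans hn)
  have hnR : (1 : ℝ) ≤ n := by exact_mod_cast hn1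
  have hnδ : 1 / (n : ℝ) ≤ δ := by
    rw [div_le_iff₀ (by linarith)]
    rw [div_le_iff₀ hδ0] at hn2
    linarith
  have h := hE n om (1 / n) v v1 hom (by positivity) hnδ hsol hv hv1 hv10 hcl
  have hK : 4 * s + δ ≤ 5 * s := by linarith
  have hK1 : 4 * s + δ ≤ 1 / 16 := by rw [hs] at hK; linarith
  have hK2 : 200 * (4 * s + δ) ≤ om0 := by rw [hs] at hK; linarith
  have hpos := mul_pos h10 ho0
  have hK3 : 3000 * (4 * s + δ) < η1 / 100 * om0 := by rw [hs] at hK; nlinarith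
  have hK4 : 1000 * (4 * s + δ) ≤ η1 := by rw [hs] at hK; linarith
  have hK5 : 2 * (4 * s + δ) ≤ η1 := by linarith
  have ha : ∀ r ∈ Icc (0 : ℝ) T, n * sg v v1 r ≤ η1 / 100 := fun r hr =>
    h.a_le (by positivity) ho0 hn1 hK1 hK2 hK3 hr
  have hPc : ∀ r ∈ Icc (0 : ℝ) rs, ‖v r‖ ^ n ≤ om0 + η1 := fun r hr =>
    h.P_le_core ha (by positivity) (by linarith) h10 (by linarith) ho0 ho1 hn1 (by nlinarith) hK1 hK4 hr
  refine ⟨h.low, ?_, ?_, ?_, ?_, ?_⟩
  · intro r hr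
    exact (h.sig r ⟨hr.1, hr.2.trans hrs1.le⟩).trans (by linarith)
  · intro r hr
    refine (h.tau_le ⟨hr.1, hr.2.trans hrs1.le⟩).trans ?_
    exact mul_le_mul_of_nonneg_right (by linarith) hr.1
  · intro r hr
    exact (ha r hr).trans (by linarith)
  · intro r hr
    rcases le_total r rs with h1 | h1
    · exact (hPc r ⟨hr.1, h1⟩).trans (by linarith)
    · -- `P` decreases on `[rs, T]`
      have hm := mono_Icc (a := rs) (b := T) (f := fun z => -(‖v z‖ ^ n))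
        (f1 := fun z => -(n * sg v v1 z * ‖v z‖ ^ n)) ?_ ?_ ?_ (x := rs) (y := r)
        ⟨le_refl _, hrs2.le⟩ ⟨h1, hr.2⟩ h1
      · have h2 := hPc rs ⟨by linarith, le_refl _⟩
        have hm' : -(‖v rs‖ ^ n) ≤ -(‖v r‖ ^ n) := hm
        linarith
      · exact ((h.cv.mono (Icc_subset_Icc_left (by linarith))).norm.pow n).neg
      · intro z hz
        have hz0 : 0 < z := by linarith [hz.1]
        exact (hasDerivAt_P n (h.sol z ⟨hz0, hz.2⟩).1 (h.vne ⟨hz0.le, hz.2.le⟩)).neg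
      · intro z hz
        have h2 := h.sigr z ⟨hz.1.le, hz.2.le⟩
        have h3 : 0 ≤ ‖v z‖ ^ n := by positivity
        have h4 : n * sg v v1 z ≤ 0 := by nlinarith
        nlinarith
  · intro r hr
    have h2 := h.P_ge_core (R1 := R) (d := η1) ha (by positivity) (by linarith) h10 (by linarith) ho1
      hrs1.le h10 (by linarith) (by rw [hs]; nlinarith) hK1 hK4 (r := r) ⟨hr.1, by linarith [hr.2]⟩
    linarith

end Crest.Agent.R086.PF
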