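import Mathlib

/-!
Row 86, Part A4 (helper371): positivity on a vertical line implies positivity in the half plane
(Phragmen-Lindelof), and the resulting statement about zeros of an analytic function.
-/

set_option autoImplicit false

open Complex Filter Set Topology Bornology Asymptotics

namespace Crest.Agent.R086.PL

/-- If `E` is analytic in `Re z > 0`, continuous up to the boundary, of growth `(1+|z|)^c`, `c < 2`,
`Re E > 0` on the imaginary axis and `Re E` bounded below at `+∞` on the real axis,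
then `Re E > 0` on the closed right half plane. -/
theorem re_pos_zero {E : ℂ → ℂ} (hd : DiffContOnCl ℂ E {z : ℂ | 0 < z.re})
    (hg : ∃ C c : ℝ, 0 ≤ C ∧ 0 < c ∧ c < 2 ∧ ∀ z : ℂ, 0 < z.re → ‖E z‖ ≤ C * (1 + ‖z‖ ^ c))
    (hax : ∀ t : ℝ, 0 < (E (t * I)).re)
    (hreal : ∃ B X : ℝ, ∀ x : ℝ, X ≤ x → -B ≤ (E x).re) :
    ∀ z : ℂ, 0 ≤ z.re → 0 < (E z).re := by
  obtain ⟨C, c, hC, hc0, hc2, hgr⟩ := hg
  obtain ⟨B, X, hBX⟩ := hreal
  set f : ℂ → ℂ := fun z => cexp (-E z) with hf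
  have hfn : ∀ z, ‖f z‖ = Real.exp (-(E z).re) := by
    intro z; rw [hf, norm_exp, neg_re]
  have hfd : DiffContOnCl ℂ f {z : ℂ | 0 < z.re} := by
    refine ⟨(hd.differentiableOn.neg).cexp, (hd.continuousOn.neg).cexp⟩
  have hle : ∀ z : ℂ, 0 ≤ z.re → ‖f z‖ ≤ 1 := by
    intro z hz
    refine PhragmenLindelof.right_half_plane_of_bounded_on_real hfd ⟨c, hc2, C, ?_⟩ ?_ ?_ hz
    · refine IsBigO.of_bound (Real.exp C) ?_
      refine Filter.eventually_of_mem (Filter.inter_mem_inf univ_mem (mem_principal_self _)) ?_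
      rintro w ⟨-, hw⟩
      rw [hfn, Real.norm_of_nonneg (Real.exp_pos _).le, ← Real.exp_add]
      apply Real.exp_le_exp.2
      have h1 : -(E w).re ≤ ‖E w‖ := (neg_le_abs _).trans (abs_re_le_norm _)
      have h2 := hgr w hw
      nlinarith
    · refine ⟨Real.exp B, ?_⟩
      rw [eventually_map]
      filter_upwards [eventually_ge_atTop X] with x hx
      rw [hfn]
      exact Real.exp_le_exp.2 (by linarith [hBX x hx])
    · intro x
      rw [hfn]
      exact Real.exp_le_one_iff.2 (by linarith [hax x])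
  have hge : ∀ z : ℂ, 0 ≤ z.re → 0 ≤ (E z).re := by
    intro z hz
    have := hle z hz
    rw [hfn, Real.exp_le_one_iff] at this
    linarith
  intro z hz
  rcases hz.eq_or_lt with h0 | hpos
  · have : z = (z.im : ℂ) * I := by
      apply Complex.ext <;> simp [← h0]
    rw [this]; exact hax _
  · rcases (hge z hz).eq_or_lt with h | h
    swap
    · exact h
    exfalso
    have hpre : IsPreconnected {z : ℂ | 0 < z.re} := (convex_halfSpace_re_gt 0).isPreconnected
    have hopen : IsOpen {z : ℂ | 0 < z.re} := isOpen_lt continuous_const continuous_re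
    have hmax : IsMaxOn (norm ∘ f) {z : ℂ | 0 < z.re} z := by
      intro w hw
      simp only [Function.comp, mem_ofPred_eq]
      have h1 : ‖f z‖ = 1 := by rw [hfn, ← h]; simp
      rw [h1]
      exact hle w (le_of_lt hw)
    have hcl := Complex.eqOn_closure_of_isPreconnected_of_isMaxOn_norm hpre hopen hfd hpos hmax
    have h0mem : (0 : ℂ) ∈ closure {z : ℂ | 0 < z.re} := by
      rw [Complex.closure_setOfPred_lt_re]; simp
    have h1 := hcl h0mem
    simp only [Function.const] at h1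
    have h2 : ‖f 0‖ = ‖f z‖ := by rw [h1]
    rw [hfn, hfn, ← h, Real.exp_eq_exp] at h2
    have h3 := hax 0
    simp at h3
    linarith

/-- Same on the half plane `Re z ≥ x0`. -/
theorem re_pos {E : ℂ → ℂ} {x0 : ℝ} (hd : DiffContOnCl ℂ E {z : ℂ | x0 < z.re})
    (hg : ∃ C c : ℝ, 0 ≤ C ∧ 0 < c ∧ c < 2 ∧ ∀ z : ℂ, x0 < z.re → ‖E z‖ ≤ C * (1 + ‖z‖ ^ c))
    (hax : ∀ t : ℝ, 0 < (E (x0 + t * I)).re)
    (hreal : ∃ B X : ℝ, ∀ x : ℝ, X ≤ x → -B ≤ (E x).re) :
    ∀ z : ℂ, x0 ≤ z.re → 0 < (E z).re := by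
  obtain ⟨C, c, hC, hc0, hc2, hgr⟩ := hg
  obtain ⟨B, X, hBX⟩ := hreal
  have key := re_pos_zero (E := fun z => E (z + x0)) ?_ ?_ ?_ ?_
  · intro z hz
    have := key (z - x0) (by simp; linarith)
    simpa using this
  · refine hd.comp (g := fun z : ℂ => z + x0) ?_ ?_
    · exact (differentiable_id.add_const _).diffContOnCl
    · intro z hz
      simp only [mem_ofPred_eq, add_re, ofReal_re] at *
      linarith
  · refine ⟨C * (1 + (2:ℝ) ^ c * (1 + |x0| ^ c)), c, ?_, hc0, hc2, ?_⟩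
    · positivity
    · intro z hz
      have h1 := hgr (z + x0) (by simp; linarith)
      refine h1.trans ?_
      rw [mul_assoc]
      apply mul_le_mul_of_nonneg_left _ hC
      have hn : ‖z + (x0 : ℂ)‖ ≤ ‖z‖ + |x0| := by
        refine (norm_add_le _ _).trans ?_
        simp
      have h2 : ‖z + (x0 : ℂ)‖ ^ c ≤ (2 * max ‖z‖ |x0|) ^ c := by
        apply Real.rpow_le_rpow (norm_nonneg _) _ hc0.le
        have := le_max_left ‖z‖ |x0|
        have := le_max_right ‖z‖ |x0|
        linarith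
      rw [Real.mul_rpow (by norm_num) (by positivity)] at h2
      have h3 : (max ‖z‖ |x0|) ^ c ≤ ‖z‖ ^ c + |x0| ^ c := by
        rcases max_cases ‖z‖ |x0| with ⟨h, -⟩ | ⟨h, -⟩
        · rw [h]; have : 0 ≤ |x0| ^ c := by positivity
          linarith
        · rw [h]; have : 0 ≤ ‖z‖ ^ c := by positivity
          linarith
      have h4 : (0:ℝ) < 2 ^ c := by positivity
      have h5 : 0 ≤ ‖z‖ ^ c := by positivity
      have h6 : 0 ≤ |x0| ^ c := by positivity
      have h7 := mul_le_mul_of_nonneg_left h3 h4.le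
      nlinarith [mul_nonneg h4.le (mul_nonneg h5 h6), mul_nonneg h4.le h6]
  · intro t
    have := hax t
    rwa [add_comm] at this
  · refine ⟨B, X - x0, fun x hx => ?_⟩
    have := hBX (x + x0) (by linarith)
    push_cast at this
    exact this

/-- Removing finitely many zeros. -/
theorem exists_factor {U : Set ℂ} (hU : IsOpen U) (Z : Finset ℂ) :
    ∀ W : ℂ → ℂ, DifferentiableOn ℂ W U → (∀ ζ ∈ Z, ζ ∈ U) → (∀ ζ ∈ Z, W ζ = 0) →
    ∃ V : ℂ → ℂ, DifferentiableOn ℂ V U ∧ ∀ z, W z = (∏ ζ ∈ Z, (z - ζ)) * V z := by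
  classical
  induction Z using Finset.induction_on with
  | empty =>
    intro W hW _ _
    exact ⟨W, hW, by simp⟩
  | insert ζ Z hζ ih =>
    intro W hW hZU hZ
    have hζU : ζ ∈ U := hZU ζ (Finset.mem_insert_self _ _)
    have hd : DifferentiableOn ℂ (dslope W ζ) U :=
      (Complex.differentiableOn_dslope (hU.mem_nhds hζU)).2 hW
    have hfac : ∀ z, W z = (z - ζ) * dslope W ζ z := by
      intro z
      have := sub_smul_dslope W ζ z
      rw [hZ ζ (Finset.mem_insert_self _ _), sub_zero, smul_eq_mul] at this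
      exact this.symm
    obtain ⟨V, hV, hVeq⟩ := ih (dslope W ζ) hd (fun w hw => hZU w (Finset.mem_insert_of_mem hw)) (by
      intro w hw
      have hne : w - ζ ≠ 0 := sub_ne_zero.2 (fun h => hζ (h ▸ hw))
      have h1 := hfac w
      rw [hZ w (Finset.mem_insert_of_mem hw)] at h1
      exact (mul_eq_zero.1 h1.symm).resolve_left hne)
    refine ⟨V, hV, fun z => ?_⟩
    rw [hfac z, hVeq z, Finset.prod_insert hζ, mul_assoc]

/-- **Zeros in a half plane from positivity on the boundary line.** `W` analytic near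
`Re z ≥ x0` with the known zeros `Z`; `p` a zero-free comparison function; if
`Re (W / (p * ∏ (z - ζ))) > 0` on the line `Re z = x0`, then in `Re z ≥ x0` the only zeros of `W` are
the points of `Z`, and they are simple. -/
theorem zeros {W p : ℂ → ℂ} {x0 : ℝ} {U : Set ℂ} (hU : IsOpen U)
    (hsub : {z : ℂ | x0 ≤ z.re} ⊆ U) (hW : DifferentiableOn ℂ W U) (hp : DifferentiableOn ℂ p U)
    (hp0 : ∀ z : ℂ, x0 ≤ z.re → p z ≠ 0)
    (Z : Finset ℂ) (hZre : ∀ ζ ∈ Z, x0 < ζ.re) (hZ : ∀ ζ ∈ Z, W ζ = 0)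
    (hg : ∃ C c r : ℝ, 0 ≤ C ∧ 0 < c ∧ c < 2 ∧ ∀ z : ℂ, x0 ≤ z.re → r ≤ ‖z‖ →
      ‖W z / (p z * ∏ ζ ∈ Z, (z - ζ))‖ ≤ C * (1 + ‖z‖ ^ c))
    (hax : ∀ t : ℝ, 0 < (W (x0 + t * I) / (p (x0 + t * I) * ∏ ζ ∈ Z, ((x0 + t * I) - ζ))).re)
    (hreal : ∃ B X : ℝ, ∀ x : ℝ, X ≤ x → -B ≤ (W x / (p x * ∏ ζ ∈ Z, ((x : ℂ) - ζ))).re) :
    (∀ z : ℂ, x0 ≤ z.re → z ∉ Z → W z ≠ 0 ∧ 0 < (W z / (p z * ∏ ζ ∈ Z, (z - ζ))).re) ∧
      ∀ ζ ∈ Z, deriv W ζ ≠ 0 := by
  classical
  obtain ⟨V, hV, hWV⟩ := exists_factor hU Z W hW (fun ζ hζ => hsub (hZre ζ hζ).le) hZ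
  have hE : ∀ z : ℂ, x0 ≤ z.re → z ∉ Z → W z / (p z * ∏ ζ ∈ Z, (z - ζ)) = V z / p z := by
    intro z hz hzZ
    have h1 : ∏ ζ ∈ Z, (z - ζ) ≠ 0 := by
      rw [Finset.prod_ne_zero_iff]
      intro ζ hζ h
      rw [sub_eq_zero] at h
      exact hzZ (h ▸ hζ)
    rw [hWV z, mul_comm (p z), mul_div_mul_left _ _ h1]
  obtain ⟨C, c, r, hC, hc0, hc2, hgr⟩ := hg
  obtain ⟨B, X, hBX⟩ := hreal
  have hsub' : {z : ℂ | x0 < z.re} ⊆ U := fun z hz => hsub (show x0 ≤ z.re from le_of_lt (show x0 < z.re from hz))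
  have hcl : closure {z : ℂ | x0 < z.re} = {z : ℂ | x0 ≤ z.re} := Complex.closure_setOfPred_lt_re x0
  have hEd : DiffContOnCl ℂ (fun z => V z / p z) {z : ℂ | x0 < z.re} := by
    constructor
    · exact (hV.mono hsub').div (hp.mono hsub') (fun z hz => hp0 z (le_of_lt hz))
    · rw [hcl]
      exact (hV.continuousOn.mono hsub).div (hp.continuousOn.mono hsub) (fun z hz => hp0 z hz)
  have key := re_pos (E := fun z => V z / p z) hEd ?_ ?_ ?_
  · constructor
    · intro z hz hzZ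
      have h1 := key z hz
      have h2 := hE z hz hzZ
      refine ⟨fun h0 => ?_, by rw [h2]; exact h1⟩
      rw [h0, zero_div] at h2
      simp only [← h2, zero_re, lt_irrefl] at h1
    · intro ζ hζ
      have hζU : ζ ∈ U := hsub (hZre ζ hζ).le
      have hVd : DifferentiableAt ℂ V ζ := (hV ζ hζU).differentiableAt (hU.mem_nhds hζU)
      have hWeq : W = fun z => (z - ζ) * ((∏ w ∈ Z.erase ζ, (z - w)) * V z) := by
        funext z
        rw [hWV z, ← Finset.mul_prod_erase Z _ hζ, mul_assoc]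
      have hPd : DifferentiableAt ℂ (fun z => (∏ w ∈ Z.erase ζ, (z - w)) * V z) ζ := by
        refine DifferentiableAt.mul ?_ hVd
        fun_prop
      have hder : deriv W ζ = (∏ w ∈ Z.erase ζ, (ζ - w)) * V ζ := by
        rw [hWeq]
        have h1 : HasDerivAt (fun z : ℂ => z - ζ) 1 ζ := (hasDerivAt_id ζ).sub_const ζ
        have h2 := (h1.mul hPd.hasDerivAt).deriv
        have h3 : ((fun z : ℂ => z - ζ) * fun z => (∏ w ∈ Z.erase ζ, (z - w)) * V z)
            = fun z => (z - ζ) * ((∏ w ∈ Z.erase ζ, (z - w)) * V z) := rfl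
        rw [h3] at h2
        rw [h2]; simp
      rw [hder]
      refine mul_ne_zero ?_ ?_
      · rw [Finset.prod_ne_zero_iff]
        intro w hw h
        rw [sub_eq_zero] at h
        exact (Finset.ne_of_mem_erase hw) h.symm
      · intro h0
        have := key ζ (hZre ζ hζ).le
        simp [h0] at this
  · -- growth: outside a ball use hgr, inside compactness
    have hcont : ContinuousOn (fun z => ‖V z / p z‖) ({z : ℂ | x0 ≤ z.re} ∩ Metric.closedBall 0
        (max r (1 + ∑ ζ ∈ Z, ‖ζ‖))) := by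
      refine ContinuousOn.norm ?_
      exact ((hV.continuousOn.mono hsub).div (hp.continuousOn.mono hsub) (fun z hz => hp0 z hz)).mono
        inter_subset_left
    have hcomp : IsCompact ({z : ℂ | x0 ≤ z.re} ∩ Metric.closedBall 0
        (max r (1 + ∑ ζ ∈ Z, ‖ζ‖))) := by
      refine IsCompact.inter_left (isCompact_closedBall _ _) ?_
      exact isClosed_le continuous_const continuous_re
    obtain ⟨M, hM⟩ := hcomp.bddAbove_image hcont
    refine ⟨max C (max M 0), c, by positivity, hc0, hc2, ?_⟩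
    intro z hz
    have hpow : 0 ≤ ‖z‖ ^ c := by positivity
    by_cases hzb : z ∈ Metric.closedBall (0:ℂ) (max r (1 + ∑ ζ ∈ Z, ‖ζ‖))
    · have h1 : ‖V z / p z‖ ≤ M := hM ⟨z, ⟨le_of_lt hz, hzb⟩, rfl⟩
      have h2 : M ≤ max C (max M 0) := (le_max_left _ _).trans (le_max_right _ _)
      have h3 : 0 ≤ max C (max M 0) := by positivity
      nlinarith
    · rw [mem_closedBall_zero_iff, not_le] at hzb
      have hzr : r ≤ ‖z‖ := (le_max_left _ _).trans hzb.le
      have hzZ : z ∉ Z := by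
        intro h
        have h1 : ‖z‖ ≤ ∑ ζ ∈ Z, ‖ζ‖ := Finset.single_le_sum (f := fun ζ => ‖ζ‖)
          (fun _ _ => norm_nonneg _) h
        have h2 := (le_max_right r (1 + ∑ ζ ∈ Z, ‖ζ‖)).trans hzb.le
        linarith
      have h1 := hgr z (le_of_lt hz) hzr
      rw [hE z (le_of_lt hz) hzZ] at h1
      refine h1.trans ?_
      apply mul_le_mul_of_nonneg_right (le_max_left _ _)
      positivity
  · intro t
    have h1 := hax t
    rw [hE _ (by simp) ?_] at h1
    · exact h1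
    · intro h
      have := hZre _ h
      simp at this
  · refine ⟨B, max X (max x0 (1 + ∑ ζ ∈ Z, ‖ζ‖)), fun x hx => ?_⟩
    have hxX : X ≤ x := (le_max_left _ _).trans hx
    have hx0 : x0 ≤ x := (le_max_left _ _).trans ((le_max_right _ _).trans hx)
    have hx1 : 1 + ∑ ζ ∈ Z, ‖ζ‖ ≤ x := (le_max_right _ _).trans ((le_max_right _ _).trans hx)
    have h1 := hBX x hxX
    rw [hE _ (by simpa using hx0) ?_] at h1
    · exact h1
    · intro h
      have h2 : ‖(x : ℂ)‖ ≤ ∑ ζ ∈ Z, ‖ζ‖ := Finset.single_le_sum (f := fun ζ => ‖ζ‖)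
        (fun _ _ => norm_nonneg _) h
      rw [Complex.norm_real, Real.norm_eq_abs] at h2
      have := le_abs_self x
      linarith

end Crest.Agent.R086.PL
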