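import Crest.Agent.R086.BMain
import Crest.Agent.R086.BT3

/-!
Row 86 (S0114), Part B: everything except the exterior statement (helper514).
-/

set_option autoImplicit false

open Complex

namespace Crest.Agent.R086.B

/-- **Part B**, modulo the exterior statement `ExtStmt` only. -/
theorem partB_of_ext (D : A.AData)
    (hExt : ∀ rho : ℝ, D.R < rho → ∀ rX : ℝ,
      ExtStmt D.om rho rX (1 / A.fo 0 (-(I * D.om)) D.R) JCx.Uo JCx.Uo1) :
    Nonempty (BData D.om D.R (BLim.U D)) :=
  partB_of D hExt (fun S => t3out S (BLim.limitProfile D))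

end Crest.Agent.R086.B
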