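import Crest.Agent.R086.CHF3
import Crest.Agent.R086.CLift
import Crest.Agent.R086.CTopDefs

/-!
Row 86, Part C: **R1Stmt** (helper590): `|lam| ≤ n^K` for every non-trivial eigenpair.
-/

set_option autoImplicit false

open MeasureTheory Complex Set Filter
open scoped ContDiff Topology

namespace Crest.Agent.R086.CHF

open Crest.Agent.R086 Crest.Agent.R086.CReg

lemma exists_ne {H : R12 → ℝ} (h : (∫ w : S11, (H w) ^ 2 ∂sig) = 1) : ∃ w : S11, H w ≠ 0 := by
  by_contra hc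
  push Not at hc
  rw [integral_congr_ae (g := fun _ => 0) (Eventually.of_forall fun w => by simp [hc w])] at h
  simp at h

theorem r1Stmt : R1Stmt := by
  intro om0 R U hL B
  obtain ⟨K, hK⟩ := B.poly
  refine ⟨4 * (K + 2), ?_⟩
  have hom : ∀ᶠ j in atTop, |(B.P j).om| ≤ 1 := by
    have h1 := B.om_tendsto.eventually (Ioo_mem_nhds (a := om0 - 1 / 10) (b := om0 + 1 / 10)
      (by linarith) (by linarith))
    filter_upwards [h1] with j hj
    have h2 := hL.om_lo
    have h3 := hL.om_hi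
    rw [abs_le]
    constructor <;> linarith [hj.1, hj.2]
  have hn : ∀ᶠ j in atTop, 1000 ≤ B.nn j := B.nn_tendsto.eventually (eventually_ge_atTop 1000)
  filter_upwards [hK, hom, hn] with j hj homj hnj
  intro lam l H F G hE hre hNZ
  by_contra hlt
  push Not at hlt
  obtain ⟨p1, p2, p3, hy⟩ := hj
  set N : ℝ := (B.nn j : ℝ) with hN
  have hN1000 : (1000 : ℝ) ≤ N := by rw [hN]; exact_mod_cast hnj
  have hN1 : (1 : ℝ) ≤ N := by linarith
  have hB : 1 ≤ N ^ K := one_le_pow₀ hN1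
  have hbig : (1000 * (B.nn j : ℝ) * N ^ K) ^ 4 ≤ ‖lam‖ := by
    refine le_trans ?_ hlt.le
    calc (1000 * (B.nn j : ℝ) * N ^ K) ^ 4 ≤ (N * N * N ^ K) ^ 4 := by
          refine pow_le_pow_left₀ (by positivity) ?_ 4
          exact mul_le_mul_of_nonneg_right (mul_le_mul_of_nonneg_right hN1000 (by linarith)) (by positivity)
      _ = N ^ (4 * (K + 2)) := by ring
  have hcf := SH.InX.contDiff hE.mode.xF
  have hcg := SH.InX.contDiff hE.mode.xG
  have hcf2 : ContDiff ℝ 2 (modeFn H F) := hcf.of_le (by norm_num)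
  have hcg2 : ContDiff ℝ 2 (modeFn H G) := hcg.of_le (by norm_num)
  have hF1 : ContDiff ℝ 1 F := hE.mode.cF.of_le (by norm_num)
  have hG1 : ContDiff ℝ 1 G := hE.mode.cG.of_le (by norm_num)
  obtain ⟨l1, l2⟩ := CLift.lift_eig (B.P j) hE.mode.harm hF1 hG1 hcf2 hcg2 hE.eq1 hE.eq2
  have hX : InX 2 (B.P j).V1 ∧ InX 2 (B.P j).V2 ∧ InX 2 (B.P j).V2c :=
    ⟨XA.inX_mono (by norm_num) (XA.xbd_inX p1), XA.inX_mono (by norm_num) (XA.xbd_inX p2),
      XA.inX_mono (by norm_num) (XA.xbd_inX p3)⟩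
  obtain ⟨z1, z2⟩ := hf' (B.P j) hB (XA.xbd_mono (by norm_num) p1) (XA.xbd_mono (by norm_num) p2)
    (XA.xbd_mono (by norm_num) p3) (fun i => (hy i).1) (fun i => (hy i).2.1) (fun i => (hy i).2.2)
    hX.1 hX.2.1 hX.2.2 homj hre hbig (XA.inX_mono (by norm_num) hE.mode.xF)
    (XA.inX_mono (by norm_num) hE.mode.xG) l1 l2
  obtain ⟨w, hw⟩ := exists_ne hE.mode.norm
  obtain ⟨r, hr, hne⟩ := hNZ
  have e1 := z1 (r • (w : R12))
  have e2 := z2 (r • (w : R12))
  rw [CLift.modeFn_smul H F hr] at e1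
  rw [CLift.modeFn_smul H G hr] at e2
  have hw' : ((H w : ℝ) : ℂ) ≠ 0 := by exact_mod_cast hw
  rcases hne with h | h
  · exact h ((mul_eq_zero.1 e1).resolve_left hw')
  · exact h ((mul_eq_zero.1 e2).resolve_left hw')

end Crest.Agent.R086.CHF
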