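import Crest.Agent.R086.R3Defs

/-!
Row 86, Part C, regime (R3) (helper371): conjugation symmetry `(lam, S, D) ↦ (conj lam, conj S, -conj D)`.
-/

set_option autoImplicit false

open MeasureTheory Complex Set Filter Topology

namespace Crest.Agent.R086.R3

open CCore CEx

local notation "conj" => starRingEnd ℂ

theorem hasDerivAt_conj' {f : ℝ → ℂ} {f' : ℂ} {r : ℝ} (h : HasDerivAt f f' r) :
    HasDerivAt (fun r => conj (f r)) (conj f') r :=
  Complex.conjCLE.toContinuousLinearMap.hasFDerivAt.comp_hasDerivAt r h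

theorem sys_swap {w b P rho : ℝ → ℝ} {Lam n eps : ℝ} {lam : ℂ} {S S1 D D1 : ℝ → ℂ} {r : ℝ}
    (h : Sys w b P rho Lam n eps lam S S1 D D1 0 0 r) :
    Sys w b P rho Lam n eps (conj lam) (fun r => conj (S r)) (fun r => conj (S1 r))
      (fun r => -conj (D r)) (fun r => -conj (D1 r)) 0 0 r where
  hr := h.hr
  wne := h.wne
  hw := h.hw
  hwb := h.hwb
  hS := hasDerivAt_conj' h.hS
  hD := (hasDerivAt_conj' h.hD).neg
  hS1 := by
    have h1 := hasDerivAt_conj' h.hS1
    have e : (fun r => conj ((w r : ℂ) * S1 r)) = fun r => (w r : ℂ) * conj (S1 r) := by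
      funext x; rw [map_mul, Complex.conj_ofReal]
    rw [e] at h1
    refine h1.congr_deriv ?_
    simp only [map_mul, map_sub, map_add, map_zero, Complex.conj_ofReal, Complex.conj_I, map_div₀, map_pow]
    ring
  hD1 := by
    have h1 := (hasDerivAt_conj' h.hD1).neg
    have e : (fun r => -conj ((w r : ℂ) * D1 r)) = fun r => (w r : ℂ) * -conj (D1 r) := by
      funext x; rw [map_mul, Complex.conj_ofReal]; ring
    have h2 : HasDerivAt (fun r => -conj ((w r : ℂ) * D1 r)) _ r := h1
    rw [e] at h2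
    refine h2.congr_deriv ?_
    simp only [map_mul, map_sub, map_add, map_zero, Complex.conj_ofReal, Complex.conj_I, map_div₀, map_pow]
    ring

theorem sol_swap {w b P rho : ℝ → ℝ} {Lam n eps rb : ℝ} {lam : ℂ} {S S1 D D1 : ℝ → ℂ}
    (h : Sol w b P rho Lam n eps lam S S1 D D1 rb) :
    Sol w b P rho Lam n eps (conj lam) (fun r => conj (S r)) (fun r => conj (S1 r))
      (fun r => -conj (D r)) (fun r => -conj (D1 r)) rb where
  Lam_nonneg := h.Lam_nonneg
  eps_nonneg := h.eps_nonneg
  eps_le := h.eps_le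
  sys := fun r hr => sys_swap (h.sys r hr)
  bdd := by
    obtain ⟨B, hB⟩ := h.bdd
    refine ⟨B, fun r hr => ?_⟩
    simp only [norm_neg, RCLike.norm_conj]
    exact hB r hr

theorem L2_conj (w : ℝ → ℝ) (f : ℝ → ℂ) (rb : ℝ) : L2 w (fun r => conj (f r)) rb = L2 w f rb := by
  unfold L2; simp only [RCLike.norm_conj]

theorem L2_negconj (w : ℝ → ℝ) (f : ℝ → ℂ) (rb : ℝ) : L2 w (fun r => -conj (f r)) rb = L2 w f rb := by
  unfold L2; simp only [norm_neg, RCLike.norm_conj]

theorem bdry_swap {w b rho : ℝ → ℝ} {S S1 D D1 : ℝ → ℂ} {h1 h2 : ℂ} {dl rb : ℝ}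
    (h : Bdry w b rho S S1 D D1 h1 h2 dl rb) :
    Bdry w b rho (fun r => conj (S r)) (fun r => conj (S1 r))
      (fun r => -conj (D r)) (fun r => -conj (D1 r)) h2 h1 dl rb where
  dl_nonneg := h.dl_nonneg
  relF := by
    rw [L2_conj, L2_negconj]
    refine le_trans (le_of_eq ?_) h.relG
    rw [← RCLike.norm_conj ((S1 rb - D1 rb) - _)]
    congr 2
    simp only [map_sub, map_mul, map_add, Complex.conj_conj, Complex.conj_ofReal, Complex.conj_I]
    ring
  relG := by
    rw [L2_conj, L2_negconj]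
    refine le_trans (le_of_eq ?_) h.relF
    rw [← RCLike.norm_conj ((S1 rb + D1 rb) - _)]
    congr 2
    simp only [map_sub, map_mul, map_add, Complex.conj_conj, Complex.conj_ofReal, Complex.conj_I]
    ring

end Crest.Agent.R086.R3
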