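import Crest.Agent.R086.R3Defs
import Crest.Agent.R086.R3Uniq
import Crest.Agent.R086.R3Swap
import Crest.Agent.R086.CV

/-!
Row 86, Part C, regime (R3) (helper371): assembly of `R3Stmt`.
-/

set_option autoImplicit false

open MeasureTheory Complex Set Filter Topology

namespace Crest.Agent.R086.R3

open CCore CEx

local notation "conj" => starRingEnd ℂ

theorem coef_mono {w b P P1 rho m : ℝ → ℝ} {C0 C0' e n rb : ℝ} (h : Coef w b P P1 rho m C0 e n rb)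
    (hC : C0 ≤ C0') : Coef w b P P1 rho m C0' e n rb := by
  have h0 : 0 < C0 := by linarith [h.C0_one]
  exact
  { C0_one := h.C0_one.trans hC
    n_one := h.n_one
    e_nonneg := h.e_nonneg
    rb_lo := h.rb_lo
    rb_hi := h.rb_hi.trans hC
    wlo := fun r hr => le_trans (by have := hr.1; gcongr) (h.wlo r hr)
    whi := fun r hr => (h.whi r hr).trans (by have := hr.1; gcongr)
    wcont := h.wcont
    bhi := fun r hr => (h.bhi r hr).trans (by have := hr.1; gcongr)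
    bcont := h.bcont
    rhohi := fun r hr => (h.rhohi r hr).trans hC
    rhocont := h.rhocont
    P_nonneg := h.P_nonneg
    P_le := fun r hr => (h.P_le r hr).trans hC
    P_der := h.P_der
    P1_cont := h.P1_cont
    P1_bd := h.P1_bd
    P1_le := h.P1_le
    m_der := h.m_der
    m_lo := fun r hr => le_trans (by have := hr.1; gcongr) (h.m_lo r hr)
    m_hi := fun r hr => (h.m_hi r hr).trans (by have := hr.1; gcongr)
    m1_lo := fun r hr => le_trans (by gcongr) (h.m1_lo r hr)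
    m1_hi := fun r hr => (h.m1_hi r hr).trans hC }

/-! ### size parameters -/

theorem sz_le (l : ℕ) (m : ℂ) : sz l m ≤ (l : ℝ) * (l + 10) + 28 + |m.re| + |m.im| := by
  unfold sz
  have h1 : ‖3 - m‖ ≤ 3 + (|m.re| + |m.im|) := by
    refine (norm_sub_le _ _).trans (add_le_add (by simp) (Complex.norm_le_abs_re_add_abs_im m))
  linarith

theorem sz_ge (l : ℕ) (m : ℂ) : (l : ℝ) * (l + 10) + 24 + |m.im| ≤ sz l m := by
  unfold sz
  have h1 : |m.im| ≤ ‖3 - m‖ := by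
    have := Complex.abs_im_le_norm (3 - m)
    simp at this
    exact this
  linarith

variable {n : ℕ} (P : Profile n)

theorem mu_re (lam : ℂ) : (P.mu lam).re = lam.re + 1 / n := by
  unfold Profile.mu
  simp

theorem mu_im (lam : ℂ) : (P.mu lam).im = lam.im - P.om := by
  unfold Profile.mu
  simp

theorem small_ev {c a e : ℝ} (hc : 0 < c) (N : ℕ) {nn : ℕ → ℕ} (hn : Tendsto nn atTop atTop) (he : 0 < e) :
    ∀ᶠ j in atTop, a * ((nn j : ℝ) ^ N * Real.exp (-c * nn j)) ≤ e := by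
  have h1 : Tendsto (fun x : ℝ => a * (x ^ N * Real.exp (-c * x))) atTop (𝓝 0) := by
    have := Real.tendsto_pow_mul_exp_neg_atTop_nhds_zero N
    have h2 := (this.comp (tendsto_id.const_mul_atTop hc)).const_mul (a * (c ^ N)⁻¹)
    rw [mul_zero] at h2
    refine h2.congr (fun x => ?_)
    simp only [Function.comp, id]
    have : c ≠ 0 := hc.ne'
    rw [mul_pow]
    field_simp
  have h2 : Tendsto (fun j => (nn j : ℝ)) atTop atTop := tendsto_natCast_atTop_atTop.comp hn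
  have h3 := (h1.comp h2).eventually (Iio_mem_nhds he)
  filter_upwards [h3] with j hj
  exact le_of_lt hj

/-- `S = D = 0` gives `F = G = 0`. -/
theorem FG_zero {F G : ℝ → ℂ} {r : ℝ} (hq : P.q r ≠ 0) (hS : Sf P F G r = 0) (hD : Df P F G r = 0) :
    F r = 0 ∧ G r = 0 := by
  unfold Sf at hS
  unfold Df at hD
  have hqc : conj (P.q r) ≠ 0 := by simpa using hq
  have h1 : F r / P.q r = 0 := by linear_combination hS + hD
  have h2 : G r / conj (P.q r) = 0 := by linear_combination hS - hD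
  exact ⟨(div_eq_zero_iff.mp h1).resolve_right hq, (div_eq_zero_iff.mp h2).resolve_right hqc⟩

theorem norm_le_one_add_sq (x : ℝ) : x ≤ 1 + x ^ 2 := by nlinarith [sq_nonneg (x - 1)]

/-- the error constant -/
theorem dl_bd {er h1 h2 Cb X c cE nr k2 : ℝ} {KK : ℕ} (hX : 1 ≤ X) (her0 : 0 ≤ er)
    (her : er ≤ Real.exp (-cE * nr) * X ^ KK) (h10 : 0 ≤ h1) (h20 : 0 ≤ h2)
    (hh : 8 + h1 + h2 ≤ Cb * X ^ 2) (hk : k2 ≤ X) (hk0 : 0 ≤ k2)
    (hs : 8 * (Real.exp (-cE * nr) * X ^ KK) ^ 2 * (Cb * X ^ 2) ^ 2 * X ≤ c) :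
    8 * er ^ 2 * (8 + h1 + h2) ^ 2 ≤ c ∧ 8 * er ^ 2 * (8 + h1 + h2) ^ 2 * k2 ≤ c := by
  have hb : 8 * er ^ 2 * (8 + h1 + h2) ^ 2 ≤
      8 * (Real.exp (-cE * nr) * X ^ KK) ^ 2 * (Cb * X ^ 2) ^ 2 := by
    gcongr
  have h0 : 0 ≤ 8 * er ^ 2 * (8 + h1 + h2) ^ 2 := by positivity
  have hp : 0 ≤ 8 * (Real.exp (-cE * nr) * X ^ KK) ^ 2 * (Cb * X ^ 2) ^ 2 := by positivity
  constructor
  · refine hb.trans (le_trans ?_ hs)
    exact le_mul_of_one_le_right hp hX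
  · exact (mul_le_mul hb hk hk0 hp).trans hs

/-- body of `CaseII` -/
def Inst2 (C0 eta M c : ℝ) : Prop :=
  ∀ (w b P P1 rho m : ℝ → ℝ) (e n rb Lam eps : ℝ) (lam h1 h2 : ℂ) (S S1 D D1 : ℝ → ℂ) (dl : ℝ),
    Coef w b P P1 rho m C0 e n rb → Sol w b P rho Lam n eps lam S S1 D D1 rb →
    Bdry w b rho S S1 D D1 h1 h2 dl rb →
    |lam.re| ≤ C0 → M ≤ Lam → |lam.im| * rb ^ 2 ≤ (1 - eta) * Lam →
    h1.re ≤ -(Real.sqrt Lam) / C0 → h2.re ≤ -(Real.sqrt Lam) / C0 →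
    dl ≤ c →
    ∀ r ∈ Ioc 0 rb, S r = 0 ∧ D r = 0

/-- body of `CaseIII` -/
def Inst3 (C0 M c : ℝ) : Prop :=
  ∀ (w b P P1 rho m : ℝ → ℝ) (e n rb Lam eps k : ℝ) (lam h1 h2 : ℂ) (S S1 D D1 : ℝ → ℂ) (dl : ℝ),
    Coef w b P P1 rho m C0 e n rb → Sol w b P rho Lam n eps lam S S1 D D1 rb →
    Bdry w b rho S S1 D D1 h1 h2 dl rb →
    |lam.re| ≤ C0 → M ≤ k → lam.im = -k ^ 2 → Lam ≤ C0 * k ^ 2 → e ≤ c →
    k / C0 ≤ h1.im → ‖h1‖ ≤ C0 * k →
    h2.re ≤ -k / C0 → ‖h2‖ ≤ C0 * k → ‖h2‖ ^ 2 ≤ Lam / rb ^ 2 + k ^ 2 + C0 → |h2.im| ≤ C0 / k →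
    dl * k ^ 2 ≤ c →
    ∀ r ∈ Ioc 0 rb, S r = 0 ∧ D r = 0

/-- body of `DtnEv` -/
def EvAt (r δ A C M : ℝ) : Prop := ∀ (l : ℕ) (m : ℂ),
    0 < m.re → m.re ≤ A → M ≤ sz l m → δ * sz l m ≤ reV l m r →
    JCx.Phi l m r ≠ 0 ∧ (hh l m r).re ≤ -Real.sqrt (sz l m) / C ∧ ‖hh l m r‖ ^ 2 ≤ reV l m r + C ∧
      |(hh l m r).im| ≤ C / Real.sqrt (sz l m)

/-- body of `DtnPr` -/
def PrAt (r δ A C M : ℝ) : Prop := ∀ (l : ℕ) (m : ℂ),
    0 < m.re → m.re ≤ A → M ≤ sz l m → reV l m r ≤ -(δ * sz l m) →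
    JCx.Phi l m r ≠ 0 ∧ Real.sqrt (sz l m) / C ≤ (hh l m r).im ∧ ‖hh l m r‖ ≤ C * Real.sqrt (sz l m)

/-- EXT0 at one radius -/
def ExtAt (P : Profile n) (l : ℕ) (lam : ℂ) (F G : ℝ → ℂ) (r1 er rb : ℝ) : Prop :=
  ∃ c1 c2 : ℂ,
      ‖F rb - c1 * JCx.Phi l (P.mu lam) rb‖ ≤ er * NB r1 F G ∧
      ‖deriv F rb - c1 * JCx.Phi1 l (P.mu lam) rb‖ ≤ er * NB r1 F G ∧
      ‖G rb - c2 * starRingEnd ℂ (JCx.Phi l (P.mu (starRingEnd ℂ lam)) rb)‖ ≤ er * NB r1 F G ∧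
      ‖deriv G rb - c2 * starRingEnd ℂ (JCx.Phi1 l (P.mu (starRingEnd ℂ lam)) rb)‖ ≤ er * NB r1 F G

theorem reV_le_sz (l : ℕ) (m : ℂ) {r : ℝ} (hr : 1 ≤ r) : reV l m r ≤ sz l m := by
  unfold reV sz
  have h1 : m.im ≤ ‖3 - m‖ := by
    have := Complex.abs_im_le_norm (3 - m)
    simp at this
    exact (le_abs_self _).trans this
  have h2 : ((l : ℝ) * (l + 10) + 99 / 4) / r ^ 2 ≤ (l : ℝ) * (l + 10) + 99 / 4 :=
    div_le_self (by positivity) (by nlinarith)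
  have h3 : 0 ≤ r ^ 2 / 16 := by positivity
  linarith

theorem step2 {C' C0 C1 e M2 c2 Ce Me A er r1 Cb X cE nr : ℝ} {KK : ℕ} {lam : ℂ} {l : ℕ} {H : R12 → ℝ}
    {F G : ℝ → ℂ}
    (hI : Inst2 C0 (1 / 10) M2 c2) (hS : SolStmt) (hB : BdryStmt) (hev : EvAt (17 / 5) (1 / 500) A Ce Me)
    (hCe : 1 ≤ Ce) (hCe0 : Ce ≤ C0) (hC1 : C1 ≤ C0) (hC' : |C'| ≤ C0) (hA : A = |C'| + 1)
    (hq : ∀ r, P.q r ≠ 0) (hom : |P.om| ≤ 1) (hn : 1 ≤ n)
    (hcoef : ∃ P1 m, CEx.Coef (CCore.w P.q) (CCore.b P.q (deriv P.q))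
        (fun r => ‖P.q r‖ ^ n) P1 (CCore.rho P.q (deriv P.q)) m C1 e n (17 / 5))
    (hlow : 1 / 2 ≤ ‖P.q (17 / 5)‖) (hE : P.Eig lam l H F G) (hre0 : 0 ≤ lam.re) (hre : lam.re ≤ C')
    (hr1 : 0 < r1) (hr1' : r1 ≤ 17 / 5) (hext : ExtAt P l lam F G r1 er (17 / 5))
    (hcase : |lam.im| * (17 / 5) ^ 2 ≤ (1 - 1 / 10) * ((l : ℝ) * (l + 10)))
    (hM2 : M2 ≤ (l : ℝ) * (l + 10)) (hMe : Me ≤ (l : ℝ) * (l + 10))
    (hbig : 1000 * (A + 10) ≤ (l : ℝ) * (l + 10))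
    (hX : 1 ≤ X) (her0 : 0 ≤ er) (her : er ≤ Real.exp (-cE * nr) * X ^ KK)
    (hszX : 8 + 2 * (2 + Ce + sz l (P.mu lam) + sz l (P.mu (conj lam))) ≤ Cb * X ^ 2)
    (hs : 8 * (Real.exp (-cE * nr) * X ^ KK) ^ 2 * (Cb * X ^ 2) ^ 2 * X ≤ c2) :
    ∀ r ∈ Ioc (0 : ℝ) (17 / 5), Sf P F G r = 0 ∧ Df P F G r = 0 := by
  have hn0 : (0 : ℝ) < 1 / n := by positivity
  have hn1 : (1 : ℝ) / n ≤ 1 := by
    rw [div_le_one (by positivity)]
    exact_mod_cast hn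
  have hA0 : 0 ≤ |C'| := abs_nonneg _
  have hreC : lam.re ≤ |C'| := hre.trans (le_abs_self _)
  obtain ⟨om1, om2⟩ := abs_le.mp hom
  set Lam : ℝ := (l : ℝ) * (l + 10) with hLam
  have hLam0 : 0 ≤ Lam := by positivity
  have him : |lam.im| ≤ 9 / 115 * Lam := by
    have := abs_nonneg lam.im
    nlinarith
  have hgen : ∀ nu : ℂ, nu.re = lam.re → |nu.im| ≤ |lam.im| →
      JCx.Phi l (P.mu nu) (17 / 5) ≠ 0 ∧ (hh l (P.mu nu) (17 / 5)).re ≤ -Real.sqrt Lam / C0 ∧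
      ‖hh l (P.mu nu) (17 / 5)‖ ≤ 1 + Ce + sz l (P.mu nu) := by
    intro nu h1 h2
    have e1 : (P.mu nu).re = lam.re + 1 / n := by rw [mu_re, h1]
    have e2 : (P.mu nu).im = nu.im - P.om := mu_im P nu
    obtain ⟨i1, i2⟩ := abs_le.mp h2
    have hszlo := sz_ge l (P.mu nu)
    have hszhi := sz_le l (P.mu nu)
    have a1 : |(P.mu nu).re| ≤ A := by
      rw [e1, abs_of_nonneg (by positivity), hA]
      linarith
    have a2 : |(P.mu nu).im| ≤ |lam.im| + 1 := by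
      rw [e2, abs_le]
      constructor <;> linarith
    obtain ⟨a3, a4⟩ := abs_le.mp a2
    have a5 := abs_nonneg (P.mu nu).im
    obtain ⟨g1, g2, g3, g4⟩ := hev l (P.mu nu) (by rw [e1]; positivity) (le_trans (le_abs_self _) a1)
      (by linarith) (by
        unfold reV
        rw [← hLam] at hszhi ⊢
        norm_num
        linarith)
    have hsz0 : 0 ≤ Lam := hLam0
    refine ⟨g1, g2.trans ?_, ?_⟩
    · rw [neg_div, neg_div, neg_le_neg_iff]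
      have s1 : Real.sqrt Lam ≤ Real.sqrt (sz l (P.mu nu)) := Real.sqrt_le_sqrt (by linarith)
      exact div_le_div₀ (Real.sqrt_nonneg _) s1 (by linarith) hCe0
    · have t1 := norm_le_one_add_sq ‖hh l (P.mu nu) (17 / 5)‖
      have t2 := reV_le_sz l (P.mu nu) (r := 17 / 5) (by norm_num)
      linarith
  obtain ⟨b1, b2, b3⟩ := hgen lam rfl le_rfl
  obtain ⟨d1, d2, d3⟩ := hgen (conj lam) (by simp) (by simp)
  obtain ⟨P1, m, hco⟩ := hcoef
  obtain ⟨c1, c2', x1, x2, x3, x4⟩ := hext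
  have h20 : (1 : WithTop ℕ∞) ≤ (N0 : ℕ) := by
    have : (1 : ℕ) ≤ N0 := by unfold N0; norm_num
    exact_mod_cast this
  have dF : Differentiable ℝ F := (hE.mode.cF.of_le h20).differentiable (by norm_num)
  have dG : Differentiable ℝ G := (hE.mode.cG.of_le h20).differentiable (by norm_num)
  have hbd := hB n P hq l lam F G dF dG r1 (17 / 5) er c1 c2' hr1 hr1' (by norm_num) (by norm_num)
    her0 hlow b1 d1 x1 x2 x3 x4
  have hsol := hS n P hq lam l H F G hE (17 / 5) (by norm_num)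
  have hdl := dl_bd (k2 := 0) (h1 := ‖hh l (P.mu lam) (17 / 5)‖)
    (h2 := ‖hh l (P.mu (conj lam)) (17 / 5)‖) hX her0 her
    (norm_nonneg _) (norm_nonneg _) (by
      have := sz_ge l (P.mu lam)
      have := sz_ge l (P.mu (conj lam))
      have := abs_nonneg (P.mu lam).im
      have := abs_nonneg (P.mu (conj lam)).im
      linarith) (by linarith) le_rfl hs
  refine hI _ _ _ P1 _ m e n (17 / 5) Lam (1 / n) lam _ _ _ _ _ _ _ (coef_mono hco hC1) hsol hbd ?_ hM2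
    hcase b2 d2 hdl.1
  rw [abs_of_nonneg hre0]
  linarith

set_option maxHeartbeats 1000000 in
theorem step3 {C' C0 C1 M3 c3 Ce Me Cp Mp A er r1 Cb X cE nr : ℝ} {KK : ℕ} {lam : ℂ} {l : ℕ}
    {H : R12 → ℝ} {F G : ℝ → ℂ} {k : ℝ}
    (hI : Inst3 C0 M3 c3) (hS : SolStmt) (hB : BdryStmt) (hev : EvAt (19 / 5) (1 / 500) A Ce Me)
    (hpr : PrAt (19 / 5) (1 / 500) A Cp Mp)
    (hCe : 1 ≤ Ce) (hCe0 : Ce + 3 ≤ C0) (hCp : 1 ≤ Cp) (hCp0 : 4 * Cp ≤ C0) (h13 : 20 ≤ C0)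
    (hC1 : C1 ≤ C0) (hC' : |C'| ≤ C0) (hA : A = |C'| + 1)
    (hq : ∀ r, P.q r ≠ 0) (hom : |P.om| ≤ 1) (hn : 1 ≤ n)
    (hcoef : ∃ P1 m, CEx.Coef (CCore.w P.q) (CCore.b P.q (deriv P.q))
        (fun r => ‖P.q r‖ ^ n) P1 (CCore.rho P.q (deriv P.q)) m C1 c3 n (19 / 5))
    (hlow : 1 / 2 ≤ ‖P.q (19 / 5)‖) (hE : P.Eig lam l H F G) (hre0 : 0 ≤ lam.re) (hre : lam.re ≤ C')
    (hr1 : 0 < r1) (hr1' : r1 ≤ 19 / 5) (hext : ExtAt P l lam F G r1 er (19 / 5))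
    (hk : 0 < k) (hk2 : |lam.im| = k ^ 2)
    (hcase : (1 - 1 / 10) * ((l : ℝ) * (l + 10)) ≤ |lam.im| * (17 / 5) ^ 2)
    (hM3 : M3 ≤ k) (hMe : Me ≤ k ^ 2) (hMp : Mp ≤ k ^ 2) (hkC : C0 ≤ k ^ 2)
    (hbig : 1000 * (A + 10) ≤ k ^ 2)
    (hX : 1 ≤ X) (hXk : |lam.im| ≤ X) (her0 : 0 ≤ er) (her : er ≤ Real.exp (-cE * nr) * X ^ KK)
    (hszX : 8 + 2 * (2 + Ce + C0 * (sz l (P.mu lam) + sz l (P.mu (conj lam)))) ≤ Cb * X ^ 2)
    (hs : 8 * (Real.exp (-cE * nr) * X ^ KK) ^ 2 * (Cb * X ^ 2) ^ 2 * X ≤ c3) :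
    ∀ r ∈ Ioc (0 : ℝ) (19 / 5), Sf P F G r = 0 ∧ Df P F G r = 0 := by
  have hn0 : (0 : ℝ) < 1 / n := by positivity
  have hn1 : (1 : ℝ) / n ≤ 1 := by
    rw [div_le_one (by positivity)]
    exact_mod_cast hn
  have hA0 : 0 ≤ |C'| := abs_nonneg _
  have hreC : lam.re ≤ |C'| := hre.trans (le_abs_self _)
  obtain ⟨om1, om2⟩ := abs_le.mp hom
  set Lam : ℝ := (l : ℝ) * (l + 10) with hLam
  have hLam0 : 0 ≤ Lam := by positivity
  have hkk0 : 0 ≤ k ^ 2 := by positivity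
  have hLk : Lam ≤ 129 / 10 * k ^ 2 := by
    rw [hk2] at hcase
    linarith
  have hkk : 0 < k ^ 2 := by positivity
  have hk1 : 1 ≤ k := by
    have h1 : (1 : ℝ) ^ 2 ≤ k ^ 2 := by linarith
    exact (pow_le_pow_iff_left₀ zero_le_one hk.le two_ne_zero).mp h1
  have hkle : k ≤ k ^ 2 := by
    rw [sq]
    exact le_mul_of_one_le_right hk.le hk1
  have hC03 : 3 ≤ C0 ^ 2 := by
    rw [sq]
    calc (3 : ℝ) ≤ 20 * 20 := by norm_num
      _ ≤ C0 * C0 := by gcongr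
  -- bounds for both channels
  have hsz : ∀ nu : ℂ, nu.re = lam.re → |nu.im| = k ^ 2 →
      0 < (P.mu nu).re ∧ (P.mu nu).re ≤ A ∧ k ^ 2 ≤ sz l (P.mu nu) ∧
      sz l (P.mu nu) ≤ 14 * k ^ 2 + 29 + A ∧ k ≤ Real.sqrt (sz l (P.mu nu)) ∧
      Real.sqrt (sz l (P.mu nu)) ≤ 4 * k := by
    intro nu h1 h2
    have e1 : (P.mu nu).re = lam.re + 1 / n := by rw [mu_re, h1]
    have e2 : (P.mu nu).im = nu.im - P.om := mu_im P nu
    have hszlo := sz_ge l (P.mu nu)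
    have hszhi := sz_le l (P.mu nu)
    rw [← hLam] at hszlo hszhi
    have a1 : |(P.mu nu).re| ≤ A := by
      rw [e1, abs_of_nonneg (by positivity), hA]
      linarith
    have a2 : |(P.mu nu).im| ≤ k ^ 2 + 1 := by
      rw [e2, ← h2]
      exact (abs_sub _ _).trans (by linarith)
    have a3 : k ^ 2 - 1 ≤ |(P.mu nu).im| := by
      rw [e2, ← h2]
      have := abs_sub_abs_le_abs_sub nu.im P.om
      linarith
    have b1 : k ^ 2 ≤ sz l (P.mu nu) := by linarith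
    have b2 : sz l (P.mu nu) ≤ 14 * k ^ 2 + 29 + A := by linarith
    refine ⟨by rw [e1]; positivity, (le_abs_self _).trans a1, b1, b2, Real.le_sqrt_of_sq_le b1, ?_⟩
    rw [Real.sqrt_le_left (by positivity)]
    have e6 : (4 * k) ^ 2 = 16 * k ^ 2 := by ring
    rw [e6]
    linarith
  have hgen1 : ∀ nu : ℂ, nu.re = lam.re → nu.im = -k ^ 2 →
      JCx.Phi l (P.mu nu) (19 / 5) ≠ 0 ∧ k / C0 ≤ (hh l (P.mu nu) (19 / 5)).im ∧
      ‖hh l (P.mu nu) (19 / 5)‖ ≤ C0 * k ∧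
      ‖hh l (P.mu nu) (19 / 5)‖ ≤ 1 + Ce + C0 * sz l (P.mu nu) := by
    intro nu h1 h2
    have h2' : |nu.im| = k ^ 2 := by rw [h2, abs_neg, abs_of_pos hkk]
    obtain ⟨a1, a2, a3, a4, a5, a6⟩ := hsz nu h1 h2'
    obtain ⟨g1, g2, g3⟩ := hpr l (P.mu nu) a1 a2 (hMp.trans a3) (by
      unfold reV
      rw [mu_im, h2, ← hLam]
      norm_num
      linarith)
    have t2 : Cp * Real.sqrt (sz l (P.mu nu)) ≤ C0 * k := by
      calc Cp * Real.sqrt (sz l (P.mu nu)) ≤ Cp * (4 * k) := by gcongr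
        _ = 4 * Cp * k := by ring
        _ ≤ C0 * k := by gcongr
    refine ⟨g1, le_trans ?_ g2, g3.trans t2, ?_⟩
    · exact div_le_div₀ (Real.sqrt_nonneg _) a5 (by linarith) (by linarith)
    · have t3 : k ≤ sz l (P.mu nu) := by
        linarith
      have t4 : C0 * k ≤ C0 * sz l (P.mu nu) := by gcongr
      linarith
  have hgen2 : ∀ nu : ℂ, nu.re = lam.re → nu.im = k ^ 2 →
      JCx.Phi l (P.mu nu) (19 / 5) ≠ 0 ∧ (hh l (P.mu nu) (19 / 5)).re ≤ -k / C0 ∧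
      ‖hh l (P.mu nu) (19 / 5)‖ ≤ C0 * k ∧
      ‖hh l (P.mu nu) (19 / 5)‖ ^ 2 ≤ Lam / (19 / 5) ^ 2 + k ^ 2 + C0 ∧
      |(hh l (P.mu nu) (19 / 5)).im| ≤ C0 / k ∧
      ‖hh l (P.mu nu) (19 / 5)‖ ≤ 1 + Ce + C0 * sz l (P.mu nu) := by
    intro nu h1 h2
    have h2' : |nu.im| = k ^ 2 := by rw [h2, abs_of_pos hkk]
    obtain ⟨a1, a2, a3, a4, a5, a6⟩ := hsz nu h1 h2'
    obtain ⟨g1, g2, g3, g4⟩ := hev l (P.mu nu) a1 a2 (hMe.trans a3) (by
      unfold reV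
      rw [mu_im, h2, ← hLam]
      norm_num
      linarith)
    have hrv : reV l (P.mu nu) (19 / 5) ≤ Lam / (19 / 5) ^ 2 + k ^ 2 + 3 := by
      unfold reV
      rw [mu_im, h2, ← hLam]
      norm_num
      linarith
    have hsq : ‖hh l (P.mu nu) (19 / 5)‖ ^ 2 ≤ Lam / (19 / 5) ^ 2 + k ^ 2 + C0 := by linarith
    have hle : ‖hh l (P.mu nu) (19 / 5)‖ ≤ C0 * k := by
      refine abs_le_of_sq_le_sq' ?_ (by positivity) |>.2
      refine hsq.trans ?_
      have : Lam / (19 / 5) ^ 2 ≤ k ^ 2 := by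
        rw [div_le_iff₀ (by norm_num)]
        linarith
      have e5 : (C0 * k) ^ 2 = C0 ^ 2 * k ^ 2 := by ring
      rw [e5]
      have e6 : 3 * k ^ 2 ≤ C0 ^ 2 * k ^ 2 := by gcongr
      linarith
    refine ⟨g1, g2.trans ?_, hle, hsq, g4.trans ?_, ?_⟩
    · rw [neg_div, neg_div, neg_le_neg_iff]
      exact div_le_div₀ (Real.sqrt_nonneg _) a5 (by linarith) (by linarith)
    · exact div_le_div₀ (by linarith) (by linarith) hk a5
    · have t1 := norm_le_one_add_sq ‖hh l (P.mu nu) (19 / 5)‖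
      have t2 := reV_le_sz l (P.mu nu) (r := 19 / 5) (by norm_num)
      have t3 : sz l (P.mu nu) ≤ C0 * sz l (P.mu nu) := by
        have : 0 ≤ sz l (P.mu nu) := by linarith
        exact le_mul_of_one_le_left this (by linarith)
      linarith
  obtain ⟨P1, m, hco⟩ := hcoef
  obtain ⟨c1, c2', x1, x2, x3, x4⟩ := hext
  have h20 : (1 : WithTop ℕ∞) ≤ (N0 : ℕ) := by
    have : (1 : ℕ) ≤ N0 := by unfold N0; norm_num
    exact_mod_cast this
  have dF : Differentiable ℝ F := (hE.mode.cF.of_le h20).differentiable (by norm_num)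
  have dG : Differentiable ℝ G := (hE.mode.cG.of_le h20).differentiable (by norm_num)
  have hsol := hS n P hq lam l H F G hE (19 / 5) (by norm_num)
  have hLC : Lam ≤ C0 * k ^ 2 := by
    have : 20 * k ^ 2 ≤ C0 * k ^ 2 := by gcongr
    linarith
  have habs : |lam.re| ≤ C0 := by
    rw [abs_of_nonneg hre0]
    linarith
  have hdl0 : ∀ {h1 h2 : ℝ}, 0 ≤ h1 → 0 ≤ h2 → 8 + h1 + h2 ≤ Cb * X ^ 2 →
      8 * er ^ 2 * (8 + h1 + h2) ^ 2 * k ^ 2 ≤ c3 := by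
    intro h1 h2 q1 q2 q3
    exact (dl_bd hX her0 her q1 q2 q3 (by rw [← hk2]; exact hXk) hkk.le hs).2
  have hCsz : 0 ≤ C0 * (sz l (P.mu lam) + sz l (P.mu (conj lam))) := by
    have z1 := sz_ge l (P.mu lam)
    have z2 := sz_ge l (P.mu (conj lam))
    rw [← hLam] at z1 z2
    have z3 := abs_nonneg (P.mu lam).im
    have z4 := abs_nonneg (P.mu (conj lam)).im
    exact mul_nonneg (by linarith) (by linarith)
  rcases le_or_gt lam.im 0 with him | him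
  · have hi : lam.im = -k ^ 2 := by rw [← hk2, abs_of_nonpos him]; ring
    obtain ⟨b1, b2, b3, b4⟩ := hgen1 lam rfl hi
    obtain ⟨d1, d2, d3, d4, d5, d6⟩ := hgen2 (conj lam) (by simp) (by simp [hi])
    have hbd := hB n P hq l lam F G dF dG r1 (19 / 5) er c1 c2' hr1 hr1' (by norm_num) (by norm_num)
      her0 hlow b1 d1 x1 x2 x3 x4
    exact hI _ _ _ P1 _ m c3 n (19 / 5) Lam (1 / n) k lam _ _ _ _ _ _ _ (coef_mono hco hC1) hsol hbd habs
      hM3 hi hLC le_rfl b2 b3 d2 d3 d4 d5 (hdl0 (norm_nonneg _) (norm_nonneg _) (by linarith))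
  · have hi : (conj lam).im = -k ^ 2 := by
      rw [Complex.conj_im, ← hk2, abs_of_pos him]
    have hi' : lam.im = k ^ 2 := by rw [← hk2, abs_of_pos him]
    obtain ⟨b1, b2, b3, b4⟩ := hgen1 (conj lam) (by simp) hi
    obtain ⟨d1, d2, d3, d4, d5, d6⟩ := hgen2 lam rfl hi'
    have hbd := hB n P hq l lam F G dF dG r1 (19 / 5) er c1 c2' hr1 hr1' (by norm_num) (by norm_num)
      her0 hlow d1 b1 x1 x2 x3 x4
    have hfin := hI _ _ _ P1 _ m c3 n (19 / 5) Lam (1 / n) k (conj lam) _ _ _ _ _ _ _ (coef_mono hco hC1)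
      (sol_swap hsol) (bdry_swap hbd) (by simpa using habs)
      hM3 hi hLC le_rfl b2 b3 d2 d3 d4 d5 (hdl0 (norm_nonneg _) (norm_nonneg _) (by linarith))
    intro r hr
    obtain ⟨f1, f2⟩ := hfin r hr
    simp only [neg_eq_zero, map_eq_zero] at f1 f2
    exact ⟨f1, f2⟩

/-- polynomial bound of the size parameters -/
theorem szX {l : ℕ} {lam : ℂ} {A C0 Ce X : ℝ} (hom : |P.om| ≤ 1) (hX : 1 ≤ X) (hl : (l : ℝ) ≤ X)
    (hlam : ‖lam‖ ≤ X) (hC0 : 1 ≤ C0) (hCe : Ce ≤ C0) (hA : 0 ≤ A) (hn : 1 ≤ n)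
    (hre : |lam.re| ≤ A) :
    8 + 2 * (2 + Ce + C0 * (sz l (P.mu lam) + sz l (P.mu (conj lam)))) ≤
      C0 * (14 + 4 * (42 + A)) * X ^ 2 := by
  have hn1 : (1 : ℝ) / n ≤ 1 := by
    rw [div_le_one (by positivity)]
    exact_mod_cast hn
  have hn0 : (0 : ℝ) ≤ 1 / n := by positivity
  have hX2 : X ≤ X ^ 2 := by nlinarith
  have hX1 : 1 ≤ X ^ 2 := hX.trans hX2
  have him : |lam.im| ≤ X := (Complex.abs_im_le_norm lam).trans hlam
  have hL : (l : ℝ) * (l + 10) ≤ X ^ 2 + 10 * X ^ 2 := by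
    have h0 : (0 : ℝ) ≤ l := by positivity
    nlinarith
  have key : ∀ nu : ℂ, nu.re = lam.re → |nu.im| = |lam.im| → sz l (P.mu nu) ≤ (42 + A) * X ^ 2 := by
    intro nu h1 h2
    have e1 : (P.mu nu).re = lam.re + 1 / n := by rw [mu_re, h1]
    have e2 : (P.mu nu).im = nu.im - P.om := mu_im P nu
    have hszhi := sz_le l (P.mu nu)
    have a1 : |(P.mu nu).re| ≤ A + 1 := by
      rw [e1]
      refine (abs_add_le _ _).trans (add_le_add hre ?_)
      rw [abs_of_nonneg hn0]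
      exact hn1
    have a2 : |(P.mu nu).im| ≤ X + 1 := by
      rw [e2]
      exact (abs_sub _ _).trans (by rw [h2]; linarith)
    have a3 : A ≤ A * X ^ 2 := le_mul_of_one_le_right hA hX1
    have e3 : (42 + A) * X ^ 2 = 42 * X ^ 2 + A * X ^ 2 := by ring
    rw [e3]
    linarith
  have k1 := key lam rfl rfl
  have k2 := key (conj lam) (by simp) (by simp)
  have k3 : C0 * (sz l (P.mu lam) + sz l (P.mu (conj lam))) ≤ C0 * (2 * ((42 + A) * X ^ 2)) := by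
    gcongr
    linarith
  have k4 : C0 ≤ C0 * X ^ 2 := le_mul_of_one_le_right (by linarith) hX1
  have e4 : C0 * (14 + 4 * (42 + A)) * X ^ 2 = 14 * (C0 * X ^ 2) + 2 * (C0 * (2 * ((42 + A) * X ^ 2))) := by
    ring
  rw [e4]
  linarith

set_option maxHeartbeats 1000000 in
/-- **Regime (R3)** -/
theorem r3_of (h2 : CEx.CaseII) (h3 : CEx.CaseIII) (hS : SolStmt) (hB : BdryStmt) (hev : DtnEv)
    (hpr : DtnPr)
    (hE : ∀ (om0 R : ℝ) (U : ℝ → ℂ), LimitProfile om0 R U → ∀ B : BData om0 R U,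
      B.EXT0 JCx.Phi JCx.Phi1) : R3Stmt := by
  intro om0 R U hU B C' K
  obtain ⟨C1, hC11, hcoef⟩ := CV.coef hU B
  obtain ⟨KK, cE, hcE, hext⟩ := hE om0 R U hU B (67 / 20) (by linarith [hU.R_hi])
  set A : ℝ := |C'| + 1 with hA
  have hA0 : 0 ≤ |C'| := abs_nonneg _
  obtain ⟨Ce1, Me1, hCe1, hMe1, hev1⟩ := hev (17 / 5) (1 / 500) A (by norm_num) (by norm_num)
  obtain ⟨Ce2, Me2, hCe2, hMe2, hev2⟩ := hev (19 / 5) (1 / 500) A (by norm_num) (by norm_num)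
  obtain ⟨Cp, Mp, hCp, hMp, hpr2⟩ := hpr (19 / 5) (1 / 500) A (by norm_num) (by norm_num)
  set C0 : ℝ := C1 + |C'| + 20 + Ce1 + Ce2 + 4 * Cp with hC0
  have hC01 : 1 ≤ C0 := by linarith
  obtain ⟨M2, c2, hM2, hc2, H2⟩ := h2 C0 (1 / 10) hC01 (by norm_num)
  obtain ⟨M3, c3, hM3, hc3, H3⟩ := h3 C0 hC01
  have hI2 : Inst2 C0 (1 / 10) M2 c2 := H2
  have hI3 : Inst3 C0 M3 c3 := H3
  set T : ℝ := M2 + M3 + Me1 + Me2 + Mp + C0 + 1000 * (A + 10) with hT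
  have hT1 : 1 ≤ T := by linarith
  have hTT : T ≤ T ^ 2 := by
    rw [sq]
    exact le_mul_of_one_le_right (by linarith) hT1
  set Cb : ℝ := C0 * (14 + 4 * (42 + A)) with hCb
  refine ⟨|C'| + 14 * T ^ 2, ?_⟩
  have hc : 0 < min c2 c3 := lt_min hc2 hc3
  have hsm := small_ev (c := 2 * cE) (a := 8 * Cb ^ 2 * 2 ^ (2 * KK + 5)) (e := min c2 c3) (by positivity)
    (K * (2 * KK + 5)) B.nn_tendsto hc
  have hlim := B.om_tendsto.eventually (Icc_mem_nhds (a := 0) (b := 1) (by linarith [hU.om_lo])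
    (by linarith [hU.om_hi]))
  filter_upwards [hcoef c3 hc3, hcoef 1 one_pos, hext, B.q_lower, hlim, hsm,
    B.nn_tendsto.eventually_ge_atTop 1] with j hj1 hj2 hj3 hj4 hj5 hj6 hj7
  intro lam l H F G hEig hre0 hNZ hre hlam hl
  by_contra hcon
  push Not at hcon
  have hom : |(B.P j).om| ≤ 1 := by
    rw [abs_of_nonneg hj5.1]
    exact hj5.2
  have hnr : (1 : ℝ) ≤ (B.nn j : ℝ) := by exact_mod_cast hj7
  set N : ℝ := (B.nn j : ℝ) with hN
  set X : ℝ := 2 * N ^ K with hX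
  have hNK : 1 ≤ N ^ K := one_le_pow₀ hnr
  have hX1 : 1 ≤ X := by linarith
  have hlX : (l : ℝ) ≤ X := by linarith
  have hlamX : ‖lam‖ ≤ X := by linarith
  have hlamX' : 1 + ‖lam‖ ≤ X := by linarith
  have hreA : |lam.re| ≤ A := by
    rw [abs_of_nonneg hre0, hA]
    linarith [le_abs_self C']
  have hsz := szX (B.P j) (C0 := C0) (Ce := Ce2) hom hX1 hlX hlamX hC01 (by linarith) (by linarith) hj7 hreA
  have hsz1 := szX (B.P j) (C0 := C0) (Ce := Ce1) hom hX1 hlX hlamX hC01 (by linarith) (by linarith) hj7 hreA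
  set er : ℝ := Real.exp (-cE * N) * (1 + ‖lam‖) ^ KK with her
  have her0 : 0 ≤ er := by positivity
  have her1 : er ≤ Real.exp (-cE * N) * X ^ KK := by
    rw [her]
    gcongr
  have hs : 8 * (Real.exp (-cE * N) * X ^ KK) ^ 2 * (Cb * X ^ 2) ^ 2 * X ≤ min c2 c3 := by
    refine le_trans (le_of_eq ?_) hj6
    have e1 : Real.exp (-(2 * cE) * N) = Real.exp (-cE * N) ^ 2 := by
      rw [← Real.exp_nat_mul]
      congr 1
      push_cast
      ring
    rw [e1, hX]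
    rw [pow_mul N K (2 * KK + 5)]
    ring
  have hsc2 := hs.trans (min_le_left c2 c3)
  have hsc3 := hs.trans (min_le_right c2 c3)
  have hq := B.q_ne j
  have hPair : (B.P j).Pair l H lam 0 (fun _ => 0) F G :=
    { sharm := hEig.mode.harm
      nrm := hEig.mode.norm
      cF := hEig.mode.cF
      cG := hEig.mode.cG
      pF := hEig.mode.pF
      pG := hEig.mode.pG
      xF := hEig.mode.xF
      xG := hEig.mode.xG
      eqF := fun r hr => by rw [hEig.eq1 r hr]; ring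
      eqG := fun r hr => by rw [hEig.eq2 r hr]; simp }
  obtain ⟨c1, c2', hx⟩ := hj3 l H lam F G hre0 hPair
  have hextAt : ∀ rb ∈ Icc (67 / 20 : ℝ) 8, ExtAt (B.P j) l lam F G (67 / 20) er rb := by
    intro rb hrb
    exact ⟨c1, c2', hx rb hrb⟩
  set Lam : ℝ := (l : ℝ) * (l + 10) with hLam
  have hlLam : (l : ℝ) ≤ Lam := by
    have h0 : (0 : ℝ) ≤ l := by positivity
    have h1 : (l : ℝ) * 10 ≤ (l : ℝ) * (l + 10) := by gcongr; linarith
    rw [hLam]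
    linarith
  have hLam0 : 0 ≤ Lam := by positivity
  have hlamle : ‖lam‖ ≤ |C'| + |lam.im| := by
    refine (Complex.norm_le_abs_re_add_abs_im lam).trans ?_
    have : |lam.re| ≤ |C'| := by
      rw [abs_of_nonneg hre0]
      exact hre.trans (le_abs_self _)
    linarith
  have him0 := abs_nonneg lam.im
  have hCsz : ∀ nu : ℂ, 0 ≤ sz l ((B.P j).mu nu) := by
    intro nu
    have z1 := sz_ge l ((B.P j).mu nu)
    have z3 := abs_nonneg ((B.P j).mu nu).im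
    rw [← hLam] at z1
    linarith
  obtain ⟨r0, hr0, hFG⟩ := hNZ
  rcases le_or_gt (|lam.im| * (17 / 5) ^ 2) ((1 - 1 / 10) * Lam) with hcase | hcase
  · have hbigL : T ^ 2 ≤ Lam := by
      norm_num at hcase
      linarith
    have hTL : T ≤ Lam := hTT.trans hbigL
    have hfin := step2 (B.P j) (r1 := 67 / 20) (Cb := Cb) (X := X) (cE := cE) (nr := N) (KK := KK) (er := er)
      (C1 := C1) (e := 1) hI2 hS hB hev1 hCe1 (by linarith) (by linarith) (by linarith) hA hq hom hj7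
      ⟨_, _, hj2 (17 / 5) (by constructor <;> norm_num)⟩ (hj4 (17 / 5) (by constructor <;> norm_num))
      hEig hre0 hre (by norm_num) (by norm_num) (hextAt (17 / 5) (by constructor <;> norm_num)) hcase
      (by linarith) (by linarith) (by linarith) hX1 her0 her1 (by
        refine le_trans ?_ hsz1
        have w1 := hCsz lam
        have w2 := hCsz (conj lam)
        have w3 : sz l ((B.P j).mu lam) + sz l ((B.P j).mu (conj lam)) ≤
          C0 * (sz l ((B.P j).mu lam) + sz l ((B.P j).mu (conj lam))) :=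
          le_mul_of_one_le_left (by linarith) hC01
        linarith) hsc2
    have hzero := uniq (B.nn j) (B.P j) lam l H F G hEig (17 / 5) (by norm_num)
      (fun r hr => FG_zero (B.P j) (hq r) (hfin r hr).1 (hfin r hr).2) r0 hr0
    rcases hFG with h | h
    · exact h hzero.1
    · exact h hzero.2
  · have hbigk : T ^ 2 ≤ |lam.im| := by
      norm_num at hcase
      linarith
    set k : ℝ := Real.sqrt |lam.im| with hk
    have hk2 : |lam.im| = k ^ 2 := (Real.sq_sqrt him0).symm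
    have hTk : T ≤ k := Real.le_sqrt_of_sq_le hbigk
    have hTk2 : T ≤ k ^ 2 := by rw [← hk2]; exact hTT.trans hbigk
    have hfin := step3 (B.P j) (r1 := 67 / 20) (Cb := Cb) (X := X) (cE := cE) (nr := N) (KK := KK) (er := er)
      (C1 := C1) (k := k) hI3 hS hB hev2 hpr2 hCe2 (by linarith) hCp (by linarith) (by linarith)
      (by linarith) (by linarith) hA hq hom hj7
      ⟨_, _, hj1 (19 / 5) (by constructor <;> norm_num)⟩ (hj4 (19 / 5) (by constructor <;> norm_num))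
      hEig hre0 hre (by norm_num) (by norm_num) (hextAt (19 / 5) (by constructor <;> norm_num))
      (by linarith) hk2 hcase.le (by linarith) (by linarith) (by linarith) (by linarith) (by linarith)
      hX1 ((Complex.abs_im_le_norm lam).trans hlamX) her0 her1 hsz hsc3
    have hzero := uniq (B.nn j) (B.P j) lam l H F G hEig (19 / 5) (by norm_num)
      (fun r hr => FG_zero (B.P j) (hq r) (hfin r hr).1 (hfin r hr).2) r0 hr0
    rcases hFG with h | h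
    · exact h hzero.1
    · exact h hzero.2

end Crest.Agent.R086.R3
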