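import Crest.Agent.R086.R3Defs

/-!
Row 86, Part C, regime (R3), node BDRY (helper35): EXT0 errors at `rb` imply the boundary relations.
-/

set_option autoImplicit false

open MeasureTheory Complex Set Filter Topology

namespace Crest.Agent.R086.R3Bdry

open CCore CEx R3

local notation "conj" => starRingEnd ℂ

theorem algF {q q1 F F1 c ph ph1 : ℂ} {rb : ℝ} (hq : q ≠ 0) (hph : ph ≠ 0) (hrb : rb ≠ 0) :
    ((F1 - F / q * q1) / q) - ((((11 / (2 * rb) : ℝ) : ℂ) + I * ((rb / 4 : ℝ) : ℂ) + ph1 / ph)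
      - (((11 / rb + 2 * (q1 / q).re) / 2 : ℝ) : ℂ)
      - I * (((2 * (q1 / q).im + rb / 2) / 2 : ℝ) : ℂ)) * (F / q)
      = ((F1 - c * ph1) - (ph1 / ph) * (F - c * ph)) / q := by
  set x : ℝ := (q1 / q).re
  set y : ℝ := (q1 / q).im
  have hz : q1 / q = x + y * I := (Complex.re_add_im (q1 / q)).symm
  have h1 : q1 = (x + y * I) * q := by rw [← hz]; field_simp
  have hrb' : (rb : ℂ) ≠ 0 := by exact_mod_cast hrb
  rw [h1]
  push_cast
  field_simp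
  ring

theorem algG {q q1 F F1 c ph ph1 : ℂ} {rb : ℝ} (hq : q ≠ 0) (hph : ph ≠ 0) (hrb : rb ≠ 0) :
    ((F1 - F / conj q * conj q1) / conj q) -
      (conj ((((11 / (2 * rb) : ℝ) : ℂ) + I * ((rb / 4 : ℝ) : ℂ) + ph1 / ph))
      - (((11 / rb + 2 * (q1 / q).re) / 2 : ℝ) : ℂ)
      + I * (((2 * (q1 / q).im + rb / 2) / 2 : ℝ) : ℂ)) * (F / conj q)
      = ((F1 - c * conj ph1) - (conj (ph1 / ph)) * (F - c * conj ph)) / conj q := by
  have h := algF (q := q) (q1 := q1) (F := conj F) (F1 := conj F1) (c := conj c) (ph := ph)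
    (ph1 := ph1) (rb := rb) hq hph hrb
  have h2 := congrArg (starRingEnd ℂ) h
  simp only [map_sub, map_mul, map_div₀, map_add, Complex.conj_conj, Complex.conj_I,
    Complex.conj_ofReal] at h2 ⊢
  rw [← h2]
  ring

theorem normBound {q F F1 c ph ph1 : ℂ} {er N hn : ℝ} (hq : 1 / 2 ≤ ‖q‖) (her : 0 ≤ er)
    (hN : 0 ≤ N) (e1 : ‖F - c * ph‖ ≤ er * N) (e2 : ‖F1 - c * ph1‖ ≤ er * N)
    (hh : ‖ph1 / ph‖ ≤ hn - 1) :
    ‖((F1 - c * ph1) - (ph1 / ph) * (F - c * ph)) / q‖ ^ 2 ≤ 4 * er ^ 2 * hn ^ 2 * N ^ 2 := by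
  have h1 : ‖(F1 - c * ph1) - (ph1 / ph) * (F - c * ph)‖ ≤ hn * (er * N) := by
    refine (norm_sub_le _ _).trans ?_
    rw [norm_mul]
    have h0 : 0 ≤ er * N := by positivity
    have := mul_le_mul hh e1 (norm_nonneg _) (le_trans (norm_nonneg _) hh)
    nlinarith
  have hq0 : 0 < ‖q‖ := by linarith
  have h2 : ‖((F1 - c * ph1) - (ph1 / ph) * (F - c * ph)) / q‖ ≤ 2 * (hn * (er * N)) := by
    rw [norm_div, div_le_iff₀ hq0]
    have h3 : 0 ≤ hn * (er * N) := (norm_nonneg _).trans h1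
    nlinarith
  calc ‖((F1 - c * ph1) - (ph1 / ph) * (F - c * ph)) / q‖ ^ 2 ≤ (2 * (hn * (er * N))) ^ 2 :=
        pow_le_pow_left₀ (norm_nonneg _) h2 2
    _ = 4 * er ^ 2 * hn ^ 2 * N ^ 2 := by ring

theorem cont_q {n : ℕ} (P : Profile n) : Continuous P.q :=
  P.smooth.continuous.comp (continuous_id.smul continuous_const)

/-- `∫_0^{rb} r¹¹(|F|²+|G|²) = 2 (‖S‖² + ‖D‖²)` -/
theorem L2_eq {n : ℕ} (P : Profile n) (hq : ∀ r, P.q r ≠ 0) {F G : ℝ → ℂ} (hF : Continuous F)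
    (hG : Continuous G) (rb : ℝ) :
    ∫ r in (0 : ℝ)..rb, r ^ 11 * (‖F r‖ ^ 2 + ‖G r‖ ^ 2) =
      2 * (L2 (w P.q) (Sf P F G) rb + L2 (w P.q) (Df P F G) rb) := by
  have hqc := cont_q P
  have hqb : Continuous fun r => conj (P.q r) := Complex.continuous_conj.comp hqc
  have hqb0 : ∀ r, conj (P.q r) ≠ 0 := fun r => by simpa using hq r
  have hS : Continuous (Sf P F G) :=
    ((hF.div hqc hq).add (hG.div hqb hqb0)).div_const 2
  have hD : Continuous (Df P F G) :=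
    ((hF.div hqc hq).sub (hG.div hqb hqb0)).div_const 2
  have hw : Continuous (w P.q) := by
    unfold CCore.w
    exact (hqc.norm.pow 2).mul (continuous_id.pow 11)
  unfold L2
  have i1 : IntervalIntegrable (fun r => w P.q r * ‖Sf P F G r‖ ^ 2) volume 0 rb :=
    (hw.mul (hS.norm.pow 2)).intervalIntegrable _ _
  have i2 : IntervalIntegrable (fun r => w P.q r * ‖Df P F G r‖ ^ 2) volume 0 rb :=
    (hw.mul (hD.norm.pow 2)).intervalIntegrable _ _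
  rw [← intervalIntegral.integral_add i1 i2, ← intervalIntegral.integral_const_mul]
  refine intervalIntegral.integral_congr fun r _ => ?_
  simp only [CCore.w, Sf, Df]
  have h1 : ‖(F r / P.q r + G r / conj (P.q r)) / 2‖ ^ 2 + ‖(F r / P.q r - G r / conj (P.q r)) / 2‖ ^ 2
      = (‖F r / P.q r‖ ^ 2 + ‖G r / conj (P.q r)‖ ^ 2) / 2 := by
    have hp := parallelogram_law_with_norm ℝ (F r / P.q r) (G r / conj (P.q r))
    rw [norm_div, norm_div, div_pow, div_pow]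
    have h2 : ‖(2 : ℂ)‖ = 2 := by simp
    rw [h2]
    nlinarith
  have hn : ‖P.q r‖ ≠ 0 := norm_ne_zero_iff.2 (hq r)
  have h2 : ‖F r / P.q r‖ ^ 2 = ‖F r‖ ^ 2 / ‖P.q r‖ ^ 2 := by rw [norm_div, div_pow]
  have h3 : ‖G r / conj (P.q r)‖ ^ 2 = ‖G r‖ ^ 2 / ‖P.q r‖ ^ 2 := by
    rw [norm_div, div_pow, RCLike.norm_conj]
  have h4 : ‖P.q r‖ ^ 2 * r ^ 11 * ‖(F r / P.q r + G r / conj (P.q r)) / 2‖ ^ 2 +
      ‖P.q r‖ ^ 2 * r ^ 11 * ‖(F r / P.q r - G r / conj (P.q r)) / 2‖ ^ 2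
      = ‖P.q r‖ ^ 2 * r ^ 11 * ((‖F r / P.q r‖ ^ 2 + ‖G r / conj (P.q r)‖ ^ 2) / 2) := by
    rw [← h1]; ring
  rw [h4, h2, h3]
  field_simp

theorem NB_sq {n : ℕ} (P : Profile n) (hq : ∀ r, P.q r ≠ 0) {F G : ℝ → ℂ} (hF : Continuous F)
    (hG : Continuous G) {r1 rb : ℝ} (h1 : 0 < r1) (h2 : r1 ≤ rb) :
    NB r1 F G ^ 2 ≤ 2 * (L2 (w P.q) (Sf P F G) rb + L2 (w P.q) (Df P F G) rb) := by
  have hc : Continuous fun r : ℝ => r ^ 11 * (‖F r‖ ^ 2 + ‖G r‖ ^ 2) := by fun_prop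
  have hnn : ∀ r : ℝ, 0 ≤ r → 0 ≤ r ^ 11 * (‖F r‖ ^ 2 + ‖G r‖ ^ 2) := fun r hr => by positivity
  have h3 : 0 ≤ ∫ r in (0 : ℝ)..r1, r ^ 11 * (‖F r‖ ^ 2 + ‖G r‖ ^ 2) :=
    intervalIntegral.integral_nonneg h1.le fun r hr => hnn r hr.1
  rw [NB, Real.sq_sqrt h3, ← L2_eq P hq hF hG rb]
  have h4 : 0 ≤ ∫ r in r1..rb, r ^ 11 * (‖F r‖ ^ 2 + ‖G r‖ ^ 2) :=
    intervalIntegral.integral_nonneg h2 fun r hr => hnn r (h1.le.trans hr.1)
  have h5 := intervalIntegral.integral_add_adjacent_intervals (μ := volume) (hc.intervalIntegrable 0 r1)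
    (hc.intervalIntegrable r1 rb)
  linarith

/-- **NODE BDRY** -/
theorem bdryStmt : BdryStmt := by
  intro n P hq l lam F G hF hG r1 rb er c1 c2 hr1 hr1b hrb1 hrb4 her hqb hP1 hP2 e1 e2 e3 e4
  have hrb0 : rb ≠ 0 := by positivity
  have hFc := hF.continuous
  have hGc := hG.continuous
  set p1 := JCx.Phi l (P.mu lam) rb
  set p11 := JCx.Phi1 l (P.mu lam) rb
  set p2 := JCx.Phi l (P.mu (conj lam)) rb
  set p21 := JCx.Phi1 l (P.mu (conj lam)) rb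
  set h1 := hh l (P.mu lam) rb with hh1
  set h2 := hh l (P.mu (conj lam)) rb with hh2
  set N := NB r1 F G
  have hN : 0 ≤ N := Real.sqrt_nonneg _
  have hNB := NB_sq P hq hFc hGc hr1 hr1b
  set Lt := L2 (w P.q) (Sf P F G) rb + L2 (w P.q) (Df P F G) rb
  have hLt : 0 ≤ Lt := by nlinarith [sq_nonneg N]
  have hsmall : ‖((11 / (2 * rb) : ℝ) : ℂ) + I * ((rb / 4 : ℝ) : ℂ)‖ ≤ 13 / 2 := by
    refine (norm_add_le _ _).trans ?_
    rw [norm_mul, Complex.norm_I, one_mul, Complex.norm_real, Complex.norm_real,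
      Real.norm_of_nonneg (by positivity), Real.norm_of_nonneg (by positivity)]
    have : 11 / (2 * rb) ≤ 11 / 2 := by
      rw [div_le_div_iff₀ (by positivity) (by norm_num)]; nlinarith
    linarith
  have hb1 : ‖p11 / p1‖ ≤ (8 + ‖h1‖ + ‖h2‖) - 1 := by
    have : p11 / p1 = h1 - (((11 / (2 * rb) : ℝ) : ℂ) + I * ((rb / 4 : ℝ) : ℂ)) := by
      rw [hh1, hh]; ring
    rw [this]
    refine (norm_sub_le _ _).trans ?_
    linarith [norm_nonneg h2]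
  have hb2 : ‖p21 / p2‖ ≤ (8 + ‖h1‖ + ‖h2‖) - 1 := by
    have : p21 / p2 = h2 - (((11 / (2 * rb) : ℝ) : ℂ) + I * ((rb / 4 : ℝ) : ℂ)) := by
      rw [hh2, hh]; ring
    rw [this]
    refine (norm_sub_le _ _).trans ?_
    linarith [norm_nonneg h1]
  have hb2' : ‖conj p21 / conj p2‖ ≤ (8 + ‖h1‖ + ‖h2‖) - 1 := by
    rw [← map_div₀, RCLike.norm_conj]; exact hb2
  have hfin : ∀ z : ℝ, z ≤ 4 * er ^ 2 * (8 + ‖h1‖ + ‖h2‖) ^ 2 * N ^ 2 →
      z ≤ 8 * er ^ 2 * (8 + ‖h1‖ + ‖h2‖) ^ 2 * Lt := by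
    intro z hz
    refine hz.trans ?_
    have h0 : 0 ≤ 4 * er ^ 2 * (8 + ‖h1‖ + ‖h2‖) ^ 2 := by positivity
    have := mul_le_mul_of_nonneg_left hNB h0
    linarith
  refine ⟨by positivity, ?_, ?_⟩
  · have ea : (S1f P F G rb + D1f P F G rb) = (deriv F rb - F rb / P.q rb * deriv P.q rb) / P.q rb := by
      rw [S1f, D1f, quo1]; ring
    have eb : (Sf P F G rb + Df P F G rb) = F rb / P.q rb := by
      rw [Sf, Df]; ring
    rw [ea, eb]
    have h3 := algF (q := P.q rb) (q1 := deriv P.q rb) (F := F rb) (F1 := deriv F rb) (c := c1)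
      (ph := p1) (ph1 := p11) (rb := rb) (hq rb) hP1 hrb0
    have h4 := normBound (q := P.q rb) (F := F rb) (F1 := deriv F rb) (c := c1) (ph := p1)
      (ph1 := p11) hqb her hN e1 e2 hb1
    refine hfin _ ?_
    rw [← h3] at h4
    exact h4
  · have ea : (S1f P F G rb - D1f P F G rb) =
        (deriv G rb - G rb / conj (P.q rb) * conj (deriv P.q rb)) / conj (P.q rb) := by
      rw [S1f, D1f, quo1c]; ring
    have eb : (Sf P F G rb - Df P F G rb) = G rb / conj (P.q rb) := by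
      rw [Sf, Df]; ring
    rw [ea, eb]
    have h3 := algG (q := P.q rb) (q1 := deriv P.q rb) (F := G rb) (F1 := deriv G rb) (c := c2)
      (ph := p2) (ph1 := p21) (rb := rb) (hq rb) hP2 hrb0
    have hqb' : 1 / 2 ≤ ‖conj (P.q rb)‖ := by rw [RCLike.norm_conj]; exact hqb
    have h4 := normBound (q := conj (P.q rb)) (F := G rb) (F1 := deriv G rb) (c := c2)
      (ph := conj p2) (ph1 := conj p21) hqb' her hN e3 e4 hb2'
    refine hfin _ ?_
    rw [map_div₀] at h3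
    rw [← h3] at h4
    exact h4

end Crest.Agent.R086.R3Bdry
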