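import Crest.Agent.R086.R3Defs
import Crest.Agent.R086.Ext8

/-!
Row 86, Part C, R3: the nodes `DtnEv` and `DtnPr` (helper766), from `Ext.evan'`, `Ext.prop'`.
-/

set_option autoImplicit false

open MeasureTheory Complex Set Filter Topology

namespace Crest.Agent.R086.R3

theorem nu_eq_sz (l : ℕ) : Ext.nu l = (l : ℝ) * (l + 10) + 99 / 4 := by
  unfold Ext.nu
  ring

theorem hh_eq_ext (l : ℕ) (m : ℂ) (r : ℝ) : hh l m r = Ext.hh l m r := by
  have e1 : JCx.Phi l m r = A.fo l m r := rfl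
  have e2 : JCx.Phi1 l m r = A.fo1 l m r := by
    unfold JCx.Phi1 A.fo1 A.fo JCx.zr
    ring
  unfold hh Ext.hh
  rw [e1, e2]
  push_cast
  ring

theorem reV_eq (l : ℕ) (m : ℂ) (r : ℝ) : reV l m r = (Ext.Vf l m r).re := by
  rw [Ext.Vf_re, nu_eq_sz]
  rfl

theorem sz_bounds {l : ℕ} {m : ℂ} {G : ℝ} (hG : |3 - m.re| ≤ G) :
    Ext.nu l + |m.im| ≤ sz l m ∧ sz l m ≤ Ext.nu l + |m.im| + G := by
  have n1 : ‖3 - m‖ ≤ |3 - m.re| + |m.im| := by
    have := Complex.norm_le_abs_re_add_abs_im (3 - m)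
    have e1 : (3 - m).re = 3 - m.re := by simp
    have e2 : (3 - m).im = -m.im := by simp
    rwa [e1, e2, abs_neg] at this
  have n2 : |m.im| ≤ ‖3 - m‖ := by
    have := Complex.abs_im_le_norm (3 - m)
    have e2 : (3 - m).im = -m.im := by simp
    rwa [e2, abs_neg] at this
  unfold sz
  rw [← nu_eq_sz]
  constructor <;> linarith

theorem sqrt_cmp {S z G : ℝ} (h1 : S ≤ z) (h2 : z ≤ S + G) (hG : G ≤ S) (hS : 1 ≤ S) :
    Real.sqrt S ≤ Real.sqrt z ∧ Real.sqrt z ≤ 2 * Real.sqrt S := by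
  refine ⟨Real.sqrt_le_sqrt h1, ?_⟩
  have : (2 : ℝ) * Real.sqrt S = Real.sqrt (4 * S) := by
    rw [Real.sqrt_mul (by norm_num), show (4 : ℝ) = 2 ^ 2 by norm_num, Real.sqrt_sq (by norm_num)]
  rw [this]
  apply Real.sqrt_le_sqrt
  linarith

theorem gbound {m : ℂ} {A : ℝ} (h0 : 0 < m.re) (hA : m.re ≤ A) : |3 - m.re| ≤ 3 + |A| := by
  have := le_abs_self A
  have := abs_nonneg A
  rw [abs_le]
  constructor <;> linarith

theorem dtnEv : DtnEv := by
  intro r δ A hr hδ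
  obtain ⟨C, M, hC, hM, h⟩ := Ext.evan' hr hδ (show (3 : ℝ) ≤ 3 + |A| by linarith [abs_nonneg A])
  have hr2 : 0 < r ^ 2 / 16 := by positivity
  refine ⟨2 * C + r ^ 2 / 16, M + 2 * (3 + |A|), by linarith, by linarith [abs_nonneg A],
    fun l m h0 hA hMs hδs => ?_⟩
  have hG := gbound h0 hA
  obtain ⟨s1, s2⟩ := sz_bounds (l := l) hG
  have hA0 := abs_nonneg A
  have hMS : M ≤ Ext.nu l + |m.im| := by linarith
  have hGS : 3 + |A| ≤ Ext.nu l + |m.im| := by linarith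
  obtain ⟨t1, t2⟩ := sqrt_cmp s1 s2 hGS (hM.trans hMS)
  rw [reV_eq] at hδs
  have hδS : δ * (Ext.nu l + |m.im|) ≤ (Ext.Vf l m r).re :=
    (mul_le_mul_of_nonneg_left s1 hδ.le).trans hδs
  obtain ⟨e1, e2, _, e4, e5⟩ := h l m h0 hG hMS hδS
  have hSp : 0 < Real.sqrt (Ext.nu l + |m.im|) := Real.sqrt_pos.mpr (by linarith)
  have hzp : 0 < Real.sqrt (sz l m) := lt_of_lt_of_le hSp t1
  rw [hh_eq_ext, reV_eq]
  refine ⟨e1, ?_, ?_, ?_⟩
  · refine e2.trans ?_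
    rw [neg_div, neg_le_neg_iff, div_le_div_iff₀ (by linarith) (by linarith)]
    nlinarith
  · refine e5.trans ?_
    rw [Ext.Vf_re]
    linarith
  · refine e4.trans ?_
    rw [div_le_div_iff₀ hSp hzp]
    nlinarith

theorem dtnPr : DtnPr := by
  intro r δ A hr hδ
  obtain ⟨C, M, hC, hM, h⟩ := Ext.prop' hr hδ (show (3 : ℝ) ≤ 3 + |A| by linarith [abs_nonneg A])
  refine ⟨2 * C, M + 2 * (3 + |A|), by linarith, by linarith [abs_nonneg A], fun l m h0 hA hMs hδs => ?_⟩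
  have hG := gbound h0 hA
  obtain ⟨s1, s2⟩ := sz_bounds (l := l) hG
  have hA0 := abs_nonneg A
  have hMS : M ≤ Ext.nu l + |m.im| := by linarith
  have hGS : 3 + |A| ≤ Ext.nu l + |m.im| := by linarith
  obtain ⟨t1, t2⟩ := sqrt_cmp s1 s2 hGS (hM.trans hMS)
  rw [reV_eq] at hδs
  have hδS : δ * (Ext.nu l + |m.im|) ≤ -(Ext.Vf l m r).re := by
    have := mul_le_mul_of_nonneg_left s1 hδ.le
    linarith
  obtain ⟨e1, e2, e3, _⟩ := h l m h0 hG hMS hδS
  have hSp : 0 < Real.sqrt (Ext.nu l + |m.im|) := Real.sqrt_pos.mpr (by linarith)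
  rw [hh_eq_ext]
  refine ⟨e1, ?_, ?_⟩
  · refine le_trans ?_ e2
    rw [div_le_div_iff₀ (by linarith) (by linarith)]
    nlinarith
  · refine e3.trans ?_
    have : C * Real.sqrt (Ext.nu l + |m.im|) ≤ C * Real.sqrt (sz l m) := by gcongr
    have : 0 ≤ C * Real.sqrt (sz l m) := by positivity
    linarith

end Crest.Agent.R086.R3
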