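import Crest.Agent.R086.R3Defs
import Crest.Agent.R086.CInst

/-!
Row 86, Part C, regime (R3): node SOL (helper310).
-/

set_option autoImplicit false

namespace Crest.Agent.R086.R3

theorem solStmt : SolStmt := fun _ P h0 _ _ _ _ _ hE _ _ => CInst.sol P (fun r _ => h0 r) hE

end Crest.Agent.R086.R3
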