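import Crest.Agent.R086.CAll
import Crest.Agent.R086.R1Final
import Crest.Agent.R086.R3Asm
import Crest.Agent.R086.R3Ev
import Crest.Agent.R086.R3Sol
import Crest.Agent.R086.R3Bdry
import Crest.Agent.R086.CaseII
import Crest.Agent.R086.CaseIIIc
import Crest.Agent.R086.CIIIb
import Crest.Agent.R086.ExtC
import Crest.Agent.R086.C4NS
import Crest.Agent.R086.C4SYF
import Crest.Agent.R086.C4BC
import Crest.Agent.R086.C4NTMain
import Crest.Agent.R086.C4Inst
import Crest.Agent.R086.C4FactsMain

/-!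
Row 86, PART C: THE FINAL THEOREM (captain helper777).
-/

set_option autoImplicit false

open MeasureTheory Complex Set Filter Topology
open scoped ContDiff

namespace Crest.Agent.R086

/-- regime R3 -/
theorem r3Stmt : R3Stmt :=
  R3.r3_of CEx.caseII (CEx.III.caseIII_of CIII.close) R3.solStmt R3Bdry.bdryStmt R3.dtnEv R3.dtnPr
    fun _ _ _ hL B => ExtA.ext0U hL B

theorem c4bcU {om0 R : ℝ} {U : ℝ → ℂ} (hL : LimitProfile om0 R U) (B : BData om0 R U) : B.C4BC :=
  B.c4bc hL C4.instStmt (C4FactsMain.c4Facts hL B)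

theorem c4ntU {om0 R : ℝ} {U : ℝ → ℂ} (hL : LimitProfile om0 R U) (B : BData om0 R U) : B.C4NT :=
  c4nt hL B (C4FactsMain.c4Facts hL B)

/-- **PART C** -/
theorem partC : PartC :=
  partC_of CHF.r1Stmt r3Stmt
    (fun D _ hL B La l => C4NS.ns B (by have := hL.R_lo; linarith) (by have := hL.R_hi; linarith)
      (BData.reg hL B) (c4bcU hL B) (c4ntU hL B) (ExtA.ext0U hL B) (limitSpec_of_AData D) La l)
    (fun D _ hL B La l => C4SY.sy hL CSym.symStmt (BData.reg hL B) (ExtA.extsU hL B) (c4bcU hL B)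
      (c4ntU hL B) (limitSpec_of_AData D) La l)

end Crest.Agent.R086
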