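import Crest.Agent.R086.CDecay

/-!
Row 86 (S0114), Part C, node R0Stmt (helper91): decay of eigenfunctions, `Re lam` large.
-/

set_option autoImplicit false

open Complex Filter Topology Set

namespace Crest.Agent.R086.R0

/-- polynomial decay at rate `a` -/
def Dec (F : ℝ → ℂ) (a : ℝ) : Prop := ∃ C : ℝ, 0 ≤ C ∧ ∀ r : ℝ, 1 ≤ r → ‖F r‖ ≤ C * r ^ (-a)

theorem Dec.mono {F : ℝ → ℂ} {a a' : ℝ} (h : Dec F a) (haa : a' ≤ a) : Dec F a' := by
  obtain ⟨C, hC, h⟩ := h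
  refine ⟨C, hC, fun r hr => (h r hr).trans ?_⟩
  apply mul_le_mul_of_nonneg_left _ hC
  exact Real.rpow_le_rpow_of_exponent_le hr (by linarith)

theorem Dec.congr {F G : ℝ → ℂ} {a : ℝ} (h : Dec F a) (he : ∀ r, 1 ≤ r → G r = F r) : Dec G a := by
  obtain ⟨C, hC, h⟩ := h
  exact ⟨C, hC, fun r hr => by rw [he r hr]; exact h r hr⟩

theorem Dec.add {F G : ℝ → ℂ} {a : ℝ} (hF : Dec F a) (hG : Dec G a) :
    Dec (fun r => F r + G r) a := by
  obtain ⟨C, hC, h⟩ := hF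
  obtain ⟨C', hC', h'⟩ := hG
  refine ⟨C + C', by positivity, fun r hr => ?_⟩
  have := norm_add_le (F r) (G r)
  have h1 := h r hr
  have h2 := h' r hr
  nlinarith

theorem Dec.const_mul {F : ℝ → ℂ} {a : ℝ} (c : ℂ) (hF : Dec F a) : Dec (fun r => c * F r) a := by
  obtain ⟨C, hC, h⟩ := hF
  refine ⟨‖c‖ * C, by positivity, fun r hr => ?_⟩
  rw [norm_mul, mul_assoc]
  exact mul_le_mul_of_nonneg_left (h r hr) (norm_nonneg _)

theorem Dec.sub {F G : ℝ → ℂ} {a : ℝ} (hF : Dec F a) (hG : Dec G a) :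
    Dec (fun r => F r - G r) a := by
  have := hF.add (hG.const_mul (-1))
  exact this.congr (fun r _ => by ring)

theorem Dec.mul {F G : ℝ → ℂ} {a a' : ℝ} (hF : Dec F a) (hG : Dec G a') :
    Dec (fun r => F r * G r) (a + a') := by
  obtain ⟨C, hC, h⟩ := hF
  obtain ⟨C', hC', h'⟩ := hG
  refine ⟨C * C', by positivity, fun r hr => ?_⟩
  have hr0 : 0 < r := by linarith
  rw [norm_mul, neg_add, Real.rpow_add hr0]
  calc ‖F r‖ * ‖G r‖ ≤ (C * r ^ (-a)) * (C' * r ^ (-a')) :=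
        mul_le_mul (h r hr) (h' r hr) (norm_nonneg _) (by positivity)
    _ = _ := by ring

theorem Dec.inv : Dec (fun r : ℝ => ((r : ℂ))⁻¹) 1 := by
  refine ⟨1, zero_le_one, fun r hr => ?_⟩
  have hr0 : 0 < r := by linarith
  rw [norm_inv, Complex.norm_real, Real.norm_of_nonneg hr0.le, Real.rpow_neg_one, one_mul]

theorem base {f0 f1 f2 E : ℝ → ℂ} {mu c : ℂ} {a : ℝ} (h0 : Dec f0 a) (h2 : Dec f2 a) (hE : Dec E a)
    (heq : ∀ r : ℝ, 1 ≤ r → (r / 2 : ℂ) * f1 r + mu * f0 r = c * f2 r + E r) : Dec f1 (a + 1) := by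
  have h := ((((h2.const_mul c).add hE).sub (h0.const_mul mu)).mul Dec.inv).const_mul 2
  refine h.congr (fun r hr => ?_)
  have hr0 : (r : ℂ) ≠ 0 := by
    have : (0 : ℝ) < r := by linarith
    exact_mod_cast this.ne'
  have e := heq r hr
  field_simp
  linear_combination 2 * e

theorem step1 {f : ℕ → ℝ → ℂ} {E : ℝ → ℂ} {mu c : ℂ} {a M : ℝ} (ha : 0 ≤ a) (hM : 0 ≤ M)
    (hd : ∀ j, j < 20 → ∀ s, 1 ≤ s → HasDerivAt (f j) (f (j + 1) s) s)
    (hb : ∀ j, j ≤ 20 → ∀ s, 1 ≤ s → ‖f j s‖ ≤ M)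
    (h1 : Dec (f 1) (a + 1)) (hE : Dec E (a + 2))
    (heq : ∀ r : ℝ, 1 ≤ r → (r / 2 : ℂ) * f 1 r + mu * f 0 r = c * f 2 r + E r)
    (hlt : 18 / 19 * (a + 1) < 2 * mu.re) :
    Dec (f 0) (18 / 19 * (a + 1)) ∧ Dec (f 1) (18 / 19 * (a + 1) + 1) := by
  obtain ⟨C1, hC1, h1'⟩ := h1
  have h2 : Dec (f 2) (18 / 19 * (a + 1)) :=
    CDecay.interp (by linarith : 0 ≤ a + 1) hM hC1 hd hb h1'
  have hE' : Dec E (18 / 19 * (a + 1)) := hE.mono (by linarith)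
  obtain ⟨C, hC, hR⟩ := (h2.const_mul c).add hE'
  have h0 : Dec (f 0) (18 / 19 * (a + 1)) := by
    apply CDecay.integrate hC hlt (hd 0 (by norm_num))
    intro r hr
    rw [heq r hr]
    exact hR r hr
  exact ⟨h0, base h0 h2 hE' heq⟩

/-- the two-component system -/
structure DSys (kap : ℝ) (mu mu' : ℂ) (V1 V2 V2c : ℝ → ℂ) (f g : ℕ → ℝ → ℂ) : Prop where
  df : ∀ j, j < 20 → ∀ s, 1 ≤ s → HasDerivAt (f j) (f (j + 1) s) s
  dg : ∀ j, j < 20 → ∀ s, 1 ≤ s → HasDerivAt (g j) (g (j + 1) s) s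
  bf : ∀ j, j ≤ 20 → ∃ C, ∀ s, 1 ≤ s → ‖f j s‖ ≤ C
  bg : ∀ j, j ≤ 20 → ∃ C, ∀ s, 1 ≤ s → ‖g j s‖ ≤ C
  v1 : Dec V1 2
  v2 : Dec V2 2
  v2c : Dec V2c 2
  ef : ∀ r : ℝ, 1 ≤ r → (r / 2 : ℂ) * f 1 r + mu * f 0 r = I * f 2 r +
    (I * (11 * (r : ℂ)⁻¹ * f 1 r - kap * ((r : ℂ)⁻¹ * (r : ℂ)⁻¹) * f 0 r)
      - I * (V1 r * f 0 r + V2 r * g 0 r))
  eg : ∀ r : ℝ, 1 ≤ r → (r / 2 : ℂ) * g 1 r + mu' * g 0 r = -I * g 2 r +
    (-I * (11 * (r : ℂ)⁻¹ * g 1 r - kap * ((r : ℂ)⁻¹ * (r : ℂ)⁻¹) * g 0 r)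
      + I * (V1 r * g 0 r + V2c r * f 0 r))

namespace DSys

variable {kap : ℝ} {mu mu' : ℂ} {V1 V2 V2c : ℝ → ℂ} {f g : ℕ → ℝ → ℂ}

theorem unif {f : ℕ → ℝ → ℂ} (h : ∀ j, j ≤ 20 → ∃ C, ∀ s, 1 ≤ s → ‖f j s‖ ≤ C) :
    ∃ M : ℝ, 0 ≤ M ∧ ∀ j, j ≤ 20 → ∀ s, 1 ≤ s → ‖f j s‖ ≤ M := by
  have : ∀ N, N ≤ 20 → ∃ M : ℝ, 0 ≤ M ∧ ∀ j, j ≤ N → ∀ s, 1 ≤ s → ‖f j s‖ ≤ M := by
    intro N
    induction N with
    | zero =>
      intro _
      obtain ⟨C, hC⟩ := h 0 (by norm_num)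
      refine ⟨|C|, abs_nonneg _, fun j hj s hs => ?_⟩
      obtain rfl : j = 0 := by omega
      exact (hC s hs).trans (le_abs_self _)
    | succ N ih =>
      intro hN
      obtain ⟨M, hM, hM'⟩ := ih (by omega)
      obtain ⟨C, hC⟩ := h (N + 1) hN
      refine ⟨M + |C|, by positivity, fun j hj s hs => ?_⟩
      rcases Nat.lt_or_ge j (N + 1) with h1 | h1
      · have := hM' j (by omega) s hs
        have := abs_nonneg C
        linarith
      · obtain rfl : j = N + 1 := by omega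
        have := hC s hs
        have := le_abs_self C
        linarith
  exact this 20 le_rfl

theorem dec0 {F : ℝ → ℂ} (h : ∃ C, ∀ s, 1 ≤ s → ‖F s‖ ≤ C) : Dec F 0 := by
  obtain ⟨C, hC⟩ := h
  refine ⟨|C|, abs_nonneg _, fun r hr => ?_⟩
  rw [neg_zero, Real.rpow_zero, mul_one]
  exact (hC r hr).trans (le_abs_self _)

/-- lower order terms -/
theorem low {f0 f1 g0 V W : ℝ → ℂ} {a : ℝ} (c c' : ℂ) (h0 : Dec f0 a) (h1 : Dec f1 (a + 1))
    (hg : Dec g0 a) (hV : Dec V 2) (hW : Dec W 2) :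
    Dec (fun r : ℝ => c * (11 * (r : ℂ)⁻¹ * f1 r - kap * ((r : ℂ)⁻¹ * (r : ℂ)⁻¹) * f0 r)
      + c' * (V r * f0 r + W r * g0 r)) (a + 2) := by
  have e1 : Dec (fun r : ℝ => (r : ℂ)⁻¹ * f1 r) (a + 2) := by
    have := Dec.inv.mul h1
    have e : 1 + (a + 1) = a + 2 := by ring
    rwa [e] at this
  have e2 : Dec (fun r : ℝ => ((r : ℂ)⁻¹ * (r : ℂ)⁻¹) * f0 r) (a + 2) := by
    have := (Dec.inv.mul Dec.inv).mul h0
    have e : 1 + 1 + a = a + 2 := by ring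
    rwa [e] at this
  have e3 : Dec (fun r : ℝ => V r * f0 r) (a + 2) := by
    have := hV.mul h0
    rwa [add_comm 2 a] at this
  have e4 : Dec (fun r : ℝ => W r * g0 r) (a + 2) := by
    have := hW.mul hg
    rwa [add_comm 2 a] at this
  have := (((e1.const_mul 11).sub (e2.const_mul kap)).const_mul c).add ((e3.add e4).const_mul c')
  exact this.congr (fun r _ => by ring)

theorem base0 (h : DSys kap mu mu' V1 V2 V2c f g) : Dec (f 1) (0 + 1) ∧ Dec (g 1) (0 + 1) := by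
  have f0 := dec0 (h.bf 0 (by norm_num))
  have f1 := dec0 (h.bf 1 (by norm_num))
  have f2 := dec0 (h.bf 2 (by norm_num))
  have g0 := dec0 (h.bg 0 (by norm_num))
  have g1 := dec0 (h.bg 1 (by norm_num))
  have g2 := dec0 (h.bg 2 (by norm_num))
  have f1' : Dec (f 1) (-1 + 1) := by norm_num; exact f1
  have g1' : Dec (g 1) (-1 + 1) := by norm_num; exact g1
  constructor
  · refine base (mu := mu) (c := I) f0 f2 ?_ h.ef
    have := low (kap := kap) I (-I) (f0.mono (by norm_num : (-1 : ℝ) ≤ 0)) f1'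
      (g0.mono (by norm_num : (-1 : ℝ) ≤ 0)) h.v1 h.v2
    exact (this.mono (by norm_num)).congr (fun r _ => by ring)
  · refine base (mu := mu') (c := -I) g0 g2 ?_ h.eg
    have := low (kap := kap) (-I) I (g0.mono (by norm_num : (-1 : ℝ) ≤ 0)) g1'
      (f0.mono (by norm_num : (-1 : ℝ) ≤ 0)) h.v1 h.v2c
    exact (this.mono (by norm_num))

theorem step (h : DSys kap mu mu' V1 V2 V2c f g) {a : ℝ} (ha : 0 ≤ a)
    (hlt : 18 / 19 * (a + 1) < 2 * mu.re) (hlt' : 18 / 19 * (a + 1) < 2 * mu'.re)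
    (h0 : Dec (f 0) a ∧ Dec (g 0) a ∧ Dec (f 1) (a + 1) ∧ Dec (g 1) (a + 1)) :
    Dec (f 0) (18 / 19 * (a + 1)) ∧ Dec (g 0) (18 / 19 * (a + 1)) ∧
      Dec (f 1) (18 / 19 * (a + 1) + 1) ∧ Dec (g 1) (18 / 19 * (a + 1) + 1) := by
  obtain ⟨f0, g0, f1, g1⟩ := h0
  obtain ⟨M, hM, hMb⟩ := unif h.bf
  obtain ⟨M', hM', hMb'⟩ := unif h.bg
  have hf := step1 (mu := mu) (c := I) ha hM h.df hMb f1
    (by
      have := low (kap := kap) I (-I) f0 f1 g0 h.v1 h.v2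
      exact this.congr (fun r _ => by ring)) h.ef hlt
  have hg := step1 (mu := mu') (c := -I) ha hM' h.dg hMb' g1
    (low (kap := kap) (-I) I g0 g1 f0 h.v1 h.v2c) h.eg hlt'
  exact ⟨hf.1, hg.1, hf.2, hg.2⟩

/-- **decay** -/
theorem decay (h : DSys kap mu mu' V1 V2 V2c f g) (hm : 3 < mu.re) (hm' : 3 < mu'.re) :
    Dec (f 0) (11 / 2) ∧ Dec (g 0) (11 / 2) ∧ Dec (f 1) (13 / 2) ∧ Dec (g 1) (13 / 2) := by
  have h0 := h.step (a := 0) le_rfl (by linarith) (by linarith)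
    ⟨dec0 (h.bf 0 (by norm_num)), dec0 (h.bg 0 (by norm_num)), h.base0.1, h.base0.2⟩
  have h1 := h.step (by norm_num) (by linarith) (by linarith) h0
  have h2 := h.step (by norm_num) (by linarith) (by linarith) h1
  have h3 := h.step (by norm_num) (by linarith) (by linarith) h2
  have h4 := h.step (by norm_num) (by linarith) (by linarith) h3
  have h5 := h.step (by norm_num) (by linarith) (by linarith) h4
  have h6 := h.step (by norm_num) (by linarith) (by linarith) h5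
  exact ⟨h6.1.mono (by norm_num), h6.2.1.mono (by norm_num), h6.2.2.1.mono (by norm_num),
    h6.2.2.2.mono (by norm_num)⟩

end DSys

end Crest.Agent.R086.R0
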