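import Crest.Agent.R086.R0a
import Crest.Agent.R086.R0b

/-!
Row 86 (S0114), Part C, node R0Stmt (helper91): boundary terms at `0` and at infinity.
-/

set_option autoImplicit false

open MeasureTheory Complex Set Filter Topology ComplexConjugate
open scoped ContDiff

namespace Crest.Agent.R086.R0

open CCore CCore.Sys

variable {n : ℕ} (P : Profile n)

theorem q_cont : Continuous P.q := (SH.q_contDiff P).continuous
theorem dq_cont : Continuous (deriv P.q) := (dq_contDiff P).continuous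

theorem wb_eq {r : ℝ} : w P.q r * b P.q (deriv P.q) r =
    2 * r ^ 11 * (deriv P.q r * conj (P.q r)).im + r ^ 12 / 2 * ‖P.q r‖ ^ 2 := w_mul_b _ _ _

section zero
variable {P}
variable (hq : ∀ r, P.q r ≠ 0) {F G : ℝ → ℂ} (hF : ContDiff ℝ 1 F) (hG : ContDiff ℝ 1 G)

include hq

theorem cS (hF : Continuous F) (hG : Continuous G) : Continuous (S P F G) := by
  have h := q_cont P
  have hc : ∀ r, conj (P.q r) ≠ 0 := fun r => by simpa using hq r
  unfold S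
  exact ((hF.div h hq).add (hG.div (Complex.continuous_conj.comp h) hc)).div_const 2

theorem cD (hF : Continuous F) (hG : Continuous G) : Continuous (D P F G) := by
  have h := q_cont P
  have hc : ∀ r, conj (P.q r) ≠ 0 := fun r => by simpa using hq r
  unfold D
  exact ((hF.div h hq).sub (hG.div (Complex.continuous_conj.comp h) hc)).div_const 2

include hF hG

theorem cS1 : Continuous (S1 P F G) := by
  have h := q_cont P
  have h1 := dq_cont P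
  have hc : ∀ r, conj (P.q r) ≠ 0 := fun r => by simpa using hq r
  have dF : Continuous (deriv F) := hF.continuous_deriv le_rfl
  have dG : Continuous (deriv G) := hG.continuous_deriv le_rfl
  unfold S1 quo1 quo1c
  exact ((((dF.sub ((hF.continuous.div h hq).mul h1)).div h hq).add
    ((dG.sub ((hG.continuous.div (Complex.continuous_conj.comp h) hc).mul
      (Complex.continuous_conj.comp h1))).div (Complex.continuous_conj.comp h) hc))).div_const 2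

theorem cD1 : Continuous (D1 P F G) := by
  have h := q_cont P
  have h1 := dq_cont P
  have hc : ∀ r, conj (P.q r) ≠ 0 := fun r => by simpa using hq r
  have dF : Continuous (deriv F) := hF.continuous_deriv le_rfl
  have dG : Continuous (deriv G) := hG.continuous_deriv le_rfl
  unfold D1 quo1 quo1c
  exact ((((dF.sub ((hF.continuous.div h hq).mul h1)).div h hq).sub
    ((dG.sub ((hG.continuous.div (Complex.continuous_conj.comp h) hc).mul
      (Complex.continuous_conj.comp h1))).div (Complex.continuous_conj.comp h) hc))).div_const 2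

theorem lim_zero (kap : ℝ) (lam : ℂ) :
    Tendsto (Bd (w P.q) (b P.q (deriv P.q)) (Pw P) kap n lam (S P F G) (S1 P F G) (D P F G)
      (D1 P F G)) (𝓝[>] 0) (𝓝 0) := by
  have h := q_cont P
  have h1 := dq_cont P
  have c1 := cS hq hF.continuous hG.continuous
  have c2 := cS1 hq hF hG
  have c3 := cD hq hF.continuous hG.continuous
  have c4 := cD1 hq hF hG
  set im : ℝ → ℝ := fun r => (deriv P.q r * conj (P.q r)).im with him
  have cim : Continuous im := by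
    rw [him]
    exact Complex.continuous_im.comp (h1.mul (Complex.continuous_conj.comp h))
  let Φ : ℝ → ℝ := fun r =>
    (conj lam * (((‖P.q r‖ ^ 2 * r ^ 11 : ℝ) : ℂ) * (S1 P F G r * conj (S P F G r)
      + D1 P F G r * conj (D P F G r)))).re
    + (2 * r ^ 11 * im r + r ^ 12 / 2 * ‖P.q r‖ ^ 2) / 2 * (‖S1 P F G r‖ ^ 2 + ‖D1 P F G r‖ ^ 2)
    - kap * (r ^ 9 * im r + r ^ 10 / 4 * ‖P.q r‖ ^ 2) * (‖S P F G r‖ ^ 2 + ‖D P F G r‖ ^ 2)
    - n * ((2 * r ^ 11 * im r + r ^ 12 / 2 * ‖P.q r‖ ^ 2) * ‖P.q r‖ ^ n / 2) * ‖S P F G r‖ ^ 2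
  have cΦ : Continuous Φ := by
    have cc1 : Continuous fun r => conj (S P F G r) := Complex.continuous_conj.comp c1
    have cc3 : Continuous fun r => conj (D P F G r) := Complex.continuous_conj.comp c3
    have e1 : Continuous fun r : ℝ => (conj lam * (((‖P.q r‖ ^ 2 * r ^ 11 : ℝ) : ℂ) *
      (S1 P F G r * conj (S P F G r) + D1 P F G r * conj (D P F G r)))).re := by
      refine Complex.continuous_re.comp (continuous_const.mul ((Complex.continuous_ofReal.comp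
        ?_).mul ((c2.mul cc1).add (c4.mul cc3))))
      exact (h.norm.pow 2).mul (continuous_pow 11)
    show Continuous fun r => _
    fun_prop
  have h0 : Φ 0 = 0 := by simp [Φ]
  have ht : Tendsto Φ (𝓝[>] 0) (𝓝 0) := by
    have := cΦ.tendsto 0
    rw [h0] at this
    exact this.mono_left nhdsWithin_le_nhds
  refine ht.congr' ?_
  filter_upwards [self_mem_nhdsWithin] with r hr
  have hr0 : r ≠ 0 := ne_of_gt hr
  unfold Bd
  rw [wb_eq]
  simp only [Φ, him, Pw, w]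
  have e : (2 * r ^ 11 * (deriv P.q r * conj (P.q r)).im + r ^ 12 / 2 * ‖P.q r‖ ^ 2) / (2 * r ^ 2)
      = r ^ 9 * (deriv P.q r * conj (P.q r)).im + r ^ 10 / 4 * ‖P.q r‖ ^ 2 := by
    field_simp
    ring
  rw [e]

end zero

section infty
variable {P}

/-- product bounds -/
theorem qS_le {F G : ℝ → ℂ} {r : ℝ} (h0 : P.q r ≠ 0) :
    ‖P.q r‖ * ‖S P F G r‖ ≤ ‖F r‖ + ‖G r‖ := by
  have hq : 0 < ‖P.q r‖ := norm_pos_iff.2 h0
  unfold S
  rw [norm_div]
  have e1 := norm_add_le (F r / P.q r) (G r / conj (P.q r))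
  rw [norm_div, norm_div, Complex.norm_conj] at e1
  have e2 : ‖(2 : ℂ)‖ = 2 := by norm_num
  rw [e2]
  have e3 : ‖P.q r‖ * (‖F r‖ / ‖P.q r‖ + ‖G r‖ / ‖P.q r‖) = ‖F r‖ + ‖G r‖ := by field_simp
  have e4 := mul_le_mul_of_nonneg_left e1 hq.le
  rw [e3] at e4
  have := norm_nonneg (F r)
  have := norm_nonneg (G r)
  linarith

theorem qD_le {F G : ℝ → ℂ} {r : ℝ} (h0 : P.q r ≠ 0) :
    ‖P.q r‖ * ‖D P F G r‖ ≤ ‖F r‖ + ‖G r‖ := by
  have hq : 0 < ‖P.q r‖ := norm_pos_iff.2 h0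
  unfold D
  rw [norm_div]
  have e1 := norm_sub_le (F r / P.q r) (G r / conj (P.q r))
  rw [norm_div, norm_div, Complex.norm_conj] at e1
  have e2 : ‖(2 : ℂ)‖ = 2 := by norm_num
  rw [e2]
  have e3 : ‖P.q r‖ * (‖F r‖ / ‖P.q r‖ + ‖G r‖ / ‖P.q r‖) = ‖F r‖ + ‖G r‖ := by field_simp
  have e4 := mul_le_mul_of_nonneg_left e1 hq.le
  rw [e3] at e4
  have := norm_nonneg (F r)
  have := norm_nonneg (G r)
  linarith

theorem qquo_le {F : ℝ → ℂ} {r C : ℝ} (hr : 1 ≤ r) (h0 : P.q r ≠ 0) (hC : 0 ≤ C)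
    (hd : ‖deriv P.q r‖ ≤ C * (r / (1 + r ^ 2)) * ‖P.q r‖) :
    ‖P.q r‖ * ‖quo1 P.q (deriv P.q) F (deriv F) r‖ ≤ ‖deriv F r‖ + C * ‖F r‖ / r := by
  have hq : 0 < ‖P.q r‖ := norm_pos_iff.2 h0
  have hr0 : 0 < r := by linarith
  unfold quo1
  rw [norm_div]
  have e1 := norm_sub_le (deriv F r) (F r / P.q r * deriv P.q r)
  rw [norm_mul, norm_div] at e1
  have e2 : ‖P.q r‖ * (‖deriv F r - F r / P.q r * deriv P.q r‖ / ‖P.q r‖)
      = ‖deriv F r - F r / P.q r * deriv P.q r‖ := by field_simp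
  rw [e2]
  have e3 : ‖F r‖ / ‖P.q r‖ * ‖deriv P.q r‖ ≤ C * ‖F r‖ / r := by
    calc ‖F r‖ / ‖P.q r‖ * ‖deriv P.q r‖
        ≤ ‖F r‖ / ‖P.q r‖ * (C * (r / (1 + r ^ 2)) * ‖P.q r‖) :=
          mul_le_mul_of_nonneg_left hd (by positivity)
      _ = C * ‖F r‖ * (r / (1 + r ^ 2)) := by field_simp
      _ ≤ C * ‖F r‖ * (1 / r) := by
          apply mul_le_mul_of_nonneg_left _ (by positivity)
          rw [div_le_div_iff₀ (by positivity) hr0]
          nlinarith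
      _ = _ := by ring
  linarith

theorem qquoc_le {F : ℝ → ℂ} {r C : ℝ} (hr : 1 ≤ r) (h0 : P.q r ≠ 0) (hC : 0 ≤ C)
    (hd : ‖deriv P.q r‖ ≤ C * (r / (1 + r ^ 2)) * ‖P.q r‖) :
    ‖P.q r‖ * ‖quo1c P.q (deriv P.q) F (deriv F) r‖ ≤ ‖deriv F r‖ + C * ‖F r‖ / r := by
  have hq : 0 < ‖P.q r‖ := norm_pos_iff.2 h0
  have hr0 : 0 < r := by linarith
  unfold quo1c
  rw [norm_div, Complex.norm_conj]
  have e1 := norm_sub_le (deriv F r) (F r / conj (P.q r) * conj (deriv P.q r))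
  rw [norm_mul, norm_div, Complex.norm_conj, Complex.norm_conj] at e1
  have e2 : ‖P.q r‖ * (‖deriv F r - F r / conj (P.q r) * conj (deriv P.q r)‖ / ‖P.q r‖)
      = ‖deriv F r - F r / conj (P.q r) * conj (deriv P.q r)‖ := by field_simp
  rw [e2]
  have e3 : ‖F r‖ / ‖P.q r‖ * ‖deriv P.q r‖ ≤ C * ‖F r‖ / r := by
    calc ‖F r‖ / ‖P.q r‖ * ‖deriv P.q r‖
        ≤ ‖F r‖ / ‖P.q r‖ * (C * (r / (1 + r ^ 2)) * ‖P.q r‖) :=
          mul_le_mul_of_nonneg_left hd (by positivity)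
      _ = C * ‖F r‖ * (r / (1 + r ^ 2)) := by field_simp
      _ ≤ C * ‖F r‖ * (1 / r) := by
          apply mul_le_mul_of_nonneg_left _ (by positivity)
          rw [div_le_div_iff₀ (by positivity) hr0]
          nlinarith
      _ = _ := by ring
  linarith

theorem qS1_le {F G : ℝ → ℂ} {r C : ℝ} (hr : 1 ≤ r) (h0 : P.q r ≠ 0) (hC : 0 ≤ C)
    (hd : ‖deriv P.q r‖ ≤ C * (r / (1 + r ^ 2)) * ‖P.q r‖) :
    ‖P.q r‖ * ‖S1 P F G r‖ ≤ ‖deriv F r‖ + ‖deriv G r‖ + C * (‖F r‖ + ‖G r‖) / r := by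
  have hq : 0 < ‖P.q r‖ := norm_pos_iff.2 h0
  have hr0 : 0 < r := by linarith
  have a1 := qquo_le (F := F) hr h0 hC hd
  have a2 := qquoc_le (F := G) hr h0 hC hd
  unfold S1
  rw [norm_div]
  have e2 : ‖(2 : ℂ)‖ = 2 := by norm_num
  rw [e2]
  have e1 := mul_le_mul_of_nonneg_left
    (norm_add_le (quo1 P.q (deriv P.q) F (deriv F) r) (quo1c P.q (deriv P.q) G (deriv G) r)) hq.le
  have e3 : C * (‖F r‖ + ‖G r‖) / r = C * ‖F r‖ / r + C * ‖G r‖ / r := by ring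
  have p1 : 0 ≤ ‖P.q r‖ * ‖quo1 P.q (deriv P.q) F (deriv F) r +
    quo1c P.q (deriv P.q) G (deriv G) r‖ := by positivity
  rw [e3]
  linarith

theorem qD1_le {F G : ℝ → ℂ} {r C : ℝ} (hr : 1 ≤ r) (h0 : P.q r ≠ 0) (hC : 0 ≤ C)
    (hd : ‖deriv P.q r‖ ≤ C * (r / (1 + r ^ 2)) * ‖P.q r‖) :
    ‖P.q r‖ * ‖D1 P F G r‖ ≤ ‖deriv F r‖ + ‖deriv G r‖ + C * (‖F r‖ + ‖G r‖) / r := by
  have hq : 0 < ‖P.q r‖ := norm_pos_iff.2 h0
  have hr0 : 0 < r := by linarith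
  have a1 := qquo_le (F := F) hr h0 hC hd
  have a2 := qquoc_le (F := G) hr h0 hC hd
  unfold D1
  rw [norm_div]
  have e2 : ‖(2 : ℂ)‖ = 2 := by norm_num
  rw [e2]
  have e1 := mul_le_mul_of_nonneg_left
    (norm_sub_le (quo1 P.q (deriv P.q) F (deriv F) r) (quo1c P.q (deriv P.q) G (deriv G) r)) hq.le
  have e3 : C * (‖F r‖ + ‖G r‖) / r = C * ‖F r‖ / r + C * ‖G r‖ / r := by ring
  have p1 : 0 ≤ ‖P.q r‖ * ‖quo1 P.q (deriv P.q) F (deriv F) r -
    quo1c P.q (deriv P.q) G (deriv G) r‖ := by positivity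
  rw [e3]
  linarith

/-- bounds of `‖q‖ ‖S‖` etc. from decay -/
theorem prod_bounds (hq : ∀ r, P.q r ≠ 0) {C : ℝ} (hC : 0 ≤ C)
    (hd : ∀ r, 0 ≤ r → ‖deriv P.q r‖ ≤ C * (r / (1 + r ^ 2)) * ‖P.q r‖) {F G : ℝ → ℂ}
    (dF : Dec F (11 / 2)) (dG : Dec G (11 / 2)) (dF1 : Dec (deriv F) (13 / 2))
    (dG1 : Dec (deriv G) (13 / 2)) :
    ∃ K : ℝ, 0 ≤ K ∧ ∀ r, 1 ≤ r →
      ‖P.q r‖ * ‖S P F G r‖ ≤ K * r ^ (-(11 / 2 : ℝ)) ∧
      ‖P.q r‖ * ‖D P F G r‖ ≤ K * r ^ (-(11 / 2 : ℝ)) ∧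
      ‖P.q r‖ * ‖S1 P F G r‖ ≤ K * r ^ (-(11 / 2 : ℝ)) / r ∧
      ‖P.q r‖ * ‖D1 P F G r‖ ≤ K * r ^ (-(11 / 2 : ℝ)) / r := by
  obtain ⟨c1, hc1, h1⟩ := dF
  obtain ⟨c2, hc2, h2⟩ := dG
  obtain ⟨c3, hc3, h3⟩ := dF1
  obtain ⟨c4, hc4, h4⟩ := dG1
  refine ⟨c1 + c2 + c3 + c4 + C * (c1 + c2), by positivity, fun r hr => ?_⟩
  have hr0 : 0 < r := by linarith
  have g1 := h1 r hr
  have g2 := h2 r hr
  have g3 := h3 r hr
  have g4 := h4 r hr
  have e13 : r ^ (-(13 / 2 : ℝ)) = r ^ (-(11 / 2 : ℝ)) / r := by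
    rw [eq_div_iff hr0.ne']
    nth_rewrite 2 [← Real.rpow_one r]
    rw [← Real.rpow_add hr0]
    norm_num
  rw [e13] at g3 g4
  set ρ : ℝ := r ^ (-(11 / 2 : ℝ)) with hρ
  have hρ0 : 0 < ρ := Real.rpow_pos_of_pos hr0 _
  have hρr : 0 < ρ / r := by positivity
  have k1 := qS_le (F := F) (G := G) (hq r)
  have k2 := qD_le (F := F) (G := G) (hq r)
  have k3 := qS1_le (F := F) (G := G) hr (hq r) hC (hd r hr0.le)
  have k4 := qD1_le (F := F) (G := G) hr (hq r) hC (hd r hr0.le)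
  have m1 : C * (‖F r‖ + ‖G r‖) / r ≤ C * (c1 + c2) * (ρ / r) := by
    have : C * (‖F r‖ + ‖G r‖) ≤ C * (c1 * ρ + c2 * ρ) :=
      mul_le_mul_of_nonneg_left (by linarith) hC
    calc C * (‖F r‖ + ‖G r‖) / r ≤ C * (c1 * ρ + c2 * ρ) / r :=
          div_le_div_of_nonneg_right this hr0.le
      _ = _ := by ring
  have p1 : 0 ≤ (c3 + c4 + C * (c1 + c2)) * ρ := by positivity
  have p2 : 0 ≤ (c1 + c2) * (ρ / r) := by positivity
  have e3 : c3 * (ρ / r) + c4 * (ρ / r) + C * (c1 + c2) * (ρ / r) + (c1 + c2) * (ρ / r)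
      = (c1 + c2 + c3 + c4 + C * (c1 + c2)) * ρ / r := by ring
  refine ⟨?_, ?_, ?_, ?_⟩
  · linarith
  · linarith
  · rw [← e3]; linarith
  · rw [← e3]; linarith

end infty

end Crest.Agent.R086.R0
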