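import Crest.Agent.R086.R0c

/-!
Row 86 (S0114), Part C, node R0Stmt (helper91): limits at infinity.
-/

set_option autoImplicit false

open MeasureTheory Complex Set Filter Topology ComplexConjugate
open scoped ContDiff

namespace Crest.Agent.R086.R0

open CCore CCore.Sys

/-- pointwise bound of the boundary functional at `r ≥ 1` -/
theorem Bd_le {w b P : ℝ → ℝ} {kap nn B0 CP K ρ m r : ℝ} {lam : ℂ} {S S1 D D1 : ℝ → ℂ}
    (hr : 1 ≤ r) (hk : 0 ≤ kap) (hn : 0 ≤ nn) (hB0 : 0 ≤ B0) (hCP : 0 ≤ CP) (hK : 0 ≤ K)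
    (hρ : 0 ≤ ρ) (hρ2 : r ^ 11 * ρ ^ 2 = 1) (hm : 0 ≤ m) (hw : w r = m ^ 2 * r ^ 11)
    (hb0 : 0 ≤ b r) (hb1 : b r ≤ B0 * r) (hP0 : 0 ≤ P r) (hP1 : P r ≤ CP / r ^ 2)
    (h1 : m * ‖S r‖ ≤ K * ρ) (h2 : m * ‖D r‖ ≤ K * ρ)
    (h3 : m * ‖S1 r‖ ≤ K * ρ / r) (h4 : m * ‖D1 r‖ ≤ K * ρ / r) :
    |Bd w b P kap nn lam S S1 D D1 r| ≤ (K ^ 2 * (2 * ‖lam‖ + B0 + kap * B0 + nn * B0 * CP)) / r := by
  have hr0 : 0 < r := by linarith
  set s := m * ‖S r‖ with hs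
  set d := m * ‖D r‖ with hd
  set s1 := m * ‖S1 r‖ with hs1
  set d1 := m * ‖D1 r‖ with hd1
  have s0 : 0 ≤ s := by positivity
  have d0 : 0 ≤ d := by positivity
  have s10 : 0 ≤ s1 := by positivity
  have d10 : 0 ≤ d1 := by positivity
  have hKρ : 0 ≤ K * ρ := by positivity
  have hKρr : 0 ≤ K * ρ / r := by positivity
  -- squares
  have q1 : s ^ 2 ≤ (K * ρ) ^ 2 := pow_le_pow_left₀ s0 h1 2
  have q2 : d ^ 2 ≤ (K * ρ) ^ 2 := pow_le_pow_left₀ d0 h2 2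
  have q3 : s1 ^ 2 ≤ (K * ρ / r) ^ 2 := pow_le_pow_left₀ s10 h3 2
  have q4 : d1 ^ 2 ≤ (K * ρ / r) ^ 2 := pow_le_pow_left₀ d10 h4 2
  have p1 : s1 * s ≤ (K * ρ / r) * (K * ρ) := mul_le_mul h3 h1 s0 hKρr
  have p2 : d1 * d ≤ (K * ρ / r) * (K * ρ) := mul_le_mul h4 h2 d0 hKρr
  have hL : ‖lam‖ = ‖conj lam‖ := (Complex.norm_conj lam).symm
  -- first term
  have t1 : |(conj lam * ((w r : ℂ) * (S1 r * conj (S r) + D1 r * conj (D r)))).re| ≤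
      ‖lam‖ * (r ^ 11 * (2 * ((K * ρ / r) * (K * ρ)))) := by
    refine (Complex.abs_re_le_norm _).trans ?_
    rw [norm_mul, norm_mul, Complex.norm_conj, Complex.norm_real, hw,
      Real.norm_of_nonneg (by positivity : 0 ≤ m ^ 2 * r ^ 11)]
    apply mul_le_mul_of_nonneg_left _ (norm_nonneg _)
    have e1 : ‖S1 r * conj (S r) + D1 r * conj (D r)‖ ≤ ‖S1 r‖ * ‖S r‖ + ‖D1 r‖ * ‖D r‖ := by
      refine (norm_add_le _ _).trans ?_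
      rw [norm_mul, norm_mul, Complex.norm_conj, Complex.norm_conj]
    calc m ^ 2 * r ^ 11 * ‖S1 r * conj (S r) + D1 r * conj (D r)‖
        ≤ m ^ 2 * r ^ 11 * (‖S1 r‖ * ‖S r‖ + ‖D1 r‖ * ‖D r‖) :=
          mul_le_mul_of_nonneg_left e1 (by positivity)
      _ = r ^ 11 * (s1 * s + d1 * d) := by rw [hs, hd, hs1, hd1]; ring
      _ ≤ _ := mul_le_mul_of_nonneg_left (by linarith) (by positivity)
  have e1 : ‖lam‖ * (r ^ 11 * (2 * ((K * ρ / r) * (K * ρ)))) = 2 * ‖lam‖ * K ^ 2 / r := by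
    have : r ^ 11 * (2 * ((K * ρ / r) * (K * ρ))) = 2 * K ^ 2 * (r ^ 11 * ρ ^ 2) / r := by ring
    rw [this, hρ2]; ring
  -- second term
  have t2 : w r * b r / 2 * (‖S1 r‖ ^ 2 + ‖D1 r‖ ^ 2) ≤ K ^ 2 * B0 / r := by
    have f1 : w r * b r / 2 * (‖S1 r‖ ^ 2 + ‖D1 r‖ ^ 2) = r ^ 11 * b r / 2 * (s1 ^ 2 + d1 ^ 2) := by
      rw [hw, hs1, hd1]; ring
    rw [f1]
    calc r ^ 11 * b r / 2 * (s1 ^ 2 + d1 ^ 2)
        ≤ r ^ 11 * (B0 * r) / 2 * (2 * (K * ρ / r) ^ 2) := by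
          apply mul_le_mul _ (by linarith) (by positivity) (by positivity)
          apply div_le_div_of_nonneg_right _ (by norm_num)
          exact mul_le_mul_of_nonneg_left hb1 (by positivity)
      _ = K ^ 2 * B0 * (r ^ 11 * ρ ^ 2) / r := by field_simp
      _ = _ := by rw [hρ2]; ring
  have t2' : 0 ≤ w r * b r / 2 * (‖S1 r‖ ^ 2 + ‖D1 r‖ ^ 2) := by rw [hw]; positivity
  have t3 : kap * (w r * b r / (2 * r ^ 2)) * (‖S r‖ ^ 2 + ‖D r‖ ^ 2) ≤ K ^ 2 * (kap * B0) / r := by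
    have f1 : kap * (w r * b r / (2 * r ^ 2)) * (‖S r‖ ^ 2 + ‖D r‖ ^ 2)
        = kap * (r ^ 11 * b r / (2 * r ^ 2)) * (s ^ 2 + d ^ 2) := by
      rw [hw, hs, hd]; ring
    rw [f1]
    calc kap * (r ^ 11 * b r / (2 * r ^ 2)) * (s ^ 2 + d ^ 2)
        ≤ kap * (r ^ 11 * (B0 * r) / (2 * r ^ 2)) * (2 * (K * ρ) ^ 2) := by
          apply mul_le_mul _ (by linarith) (by positivity) (by positivity)
          apply mul_le_mul_of_nonneg_left _ hk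
          apply div_le_div_of_nonneg_right _ (by positivity)
          exact mul_le_mul_of_nonneg_left hb1 (by positivity)
      _ = K ^ 2 * (kap * B0) * (r ^ 11 * ρ ^ 2) / r := by field_simp
      _ = _ := by rw [hρ2]; ring
  have t3' : 0 ≤ kap * (w r * b r / (2 * r ^ 2)) * (‖S r‖ ^ 2 + ‖D r‖ ^ 2) := by
    rw [hw]; positivity
  have t4 : nn * (w r * b r * P r / 2) * ‖S r‖ ^ 2 ≤ K ^ 2 * (nn * B0 * CP) / r := by
    have f1 : nn * (w r * b r * P r / 2) * ‖S r‖ ^ 2 = nn * (r ^ 11 * b r * P r / 2) * s ^ 2 := by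
      rw [hw, hs]; ring
    rw [f1]
    calc nn * (r ^ 11 * b r * P r / 2) * s ^ 2
        ≤ nn * (r ^ 11 * (B0 * r) * (CP / r ^ 2) / 2) * (K * ρ) ^ 2 := by
          apply mul_le_mul _ q1 (by positivity) (by positivity)
          apply mul_le_mul_of_nonneg_left _ hn
          apply div_le_div_of_nonneg_right _ (by norm_num)
          apply mul_le_mul _ hP1 hP0 (by positivity)
          exact mul_le_mul_of_nonneg_left hb1 (by positivity)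
      _ = K ^ 2 * (nn * B0 * CP) * (r ^ 11 * ρ ^ 2) / (2 * r) := by field_simp
      _ = K ^ 2 * (nn * B0 * CP) / r / 2 := by rw [hρ2]; field_simp
      _ ≤ K ^ 2 * (nn * B0 * CP) / r := by
          have : 0 ≤ K ^ 2 * (nn * B0 * CP) / r := by positivity
          linarith
  have t4' : 0 ≤ nn * (w r * b r * P r / 2) * ‖S r‖ ^ 2 := by rw [hw]; positivity
  rw [e1] at t1
  unfold Bd
  have hsum : K ^ 2 * (2 * ‖lam‖ + B0 + kap * B0 + nn * B0 * CP) / r =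
      2 * ‖lam‖ * K ^ 2 / r + K ^ 2 * B0 / r + K ^ 2 * (kap * B0) / r
        + K ^ 2 * (nn * B0 * CP) / r := by ring
  rw [hsum]
  have t1' := abs_le.1 t1
  rw [abs_le]
  constructor <;> linarith [t1'.1, t1'.2]

theorem rpow_facts {r : ℝ} (hr : 1 ≤ r) :
    0 ≤ r ^ (-(11 / 2 : ℝ)) ∧ r ^ 11 * (r ^ (-(11 / 2 : ℝ))) ^ 2 = 1 := by
  have hr0 : 0 < r := by linarith
  refine ⟨(Real.rpow_pos_of_pos hr0 _).le, ?_⟩
  rw [← Real.rpow_natCast, ← Real.rpow_natCast, ← Real.rpow_mul hr0.le, ← Real.rpow_add hr0]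
  norm_num

theorem tendsto_div (C : ℝ) : Tendsto (fun r : ℝ => C / r) atTop (𝓝 0) :=
  tendsto_const_nhds.div_atTop tendsto_id

theorem Bd_tendsto {w b P : ℝ → ℝ} {kap nn B0 CP K : ℝ} {lam : ℂ} {S S1 D D1 : ℝ → ℂ} {m : ℝ → ℝ}
    (hk : 0 ≤ kap) (hn : 0 ≤ nn) (hB0 : 0 ≤ B0) (hCP : 0 ≤ CP) (hK : 0 ≤ K)
    (hm : ∀ r, 1 ≤ r → 0 ≤ m r) (hw : ∀ r, 1 ≤ r → w r = m r ^ 2 * r ^ 11)
    (hb0 : ∀ r, 1 ≤ r → 0 ≤ b r) (hb1 : ∀ r, 1 ≤ r → b r ≤ B0 * r)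
    (hP0 : ∀ r, 1 ≤ r → 0 ≤ P r) (hP1 : ∀ r, 1 ≤ r → P r ≤ CP / r ^ 2)
    (hp : ∀ r, 1 ≤ r → m r * ‖S r‖ ≤ K * r ^ (-(11 / 2 : ℝ)) ∧
      m r * ‖D r‖ ≤ K * r ^ (-(11 / 2 : ℝ)) ∧ m r * ‖S1 r‖ ≤ K * r ^ (-(11 / 2 : ℝ)) / r ∧
      m r * ‖D1 r‖ ≤ K * r ^ (-(11 / 2 : ℝ)) / r) :
    Tendsto (Bd w b P kap nn lam S S1 D D1) atTop (𝓝 0) := by
  refine squeeze_zero_norm' ?_
    (tendsto_div (K ^ 2 * (2 * ‖lam‖ + B0 + kap * B0 + nn * B0 * CP)))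
  filter_upwards [eventually_ge_atTop (1 : ℝ)] with r hr
  rw [Real.norm_eq_abs]
  obtain ⟨h1, h2, h3, h4⟩ := hp r hr
  exact Bd_le hr hk hn hB0 hCP hK (rpow_facts hr).1 (rpow_facts hr).2 (hm r hr) (hw r hr) (hb0 r hr)
    (hb1 r hr) (hP0 r hr) (hP1 r hr) h1 h2 h3 h4

theorem hardy_tendsto {g : ℝ → ℝ} {A K : ℝ} {S : ℝ → ℂ} {m : ℝ → ℝ} (hA : 0 ≤ A)
    (hg0 : ∀ r, 1 ≤ r → 0 ≤ g r) (hg : ∀ r, 1 ≤ r → g r ≤ A * m r ^ 2)
    (hm : ∀ r, 1 ≤ r → 0 ≤ m r)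
    (hp : ∀ r, 1 ≤ r → m r * ‖S r‖ ≤ K * r ^ (-(11 / 2 : ℝ))) :
    Tendsto (fun r => r ^ 10 * g r * ‖S r‖ ^ 2) atTop (𝓝 0) := by
  refine squeeze_zero' ?_ ?_ (tendsto_div (A * K ^ 2))
  · filter_upwards [eventually_ge_atTop (1 : ℝ)] with r hr
    have := hg0 r hr
    have : 0 < r := by linarith
    positivity
  · filter_upwards [eventually_ge_atTop (1 : ℝ)] with r hr
    have hr0 : 0 < r := by linarith
    have h1 := hp r hr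
    have h2 := (rpow_facts hr).2
    have h3 : (m r * ‖S r‖) ^ 2 ≤ (K * r ^ (-(11 / 2 : ℝ))) ^ 2 :=
      pow_le_pow_left₀ (mul_nonneg (hm r hr) (norm_nonneg _)) h1 2
    calc r ^ 10 * g r * ‖S r‖ ^ 2 ≤ r ^ 10 * (A * m r ^ 2) * ‖S r‖ ^ 2 := by
          apply mul_le_mul_of_nonneg_right _ (by positivity)
          exact mul_le_mul_of_nonneg_left (hg r hr) (by positivity)
      _ = r ^ 10 * A * (m r * ‖S r‖) ^ 2 := by ring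
      _ ≤ r ^ 10 * A * (K * r ^ (-(11 / 2 : ℝ))) ^ 2 :=
          mul_le_mul_of_nonneg_left h3 (by positivity)
      _ = A * K ^ 2 * (r ^ 11 * (r ^ (-(11 / 2 : ℝ))) ^ 2) / r := by field_simp
      _ = _ := by rw [h2, mul_one]

end Crest.Agent.R086.R0
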