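import Crest.Agent.R086.R0d
import Crest.Agent.R086.ModeDer

/-!
Row 86 (S0114), Part C, node R0Stmt (helper91): assembly.
-/

set_option autoImplicit false

open MeasureTheory Complex Set Filter Topology ComplexConjugate
open scoped ContDiff

namespace Crest.Agent.R086.R0

open CCore CCore.Sys

/-- the coefficient facts for one profile -/
structure Coefs {n : ℕ} (P : Profile n) (A B0 Bc C : ℝ) (g g1 P1 : ℝ → ℝ) : Prop where
  hA : 0 < A
  hB0 : 0 ≤ B0
  hBc : 0 ≤ Bc
  hC : 0 ≤ C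
  ne : ∀ r, P.q r ≠ 0
  der : ∀ r, 0 ≤ r → ‖deriv P.q r‖ ≤ C * (r / (1 + r ^ 2)) * ‖P.q r‖
  hg0 : ∀ r, 0 < r → 0 < g r
  hg : ∀ r, 0 < r → HasDerivAt g (g1 r) r
  hg1 : ∀ r, 0 < r → -2 * g r ≤ r * g1 r
  hgle : ∀ r, 0 < r → g r ≤ 1
  hw1 : ∀ r, 0 < r → (A ^ 2)⁻¹ * (r ^ 11 * g r) ≤ w P.q r
  hw2 : ∀ r, 0 < r → w P.q r ≤ A ^ 2 * (r ^ 11 * g r)
  hP : ∀ r, 0 < r → HasDerivAt (Pw P) (P1 r) r
  hb0 : ∀ r, 0 < r → 0 ≤ b P.q (deriv P.q) r
  hb1 : ∀ r, 0 < r → b P.q (deriv P.q) r ≤ B0 * r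
  hrho : ∀ r, 0 < r → r * rho P.q (deriv P.q) r ≤ Bc
  hPb : ∀ r, 0 < r → (n : ℝ) * (P1 r * b P.q (deriv P.q) r) ≤ n * Pw P r + (A ^ 4)⁻¹ / r ^ 2

variable {n : ℕ} {P : Profile n}

theorem DSys_of_eig {lam : ℂ} {l : ℕ} {H : R12 → ℝ} {F G : ℝ → ℂ} (E : P.Eig lam l H F G)
    (hv : ∃ C : ℝ, 0 ≤ C ∧ ∀ r : ℝ, 1 ≤ r → ‖P.q r‖ ^ n ≤ C * r ^ (-(2 : ℝ))) :
    DSys ((l : ℝ) * (l + 10)) (lam + 1 / n - I * P.om) (lam + 1 / n + I * P.om) P.rV1 P.rV2 P.rV2c
      (fun j => iteratedDeriv j F) (fun j => iteratedDeriv j G) := by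
  obtain ⟨C, hC, hv⟩ := hv
  have hd : ∀ {K : ℝ → ℂ}, ContDiff ℝ N0 K → ∀ j, j < 20 → ∀ s : ℝ, 1 ≤ s →
      HasDerivAt (iteratedDeriv j K) (iteratedDeriv (j + 1) K s) s := by
    intro K hK j hj s _
    have h1 : Differentiable ℝ (iteratedDeriv j K) :=
      hK.differentiable_iteratedDeriv j (by exact_mod_cast hj)
    have := (h1 s).hasDerivAt
    rwa [← iteratedDeriv_succ] at this
  have n1 : ∀ r : ℝ, 1 ≤ r → ‖P.q r‖ ^ n ≤ C * r ^ (-(2 : ℝ)) := hv
  have sq : ∀ r : ℝ, ‖P.q r‖ ^ (n - 2) * ‖P.q r‖ ^ 2 = ‖P.q r‖ ^ n := by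
    intro r
    rw [← pow_add]
    congr 1
    have := P.two_le
    omega
  have hn2 : ‖((n : ℂ) / 2)‖ = n / 2 := by
    rw [norm_div, Complex.norm_natCast]; norm_num
  have e2 : deriv (deriv F) = iteratedDeriv 2 F := by
    rw [iteratedDeriv_succ, iteratedDeriv_one]
  have e2' : deriv (deriv G) = iteratedDeriv 2 G := by
    rw [iteratedDeriv_succ, iteratedDeriv_one]
  exact
    { df := hd E.mode.cF
      dg := hd E.mode.cG
      bf := fun j hj => by
        obtain ⟨C, hC⟩ := ModeDer.bound E.mode.norm E.mode.xF j hj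
        exact ⟨C, fun s hs => hC s (by linarith)⟩
      bg := fun j hj => by
        obtain ⟨C, hC⟩ := ModeDer.bound E.mode.norm E.mode.xG j hj
        exact ⟨C, fun s hs => hC s (by linarith)⟩
      v1 := by
        refine ⟨(1 + n / 2) * C, by positivity, fun r hr => ?_⟩
        unfold Profile.rV1
        rw [norm_mul, Complex.norm_real, Real.norm_of_nonneg (by positivity), mul_assoc]
        have e : ‖(1 + (n : ℂ) / 2)‖ = 1 + n / 2 := by
          have : (1 + (n : ℂ) / 2) = ((1 + n / 2 : ℝ) : ℂ) := by push_cast; ring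
          rw [this, Complex.norm_real, Real.norm_of_nonneg (by positivity)]
        rw [e]
        exact mul_le_mul_of_nonneg_left (n1 r hr) (by positivity)
      v2 := by
        refine ⟨(n / 2) * C, by positivity, fun r hr => ?_⟩
        unfold Profile.rV2
        rw [norm_mul, norm_mul, Complex.norm_real, Real.norm_of_nonneg (by positivity), norm_pow,
          hn2, mul_assoc, sq, mul_assoc]
        exact mul_le_mul_of_nonneg_left (n1 r hr) (by positivity)
      v2c := by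
        refine ⟨(n / 2) * C, by positivity, fun r hr => ?_⟩
        unfold Profile.rV2c
        rw [norm_mul, norm_mul, Complex.norm_real, Real.norm_of_nonneg (by positivity), norm_pow,
          Complex.norm_conj, hn2, mul_assoc, sq, mul_assoc]
        exact mul_le_mul_of_nonneg_left (n1 r hr) (by positivity)
      ef := fun r hr => by
        have hr0 : (0 : ℝ) < r := by linarith
        have hrc : (r : ℂ) ≠ 0 := by exact_mod_cast hr0.ne'
        have e := E.eq1 r hr0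
        unfold Profile.rgen1 rlap at e
        rw [← e2]
        simp only [iteratedDeriv_one, iteratedDeriv_zero]
        have i2 : ((l : ℂ) * (l + 10) / (r : ℂ) ^ 2) =
          ((l : ℂ) * (l + 10)) * ((r : ℂ)⁻¹ * (r : ℂ)⁻¹) := by field_simp
        rw [i2, div_eq_mul_inv (11 : ℂ)] at e
        push_cast
        linear_combination -e
      eg := fun r hr => by
        have hr0 : (0 : ℝ) < r := by linarith
        have e := E.eq2 r hr0
        have hrc : (r : ℂ) ≠ 0 := by exact_mod_cast hr0.ne'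
        unfold Profile.rgen2 rlap at e
        rw [← e2']
        simp only [iteratedDeriv_one, iteratedDeriv_zero]
        have i2 : ((l : ℂ) * (l + 10) / (r : ℂ) ^ 2) =
          ((l : ℂ) * (l + 10)) * ((r : ℂ)⁻¹ * (r : ℂ)⁻¹) := by field_simp
        rw [i2, div_eq_mul_inv (11 : ℂ)] at e
        push_cast
        linear_combination -e }

/-- decay of `|q|^n` from the decay of the profile -/
theorem pow_dec (P : Profile n) : ∃ C : ℝ, 0 ≤ C ∧ ∀ r : ℝ, 1 ≤ r →
    ‖P.q r‖ ^ n ≤ C * r ^ (-(2 : ℝ)) := by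
  obtain ⟨C, hC⟩ := P.decay 0
  have hn : (0 : ℝ) < n := by
    have := P.two_le
    exact_mod_cast (by omega : 0 < n)
  have hC0 : 0 ≤ C := by
    have := hC 0
    simp only [norm_iteratedFDeriv_zero, norm_zero, add_zero, Real.one_rpow, mul_one] at this
    exact (norm_nonneg _).trans this
  refine ⟨C ^ n, by positivity, fun r hr => ?_⟩
  have hr0 : 0 < r := by linarith
  have h1 := hC (r • (w0 : R12))
  rw [norm_iteratedFDeriv_zero, SH.Q_smul P hr0.le, SH.norm_smul_w hr0.le] at h1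
  have h2 : (1 + r) ^ (-(2 : ℝ) / n - ((0 : ℕ) : ℝ)) ≤ r ^ (-(2 : ℝ) / n) := by
    have e : (-(2 : ℝ) / n - ((0 : ℕ) : ℝ)) = -(2 : ℝ) / n := by simp
    rw [e]
    apply Real.rpow_le_rpow_of_nonpos hr0 (by linarith)
    have : 0 ≤ 2 / (n : ℝ) := by positivity
    rw [neg_div]
    linarith
  have h3 : ‖P.q r‖ ≤ C * r ^ (-(2 : ℝ) / n) := h1.trans (mul_le_mul_of_nonneg_left h2 hC0)
  calc ‖P.q r‖ ^ n ≤ (C * r ^ (-(2 : ℝ) / n)) ^ n := pow_le_pow_left₀ (norm_nonneg _) h3 n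
    _ = C ^ n * r ^ (-(2 : ℝ)) := by
        rw [mul_pow, ← Real.rpow_natCast (r ^ (-(2 : ℝ) / n)) n, ← Real.rpow_mul hr0.le]
        congr 2
        field_simp

/-- **no eigenpair with large real part** -/
theorem no_large {A B0 Bc C : ℝ} {g g1 P1 : ℝ → ℝ} (K : Coefs P A B0 Bc C g g1 P1) {lam : ℂ} {l : ℕ}
    {H : R12 → ℝ} {F G : ℝ → ℂ} (E : P.Eig lam l H F G)
    (hlam : 4 + B0 * (11 + 2 * Bc) < lam.re) : ¬ NZ F G := by
  have hBB : 0 ≤ B0 * (11 + 2 * Bc) := mul_nonneg K.hB0 (by linarith [K.hBc])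
  have hn : 2 ≤ n := P.two_le
  have hn0 : (0 : ℝ) < n := by exact_mod_cast (by omega : 0 < n)
  have hn1 : (1 : ℝ) ≤ n := by exact_mod_cast (by omega : 1 ≤ n)
  have hF2 : ContDiff ℝ 2 F := E.mode.cF.of_le (by norm_num [N0])
  have hG2 : ContDiff ℝ 2 G := E.mode.cG.of_le (by norm_num [N0])
  have hF1 : ContDiff ℝ 1 F := E.mode.cF.of_le (by norm_num [N0])
  have hG1 : ContDiff ℝ 1 G := E.mode.cG.of_le (by norm_num [N0])
  have hsys : ∀ r, 0 < r → Sys (w P.q) (b P.q (deriv P.q)) (Pw P) (rho P.q (deriv P.q))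
      ((l : ℝ) * (l + 10)) n (1 / n) lam (S P F G) (S1 P F G) (D P F G) (D1 P F G) 0 0 r :=
    fun r hr => sys P hF2 hG2 hr (K.ne r) (E.eq1 r hr) (E.eq2 r hr)
  -- decay
  have hDS := DSys_of_eig E (pow_dec P)
  have hin : ((1 : ℂ) / n).re = 1 / n := by
    have : ((1 : ℂ) / n) = ((1 / n : ℝ) : ℂ) := by push_cast; rfl
    rw [this, Complex.ofReal_re]
  have hin0 : 0 < 1 / (n : ℝ) := by positivity
  have hre : 3 < (lam + 1 / n - I * P.om).re := by
    simp only [Complex.sub_re, Complex.add_re, hin, Complex.mul_re, Complex.I_re, Complex.I_im,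
      Complex.ofReal_re, Complex.ofReal_im]
    linarith
  have hre' : 3 < (lam + 1 / n + I * P.om).re := by
    simp only [Complex.add_re, hin, Complex.mul_re, Complex.I_re, Complex.I_im,
      Complex.ofReal_re, Complex.ofReal_im]
    linarith
  have hdec := hDS.decay hre hre'
  simp only [iteratedDeriv_zero, iteratedDeriv_one] at hdec
  obtain ⟨dF, dG, dF1, dG1⟩ := hdec
  obtain ⟨Kc, hKc, hpb⟩ := prod_bounds K.ne K.hC K.der dF dG dF1 dG1
  obtain ⟨CP, hCP, hCPb⟩ := pow_dec P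
  have hkap : 0 ≤ (l : ℝ) * (l + 10) := by positivity
  have hli : Tendsto (Bd (w P.q) (b P.q (deriv P.q)) (Pw P) ((l : ℝ) * (l + 10)) n lam (S P F G)
      (S1 P F G) (D P F G) (D1 P F G)) atTop (𝓝 0) := by
    refine Bd_tendsto (m := fun r => ‖P.q r‖) (B0 := B0) (CP := CP) (K := Kc) hkap hn0.le K.hB0 hCP
      hKc (fun r _ => norm_nonneg _) (fun r _ => rfl) (fun r hr => K.hb0 r (by linarith))
      (fun r hr => K.hb1 r (by linarith)) (fun r _ => by unfold Pw; positivity) (fun r hr => ?_) hpb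
    have hr0 : 0 < r := by linarith
    have := hCPb r hr
    unfold Pw
    rw [Real.rpow_neg hr0.le] at this
    have e : r ^ (2 : ℝ) = r ^ 2 := by norm_num
    rw [e] at this
    rw [div_eq_mul_inv]
    exact this
  have hgm : ∀ r, 1 ≤ r → g r ≤ A ^ 2 * ‖P.q r‖ ^ 2 := by
    intro r hr
    have hr0 : 0 < r := by linarith
    have h1 := K.hw1 r hr0
    unfold w at h1
    have hA := K.hA
    have hr11 : 0 < r ^ 11 := by positivity
    have h2 : (A ^ 2)⁻¹ * g r ≤ ‖P.q r‖ ^ 2 := by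
      have : (A ^ 2)⁻¹ * g r * r ^ 11 ≤ ‖P.q r‖ ^ 2 * r ^ 11 := by linarith
      exact le_of_mul_le_mul_right this hr11
    have h3 := mul_le_mul_of_nonneg_left h2 (show 0 ≤ A ^ 2 by positivity)
    rwa [← mul_assoc, mul_inv_cancel₀ (by positivity), one_mul] at h3
  have hlhi : Tendsto (fun r => r ^ 10 * g r * ‖S P F G r‖ ^ 2) atTop (𝓝 0) :=
    hardy_tendsto (m := fun r => ‖P.q r‖) (A := A ^ 2) (K := Kc) (by positivity)
      (fun r hr => (K.hg0 r (by linarith)).le) hgm (fun r _ => norm_nonneg _)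
      (fun r hr => (hpb r hr).1)
  have hlh0 : Tendsto (fun r => r ^ 10 * g r * ‖S P F G r‖ ^ 2) (𝓝[>] 0) (𝓝 0) := by
    have cS := cS K.ne hF1.continuous hG1.continuous
    have hc : Continuous fun r : ℝ => r ^ 10 * ‖S P F G r‖ ^ 2 := by fun_prop
    have h0 := hc.tendsto 0
    simp only [ne_eq, OfNat.ofNat_ne_zero, not_false_eq_true, zero_pow, zero_mul] at h0
    refine squeeze_zero' ?_ ?_ (h0.mono_left nhdsWithin_le_nhds)
    · filter_upwards [self_mem_nhdsWithin] with r hr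
      have := K.hg0 r hr
      have hr' : (0 : ℝ) < r := hr
      positivity
    · filter_upwards [self_mem_nhdsWithin] with r hr
      have hr' : (0 : ℝ) < r := hr
      have h1 := K.hgle r hr'
      apply mul_le_mul_of_nonneg_right _ (by positivity)
      have : r ^ 10 * g r ≤ r ^ 10 * 1 := mul_le_mul_of_nonneg_left h1 (by positivity)
      linarith
  have hfin := CH.abstract_bound (kap := (l : ℝ) * (l + 10)) (eps := 1 / n) (B0 := B0) (B := Bc)
    (dl := (A ^ 4)⁻¹) K.hA hin0.le (by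
      rw [div_le_iff₀ hn0]; linarith) hn0 hkap K.hB0 K.hBc
    (by have := K.hA; positivity) (by
      have := K.hA
      rw [inv_mul_cancel₀ (by positivity)]) K.hg0 K.hg K.hg1 K.hw1 K.hw2 hsys K.hP
    (fun r _ => by unfold Pw; have := norm_pos_iff.2 (K.ne r); positivity) K.hb0 K.hb1 K.hrho
    K.hPb hlam (lim_zero K.ne hF1 hG1 _ _) hli hlh0 hlhi
  rintro ⟨r, hr, hne⟩
  obtain ⟨hS, hD⟩ := hfin r hr
  unfold S at hS
  unfold D at hD
  have hq := K.ne r
  have hqc : conj (P.q r) ≠ 0 := by simpa using hq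
  have f1 : F r / P.q r = 0 := by linear_combination hS + hD
  have f2 : G r / conj (P.q r) = 0 := by linear_combination hS - hD
  have f1' := (div_eq_zero_iff.1 f1).resolve_right hq
  have f2' := (div_eq_zero_iff.1 f2).resolve_right hqc
  rcases hne with h | h
  · exact h f1'
  · exact h f2'

end Crest.Agent.R086.R0
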