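import Crest.Agent.R086.R0e
import Crest.Agent.R086.PFacts

/-!
Row 86 (S0114), Part C, node R0Stmt (helper91): the coefficient facts from `BData`, final theorem.
-/

set_option autoImplicit false

open MeasureTheory Complex Set Filter Topology ComplexConjugate
open scoped ContDiff

namespace Crest.Agent.R086.R0

open CCore CCore.Sys

theorem coefs_of {n : ℕ} {P : Profile n} {A C T e : ℝ} (hA : 0 < A) (hC : 0 ≤ C) (hT : 0 < T)
    (ne : ∀ r, P.q r ≠ 0)
    (der : ∀ r, 0 ≤ r → ‖deriv P.q r‖ ≤ C * (r / (1 + r ^ 2)) * ‖P.q r‖)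
    (lo : ∀ r, 0 ≤ r → 1 / A ≤ ‖P.q r‖ * (1 + r) ^ ((2 : ℝ) / n))
    (up : ∀ r, 0 ≤ r → ‖P.q r‖ * (1 + r) ^ ((2 : ℝ) / n) ≤ A)
    (he : e * A ^ 4 * T ≤ 1)
    (core : ∀ r ∈ Icc (0 : ℝ) T, (n : ℝ) * (deriv P.q r / P.q r).re ≤ e)
    (tail : ∀ r, T ≤ r → (n : ℝ) ^ 2 * C * A ^ 4 * ‖P.q r‖ ^ n ≤ (A ^ 4)⁻¹ / r ^ 2) :
    Coefs P A (A ^ 4) C C (fun r => (1 + r) ^ (-(4 : ℝ) / n))
      (fun r => (-(4 : ℝ) / n) * (1 + r) ^ (-(4 : ℝ) / n - 1))
      (fun r => n * rho P.q (deriv P.q) r * Pw P r) := by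
  have hn : 2 ≤ n := P.two_le
  have hn0 : (0 : ℝ) < n := by exact_mod_cast (by omega : 0 < n)
  have hn2 : (2 : ℝ) ≤ n := by exact_mod_cast hn
  set g : ℝ → ℝ := fun r => (1 + r) ^ (-(4 : ℝ) / n) with hg
  set g1 : ℝ → ℝ := fun r => (-(4 : ℝ) / n) * (1 + r) ^ (-(4 : ℝ) / n - 1) with hg1
  have g0 : ∀ r, 0 < r → 0 < g r := fun r hr => Real.rpow_pos_of_pos (by linarith) _
  have gd : ∀ r, 0 < r → HasDerivAt g (g1 r) r := by
    intro r hr
    have h1 : HasDerivAt (fun r : ℝ => 1 + r) 1 r := (hasDerivAt_id r).const_add 1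
    have h2 := h1.rpow_const (p := -(4 : ℝ) / n) (Or.inl (by linarith : (1 : ℝ) + r ≠ 0))
    refine h2.congr_deriv ?_
    simp only [hg1]
    ring
  have gle : ∀ r, 0 < r → g r ≤ 1 := fun r hr =>
    Real.rpow_le_one_of_one_le_of_nonpos (by linarith) (by
      rw [neg_div]
      have : 0 ≤ 4 / (n : ℝ) := by positivity
      linarith)
  have g2 : ∀ r, 0 < r → -2 * g r ≤ r * g1 r := by
    intro r hr
    have h1 : (1 + r) ^ (-(4 : ℝ) / n - 1) = g r / (1 + r) := by
      rw [Real.rpow_sub_one (by linarith)]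
    simp only [hg1]
    rw [h1]
    have h2 : r / (1 + r) ≤ 1 := by rw [div_le_one (by linarith)]; linarith
    have h3 : 0 ≤ r / (1 + r) := by positivity
    have h4 : 4 / (n : ℝ) ≤ 2 := by rw [div_le_iff₀ hn0]; linarith
    have h5 : 0 ≤ 4 / (n : ℝ) := by positivity
    have h6 : (4 / (n : ℝ)) * (r / (1 + r)) ≤ 2 * 1 := mul_le_mul h4 h2 h3 (by norm_num)
    have h7 := mul_le_mul_of_nonneg_right h6 (g0 r hr).le
    have e : r * ((-(4 : ℝ) / n) * (g r / (1 + r))) = -((4 / (n : ℝ)) * (r / (1 + r)) * g r) := by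
      ring
    rw [e]
    linarith
  have hgsq : ∀ r, 0 < r → ((1 + r) ^ ((2 : ℝ) / n)) ^ 2 * g r = 1 := by
    intro r hr
    have h1 : (0 : ℝ) < 1 + r := by linarith
    simp only [hg]
    rw [← Real.rpow_natCast, ← Real.rpow_mul h1.le, ← Real.rpow_add h1]
    have : (2 : ℝ) / n * ((2 : ℕ) : ℝ) + -(4 : ℝ) / n = 0 := by push_cast; ring
    rw [this, Real.rpow_zero]
  have wq : ∀ r, 0 < r → w P.q r = (‖P.q r‖ * (1 + r) ^ ((2 : ℝ) / n)) ^ 2 * (r ^ 11 * g r) := by
    intro r hr
    have := hgsq r hr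
    unfold w
    calc ‖P.q r‖ ^ 2 * r ^ 11 = ‖P.q r‖ ^ 2 * r ^ 11 * (((1 + r) ^ ((2 : ℝ) / n)) ^ 2 * g r) := by
          rw [this, mul_one]
      _ = _ := by ring
  have w1 : ∀ r, 0 < r → (A ^ 2)⁻¹ * (r ^ 11 * g r) ≤ w P.q r := by
    intro r hr
    rw [wq r hr]
    have h1 := lo r hr.le
    have h2 : (1 / A) ^ 2 ≤ (‖P.q r‖ * (1 + r) ^ ((2 : ℝ) / n)) ^ 2 :=
      pow_le_pow_left₀ (by positivity) h1 2
    have h3 : (A ^ 2)⁻¹ = (1 / A) ^ 2 := by field_simp
    rw [h3]
    exact mul_le_mul_of_nonneg_right h2 (mul_nonneg (by positivity) (g0 r hr).le)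
  have w2 : ∀ r, 0 < r → w P.q r ≤ A ^ 2 * (r ^ 11 * g r) := by
    intro r hr
    rw [wq r hr]
    have h1 := up r hr.le
    have h0 : 0 ≤ ‖P.q r‖ * (1 + r) ^ ((2 : ℝ) / n) :=
      mul_nonneg (norm_nonneg _) (Real.rpow_nonneg (by linarith) _)
    exact mul_le_mul_of_nonneg_right (pow_le_pow_left₀ h0 h1 2)
      (mul_nonneg (by positivity) (g0 r hr).le)
  have hwb0 : Tendsto (fun r => w P.q r * b P.q (deriv P.q) r) (𝓝[>] 0) (𝓝 0) := by
    have h := q_cont P
    have h1 := dq_cont P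
    have hc : Continuous fun r : ℝ => 2 * r ^ 11 * (deriv P.q r * conj (P.q r)).im
        + r ^ 12 / 2 * ‖P.q r‖ ^ 2 := by
      have hi : Continuous fun r : ℝ => (deriv P.q r * conj (P.q r)).im :=
        Complex.continuous_im.comp (h1.mul (Complex.continuous_conj.comp h))
      fun_prop
    have h0 := hc.tendsto 0
    simp only [ne_eq, OfNat.ofNat_ne_zero, not_false_eq_true, zero_pow, mul_zero, zero_mul,
      zero_div, add_zero] at h0
    refine (h0.mono_left nhdsWithin_le_nhds).congr ?_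
    intro r
    exact (wb_eq P).symm
  have hbb := CH.b_bounds (w := w P.q) (b := b P.q (deriv P.q)) (eps := 1 / n) hA
    (by positivity) (by rw [div_le_iff₀ hn0]; linarith) g0 gd g2 gle w1 w2
    (fun r hr => hasDerivAt_wb (q_diff P r) hr.ne' (hasDerivAt_dq P hr)) hwb0
  have hrho : ∀ r, 0 < r → rho P.q (deriv P.q) r ≤ C * (r / (1 + r ^ 2)) := by
    intro r hr
    unfold rho
    refine (Complex.re_le_norm _).trans ?_
    rw [norm_div, div_le_iff₀ (norm_pos_iff.2 (ne r))]
    exact der r hr.le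
  have hPw : ∀ r, 0 < Pw P r := fun r => by
    unfold Pw; have := norm_pos_iff.2 (ne r); positivity
  exact
    { hA := hA
      hB0 := by positivity
      hBc := hC
      hC := hC
      ne := ne
      der := der
      hg0 := g0
      hg := gd
      hg1 := g2
      hgle := gle
      hw1 := w1
      hw2 := w2
      hP := fun r hr => PF.hasDerivAt_P n (q_diff P r) (ne r)
      hb0 := fun r hr => (hbb r hr).1
      hb1 := fun r hr => (hbb r hr).2
      hrho := fun r hr => by
        have h1 := mul_le_mul_of_nonneg_left (hrho r hr) hr.le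
        refine h1.trans ?_
        have : r * (C * (r / (1 + r ^ 2))) = C * (r ^ 2 / (1 + r ^ 2)) := by ring
        rw [this]
        have h2 : r ^ 2 / (1 + r ^ 2) ≤ 1 := by rw [div_le_one (by positivity)]; linarith
        calc C * (r ^ 2 / (1 + r ^ 2)) ≤ C * 1 := mul_le_mul_of_nonneg_left h2 hC
          _ = C := mul_one C
      hPb := fun r hr => by
        obtain ⟨hb0, hb1⟩ := hbb r hr
        have hp := hPw r
        have hAi : 0 < (A ^ 4)⁻¹ / r ^ 2 := by positivity
        rcases le_total r T with h | h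
        · have h1 : (n : ℝ) * rho P.q (deriv P.q) r ≤ e := core r ⟨hr.le, h⟩
          have h2 : (n : ℝ) * rho P.q (deriv P.q) r * b P.q (deriv P.q) r ≤ 1 := by
            rcases le_total (e) 0 with h0 | h0
            · have : (n : ℝ) * rho P.q (deriv P.q) r * b P.q (deriv P.q) r ≤ 0 :=
                mul_nonpos_of_nonpos_of_nonneg (h1.trans h0) hb0
              linarith
            · calc (n : ℝ) * rho P.q (deriv P.q) r * b P.q (deriv P.q) r
                  ≤ e * b P.q (deriv P.q) r := mul_le_mul_of_nonneg_right h1 hb0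
                _ ≤ e * (A ^ 4 * r) := mul_le_mul_of_nonneg_left hb1 h0
                _ ≤ e * (A ^ 4 * T) := by
                    apply mul_le_mul_of_nonneg_left _ h0
                    exact mul_le_mul_of_nonneg_left h (by positivity)
                _ ≤ 1 := by linarith
          have h3 : (n : ℝ) * ((n : ℝ) * rho P.q (deriv P.q) r * Pw P r * b P.q (deriv P.q) r)
              ≤ n * Pw P r := by
            apply mul_le_mul_of_nonneg_left _ hn0.le
            have := mul_le_mul_of_nonneg_right h2 hp.le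
            linarith
          linarith
        · have h1 := hrho r hr
          have h2 : rho P.q (deriv P.q) r * b P.q (deriv P.q) r ≤ C * A ^ 4 := by
            calc rho P.q (deriv P.q) r * b P.q (deriv P.q) r
                ≤ (C * (r / (1 + r ^ 2))) * b P.q (deriv P.q) r :=
                  mul_le_mul_of_nonneg_right h1 hb0
              _ ≤ (C * (r / (1 + r ^ 2))) * (A ^ 4 * r) :=
                  mul_le_mul_of_nonneg_left hb1 (by positivity)
              _ = C * A ^ 4 * (r ^ 2 / (1 + r ^ 2)) := by ring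
              _ ≤ C * A ^ 4 * 1 := by
                  apply mul_le_mul_of_nonneg_left _ (by positivity)
                  rw [div_le_one (by positivity)]; linarith
              _ = _ := mul_one _
          have h3 := tail r h
          have h4 : (n : ℝ) * ((n : ℝ) * rho P.q (deriv P.q) r * Pw P r * b P.q (deriv P.q) r)
              ≤ (n : ℝ) ^ 2 * C * A ^ 4 * Pw P r := by
            have := mul_le_mul_of_nonneg_right h2 (show 0 ≤ (n : ℝ) ^ 2 * Pw P r by positivity)
            linarith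
          have h5 : 0 ≤ (n : ℝ) * Pw P r := by positivity
          unfold Pw at h4 h5 ⊢
          linarith }

theorem r0Stmt : R0Stmt := by
  intro om0 R U L B
  obtain ⟨A, hA, hdec⟩ := B.decay2
  obtain ⟨C0, hder⟩ := B.q_der
  obtain ⟨del0, hdel0, hlog⟩ := B.logder
  set C : ℝ := |C0| with hCdef
  have hC : 0 ≤ C := abs_nonneg _
  set T : ℝ := R + del0 with hTdef
  have hR : 0 < R := by have := L.R_lo; linarith
  have hT : 0 < T := by linarith
  obtain ⟨c, hc, htail⟩ := B.pow_tail T (by linarith)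
  set e : ℝ := 1 / (A ^ 4 * T) with he
  have he0 : 0 < e := by positivity
  refine ⟨4 + A ^ 4 * (11 + 2 * C), ?_⟩
  have hlim : Tendsto (fun x : ℝ => x ^ 2 * Real.exp (-(c * x))) atTop (𝓝 0) := by
    have h1 := Real.tendsto_pow_mul_exp_neg_atTop_nhds_zero 2
    have h2 : Tendsto (fun x : ℝ => c * x) atTop atTop := tendsto_id.const_mul_atTop hc
    have h3 := (h1.comp h2).const_mul ((c ^ 2)⁻¹)
    rw [mul_zero] at h3
    refine h3.congr (fun x => ?_)
    simp only [Function.comp_apply]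
    field_simp
  have hbig : ∀ᶠ j in atTop, (B.nn j : ℝ) ^ 2 * Real.exp (-(c * (B.nn j : ℝ)))
      ≤ (A ^ 4)⁻¹ / (C * A ^ 4 + 1) := by
    have h1 : Tendsto (fun j => (B.nn j : ℝ)) atTop atTop :=
      tendsto_natCast_atTop_atTop.comp B.nn_tendsto
    have h2 := hlim.comp h1
    have h3 : (0 : ℝ) < (A ^ 4)⁻¹ / (C * A ^ 4 + 1) := by positivity
    filter_upwards [h2.eventually (gt_mem_nhds h3)] with j hj
    exact hj.le
  filter_upwards [hdec, hder, hlog e he0, htail, hbig] with j h1 h2 h3 h4 h5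
  intro lam l H F G E _ hNZ
  by_contra hcon
  push Not at hcon
  refine no_large (coefs_of (P := B.P j) (T := T) (e := e) hA hC hT (B.q_ne j) ?_
    (fun r hr => (h1 r hr).1) (fun r hr => (h1 r hr).2) ?_ h3 ?_) E hcon hNZ
  · intro r hr
    refine (h2 r hr).1.trans ?_
    apply mul_le_mul_of_nonneg_right _ (norm_nonneg _)
    exact mul_le_mul_of_nonneg_right (le_abs_self _) (by positivity)
  · have : e * A ^ 4 * T = 1 := by rw [he]; field_simp
    exact this.le
  · intro r hr
    have hr0 : 0 < r := lt_of_lt_of_le hT hr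
    have k1 := h4 r hr
    have k0 : 0 ≤ (B.nn j : ℝ) ^ 2 * C * A ^ 4 := by positivity
    have k2 := mul_le_mul_of_nonneg_left k1 k0
    refine k2.trans ?_
    have e1 : (B.nn j : ℝ) ^ 2 * C * A ^ 4 * (Real.exp (-c * (B.nn j : ℝ)) / r ^ 2)
        = (C * A ^ 4) * ((B.nn j : ℝ) ^ 2 * Real.exp (-(c * (B.nn j : ℝ)))) / r ^ 2 := by
      rw [neg_mul]; ring
    rw [e1]
    apply div_le_div_of_nonneg_right _ (by positivity)
    have k3 : (C * A ^ 4) * ((B.nn j : ℝ) ^ 2 * Real.exp (-(c * (B.nn j : ℝ))))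
        ≤ (C * A ^ 4 + 1) * ((A ^ 4)⁻¹ / (C * A ^ 4 + 1)) := by
      apply mul_le_mul (by linarith) h5 (by positivity) (by positivity)
    refine k3.trans (le_of_eq ?_)
    field_simp

end Crest.Agent.R086.R0
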