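import Crest.Agent.R086.CTopDefs
import Crest.Agent.R086.CExDefs
import Crest.Agent.R086.C34Defs
import Crest.Agent.R086.Phi
import Crest.Agent.R086.Ext6

/-!
Row 86, Part C, regime (R3) `|lam| + l` large (helper371): definitions and frozen nodes of the assembly
`R3Asm.lean`:  CaseII, CaseIII (CExDefs) + EXT0 (C34Defs) + CV + the nodes below ⟹ `R3Stmt`.
-/

set_option autoImplicit false

open MeasureTheory Complex Set Filter Topology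

namespace Crest.Agent.R086.R3

open CCore CEx

variable {n : ℕ}

/-- `S`, `S'`, `D`, `D'` of the pair `(F, G)` (exactly the functions of `CCore.sys_of_eqs`) -/
noncomputable def Sf (P : Profile n) (F G : ℝ → ℂ) : ℝ → ℂ :=
  fun r => (F r / P.q r + G r / starRingEnd ℂ (P.q r)) / 2
noncomputable def S1f (P : Profile n) (F G : ℝ → ℂ) : ℝ → ℂ :=
  fun r => (quo1 P.q (deriv P.q) F (deriv F) r + quo1c P.q (deriv P.q) G (deriv G) r) / 2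
noncomputable def Df (P : Profile n) (F G : ℝ → ℂ) : ℝ → ℂ :=
  fun r => (F r / P.q r - G r / starRingEnd ℂ (P.q r)) / 2
noncomputable def D1f (P : Profile n) (F G : ℝ → ℂ) : ℝ → ℂ :=
  fun r => (quo1 P.q (deriv P.q) F (deriv F) r - quo1c P.q (deriv P.q) G (deriv G) r) / 2

/-- exterior logarithmic derivative `h = 11/(2r) + i r/4 + Phi'/Phi` -/
noncomputable def hh (l : ℕ) (m : ℂ) (r : ℝ) : ℂ :=
  ((11 / (2 * r) : ℝ) : ℂ) + I * ((r / 4 : ℝ) : ℂ) + JCx.Phi1 l m r / JCx.Phi l m r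

/-- size parameter `m² + |3 - mu|`, `m² = l(l+10) + 99/4` -/
noncomputable def sz (l : ℕ) (m : ℂ) : ℝ := ((l : ℝ) * (l + 10) + 99 / 4) + ‖3 - m‖

/-- `Re V = m²/r² - r²/16 + Im mu` -/
noncomputable def reV (l : ℕ) (m : ℂ) (r : ℝ) : ℝ :=
  ((l : ℝ) * (l + 10) + 99 / 4) / r ^ 2 - r ^ 2 / 16 + m.im

/-- NODE SOL (owner 310, CInst). -/
def SolStmt : Prop :=
  ∀ (n : ℕ) (P : Profile n), (∀ r, P.q r ≠ 0) → ∀ (lam : ℂ) (l : ℕ) (H : R12 → ℝ) (F G : ℝ → ℂ),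
    P.Eig lam l H F G → ∀ rb : ℝ, 0 < rb →
    CEx.Sol (w P.q) (b P.q (deriv P.q)) (fun r => ‖P.q r‖ ^ n) (rho P.q (deriv P.q))
      ((l : ℝ) * (l + 10)) n (1 / n) lam (Sf P F G) (S1f P F G) (Df P F G) (D1f P F G) rb

/-- NODE BDRY (owner 35): EXT0 errors at `rb` ⟹ boundary relations. -/
def BdryStmt : Prop :=
  ∀ (n : ℕ) (P : Profile n), (∀ r, P.q r ≠ 0) → ∀ (l : ℕ) (lam : ℂ) (F G : ℝ → ℂ),
    Differentiable ℝ F → Differentiable ℝ G →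
    ∀ (r1 rb er : ℝ) (c1 c2 : ℂ), 0 < r1 → r1 ≤ rb → 1 ≤ rb → rb ≤ 4 → 0 ≤ er → 1 / 2 ≤ ‖P.q rb‖ →
      JCx.Phi l (P.mu lam) rb ≠ 0 → JCx.Phi l (P.mu (starRingEnd ℂ lam)) rb ≠ 0 →
      ‖F rb - c1 * JCx.Phi l (P.mu lam) rb‖ ≤ er * NB r1 F G →
      ‖deriv F rb - c1 * JCx.Phi1 l (P.mu lam) rb‖ ≤ er * NB r1 F G →
      ‖G rb - c2 * starRingEnd ℂ (JCx.Phi l (P.mu (starRingEnd ℂ lam)) rb)‖ ≤ er * NB r1 F G →
      ‖deriv G rb - c2 * starRingEnd ℂ (JCx.Phi1 l (P.mu (starRingEnd ℂ lam)) rb)‖ ≤ er * NB r1 F G →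
      CEx.Bdry (w P.q) (b P.q (deriv P.q)) (rho P.q (deriv P.q)) (Sf P F G) (S1f P F G) (Df P F G)
        (D1f P F G) (hh l (P.mu lam) rb) (hh l (P.mu (starRingEnd ℂ lam)) rb)
        (8 * er ^ 2 * (8 + ‖hh l (P.mu lam) rb‖ + ‖hh l (P.mu (starRingEnd ℂ lam)) rb‖) ^ 2) rb

/-- NODE DtN-EV (owners 766, 480): evanescent channel, margin `δ`. From `Ext.dtn` with `b = l + 6`, `a = m + l/2`. -/
def DtnEv : Prop :=
  ∀ r δ A : ℝ, 0 < r → 0 < δ → ∃ C M : ℝ, 1 ≤ C ∧ 1 ≤ M ∧ ∀ (l : ℕ) (m : ℂ),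
    0 < m.re → m.re ≤ A → M ≤ sz l m → δ * sz l m ≤ reV l m r →
    JCx.Phi l m r ≠ 0 ∧ (hh l m r).re ≤ -Real.sqrt (sz l m) / C ∧ ‖hh l m r‖ ^ 2 ≤ reV l m r + C ∧
      |(hh l m r).im| ≤ C / Real.sqrt (sz l m)

/-- NODE DtN-PR (owner 846): propagating channel, margin `δ`. -/
def DtnPr : Prop :=
  ∀ r δ A : ℝ, 0 < r → 0 < δ → ∃ C M : ℝ, 1 ≤ C ∧ 1 ≤ M ∧ ∀ (l : ℕ) (m : ℂ),
    0 < m.re → m.re ≤ A → M ≤ sz l m → reV l m r ≤ -(δ * sz l m) →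
    JCx.Phi l m r ≠ 0 ∧ Real.sqrt (sz l m) / C ≤ (hh l m r).im ∧ ‖hh l m r‖ ≤ C * Real.sqrt (sz l m)

/-- NODE UNIQ (owner 371): a source-free pair that vanishes on `(0, rb]` vanishes. -/
def UniqStmt : Prop :=
  ∀ (n : ℕ) (P : Profile n) (lam : ℂ) (l : ℕ) (H : R12 → ℝ) (F G : ℝ → ℂ),
    P.Eig lam l H F G → ∀ rb : ℝ, 0 < rb → (∀ r ∈ Ioc 0 rb, F r = 0 ∧ G r = 0) →
    ∀ r : ℝ, 0 < r → F r = 0 ∧ G r = 0

end Crest.Agent.R086.R3
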