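import Crest.Agent.R086.R3Asm
import Crest.Agent.R086.R3Sol
import Crest.Agent.R086.R3Bdry
import Crest.Agent.R086.R3Ev
import Crest.Agent.R086.CaseII
import Crest.Agent.R086.CaseIII
import Crest.Agent.R086.ExtA
import Crest.Agent.R086.XExt2
import Crest.Agent.R086.CFin
import Crest.Agent.R086.ResSmoTop
import Crest.Agent.R086.CSym

/-!
Row 86, Part C, regime (R3) (helper371): `R3Stmt`, unconditional.
-/

set_option autoImplicit false

open MeasureTheory Complex Set Filter Topology

namespace Crest.Agent.R086.R3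

theorem r3_of_caseIII (h3 : CEx.CaseIII) : R3Stmt :=
  r3_of CEx.caseII h3 solStmt R3Bdry.bdryStmt dtnEv dtnPr fun _ _ _ hL B =>
    ExtA.ext0 B XExt.scalExt0 (by have := hL.R_lo; linarith)
      (CRegB.reg_of CSym.symStmt B (by have := hL.R_lo; linarith)
        (CReg.regStmt Res.smoStmt (by have := hL.R_lo; linarith) B))

/-- **Regime (R3)**, unconditional -/
theorem r3Stmt : R3Stmt := r3_of_caseIII CEx.caseIII

end Crest.Agent.R086.R3
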