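import Mathlib
import Crest.Agent.R086.Defs
import Crest.Agent.R213.ParamInt

/-!
Row 86, Part B5(i), part A: the radial solution as a smooth function of `s = r²`, up to `s = 0`.
-/

set_option autoImplicit false

open Complex Set Filter Topology MeasureTheory
open scoped ContDiff

namespace Crest.Agent.R086.RLift

/-- Radial solution of the profile equation on `(0,∞)`, bounded near `0`, with symbol decay. -/
structure RadData (n : ℕ) (om : ℝ) (v v1 : ℝ → ℂ) : Prop where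
  neven : Even n
  two_le : 2 ≤ n
  d1 : ∀ r : ℝ, 0 < r → HasDerivAt v (v1 r) r
  d2 : ∀ r : ℝ, 0 < r → HasDerivAt v1
    (-((11 : ℂ) / (r : ℂ) + I * (r : ℂ) / 2) * v1 r - ((om : ℂ) + I / (n : ℂ)) * v r
      + ((‖v r‖ ^ n : ℝ) : ℂ) * v r) r
  cont : ContinuousWithinAt v (Ici 0) 0
  v1bd : ∃ C r0 : ℝ, 0 < r0 ∧ ∀ r, 0 < r → r ≤ r0 → ‖v1 r‖ ≤ C
  decay : ∀ j : ℕ, ∃ C : ℝ, ∀ᶠ r : ℝ in atTop, ‖iteratedDeriv j v r‖ ≤ C * r ^ (-(2 : ℝ) / n - j)
  v0 : v 0 ≠ 0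

section core
variable {n : ℕ} {c : ℂ} {v v1 : ℝ → ℂ}

/-- the right-hand side `(|v|^n - c) v` -/
noncomputable def Hf (n : ℕ) (c : ℂ) (w : ℝ → ℂ) (r : ℝ) : ℂ := ((‖w r‖ ^ n : ℝ) : ℂ) * w r - c * w r

/-- integral formula for `v1`. -/
theorem v1_formula
    (d2 : ∀ r : ℝ, 0 < r → HasDerivAt v1
      (-((11 : ℂ) / (r : ℂ) + I * (r : ℂ) / 2) * v1 r - c * v r + ((‖v r‖ ^ n : ℝ) : ℂ) * v r) r)
    (hv : ContinuousOn v (Ici 0))
    (v1bd : ∃ C r0 : ℝ, 0 < r0 ∧ ∀ r, 0 < r → r ≤ r0 → ‖v1 r‖ ≤ C) {r : ℝ} (hr : 0 < r) :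
    (r : ℂ) ^ 11 * cexp (I * (r : ℂ) ^ 2 / 4) * v1 r =
      ∫ x in (0 : ℝ)..r, (x : ℂ) ^ 11 * cexp (I * (x : ℂ) ^ 2 / 4) * Hf n c v x := by
  set W : ℝ → ℂ := fun x => (x : ℂ) ^ 11 * cexp (I * (x : ℂ) ^ 2 / 4) * v1 x with hW
  have hHc : ContinuousOn (Hf n c v) (Ici 0) := by
    unfold Hf
    have h1 : ContinuousOn (fun x => ((‖v x‖ ^ n : ℝ) : ℂ)) (Ici 0) :=
      continuous_ofReal.comp_continuousOn (hv.norm.pow n)
    exact (h1.mul hv).sub (continuousOn_const.mul hv)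
  have hint : IntervalIntegrable
      (fun x : ℝ => (x : ℂ) ^ 11 * cexp (I * (x : ℂ) ^ 2 / 4) * Hf n c v x) volume 0 r := by
    apply ContinuousOn.intervalIntegrable
    rw [uIcc_of_le hr.le]
    have : ContinuousOn (Hf n c v) (Icc 0 r) := hHc.mono Icc_subset_Ici_self
    have h2 : Continuous (fun x : ℝ => (x : ℂ) ^ 11 * cexp (I * (x : ℂ) ^ 2 / 4)) := by fun_prop
    exact h2.continuousOn.mul this
  have hderiv : ∀ x ∈ Ioo (0 : ℝ) r, HasDerivAt W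
      ((x : ℂ) ^ 11 * cexp (I * (x : ℂ) ^ 2 / 4) * Hf n c v x) x := by
    intro x hx
    have hx0 : (x : ℂ) ≠ 0 := by exact_mod_cast hx.1.ne'
    have e1 : HasDerivAt (fun x : ℝ => (x : ℂ)) 1 x := Complex.ofRealCLM.hasDerivAt
    have e2 : HasDerivAt (fun x : ℝ => (x : ℂ) ^ 11) (11 * (x : ℂ) ^ 10) x := by
      simpa using e1.fun_pow 11
    have e3 : HasDerivAt (fun x : ℝ => I * (x : ℂ) ^ 2 / 4) (I * (x : ℂ) / 2) x := by
      have := ((e1.fun_pow 2).const_mul I).div_const 4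
      refine this.congr_deriv ?_
      push_cast; ring
    have e4 := (e2.fun_mul e3.cexp).fun_mul (d2 x hx.1)
    refine e4.congr_deriv ?_
    simp only [Hf]
    field_simp
    ring
  have hcont : ContinuousOn W (Icc 0 r) := by
    intro x hx
    rcases eq_or_lt_of_le hx.1 with h0 | h0
    · -- at zero
      obtain ⟨C, r0, hr0, hC⟩ := v1bd
      subst h0
      have hC0 : 0 ≤ C := le_trans (norm_nonneg _) (hC r0 hr0 le_rfl)
      have hW0 : W 0 = 0 := by simp [hW]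
      rw [ContinuousWithinAt, hW0]
      have hlim : Tendsto (fun x : ℝ => |x| ^ 11 * C) (𝓝[Icc 0 r] 0) (𝓝 0) := by
        have : Continuous (fun x : ℝ => |x| ^ 11 * C) := by fun_prop
        have h := this.tendsto 0
        simp at h
        exact h.mono_left nhdsWithin_le_nhds
      refine squeeze_zero_norm' ?_ hlim
      have hev : ∀ᶠ x : ℝ in 𝓝[Icc 0 r] 0, x ≤ r0 :=
        nhdsWithin_le_nhds (eventually_le_nhds hr0)
      filter_upwards [hev, self_mem_nhdsWithin] with x hx1 hx2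
      rcases eq_or_lt_of_le hx2.1 with h3 | h3
      · subst h3; simp [hW]
      · simp only [hW, norm_mul, norm_pow, Complex.norm_real]
        have hexp : ‖cexp (I * (x : ℂ) ^ 2 / 4)‖ = 1 := by
          have : I * (x : ℂ) ^ 2 / 4 = ((x ^ 2 / 4 : ℝ) : ℂ) * I := by push_cast; ring
          rw [this, Complex.norm_exp_ofReal_mul_I]
        rw [hexp, mul_one, Real.norm_eq_abs]
        exact mul_le_mul_of_nonneg_left (hC x h3 hx1) (by positivity)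
    · exact ((by fun_prop : Continuous (fun x : ℝ => (x : ℂ) ^ 11 * cexp (I * (x : ℂ) ^ 2 / 4)))
        |>.continuousAt.mul (d2 x h0).continuousAt).continuousWithinAt
  have := intervalIntegral.integral_eq_sub_of_hasDerivAt_of_le hr.le hcont hderiv hint
  rw [this]
  simp [hW]

/-- `v1(r) = r ∫₀¹ t^11 exp(-i r²(1-t²)/4) H(r t) dt` -/
theorem v1_formula'
    (d2 : ∀ r : ℝ, 0 < r → HasDerivAt v1
      (-((11 : ℂ) / (r : ℂ) + I * (r : ℂ) / 2) * v1 r - c * v r + ((‖v r‖ ^ n : ℝ) : ℂ) * v r) r)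
    (hv : ContinuousOn v (Ici 0))
    (v1bd : ∃ C r0 : ℝ, 0 < r0 ∧ ∀ r, 0 < r → r ≤ r0 → ‖v1 r‖ ≤ C) {r : ℝ} (hr : 0 < r) :
    v1 r = (r : ℂ) * ∫ t in (0 : ℝ)..1,
      (t : ℂ) ^ 11 * cexp (-(I * (r : ℂ) ^ 2 * (1 - (t : ℂ) ^ 2) / 4)) * Hf n c v (r * t) := by
  have h1 := v1_formula d2 hv v1bd hr
  have hr' : (r : ℂ) ≠ 0 := by exact_mod_cast hr.ne'
  have h2 : (∫ x in (0 : ℝ)..r, (x : ℂ) ^ 11 * cexp (I * (x : ℂ) ^ 2 / 4) * Hf n c v x)
      = r • ∫ t in (0 : ℝ)..1, ((r * t : ℝ) : ℂ) ^ 11 * cexp (I * ((r * t : ℝ) : ℂ) ^ 2 / 4)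
          * Hf n c v (r * t) := by
    rw [intervalIntegral.smul_integral_comp_mul_left
      (fun x : ℝ => (x : ℂ) ^ 11 * cexp (I * (x : ℂ) ^ 2 / 4) * Hf n c v x) r]
    simp
  rw [h2] at h1
  have h3 : (∫ t in (0 : ℝ)..1, ((r * t : ℝ) : ℂ) ^ 11 * cexp (I * ((r * t : ℝ) : ℂ) ^ 2 / 4)
          * Hf n c v (r * t)) = ((r : ℂ) ^ 11 * cexp (I * (r : ℂ) ^ 2 / 4)) *
        ∫ t in (0 : ℝ)..1,
      (t : ℂ) ^ 11 * cexp (-(I * (r : ℂ) ^ 2 * (1 - (t : ℂ) ^ 2) / 4)) * Hf n c v (r * t) := by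
    rw [← intervalIntegral.integral_const_mul]
    apply intervalIntegral.integral_congr
    intro t _
    simp only
    have : cexp (I * ((r * t : ℝ) : ℂ) ^ 2 / 4) = cexp (I * (r : ℂ) ^ 2 / 4) *
        cexp (-(I * (r : ℂ) ^ 2 * (1 - (t : ℂ) ^ 2) / 4)) := by
      rw [← Complex.exp_add]; congr 1; push_cast; ring
    rw [this]; push_cast; ring
  rw [h3, Complex.real_smul] at h1
  have hne : (r : ℂ) ^ 11 * cexp (I * (r : ℂ) ^ 2 / 4) ≠ 0 :=
    mul_ne_zero (pow_ne_zero _ hr') (Complex.exp_ne_zero _)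
  apply mul_left_cancel₀ hne
  rw [h1]; ring

end core

end Crest.Agent.R086.RLift
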