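import Crest.Agent.R086.RLiftA

/-!
Row 86, Part B5(i), part B: smoothness of `G s = v (sqrt s)` on `[0,∞)`.
-/

set_option autoImplicit false

open Complex Set Filter Topology MeasureTheory
open scoped ContDiff

namespace Crest.Agent.R086.RLift

theorem norm_pow_even {m : ℕ} (z : ℂ) :
    ((‖z‖ ^ (m + m) : ℝ) : ℂ) = (z * (starRingEnd ℂ) z) ^ m := by
  rw [Complex.mul_conj, Complex.normSq_eq_norm_sq, ← Complex.ofReal_pow, ← pow_mul, two_mul]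

theorem contDiffOn_Hf {n : ℕ} (hn : Even n) {c : ℂ} {w : ℝ → ℂ} {S : Set ℝ} {k : ℕ∞}
    (hw : ContDiffOn ℝ k w S) : ContDiffOn ℝ k (Hf n c w) S := by
  obtain ⟨m, rfl⟩ := hn
  have hconj : ContDiff ℝ k (fun z : ℂ => (starRingEnd ℂ) z) := Complex.conjCLE.contDiff
  have h1 : ContDiffOn ℝ k (fun s => (w s * (starRingEnd ℂ) (w s)) ^ m) S :=
    (hw.mul (hconj.comp_contDiffOn hw)).pow m
  have h2 : Hf (m + m) c w = fun s => (w s * (starRingEnd ℂ) (w s)) ^ m * w s - c * w s := by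
    funext s
    simp only [Hf, norm_pow_even]
  rw [h2]
  exact (h1.mul hw).sub (contDiffOn_const.mul hw)

section core
variable {n : ℕ} {c : ℂ} {v v1 : ℝ → ℂ}

/-- `G s = v (sqrt s)` -/
noncomputable def Gf (v : ℝ → ℂ) (s : ℝ) : ℂ := v (Real.sqrt s)

/-- the derivative of `G` -/
noncomputable def Kf (n : ℕ) (c : ℂ) (v : ℝ → ℂ) (s : ℝ) : ℂ :=
  (1 / 2 : ℂ) * ∫ t in (0 : ℝ)..1, (t : ℂ) ^ 11 * cexp (-(I * (s : ℂ) * (1 - (t : ℂ) ^ 2) / 4)) *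
    Hf n c (Gf v) (s * t ^ 2)

theorem Kf_eq
    (d2 : ∀ r : ℝ, 0 < r → HasDerivAt v1
      (-((11 : ℂ) / (r : ℂ) + I * (r : ℂ) / 2) * v1 r - c * v r + ((‖v r‖ ^ n : ℝ) : ℂ) * v r) r)
    (hv : ContinuousOn v (Ici 0))
    (v1bd : ∃ C r0 : ℝ, 0 < r0 ∧ ∀ r, 0 < r → r ≤ r0 → ‖v1 r‖ ≤ C) {s : ℝ} (hs : 0 < s) :
    v1 (Real.sqrt s) = 2 * (Real.sqrt s : ℂ) * Kf n c v s := by
  rw [v1_formula' d2 hv v1bd (Real.sqrt_pos.2 hs), Kf]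
  have h : (∫ t in (0 : ℝ)..1, (t : ℂ) ^ 11 *
      cexp (-(I * ((Real.sqrt s : ℝ) : ℂ) ^ 2 * (1 - (t : ℂ) ^ 2) / 4)) *
        Hf n c v (Real.sqrt s * t)) = ∫ t in (0 : ℝ)..1, (t : ℂ) ^ 11 *
      cexp (-(I * (s : ℂ) * (1 - (t : ℂ) ^ 2) / 4)) * Hf n c (Gf v) (s * t ^ 2) := by
    apply intervalIntegral.integral_congr
    intro t ht
    rw [uIcc_of_le zero_le_one] at ht
    have h1 : ((Real.sqrt s : ℝ) : ℂ) ^ 2 = (s : ℂ) := by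
      rw [← Complex.ofReal_pow, Real.sq_sqrt hs.le]
    have h2 : Real.sqrt (s * t ^ 2) = Real.sqrt s * t := by
      rw [Real.sqrt_mul hs.le, Real.sqrt_sq ht.1]
    simp only [h1, Hf, Gf, h2]
  rw [h]
  ring

theorem Gf_cont (hv : ContinuousOn v (Ici 0)) : ContinuousOn (Gf v) (Ici 0) :=
  hv.comp Real.continuous_sqrt.continuousOn (fun s _ => Real.sqrt_nonneg s)

theorem Gf_hasDerivAt (d1 : ∀ r : ℝ, 0 < r → HasDerivAt v (v1 r) r)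
    (d2 : ∀ r : ℝ, 0 < r → HasDerivAt v1
      (-((11 : ℂ) / (r : ℂ) + I * (r : ℂ) / 2) * v1 r - c * v r + ((‖v r‖ ^ n : ℝ) : ℂ) * v r) r)
    (hv : ContinuousOn v (Ici 0))
    (v1bd : ∃ C r0 : ℝ, 0 < r0 ∧ ∀ r, 0 < r → r ≤ r0 → ‖v1 r‖ ≤ C) {s : ℝ} (hs : 0 < s) :
    HasDerivAt (Gf v) (Kf n c v s) s := by
  have hsq : 0 < Real.sqrt s := Real.sqrt_pos.2 hs
  have h1 := (d1 _ hsq).scomp s (Real.hasDerivAt_sqrt hs.ne')
  refine h1.congr_deriv ?_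
  rw [Kf_eq d2 hv v1bd hs, Complex.real_smul]
  have : (Real.sqrt s : ℂ) ≠ 0 := by exact_mod_cast hsq.ne'
  push_cast
  field_simp

/-- the integrand -/
noncomputable def gf (n : ℕ) (c : ℂ) (v : ℝ → ℂ) (p : ℝ × ℝ) : ℂ :=
  (p.2 : ℂ) ^ 11 * cexp (-(I * (p.1 : ℂ) * (1 - (p.2 : ℂ) ^ 2) / 4)) * Hf n c (Gf v) (p.1 * p.2 ^ 2)

theorem gf_contDiffOn (hn : Even n) {k : ℕ} (hG : ContDiffOn ℝ k (Gf v) (Ici 0)) :
    ContDiffOn ℝ k (gf n c v) (Ici 0 ×ˢ Icc 0 1) := by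
  have hof : ContDiff ℝ k (fun x : ℝ => (x : ℂ)) := Complex.ofRealCLM.contDiff
  have h1 : ContDiff ℝ k (fun p : ℝ × ℝ => (p.1 : ℂ)) := hof.comp contDiff_fst
  have h2 : ContDiff ℝ k (fun p : ℝ × ℝ => (p.2 : ℂ)) := hof.comp contDiff_snd
  have h3 : ContDiff ℝ k (fun p : ℝ × ℝ =>
      (p.2 : ℂ) ^ 11 * cexp (-(I * (p.1 : ℂ) * (1 - (p.2 : ℂ) ^ 2) / 4))) := by
    refine (h2.pow 11).mul (ContDiff.cexp ?_)
    exact (((contDiff_const.mul h1).mul (contDiff_const.sub (h2.pow 2))).div_const 4).neg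
  have h4 : ContDiffOn ℝ k (Hf n c (Gf v)) (Ici 0) := by
    have := contDiffOn_Hf (k := (k : ℕ∞)) (c := c) hn (by exact_mod_cast hG)
    exact_mod_cast this
  have h5 : ContDiffOn ℝ k (fun p : ℝ × ℝ => Hf n c (Gf v) (p.1 * p.2 ^ 2)) (Ici 0 ×ˢ Icc 0 1) := by
    refine h4.comp (t := Ici 0) (f := fun p : ℝ × ℝ => p.1 * p.2 ^ 2) ?_ ?_
    · exact (contDiff_fst.mul (contDiff_snd.pow 2)).contDiffOn
    · intro p hp
      exact mul_nonneg (mem_Ici.1 hp.1) (sq_nonneg _)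
  exact h3.contDiffOn.mul h5

theorem Kf_contDiffOn (hn : Even n) {k : ℕ} (hG : ContDiffOn ℝ k (Gf v) (Ici 0)) :
    ContDiffOn ℝ k (Kf n c v) (Ici 0) := by
  have h := R213.ParamInt.contDiffOn_param_nat (convex_Ici (0 : ℝ)) (uniqueDiffOn_Ici 0)
    (zero_lt_one : (0 : ℝ) < 1) k (gf_contDiffOn (c := c) hn hG)
  exact contDiffOn_const.mul h

theorem Gf_hasDerivWithinAt (hn : Even n) (d1 : ∀ r : ℝ, 0 < r → HasDerivAt v (v1 r) r)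
    (d2 : ∀ r : ℝ, 0 < r → HasDerivAt v1
      (-((11 : ℂ) / (r : ℂ) + I * (r : ℂ) / 2) * v1 r - c * v r + ((‖v r‖ ^ n : ℝ) : ℂ) * v r) r)
    (hv : ContinuousOn v (Ici 0))
    (v1bd : ∃ C r0 : ℝ, 0 < r0 ∧ ∀ r, 0 < r → r ≤ r0 → ‖v1 r‖ ≤ C) {s : ℝ} (hs : 0 ≤ s) :
    HasDerivWithinAt (Gf v) (Kf n c v s) (Ici 0) s := by
  rcases eq_or_lt_of_le hs with h0 | h0
  · subst h0
    have hK : ContinuousOn (Kf n c v) (Ici 0) := by
      have := Kf_contDiffOn (c := c) (k := 0) hn (v := v) (by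
        have := Gf_cont hv
        rw [Nat.cast_zero]; exact contDiffOn_zero.2 this)
      rw [Nat.cast_zero] at this
      exact contDiffOn_zero.1 this
    apply hasDerivWithinAt_Ici_of_tendsto_deriv (s := Ioi 0)
    · intro x hx
      exact (Gf_hasDerivAt d1 d2 hv v1bd hx).differentiableAt.differentiableWithinAt
    · exact ((Gf_cont hv) 0 self_mem_Ici).mono Ioi_subset_Ici_self
    · exact self_mem_nhdsWithin
    · have h1 : Tendsto (Kf n c v) (𝓝[>] 0) (𝓝 (Kf n c v 0)) :=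
        ((hK 0 self_mem_Ici).mono Ioi_subset_Ici_self)
      refine h1.congr' ?_
      filter_upwards [self_mem_nhdsWithin] with x hx
      exact ((Gf_hasDerivAt d1 d2 hv v1bd hx).deriv).symm
  · exact (Gf_hasDerivAt d1 d2 hv v1bd h0).hasDerivWithinAt

theorem Gf_contDiffOn_nat (hn : Even n) (d1 : ∀ r : ℝ, 0 < r → HasDerivAt v (v1 r) r)
    (d2 : ∀ r : ℝ, 0 < r → HasDerivAt v1
      (-((11 : ℂ) / (r : ℂ) + I * (r : ℂ) / 2) * v1 r - c * v r + ((‖v r‖ ^ n : ℝ) : ℂ) * v r) r)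
    (hv : ContinuousOn v (Ici 0))
    (v1bd : ∃ C r0 : ℝ, 0 < r0 ∧ ∀ r, 0 < r → r ≤ r0 → ‖v1 r‖ ≤ C) (k : ℕ) :
    ContDiffOn ℝ k (Gf v) (Ici 0) := by
  induction k with
  | zero => rw [Nat.cast_zero]; exact contDiffOn_zero.2 (Gf_cont hv)
  | succ k ih =>
    rw [Nat.cast_add, Nat.cast_one, contDiffOn_succ_iff_derivWithin (uniqueDiffOn_Ici 0)]
    refine ⟨fun s hs => (Gf_hasDerivWithinAt hn d1 d2 hv v1bd hs).differentiableWithinAt,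
      by simp, ?_⟩
    refine (Kf_contDiffOn (c := c) hn ih).congr ?_
    intro s hs
    exact (Gf_hasDerivWithinAt hn d1 d2 hv v1bd hs).derivWithin (uniqueDiffOn_Ici 0 s hs)

theorem Gf_contDiffOn (hn : Even n) (d1 : ∀ r : ℝ, 0 < r → HasDerivAt v (v1 r) r)
    (d2 : ∀ r : ℝ, 0 < r → HasDerivAt v1
      (-((11 : ℂ) / (r : ℂ) + I * (r : ℂ) / 2) * v1 r - c * v r + ((‖v r‖ ^ n : ℝ) : ℂ) * v r) r)
    (hv : ContinuousOn v (Ici 0))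
    (v1bd : ∃ C r0 : ℝ, 0 < r0 ∧ ∀ r, 0 < r → r ≤ r0 → ‖v1 r‖ ≤ C) :
    ContDiffOn ℝ ∞ (Gf v) (Ici 0) := by
  rw [contDiffOn_infty]
  exact fun k => Gf_contDiffOn_nat hn d1 d2 hv v1bd k

end core

end Crest.Agent.R086.RLift
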