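import Crest.Agent.R086.PZ

/-!
Row 86, Part C, node REG (3) (helper732): a.e. inversion for densities and the interpolation
`∫|b| ≤ C Λ^12 ∫|f| + Λ⁻¹ ∫(1+|ξ|)|b|`.
-/

set_option autoImplicit false
set_option linter.style.longLine false

open MeasureTheory Complex Filter Topology
open scoped ContDiff FourierTransform

namespace Crest.Agent.R086.RegInt

theorem flip {f g : R12 → ℂ} (hf : Integrable f) (hg : Integrable g) :
    ∫ w, 𝓕 f w * g w = ∫ w, f w * 𝓕 g w := by
  have h := VectorFourier.integral_fourierIntegral_smul_eq_flip (μ := (volume : Measure R12))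
    (ν := (volume : Measure R12)) (L := innerₗ R12) (f := f) (g := g)
    Real.continuous_fourierChar (by exact continuous_inner) hf hg
  have e : (innerₗ R12).flip = innerₗ R12 := by
    ext x y
    simp
  rw [e] at h
  simpa [smul_eq_mul] using! h

/-- a.e. Fourier inversion, Mathlib normalisation -/
theorem inv_ae' {b f : R12 → ℂ} (hb : Integrable b) (hf : Integrable f) (h : f = 𝓕⁻ b) :
    b =ᵐ[volume] 𝓕 f := by
  have hcF : Continuous (𝓕 f) := VectorFourier.fourierIntegral_continuous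
    Real.continuous_fourierChar (by exact continuous_inner) hf
  refine ae_eq_of_integral_contDiff_smul_eq hb.locallyIntegrable hcF.locallyIntegrable
    fun g hg hgs => ?_
  set G : SchwartzMap R12 ℂ := HasCompactSupport.toSchwartzMap (f := fun x => ((g x : ℝ) : ℂ))
    (hgs.comp_left Complex.ofReal_zero) (Complex.ofRealCLM.contDiff.comp hg) with hG
  have hGx : ∀ x, G x = ((g x : ℝ) : ℂ) := fun x => rfl
  have e1 : ∀ F : R12 → ℂ, ∫ x, g x • F x = ∫ x, G x * F x := by
    intro F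
    refine integral_congr_ae (Eventually.of_forall fun x => ?_)
    simp only [hGx, Complex.real_smul]
  rw [e1, e1]
  -- `∫ G b = ∫ 𝓕⁻G 𝓕b`
  have hGi : Integrable (G : R12 → ℂ) := G.integrable
  have hGii : Integrable ((𝓕⁻ G : SchwartzMap R12 ℂ) : R12 → ℂ) := (𝓕⁻ G).integrable
  have hGfi : Integrable ((𝓕 G : SchwartzMap R12 ℂ) : R12 → ℂ) := (𝓕 G).integrable
  have hinv : 𝓕 ((𝓕⁻ G : SchwartzMap R12 ℂ) : R12 → ℂ) = G := by
    have h1 : 𝓕 (𝓕⁻ G) = G := FourierTransform.fourier_fourierInv_eq G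
    calc 𝓕 ((𝓕⁻ G : SchwartzMap R12 ℂ) : R12 → ℂ) = ((𝓕 (𝓕⁻ G) : SchwartzMap R12 ℂ) : R12 → ℂ) :=
          (SchwartzMap.fourier_coe _).symm
      _ = G := by rw [h1]
  have s1 : ∫ x, G x * b x = ∫ x, (𝓕⁻ G) x * 𝓕 b x := by
    rw [← flip hGii hb, hinv]
  have s2 : ∀ x, 𝓕 b x = f (-x) := by
    intro x
    rw [h, Real.fourierInv_eq_fourier_neg, neg_neg]
  have s3 : ∀ x, (𝓕⁻ G) x = 𝓕 (G : R12 → ℂ) (-x) := by
    intro x
    have : ((𝓕⁻ G : SchwartzMap R12 ℂ) : R12 → ℂ) = 𝓕⁻ (G : R12 → ℂ) := SchwartzMap.fourierInv_coe _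
    rw [this, Real.fourierInv_eq_fourier_neg]
  have s4 : ∫ x, (𝓕⁻ G) x * 𝓕 b x = ∫ x, 𝓕 (G : R12 → ℂ) x * f x := by
    rw [← integral_neg_eq_self (fun x => 𝓕 (G : R12 → ℂ) x * f x)]
    refine integral_congr_ae (Eventually.of_forall fun x => ?_)
    simp only [s2, s3]
  rw [s1, s4, flip hGi hf]

/-- `∫ f(y) e^{-iξ·y} dy` (same normal form as `PZ.chat`) is the transform -/
theorem inv_ae {b f : R12 → ℂ} (hb : Integrable b) (hf : Integrable f)
    (h : ∀ y, f y = ∫ ξ : R12, exp (I * ((inner ℝ ξ y : ℝ) : ℂ)) * b ξ) :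
    ∀ᵐ ξ : R12, b ξ = ((((2 * Real.pi) ^ 12 : ℝ)) : ℂ)⁻¹ * PZ.chat f ξ := by
  have hpi : (0 : ℝ) < 2 * Real.pi := by positivity
  set b' : R12 → ℂ := fun w => ((((2 * Real.pi) ^ 12 : ℝ)) : ℂ) * b ((2 * Real.pi) • w) with hb'
  have hbi : Integrable b' := (hb.comp_smul hpi.ne').const_mul _
  have hfb : f = 𝓕⁻ b' := by
    funext y
    rw [h y, Real.fourierInv_eq']
    have h2 := Measure.integral_comp_smul (volume : Measure R12)
      (fun ξ => exp (I * ((inner ℝ ξ y : ℝ) : ℂ)) * b ξ) (2 * Real.pi)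
    rw [SymX.finrank12] at h2
    have h3 : ∫ w : R12, exp (((2 * Real.pi * inner ℝ w y : ℝ) : ℂ) * I) • b' w =
        ((((2 * Real.pi) ^ 12 : ℝ)) : ℂ) * ∫ w : R12,
          exp (I * ((inner ℝ ((2 * Real.pi) • w) y : ℝ) : ℂ)) * b ((2 * Real.pi) • w) := by
      rw [← integral_const_mul]
      refine integral_congr_ae (Eventually.of_forall fun w => ?_)
      simp only [hb', smul_eq_mul]
      rw [real_inner_smul_left, mul_comm I]
      ring
    rw [h3, h2, abs_of_pos (by positivity), Complex.real_smul, ← mul_assoc, ← Complex.ofReal_mul,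
      mul_inv_cancel₀ (by positivity), Complex.ofReal_one, one_mul]
  have h1 := inv_ae' hbi hf hfb
  -- transport the a.e. statement by the dilation
  have h4 : ∀ᵐ ξ : R12, b' ((2 * Real.pi)⁻¹ • ξ) = 𝓕 f ((2 * Real.pi)⁻¹ • ξ) := by
    have hq : Measure.QuasiMeasurePreserving (fun ξ : R12 => (2 * Real.pi)⁻¹ • ξ) volume volume :=
      Measure.quasiMeasurePreserving_smul volume (inv_ne_zero hpi.ne')
    exact hq.ae h1
  filter_upwards [h4] with ξ hξ
  rw [PZ.chat_eq, ← hξ]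
  simp only [hb', smul_smul, mul_inv_cancel₀ hpi.ne', one_smul]
  rw [← mul_assoc, inv_mul_cancel₀, one_mul]
  rw [Ne, Complex.ofReal_eq_zero]
  positivity

/-- pointwise bound of the density -/
theorem density_le {b f : R12 → ℂ} (hb : Integrable b) (hf : Integrable f)
    (h : ∀ y, f y = ∫ ξ : R12, exp (I * ((inner ℝ ξ y : ℝ) : ℂ)) * b ξ) :
    ∀ᵐ ξ : R12, ‖b ξ‖ ≤ ((2 * Real.pi) ^ 12)⁻¹ * ∫ y, ‖f y‖ := by
  filter_upwards [inv_ae hb hf h] with ξ hξ
  rw [hξ, norm_mul, norm_inv, Complex.norm_real, Real.norm_of_nonneg (by positivity)]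
  refine mul_le_mul_of_nonneg_left ?_ (by positivity)
  unfold PZ.chat
  refine (norm_integral_le_integral_norm _).trans (le_of_eq ?_)
  refine integral_congr_ae (Eventually.of_forall fun y => ?_)
  simp only
  have h6 : ‖exp (-(I * ((inner ℝ ξ y : ℝ) : ℂ)))‖ = 1 := by
    rw [Complex.norm_exp]
    simp
  rw [norm_mul, h6, mul_one]

/-- **interpolation** (REG (3)) -/
theorem interp : ∃ C : ℝ, 0 ≤ C ∧ ∀ b f : R12 → ℂ, Rep 1 b f → Integrable f →
    ∀ La : ℝ, 1 ≤ La → PZ.xn 0 b ≤ C * La ^ 12 * (∫ y, ‖f y‖) + La⁻¹ * PZ.xn 1 b := by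
  refine ⟨((2 * Real.pi) ^ 12)⁻¹ * volume.real (Metric.closedBall (0 : R12) 1), by positivity,
    fun b f hbf hf La hLa => ?_⟩
  have hLa0 : 0 < La := lt_of_lt_of_le one_pos hLa
  have hb : Integrable b := SymX.integrable_of_wt hbf.1
  have hw := SymX.integrable_wt_norm hbf.1
  have hd := density_le hb hf hbf.2
  set K : ℝ := ((2 * Real.pi) ^ 12)⁻¹ * ∫ y, ‖f y‖ with hK
  have hK0 : 0 ≤ K := by
    have : 0 ≤ ∫ y, ‖f y‖ := integral_nonneg fun _ => norm_nonneg _
    positivity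
  have e0 : PZ.xn 0 b = ∫ ξ, ‖b ξ‖ := by
    unfold PZ.xn
    simp
  have hms : MeasurableSet (Metric.closedBall (0 : R12) La) := Metric.isClosed_closedBall.measurableSet
  have hsplit := integral_add_compl hms hb.norm
  have hvol : volume.real (Metric.closedBall (0 : R12) La) =
      La ^ 12 * volume.real (Metric.closedBall (0 : R12) 1) := by
    have h1 := Measure.addHaar_real_closedBall' (volume : Measure R12) (0 : R12) hLa0.le
    rw [SymX.finrank12] at h1
    exact h1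
  have p1 : ∫ ξ in Metric.closedBall (0 : R12) La, ‖b ξ‖ ≤
      K * (La ^ 12 * volume.real (Metric.closedBall (0 : R12) 1)) := by
    have : ∫ ξ in Metric.closedBall (0 : R12) La, ‖b ξ‖ ≤
        ∫ _ in Metric.closedBall (0 : R12) La, K := by
      refine setIntegral_mono_ae hb.norm.integrableOn
        (integrableOn_const measure_closedBall_lt_top.ne) hd
    refine this.trans (le_of_eq ?_)
    rw [setIntegral_const, smul_eq_mul, hvol]
    ring
  have p2 : ∫ ξ in (Metric.closedBall (0 : R12) La)ᶜ, ‖b ξ‖ ≤ La⁻¹ * PZ.xn 1 b := by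
    have q1 : ∫ ξ in (Metric.closedBall (0 : R12) La)ᶜ, ‖b ξ‖ ≤
        ∫ ξ in (Metric.closedBall (0 : R12) La)ᶜ, La⁻¹ * ((1 + ‖ξ‖) ^ 1 * ‖b ξ‖) := by
      refine setIntegral_mono_on hb.norm.integrableOn (hw.const_mul _).integrableOn hms.compl
        fun ξ hξ => ?_
      have h3 : La < ‖ξ‖ := by simpa using hξ
      rw [pow_one, ← mul_assoc]
      have h4 : 1 ≤ La⁻¹ * (1 + ‖ξ‖) := by
        rw [inv_mul_eq_div, le_div_iff₀ hLa0]
        linarith
      nlinarith [norm_nonneg (b ξ)]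
    refine q1.trans ?_
    rw [integral_const_mul]
    unfold PZ.xn
    refine mul_le_mul_of_nonneg_left ?_ (by positivity)
    exact setIntegral_le_integral hw (Eventually.of_forall fun ξ => by positivity)
  rw [e0, ← hsplit]
  refine (add_le_add p1 p2).trans (le_of_eq ?_)
  rw [hK]
  ring

end Crest.Agent.R086.RegInt
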