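import Crest.Agent.R086.Smo2
import Crest.Agent.R086.CHF2

/-! Row 86 (helper718): `RepStmt` (time representation of the resolvent). -/

set_option autoImplicit false

open MeasureTheory Complex Set Filter
open scoped ContDiff Topology SchwartzMap

namespace Crest.Agent.R086.SMO

open Crest.Agent.R086

lemma Mom.congr {a a' : R12 → ℂ} (ha : Mom a) (h : a =ᵐ[volume] a') : Mom a' where
  m0 := ha.m0.congr h
  m1 := ha.m1.congr (h.mono fun ξ hξ => by simp only [hξ])
  m2 := ha.m2.congr (h.mono fun ξ hξ => by simp only [hξ])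

lemma mom_of_rep {a f : R12 → ℂ} (h : Rep 2 a f) : Mom a := by
  have h0 : Integrable a := DGen.integrable_rep h
  have hw := h.1.norm
  refine ⟨h0, ?_, ?_⟩
  · refine hw.mono' (continuous_norm.aestronglyMeasurable.mul h0.1.norm)
      (Eventually.of_forall fun ξ => ?_)
    rw [norm_mul, norm_mul, norm_norm, norm_norm, norm_real, Real.norm_of_nonneg (by positivity)]
    refine mul_le_mul_of_nonneg_right ?_ (norm_nonneg _)
    nlinarith [norm_nonneg ξ]
  · refine hw.mono' ((continuous_norm.pow 2).aestronglyMeasurable.mul h0.1.norm)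
      (Eventually.of_forall fun ξ => ?_)
    rw [norm_mul, norm_mul, norm_pow, norm_norm, norm_norm, norm_real,
      Real.norm_of_nonneg (by positivity)]
    refine mul_le_mul_of_nonneg_right ?_ (norm_nonneg _)
    nlinarith [norm_nonneg ξ]

section

variable {sg : ℝ} {mu : ℂ} {a h : R12 → ℂ}

lemma phEE (sg : ℝ) (mu : ℂ) (y η : R12) (t : ℝ) :
    CHF.ph sg mu ‖η‖ t * CHF.EE (inner ℝ η y) t
      = exp (-(mu * t)) * EE (sg * (1 - Real.exp (-t))) (Real.exp (-(t / 2)) • y) η := by
  unfold CHF.ph CHF.EE EE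
  rw [← Complex.exp_add, ← Complex.exp_add]
  congr 1
  rw [inner_smul_right, show (-t / 2 : ℝ) = -(t / 2) by ring]
  push_cast
  ring

lemma cpow_exp (t : ℝ) (c : ℂ) : ((Real.exp (t / 2) : ℝ) : ℂ) ^ c = exp (c * (t / 2)) := by
  rw [cpow_def_of_ne_zero (by exact_mod_cast (Real.exp_pos _).ne'), ← ofReal_log (Real.exp_pos _).le,
    Real.log_exp]
  congr 1
  push_cast
  ring

lemma hasDerivAt_GGe (ham : StronglyMeasurable a) (hhm : StronglyMeasurable h)
    (ha : Mom a) (hh : Integrable h) (heq : Eqn sg mu a h) (y : R12) (t : ℝ) :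
    HasDerivAt (fun t : ℝ => GG sg mu a y (Real.exp (t / 2)))
      (-∫ η, (CHF.ph sg mu ‖η‖ t * CHF.EE (inner ℝ η y) t) * h η) t := by
  have h1 := hasDerivAt_GG ham hhm ha hh heq y (Real.exp_pos (t / 2))
  have h2 : HasDerivAt (fun t : ℝ => Real.exp (t / 2)) (1 / 2 * Real.exp (t / 2)) t := by
    have h := ((hasDerivAt_id t).div_const 2).exp
    refine h.congr_deriv ?_
    simp; ring
  have h3 := h1.scomp t h2
  refine h3.congr_deriv ?_
  simp only [phEE]
  have e1 : (Real.exp (t / 2) ^ 2)⁻¹ = Real.exp (-t) := by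
    rw [← Real.exp_nat_mul, ← Real.exp_neg]; congr 1; push_cast; ring
  have e2 : (Real.exp (t / 2))⁻¹ = Real.exp (-(t / 2)) := (Real.exp_neg _).symm
  rw [e1, e2, real_smul, cpow_exp]
  have e3 : ∫ η, exp (-(mu * t)) * EE (sg * (1 - Real.exp (-t))) (Real.exp (-(t / 2)) • y) η * h η
      = exp (-(mu * t)) * ∫ η, EE (sg * (1 - Real.exp (-t))) (Real.exp (-(t / 2)) • y) η * h η := by
    rw [← integral_const_mul]
    refine integral_congr_ae (Eventually.of_forall fun η => ?_)
    simp only; ring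
  rw [e3]
  have e4 : exp ((-1 - 2 * mu) * (t / 2)) * ((Real.exp (t / 2) : ℝ) : ℂ) = exp (-(mu * t)) := by
    rw [ofReal_exp, ← Complex.exp_add]
    congr 1
    push_cast
    ring
  rw [← e4]
  push_cast
  ring

lemma norm_phEE (sg : ℝ) (mu : ℂ) (y η : R12) (t : ℝ) :
    ‖CHF.ph sg mu ‖η‖ t * CHF.EE (inner ℝ η y) t‖ = Real.exp (-(mu.re * t)) := by
  rw [phEE, norm_mul, norm_EE, mul_one, Complex.norm_exp]
  simp

lemma integrable_phEE (hmu : 0 < mu.re) (hh : Integrable h) (y : R12) :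
    Integrable (fun p : ℝ × R12 => (CHF.ph sg mu ‖p.2‖ p.1 * CHF.EE (inner ℝ p.2 y) p.1) * h p.2)
      ((volume.restrict (Ioi 0)).prod (volume : Measure R12)) := by
  have h1 : Integrable (fun p : ℝ × R12 => Real.exp (-(mu.re * p.1)) * ‖h p.2‖)
      ((volume.restrict (Ioi 0)).prod (volume : Measure R12)) := by
    refine Integrable.mul_prod (f := fun t : ℝ => Real.exp (-(mu.re * t))) ?_ hh.norm
    have h2 : IntegrableOn (fun t : ℝ => Real.exp (-(mu.re * t))) (Ioi 0) := by
      simpa only [neg_mul] using exp_neg_integrableOn_Ioi 0 hmu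
    exact h2
  refine h1.mono' ?_ (Eventually.of_forall fun p => ?_)
  · have hc : Continuous fun p : ℝ × R12 =>
        CHF.ph sg mu ‖p.2‖ p.1 * CHF.EE (inner ℝ p.2 y) p.1 := by
      unfold CHF.ph CHF.EE; fun_prop
    exact hc.aestronglyMeasurable.mul hh.1.comp_snd
  · rw [norm_mul, norm_phEE]

lemma rep_sm (hmu : 0 < mu.re) (ham : StronglyMeasurable a) (hhm : StronglyMeasurable h)
    (ha : Mom a) (hh : Integrable h) (heq : Eqn sg mu a h) (y : R12) :
    ft a y = ∫ η : R12, h η * ∫ t in Ioi (0 : ℝ), CHF.ph sg mu ‖η‖ t * CHF.EE (inner ℝ η y) t := by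
  have hj := integrable_phEE (sg := sg) hmu hh y
  have hlim : Tendsto (fun t : ℝ => GG sg mu a y (Real.exp (t / 2))) atTop (𝓝 0) :=
    (tendsto_GG hmu ha y).comp (Real.tendsto_exp_atTop.comp
      (tendsto_id.atTop_div_const (by norm_num : (0:ℝ) < 2)))
  have i2 : IntegrableOn (fun t : ℝ =>
      -∫ η, (CHF.ph sg mu ‖η‖ t * CHF.EE (inner ℝ η y) t) * h η) (Ioi 0) :=
    (hj.integral_prod_left).neg
  have e3 := integral_Ioi_of_hasDerivAt_of_tendsto (a := (0 : ℝ))
    (hasDerivAt_GGe ham hhm ha hh heq y 0).continuousAt.continuousWithinAt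
    (fun t _ => hasDerivAt_GGe ham hhm ha hh heq y t) i2 hlim
  rw [integral_neg, zero_sub, neg_inj, zero_div, Real.exp_zero, GG_one] at e3
  rw [← e3]
  have hsw := integral_integral_swap (f := fun (t : ℝ) (η : R12) =>
      (CHF.ph sg mu ‖η‖ t * CHF.EE (inner ℝ η y) t) * h η) hj
  rw [hsw]
  refine integral_congr_ae (Eventually.of_forall fun η => ?_)
  simp only
  rw [integral_mul_const, mul_comm]

end

/-- time representation of the resolvent -/
theorem repStmt : CHF.RepStmt := by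
  intro sg _ mu hmu f h a b ha hb heq y
  have hma := mom_of_rep ha
  have hmb := mom_of_rep hb
  set a' := hma.m0.1.mk a with ha'
  set b' := hmb.m0.1.mk b with hb'
  have haa : a =ᵐ[volume] a' := hma.m0.1.ae_eq_mk
  have hbb : b =ᵐ[volume] b' := hmb.m0.1.ae_eq_mk
  have hfa : f = ft a' := by
    funext y
    rw [← DGen.ft_congr haa y]
    exact ha.2 y
  have hE : Eqn sg mu a' b' := by
    intro y
    rw [← hfa, heq y, ← DGen.ft_congr hbb y]
    congr 1
    exact hb.2 y
  have key := rep_sm hmu hma.m0.1.stronglyMeasurable_mk hmb.m0.1.stronglyMeasurable_mk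
    (hma.congr haa) (hmb.m0.congr hbb) hE y
  rw [hfa, key]
  refine integral_congr_ae ?_
  filter_upwards [hbb] with η hη
  rw [hη]

end Crest.Agent.R086.SMO
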