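import Crest.Agent.R086.ResSyn

/-!
Row 86, node RES (helper470), file 2: existence for the resolvent of the free rescaled Schroedinger
operator in the weighted Wiener algebra (both components: `sg = 1`, `sg = -1`).
-/

set_option autoImplicit false

open MeasureTheory Complex Set Filter
open scoped ContDiff Topology

namespace Crest.Agent.R086.Res

open Crest.Agent.R086.Wie (WInt)

/-- Lebesgue measure on `(1,∞)` -/
noncomputable abbrev rho1 : Measure ℝ := (volume : Measure ℝ).restrict (Ioi 1)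

theorem qmp_smul : Measure.QuasiMeasurePreserving (fun p : ℝ × R12 => p.1 • p.2)
    (rho1.prod (volume : Measure R12)) (volume : Measure R12) := by
  have hm : Measurable (fun p : ℝ × R12 => p.1 • p.2) := by fun_prop
  refine ⟨hm, Measure.AbsolutelyContinuous.mk fun A hA h0 => ?_⟩
  rw [Measure.map_apply hm hA, Measure.measure_prod_null (hm hA)]
  refine (ae_restrict_iff' measurableSet_Ioi).2 (Eventually.of_forall fun s hs => ?_)
  have hs0 : s ≠ 0 := (lt_trans one_pos hs).ne'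
  have h1 : (Prod.mk s ⁻¹' ((fun p : ℝ × R12 => p.1 • p.2) ⁻¹' A)) = (fun ξ : R12 => s • ξ) ⁻¹' A := rfl
  simp only [h1, Pi.zero_apply]
  rw [Measure.addHaar_preimage_smul _ hs0, h0, mul_zero]

/-- the kernel `2 s^{11-2μ} e^{-i sg |ξ|²(s²-1)}` -/
noncomputable def kern (sg : ℝ) (μ : ℂ) (s : ℝ) (ξ : R12) : ℂ :=
  2 * (s : ℂ) ^ (11 - 2 * μ) * exp (-I * ((sg * ‖ξ‖ ^ 2 * (s ^ 2 - 1) : ℝ) : ℂ))

/-- the density of the resolvent applied to `b` -/
noncomputable def resDen (sg : ℝ) (μ : ℂ) (b : R12 → ℂ) (ξ : R12) : ℂ :=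
  ∫ s in Ioi (1 : ℝ), kern sg μ s ξ * b (s • ξ)

theorem norm_kern {sg : ℝ} {μ : ℂ} {s : ℝ} (hs : 0 < s) (ξ : R12) :
    ‖kern sg μ s ξ‖ = 2 * s ^ (11 - 2 * μ.re) := by
  unfold kern
  rw [norm_mul, norm_mul, norm_cpow_eq_rpow_re_of_pos hs]
  have h1 : ‖exp (-I * ((sg * ‖ξ‖ ^ 2 * (s ^ 2 - 1) : ℝ) : ℂ))‖ = 1 := by
    rw [show -I * ((sg * ‖ξ‖ ^ 2 * (s ^ 2 - 1) : ℝ) : ℂ)
      = ((-(sg * ‖ξ‖ ^ 2 * (s ^ 2 - 1)) : ℝ) : ℂ) * I by push_cast; ring]
    exact norm_exp_ofReal_mul_I _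
  rw [h1]
  simp

theorem measurable_kern (sg : ℝ) (μ : ℂ) : Measurable fun p : ℝ × R12 => kern sg μ p.1 p.2 := by
  unfold kern
  fun_prop

theorem finrank_R12 : Module.finrank ℝ R12 = 12 := by simp [R12]

variable {N : ℕ} {sg : ℝ} {μ : ℂ} {b : R12 → ℂ}

theorem aesm_joint (hb : AEStronglyMeasurable b volume) :
    AEStronglyMeasurable (fun p : ℝ × R12 => Wie.wt N p.2 • (kern sg μ p.1 p.2 * b (p.1 • p.2)))
      (rho1.prod volume) := by
  have h1 : AEStronglyMeasurable (fun p : ℝ × R12 => b (p.1 • p.2)) (rho1.prod volume) :=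
    hb.comp_quasiMeasurePreserving qmp_smul
  have h2 : Measurable fun p : ℝ × R12 => Wie.wt N p.2 :=
    (Wie.measurable_wt N).comp measurable_snd
  exact h2.aestronglyMeasurable.smul ((measurable_kern sg μ).aestronglyMeasurable.mul h1)

/-- the weighted norm -/
noncomputable def xn (N : ℕ) (b : R12 → ℂ) : ℝ := ∫ ξ, Wie.wt N ξ * ‖b ξ‖

theorem xn_eq (N : ℕ) (b : R12 → ℂ) : xn N b = ∫ ξ, ‖Wie.wt N ξ • b ξ‖ := by
  unfold xn
  refine integral_congr_ae (Eventually.of_forall fun ξ => ?_)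
  simp only [norm_smul, Real.norm_of_nonneg (Wie.wt_nonneg N ξ)]

theorem xn_nonneg (N : ℕ) (b : R12 → ℂ) : 0 ≤ xn N b :=
  integral_nonneg fun ξ => mul_nonneg (Wie.wt_nonneg N ξ) (norm_nonneg _)

theorem wt_smul_le {s : ℝ} (hs : 1 ≤ s) (ξ : R12) : Wie.wt N ξ ≤ Wie.wt N (s • ξ) := by
  unfold Wie.wt
  refine pow_le_pow_left₀ (by positivity) ?_ N
  rw [norm_smul, Real.norm_of_nonneg (by linarith)]
  nlinarith [norm_nonneg ξ]

theorem slice_bound {s : ℝ} (hs : 1 < s) (ξ : R12) :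
    ‖Wie.wt N ξ • (kern sg μ s ξ * b (s • ξ))‖
      ≤ 2 * s ^ (11 - 2 * μ.re) * ‖Wie.wt N (s • ξ) • b (s • ξ)‖ := by
  have hs0 : 0 < s := lt_trans one_pos hs
  rw [norm_smul, norm_mul, norm_kern hs0, norm_smul, Real.norm_of_nonneg (Wie.wt_nonneg N ξ),
    Real.norm_of_nonneg (Wie.wt_nonneg N (s • ξ))]
  have h1 := wt_smul_le (N := N) hs.le ξ
  have h2 : 0 ≤ 2 * s ^ (11 - 2 * μ.re) * ‖b (s • ξ)‖ := by positivity
  nlinarith [mul_le_mul_of_nonneg_right h1 h2]

theorem integrable_gs (hb : WInt N b) {s : ℝ} (hs : 0 < s) :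
    Integrable fun ξ : R12 => Wie.wt N (s • ξ) • b (s • ξ) := by
  have h := Integrable.comp_smul (μ := (volume : Measure R12)) (f := fun ξ => Wie.wt N ξ • b ξ) hb hs.ne'
  exact h

theorem integral_gs {s : ℝ} (hs : 0 < s) :
    ∫ ξ : R12, ‖Wie.wt N (s • ξ) • b (s • ξ)‖ = (s ^ 12)⁻¹ * xn N b := by
  have h := Measure.integral_comp_smul_of_nonneg (volume : Measure R12)
    (fun ξ => ‖Wie.wt N ξ • b ξ‖) s (hR := hs.le)
  rw [finrank_R12] at h
  rw [xn_eq]
  exact h

theorem slice_integrable (hb : WInt N b) {s : ℝ} (hs : 1 < s) :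
    Integrable fun ξ : R12 => Wie.wt N ξ • (kern sg μ s ξ * b (s • ξ)) := by
  have hs0 : 0 < s := lt_trans one_pos hs
  have h1 := (integrable_gs hb hs0).norm.const_mul (2 * s ^ (11 - 2 * μ.re))
  refine h1.mono ?_ (Eventually.of_forall fun ξ => ?_)
  · have hk : Measurable fun ξ : R12 => kern sg μ s ξ :=
      (measurable_kern sg μ).comp (measurable_const.prodMk measurable_id)
    have hbm : AEStronglyMeasurable (fun ξ : R12 => b (s • ξ)) volume :=
      (Integrable.comp_smul (μ := (volume : Measure R12)) hb.integrable hs0.ne').aestronglyMeasurable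
    exact (Wie.measurable_wt N).aestronglyMeasurable.smul (hk.aestronglyMeasurable.mul hbm)
  · refine (slice_bound hs ξ).trans (le_abs_self _)

theorem slice_integral_le (hb : WInt N b) {s : ℝ} (hs : 1 < s) :
    ∫ ξ : R12, ‖Wie.wt N ξ • (kern sg μ s ξ * b (s • ξ))‖
      ≤ 2 * xn N b * s ^ (-1 - 2 * μ.re) := by
  have hs0 : 0 < s := lt_trans one_pos hs
  calc ∫ ξ : R12, ‖Wie.wt N ξ • (kern sg μ s ξ * b (s • ξ))‖
      ≤ ∫ ξ : R12, 2 * s ^ (11 - 2 * μ.re) * ‖Wie.wt N (s • ξ) • b (s • ξ)‖ :=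
        integral_mono (slice_integrable hb hs).norm
          ((integrable_gs hb hs0).norm.const_mul _) fun ξ => slice_bound hs ξ
    _ = 2 * s ^ (11 - 2 * μ.re) * ((s ^ 12)⁻¹ * xn N b) := by
        rw [integral_const_mul, integral_gs hs0]
    _ = 2 * xn N b * s ^ (-1 - 2 * μ.re) := by
        rw [show (-1 - 2 * μ.re : ℝ) = (11 - 2 * μ.re) - (12 : ℕ) by push_cast; ring,
          Real.rpow_sub_natCast hs0.ne']
        ring

theorem integrableOn_pow {κ : ℝ} (hκ : 0 < κ) :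
    Integrable (fun s : ℝ => s ^ (-1 - 2 * κ)) rho1 :=
  integrableOn_Ioi_rpow_of_lt (by linarith) one_pos

theorem integrable_joint (hμ : 0 < μ.re) (hb : WInt N b) :
    Integrable (fun p : ℝ × R12 => Wie.wt N p.2 • (kern sg μ p.1 p.2 * b (p.1 • p.2)))
      (rho1.prod volume) := by
  have hm := aesm_joint (N := N) (sg := sg) (μ := μ) hb.integrable.aestronglyMeasurable
  rw [integrable_prod_iff hm]
  constructor
  · exact (ae_restrict_iff' measurableSet_Ioi).2 (Eventually.of_forall fun s hs =>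
      slice_integrable hb hs)
  · refine ((integrableOn_pow hμ).const_mul (2 * xn N b)).mono hm.norm.integral_prod_right' ?_
    refine (ae_restrict_iff' measurableSet_Ioi).2 (Eventually.of_forall fun s hs => ?_)
    have hs0 : (0 : ℝ) < s := lt_trans one_pos hs
    have h0 : 0 ≤ ∫ ξ : R12, ‖Wie.wt N ξ • (kern sg μ s ξ * b (s • ξ))‖ :=
      integral_nonneg fun ξ => norm_nonneg _
    rw [Real.norm_of_nonneg h0, Real.norm_of_nonneg (by have := xn_nonneg N b; positivity)]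
    exact slice_integral_le hb hs

theorem wt_smul_resDen (ξ : R12) :
    Wie.wt N ξ • resDen sg μ b ξ
      = ∫ s in Ioi (1 : ℝ), Wie.wt N ξ • (kern sg μ s ξ * b (s • ξ)) := by
  unfold resDen
  rw [integral_smul]

/-- RES-exist, part 1: `resDen` is in the weighted class -/
theorem wint_resDen (hμ : 0 < μ.re) (hb : WInt N b) : WInt N (resDen sg μ b) := by
  have h := (integrable_joint (sg := sg) hμ hb).integral_prod_right
  refine h.congr (Eventually.of_forall fun ξ => ?_)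
  exact (wt_smul_resDen ξ).symm

/-- RES-exist, part 2: norm bound -/
theorem xn_resDen_le (hμ : 0 < μ.re) (hb : WInt N b) :
    xn N (resDen sg μ b) ≤ xn N b / μ.re := by
  have hj := integrable_joint (sg := sg) hμ hb
  rw [xn_eq]
  calc ∫ ξ, ‖Wie.wt N ξ • resDen sg μ b ξ‖
      ≤ ∫ ξ, ∫ s in Ioi (1 : ℝ), ‖Wie.wt N ξ • (kern sg μ s ξ * b (s • ξ))‖ := by
        refine integral_mono (wint_resDen hμ hb).norm hj.norm.integral_prod_right fun ξ => ?_
        simp only
        rw [wt_smul_resDen]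
        exact norm_integral_le_integral_norm _
    _ = ∫ s in Ioi (1 : ℝ), ∫ ξ, ‖Wie.wt N ξ • (kern sg μ s ξ * b (s • ξ))‖ :=
        integral_integral_swap (μ := (volume : Measure R12)) (ν := rho1)
          (f := fun ξ s => ‖Wie.wt N ξ • (kern sg μ s ξ * b (s • ξ))‖) hj.norm.swap
    _ ≤ ∫ s in Ioi (1 : ℝ), 2 * xn N b * s ^ (-1 - 2 * μ.re) := by
        refine setIntegral_mono_on hj.norm.integral_prod_left
          ((integrableOn_pow hμ).const_mul (2 * xn N b)) measurableSet_Ioi fun s hs => ?_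
        exact slice_integral_le hb hs
    _ = xn N b / μ.re := by
        rw [integral_const_mul, integral_Ioi_rpow_of_lt (by linarith) one_pos, Real.one_rpow]
        have h1 : μ.re ≠ 0 := hμ.ne'
        have h2 : (-1 - 2 * μ.re + 1 : ℝ) = -(2 * μ.re) := by ring
        rw [h2]
        field_simp

end Crest.Agent.R086.Res
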