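import Crest.Agent.R086.DLIface

/-!
Row 86, node RES (helper470): uniqueness of densities (proof copied from DLLin.lean to keep the imports small).
-/

set_option autoImplicit false

open MeasureTheory Complex Set Function
open scoped ContDiff

namespace Crest.Agent.R086.Res

/-- a real integrable function with zero Fourier transform vanishes a.e. -/
lemma real_zero {u : R12 → ℝ} (hu : Integrable u volume)
    (h : ∀ y : R12, ∫ ξ : R12, exp (((inner ℝ ξ y : ℝ) : ℂ) * I) * (u ξ : ℂ) = 0) :
    u =ᵐ[volume] 0 := by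
  have hp : Integrable (fun ξ => max (u ξ) 0) volume := hu.pos_part
  have hn : Integrable (fun ξ => max (-u ξ) 0) volume := hu.neg_part
  let μ1 : Measure R12 := volume.withDensity fun ξ => ENNReal.ofReal (max (u ξ) 0)
  let μ2 : Measure R12 := volume.withDensity fun ξ => ENNReal.ofReal (max (-u ξ) 0)
  haveI : IsFiniteMeasure μ1 := isFiniteMeasure_withDensity_ofReal hp.2
  haveI : IsFiniteMeasure μ2 := isFiniteMeasure_withDensity_ofReal hn.2
  have hcf : charFun μ1 = charFun μ2 := by
    ext y
    rw [charFun_apply, charFun_apply]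
    have e1 : ∫ x, exp (((inner ℝ x y : ℝ) : ℂ) * I) ∂μ1
        = ∫ x, exp (((inner ℝ x y : ℝ) : ℂ) * I) * ((max (u x) 0 : ℝ) : ℂ) := by
      rw [integral_withDensity_eq_integral_toReal_smul₀ hp.1.aemeasurable.ennreal_ofReal
        (Filter.Eventually.of_forall fun ξ => ENNReal.ofReal_lt_top)]
      apply integral_congr_ae
      filter_upwards with x
      rw [ENNReal.toReal_ofReal (le_max_right _ _), Complex.real_smul, mul_comm]
    have e2 : ∫ x, exp (((inner ℝ x y : ℝ) : ℂ) * I) ∂μ2
        = ∫ x, exp (((inner ℝ x y : ℝ) : ℂ) * I) * ((max (-u x) 0 : ℝ) : ℂ) := by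
      rw [integral_withDensity_eq_integral_toReal_smul₀ hn.1.aemeasurable.ennreal_ofReal
        (Filter.Eventually.of_forall fun ξ => ENNReal.ofReal_lt_top)]
      apply integral_congr_ae
      filter_upwards with x
      rw [ENNReal.toReal_ofReal (le_max_right _ _), Complex.real_smul, mul_comm]
    rw [e1, e2, ← sub_eq_zero, ← integral_sub]
    · rw [← h y]
      apply integral_congr_ae
      filter_upwards with x
      rw [← mul_sub, ← Complex.ofReal_sub]
      congr 2
      rcases le_total 0 (u x) with h | h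
      · rw [max_eq_left h, max_eq_right (by linarith)]; ring
      · rw [max_eq_right h, max_eq_left (by linarith)]; ring
    · refine (hp.ofReal (𝕜 := ℂ)).bdd_mul (c := 1) (by apply Continuous.aestronglyMeasurable; fun_prop) ?_
      refine Filter.Eventually.of_forall fun ξ => ?_
      rw [Complex.norm_exp]; simp
    · refine (hn.ofReal (𝕜 := ℂ)).bdd_mul (c := 1) (by apply Continuous.aestronglyMeasurable; fun_prop) ?_
      refine Filter.Eventually.of_forall fun ξ => ?_
      rw [Complex.norm_exp]; simp
  have hμ : μ1 = μ2 := Measure.ext_of_charFun hcf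
  have hd := (withDensity_eq_iff hp.1.aemeasurable.ennreal_ofReal hn.1.aemeasurable.ennreal_ofReal
    (by
      have h5 := (hasFiniteIntegral_iff_ofReal (f := fun ξ => max (u ξ) 0) (μ := volume)
        (Filter.Eventually.of_forall fun _ => le_max_right _ _)).1 hp.2
      exact h5.ne)).1 hμ
  filter_upwards [hd] with x hx
  have h3 := (ENNReal.ofReal_eq_ofReal_iff (le_max_right _ _) (le_max_right _ _)).1 hx
  simp only [Pi.zero_apply]
  rcases le_total 0 (u x) with h | h
  · rw [max_eq_left h, max_eq_right (by linarith)] at h3; exact h3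
  · rw [max_eq_right h, max_eq_left (by linarith)] at h3; linarith

lemma ft_zero_ae {a : R12 → ℂ} (ha : Integrable a volume) (h : ∀ y, ft a y = 0) : a =ᵐ[volume] 0 := by
  have hconj : ∀ y, ∫ ξ : R12, exp (((inner ℝ ξ y : ℝ) : ℂ) * I) * (starRingEnd ℂ) (a ξ) = 0 := by
    intro y
    have h1 := h (-y)
    unfold ft at h1
    have h2 := congrArg (starRingEnd ℂ) h1
    rw [← integral_conj, map_zero] at h2
    rw [← h2]
    apply integral_congr_ae
    filter_upwards with ξ
    rw [map_mul, ← Complex.exp_conj]
    simp only [map_mul, Complex.conj_I, Complex.conj_ofReal, inner_neg_right, Complex.ofReal_neg,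
      map_neg]
    ring_nf
  have hself : ∀ y, ∫ ξ : R12, exp (((inner ℝ ξ y : ℝ) : ℂ) * I) * a ξ = 0 := by
    intro y
    rw [← h y]
    unfold ft
    apply integral_congr_ae
    filter_upwards with ξ
    rw [mul_comm I]
  have hb : ∀ (b : R12 → ℂ), Integrable b volume → ∀ y, Integrable (fun ξ : R12 => exp (((inner ℝ ξ y : ℝ) : ℂ) * I) * b ξ) := by
    intro b hb y
    refine hb.bdd_mul (c := 1) (by apply Continuous.aestronglyMeasurable; fun_prop) ?_
    refine Filter.Eventually.of_forall fun ξ => ?_
    rw [Complex.norm_exp]; simp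
  have hac : Integrable (fun ξ => (starRingEnd ℂ) (a ξ)) volume := by
    refine ha.congr' (Complex.continuous_conj.comp_aestronglyMeasurable ha.1) ?_
    filter_upwards with ξ
    simp
  have hre := real_zero (u := fun ξ => (a ξ).re) ha.re (fun y => by
    have := congrArg₂ (· + ·) (hself y) (hconj y)
    simp only [add_zero] at this
    rw [← integral_add (hb a ha y) (hb _ hac y)] at this
    have h2 : ∫ ξ : R12, exp (((inner ℝ ξ y : ℝ) : ℂ) * I) * (((a ξ).re : ℝ) : ℂ)
        = (1/2 : ℂ) * ∫ ξ : R12, (exp (((inner ℝ ξ y : ℝ) : ℂ) * I) * a ξ + exp (((inner ℝ ξ y : ℝ) : ℂ) * I) * (starRingEnd ℂ) (a ξ)) := by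
      rw [← MeasureTheory.integral_const_mul]
      apply integral_congr_ae
      filter_upwards with ξ
      rw [← mul_add, Complex.add_conj]
      push_cast; ring
    rw [h2, this, mul_zero])
  have him := real_zero (u := fun ξ => (a ξ).im) ha.im (fun y => by
    have := congrArg₂ (· - ·) (hself y) (hconj y)
    simp only [sub_zero] at this
    rw [← integral_sub (hb a ha y) (hb _ hac y)] at this
    have h2 : ∫ ξ : R12, exp (((inner ℝ ξ y : ℝ) : ℂ) * I) * (((a ξ).im : ℝ) : ℂ)
        = (-I/2 : ℂ) * ∫ ξ : R12, (exp (((inner ℝ ξ y : ℝ) : ℂ) * I) * a ξ - exp (((inner ℝ ξ y : ℝ) : ℂ) * I) * (starRingEnd ℂ) (a ξ)) := by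
      rw [← MeasureTheory.integral_const_mul]
      apply integral_congr_ae
      filter_upwards with ξ
      rw [← mul_sub, Complex.sub_conj]
      push_cast
      linear_combination (exp (((inner ℝ ξ y : ℝ) : ℂ) * I) * ((a ξ).im : ℂ)) * Complex.I_sq
    rw [h2, this, mul_zero])
  filter_upwards [hre, him] with ξ h1 h2
  apply Complex.ext
  · simpa using h1
  · simpa using h2


end Crest.Agent.R086.Res
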