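import Crest.Agent.R086.Res2
import Crest.Agent.R086.ResInj

/-!
Row 86, node RES (helper470), file 4: uniqueness.
If `f = ft a`, `a ∈ L¹((1+|ξ|)²)`, and `sg·i·Δf - ½ y·∇f - μ f = - ft b` with `b ∈ L¹`, then
`a = resDen sg μ b` almost everywhere.
-/

set_option autoImplicit false

open MeasureTheory Complex Set Filter
open scoped ContDiff Topology

namespace Crest.Agent.R086.Res

open Crest.Agent.R086.Wie (WInt)

/-! ### A. averages of dilations -/

/-- Lebesgue measure on `(1,t]` -/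
noncomputable abbrev rhot (t : ℝ) : Measure ℝ := (volume : Measure ℝ).restrict (Ioc 1 t)

theorem qmp_inv_smul (t : ℝ) : Measure.QuasiMeasurePreserving (fun p : ℝ × R12 => p.1⁻¹ • p.2)
    ((rhot t).prod (volume : Measure R12)) (volume : Measure R12) := by
  have hm : Measurable (fun p : ℝ × R12 => p.1⁻¹ • p.2) := by fun_prop
  refine ⟨hm, Measure.AbsolutelyContinuous.mk fun A hA h0 => ?_⟩
  rw [Measure.map_apply hm hA, Measure.measure_prod_null (hm hA)]
  refine (ae_restrict_iff' measurableSet_Ioc).2 (Eventually.of_forall fun s hs => ?_)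
  have hs0 : s⁻¹ ≠ 0 := inv_ne_zero (lt_trans one_pos hs.1).ne'
  have h1 : (Prod.mk s ⁻¹' ((fun p : ℝ × R12 => p.1⁻¹ • p.2) ⁻¹' A)) = (fun ξ : R12 => s⁻¹ • ξ) ⁻¹' A := rfl
  simp only [h1, Pi.zero_apply]
  rw [Measure.addHaar_preimage_smul _ hs0, h0, mul_zero]

noncomputable def avg (t : ℝ) (c : R12 → ℂ) (ξ : R12) : ℂ :=
  ∫ r in Ioc (1 : ℝ) t, ((r ^ 13)⁻¹ : ℝ) • c (r⁻¹ • ξ)

noncomputable def dil (t : ℝ) (a : R12 → ℂ) (ξ : R12) : ℂ := ((t ^ 12)⁻¹ : ℝ) • a (t⁻¹ • ξ)

variable {sg : ℝ} {μ : ℂ} {a b c : R12 → ℂ}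

theorem comp_inv_smul_integral {r : ℝ} (hr : 0 < r) (φ c : R12 → ℂ) :
    ∫ ξ, φ ξ * c (r⁻¹ • ξ) = ((r ^ 12 : ℝ)) • ∫ η, φ (r • η) * c η := by
  have h := Measure.integral_comp_inv_smul (volume : Measure R12) (fun η => φ (r • η) * c η) r
  rw [finrank_R12, abs_of_pos (by positivity)] at h
  rw [← h]
  refine integral_congr_ae (Eventually.of_forall fun ξ => ?_)
  simp only [smul_smul, mul_inv_cancel₀ hr.ne', one_smul]

theorem avg_joint (hc : Integrable c) (t : ℝ) :
    Integrable (fun p : ℝ × R12 => ((p.1 ^ 13)⁻¹ : ℝ) • c (p.1⁻¹ • p.2)) ((rhot t).prod volume) := by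
  have hm : AEStronglyMeasurable (fun p : ℝ × R12 => ((p.1 ^ 13)⁻¹ : ℝ) • c (p.1⁻¹ • p.2))
      ((rhot t).prod volume) := by
    have h1 : Measurable fun p : ℝ × R12 => ((p.1 ^ 13)⁻¹ : ℝ) := by fun_prop
    exact h1.aestronglyMeasurable.smul (hc.1.comp_quasiMeasurePreserving (qmp_inv_smul t))
  have hs : ∀ r : ℝ, 1 < r → Integrable fun ξ : R12 => ((r ^ 13)⁻¹ : ℝ) • c (r⁻¹ • ξ) := by
    intro r hr
    have h := Integrable.comp_smul (μ := (volume : Measure R12)) hc
      (inv_ne_zero (lt_trans one_pos hr).ne')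
    exact h.smul ((r ^ 13)⁻¹ : ℝ)
  rw [integrable_prod_iff hm]
  constructor
  · exact (ae_restrict_iff' measurableSet_Ioc).2 (Eventually.of_forall fun r hr => hs r hr.1)
  · have hfin : Integrable (fun _ : ℝ => ∫ ξ, ‖c ξ‖) (rhot t) := integrable_const _
    refine hfin.mono hm.norm.integral_prod_right' ?_
    refine (ae_restrict_iff' measurableSet_Ioc).2 (Eventually.of_forall fun r hr => ?_)
    have hr0 : (0 : ℝ) < r := lt_trans one_pos hr.1
    rw [Real.norm_of_nonneg (integral_nonneg fun ξ => norm_nonneg _),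
      Real.norm_of_nonneg (integral_nonneg fun ξ => norm_nonneg _)]
    have h := Measure.integral_comp_inv_smul (volume : Measure R12) (fun η => ‖c η‖) r
    rw [finrank_R12, abs_of_pos (by positivity)] at h
    simp only [norm_smul]
    rw [integral_const_mul, h, smul_eq_mul, Real.norm_of_nonneg (by positivity), ← mul_assoc]
    have h2 : (r ^ 13)⁻¹ * r ^ 12 = r⁻¹ := by field_simp
    rw [h2]
    have h3 : r⁻¹ ≤ 1 := inv_le_one_of_one_le₀ hr.1.le
    have h4 : 0 ≤ ∫ ξ, ‖c ξ‖ := integral_nonneg fun ξ => norm_nonneg _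
    nlinarith

theorem integrable_avg (hc : Integrable c) (t : ℝ) : Integrable (avg t c) :=
  (avg_joint hc t).integral_prod_right

theorem avg_test (hc : Integrable c) (t : ℝ) {φ : R12 → ℂ} (hφ : Continuous φ) {M : ℝ}
    (hM : ∀ ξ, ‖φ ξ‖ ≤ M) :
    ∫ ξ, φ ξ * avg t c ξ = ∫ r in Ioc (1 : ℝ) t, (r⁻¹ : ℝ) • ∫ η, φ (r • η) * c η := by
  have hj : Integrable (fun p : ℝ × R12 => φ p.2 * (((p.1 ^ 13)⁻¹ : ℝ) • c (p.1⁻¹ • p.2)))
      ((rhot t).prod volume) := by
    refine (avg_joint hc t).bdd_mul (c := M) ?_ (Eventually.of_forall fun p => hM p.2)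
    exact (hφ.comp continuous_snd).aestronglyMeasurable
  calc ∫ ξ, φ ξ * avg t c ξ
      = ∫ ξ, ∫ r in Ioc (1 : ℝ) t, φ ξ * (((r ^ 13)⁻¹ : ℝ) • c (r⁻¹ • ξ)) := by
        refine integral_congr_ae (Eventually.of_forall fun ξ => ?_)
        simp only [avg]
        rw [integral_const_mul]
    _ = ∫ r in Ioc (1 : ℝ) t, ∫ ξ, φ ξ * (((r ^ 13)⁻¹ : ℝ) • c (r⁻¹ • ξ)) :=
        integral_integral_swap (μ := (volume : Measure R12)) (ν := rhot t)
          (f := fun ξ r => φ ξ * (((r ^ 13)⁻¹ : ℝ) • c (r⁻¹ • ξ))) hj.swap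
    _ = _ := by
        refine setIntegral_congr_fun measurableSet_Ioc fun r hr => ?_
        have hr0 : (0 : ℝ) < r := lt_trans one_pos hr.1
        simp only [mul_smul_comm]
        rw [integral_smul, comp_inv_smul_integral hr0, smul_smul]
        congr 1
        field_simp

theorem integrable_dil {t : ℝ} (ht : 0 < t) (ha : Integrable a) : Integrable (dil t a) := by
  have h := Integrable.comp_smul (μ := (volume : Measure R12)) ha (inv_ne_zero ht.ne')
  exact h.smul ((t ^ 12)⁻¹ : ℝ)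

theorem dil_test {t : ℝ} (ht : 0 < t) (φ : R12 → ℂ) :
    ∫ ξ, φ ξ * dil t a ξ = ∫ η, φ (t • η) * a η := by
  unfold dil
  simp only [mul_smul_comm]
  rw [integral_smul, comp_inv_smul_integral ht, smul_smul, inv_mul_cancel₀ (by positivity), one_smul]

/-! ### B. the dilation identity -/

theorem continuous_ft (hc : Integrable c) : Continuous (ft c) := by
  refine continuous_of_dominated (bound := fun ξ => ‖c ξ‖) (fun y => ?_) (fun y => ?_) hc.norm ?_
  · exact (continuous_ch_left y).aestronglyMeasurable.mul hc.1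
  · refine Eventually.of_forall fun ξ => ?_
    have := norm_ch ξ y
    unfold ch at this
    rw [norm_mul, this, one_mul]
  · refine Eventually.of_forall fun ξ => ?_
    fun_prop

theorem ch_smul (r : ℝ) (η y : R12) : ch (r • η) y = ch η (r • y) := by
  unfold ch
  rw [inner_smul_left, inner_smul_right]
  simp

theorem dil_identity (ha : Integrable a) (ha1 : Integrable fun ξ => ‖ξ‖ * ‖a ξ‖) (hc : Integrable c)
    (heul : ∀ y, eul (ft a) y = ft c y) {t : ℝ} (ht : 1 ≤ t) :
    (fun ξ => dil t a ξ - a ξ - avg t c ξ) =ᵐ[volume] 0 := by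
  have ht0 : 0 < t := lt_of_lt_of_le one_pos ht
  have id1 := integrable_dil ht0 ha
  have id2 := integrable_avg hc t
  refine ft_zero_ae ((id1.sub ha).sub id2) fun y => ?_
  have e0 : ft (fun ξ => dil t a ξ - a ξ - avg t c ξ) y = ft (dil t a) y - ft a y - ft (avg t c) y := by
    simp only [ft_eq, smul_sub]
    have i1 := integrable_ch_smul id1 y
    have i2 := integrable_ch_smul ha y
    have i3 := integrable_ch_smul id2 y
    rw [← integral_sub i1 i2]
    exact integral_sub (i1.sub i2) i3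
  have e1 : ft (dil t a) y = ft a (t • y) := by
    have h := dil_test (a := a) ht0 (fun ξ => ch ξ y)
    simp only [ch_smul] at h
    exact h
  have e2 : ft (avg t c) y = ∫ r in (1 : ℝ)..t, (r⁻¹ : ℝ) • ft c (r • y) := by
    have h := avg_test hc t (continuous_ch_left y) (M := 1) (fun ξ => (norm_ch ξ y).le)
    simp only [ch_smul] at h
    rw [intervalIntegral.integral_of_le ht]
    exact h
  have e3 : ∫ r in (1 : ℝ)..t, (r⁻¹ : ℝ) • ft c (r • y) = ft a (t • y) - ft a y := by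
    have hd : ∀ r ∈ uIcc 1 t, HasDerivAt (fun r : ℝ => ft a (r • y)) ((r⁻¹ : ℝ) • ft c (r • y)) r := by
      intro r hr
      rw [uIcc_of_le ht] at hr
      have hr0 : 0 < r := lt_of_lt_of_le one_pos hr.1
      have h1 := (hasFDerivAt_ft ha ha1 (r • y))
      have h2 : HasDerivAt (fun r : ℝ => r • y) y r := by
        simpa using (hasDerivAt_id r).smul_const y
      have h3 := h1.comp_hasDerivAt r h2
      have h4 : fderiv ℝ (ft a) (r • y) = ∫ ξ, ch ξ (r • y) • dc a ξ := h1.fderiv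
      have h5 : (r⁻¹ : ℝ) • ft c (r • y) = (∫ ξ, ch ξ (r • y) • dc a ξ) y := by
        rw [← heul, eul, h4, map_smul, smul_smul, inv_mul_cancel₀ hr0.ne', one_smul]
      rw [h5]
      exact h3
    have hcont : ContinuousOn (fun r : ℝ => (r⁻¹ : ℝ) • ft c (r • y)) (uIcc 1 t) := by
      rw [uIcc_of_le ht]
      refine ContinuousOn.smul (ContinuousOn.inv₀ continuousOn_id fun r hr => ?_) ?_
      · exact (lt_of_lt_of_le one_pos hr.1).ne'
      · exact ((continuous_ft hc).comp (by fun_prop : Continuous fun r : ℝ => r • y)).continuousOn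
    rw [intervalIntegral.integral_eq_sub_of_hasDerivAt hd hcont.intervalIntegrable, one_smul]
  rw [e0, e1, e2, e3]
  ring

/-! ### C. the weak form with the character replaced by `e^{i⟨ξ,z⟩ - i w |ξ|²}` -/

/-- oscillating Gaussian -/
noncomputable def og (z : R12) (w : ℝ) (ξ : R12) : ℂ :=
  exp (I * (((inner ℝ ξ z : ℝ) - w * ‖ξ‖ ^ 2 : ℝ) : ℂ))

theorem norm_og (z : R12) (w : ℝ) (ξ : R12) : ‖og z w ξ‖ = 1 := by
  unfold og
  rw [mul_comm]
  exact norm_exp_ofReal_mul_I _

theorem continuous_og (z : R12) (w : ℝ) : Continuous (og z w) := by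
  unfold og
  fun_prop

theorem weak_int (ha : Integrable a) (ha1 : Integrable fun ξ => ‖ξ‖ * ‖a ξ‖) (hc : Integrable c)
    (heul : ∀ y, eul (ft a) y = ft c y) {t : ℝ} (ht : 1 ≤ t) (z : R12) (w : ℝ) :
    (∫ η, og z w (t • η) * a η) - (∫ η, og z w η * a η)
      = ∫ r in (1 : ℝ)..t, (r⁻¹ : ℝ) • ∫ η, og z w (r • η) * c η := by
  have ht0 : 0 < t := lt_of_lt_of_le one_pos ht
  have id1 := integrable_dil ht0 ha
  have id2 := integrable_avg hc t
  have hog : ∀ {u : R12 → ℂ}, Integrable u → Integrable fun ξ => og z w ξ * u ξ := fun hu =>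
    hu.bdd_mul (c := 1) (continuous_og z w).aestronglyMeasurable
      (Eventually.of_forall fun ξ => (norm_og z w ξ).le)
  have h0 := dil_identity ha ha1 hc heul ht
  have h1 : ∫ ξ, og z w ξ * (dil t a ξ - a ξ - avg t c ξ) = 0 := by
    rw [integral_congr_ae (g := fun _ => (0 : ℂ))]
    · simp
    · filter_upwards [h0] with ξ hξ
      have hξ' : dil t a ξ - a ξ - avg t c ξ = 0 := hξ
      rw [hξ', mul_zero]
  have h2 : ∫ ξ, og z w ξ * (dil t a ξ - a ξ - avg t c ξ)
      = (∫ ξ, og z w ξ * dil t a ξ) - (∫ ξ, og z w ξ * a ξ) - ∫ ξ, og z w ξ * avg t c ξ := by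
    simp only [mul_sub]
    rw [← integral_sub (hog id1) (hog ha)]
    exact integral_sub ((hog id1).sub (hog ha)) (hog id2)
  rw [intervalIntegral.integral_of_le ht, ← avg_test hc t (continuous_og z w) (fun ξ => (norm_og z w ξ).le),
    ← dil_test ht0 (og z w)]
  rw [h1] at h2
  exact (sub_eq_zero.1 h2.symm)

theorem hasDerivAt_og (z : R12) (w : ℝ) (η : R12) (t : ℝ) :
    HasDerivAt (fun t : ℝ => og z w (t • η))
      ((I * (((inner ℝ η z : ℝ) - 2 * w * t * ‖η‖ ^ 2 : ℝ) : ℂ)) * og z w (t • η)) t := by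
  have e : ∀ t : ℝ, og z w (t • η) = exp (I * ((t * inner ℝ η z - w * (t ^ 2 * ‖η‖ ^ 2) : ℝ) : ℂ)) := by
    intro t
    unfold og
    rw [inner_smul_left, norm_smul, mul_pow, Real.norm_eq_abs, sq_abs]
    simp
  simp only [e]
  have h1 : HasDerivAt (fun t : ℝ => t * inner ℝ η z - w * (t ^ 2 * ‖η‖ ^ 2))
      (1 * inner ℝ η z - w * ((2 * t) * ‖η‖ ^ 2)) t := by
    have ha := (hasDerivAt_id t).mul_const (inner ℝ η z : ℝ)
    have hb := (((hasDerivAt_pow 2 t).mul_const (‖η‖ ^ 2)).const_mul w)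
    have hc := ha.sub hb
    refine hc.congr_deriv ?_
    simp
  have h2 := (h1.ofReal_comp.const_mul I).cexp
  refine h2.congr_deriv ?_
  push_cast
  ring

/-- the weak form -/
theorem weak_form (ha : WInt 2 a) (hc : Integrable c) (heul : ∀ y, eul (ft a) y = ft c y)
    (z : R12) (w : ℝ) :
    ∫ η, (I * (((inner ℝ η z : ℝ) - 2 * w * ‖η‖ ^ 2 : ℝ) : ℂ)) * og z w η * a η
      = ∫ η, og z w η * c η := by
  have ha0 := ha.integrable
  have ha1 := WInt.int1 ha
  have ha2 := WInt.int2 ha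
  -- left derivative
  have hL : HasDerivAt (fun t : ℝ => ∫ η, og z w (t • η) * a η)
      (∫ η, (I * (((inner ℝ η z : ℝ) - 2 * w * 1 * ‖η‖ ^ 2 : ℝ) : ℂ)) * og z w ((1 : ℝ) • η) * a η) 1 := by
    have hb : Integrable fun ξ => (‖z‖ + 4 * |w|) * ‖Wie.wt 2 ξ • a ξ‖ := ha.norm.const_mul _
    refine (hasDerivAt_integral_of_dominated_loc_of_deriv_le (μ := (volume : Measure R12))
      (F := fun t η => og z w (t • η) * a η)
      (F' := fun t η => (I * (((inner ℝ η z : ℝ) - 2 * w * t * ‖η‖ ^ 2 : ℝ) : ℂ)) * og z w (t • η) * a η)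
      (x₀ := 1) (s := Metric.ball 1 1) (bound := fun ξ => (‖z‖ + 4 * |w|) * ‖Wie.wt 2 ξ • a ξ‖)
      (Metric.ball_mem_nhds 1 one_pos) ?_ ?_ ?_ ?_ hb ?_).2
    · refine Eventually.of_forall fun t => ?_
      exact ((continuous_og z w).comp (by fun_prop : Continuous fun η : R12 => t • η)).aestronglyMeasurable.mul ha0.1
    · refine ha0.bdd_mul (c := 1) ?_ (Eventually.of_forall fun ξ => (norm_og z w _).le)
      exact ((continuous_og z w).comp (by fun_prop : Continuous fun η : R12 => (1 : ℝ) • η)).aestronglyMeasurable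
    · have h1 : Continuous fun η : R12 => (I * (((inner ℝ η z : ℝ) - 2 * w * 1 * ‖η‖ ^ 2 : ℝ) : ℂ)) *
          og z w ((1 : ℝ) • η) := by
        refine Continuous.mul (by fun_prop) ?_
        exact (continuous_og z w).comp (by fun_prop : Continuous fun η : R12 => (1 : ℝ) • η)
      exact h1.aestronglyMeasurable.mul ha0.1
    · refine Eventually.of_forall fun η t ht => ?_
      rw [norm_mul, norm_mul, norm_mul, norm_I, one_mul, norm_og, mul_one, norm_real, norm_smul,
        Real.norm_of_nonneg (Wie.wt_nonneg 2 η), ← mul_assoc]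
      refine mul_le_mul_of_nonneg_right ?_ (norm_nonneg _)
      have ht2 : |t| ≤ 2 := by
        rw [Metric.mem_ball, Real.dist_eq] at ht
        have := abs_sub_abs_le_abs_sub t 1
        simp at this
        linarith
      have hw : Wie.wt 2 η = (1 + ‖η‖) ^ 2 := rfl
      rw [hw, Real.norm_eq_abs]
      have e1 : |inner ℝ η z - 2 * w * t * ‖η‖ ^ 2| ≤ ‖η‖ * ‖z‖ + 2 * |w| * |t| * ‖η‖ ^ 2 := by
        calc _ ≤ |inner ℝ η z| + |2 * w * t * ‖η‖ ^ 2| := abs_sub _ _
          _ ≤ _ := by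
            have := abs_real_inner_le_norm η z
            rw [abs_mul, abs_mul, abs_mul, abs_of_nonneg (sq_nonneg ‖η‖)]
            simp only [Nat.abs_ofNat]
            linarith
      have h0 := norm_nonneg η
      have h1 := norm_nonneg z
      have h2 := abs_nonneg w
      have h3 := abs_nonneg t
      have e2 : |w| * |t| * ‖η‖ ^ 2 ≤ |w| * 2 * ‖η‖ ^ 2 := by gcongr
      nlinarith [mul_nonneg h0 h1, mul_nonneg h2 h0, mul_nonneg h1 (sq_nonneg ‖η‖)]
    · refine Eventually.of_forall fun η t _ => ?_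
      exact (hasDerivAt_og z w η t).mul_const (a η)
  -- right hand side
  let g : ℝ → ℂ := fun r => (r⁻¹ : ℝ) • ∫ η, og z w (r • η) * c η
  have hgc : Continuous fun r : ℝ => ∫ η, og z w (r • η) * c η := by
    refine continuous_of_dominated (bound := fun ξ => ‖c ξ‖) (fun r => ?_) (fun r => ?_) hc.norm ?_
    · exact ((continuous_og z w).comp (by fun_prop : Continuous fun η : R12 => r • η)).aestronglyMeasurable.mul hc.1
    · exact Eventually.of_forall fun ξ => by rw [norm_mul, norm_og, one_mul]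
    · refine Eventually.of_forall fun ξ => ?_
      have := (continuous_og z w).comp (by fun_prop : Continuous fun r : ℝ => r • ξ)
      exact this.mul continuous_const
  have hgcont : ContinuousOn g (Ioi 0) := by
    refine ContinuousOn.smul (ContinuousOn.inv₀ continuousOn_id fun r hr => (ne_of_gt hr)) hgc.continuousOn
  have hR : HasDerivWithinAt (fun t : ℝ => ∫ r in (1 : ℝ)..t, g r) (g 1) (Ici 1) 1 := by
    have h1 : ContinuousAt g 1 := hgcont.continuousAt (Ioi_mem_nhds one_pos)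
    have h2 : HasDerivAt (fun t : ℝ => ∫ r in (1 : ℝ)..t, g r) (g 1) 1 := by
      refine intervalIntegral.integral_hasDerivAt_right (by simp) ?_ h1
      exact hgcont.stronglyMeasurableAtFilter isOpen_Ioi 1 (by simp)
    exact h2.hasDerivWithinAt
  have hEq : ∀ t ∈ Ici (1 : ℝ), (∫ η, og z w (t • η) * a η) - (∫ η, og z w η * a η) = ∫ r in (1 : ℝ)..t, g r :=
    fun t ht => weak_int ha0 ha1 hc heul ht z w
  have hL2 : HasDerivWithinAt (fun t : ℝ => ∫ r in (1 : ℝ)..t, g r)
      (∫ η, (I * (((inner ℝ η z : ℝ) - 2 * w * 1 * ‖η‖ ^ 2 : ℝ) : ℂ)) * og z w ((1 : ℝ) • η) * a η) (Ici 1) 1 := by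
    refine ((hL.sub_const (∫ η, og z w η * a η)).hasDerivWithinAt (s := Ici 1)).congr (fun t ht => (hEq t ht).symm) ?_
    exact (hEq 1 self_mem_Ici).symm
  have hfin := (uniqueDiffWithinAt_Ici (1 : ℝ)).eq_deriv _ hL2 hR
  simp only [mul_one, one_smul, g, inv_one] at hfin
  exact hfin

end Crest.Agent.R086.Res
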