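import Crest.Agent.R086.Res3

/-!
Row 86, node RES (helper470), file 5: uniqueness theorem `res_uniq`.
-/

set_option autoImplicit false

open MeasureTheory Complex Set Filter
open scoped ContDiff Topology

namespace Crest.Agent.R086.Res

open Crest.Agent.R086.Wie (WInt)

variable {N : ℕ} {sg : ℝ} {μ : ℂ} {a b c : R12 → ℂ}

theorem wint_zero (hb : Integrable b) : WInt 0 b := by
  refine hb.congr (Eventually.of_forall fun ξ => ?_)
  simp [Wie.wt]

theorem integrable_psi'_mul (hμ : 0 < μ.re) (hb : WInt 2 b) (y : R12) :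
    Integrable (fun p : ℝ × R12 =>
      psi' (inner ℝ p.2 y) (sg * ‖p.2‖ ^ 2) μ (p.1 : ℂ) * b p.2) (rho1.prod volume) := by
  have h0 : Integrable (fun p : ℝ × R12 => (2 * (|sg| + ‖y‖ + ‖μ‖) * p.1 ^ (-1 - 2 * μ.re)) *
      ‖Wie.wt 2 p.2 • b p.2‖) (rho1.prod volume) :=
    ((integrableOn_pow hμ).const_mul (2 * (|sg| + ‖y‖ + ‖μ‖))).mul_prod hb.norm
  refine h0.mono ?_ ?_
  · have h1 : Measurable fun p : ℝ × R12 => psi' (inner ℝ p.2 y) (sg * ‖p.2‖ ^ 2) μ (p.1 : ℂ) := by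
      unfold psi'
      have e1 : Measurable fun p : ℝ × R12 => ((inner ℝ p.2 y : ℝ) : ℂ) := by fun_prop
      fun_prop
    exact h1.aestronglyMeasurable.mul hb.integrable.1.comp_snd
  · have h2 : ∀ᵐ p : ℝ × R12 ∂(rho1.prod volume), p.1 ∈ Ioi (1 : ℝ) := by
      have h3 : ∀ᵐ s ∂rho1, s ∈ Ioi (1 : ℝ) := ae_restrict_mem measurableSet_Ioi
      exact Measure.quasiMeasurePreserving_fst.ae h3
    refine h2.mono fun p hp => ?_
    have hp0 : (0 : ℝ) < p.1 := lt_trans one_pos hp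
    rw [norm_mul, Real.norm_of_nonneg (by positivity), norm_smul,
      Real.norm_of_nonneg (Wie.wt_nonneg 2 p.2)]
    have h3 := norm_psi' (μ := μ) (inner ℝ p.2 y) (sg * ‖p.2‖ ^ 2) hp
    have h4 : ‖μ‖ + |inner ℝ p.2 y| + |sg * ‖p.2‖ ^ 2| ≤ (|sg| + ‖y‖ + ‖μ‖) * Wie.wt 2 p.2 := by
      have hw : Wie.wt 2 p.2 = (1 + ‖p.2‖) ^ 2 := rfl
      rw [abs_mul, abs_of_nonneg (sq_nonneg ‖p.2‖), hw]
      have h5 := abs_real_inner_le_norm p.2 y
      have h6 := norm_nonneg p.2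
      have h7 := norm_nonneg y
      have h8 := abs_nonneg sg
      have h9 := norm_nonneg μ
      nlinarith [mul_nonneg h6 h7, mul_nonneg h6 h8, mul_nonneg h6 h9, mul_nonneg (sq_nonneg ‖p.2‖) h7,
        mul_nonneg (sq_nonneg ‖p.2‖) h9, mul_nonneg (sq_nonneg ‖p.2‖) h8]
    have h10 : 0 ≤ p.1 ^ (-1 - 2 * μ.re) := by positivity
    calc _ ≤ 2 * (‖μ‖ + |inner ℝ p.2 y| + |sg * ‖p.2‖ ^ 2|) * p.1 ^ (-1 - 2 * μ.re) * ‖b p.2‖ :=
          mul_le_mul_of_nonneg_right h3 (norm_nonneg _)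
      _ ≤ 2 * ((|sg| + ‖y‖ + ‖μ‖) * Wie.wt 2 p.2) * p.1 ^ (-1 - 2 * μ.re) * ‖b p.2‖ := by
          gcongr
      _ = _ := by ring

/-- `-ft a y` as an iterated integral -/
theorem neg_ft_eq (hμ : 0 < μ.re) (ha : WInt 2 a) (y : R12) :
    - ft a y = ∫ s in Ioi (1 : ℝ), ∫ η, psi' (inner ℝ η y) (sg * ‖η‖ ^ 2) μ (s : ℂ) * a η := by
  have hK := integrable_psi'_mul (sg := sg) hμ ha y
  symm
  calc ∫ s in Ioi (1 : ℝ), ∫ η, psi' (inner ℝ η y) (sg * ‖η‖ ^ 2) μ (s : ℂ) * a η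
      = ∫ η, ∫ s in Ioi (1 : ℝ), psi' (inner ℝ η y) (sg * ‖η‖ ^ 2) μ (s : ℂ) * a η :=
        integral_integral_swap (μ := rho1) (ν := (volume : Measure R12))
          (f := fun s η => psi' (inner ℝ η y) (sg * ‖η‖ ^ 2) μ (s : ℂ) * a η) hK
    _ = - ft a y := by
        rw [ft_eq, ← integral_neg]
        refine integral_congr_ae (Eventually.of_forall fun η => ?_)
        simp only
        rw [integral_mul_const, integral_psi' hμ]
        simp only [ch, smul_eq_mul, neg_mul]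

theorem og_eq {s : ℝ} (_hs : 0 < s) (y η : R12) :
    og (s⁻¹ • y) (sg * (1 - (s ^ 2)⁻¹)) η
      = exp (I * ((inner ℝ η y : ℝ) : ℂ) * (s : ℂ)⁻¹ -
          I * ((sg * ‖η‖ ^ 2 : ℝ) : ℂ) * (1 - ((s : ℂ) ^ 2)⁻¹)) := by
  unfold og
  rw [inner_smul_right]
  congr 1
  push_cast
  ring

/-- the density of the equation -/
noncomputable def cden (sg : ℝ) (μ : ℂ) (a b : R12 → ℂ) (ξ : R12) : ℂ :=
  2 * (-(sg : ℂ) * I * ((‖ξ‖ ^ 2 : ℝ) : ℂ) * a ξ - μ * a ξ + b ξ)

theorem integrable_sq (ha : WInt 2 a) : Integrable fun ξ : R12 => ((‖ξ‖ ^ 2 : ℝ) : ℂ) * a ξ := by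
  refine (WInt.int2 ha).mono (Continuous.aestronglyMeasurable (by fun_prop) |>.mul ha.integrable.1)
    (Eventually.of_forall fun ξ => ?_)
  rw [norm_mul, norm_real, Real.norm_of_nonneg (by positivity), Real.norm_of_nonneg (by positivity)]

theorem integrable_cden (ha : WInt 2 a) (hb : Integrable b) : Integrable (cden sg μ a b) := by
  have h := ((((integrable_sq ha).const_mul (-(sg : ℂ) * I)).sub (ha.integrable.const_mul μ)).add hb).const_mul 2
  refine h.congr (Eventually.of_forall fun ξ => ?_)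
  simp only [cden, Pi.add_apply, Pi.sub_apply]
  ring

theorem eul_eq_cden (ha : WInt 2 a) (hb : Integrable b)
    (h : ∀ y, (sg : ℂ) * I * lap (ft a) y - (1 / 2) * eul (ft a) y - μ * ft a y = - ft b y) (y : R12) :
    eul (ft a) y = ft (cden sg μ a b) y := by
  have i0 := ha.integrable
  have i1 := WInt.int1 ha
  have i2 := WInt.int2 ha
  have hl := lap_ft i0 i1 i2 y
  have j1 : Integrable fun ξ : R12 => ch ξ y • (((‖ξ‖ ^ 2 : ℝ) : ℂ) * a ξ) :=
    integrable_ch_smul (integrable_sq ha) y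
  have j2 : Integrable fun ξ : R12 => ch ξ y • a ξ := integrable_ch_smul i0 y
  have j3 : Integrable fun ξ : R12 => ch ξ y • b ξ := integrable_ch_smul hb y
  have hl2 : lap (ft a) y = - ∫ ξ, ch ξ y • (((‖ξ‖ ^ 2 : ℝ) : ℂ) * a ξ) := by
    rw [hl, ← integral_neg]
    refine integral_congr_ae (Eventually.of_forall fun ξ => ?_)
    simp only [smul_eq_mul]
    ring
  have hc : ft (cden sg μ a b) y = 2 * (-(sg : ℂ) * I * (∫ ξ, ch ξ y • (((‖ξ‖ ^ 2 : ℝ) : ℂ) * a ξ))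
      - μ * ft a y + ft b y) := by
    rw [ft_eq, ft_eq, ft_eq, ← integral_const_mul, ← integral_const_mul]
    have k1 := (j1.const_mul (-(sg : ℂ) * I)).sub (j2.const_mul μ)
    rw [← integral_sub (j1.const_mul (-(sg : ℂ) * I)) (j2.const_mul μ)]
    have e : (∫ ξ, (-(sg : ℂ) * I * (ch ξ y • (((‖ξ‖ ^ 2 : ℝ) : ℂ) * a ξ)) - μ * (ch ξ y • a ξ)))
        + ∫ ξ, ch ξ y • b ξ = ∫ ξ, ((-(sg : ℂ) * I * (ch ξ y • (((‖ξ‖ ^ 2 : ℝ) : ℂ) * a ξ)) - μ * (ch ξ y • a ξ))
          + ch ξ y • b ξ) := (integral_add k1 j3).symm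
    rw [e, ← integral_const_mul]
    refine integral_congr_ae (Eventually.of_forall fun ξ => ?_)
    simp only [cden, smul_eq_mul]
    ring
  rw [hc]
  have h1 := h y
  rw [hl2] at h1
  linear_combination (-2) * h1

theorem integrable_og_mul (hb : Integrable b) (z : R12) (w : ℝ) : Integrable fun ξ => og z w ξ * b ξ :=
  hb.bdd_mul (c := 1) (continuous_og z w).aestronglyMeasurable
    (Eventually.of_forall fun ξ => (norm_og z w ξ).le)

theorem integrable_X_og (ha : WInt 2 a) (z : R12) (w : ℝ) :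
    Integrable fun η => (I * (((inner ℝ η z : ℝ) - 2 * w * ‖η‖ ^ 2 : ℝ) : ℂ)) * og z w η * a η := by
  have ha' : Integrable fun ξ => Wie.wt 2 ξ • a ξ := ha
  refine (ha'.norm.const_mul (‖z‖ + 2 * |w|)).mono ?_ (Eventually.of_forall fun η => ?_)
  · have h1 : Continuous fun η : R12 => (I * (((inner ℝ η z : ℝ) - 2 * w * ‖η‖ ^ 2 : ℝ) : ℂ)) * og z w η :=
      Continuous.mul (by fun_prop) (continuous_og z w)
    exact h1.aestronglyMeasurable.mul ha.integrable.1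
  · rw [norm_mul, norm_mul, norm_mul, norm_I, one_mul, norm_og, mul_one, norm_real,
      Real.norm_of_nonneg (by positivity : 0 ≤ (‖z‖ + 2 * |w|) * ‖Wie.wt 2 η • a η‖), norm_smul,
      Real.norm_of_nonneg (Wie.wt_nonneg 2 η), ← mul_assoc]
    refine mul_le_mul_of_nonneg_right ?_ (norm_nonneg _)
    have hw : Wie.wt 2 η = (1 + ‖η‖) ^ 2 := rfl
    rw [hw, Real.norm_eq_abs]
    have e1 : |inner ℝ η z - 2 * w * ‖η‖ ^ 2| ≤ ‖η‖ * ‖z‖ + 2 * |w| * ‖η‖ ^ 2 := by
      calc _ ≤ |inner ℝ η z| + |2 * w * ‖η‖ ^ 2| := abs_sub _ _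
        _ ≤ _ := by
          have := abs_real_inner_le_norm η z
          rw [abs_mul, abs_mul, abs_of_nonneg (sq_nonneg ‖η‖)]
          simp only [Nat.abs_ofNat]
          linarith
    have h0 := norm_nonneg η
    have h1 := norm_nonneg z
    have h2 := abs_nonneg w
    nlinarith [mul_nonneg h0 h1, mul_nonneg h2 h0, mul_nonneg h1 (sq_nonneg ‖η‖)]

theorem slice_psi'_integrable (ha : WInt 2 a) (y : R12) {s : ℝ} (hs : 1 < s) :
    Integrable fun η : R12 => psi' (inner ℝ η y) (sg * ‖η‖ ^ 2) μ (s : ℂ) * a η := by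
  have hs0 : 0 < s := lt_trans one_pos hs
  have ha' : Integrable fun ξ => Wie.wt 2 ξ • a ξ := ha
  refine (ha'.norm.const_mul (2 * (|sg| + ‖y‖ + ‖μ‖) * s ^ (-1 - 2 * μ.re))).mono ?_
    (Eventually.of_forall fun η => ?_)
  · have h1 : Measurable fun η : R12 => psi' (inner ℝ η y) (sg * ‖η‖ ^ 2) μ (s : ℂ) := by
      unfold psi'
      fun_prop
    exact h1.aestronglyMeasurable.mul ha.integrable.1
  · rw [norm_mul, Real.norm_of_nonneg (by positivity), norm_smul,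
      Real.norm_of_nonneg (Wie.wt_nonneg 2 η)]
    have h3 := norm_psi' (μ := μ) (inner ℝ η y) (sg * ‖η‖ ^ 2) hs
    have h4 : ‖μ‖ + |inner ℝ η y| + |sg * ‖η‖ ^ 2| ≤ (|sg| + ‖y‖ + ‖μ‖) * Wie.wt 2 η := by
      have hw : Wie.wt 2 η = (1 + ‖η‖) ^ 2 := rfl
      rw [abs_mul, abs_of_nonneg (sq_nonneg ‖η‖), hw]
      have h5 := abs_real_inner_le_norm η y
      have h6 := norm_nonneg η
      have h7 := norm_nonneg y
      have h8 := abs_nonneg sg
      have h9 := norm_nonneg μ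
      nlinarith [mul_nonneg h6 h7, mul_nonneg h6 h8, mul_nonneg h6 h9, mul_nonneg (sq_nonneg ‖η‖) h7,
        mul_nonneg (sq_nonneg ‖η‖) h9, mul_nonneg (sq_nonneg ‖η‖) h8]
    have h10 : 0 ≤ s ^ (-1 - 2 * μ.re) := by positivity
    calc _ ≤ 2 * (‖μ‖ + |inner ℝ η y| + |sg * ‖η‖ ^ 2|) * s ^ (-1 - 2 * μ.re) * ‖a η‖ :=
          mul_le_mul_of_nonneg_right h3 (norm_nonneg _)
      _ ≤ 2 * ((|sg| + ‖y‖ + ‖μ‖) * Wie.wt 2 η) * s ^ (-1 - 2 * μ.re) * ‖a η‖ := by
          gcongr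
      _ = _ := by ring

/-- key identity at fixed `s` -/
theorem key_slice (ha : WInt 2 a) (hb : Integrable b)
    (h : ∀ y, (sg : ℂ) * I * lap (ft a) y - (1 / 2) * eul (ft a) y - μ * ft a y = - ft b y)
    (y : R12) {s : ℝ} (hs : 1 < s) :
    ∫ η, psi' (inner ℝ η y) (sg * ‖η‖ ^ 2) μ (s : ℂ) * a η
      = -(2 * (s : ℂ) ^ (-2 * μ - 1) * ∫ η, og (s⁻¹ • y) (sg * (1 - (s ^ 2)⁻¹)) η * b η) := by
  have hs0 : 0 < s := lt_trans one_pos hs
  have hz : (s : ℂ) ≠ 0 := by exact_mod_cast hs0.ne'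
  set z : R12 := s⁻¹ • y with hzdef
  set w : ℝ := sg * (1 - (s ^ 2)⁻¹) with hwdef
  have hwk := weak_form ha (integrable_cden (sg := sg) (μ := μ) ha hb) (eul_eq_cden ha hb h) z w
  have iX := integrable_X_og ha z w
  have ic := integrable_og_mul (integrable_cden (sg := sg) (μ := μ) ha hb) z w
  have ib := integrable_og_mul hb z w
  have ip := slice_psi'_integrable (sg := sg) (μ := μ) ha y hs
  have e1 : (∫ η, psi' (inner ℝ η y) (sg * ‖η‖ ^ 2) μ (s : ℂ) * a η)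
      + 2 * (s : ℂ) ^ (-2 * μ - 1) * ∫ η, og z w η * b η
      = -((s : ℂ) ^ (-2 * μ - 1)) * ((∫ η, (I * (((inner ℝ η z : ℝ) - 2 * w * ‖η‖ ^ 2 : ℝ) : ℂ)) * og z w η * a η)
        - ∫ η, og z w η * cden sg μ a b η) := by
    rw [← integral_const_mul, ← integral_add ip (ib.const_mul _), ← integral_sub iX ic,
      ← integral_const_mul]
    refine integral_congr_ae (Eventually.of_forall fun η => ?_)
    simp only [cden]
    have e2 : og z w η = exp (I * ((inner ℝ η y : ℝ) : ℂ) * (s : ℂ)⁻¹ -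
          I * ((sg * ‖η‖ ^ 2 : ℝ) : ℂ) * (1 - ((s : ℂ) ^ 2)⁻¹)) := og_eq hs0 y η
    have e3 : (inner ℝ η z : ℝ) = s⁻¹ * inner ℝ η y := by rw [hzdef, inner_smul_right]
    unfold psi'
    rw [← e2, e3, hwdef]
    push_cast
    field_simp
    ring
  rw [hwk, sub_self, mul_zero] at e1
  exact eq_neg_of_add_eq_zero_left e1

theorem scaled_kernel0 {s : ℝ} (hs : 0 < s) (y η : R12) :
    ((s ^ 12 : ℝ)⁻¹ : ℝ) • (ch (s⁻¹ • η) y * kern sg μ s (s⁻¹ • η))
      = 2 * (s : ℂ) ^ (-2 * μ - 1) * og (s⁻¹ • y) (sg * (1 - (s ^ 2)⁻¹)) η := by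
  have hz : (s : ℂ) ≠ 0 := by exact_mod_cast hs.ne'
  have hnorm : ‖s⁻¹ • η‖ = s⁻¹ * ‖η‖ := by
    rw [norm_smul, Real.norm_of_nonneg (by positivity)]
  have hin : (inner ℝ (s⁻¹ • η) y : ℝ) = s⁻¹ * inner ℝ η y := by
    rw [inner_smul_left]; simp
  have hpow : (s : ℂ) ^ (11 - 2 * μ) = (s : ℂ) ^ (-2 * μ - 1) * (s : ℂ) ^ 12 := by
    rw [show (11 - 2 * μ) = (-2 * μ - 1) + ((12 : ℕ) : ℂ) by push_cast; ring, cpow_add _ _ hz,
      cpow_natCast]
  rw [og_eq hs]
  unfold ch kern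
  rw [hnorm, hin, hpow, real_smul]
  have hexp : exp (I * (inner ℝ η y : ℝ) * (s : ℂ)⁻¹ - I * ((sg * ‖η‖ ^ 2 : ℝ) : ℂ) * (1 - ((s : ℂ) ^ 2)⁻¹))
      = exp (I * ((s⁻¹ * inner ℝ η y : ℝ) : ℂ)) *
        exp (-I * ((sg * (s⁻¹ * ‖η‖) ^ 2 * (s ^ 2 - 1) : ℝ) : ℂ)) := by
    rw [← exp_add]
    congr 1
    push_cast
    field_simp
    ring
  rw [hexp]
  push_cast
  field_simp

theorem ft_resDen (hμ : 0 < μ.re) (hb : Integrable b) (y : R12) :
    ft (resDen sg μ b) y = ∫ s in Ioi (1 : ℝ),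
      2 * (s : ℂ) ^ (-2 * μ - 1) * ∫ η, og (s⁻¹ • y) (sg * (1 - (s ^ 2)⁻¹)) η * b η := by
  have hj := integrable_joint (N := 0) (sg := sg) hμ (wint_zero hb)
  have hG : Integrable (fun p : ℝ × R12 => (ch p.2 y * kern sg μ p.1 p.2) * b (p.1 • p.2))
      (rho1.prod volume) := by
    refine (hj.norm).mono ?_ (Eventually.of_forall fun p => ?_)
    · have h1 : AEStronglyMeasurable (fun p : ℝ × R12 => b (p.1 • p.2)) (rho1.prod volume) :=
        hb.1.comp_quasiMeasurePreserving qmp_smul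
      have h2 : Continuous fun p : ℝ × R12 => ch p.2 y := (continuous_ch_left y).comp continuous_snd
      exact (h2.aestronglyMeasurable.mul (measurable_kern sg μ).aestronglyMeasurable).mul h1
    · rw [norm_mul, norm_mul, norm_ch, one_mul, norm_norm, norm_smul, norm_mul]
      simp [Wie.wt]
  calc ft (resDen sg μ b) y
      = ∫ ξ, ∫ s in Ioi (1 : ℝ), (ch ξ y * kern sg μ s ξ) * b (s • ξ) := by
        rw [ft_eq]
        refine integral_congr_ae (Eventually.of_forall fun ξ => ?_)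
        simp only [resDen, smul_eq_mul]
        rw [← integral_const_mul]
        refine integral_congr_ae (Eventually.of_forall fun s => ?_)
        simp only
        ring
    _ = ∫ s in Ioi (1 : ℝ), ∫ ξ, (ch ξ y * kern sg μ s ξ) * b (s • ξ) :=
        integral_integral_swap (μ := (volume : Measure R12)) (ν := rho1)
          (f := fun ξ s => (ch ξ y * kern sg μ s ξ) * b (s • ξ)) hG.swap
    _ = _ := by
        refine setIntegral_congr_fun measurableSet_Ioi fun s hs => ?_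
        have hs0 : (0 : ℝ) < s := lt_trans one_pos hs
        have h := Measure.integral_comp_smul_of_nonneg (volume : Measure R12)
          (fun η => (ch (s⁻¹ • η) y * kern sg μ s (s⁻¹ • η)) * b η) s (hR := hs0.le)
        rw [finrank_R12] at h
        simp only [smul_smul, inv_mul_cancel₀ hs0.ne', one_smul] at h
        rw [h, ← integral_smul, ← integral_const_mul]
        refine integral_congr_ae (Eventually.of_forall fun η => ?_)
        beta_reduce
        rw [← mul_assoc, ← scaled_kernel0 hs0 y η, smul_mul_assoc]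

/-- RES-uniq -/
theorem res_uniq (hμ : 0 < μ.re) (ha : WInt 2 a) (hb : Integrable b)
    (h : ∀ y, (sg : ℂ) * I * lap (ft a) y - (1 / 2) * eul (ft a) y - μ * ft a y = - ft b y) :
    a =ᵐ[volume] resDen sg μ b := by
  have hr : Integrable (resDen sg μ b) := (wint_resDen (sg := sg) hμ (wint_zero hb)).integrable
  have h1 : ∀ y, ft a y = ft (resDen sg μ b) y := by
    intro y
    have e1 := neg_ft_eq (sg := sg) hμ ha y
    rw [ft_resDen hμ hb, ← neg_inj, e1, ← integral_neg]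
    refine setIntegral_congr_fun measurableSet_Ioi fun s hs => ?_
    exact key_slice ha hb h y hs
  have h2 := ft_zero_ae (ha.integrable.sub hr) fun y => by
    have e : ft (a - resDen sg μ b) y = ft a y - ft (resDen sg μ b) y := by
      simp only [ft_eq, Pi.sub_apply, smul_sub]
      exact integral_sub (integrable_ch_smul ha.integrable y) (integrable_ch_smul hr y)
    rw [e, h1 y, sub_self]
  filter_upwards [h2] with ξ hξ
  have hξ' : a ξ - resDen sg μ b ξ = 0 := hξ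
  exact sub_eq_zero.1 hξ'

end Crest.Agent.R086.Res
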