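import Crest.Agent.R086.DLIface
import Crest.Agent.R086.Wie

/-!
Row 86, node RES (helper470), file 1: differentiation of the synthesis `ft a`.
-/

set_option autoImplicit false

open MeasureTheory Complex Set Filter
open scoped ContDiff Topology

namespace Crest.Agent.R086.Res

/-- the character `e^{i ξ·y}` -/
noncomputable def ch (ξ y : R12) : ℂ := exp (I * ((inner ℝ ξ y : ℝ) : ℂ))

theorem norm_ch (ξ y : R12) : ‖ch ξ y‖ = 1 := by
  unfold ch
  rw [mul_comm]
  exact norm_exp_ofReal_mul_I _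

theorem continuous_ch_left (y : R12) : Continuous fun ξ : R12 => ch ξ y := by
  unfold ch
  fun_prop

theorem continuous_ch : Continuous fun p : R12 × R12 => ch p.1 p.2 := by
  unfold ch
  fun_prop

theorem hasFDerivAt_ch (ξ y : R12) :
    HasFDerivAt (ch ξ) ((innerSL ℝ ξ : R12 →L[ℝ] ℝ).smulRight (I * ch ξ y)) y := by
  have h1 : HasFDerivAt (fun y : R12 => (inner ℝ ξ y : ℝ)) (innerSL ℝ ξ : R12 →L[ℝ] ℝ) y :=
    (innerSL ℝ ξ : R12 →L[ℝ] ℝ).hasFDerivAt
  have h2 : HasFDerivAt (fun y : R12 => ((inner ℝ ξ y : ℝ) : ℂ))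
      (ofRealCLM.comp (innerSL ℝ ξ : R12 →L[ℝ] ℝ)) y :=
    ofRealCLM.hasFDerivAt.comp y h1
  have h3 := (h2.const_mul I).cexp
  refine h3.congr_fderiv ?_
  ext v
  simp [ch]
  ring

section vec

variable {E : Type*} [NormedAddCommGroup E] [NormedSpace ℂ E]

/-- density of the derivative -/
noncomputable def dc (c : R12 → E) (ξ : R12) : R12 →L[ℝ] E :=
  (innerSL ℝ ξ : R12 →L[ℝ] ℝ).smulRight (I • c ξ)

theorem norm_dc_le (c : R12 → E) (ξ : R12) : ‖dc c ξ‖ ≤ ‖ξ‖ * ‖c ξ‖ := by
  unfold dc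
  rw [ContinuousLinearMap.norm_smulRight_apply, norm_smul, norm_I, one_mul, innerSL_apply_norm]

theorem aesm_dc {c : R12 → E} (hc : AEStronglyMeasurable c volume) :
    AEStronglyMeasurable (dc c) volume := by
  have h1 : AEStronglyMeasurable (fun ξ : R12 => (innerSL ℝ ξ : R12 →L[ℝ] ℝ)) volume :=
    (innerSL ℝ : R12 →L[ℝ] R12 →L[ℝ] ℝ).continuous.aestronglyMeasurable
  have h2 : AEStronglyMeasurable (fun ξ : R12 => I • c ξ) volume := hc.const_smul I
  exact (ContinuousLinearMap.smulRightL ℝ R12 E).aestronglyMeasurable_comp₂ h1 h2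

theorem hasFDerivAt_syn {c : R12 → E} (hc : Integrable c)
    (hc1 : Integrable fun ξ => ‖ξ‖ * ‖c ξ‖) (y : R12) :
    HasFDerivAt (fun y => ∫ ξ, ch ξ y • c ξ) (∫ ξ, ch ξ y • dc c ξ) y := by
  have h1 := hasFDerivAt_integral_of_dominated_of_fderiv_le (𝕜 := ℝ) (μ := (volume : Measure R12))
    (F := fun (y ξ : R12) => ch ξ y • c ξ) (F' := fun (y ξ : R12) => ch ξ y • dc c ξ)
    (x₀ := y) (s := univ) (bound := fun ξ => ‖ξ‖ * ‖c ξ‖) univ_mem ?_ ?_ ?_ ?_ hc1 ?_
  · exact h1
  · exact Eventually.of_forall fun y =>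
      ((continuous_ch_left y).aestronglyMeasurable).smul hc.aestronglyMeasurable
  · refine hc.mono (((continuous_ch_left y).aestronglyMeasurable).smul hc.aestronglyMeasurable)
      (Eventually.of_forall fun ξ => ?_)
    rw [norm_smul, norm_ch, one_mul]
  · exact ((continuous_ch_left y).aestronglyMeasurable).smul (aesm_dc hc.aestronglyMeasurable)
  · refine Eventually.of_forall fun ξ y _ => ?_
    rw [norm_smul, norm_ch, one_mul]
    exact norm_dc_le c ξ
  · refine Eventually.of_forall fun ξ y _ => ?_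
    have h := (hasFDerivAt_ch ξ y).smul_const (c ξ)
    refine h.congr_fderiv ?_
    ext v
    simp only [dc, ContinuousLinearMap.smulRight_apply, _root_.smul_apply,
      innerSL_apply_apply]
    rw [smul_comm (ch ξ y) ((inner ℝ ξ v : ℝ)) (I • c ξ), smul_smul (ch ξ y) I (c ξ),
      mul_comm (ch ξ y) I, smul_assoc]

end vec

section scalar

variable {a : R12 → ℂ}

theorem ft_eq (a : R12 → ℂ) (y : R12) : ft a y = ∫ ξ, ch ξ y • a ξ := rfl

theorem hasFDerivAt_ft (h0 : Integrable a) (h1 : Integrable fun ξ => ‖ξ‖ * ‖a ξ‖) (y : R12) :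
    HasFDerivAt (ft a) (∫ ξ, ch ξ y • dc a ξ) y :=
  hasFDerivAt_syn h0 h1 y

theorem integrable_dc {E : Type*} [NormedAddCommGroup E] [NormedSpace ℂ E] {c : R12 → E}
    (h0 : AEStronglyMeasurable c volume) (h1 : Integrable fun ξ => ‖ξ‖ * ‖c ξ‖) :
    Integrable (dc c) :=
  h1.mono (aesm_dc h0) (Eventually.of_forall fun ξ => by
    rw [Real.norm_of_nonneg (by positivity)]; exact norm_dc_le c ξ)

theorem integrable_ch_smul {E : Type*} [NormedAddCommGroup E] [NormedSpace ℂ E] {c : R12 → E}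
    (h0 : Integrable c) (y : R12) : Integrable fun ξ => ch ξ y • c ξ := by
  refine h0.mono (((continuous_ch_left y).aestronglyMeasurable).smul h0.aestronglyMeasurable)
    (Eventually.of_forall fun ξ => ?_)
  rw [norm_smul, norm_ch, one_mul]

/-- Euler field of a synthesis. -/
theorem eul_ft (h0 : Integrable a) (h1 : Integrable fun ξ => ‖ξ‖ * ‖a ξ‖) (y : R12) :
    eul (ft a) y = ∫ ξ, ch ξ y * (I * ((inner ℝ ξ y : ℝ) : ℂ) * a ξ) := by
  unfold eul
  rw [(hasFDerivAt_ft h0 h1 y).fderiv,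
    ContinuousLinearMap.integral_apply (integrable_ch_smul (integrable_dc h0.1 h1) y)]
  refine integral_congr_ae (Eventually.of_forall fun ξ => ?_)
  simp only [dc, _root_.smul_apply, ContinuousLinearMap.smulRight_apply, innerSL_apply_apply,
    smul_eq_mul, real_smul]
  ring

theorem lap_ft (h0 : Integrable a) (h1 : Integrable fun ξ => ‖ξ‖ * ‖a ξ‖)
    (h2 : Integrable fun ξ => ‖ξ‖ ^ 2 * ‖a ξ‖) (y : R12) :
    lap (ft a) y = ∫ ξ, ch ξ y * (-(‖ξ‖ ^ 2 : ℝ) * a ξ) := by
  have e1 : fderiv ℝ (ft a) = fun y => ∫ ξ, ch ξ y • dc a ξ := by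
    funext y
    exact (hasFDerivAt_ft h0 h1 y).fderiv
  have i1 : Integrable (dc a) := integrable_dc h0.1 h1
  have i2 : Integrable fun ξ => ‖ξ‖ * ‖dc a ξ‖ := by
    refine h2.mono (continuous_norm.aestronglyMeasurable.mul i1.1.norm)
      (Eventually.of_forall fun ξ => ?_)
    rw [Real.norm_of_nonneg (by positivity), Real.norm_of_nonneg (by positivity), pow_two,
      mul_assoc]
    exact mul_le_mul_of_nonneg_left (norm_dc_le a ξ) (norm_nonneg _)
  have i3 : Integrable (dc (dc a)) := integrable_dc i1.1 i2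
  have e2 : fderiv ℝ (fderiv ℝ (ft a)) y = ∫ ξ, ch ξ y • dc (dc a) ξ := by
    rw [e1]
    exact (hasFDerivAt_syn i1 i2 y).fderiv
  unfold lap
  have e3 : ∀ i : Fin 12, iteratedFDeriv ℝ 2 (ft a) y ![ei i, ei i]
      = ∫ ξ, ch ξ y * (-((ξ i) ^ 2 : ℝ) * a ξ) := by
    intro i
    rw [iteratedFDeriv_two_apply]
    simp only [Matrix.cons_val_zero, Matrix.cons_val_one]
    rw [e2, ContinuousLinearMap.integral_apply (integrable_ch_smul i3 y),
      ContinuousLinearMap.integral_apply]
    · refine integral_congr_ae (Eventually.of_forall fun ξ => ?_)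
      simp only [dc, _root_.smul_apply, ContinuousLinearMap.smulRight_apply, innerSL_apply_apply,
        smul_eq_mul, real_smul]
      have hi : (inner ℝ ξ (ei i) : ℝ) = ξ i := by
        simp [ei, EuclideanSpace.inner_single_right]
      rw [hi]
      push_cast
      linear_combination (ch ξ y * (ξ i : ℂ) ^ 2 * a ξ) * I_sq
    · exact (integrable_ch_smul i3 y).apply_continuousLinearMap _
  rw [Finset.sum_congr rfl fun i _ => e3 i, ← integral_finsetSum]
  · refine integral_congr_ae (Eventually.of_forall fun ξ => ?_)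
    simp only
    rw [← Finset.mul_sum, ← Finset.sum_mul]
    congr 2
    rw [EuclideanSpace.norm_sq_eq]
    simp only [Real.norm_eq_abs, sq_abs]
    push_cast
    rw [← Finset.sum_neg_distrib]
  · intro i _
    have hi : Integrable fun ξ : R12 => (-((ξ i) ^ 2 : ℝ) * a ξ : ℂ) := by
      refine h2.mono ?_ (Eventually.of_forall fun ξ => ?_)
      · have : Continuous fun ξ : R12 => (-((ξ i) ^ 2 : ℝ) : ℂ) := by fun_prop
        exact this.aestronglyMeasurable.mul h0.1
      · rw [norm_mul, norm_neg, norm_real, Real.norm_of_nonneg (by positivity),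
          Real.norm_of_nonneg (by positivity)]
        refine mul_le_mul_of_nonneg_right ?_ (norm_nonneg _)
        have := EuclideanSpace.norm_sq_eq ξ
        rw [this]
        have h := Finset.single_le_sum (f := fun i => ‖ξ i‖ ^ 2) (fun j _ => by positivity)
          (Finset.mem_univ i)
        simpa using h
    exact integrable_ch_smul hi y

end scalar

end Crest.Agent.R086.Res
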