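import Mathlib

/-!
Row 86, spherical harmonics, part 1 (helper475): Fischer inner product and the decomposition
`p = H + |x|^2 q` of homogeneous polynomials.
-/

set_option autoImplicit false

open MvPolynomial Finset

namespace Crest.Agent.R086.Sph

variable {σ : Type*} [Fintype σ] [DecidableEq σ]

/-- formal Laplacian -/
noncomputable def plap (p : MvPolynomial σ ℝ) : MvPolynomial σ ℝ := ∑ i, pderiv i (pderiv i p)

/-- `|x|^2` -/
noncomputable def rsq : MvPolynomial σ ℝ := ∑ i, X i ^ 2

omit [DecidableEq σ] in
theorem plap_add (p q : MvPolynomial σ ℝ) : plap (p + q) = plap p + plap q := by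
  simp [plap, Finset.sum_add_distrib]

omit [DecidableEq σ] in
theorem plap_smul (c : ℝ) (p : MvPolynomial σ ℝ) : plap (c • p) = c • plap p := by
  simp [plap, Finset.smul_sum]

omit [DecidableEq σ] in
theorem plap_sub (p q : MvPolynomial σ ℝ) : plap (p - q) = plap p - plap q := by
  simp [plap, Finset.sum_sub_distrib]

/-- multi-index factorial -/
noncomputable def mfac (m : σ →₀ ℕ) : ℝ := ∏ i, ((m i).factorial : ℝ)

omit [DecidableEq σ] in
theorem mfac_pos (m : σ →₀ ℕ) : 0 < mfac m := by
  unfold mfac
  exact Finset.prod_pos (fun i _ => by exact_mod_cast Nat.factorial_pos _)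

theorem mfac_add_single (m : σ →₀ ℕ) (i : σ) :
    mfac (m + Finsupp.single i 1) = ((m i : ℝ) + 1) * mfac m := by
  unfold mfac
  rw [← Finset.mul_prod_erase Finset.univ _ (Finset.mem_univ i),
    ← Finset.mul_prod_erase Finset.univ (fun j => ((m j).factorial : ℝ)) (Finset.mem_univ i)]
  have h1 : (m + Finsupp.single i 1 : σ →₀ ℕ) i = m i + 1 := by simp
  rw [h1, Nat.factorial_succ]
  push_cast
  rw [mul_assoc]
  congr 2
  apply Finset.prod_congr rfl
  intro j hj
  have hj' : j ≠ i := Finset.ne_of_mem_erase hj
  simp [hj'.symm]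

/-- Fischer inner product. -/
noncomputable def fis (p q : MvPolynomial σ ℝ) : ℝ :=
  ∑ m ∈ p.support, coeff m p * mfac m * coeff m q

omit [DecidableEq σ] in
theorem fis_eq_sum {p q : MvPolynomial σ ℝ} {s : Finset (σ →₀ ℕ)} (hs : p.support ⊆ s) :
    fis p q = ∑ m ∈ s, coeff m p * mfac m * coeff m q := by
  unfold fis
  apply Finset.sum_subset hs
  intro m _ hm
  rw [notMem_support_iff.1 hm]; ring

theorem fis_add_left (p p' q : MvPolynomial σ ℝ) : fis (p + p') q = fis p q + fis p' q := by
  classical
  rw [fis_eq_sum (p := p) (s := p.support ∪ p'.support ∪ (p + p').support)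
      (fun x hx => by simp only [Finset.mem_union]; tauto),
    fis_eq_sum (p := p') (s := p.support ∪ p'.support ∪ (p + p').support)
      (fun x hx => by simp only [Finset.mem_union]; tauto),
    fis_eq_sum (p := p + p') (s := p.support ∪ p'.support ∪ (p + p').support)
      (fun x hx => by simp only [Finset.mem_union]; tauto), ← Finset.sum_add_distrib]
  apply Finset.sum_congr rfl
  intro m _
  rw [coeff_add]; ring

omit [DecidableEq σ] in
theorem fis_zero_left (q : MvPolynomial σ ℝ) : fis 0 q = 0 := by
  unfold fis
  simp

theorem fis_sum_left {ι : Type*} (s : Finset ι) (p : ι → MvPolynomial σ ℝ) (q : MvPolynomial σ ℝ) :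
    fis (∑ i ∈ s, p i) q = ∑ i ∈ s, fis (p i) q := by
  classical
  induction s using Finset.induction_on with
  | empty => simp [fis_zero_left]
  | insert a s ha ih => rw [Finset.sum_insert ha, Finset.sum_insert ha, fis_add_left, ih]

omit [DecidableEq σ] in
theorem fis_add_right (p q q' : MvPolynomial σ ℝ) : fis p (q + q') = fis p q + fis p q' := by
  unfold fis
  rw [← Finset.sum_add_distrib]
  apply Finset.sum_congr rfl
  intro m _
  rw [coeff_add]; ring

omit [DecidableEq σ] in
theorem fis_zero_right (p : MvPolynomial σ ℝ) : fis p 0 = 0 := by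
  unfold fis
  simp

omit [DecidableEq σ] in
theorem fis_sum_right {ι : Type*} (s : Finset ι) (p : MvPolynomial σ ℝ) (q : ι → MvPolynomial σ ℝ) :
    fis p (∑ i ∈ s, q i) = ∑ i ∈ s, fis p (q i) := by
  classical
  induction s using Finset.induction_on with
  | empty => simp [fis_zero_right]
  | insert a s ha ih => rw [Finset.sum_insert ha, Finset.sum_insert ha, fis_add_right, ih]

theorem fis_monomial (m : σ →₀ ℕ) (a : ℝ) (q : MvPolynomial σ ℝ) :
    fis (monomial m a) q = a * mfac m * coeff m q := by
  rw [fis_eq_sum (support_monomial_subset (s := m) (a := a))]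
  simp

/-- multiplication by `X i` is adjoint to `pderiv i`. -/
theorem fis_X_mul (i : σ) (p q : MvPolynomial σ ℝ) : fis (X i * p) q = fis p (pderiv i q) := by
  induction p using MvPolynomial.induction_on' with
  | monomial m a =>
    rw [X, monomial_mul, fis_monomial, fis_monomial, coeff_pderiv, add_comm (Finsupp.single i 1) m,
      mfac_add_single]
    ring
  | add p p' hp hp' => rw [mul_add, fis_add_left, fis_add_left, hp, hp']

theorem fis_rsq_mul (p q : MvPolynomial σ ℝ) : fis (rsq * p) q = fis p (plap q) := by
  unfold rsq plap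
  rw [Finset.sum_mul, fis_sum_left, fis_sum_right]
  apply Finset.sum_congr rfl
  intro i _
  rw [pow_two, mul_assoc, fis_X_mul, fis_X_mul]

omit [DecidableEq σ] in
theorem fis_self_eq_zero {p : MvPolynomial σ ℝ} (h : fis p p = 0) : p = 0 := by
  by_contra hp
  have h1 : 0 < fis p p := by
    unfold fis
    apply Finset.sum_pos
    · intro m hm
      have hm' : coeff m p ≠ 0 := mem_support_iff.1 hm
      have := mfac_pos m
      have h3 : 0 < coeff m p * coeff m p := mul_self_pos.2 hm'
      nlinarith
    · rw [Finset.nonempty_iff_ne_empty]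
      intro h3
      exact hp (by simpa using h3)
  linarith

omit [DecidableEq σ] in
theorem rsq_ne_zero [Nonempty σ] : (rsq : MvPolynomial σ ℝ) ≠ 0 := by
  intro h
  have h1 : eval (fun _ : σ => (1 : ℝ)) (rsq : MvPolynomial σ ℝ) = Fintype.card σ := by
    simp [rsq]
  rw [h] at h1
  simp only [map_zero] at h1
  have : (0 : ℝ) < Fintype.card σ := by exact_mod_cast Fintype.card_pos
  linarith

theorem plap_rsq_mul_injective [Nonempty σ] {q : MvPolynomial σ ℝ} (h : plap (rsq * q) = 0) :
    q = 0 := by
  have h1 : fis (rsq * q) (rsq * q) = 0 := by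
    rw [fis_rsq_mul, h, fis_zero_right]
  have h2 := fis_self_eq_zero h1
  rcases mul_eq_zero.1 h2 with h3 | h3
  · exact absurd h3 rsq_ne_zero
  · exact h3

omit [Fintype σ] [DecidableEq σ] in
theorem isHomogeneous_pderiv {p : MvPolynomial σ ℝ} {n : ℕ} (hp : p.IsHomogeneous (n + 1)) (i : σ) :
    (pderiv i p).IsHomogeneous n := by
  intro m hm
  rw [coeff_pderiv] at hm
  have h1 : coeff (m + Finsupp.single i 1) p ≠ 0 := left_ne_zero_of_mul hm
  have h2 := hp h1
  rw [map_add] at h2
  have h3 : (Finsupp.weight (1 : σ → ℕ)) (Finsupp.single i 1) = 1 := by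
    simp [Finsupp.weight_single]
  rw [h3] at h2
  omega

omit [DecidableEq σ] in
theorem isHomogeneous_plap {p : MvPolynomial σ ℝ} {n : ℕ} (hp : p.IsHomogeneous (n + 2)) :
    (plap p).IsHomogeneous n := by
  unfold plap
  exact IsHomogeneous.sum _ _ _ (fun i _ => isHomogeneous_pderiv (isHomogeneous_pderiv hp i) i)

omit [DecidableEq σ] in
theorem isHomogeneous_rsq : (rsq : MvPolynomial σ ℝ).IsHomogeneous 2 := by
  unfold rsq
  exact IsHomogeneous.sum _ _ _ (fun i _ => isHomogeneous_X_pow i 2)

/-- **Fischer decomposition**, one step. -/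
theorem fischer [Nonempty σ] {p : MvPolynomial σ ℝ} {n : ℕ} (hp : p.IsHomogeneous (n + 2)) :
    ∃ q : MvPolynomial σ ℝ, q.IsHomogeneous n ∧ plap (p - rsq * q) = 0 := by
  -- the endomorphism `q ↦ plap (rsq * q)` of the space of homogeneous polynomials
  let V := homogeneousSubmodule σ ℝ n
  have : Module.Finite ℝ V := Module.Finite.iff_fg.2 (homogeneousSubmodule_fg σ ℝ n)
  let T : V →ₗ[ℝ] V :=
    { toFun := fun q => ⟨plap (rsq * q.1), by
        have h1 : (rsq * q.1 : MvPolynomial σ ℝ).IsHomogeneous (n + 2) := by
          have := isHomogeneous_rsq.mul ((mem_homogeneousSubmodule n q.1).1 q.2)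
          rwa [add_comm 2 n] at this
        exact (mem_homogeneousSubmodule n _).2 (isHomogeneous_plap h1)⟩
      map_add' := by
        intro a b
        ext1
        simp [mul_add, plap_add]
      map_smul' := by
        intro c a
        ext1
        simp [plap_smul] }
  have hinj : Function.Injective T := by
    rw [← LinearMap.ker_eq_bot, LinearMap.ker_eq_bot']
    intro q hq
    have h1 : plap (rsq * q.1) = 0 := congrArg Subtype.val hq
    exact Subtype.ext (plap_rsq_mul_injective h1)
  have hsurj : Function.Surjective T := LinearMap.injective_iff_surjective.1 hinj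
  obtain ⟨q, hq⟩ := hsurj ⟨plap p, (mem_homogeneousSubmodule n _).2 (isHomogeneous_plap hp)⟩
  refine ⟨q.1, (mem_homogeneousSubmodule n _).1 q.2, ?_⟩
  have h1 : plap (rsq * q.1) = plap p := congrArg Subtype.val hq
  rw [plap_sub, h1, sub_self]

/-- harmonic homogeneous polynomials -/
structure Harm (l : ℕ) (p : MvPolynomial σ ℝ) : Prop where
  hom : p.IsHomogeneous l
  harm : plap p = 0

/-- `p` restricted to the unit sphere is a sum of harmonic homogeneous polynomials. -/
theorem exists_harm_sum [Nonempty σ] : ∀ (n : ℕ) (p : MvPolynomial σ ℝ), p.IsHomogeneous n →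
    ∃ h : ℕ → MvPolynomial σ ℝ, (∀ l, Harm l (h l)) ∧
      ∀ x : σ → ℝ, ∑ i, x i ^ 2 = 1 → eval x p = ∑ l ∈ Finset.range (n + 1), eval x (h l) := by
  intro n
  induction n using Nat.strong_induction_on with
  | _ n ih =>
    intro p hp
    rcases Nat.lt_or_ge n 2 with hn | hn
    · -- degree 0 or 1: already harmonic
      have hlap : plap p = 0 := by
        unfold plap
        apply Finset.sum_eq_zero
        intro i _
        ext m
        rw [coeff_pderiv, coeff_pderiv, coeff_zero]
        have : coeff (m + Finsupp.single i 1 + Finsupp.single i 1) p = 0 := by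
          by_contra hne
          have h2 := hp hne
          rw [map_add, map_add] at h2
          have h3 : (Finsupp.weight (1 : σ → ℕ)) (Finsupp.single i 1) = 1 := by
            simp [Finsupp.weight_single]
          rw [h3] at h2
          omega
        rw [this]; ring
      refine ⟨fun l => if l = n then p else 0, ?_, ?_⟩
      · intro l
        by_cases hl : l = n
        · simp only [hl, if_true]
          exact ⟨hp, hlap⟩
        · simp only [hl, if_false]
          exact ⟨isHomogeneous_zero _ _ _, by simp [plap]⟩
      · intro x _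
        rw [Finset.sum_eq_single n]
        · simp
        · intro b _ hb; simp [hb]
        · intro h; simp at h
    · obtain ⟨k, rfl⟩ : ∃ k, n = k + 2 := ⟨n - 2, by omega⟩
      obtain ⟨q, hq, hlap⟩ := fischer hp
      obtain ⟨h, hh, hsum⟩ := ih k (by omega) q hq
      have hH : Harm (k + 2) (p - rsq * q) := by
        refine ⟨?_, hlap⟩
        have h1 : (rsq * q : MvPolynomial σ ℝ).IsHomogeneous (k + 2) := by
          have := isHomogeneous_rsq.mul hq
          rwa [add_comm 2 k] at this
        exact hp.sub h1
      refine ⟨fun l => if l = k + 2 then p - rsq * q else if l ≤ k then h l else 0, ?_, ?_⟩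
      · intro l
        by_cases hl : l = k + 2
        · simp only [hl, if_true]; exact hH
        · by_cases hl2 : l ≤ k
          · simp only [hl, hl2, if_true, if_false]; exact hh l
          · simp only [hl, hl2, if_false]
            exact ⟨isHomogeneous_zero _ _ _, by simp [plap]⟩
      · intro x hx
        have h1 : eval x (rsq : MvPolynomial σ ℝ) = 1 := by
          simp [rsq, hx]
        rw [Finset.sum_range_succ, Finset.sum_range_succ]
        simp only [if_true]
        have h2 : ∑ l ∈ Finset.range (k + 1),
            eval x (if l = k + 2 then p - rsq * q else if l ≤ k then h l else 0)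
            = ∑ l ∈ Finset.range (k + 1), eval x (h l) := by
          apply Finset.sum_congr rfl
          intro l hl
          have : l < k + 1 := Finset.mem_range.1 hl
          have h3 : l ≠ k + 2 := by omega
          have h4 : l ≤ k := by omega
          simp [h3, h4]
        rw [h2, ← hsum x hx]
        have h5 : ¬ (k + 1 = k + 2) := by omega
        have h6 : ¬ (k + 1 ≤ k) := by omega
        simp only [h5, h6, if_false, map_zero, map_sub, map_mul, h1]
        ring

end Crest.Agent.R086.Sph
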