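import Crest.Agent.R086.SHDefs
import Crest.Agent.R086.Sph1

/-!
Row 86, spherical harmonics, part 2a (helper475): the coefficient function
`coef f p r = ∫_{S^11} f(r w) p(w) dσ(w)` and its derivatives.
-/

set_option autoImplicit false

open MeasureTheory MvPolynomial
open scoped ContDiff Topology

namespace Crest.Agent.R086.Sph

/-- evaluation of a polynomial at a point of `R12` -/
noncomputable def ev (p : MvPolynomial (Fin 12) ℝ) (y : R12) : ℝ := eval (fun i => y i) p

theorem continuous_ev (p : MvPolynomial (Fin 12) ℝ) : Continuous (ev p) := by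
  unfold ev
  have : Continuous fun y : R12 => (fun i => y i : Fin 12 → ℝ) := by fun_prop
  exact (MvPolynomial.continuous_eval p).comp this

/-- spherical coefficient -/
noncomputable def coef (f : R12 → ℂ) (p : MvPolynomial (Fin 12) ℝ) (r : ℝ) : ℂ :=
  ∫ w : S11, f (r • (w : R12)) * ((ev p w : ℝ) : ℂ) ∂sig

/-- coefficient of the `j`-th radial derivative -/
noncomputable def dcoef (j : ℕ) (f : R12 → ℂ) (p : MvPolynomial (Fin 12) ℝ) (r : ℝ) : ℂ :=
  ∫ w : S11, iteratedFDeriv ℝ j f (r • (w : R12)) (fun _ => (w : R12)) * ((ev p w : ℝ) : ℂ) ∂sig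

theorem dcoef_zero (f : R12 → ℂ) (p : MvPolynomial (Fin 12) ℝ) : dcoef 0 f p = coef f p := by
  ext r
  simp [dcoef, coef]

/-- continuity of integrals over the sphere -/
theorem continuous_sphInt {F : ℝ → S11 → ℂ} (hF : Continuous (Function.uncurry F)) :
    Continuous fun r => ∫ w, F r w ∂sig := by
  have := continuous_parametric_integral_of_continuous (μ := sig) hF (isCompact_univ (X := S11))
  simpa using this

/-- differentiation of integrals over the sphere -/
theorem hasDerivAt_sphInt {F F' : ℝ → S11 → ℂ} (hF : Continuous (Function.uncurry F))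
    (hF' : Continuous (Function.uncurry F'))
    (h : ∀ r w, HasDerivAt (fun r => F r w) (F' r w) r) (r₀ : ℝ) :
    HasDerivAt (fun r => ∫ w, F r w ∂sig) (∫ w, F' r₀ w ∂sig) r₀ := by
  have hK : IsCompact (Metric.closedBall r₀ 1 ×ˢ (Set.univ : Set S11)) :=
    (isCompact_closedBall r₀ 1).prod isCompact_univ
  obtain ⟨C, hC⟩ := hK.exists_bound_of_continuousOn hF'.continuousOn
  have hcont : ∀ r, Continuous (F r) := fun r => hF.comp (by fun_prop : Continuous fun w => (r, w))
  have hcont' : ∀ r, Continuous (F' r) := fun r => hF'.comp (by fun_prop : Continuous fun w => (r, w))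
  have := hasDerivAt_integral_of_dominated_loc_of_deriv_le (μ := sig) (F := F) (F' := F')
    (x₀ := r₀) (s := Metric.ball r₀ 1) (bound := fun _ => C)
    (Metric.ball_mem_nhds _ one_pos)
    (Filter.Eventually.of_forall fun r => (hcont r).aestronglyMeasurable)
    ((hcont r₀).integrable_of_hasCompactSupport (HasCompactSupport.of_compactSpace _))
    (hcont' r₀).aestronglyMeasurable
    (Filter.Eventually.of_forall fun w r hr =>
      hC (r, w) ⟨Metric.ball_subset_closedBall hr, Set.mem_univ _⟩)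
    (integrable_const _)
    (Filter.Eventually.of_forall fun w r _ => h r w)
  exact this.2

theorem continuous_dint {f : R12 → ℂ} {k : ℕ} (hf : ContDiff ℝ k f) {j : ℕ} (hj : j ≤ k)
    (p : MvPolynomial (Fin 12) ℝ) :
    Continuous (Function.uncurry fun (r : ℝ) (w : S11) =>
      iteratedFDeriv ℝ j f (r • (w : R12)) (fun _ => (w : R12)) * ((ev p w : ℝ) : ℂ)) := by
  have h1 : Continuous (iteratedFDeriv ℝ j f) :=
    hf.continuous_iteratedFDeriv (by exact_mod_cast hj)
  have h2 : Continuous fun q : ℝ × S11 => q.1 • ((q.2 : S11) : R12) := by fun_prop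
  have h3 : Continuous fun q : ℝ × S11 => (fun _ => ((q.2 : S11) : R12) : Fin j → R12) := by
    fun_prop
  have h4 : Continuous fun q : ℝ × S11 =>
      iteratedFDeriv ℝ j f (q.1 • ((q.2 : S11) : R12)) (fun _ => ((q.2 : S11) : R12)) :=
    (h1.comp h2).eval h3
  have h5 : Continuous fun q : ℝ × S11 => ((ev p ((q.2 : S11) : R12) : ℝ) : ℂ) :=
    Complex.continuous_ofReal.comp ((continuous_ev p).comp (by fun_prop))
  exact h4.mul h5

theorem hasDerivAt_dint {f : R12 → ℂ} {k : ℕ} (hf : ContDiff ℝ k f) {j : ℕ} (hj : j + 1 ≤ k)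
    (r : ℝ) (w : R12) :
    HasDerivAt (fun r : ℝ => iteratedFDeriv ℝ j f (r • w) (fun _ => w))
      (iteratedFDeriv ℝ (j + 1) f (r • w) (fun _ => w)) r := by
  have h1 : Differentiable ℝ (iteratedFDeriv ℝ j f) :=
    hf.differentiable_iteratedFDeriv (by exact_mod_cast hj)
  have h2 : HasFDerivAt (iteratedFDeriv ℝ j f) (fderiv ℝ (iteratedFDeriv ℝ j f) (r • w)) (r • w) :=
    (h1 _).hasFDerivAt
  have h3 : HasDerivAt (fun r : ℝ => r • w) w r := by
    simpa using (hasDerivAt_id r).smul_const w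
  have h4 := h2.comp_hasDerivAt r h3
  have h5 := (ContinuousMultilinearMap.apply ℝ (fun _ : Fin j => R12) ℂ
    (fun _ => w)).hasFDerivAt.comp_hasDerivAt r h4
  rw [iteratedFDeriv_succ_apply_left]
  exact h5

theorem hasDerivAt_dcoef {f : R12 → ℂ} {k : ℕ} (hf : ContDiff ℝ k f) {j : ℕ} (hj : j + 1 ≤ k)
    (p : MvPolynomial (Fin 12) ℝ) (r : ℝ) :
    HasDerivAt (dcoef j f p) (dcoef (j + 1) f p r) r := by
  unfold dcoef
  exact hasDerivAt_sphInt (continuous_dint hf (by omega) p) (continuous_dint hf hj p)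
    (fun r w => (hasDerivAt_dint hf hj r (w : R12)).mul_const _) r

theorem continuous_dcoef {f : R12 → ℂ} {k : ℕ} (hf : ContDiff ℝ k f) {j : ℕ} (hj : j ≤ k)
    (p : MvPolynomial (Fin 12) ℝ) : Continuous (dcoef j f p) :=
  continuous_sphInt (continuous_dint hf hj p)

theorem iteratedDeriv_coef {f : R12 → ℂ} {k : ℕ} (hf : ContDiff ℝ k f)
    (p : MvPolynomial (Fin 12) ℝ) : ∀ j, j ≤ k → iteratedDeriv j (coef f p) = dcoef j f p := by
  intro j
  induction j with
  | zero => intro _; rw [iteratedDeriv_zero, dcoef_zero]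
  | succ j ih =>
    intro hj
    rw [iteratedDeriv_succ, ih (by omega)]
    ext r
    exact (hasDerivAt_dcoef hf hj p r).deriv

theorem contDiff_coef {f : R12 → ℂ} {k : ℕ} (hf : ContDiff ℝ k f)
    (p : MvPolynomial (Fin 12) ℝ) : ContDiff ℝ k (coef f p) := by
  rw [contDiff_nat_iff_iteratedDeriv]
  refine ⟨fun j hj => ?_, fun j hj => ?_⟩
  · rw [iteratedDeriv_coef hf p j hj]
    exact continuous_dcoef hf hj p
  · rw [iteratedDeriv_coef hf p j hj.le]
    exact fun r => (hasDerivAt_dcoef hf hj p r).differentiableAt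

/-- total mass of `|p|` on the sphere -/
noncomputable def mass (p : MvPolynomial (Fin 12) ℝ) : ℝ := ∫ w : S11, |ev p w| ∂sig

theorem norm_dcoef_le {f : R12 → ℂ} {j : ℕ} {C : ℝ} {r : ℝ}
    (hC : ∀ y : R12, ‖y‖ = |r| → ‖iteratedFDeriv ℝ j f y‖ ≤ C) (p : MvPolynomial (Fin 12) ℝ) :
    ‖dcoef j f p r‖ ≤ C * mass p := by
  unfold dcoef mass
  rw [← integral_const_mul]
  have hcont : Continuous (fun w : S11 => C * |ev p w|) :=
    continuous_const.mul ((continuous_ev p).comp continuous_subtype_val).abs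
  have hint : Integrable (fun w : S11 => C * |ev p w|) sig :=
    hcont.integrable_of_hasCompactSupport (HasCompactSupport.of_compactSpace _)
  refine norm_integral_le_of_norm_le hint (Filter.Eventually.of_forall fun w => ?_)
  have hw : ‖((w : S11) : R12)‖ = 1 := by simp
  rw [norm_mul, Complex.norm_real, Real.norm_eq_abs]
  apply mul_le_mul_of_nonneg_right _ (abs_nonneg _)
  have h1 := (iteratedFDeriv ℝ j f (r • (w : R12))).le_opNorm (fun _ => (w : R12))
  have h2 : ∏ _i : Fin j, ‖((w : S11) : R12)‖ = 1 := by simp [hw]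
  rw [h2, mul_one] at h1
  exact h1.trans (hC _ (by rw [norm_smul, hw, mul_one, Real.norm_eq_abs]))

theorem deriv_coef {f : R12 → ℂ} (hf : ContDiff ℝ 1 f) (p : MvPolynomial (Fin 12) ℝ) :
    deriv (coef f p) = dcoef 1 f p := by
  have := iteratedDeriv_coef (k := 1) (by exact_mod_cast hf) p 1 le_rfl
  rwa [iteratedDeriv_one] at this

theorem hasDerivAt_coef {f : R12 → ℂ} (hf : ContDiff ℝ 1 f) (p : MvPolynomial (Fin 12) ℝ) (r : ℝ) :
    HasDerivAt (coef f p) (dcoef 1 f p r) r := by
  have := hasDerivAt_dcoef (k := 1) (j := 0) (by exact_mod_cast hf) le_rfl p r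
  rwa [dcoef_zero] at this

/-- the Euler field acts as `r d/dr` -/
theorem coef_eul {f : R12 → ℂ} (p : MvPolynomial (Fin 12) ℝ) (r : ℝ) :
    coef (eul f) p r = r * dcoef 1 f p r := by
  unfold coef dcoef eul
  rw [← integral_const_mul]
  congr 1
  ext w
  rw [iteratedFDeriv_one_apply, map_smul]
  simp [mul_assoc]

/-- radial multipliers pass through -/
theorem coef_radial_mul {V f : R12 → ℂ} {v : ℝ → ℂ} (hV : ∀ y, V y = v ‖y‖)
    (p : MvPolynomial (Fin 12) ℝ) {r : ℝ} (hr : 0 ≤ r) :
    coef (fun y => V y * f y) p r = v r * coef f p r := by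
  unfold coef
  rw [← integral_const_mul]
  congr 1
  ext w
  have hw : ‖((w : S11) : R12)‖ = 1 := by simp
  show V (r • (w : R12)) * f (r • (w : R12)) * _ = _
  rw [hV, norm_smul, hw, mul_one, Real.norm_eq_abs, abs_of_nonneg hr]
  ring

theorem integrable_coef {f : R12 → ℂ} (hf : Continuous f) (p : MvPolynomial (Fin 12) ℝ) (r : ℝ) :
    Integrable (fun w : S11 => f (r • (w : R12)) * ((ev p w : ℝ) : ℂ)) sig := by
  apply Continuous.integrable_of_hasCompactSupport _ (HasCompactSupport.of_compactSpace _)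
  exact (hf.comp (by fun_prop)).mul
    (Complex.continuous_ofReal.comp ((continuous_ev p).comp continuous_subtype_val))

theorem coef_add {f g : R12 → ℂ} (hf : Continuous f) (hg : Continuous g)
    (p : MvPolynomial (Fin 12) ℝ) (r : ℝ) :
    coef (fun y => f y + g y) p r = coef f p r + coef g p r := by
  unfold coef
  rw [← integral_add (integrable_coef hf p r) (integrable_coef hg p r)]
  congr 1; ext w; ring

theorem coef_sub {f g : R12 → ℂ} (hf : Continuous f) (hg : Continuous g)
    (p : MvPolynomial (Fin 12) ℝ) (r : ℝ) :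
    coef (fun y => f y - g y) p r = coef f p r - coef g p r := by
  unfold coef
  rw [← integral_sub (integrable_coef hf p r) (integrable_coef hg p r)]
  congr 1; ext w; ring

theorem coef_const_mul (c : ℂ) (f : R12 → ℂ) (p : MvPolynomial (Fin 12) ℝ) (r : ℝ) :
    coef (fun y => c * f y) p r = c * coef f p r := by
  unfold coef
  rw [← integral_const_mul]
  congr 1; ext w; ring

theorem coef_sum {ι : Type*} (s : Finset ι) (f : ι → R12 → ℂ) (hf : ∀ i ∈ s, Continuous (f i))
    (p : MvPolynomial (Fin 12) ℝ) (r : ℝ) :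
    coef (fun y => ∑ i ∈ s, f i y) p r = ∑ i ∈ s, coef (f i) p r := by
  unfold coef
  rw [← integral_finsetSum _ (fun i hi => integrable_coef (hf i hi) p r)]
  congr 1; ext w; rw [Finset.sum_mul]

theorem coef_conj (f : R12 → ℂ) (p : MvPolynomial (Fin 12) ℝ) (r : ℝ) :
    coef (fun y => starRingEnd ℂ (f y)) p r = starRingEnd ℂ (coef f p r) := by
  unfold coef
  rw [← integral_conj]
  congr 1; ext w; simp

end Crest.Agent.R086.Sph
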