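import Crest.Agent.R086.SH2a

/-!
Row 86, spherical harmonics, part 2b (helper475): polar coordinates and
the radial form of the Laplacian on spherical coefficients.
-/

set_option autoImplicit false

open MeasureTheory MvPolynomial Set
open scoped ContDiff Topology

namespace Crest.Agent.R086.Sph

/-- **Polar coordinates** in `R12`. -/
theorem integral_polar (F : R12 → ℂ) (hF : Integrable F) :
    ∫ x, F x = ∫ r in Ioi (0 : ℝ), ((r ^ 11 : ℝ) : ℂ) * ∫ w : S11, F (r • (w : R12)) ∂sig := by
  have hmp := (volume : Measure R12).measurePreserving_homeomorphUnitSphereProd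
  have hme := (homeomorphUnitSphereProd R12).measurableEmbedding
  let G : S11 × Ioi (0 : ℝ) → ℂ := fun q => F ((q.2 : ℝ) • (q.1 : R12))
  have hG : ∀ x : ({(0 : R12)}ᶜ : Set R12), G (homeomorphUnitSphereProd R12 x) = F x := by
    intro x
    have hx : (x : R12) ≠ 0 := x.2
    have hn : ‖(x : R12)‖ ≠ 0 := norm_ne_zero_iff.2 hx
    simp only [G, homeomorphUnitSphereProd_apply_snd_coe, homeomorphUnitSphereProd_apply_fst_coe]
    rw [smul_smul, mul_inv_cancel₀ hn, one_smul]
  have h1 : ∫ x, F x = ∫ x : ({(0 : R12)}ᶜ : Set R12), F x ∂((volume : Measure R12).comap (↑)) := by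
    rw [integral_subtype_comap (measurableSet_singleton _).compl F, restrict_compl_singleton]
  have h2 : ∫ x : ({(0 : R12)}ᶜ : Set R12), F x ∂((volume : Measure R12).comap (↑))
      = ∫ q, G q ∂(sig.prod (Measure.volumeIoiPow (Module.finrank ℝ R12 - 1))) := by
    rw [← hmp.integral_comp hme G]
    congr 1; ext x; rw [hG]
  have hGi : Integrable G (sig.prod (Measure.volumeIoiPow (Module.finrank ℝ R12 - 1))) := by
    rw [← hmp.integrable_comp_emb hme]
    have h3 : G ∘ (homeomorphUnitSphereProd R12) = fun x : ({(0 : R12)}ᶜ : Set R12) => F x := by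
      ext x; exact hG x
    rw [h3]
    have h4 : IntegrableOn F ({(0 : R12)}ᶜ : Set R12) := hF.integrableOn
    rwa [integrableOn_iff_comap_subtypeVal (measurableSet_singleton _).compl] at h4
  have hfr : Module.finrank ℝ R12 - 1 = 11 := by simp
  rw [h1, h2, integral_prod_symm _ hGi, hfr]
  simp only [Measure.volumeIoiPow, ENNReal.ofReal]
  rw [integral_withDensity_eq_integral_smul ((measurable_subtype_coe.pow_const _).real_toNNReal)]
  rw [integral_subtype_comap measurableSet_Ioi
    (fun a : ℝ => Real.toNNReal (a ^ 11) • ∫ w : S11, F (a • (w : R12)) ∂sig)]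
  apply setIntegral_congr_fun measurableSet_Ioi
  intro r hr
  have hr' : (0 : ℝ) < r := hr
  show Real.toNNReal (r ^ 11) • _ = _
  rw [NNReal.smul_def, Real.coe_toNNReal _ (by positivity), Complex.real_smul]

/-- integral of a directional derivative of a compactly supported `C¹` function vanishes -/
theorem integral_fderiv_eq_zero {v : R12 → ℂ} (hv : ContDiff ℝ 1 v) (hc : HasCompactSupport v)
    (e : R12) : ∫ x, fderiv ℝ v x e = 0 := by
  have h1 := integral_mul_fderiv_eq_neg_fderiv_mul_of_integrable (μ := (volume : Measure R12))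
    (f := v) (g := fun _ => (1 : ℂ)) (v := e)
    (by
      have : Continuous fun x => fderiv ℝ v x e * 1 := by
        have := hv.continuous_fderiv (by norm_num)
        fun_prop
      refine this.integrable_of_hasCompactSupport ?_
      have h2 : HasCompactSupport fun x => fderiv ℝ v x e := hc.fderiv_apply ℝ e
      simpa using h2)
    (by simp)
    (by simpa using hv.continuous.integrable_of_hasCompactSupport hc)
    (fun x _ => (hv.differentiable (by norm_num)) x)
    (fun x _ => differentiableAt_const _)
  simp only [fderiv_fun_const, Pi.zero_apply, zero_apply, mul_zero,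
    integral_zero, mul_one] at h1
  exact (neg_eq_zero.1 h1.symm)

theorem hasFDerivAt_ev (p : MvPolynomial (Fin 12) ℝ) (y : R12) (i : Fin 12) :
    ContDiff ℝ ∞ (ev p) ∧ fderiv ℝ (ev p) y (ei i) = ev (pderiv i p) y := by
  induction p using MvPolynomial.induction_on with
  | C a =>
    have h : ev (C a) = fun _ => a := by ext y; simp [ev]
    refine ⟨by rw [h]; exact contDiff_const, ?_⟩
    rw [h]; simp [ev]
  | add p q hp hq =>
    have h : ev (p + q) = fun y => ev p y + ev q y := by ext y; simp [ev]
    refine ⟨by rw [h]; exact hp.1.add hq.1, ?_⟩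
    rw [h, fderiv_fun_add (hp.1.differentiable (by simp) y) (hq.1.differentiable (by simp) y)]
    simp only [add_apply, hp.2, hq.2]
    simp [ev]
  | mul_X p j hp =>
    have h : ev (p * X j) = fun y => ev p y * y j := by ext y; simp [ev]
    have hc : ContDiff ℝ ∞ fun y : R12 => y j := by fun_prop
    refine ⟨by rw [h]; exact hp.1.mul hc, ?_⟩
    rw [h, fderiv_fun_mul (hp.1.differentiable (by simp) y) (hc.differentiable (by simp) y)]
    have hd : fderiv ℝ (fun y : R12 => y j) y = (EuclideanSpace.proj j : R12 →L[ℝ] ℝ) := by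
      exact (EuclideanSpace.proj j : R12 →L[ℝ] ℝ).fderiv
    simp only [add_apply, smul_apply, hp.2, hd]
    rw [pderiv_mul, pderiv_X]
    by_cases hij : i = j
    · subst hij
      simp [ev, ei]
      ring
    · have hji : ¬ (j = i) := fun h => hij h.symm
      simp [ev, ei, hji]
      ring

theorem contDiff_ev (p : MvPolynomial (Fin 12) ℝ) : ContDiff ℝ ∞ (ev p) :=
  (hasFDerivAt_ev p 0 0).1

theorem fderiv_ev (p : MvPolynomial (Fin 12) ℝ) (y : R12) (i : Fin 12) :
    fderiv ℝ (ev p) y (ei i) = ev (pderiv i p) y := (hasFDerivAt_ev p y i).2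

theorem ev_smul {p : MvPolynomial (Fin 12) ℝ} {l : ℕ} (hp : p.IsHomogeneous l) (t : ℝ) (y : R12) :
    ev p (t • y) = t ^ l * ev p y := by
  unfold ev
  rw [eval_eq', eval_eq', Finset.mul_sum]
  apply Finset.sum_congr rfl
  intro d hd
  have h1 : ∑ i, d i = l := by
    have h2 := hp (mem_support_iff.1 hd)
    rw [Finsupp.weight_apply] at h2
    rw [← h2, Finsupp.sum_fintype _ _ (by simp)]
    simp
  have h3 : ∏ i, ((t • y : R12) i) ^ d i = t ^ l * ∏ i, (y i) ^ d i := by
    rw [← h1, ← Finset.prod_pow_eq_pow_sum, ← Finset.prod_mul_distrib]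
    apply Finset.prod_congr rfl
    intro i _
    simp [mul_pow]
  rw [h3]; ring

/-- Euler's identity -/
theorem sum_mul_ev_pderiv {p : MvPolynomial (Fin 12) ℝ} {l : ℕ} (hp : p.IsHomogeneous l)
    (y : R12) : ∑ i, y i * ev (pderiv i p) y = l * ev p y := by
  have h := congrArg (eval (fun i => y i)) hp.sum_X_mul_pderiv
  simpa [ev] using h

theorem sum_ev_pderiv2 {p : MvPolynomial (Fin 12) ℝ} (hp : plap p = 0) (y : R12) :
    ∑ i, ev (pderiv i (pderiv i p)) y = 0 := by
  have h := congrArg (eval (fun i => y i)) hp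
  simpa [ev, plap] using h

end Crest.Agent.R086.Sph
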