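import Crest.Agent.R086.SH2b

/-!
Row 86, spherical harmonics, part 2c (helper475):
`(Δ f)_p = F'' + (11/r) F' - l(l+10)/r² F` for `F = coef f p`, `p` harmonic of degree `l`.
-/

set_option autoImplicit false

open MeasureTheory MvPolynomial Set
open scoped ContDiff Topology

namespace Crest.Agent.R086.Sph

/-- radial cut-off -/
noncomputable def radf (χ : ℝ → ℝ) (x : R12) : ℂ := ((χ ‖x‖ : ℝ) : ℂ)

theorem radf_contDiff {χ : ℝ → ℝ} (hχ : ContDiff ℝ ∞ χ) (hs : tsupport χ ⊆ Ioi 0) :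
    ContDiff ℝ ∞ (radf χ) := by
  rw [contDiff_iff_contDiffAt]
  intro x
  by_cases hx : x = 0
  · subst hx
    have h0 : (0 : ℝ) ∉ tsupport χ := fun h => lt_irrefl (0 : ℝ) (mem_Ioi.1 (hs h))
    have h1 : ∀ᶠ r in 𝓝 (0 : ℝ), χ r = 0 := by
      have := notMem_tsupport_iff_eventuallyEq.1 h0
      exact this
    have h2 : ∀ᶠ x : R12 in 𝓝 0, χ ‖x‖ = 0 := by
      have ht : Filter.Tendsto (fun x : R12 => ‖x‖) (𝓝 0) (𝓝 0) := by
        simpa using (continuous_norm (E := R12)).tendsto 0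
      exact ht.eventually h1
    have h3 : radf χ =ᶠ[𝓝 0] fun _ => (0 : ℂ) := by
      filter_upwards [h2] with x hx
      simp [radf, hx]
    exact contDiffAt_const.congr_of_eventuallyEq h3
  · have h1 : ContDiffAt ℝ ∞ (fun x : R12 => ‖x‖) x := contDiffAt_norm ℝ hx
    have h2 : ContDiffAt ℝ ∞ (fun x : R12 => χ ‖x‖) x := hχ.contDiffAt.comp x h1
    exact Complex.ofRealCLM.contDiff.contDiffAt.comp x h2

theorem radf_fderiv {χ : ℝ → ℝ} (hχ : ContDiff ℝ ∞ χ) (hs : tsupport χ ⊆ Ioi 0) (x : R12)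
    (i : Fin 12) : fderiv ℝ (radf χ) x (ei i) = (((deriv χ ‖x‖ / ‖x‖) * x i : ℝ) : ℂ) := by
  by_cases hx : x = 0
  · subst hx
    have h0 : (0 : ℝ) ∉ tsupport χ := fun h => lt_irrefl (0 : ℝ) (mem_Ioi.1 (hs h))
    have h1 : ∀ᶠ r in 𝓝 (0 : ℝ), χ r = 0 := notMem_tsupport_iff_eventuallyEq.1 h0
    have h2 : ∀ᶠ x : R12 in 𝓝 0, χ ‖x‖ = 0 := by
      have ht : Filter.Tendsto (fun x : R12 => ‖x‖) (𝓝 0) (𝓝 0) := by
        simpa using (continuous_norm (E := R12)).tendsto 0
      exact ht.eventually h1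
    have h3 : radf χ =ᶠ[𝓝 0] fun _ => (0 : ℂ) := by
      filter_upwards [h2] with x hx
      simp [radf, hx]
    rw [h3.fderiv_eq]
    simp
  · have hn : ‖x‖ ≠ 0 := norm_ne_zero_iff.2 hx
    have hn2 : ‖x‖ ^ 2 ≠ 0 := pow_ne_zero _ hn
    have h1 : HasFDerivAt (fun x : R12 => Real.sqrt (‖x‖ ^ 2))
        ((1 / (2 * Real.sqrt (‖x‖ ^ 2))) • (2 • (innerSL ℝ x))) x :=
      (hasStrictFDerivAt_norm_sq x).hasFDerivAt.sqrt hn2
    have h2 : (fun x : R12 => Real.sqrt (‖x‖ ^ 2)) = fun x => ‖x‖ := by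
      ext x; exact Real.sqrt_sq (norm_nonneg x)
    rw [h2, Real.sqrt_sq (norm_nonneg x)] at h1
    have h3 : HasDerivAt χ (deriv χ ‖x‖) ‖x‖ :=
      (hχ.differentiable (by simp) ‖x‖).hasDerivAt
    have h4 := h3.comp_hasFDerivAt x h1
    have h5 := Complex.ofRealCLM.hasFDerivAt.comp x h4
    have h6 : fderiv ℝ (radf χ) x = _ := h5.fderiv
    rw [h6]
    simp [ei, EuclideanSpace.inner_single_right]
    field_simp

/-- the vector field of Green's identity -/
noncomputable def gv (χ : ℝ → ℝ) (f : R12 → ℂ) (p : MvPolynomial (Fin 12) ℝ) (i : Fin 12)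
    (x : R12) : ℂ :=
  radf χ x * (fderiv ℝ f x (ei i) * ((ev p x : ℝ) : ℂ) - f x * ((ev (pderiv i p) x : ℝ) : ℂ))

theorem contDiff_evC (p : MvPolynomial (Fin 12) ℝ) :
    ContDiff ℝ ∞ (fun x : R12 => ((ev p x : ℝ) : ℂ)) :=
  Complex.ofRealCLM.contDiff.comp (contDiff_ev p)

theorem fderiv_evC (p : MvPolynomial (Fin 12) ℝ) (y : R12) (i : Fin 12) :
    fderiv ℝ (fun x : R12 => ((ev p x : ℝ) : ℂ)) y (ei i) = ((ev (pderiv i p) y : ℝ) : ℂ) := by
  have h1 : HasFDerivAt (ev p) (fderiv ℝ (ev p) y) y :=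
    ((contDiff_ev p).differentiable (by simp) y).hasFDerivAt
  have h2 := Complex.ofRealCLM.hasFDerivAt.comp y h1
  have h3 : fderiv ℝ (fun x : R12 => ((ev p x : ℝ) : ℂ)) y = _ := h2.fderiv
  rw [h3]
  simp [fderiv_ev]

theorem contDiff_fderiv_apply {f : R12 → ℂ} (hf : ContDiff ℝ 2 f) (e : R12) :
    ContDiff ℝ 1 (fun x => fderiv ℝ f x e) := by
  have h1 : ContDiff ℝ 1 (fderiv ℝ f) := hf.fderiv_right (by norm_num)
  exact h1.clm_apply contDiff_const

theorem fderiv_fderiv_apply {f : R12 → ℂ} (hf : ContDiff ℝ 2 f) (x e : R12) :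
    fderiv ℝ (fun x => fderiv ℝ f x e) x e = iteratedFDeriv ℝ 2 f x ![e, e] := by
  have h1 : DifferentiableAt ℝ (fderiv ℝ f) x :=
    (hf.fderiv_right (m := 1) (by norm_num)).differentiable (by norm_num) x
  rw [iteratedFDeriv_two_apply]
  have h2 := h1.hasFDerivAt.clm_apply (hasFDerivAt_const e x)
  rw [h2.fderiv]
  simp

theorem gv_contDiff {χ : ℝ → ℝ} (hχ : ContDiff ℝ ∞ χ) (hs : tsupport χ ⊆ Ioi 0) {f : R12 → ℂ}
    (hf : ContDiff ℝ 2 f) (p : MvPolynomial (Fin 12) ℝ) (i : Fin 12) :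
    ContDiff ℝ 1 (gv χ f p i) := by
  unfold gv
  have h1 : ContDiff ℝ 1 (radf χ) := (radf_contDiff hχ hs).of_le (by simp)
  have h2 : ContDiff ℝ 1 (fun x : R12 => ((ev p x : ℝ) : ℂ)) := (contDiff_evC p).of_le (by simp)
  have h3 : ContDiff ℝ 1 (fun x : R12 => ((ev (pderiv i p) x : ℝ) : ℂ)) :=
    (contDiff_evC _).of_le (by simp)
  have h4 : ContDiff ℝ 1 f := hf.of_le (by norm_num)
  exact h1.mul (((contDiff_fderiv_apply hf _).mul h2).sub (h4.mul h3))

theorem gv_fderiv {χ : ℝ → ℝ} (hχ : ContDiff ℝ ∞ χ) (hs : tsupport χ ⊆ Ioi 0) {f : R12 → ℂ}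
    (hf : ContDiff ℝ 2 f) (p : MvPolynomial (Fin 12) ℝ) (i : Fin 12) (x : R12) :
    fderiv ℝ (gv χ f p i) x (ei i) =
      radf χ x * (iteratedFDeriv ℝ 2 f x ![ei i, ei i] * ((ev p x : ℝ) : ℂ)
        - f x * ((ev (pderiv i (pderiv i p)) x : ℝ) : ℂ))
      + ((deriv χ ‖x‖ / ‖x‖ : ℝ) : ℂ) * ((x i : ℝ) : ℂ) *
        (fderiv ℝ f x (ei i) * ((ev p x : ℝ) : ℂ) - f x * ((ev (pderiv i p) x : ℝ) : ℂ)) := by
  have h1 : DifferentiableAt ℝ (radf χ) x := (radf_contDiff hχ hs).differentiable (by simp) x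
  have h2 : DifferentiableAt ℝ (fun x : R12 => ((ev p x : ℝ) : ℂ)) x :=
    (contDiff_evC p).differentiable (by simp) x
  have h3 : DifferentiableAt ℝ (fun x : R12 => ((ev (pderiv i p) x : ℝ) : ℂ)) x :=
    (contDiff_evC _).differentiable (by simp) x
  have h4 : DifferentiableAt ℝ f x := hf.differentiable (by norm_num) x
  have h5 : DifferentiableAt ℝ (fun x => fderiv ℝ f x (ei i)) x :=
    (contDiff_fderiv_apply hf _).differentiable (by norm_num) x
  have h6 := h1.hasFDerivAt.mul ((h5.hasFDerivAt.mul h2.hasFDerivAt).sub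
    (h4.hasFDerivAt.mul h3.hasFDerivAt))
  have h7 : fderiv ℝ (gv χ f p i) x = _ := h6.fderiv
  rw [h7]
  simp only [add_apply, smul_apply, sub_apply, smul_eq_mul, fderiv_evC,
    radf_fderiv hχ hs, fderiv_fderiv_apply hf, Pi.mul_apply, Pi.sub_apply]
  push_cast
  ring

theorem sum_smul_ei (x : R12) : ∑ i, (x i) • (ei i) = x := by
  have := (EuclideanSpace.basisFun (Fin 12) ℝ).sum_repr x
  simpa [ei] using this

theorem sum_fderiv_ei (f : R12 → ℂ) (x : R12) :
    ∑ i, ((x i : ℝ) : ℂ) * fderiv ℝ f x (ei i) = eul f x := by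
  have h := congrArg (fderiv ℝ f x) (sum_smul_ei x)
  rw [map_sum] at h
  unfold eul
  rw [← h]
  apply Finset.sum_congr rfl
  intro i _
  rw [map_smul, Complex.real_smul]

theorem hasCompactSupport_radf {χ : ℝ → ℝ} (hc : HasCompactSupport χ) :
    HasCompactSupport (radf χ) := by
  obtain ⟨C, hC⟩ := hc.isCompact.isBounded.subset_closedBall 0
  apply HasCompactSupport.of_support_subset_isCompact (isCompact_closedBall (0 : R12) C)
  intro x hx
  have h1 : χ ‖x‖ ≠ 0 := by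
    intro h; exact hx (by simp [radf, h])
  have h2 := hC (subset_tsupport χ h1)
  simpa using h2

/-- weak form of the radial reduction -/
theorem weak1 {χ : ℝ → ℝ} (hχ : ContDiff ℝ ∞ χ) (hc : HasCompactSupport χ)
    (hs : tsupport χ ⊆ Ioi 0) {f : R12 → ℂ} (hf : ContDiff ℝ 2 f)
    {p : MvPolynomial (Fin 12) ℝ} {l : ℕ} (hp : Harm l p) :
    Integrable (fun x : R12 => radf χ x * lap f x * ((ev p x : ℝ) : ℂ)
      + ((deriv χ ‖x‖ / ‖x‖ : ℝ) : ℂ) * (eul f x - l * f x) * ((ev p x : ℝ) : ℂ)) ∧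
    ∫ x : R12, (radf χ x * lap f x * ((ev p x : ℝ) : ℂ)
      + ((deriv χ ‖x‖ / ‖x‖ : ℝ) : ℂ) * (eul f x - l * f x) * ((ev p x : ℝ) : ℂ)) = 0 := by
  have hcs : ∀ i, HasCompactSupport (gv χ f p i) := fun i =>
    (hasCompactSupport_radf hc).mul_right
  have hint : ∀ i, Integrable (fun x => fderiv ℝ (gv χ f p i) x (ei i)) := by
    intro i
    have h1 : Continuous fun x => fderiv ℝ (gv χ f p i) x (ei i) := by
      have := (gv_contDiff hχ hs hf p i).continuous_fderiv (by norm_num)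
      fun_prop
    exact h1.integrable_of_hasCompactSupport ((hcs i).fderiv_apply ℝ _)
  have hsum : ∀ x : R12, ∑ i, fderiv ℝ (gv χ f p i) x (ei i)
      = radf χ x * lap f x * ((ev p x : ℝ) : ℂ)
      + ((deriv χ ‖x‖ / ‖x‖ : ℝ) : ℂ) * (eul f x - l * f x) * ((ev p x : ℝ) : ℂ) := by
    intro x
    have e1 : ∑ i, ((x i : ℝ) : ℂ) * ((ev (pderiv i p) x : ℝ) : ℂ) = l * ((ev p x : ℝ) : ℂ) := by
      have := congrArg (fun t : ℝ => (t : ℂ)) (sum_mul_ev_pderiv hp.hom x)
      push_cast at this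
      exact this
    have e2 : ∑ i, ((ev (pderiv i (pderiv i p)) x : ℝ) : ℂ) = 0 := by
      have := congrArg (fun t : ℝ => (t : ℂ)) (sum_ev_pderiv2 hp.harm x)
      push_cast at this
      exact this
    simp only [gv_fderiv hχ hs hf]
    rw [← sum_fderiv_ei f x]
    unfold lap
    have e3 : ∀ i : Fin 12, radf χ x * (iteratedFDeriv ℝ 2 f x ![ei i, ei i] * ((ev p x : ℝ) : ℂ)
        - f x * ((ev (pderiv i (pderiv i p)) x : ℝ) : ℂ))
      + ((deriv χ ‖x‖ / ‖x‖ : ℝ) : ℂ) * ((x i : ℝ) : ℂ) *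
        (fderiv ℝ f x (ei i) * ((ev p x : ℝ) : ℂ) - f x * ((ev (pderiv i p) x : ℝ) : ℂ))
      = (radf χ x * ((ev p x : ℝ) : ℂ)) * iteratedFDeriv ℝ 2 f x ![ei i, ei i]
        - (radf χ x * f x) * ((ev (pderiv i (pderiv i p)) x : ℝ) : ℂ)
        + (((deriv χ ‖x‖ / ‖x‖ : ℝ) : ℂ) * ((ev p x : ℝ) : ℂ)) * (((x i : ℝ) : ℂ) * fderiv ℝ f x (ei i))
        - (((deriv χ ‖x‖ / ‖x‖ : ℝ) : ℂ) * f x) * (((x i : ℝ) : ℂ) * ((ev (pderiv i p) x : ℝ) : ℂ)) := by
      intro i; ring
    rw [Finset.sum_congr rfl (fun i _ => e3 i), Finset.sum_sub_distrib, Finset.sum_add_distrib,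
      Finset.sum_sub_distrib, ← Finset.mul_sum, ← Finset.mul_sum, ← Finset.mul_sum,
      ← Finset.mul_sum, e1, e2]
    ring
  constructor
  · have := integrable_finsetSum Finset.univ (fun i (_ : i ∈ Finset.univ) => hint i)
    exact this.congr (Filter.Eventually.of_forall fun x => hsum x)
  · rw [← integral_congr_ae (Filter.Eventually.of_forall fun x => hsum x),
      integral_finsetSum _ (fun i _ => hint i)]
    apply Finset.sum_eq_zero
    intro i _
    exact integral_fderiv_eq_zero (gv_contDiff hχ hs hf p i) (hcs i) (ei i)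

/-- weak form on the half line -/
theorem weak2 {χ : ℝ → ℝ} (hχ : ContDiff ℝ ∞ χ) (hc : HasCompactSupport χ)
    (hs : tsupport χ ⊆ Ioi 0) {f : R12 → ℂ} (hf : ContDiff ℝ 2 f)
    {p : MvPolynomial (Fin 12) ℝ} {l : ℕ} (hp : Harm l p) :
    ∫ r in Ioi (0 : ℝ), ((χ r : ℝ) : ℂ) * ((r : ℂ) ^ (11 + l) * coef (lap f) p r)
      + ((deriv χ r : ℝ) : ℂ) * ((r : ℂ) ^ (10 + l) * (r * dcoef 1 f p r - l * coef f p r)) = 0 := by
  obtain ⟨hi, h0⟩ := weak1 hχ hc hs hf hp
  rw [integral_polar _ hi] at h0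
  rw [← h0]
  apply setIntegral_congr_fun measurableSet_Ioi
  intro r hr
  have hr' : (0 : ℝ) < r := hr
  have hrc : (r : ℂ) ≠ 0 := by exact_mod_cast hr'.ne'
  have hn : ∀ w : S11, ‖r • ((w : S11) : R12)‖ = r := by
    intro w
    have hw : ‖((w : S11) : R12)‖ = 1 := by simp
    rw [norm_smul, hw, mul_one, Real.norm_eq_abs, abs_of_pos hr']
  have hcl : Continuous (lap f) := by
    unfold lap
    apply continuous_finsetSum
    intro i _
    have h1 : Continuous (iteratedFDeriv ℝ 2 f) := hf.continuous_iteratedFDeriv (by norm_num)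
    exact h1.eval continuous_const
  have hce : Continuous (eul f) := by
    unfold eul
    have h1 : Continuous (fderiv ℝ f) := hf.continuous_fderiv (by norm_num)
    exact h1.clm_apply continuous_id
  have key : ∫ w : S11, (radf χ (r • (w : R12)) * lap f (r • (w : R12)) * ((ev p (r • (w : R12)) : ℝ) : ℂ)
      + ((deriv χ ‖r • (w : R12)‖ / ‖r • (w : R12)‖ : ℝ) : ℂ) * (eul f (r • (w : R12)) - l * f (r • (w : R12)))
        * ((ev p (r • (w : R12)) : ℝ) : ℂ)) ∂sig
      = ((χ r : ℝ) : ℂ) * (r : ℂ) ^ l * coef (lap f) p r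
        + ((deriv χ r / r : ℝ) : ℂ) * (r : ℂ) ^ l * (coef (eul f) p r - l * coef f p r) := by
    have e1 : ∀ w : S11, (radf χ (r • (w : R12)) * lap f (r • (w : R12)) * ((ev p (r • (w : R12)) : ℝ) : ℂ)
      + ((deriv χ ‖r • (w : R12)‖ / ‖r • (w : R12)‖ : ℝ) : ℂ) * (eul f (r • (w : R12)) - l * f (r • (w : R12)))
        * ((ev p (r • (w : R12)) : ℝ) : ℂ))
        = (((χ r : ℝ) : ℂ) * (r : ℂ) ^ l) * (lap f (r • (w : R12)) * ((ev p w : ℝ) : ℂ))
        + ((((deriv χ r / r : ℝ) : ℂ) * (r : ℂ) ^ l) * (eul f (r • (w : R12)) * ((ev p w : ℝ) : ℂ))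
        - (((deriv χ r / r : ℝ) : ℂ) * (r : ℂ) ^ l * l) * (f (r • (w : R12)) * ((ev p w : ℝ) : ℂ))) := by
      intro w
      rw [hn w, ev_smul hp.hom]
      unfold radf
      rw [hn w]
      push_cast
      ring
    simp_rw [e1]
    have i1 := (integrable_coef hcl p r).const_mul (((χ r : ℝ) : ℂ) * (r : ℂ) ^ l)
    have i2 := (integrable_coef hce p r).const_mul (((deriv χ r / r : ℝ) : ℂ) * (r : ℂ) ^ l)
    have i3 := (integrable_coef hf.continuous p r).const_mul (((deriv χ r / r : ℝ) : ℂ) * (r : ℂ) ^ l * l)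
    have i23 : Integrable (fun w : S11 => (((deriv χ r / r : ℝ) : ℂ) * (r : ℂ) ^ l) *
        (eul f (r • (w : R12)) * ((ev p w : ℝ) : ℂ))
        - (((deriv χ r / r : ℝ) : ℂ) * (r : ℂ) ^ l * l) * (f (r • (w : R12)) * ((ev p w : ℝ) : ℂ))) sig :=
      i2.sub i3
    rw [integral_add i1 i23, integral_sub i2 i3, integral_const_mul, integral_const_mul,
      integral_const_mul]
    unfold coef
    ring
  beta_reduce
  rw [key, coef_eul]
  push_cast
  field_simp
  ring

/-- **Radial form of the Laplacian.** -/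
theorem coef_lap {f : R12 → ℂ} (hf : ContDiff ℝ 2 f)
    {p : MvPolynomial (Fin 12) ℝ} {l : ℕ} (hp : Harm l p) {r : ℝ} (hr : 0 < r) :
    coef (lap f) p r = dcoef 2 f p r + 11 / r * dcoef 1 f p r
      - (l * (l + 10) : ℂ) / r ^ 2 * coef f p r := by
  have hcl : Continuous (lap f) := by
    unfold lap
    apply continuous_finsetSum
    intro i _
    have h1 : Continuous (iteratedFDeriv ℝ 2 f) := hf.continuous_iteratedFDeriv (by norm_num)
    exact h1.eval continuous_const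
  have hL : Continuous (coef (lap f) p) := by
    have := continuous_dcoef (k := 0) (f := lap f) (contDiff_zero.2 hcl) le_rfl p
    rwa [dcoef_zero] at this
  have hf2 : ContDiff ℝ (2 : ℕ) f := by exact_mod_cast hf
  have h0 : ∀ r, HasDerivAt (coef f p) (dcoef 1 f p r) r := by
    intro r
    have := hasDerivAt_dcoef (k := 2) (j := 0) hf2 (by norm_num) p r
    rwa [dcoef_zero] at this
  have h1 : ∀ r, HasDerivAt (dcoef 1 f p) (dcoef 2 f p r) r :=
    fun r => hasDerivAt_dcoef (k := 2) (j := 1) hf2 (by norm_num) p r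
  have c0 : Continuous (coef f p) := continuous_iff_continuousAt.2 fun r => (h0 r).continuousAt
  have c1 : Continuous (dcoef 1 f p) := continuous_iff_continuousAt.2 fun r => (h1 r).continuousAt
  have c2 : Continuous (dcoef 2 f p) := continuous_dcoef (k := 2) hf2 le_rfl p
  -- the primitive
  let g : ℝ → ℂ := fun r => (r : ℂ) ^ (10 + l) * (r * dcoef 1 f p r - l * coef f p r)
  let g' : ℝ → ℂ := fun r => (r : ℂ) ^ (11 + l) * dcoef 2 f p r + 11 * (r : ℂ) ^ (10 + l) * dcoef 1 f p r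
    - (l * (l + 10) : ℂ) * (r : ℂ) ^ (9 + l) * coef f p r
  have hg : ∀ r, HasDerivAt g (g' r) r := by
    intro r
    have hid : HasDerivAt (fun r : ℝ => (r : ℂ)) 1 r := Complex.ofRealCLM.hasDerivAt
    have hpow : HasDerivAt (fun r : ℝ => (r : ℂ) ^ (10 + l)) (((10 + l : ℕ) : ℂ) * (r : ℂ) ^ (9 + l)) r := by
      have := hid.fun_pow (10 + l)
      have e : 10 + l - 1 = 9 + l := by omega
      rw [e] at this
      simpa using this
    have h2 := hpow.fun_mul ((hid.fun_mul (h1 r)).fun_sub ((h0 r).const_mul (l : ℂ)))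
    refine HasDerivAt.congr_deriv h2 ?_
    simp only [g']
    push_cast
    have e1 : (r : ℂ) ^ (10 + l) = (r : ℂ) ^ (9 + l) * r := by
      rw [show 10 + l = (9 + l) + 1 by ring, pow_succ]
    have e2 : (r : ℂ) ^ (11 + l) = (r : ℂ) ^ (9 + l) * r * r := by
      rw [show 11 + l = (9 + l) + 1 + 1 by ring, pow_succ, pow_succ]
    rw [e1, e2]
    ring
  have cg : Continuous g := continuous_iff_continuousAt.2 fun r => (hg r).continuousAt
  have cg' : Continuous g' := by
    simp only [g']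
    fun_prop
  let D : ℝ → ℂ := fun r => (r : ℂ) ^ (11 + l) * coef (lap f) p r - g' r
  have cD : Continuous D := by simp only [D]; fun_prop
  have hzero : ∀ χ : ℝ → ℝ, ContDiff ℝ ∞ χ → HasCompactSupport χ → tsupport χ ⊆ Ioi 0 →
      ∫ r, χ r • D r = 0 := by
    intro χ hχ hc hs
    have hw := weak2 hχ hc hs hf hp
    have hχ0 : ∀ r, r ∉ Ioi (0 : ℝ) → χ r = 0 := fun r hr => by
      by_contra h; exact hr (hs (subset_tsupport χ h))
    have hdχ0 : ∀ r, r ∉ Ioi (0 : ℝ) → deriv χ r = 0 := fun r hr => by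
      by_contra h
      exact hr (hs (support_deriv_subset h))
    have cχ : Continuous χ := hχ.continuous
    have cdχ : Continuous (deriv χ) := hχ.continuous_deriv (by simp)
    have hibp := integral_mul_deriv_eq_deriv_mul_of_integrable (A := ℂ)
      (u := fun r => ((χ r : ℝ) : ℂ)) (v := g) (u' := fun r => ((deriv χ r : ℝ) : ℂ)) (v' := g')
      (fun r _ => (hχ.differentiable (by simp) r).hasDerivAt.ofReal_comp)
      (fun r _ => hg r)
      (by
        have h3 : Continuous fun r => ((χ r : ℝ) : ℂ) * g' r := by fun_prop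
        refine h3.integrable_of_hasCompactSupport ?_
        exact (hc.comp_left (g := fun t : ℝ => (t : ℂ)) (by simp)).mul_right)
      (by
        have h3 : Continuous fun r => ((deriv χ r : ℝ) : ℂ) * g r := by fun_prop
        refine h3.integrable_of_hasCompactSupport ?_
        exact (hc.deriv.comp_left (g := fun t : ℝ => (t : ℂ)) (by simp)).mul_right)
      (by
        have h3 : Continuous fun r => ((χ r : ℝ) : ℂ) * g r := by fun_prop
        refine h3.integrable_of_hasCompactSupport ?_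
        exact (hc.comp_left (g := fun t : ℝ => (t : ℂ)) (by simp)).mul_right)
    have i1 : Integrable fun r => ((χ r : ℝ) : ℂ) * ((r : ℂ) ^ (11 + l) * coef (lap f) p r) := by
      have h3 : Continuous fun r => ((χ r : ℝ) : ℂ) * ((r : ℂ) ^ (11 + l) * coef (lap f) p r) := by
        fun_prop
      exact h3.integrable_of_hasCompactSupport
        (hc.comp_left (g := fun t : ℝ => (t : ℂ)) (by simp)).mul_right
    have i2 : Integrable fun r => ((deriv χ r : ℝ) : ℂ) * g r := by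
      have h3 : Continuous fun r => ((deriv χ r : ℝ) : ℂ) * g r := by fun_prop
      exact h3.integrable_of_hasCompactSupport
        (hc.deriv.comp_left (g := fun t : ℝ => (t : ℂ)) (by simp)).mul_right
    have i3 : Integrable fun r => ((χ r : ℝ) : ℂ) * g' r := by
      have h3 : Continuous fun r => ((χ r : ℝ) : ℂ) * g' r := by fun_prop
      exact h3.integrable_of_hasCompactSupport
        (hc.comp_left (g := fun t : ℝ => (t : ℂ)) (by simp)).mul_right
    have e1 : ∫ r, (((χ r : ℝ) : ℂ) * ((r : ℂ) ^ (11 + l) * coef (lap f) p r)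
        + ((deriv χ r : ℝ) : ℂ) * g r) = 0 := by
      rw [← hw, ← integral_indicator measurableSet_Ioi]
      apply integral_congr_ae
      refine Filter.Eventually.of_forall fun r => ?_
      by_cases hr : r ∈ Ioi (0 : ℝ)
      · simp only [indicator_of_mem hr]; rfl
      · simp only [indicator_of_notMem hr, hχ0 r hr, hdχ0 r hr]
        simp
    rw [integral_add i1 i2] at e1
    have e2 : ∫ r, χ r • D r = (∫ r, ((χ r : ℝ) : ℂ) * ((r : ℂ) ^ (11 + l) * coef (lap f) p r))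
        - ∫ r, ((χ r : ℝ) : ℂ) * g' r := by
      rw [← integral_sub i1 i3]
      congr 1
      ext r
      simp only [D, Complex.real_smul]
      ring
    rw [e2, hibp]
    linear_combination e1
  have hae := isOpen_Ioi.ae_eq_zero_of_integral_contDiff_smul_eq_zero
    (cD.locallyIntegrable.locallyIntegrableOn (Ioi (0 : ℝ))) hzero
  have hD : D r = 0 := by
    have h3 : D =ᵐ[volume.restrict (Ioi (0 : ℝ))] fun _ => 0 := by
      rw [Filter.EventuallyEq, ae_restrict_iff' measurableSet_Ioi]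
      exact hae
    exact Measure.eqOn_open_of_ae_eq h3 isOpen_Ioi cD.continuousOn continuousOn_const hr
  have hrc : (r : ℂ) ≠ 0 := by exact_mod_cast hr.ne'
  simp only [D, g'] at hD
  have e1 : (r : ℂ) ^ (10 + l) = (r : ℂ) ^ (9 + l) * r := by
    rw [show 10 + l = (9 + l) + 1 by ring, pow_succ]
  have e2 : (r : ℂ) ^ (11 + l) = (r : ℂ) ^ (9 + l) * r * r := by
    rw [show 11 + l = (9 + l) + 1 + 1 by ring, pow_succ, pow_succ]
  rw [e1, e2] at hD
  have hpw : (r : ℂ) ^ (9 + l) ≠ 0 := pow_ne_zero _ hrc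
  have h4 : (r : ℂ) ^ (9 + l) * ((r : ℂ) ^ 2 * coef (lap f) p r - ((r : ℂ) ^ 2 * dcoef 2 f p r
      + 11 * r * dcoef 1 f p r - (l * (l + 10) : ℂ) * coef f p r)) = 0 := by
    linear_combination hD
  have h5 := (mul_eq_zero.1 h4).resolve_left hpw
  field_simp
  linear_combination h5

end Crest.Agent.R086.Sph
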