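import Crest.Agent.R086.SHDefs
import Crest.Agent.R086.SH1b

/-!
Row 86, spherical harmonics: basic facts on `SHarm`, `comp`, radial profile (helper512).
-/

set_option autoImplicit false

open MeasureTheory Complex
open scoped ContDiff

namespace Crest.Agent.R086.SH

/-! ### integrability on the sphere, linearity of `comp` -/

lemma comp_integrable {H : R12 → ℝ} {f : R12 → ℂ} (hH : Continuous H) (hf : Continuous f) (r : ℝ) :
    Integrable (fun w : S11 => ((H w : ℝ) : ℂ) * f (r • (w : R12))) sig := by
  have c1 : Continuous fun w : S11 => f (r • (w : R12)) := hf.comp (by fun_prop)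
  have c2 : Continuous fun w : S11 => ((H w : ℝ) : ℂ) :=
    Complex.continuous_ofReal.comp (hH.comp continuous_subtype_val)
  exact (c2.mul c1).integrable_of_hasCompactSupport (HasCompactSupport.of_compactSpace _)

lemma comp_add {H : R12 → ℝ} {f g : R12 → ℂ} (hH : Continuous H) (hf : Continuous f)
    (hg : Continuous g) (r : ℝ) :
    comp H (fun y => f y + g y) r = comp H f r + comp H g r := by
  unfold comp
  rw [← integral_add (comp_integrable hH hf r) (comp_integrable hH hg r)]
  congr 1; funext w; ring

lemma comp_sub {H : R12 → ℝ} {f g : R12 → ℂ} (hH : Continuous H) (hf : Continuous f)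
    (hg : Continuous g) (r : ℝ) :
    comp H (fun y => f y - g y) r = comp H f r - comp H g r := by
  unfold comp
  rw [← integral_sub (comp_integrable hH hf r) (comp_integrable hH hg r)]
  congr 1; funext w; ring

lemma comp_const_mul (H : R12 → ℝ) (f : R12 → ℂ) (c : ℂ) (r : ℝ) :
    comp H (fun y => c * f y) r = c * comp H f r := by
  unfold comp
  rw [← integral_const_mul]
  congr 1; funext w; ring

lemma comp_sum {ι : Type*} (s : Finset ι) {H : R12 → ℝ} {f : ι → R12 → ℂ} (hH : Continuous H)
    (hf : ∀ i, Continuous (f i)) (r : ℝ) :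
    comp H (fun y => ∑ i ∈ s, f i y) r = ∑ i ∈ s, comp H (f i) r := by
  unfold comp
  rw [← integral_finsetSum s (fun i _ => comp_integrable hH (hf i) r)]
  congr 1; funext w; rw [Finset.mul_sum]

lemma comp_congr {H : R12 → ℝ} {f g : R12 → ℂ} {r : ℝ}
    (h : ∀ w : S11, f (r • (w : R12)) = g (r • (w : R12))) : comp H f r = comp H g r := by
  unfold comp; congr 1; funext w; rw [h w]

/-- multiplication by a function which is constant `= c` on the sphere of radius `r`. -/
lemma comp_radial_mul {H : R12 → ℝ} {f V : R12 → ℂ} {r : ℝ} {c : ℂ}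
    (h : ∀ w : S11, V (r • (w : R12)) = c) : comp H (fun y => V y * f y) r = c * comp H f r := by
  rw [← comp_const_mul]
  exact comp_congr (fun w => by rw [h w])

lemma comp_conj (H : R12 → ℝ) (f : R12 → ℂ) (r : ℝ) :
    comp H (fun y => starRingEnd ℂ (f y)) r = starRingEnd ℂ (comp H f r) := by
  unfold comp
  rw [← integral_conj]
  congr 1; funext w; simp

lemma comp_smul_left (H : R12 → ℝ) (f : R12 → ℂ) (c : ℝ) (r : ℝ) :
    comp (fun y => c * H y) f r = (c : ℂ) * comp H f r := by
  unfold comp
  rw [← integral_const_mul]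
  congr 1; funext w; push_cast; ring

end Crest.Agent.R086.SH
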