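import Crest.Agent.R086.Defs

/-!
Row 86, Part C: FROZEN INTERFACE of the spherical-harmonic reduction (owner helper512).

`theorem specGood_of_modeGood : P.ModeGood N → P.SpecGood N` (file SHMain, 2 ≤ N) is what SH delivers;
Part C only has to prove `P.ModeGood N0`.
-/

set_option autoImplicit false

open MeasureTheory Complex
open scoped ContDiff

namespace Crest.Agent.R086

/-- unit sphere `S^11` -/
abbrev S11 : Type := Metric.sphere (0 : R12) 1

/-- surface measure -/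
noncomputable abbrev sig : Measure S11 := (volume : Measure R12).toSphere

/-- real harmonic homogeneous polynomial of degree `l` on `R12`. -/
structure SHarm (l : ℕ) (H : R12 → ℝ) : Prop where
  poly : ∃ p : MvPolynomial (Fin 12) ℝ, p.IsHomogeneous l ∧
    ∀ y : R12, H y = MvPolynomial.eval (fun i => y i) p
  harm : ∀ y : R12, ∑ i : Fin 12, iteratedFDeriv ℝ 2 H y ![ei i, ei i] = 0

/-- spherical coefficient `f_H(r) = ∫_{S^11} H(ω) f(r ω) dσ(ω)`, all real `r`. -/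
noncomputable def comp (H : R12 → ℝ) (f : R12 → ℂ) (r : ℝ) : ℂ :=
  ∫ w : S11, ((H w : ℝ) : ℂ) * f (r • (w : R12)) ∂sig

/-- the function `F(|y|) H(y/|y|)` on `R12` -/
noncomputable def modeFn (H : R12 → ℝ) (F : ℝ → ℂ) (y : R12) : ℂ :=
  ((H (‖y‖⁻¹ • y) : ℝ) : ℂ) * F ‖y‖

/-- radial Laplacian on degree `l`: `F'' + (11/r) F' - l(l+10) r⁻² F` -/
noncomputable def rlap (l : ℕ) (F : ℝ → ℂ) (r : ℝ) : ℂ :=
  deriv (deriv F) r + (11 / (r : ℂ)) * deriv F r - ((l : ℂ) * (l + 10) / (r : ℂ) ^ 2) * F r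

namespace Profile
variable {n : ℕ} (P : Profile n)

/-- radial profile `Q y = q |y|` (even smooth function of `r : ℝ`) -/
noncomputable def q (r : ℝ) : ℂ := P.Q (r • ei 0)

noncomputable def rV1 (r : ℝ) : ℂ := ((1 + (n : ℂ) / 2)) * ((‖P.q r‖ ^ n : ℝ) : ℂ)
noncomputable def rV2 (r : ℝ) : ℂ := ((n : ℂ) / 2) * ((‖P.q r‖ ^ (n - 2) : ℝ) : ℂ) * (P.q r) ^ 2
noncomputable def rV2c (r : ℝ) : ℂ :=
  ((n : ℂ) / 2) * ((‖P.q r‖ ^ (n - 2) : ℝ) : ℂ) * (starRingEnd ℂ (P.q r)) ^ 2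

/-- degree `l` part of `gen1` -/
noncomputable def rgen1 (l : ℕ) (F G : ℝ → ℂ) (r : ℝ) : ℂ :=
  I * rlap l F r - (1 / 2) * ((r : ℂ) * deriv F r) + (I * P.om - 1 / n) * F r
    - I * (P.rV1 r * F r + P.rV2 r * G r)
/-- degree `l` part of `gen2` -/
noncomputable def rgen2 (l : ℕ) (F G : ℝ → ℂ) (r : ℝ) : ℂ :=
  -I * rlap l G r - (1 / 2) * ((r : ℂ) * deriv G r) + (-I * P.om - 1 / n) * G r
    + I * (P.rV1 r * G r + P.rV2c r * F r)

/-- radial profile of the time mode, `(1/n - i om) q + (r/2) q'` -/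
noncomputable def rtime (r : ℝ) : ℂ := ((1 : ℂ) / n - I * P.om) * P.q r + (1 / 2) * ((r : ℂ) * deriv P.q r)

/-- degree `l` part of "`(F,G)` is in the span of the symmetry modes", on `r > 0`. -/
def InEr (l : ℕ) (F G : ℝ → ℂ) : Prop :=
  (l = 0 → ∃ a b : ℂ, ∀ r : ℝ, 0 < r → F r = a * (I * P.q r) + b * P.rtime r ∧
    G r = a * starRingEnd ℂ (I * P.q r) + b * starRingEnd ℂ (P.rtime r)) ∧
  (l = 1 → ∃ a : ℂ, ∀ r : ℝ, 0 < r → F r = a * deriv P.q r ∧ G r = a * starRingEnd ℂ (deriv P.q r)) ∧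
  (2 ≤ l → ∀ r : ℝ, 0 < r → F r = 0 ∧ G r = 0)

/-- INPUT FOR PART C: one degree `l`, one harmonic polynomial `H` (normalised on the sphere), one pair of
radial functions such that `F(|y|)H(y/|y|)`, `G(|y|)H(y/|y|)` are in `X_N`. -/
def ModeGood (N : ℕ) : Prop :=
  ∀ lam : ℂ, 0 ≤ lam.re → ∀ (l : ℕ) (H : R12 → ℝ), SHarm l H → (∫ w : S11, (H w) ^ 2 ∂sig) = 1 →
    ∀ F G : ℝ → ℂ, ContDiff ℝ N F → ContDiff ℝ N G →
      (∀ r, F (-r) = (-1) ^ l * F r) → (∀ r, G (-r) = (-1) ^ l * G r) →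
      InX N (modeFn H F) → InX N (modeFn H G) →
      P.InEr l (fun r => P.rgen1 l F G r - lam * F r) (fun r => P.rgen2 l F G r - lam * G r) →
      P.InEr l F G

end Profile

end Crest.Agent.R086
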