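import Crest.Agent.R086.SphComp

/-!
Row 86, spherical harmonics (helper545): Funk–Hecke.
Part 1: Gaussian expectation of polynomials, integration by parts, and
`∫_S ⟨y,w⟩^k p(w) dσ(w) = c_{k,l} p(y)` for unit `y` and harmonic homogeneous `p` of degree `l`.
-/

set_option autoImplicit false

open MvPolynomial Finset MeasureTheory

namespace Crest.Agent.R086.SH

variable {d : ℕ}

local notation "EE" => EuclideanSpace ℝ (Fin d)

lemma pfun_exp_bound (p : MvPolynomial (Fin d) ℝ) :
    ∃ (C : ℝ) (m : ℕ), 0 ≤ C ∧ ∀ x : EE, |pfun p x| ≤ C * Real.exp (m * ‖x‖) := by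
  induction p using MvPolynomial.induction_on with
  | C a =>
    refine ⟨|a|, 0, abs_nonneg _, fun x => ?_⟩
    simp [pfun]
  | add p q hp hq =>
    obtain ⟨C1, m1, h1, b1⟩ := hp
    obtain ⟨C2, m2, h2, b2⟩ := hq
    refine ⟨C1 + C2, m1 + m2, by positivity, fun x => ?_⟩
    rw [pfun_add]
    have e1 : Real.exp (m1 * ‖x‖) ≤ Real.exp (((m1 + m2 : ℕ) : ℝ) * ‖x‖) := by
      apply Real.exp_le_exp.mpr
      push_cast
      nlinarith [norm_nonneg x, (Nat.cast_nonneg m2 : (0 : ℝ) ≤ m2)]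
    have e2 : Real.exp (m2 * ‖x‖) ≤ Real.exp (((m1 + m2 : ℕ) : ℝ) * ‖x‖) := by
      apply Real.exp_le_exp.mpr
      push_cast
      nlinarith [norm_nonneg x, (Nat.cast_nonneg m1 : (0 : ℝ) ≤ m1)]
    calc |pfun p x + pfun q x| ≤ |pfun p x| + |pfun q x| := abs_add_le _ _
      _ ≤ C1 * Real.exp (m1 * ‖x‖) + C2 * Real.exp (m2 * ‖x‖) := add_le_add (b1 x) (b2 x)
      _ ≤ C1 * Real.exp (((m1 + m2 : ℕ) : ℝ) * ‖x‖) + C2 * Real.exp (((m1 + m2 : ℕ) : ℝ) * ‖x‖) :=
        add_le_add (mul_le_mul_of_nonneg_left e1 h1) (mul_le_mul_of_nonneg_left e2 h2)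
      _ = (C1 + C2) * Real.exp (((m1 + m2 : ℕ) : ℝ) * ‖x‖) := by ring
  | mul_X p j hp =>
    obtain ⟨C1, m1, h1, b1⟩ := hp
    refine ⟨C1, m1 + 1, h1, fun x => ?_⟩
    have e0 : pfun (p * X j) x = pfun p x * x j := by simp [pfun]
    have e1 : |x j| ≤ Real.exp ‖x‖ := by
      have h2 : |x j| ≤ ‖x‖ := by simpa using PiLp.norm_apply_le x j
      have h3 := Real.add_one_le_exp ‖x‖
      linarith
    rw [e0, abs_mul]
    calc |pfun p x| * |x j| ≤ (C1 * Real.exp (m1 * ‖x‖)) * Real.exp ‖x‖ :=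
          mul_le_mul (b1 x) e1 (abs_nonneg _) (mul_nonneg h1 (Real.exp_nonneg _))
      _ = C1 * Real.exp (((m1 + 1 : ℕ) : ℝ) * ‖x‖) := by
        rw [mul_assoc, ← Real.exp_add]; push_cast; ring_nf

/-- the Gaussian weight -/
noncomputable def gw (x : EE) : ℝ := Real.exp (-(‖x‖ ^ 2 / 2))

lemma continuous_gw : Continuous (gw : EE → ℝ) := by unfold gw; fun_prop

lemma gw_pos (x : EE) : 0 < gw x := Real.exp_pos _

lemma integrable_gauss4 : Integrable (fun x : EE => Real.exp (-(‖x‖ ^ 2 / 4))) := by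
  have h := GaussianFourier.integrable_cexp_neg_mul_sq_norm_add (V := EE) (b := (1 / 4 : ℂ))
    (by norm_num) 0 0
  have h2 := h.norm
  refine h2.congr (Filter.Eventually.of_forall fun x => ?_)
  simp only [Complex.norm_exp]
  congr 1
  simp only [zero_mul, add_zero]
  have : (-(1 / 4 : ℂ) * (‖x‖ : ℂ) ^ 2) = ((-(‖x‖ ^ 2 / 4) : ℝ) : ℂ) := by push_cast; ring
  rw [this, Complex.ofReal_re]

lemma integrable_pfun_gw (p : MvPolynomial (Fin d) ℝ) : Integrable (fun x : EE => pfun p x * gw x) := by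
  obtain ⟨C, m, hC, hb⟩ := pfun_exp_bound p
  have h1 : Integrable (fun x : EE => (C * Real.exp (m ^ 2)) * Real.exp (-(‖x‖ ^ 2 / 4))) :=
    integrable_gauss4.const_mul _
  refine h1.mono' ((continuous_pfun p).mul continuous_gw).aestronglyMeasurable
    (Filter.Eventually.of_forall fun x => ?_)
  rw [Real.norm_eq_abs, abs_mul, abs_of_pos (gw_pos x)]
  calc |pfun p x| * gw x ≤ (C * Real.exp (m * ‖x‖)) * gw x :=
        mul_le_mul_of_nonneg_right (hb x) (gw_pos x).le
    _ = C * Real.exp (m * ‖x‖ - ‖x‖ ^ 2 / 2) := by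
      unfold gw; rw [mul_assoc, ← Real.exp_add]; ring_nf
    _ ≤ C * Real.exp ((m : ℝ) ^ 2 - ‖x‖ ^ 2 / 4) := by
      refine mul_le_mul_of_nonneg_left (Real.exp_le_exp.mpr ?_) hC
      nlinarith [sq_nonneg ((m : ℝ) - ‖x‖ / 2)]
    _ = (C * Real.exp (m ^ 2)) * Real.exp (-(‖x‖ ^ 2 / 4)) := by
      rw [mul_assoc, ← Real.exp_add]; ring_nf

lemma hasFDerivAt_gw (x : EE) :
    HasFDerivAt (gw : EE → ℝ) (-(gw x) • (innerSL ℝ x)) x := by
  have h1 : HasFDerivAt (fun x : EE => ‖x‖ ^ 2) (2 • (innerSL ℝ x)) x :=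
    (hasStrictFDerivAt_norm_sq x).hasFDerivAt
  have h2 : HasFDerivAt (fun x : EE => -(‖x‖ ^ 2 / 2)) (-(innerSL ℝ x)) x := by
    have h3 := h1.const_mul (-(1 / 2) : ℝ)
    convert! h3 using 1
    · funext z; ring
    · ext y
      simp
  have h3 := h2.exp
  unfold gw
  convert! h3 using 1
  ext y
  simp

lemma fderiv_gw_single (x : EE) (i : Fin d) :
    fderiv ℝ (gw : EE → ℝ) x (EuclideanSpace.single i 1) = -(x i) * gw x := by
  rw [(hasFDerivAt_gw x).fderiv]
  simp [EuclideanSpace.inner_single_right]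
  ring

/-- Gaussian functional on polynomials -/
noncomputable def gE (p : MvPolynomial (Fin d) ℝ) : ℝ := ∫ x : EE, pfun p x * gw x

lemma gE_add (p q : MvPolynomial (Fin d) ℝ) : gE (p + q) = gE p + gE q := by
  unfold gE
  rw [← integral_add (integrable_pfun_gw p) (integrable_pfun_gw q)]
  refine integral_congr_ae (Filter.Eventually.of_forall fun x => ?_)
  simp only [pfun_add]; ring

lemma gE_smul (c : ℝ) (p : MvPolynomial (Fin d) ℝ) : gE (c • p) = c * gE p := by
  unfold gE
  rw [← integral_const_mul]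
  refine integral_congr_ae (Filter.Eventually.of_forall fun x => ?_)
  simp [pfun]; ring

lemma gE_zero : gE (0 : MvPolynomial (Fin d) ℝ) = 0 := by simp [gE, pfun]

lemma gE_sum {ι : Type*} (s : Finset ι) (p : ι → MvPolynomial (Fin d) ℝ) :
    gE (∑ i ∈ s, p i) = ∑ i ∈ s, gE (p i) := by
  classical
  induction s using Finset.induction_on with
  | empty => simp [gE_zero]
  | insert a s ha ih => rw [Finset.sum_insert ha, Finset.sum_insert ha, gE_add, ih]

/-- Gaussian integration by parts. -/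
lemma gE_X_mul (i : Fin d) (p : MvPolynomial (Fin d) ℝ) : gE (X i * p) = gE (pderiv i p) := by
  have h := integral_mul_fderiv_eq_neg_fderiv_mul_of_integrable (μ := (volume : Measure EE))
    (f := pfun p) (g := (gw : EE → ℝ)) (v := EuclideanSpace.single i 1)
    (by
      simp only [fderiv_pfun_single]
      exact integrable_pfun_gw _)
    (by
      simp only [fderiv_gw_single]
      have := (integrable_pfun_gw (X i * p)).neg
      refine this.congr (Filter.Eventually.of_forall fun x => ?_)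
      simp [pfun]; ring)
    (integrable_pfun_gw p)
    (fun x _ => (hasFDerivAt_pfun p x).differentiableAt)
    (fun x _ => (hasFDerivAt_gw x).differentiableAt)
  simp only [fderiv_pfun_single, fderiv_gw_single] at h
  have h1 : ∫ x : EE, pfun p x * (-(x i) * gw x) = -gE (X i * p) := by
    unfold gE
    rw [← integral_neg]
    refine integral_congr_ae (Filter.Eventually.of_forall fun x => ?_)
    simp [pfun]; ring
  rw [h1] at h
  unfold gE at h ⊢
  linarith

/-- linear form `⟨y, x⟩` -/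
noncomputable def Ly (y : EE) : MvPolynomial (Fin d) ℝ := ∑ i, y i • X i

/-- derivative in direction `y` -/
noncomputable def Dy (y : EE) : Derivation ℝ (MvPolynomial (Fin d) ℝ) (MvPolynomial (Fin d) ℝ) :=
  ∑ i, y i • (pderiv i : Derivation ℝ (MvPolynomial (Fin d) ℝ) (MvPolynomial (Fin d) ℝ))

lemma Dy_apply (y : EE) (p : MvPolynomial (Fin d) ℝ) : Dy y p = ∑ i, y i • pderiv i p := by
  classical
  unfold Dy
  have key : ∀ s : Finset (Fin d),
      (∑ i ∈ s, y i • (pderiv i : Derivation ℝ (MvPolynomial (Fin d) ℝ) (MvPolynomial (Fin d) ℝ))) p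
        = ∑ i ∈ s, y i • pderiv i p := by
    intro s
    induction s using Finset.induction_on with
    | empty => simp
    | insert a s ha ih =>
      rw [Finset.sum_insert ha, Finset.sum_insert ha, Derivation.add_apply, ih]
      rfl
  exact key _

lemma pfun_Ly (y x : EE) : pfun (Ly y) x = inner ℝ y x := by
  simp [pfun, Ly, PiLp.inner_apply, mul_comm, MvPolynomial.smul_eval]

lemma gE_Ly_mul (y : EE) (p : MvPolynomial (Fin d) ℝ) : gE (Ly y * p) = gE (Dy y p) := by
  unfold Ly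
  rw [Dy_apply, Finset.sum_mul, gE_sum, gE_sum]
  refine Finset.sum_congr rfl fun i _ => ?_
  rw [smul_mul_assoc, gE_smul, gE_smul, gE_X_mul]

lemma Dy_Ly (y : EE) : Dy y (Ly y) = C (‖y‖ ^ 2) := by
  classical
  rw [Dy_apply, EuclideanSpace.norm_sq_eq, map_sum]
  refine Finset.sum_congr rfl fun i _ => ?_
  have h1 : pderiv i (Ly y) = C (y i) := by
    unfold Ly
    rw [map_sum, Finset.sum_eq_single i]
    · rw [Derivation.map_smul, pderiv_X_self, MvPolynomial.smul_eq_C_mul, mul_one]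
    · intro j _ hj
      rw [Derivation.map_smul, pderiv_X_of_ne hj, smul_zero]
    · simp
  rw [h1, MvPolynomial.smul_eq_C_mul, ← C_mul]
  simp [sq]

lemma Dy_Ly_pow_mul {y : EE} (hy : ‖y‖ = 1) (k : ℕ) (p : MvPolynomial (Fin d) ℝ) :
    Dy y (Ly y ^ k * p) = (k : ℝ) • (Ly y ^ (k - 1) * p) + Ly y ^ k * Dy y p := by
  rw [Derivation.leibniz, Derivation.leibniz_pow, Dy_Ly, hy]
  simp only [one_pow, map_one, smul_eq_mul]
  rw [add_comm]
  congr 1
  rw [nsmul_eq_mul, MvPolynomial.smul_eq_C_mul]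
  simp
  ring

lemma plap_pderiv (i : Fin d) (p : MvPolynomial (Fin d) ℝ) :
    plap (pderiv i p) = pderiv i (plap p) := by
  unfold plap
  rw [map_sum]
  refine Finset.sum_congr rfl fun j _ => ?_
  have hc : ∀ q : MvPolynomial (Fin d) ℝ, pderiv j (pderiv i q) = pderiv i (pderiv j q) := by
    intro q
    ext m
    rw [coeff_pderiv, coeff_pderiv, coeff_pderiv, coeff_pderiv]
    have e : m + Finsupp.single j 1 + Finsupp.single i 1 = m + Finsupp.single i 1 + Finsupp.single j 1 := by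
      rw [add_assoc, add_comm (Finsupp.single j 1), ← add_assoc]
    rw [e]
    by_cases hij : i = j
    · subst hij; ring
    · have h1 : (m + Finsupp.single j 1 : Fin d →₀ ℕ) i = m i := by
        simp [Ne.symm hij]
      have h2 : (m + Finsupp.single i 1 : Fin d →₀ ℕ) j = m j := by
        simp [hij]
      rw [h1, h2]; ring
  rw [hc, hc]

lemma harm_Dy {l : ℕ} {p : MvPolynomial (Fin d) ℝ} (hp : Sph.Harm l p) (y : EE) :
    Sph.Harm (l - 1) (Dy y p) := by
  have h0 : plap p = 0 := hp.harm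
  constructor
  · rw [Dy_apply]
    refine MvPolynomial.IsHomogeneous.sum _ _ _ fun i _ => ?_
    rw [MvPolynomial.smul_eq_C_mul]
    simpa using (MvPolynomial.isHomogeneous_C (Fin d) (y i)).mul (hp.hom.pderiv (i := i))
  · show plap (Dy y p) = 0
    rw [Dy_apply]
    have : plap (∑ i, y i • pderiv i p) = ∑ i, y i • plap (pderiv i p) := by
      simp only [plap, map_sum, Derivation.map_smul, Finset.smul_sum]
      rw [Finset.sum_comm]
    rw [this]
    refine Finset.sum_eq_zero fun i _ => ?_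
    rw [plap_pderiv, h0, map_zero, smul_zero]

lemma pfun_Dy_self {l : ℕ} {p : MvPolynomial (Fin d) ℝ} (hp : p.IsHomogeneous l) (y : EE) :
    pfun (Dy y p) y = l * pfun p y := by
  have h1 := hp.sum_X_mul_pderiv
  have h2 : pfun (∑ i, X i * pderiv i p) y = pfun (l • p) y := congrArg (fun q => pfun q y) h1
  rw [pfun_sum] at h2
  rw [Dy_apply, pfun_sum]
  have h3 : pfun (l • p) y = l * pfun p y := by simp [pfun]
  rw [← h3, ← h2]
  refine Finset.sum_congr rfl fun i _ => ?_
  simp [pfun]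

lemma gE_harm_pos {l : ℕ} (hl : 0 < l) {p : MvPolynomial (Fin d) ℝ} (hp : Sph.Harm l p) :
    gE p = 0 := by
  have h1 := hp.hom.sum_X_mul_pderiv
  have h2 : gE (l • p) = 0 := by
    rw [← h1, gE_sum]
    have : ∀ i : Fin d, gE (X i * pderiv i p) = gE (pderiv i (pderiv i p)) := fun i => gE_X_mul i _
    simp only [this]
    rw [← gE_sum]
    have h0 : plap p = 0 := hp.harm
    have h3 : ∑ i, pderiv i (pderiv i p) = (0 : MvPolynomial (Fin d) ℝ) := h0
    rw [h3, gE_zero]
  have h3 : l • p = (l : ℝ) • p := by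
    rw [Nat.cast_smul_eq_nsmul]
  rw [h3, gE_smul] at h2
  have : (l : ℝ) ≠ 0 := by exact_mod_cast hl.ne'
  exact (mul_eq_zero.mp h2).resolve_left this

/-- Gaussian Funk–Hecke for powers. -/
theorem gE_pow_harm (k : ℕ) : ∀ l : ℕ, ∃ c : ℝ, ∀ p : MvPolynomial (Fin d) ℝ, Sph.Harm l p →
    ∀ y : EE, ‖y‖ = 1 → gE (Ly y ^ k * p) = c * pfun p y := by
  induction k using Nat.strong_induction_on with
  | _ k ih =>
    intro l
    rcases k with _ | k
    · -- k = 0
      by_cases hl : l = 0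
      · subst hl
        refine ⟨gE (1 : MvPolynomial (Fin d) ℝ), fun p hp y _ => ?_⟩
        have h1 : p.totalDegree = 0 := by
          rw [totalDegree_zero_iff_isHomogeneous]; exact hp.hom
        have h2 := totalDegree_eq_zero_iff_eq_C.mp h1
        rw [h2]
        have h3 : (C (coeff 0 p) : MvPolynomial (Fin d) ℝ) = (coeff 0 p) • 1 := by
          rw [MvPolynomial.smul_eq_C_mul, mul_one]
        rw [h3, pow_zero, one_mul, gE_smul]
        simp [pfun]
        ring
      · refine ⟨0, fun p hp y _ => ?_⟩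
        rw [pow_zero, one_mul, gE_harm_pos (Nat.pos_of_ne_zero hl) hp, zero_mul]
    · obtain ⟨c1, h1⟩ := ih (k - 1) (by omega) l
      obtain ⟨c2, h2⟩ := ih k (by omega) (l - 1)
      refine ⟨k * c1 + l * c2, fun p hp y hy => ?_⟩
      rw [pow_succ', mul_assoc, gE_Ly_mul, Dy_Ly_pow_mul hy, gE_add, gE_smul, h1 p hp y hy,
        h2 (Dy y p) (harm_Dy hp y) y hy, pfun_Dy_self hp.hom]
      ring

end Crest.Agent.R086.SH
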