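import Crest.Agent.R086.SHF1

/-!
Row 86, spherical harmonics (helper545): Funk–Hecke.
Part 2: polar coordinates, sphere moments, and the relation
`g(ρ θ) p(θ') = g(ρ θ') p(θ)` for `g(y) = ∫_S e^{i⟨y,w⟩} p(w) dσ(w)`.
-/

set_option autoImplicit false

open MvPolynomial Finset MeasureTheory

namespace Crest.Agent.R086.SH

variable {d : ℕ}

local notation "EE" => EuclideanSpace ℝ (Fin d)

/-- polar map -/
noncomputable def pol (p : Sph d × Set.Ioi (0 : ℝ)) : EE := (p.2 : ℝ) • (p.1 : EE)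

/-- radial measure `r^(d-1) dr` -/
noncomputable abbrev nuI (d : ℕ) : Measure (Set.Ioi (0 : ℝ)) := Measure.volumeIoiPow (d - 1)

lemma pol_eq (p : Sph d × Set.Ioi (0 : ℝ)) :
    pol p = ((homeomorphUnitSphereProd EE).symm p : EE) := by
  simp [pol]

lemma norm_pol (p : Sph d × Set.Ioi (0 : ℝ)) : ‖pol p‖ = p.2 := by
  unfold pol
  rw [norm_smul]
  have h1 : ‖(p.1 : EE)‖ = 1 := by simp
  have h2 : ‖(p.2 : ℝ)‖ = p.2 := by
    rw [Real.norm_eq_abs, abs_of_pos p.2.2]
  rw [h1, h2, mul_one]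

lemma inv_smul_pol (p : Sph d × Set.Ioi (0 : ℝ)) : ‖pol p‖⁻¹ • pol p = (p.1 : EE) := by
  rw [norm_pol]
  unfold pol
  rw [smul_smul, inv_mul_cancel₀ (ne_of_gt p.2.2), one_smul]

lemma measurePreserving_pol [NeZero d] :
    MeasurePreserving (pol : Sph d × Set.Ioi (0 : ℝ) → EE) ((sg d).prod (nuI d)) volume := by
  have h1 := (volume : Measure EE).measurePreserving_homeomorphUnitSphereProd
  rw [finrank_euclideanSpace_fin] at h1
  have h2 : MeasurePreserving (homeomorphUnitSphereProd EE).symm ((sg d).prod (nuI d))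
      ((volume : Measure EE).comap (Subtype.val : ({0}ᶜ : Set EE) → EE)) :=
    MeasurePreserving.symm (homeomorphUnitSphereProd EE).toMeasurableEquiv h1
  have h3 : MeasurePreserving (Subtype.val : ({0}ᶜ : Set EE) → EE)
      ((volume : Measure EE).comap (Subtype.val : ({0}ᶜ : Set EE) → EE)) volume := by
    refine ⟨measurable_subtype_coe, ?_⟩
    rw [map_comap_subtype_coe (measurableSet_singleton (0 : EE)).compl]
    have : Nontrivial EE := by
      refine ⟨⟨EuclideanSpace.single 0 1, 0, ?_⟩⟩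
      intro h0
      have := congrArg (fun v : EE => v 0) h0
      simp at this
    rw [Measure.restrict_eq_self_of_ae_mem]
    have : (volume : Measure EE) {(0 : EE)} = 0 := measure_singleton _
    rw [ae_iff]
    simp
  have h4 := h3.comp h2
  have h5 : (Subtype.val ∘ (homeomorphUnitSphereProd EE).symm : Sph d × Set.Ioi (0 : ℝ) → EE) = pol := by
    funext p
    simp [pol]
  rw [h5] at h4
  exact h4

lemma measurableEmbedding_pol : MeasurableEmbedding (pol : Sph d × Set.Ioi (0 : ℝ) → EE) := by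
  have h5 : (Subtype.val ∘ (homeomorphUnitSphereProd EE).symm : Sph d × Set.Ioi (0 : ℝ) → EE) = pol := by
    funext p
    simp [pol]
  rw [← h5]
  exact (MeasurableEmbedding.subtype_coe (measurableSet_singleton (0 : EE)).compl).comp
    (homeomorphUnitSphereProd EE).symm.measurableEmbedding

lemma continuous_pol : Continuous (pol : Sph d × Set.Ioi (0 : ℝ) → EE) := by
  unfold pol; fun_prop

/-! ### moments -/

lemma integrable_of_exp_bound {f : EE → ℝ} (hf : Continuous f) {C : ℝ} {m : ℕ} (hC : 0 ≤ C)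
    (hb : ∀ x, |f x| ≤ C * Real.exp (m * ‖x‖)) : Integrable (fun x : EE => f x * gw x) := by
  have h1 : Integrable (fun x : EE => (C * Real.exp (m ^ 2)) * Real.exp (-(‖x‖ ^ 2 / 4))) :=
    integrable_gauss4.const_mul _
  refine h1.mono' (hf.mul continuous_gw).aestronglyMeasurable
    (Filter.Eventually.of_forall fun x => ?_)
  rw [Real.norm_eq_abs, abs_mul, abs_of_pos (gw_pos x)]
  calc |f x| * gw x ≤ (C * Real.exp (m * ‖x‖)) * gw x :=
        mul_le_mul_of_nonneg_right (hb x) (gw_pos x).le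
    _ = C * Real.exp (m * ‖x‖ - ‖x‖ ^ 2 / 2) := by
      unfold gw; rw [mul_assoc, ← Real.exp_add]; ring_nf
    _ ≤ C * Real.exp ((m : ℝ) ^ 2 - ‖x‖ ^ 2 / 4) := by
      refine mul_le_mul_of_nonneg_left (Real.exp_le_exp.mpr ?_) hC
      nlinarith [sq_nonneg ((m : ℝ) - ‖x‖ / 2)]
    _ = (C * Real.exp (m ^ 2)) * Real.exp (-(‖x‖ ^ 2 / 4)) := by
      rw [mul_assoc, ← Real.exp_add]; ring_nf

/-- radial Gaussian moment -/
noncomputable def kap (d m : ℕ) : ℝ :=
  ∫ s : Set.Ioi (0 : ℝ), (s : ℝ) ^ m * Real.exp (-((s : ℝ) ^ 2 / 2)) ∂(nuI d)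

lemma gw_pol (p : Sph d × Set.Ioi (0 : ℝ)) : gw (pol p) = Real.exp (-((p.2 : ℝ) ^ 2 / 2)) := by
  unfold gw; rw [norm_pol]

lemma gE_hom [NeZero d] {m : ℕ} {q : MvPolynomial (Fin d) ℝ} (hq : q.IsHomogeneous m) :
    gE q = kap d m * ∫ w : Sph d, pfun q w ∂(sg d) := by
  unfold gE
  rw [← measurePreserving_pol.integral_comp measurableEmbedding_pol]
  have h1 : ∀ p : Sph d × Set.Ioi (0 : ℝ), pfun q (pol p) * gw (pol p) =
      pfun q (p.1 : EE) * ((p.2 : ℝ) ^ m * Real.exp (-((p.2 : ℝ) ^ 2 / 2))) := by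
    intro p
    rw [gw_pol]
    unfold pol
    rw [pfun_smul_of_hom hq]
    ring
  simp only [h1]
  rw [integral_prod_mul (fun w : Sph d => pfun q (w : EE))
    (fun s : Set.Ioi (0 : ℝ) => (s : ℝ) ^ m * Real.exp (-((s : ℝ) ^ 2 / 2)))]
  unfold kap
  ring

lemma kap_ne_zero [NeZero d] (m : ℕ) : kap d m ≠ 0 := by
  intro h0
  have hb : ∀ x : EE, |‖x‖ ^ m| ≤ 1 * Real.exp (m * ‖x‖) := by
    intro x
    rw [abs_of_nonneg (by positivity), one_mul, Real.exp_nat_mul]
    refine pow_le_pow_left₀ (norm_nonneg _) ?_ m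
    linarith [Real.add_one_le_exp ‖x‖]
  have hint : Integrable (fun x : EE => ‖x‖ ^ m * gw x) :=
    integrable_of_exp_bound (by fun_prop) zero_le_one hb
  have h1 : ∫ x : EE, ‖x‖ ^ m * gw x = kap d m * ∫ w : Sph d, (1 : ℝ) ∂(sg d) := by
    rw [← measurePreserving_pol.integral_comp measurableEmbedding_pol]
    have h1 : ∀ p : Sph d × Set.Ioi (0 : ℝ), ‖pol p‖ ^ m * gw (pol p) =
        1 * ((p.2 : ℝ) ^ m * Real.exp (-((p.2 : ℝ) ^ 2 / 2))) := by
      intro p
      rw [gw_pol, norm_pol, one_mul]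
    simp only [h1]
    rw [integral_prod_mul (fun _ : Sph d => (1 : ℝ))
      (fun s : Set.Ioi (0 : ℝ) => (s : ℝ) ^ m * Real.exp (-((s : ℝ) ^ 2 / 2)))]
    unfold kap
    ring
  rw [h0, zero_mul] at h1
  have h2 := (integral_eq_zero_iff_of_nonneg (f := fun x : EE => ‖x‖ ^ m * gw x)
    (fun x => mul_nonneg (by positivity) (gw_pos x).le) hint).mp h1
  have hc : Continuous fun x : EE => ‖x‖ ^ m * gw x := by
    have := continuous_gw (d := d)
    fun_prop
  have h3 : (fun x : EE => ‖x‖ ^ m * gw x) = 0 :=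
    (hc.ae_eq_iff_eq volume continuous_zero).mp h2
  have h4 := congrFun h3 (EuclideanSpace.single 0 1)
  simp only [Pi.zero_apply] at h4
  have h5 : ‖(EuclideanSpace.single 0 1 : EE)‖ = 1 := by simp
  rw [h5, one_pow, one_mul] at h4
  exact absurd h4 (gw_pos _).ne'

/-- `∫_S p = 0` for harmonic homogeneous `p` of positive degree. -/
lemma integral_harm_pos [NeZero d] {l : ℕ} (hl : 0 < l) {p : MvPolynomial (Fin d) ℝ}
    (hp : Sph.Harm l p) : ∫ w : Sph d, pfun p w ∂(sg d) = 0 := by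
  have h1 := gE_hom hp.hom
  rw [gE_harm_pos hl hp] at h1
  exact (mul_eq_zero.mp h1.symm).resolve_left (kap_ne_zero l)

/-- sphere moments against a harmonic polynomial -/
noncomputable def Tk (k : ℕ) (p : MvPolynomial (Fin d) ℝ) (y : EE) : ℝ :=
  ∫ w : Sph d, (inner ℝ y (w : EE)) ^ k * pfun p w ∂(sg d)

lemma Ly_pow_hom (y : EE) (k : ℕ) : (Ly y ^ k).IsHomogeneous k := by
  have h1 : (Ly y).IsHomogeneous 1 := by
    unfold Ly
    refine MvPolynomial.IsHomogeneous.sum _ _ _ fun i _ => ?_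
    rw [MvPolynomial.smul_eq_C_mul]
    simpa using (MvPolynomial.isHomogeneous_C (Fin d) (y i)).mul (isHomogeneous_X ℝ i)
  simpa using h1.pow k

theorem Tk_harm [NeZero d] (k l : ℕ) : ∃ c : ℝ, ∀ p : MvPolynomial (Fin d) ℝ, Sph.Harm l p →
    ∀ y : EE, ‖y‖ = 1 → Tk k p y = c * pfun p y := by
  obtain ⟨c, hc⟩ := gE_pow_harm (d := d) k l
  refine ⟨c / kap d (k + l), fun p hp y hy => ?_⟩
  have h1 := hc p hp y hy
  rw [gE_hom ((Ly_pow_hom y k).mul hp.hom)] at h1
  have h2 : (∫ w : Sph d, pfun (Ly y ^ k * p) w ∂(sg d)) = Tk k p y := by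
    unfold Tk
    refine integral_congr_ae (Filter.Eventually.of_forall fun w => ?_)
    simp only
    rw [pfun_mul]
    congr 1
    have : pfun (Ly y ^ k) (w : EE) = (pfun (Ly y) (w : EE)) ^ k := by simp [pfun]
    rw [this, pfun_Ly]
  rw [h2] at h1
  have h3 := kap_ne_zero (d := d) (k + l)
  field_simp
  linarith

/-- `g(ρ, y) = ∫_S e^{iρ⟨y,w⟩} p(w) dσ(w)` -/
noncomputable def gS (p : MvPolynomial (Fin d) ℝ) (rr : ℝ) (y : EE) : ℂ :=
  ∫ w : Sph d, Complex.exp (Complex.I * ((rr * inner ℝ y (w : EE) : ℝ) : ℂ)) *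
    ((pfun p w : ℝ) : ℂ) ∂(sg d)

lemma hasSum_gS (p : MvPolynomial (Fin d) ℝ) (rr : ℝ) {y : EE} (hy : ‖y‖ = 1) :
    HasSum (fun k : ℕ => ((Complex.I * rr) ^ k / (k.factorial : ℂ)) * ((Tk k p y : ℝ) : ℂ))
      (gS p rr y) := by
  have hcw : Continuous fun w : Sph d => inner ℝ y (w : EE) := by fun_prop
  have hcp : Continuous fun w : Sph d => pfun p (w : EE) :=
    (continuous_pfun p).comp continuous_subtype_val
  let F : ℕ → Sph d → ℂ := fun k w =>
    ((Complex.I * rr) ^ k / (k.factorial : ℂ)) *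
      (((inner ℝ y (w : EE)) ^ k * pfun p w : ℝ) : ℂ)
  have hFc : ∀ k, Continuous (F k) := fun k =>
    continuous_const.mul (Complex.continuous_ofReal.comp ((hcw.pow k).mul hcp))
  have hFint : ∀ k, Integrable (F k) (sg d) := fun k =>
    (hFc k).integrable_of_hasCompactSupport (HasCompactSupport.of_compactSpace _)
  obtain ⟨M, hM0, hM⟩ : ∃ M : ℝ, 0 ≤ M ∧ ∀ w : Sph d, |pfun p (w : EE)| ≤ M := by
    obtain ⟨M, hM⟩ := (isCompact_range hcp.abs).bddAbove
    exact ⟨max M 0, le_max_right _ _, fun w => (hM ⟨w, rfl⟩).trans (le_max_left _ _)⟩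
  have hle : ∀ w : Sph d, |inner ℝ y (w : EE)| ≤ 1 := by
    intro w
    have := abs_real_inner_le_norm y (w : EE)
    have h1 : ‖(w : EE)‖ = 1 := by simp
    rwa [hy, h1, mul_one] at this
  have hFb : ∀ k w, ‖F k w‖ ≤ (|rr| ^ k / k.factorial) * M := by
    intro k w
    simp only [F]
    rw [norm_mul, norm_div, norm_pow, norm_mul, Complex.norm_I, one_mul, Complex.norm_real,
      Complex.norm_natCast, Complex.norm_real, Real.norm_eq_abs, Real.norm_eq_abs, abs_mul, abs_pow]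
    refine mul_le_mul_of_nonneg_left ?_ (by positivity)
    calc |inner ℝ y (w : EE)| ^ k * |pfun p (w : EE)| ≤ 1 * M :=
          mul_le_mul (pow_le_one₀ (abs_nonneg _) (hle w)) (hM w) (abs_nonneg _) zero_le_one
      _ = M := one_mul M
  have hsum : Summable fun k => ∫ w, ‖F k w‖ ∂(sg d) := by
    refine Summable.of_nonneg_of_le (fun k => integral_nonneg fun w => norm_nonneg _) (fun k => ?_)
      (((Real.summable_pow_div_factorial |rr|).mul_right M).mul_right ((sg d).real Set.univ))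
    calc ∫ w, ‖F k w‖ ∂(sg d) ≤ ∫ _w, (|rr| ^ k / k.factorial) * M ∂(sg d) :=
          integral_mono (hFint k).norm (integrable_const _) (fun w => hFb k w)
      _ = (|rr| ^ k / k.factorial) * M * (sg d).real Set.univ := by
        rw [integral_const, smul_eq_mul]; ring
  have h1 := hasSum_integral_of_summable_integral_norm hFint hsum
  have h2 : ∀ k, ∫ w, F k w ∂(sg d) =
      ((Complex.I * rr) ^ k / (k.factorial : ℂ)) * ((Tk k p y : ℝ) : ℂ) := by
    intro k
    simp only [F]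
    rw [integral_const_mul, integral_complex_ofReal]
    rfl
  have h3 : ∀ w : Sph d, ∑' k, F k w =
      Complex.exp (Complex.I * ((rr * inner ℝ y (w : EE) : ℝ) : ℂ)) * ((pfun p w : ℝ) : ℂ) := by
    intro w
    have h4 := (NormedSpace.expSeries_div_hasSum_exp (𝔸 := ℂ)
      (Complex.I * ((rr * inner ℝ y (w : EE) : ℝ) : ℂ))).mul_right ((pfun p w : ℝ) : ℂ)
    rw [← Complex.exp_eq_exp_ℂ] at h4
    rw [← h4.tsum_eq]
    refine tsum_congr fun k => ?_
    simp only [F]
    push_cast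
    ring
  simp only [h2, h3] at h1
  exact h1

/-- FUNK–HECKE relation. -/
theorem gS_rel [NeZero d] {l : ℕ} {p : MvPolynomial (Fin d) ℝ} (hp : Sph.Harm l p) (rr : ℝ)
    {y y' : EE} (hy : ‖y‖ = 1) (hy' : ‖y'‖ = 1) :
    gS p rr y * ((pfun p y' : ℝ) : ℂ) = gS p rr y' * ((pfun p y : ℝ) : ℂ) := by
  have h1 := (hasSum_gS p rr hy).mul_right ((pfun p y' : ℝ) : ℂ)
  have h2 := (hasSum_gS p rr hy').mul_right ((pfun p y : ℝ) : ℂ)
  have h3 : (fun k : ℕ => ((Complex.I * rr) ^ k / (k.factorial : ℂ)) * ((Tk k p y : ℝ) : ℂ) *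
      ((pfun p y' : ℝ) : ℂ)) = fun k : ℕ => ((Complex.I * rr) ^ k / (k.factorial : ℂ)) *
      ((Tk k p y' : ℝ) : ℂ) * ((pfun p y : ℝ) : ℂ) := by
    funext k
    obtain ⟨c, hc⟩ := Tk_harm (d := d) k l
    rw [hc p hp y hy, hc p hp y' hy']
    push_cast
    ring
  rw [h3] at h1
  exact h1.unique h2

end Crest.Agent.R086.SH
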