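import Crest.Agent.R086.SHF2
import Crest.Agent.R086.SH1b

/-!
Row 86, spherical harmonics (helper545): Funk–Hecke part 3:
`Rep N a f → Rep N (modeFn H (comp H a)) (modeFn H (comp H f))`.
-/

set_option autoImplicit false

open MeasureTheory Complex

namespace Crest.Agent.R086

open SH

/-- the polar map in dimension 12 -/
noncomputable abbrev pl (p : S11 × Set.Ioi (0 : ℝ)) : R12 := SH.pol p

noncomputable abbrev nu12 : Measure (Set.Ioi (0 : ℝ)) := SH.nuI 12

lemma modeFn_pl (H : R12 → ℝ) (F : ℝ → ℂ) (p : S11 × Set.Ioi (0 : ℝ)) :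
    modeFn H F (pl p) = ((H p.1 : ℝ) : ℂ) * F p.2 := by
  unfold modeFn
  rw [inv_smul_pol, norm_pol]

/-- plane wave coefficient -/
noncomputable def gH (H : R12 → ℝ) (rr : ℝ) (y : R12) : ℂ :=
  ∫ w : S11, exp (I * ((rr * inner ℝ y (w : R12) : ℝ) : ℂ)) * ((H w : ℝ) : ℂ) ∂sig

lemma gH_rel {l : ℕ} {H : R12 → ℝ} (hH : SHarm l H) (rr : ℝ) {y y' : R12} (hy : ‖y‖ = 1)
    (hy' : ‖y'‖ = 1) :
    gH H rr y * ((H y' : ℝ) : ℂ) = gH H rr y' * ((H y : ℝ) : ℂ) := by
  obtain ⟨p, hp, rfl⟩ := hH.exists_harm
  exact gS_rel hp rr hy hy'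

/-- FUNK–HECKE for the class `X_N`, with explicit density. -/
theorem rep_modeFn {N l : ℕ} {H : R12 → ℝ} (hH : SHarm l H) {a f : R12 → ℂ} (h : Rep N a f) :
    Rep N (modeFn H (comp H a)) (modeFn H (comp H f)) := by
  obtain ⟨hint, hf⟩ := h
  obtain ⟨M, hM0, hM⟩ := hH.bdd
  have hHc : Continuous fun w : S11 => ((H w : ℝ) : ℂ) :=
    Complex.continuous_ofReal.comp (hH.continuous.comp continuous_subtype_val)
  -- weights
  have hw1 : ∀ ξ : R12, (1 : ℝ) ≤ (1 + ‖ξ‖) ^ N := fun ξ => one_le_pow₀ (by linarith [norm_nonneg ξ])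
  have hwc : Continuous fun ξ : R12 => (((1 + ‖ξ‖) ^ N : ℝ) : ℂ) := by fun_prop
  -- a is integrable
  have ham : AEStronglyMeasurable a (volume : Measure R12) := by
    have h1 : a = fun ξ => (((1 + ‖ξ‖) ^ N : ℝ) : ℂ)⁻¹ * ((((1 + ‖ξ‖) ^ N : ℝ) : ℂ) * a ξ) := by
      funext ξ
      have : (((1 + ‖ξ‖) ^ N : ℝ) : ℂ) ≠ 0 := by
        exact_mod_cast (lt_of_lt_of_le one_pos (hw1 ξ)).ne'
      rw [← mul_assoc, inv_mul_cancel₀ this, one_mul]
    rw [h1]
    refine AEStronglyMeasurable.mul ?_ hint.aestronglyMeasurable
    refine (Continuous.inv₀ hwc fun ξ => ?_).aestronglyMeasurable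
    exact_mod_cast (lt_of_lt_of_le one_pos (hw1 ξ)).ne'
  have hai : Integrable a (volume : Measure R12) := by
    refine hint.mono ham (Filter.Eventually.of_forall fun ξ => ?_)
    rw [norm_mul, Complex.norm_real, Real.norm_eq_abs,
      abs_of_nonneg (zero_le_one.trans (hw1 ξ))]
    exact le_mul_of_one_le_left (norm_nonneg _) (hw1 ξ)
  -- pull back to polar coordinates
  have hint' : Integrable (fun p : S11 × Set.Ioi (0 : ℝ) =>
      (((1 + (p.2 : ℝ)) ^ N : ℝ) : ℂ) * a (pl p)) (sig.prod nu12) := by
    have h1 := (measurePreserving_pol (d := 12)).integrable_comp_emb measurableEmbedding_pol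
      (g := fun ξ => (((1 + ‖ξ‖) ^ N : ℝ) : ℂ) * a ξ)
    have h2 := h1.mpr hint
    refine h2.congr (Filter.Eventually.of_forall fun p => ?_)
    simp only [Function.comp, norm_pol]
  have hai' : Integrable (fun p : S11 × Set.Ioi (0 : ℝ) => a (pl p)) (sig.prod nu12) :=
    ((measurePreserving_pol (d := 12)).integrable_comp_emb measurableEmbedding_pol).mpr hai
  -- K
  set K : ℝ → ℂ := comp H a with hK
  have hKint : Integrable (fun s : Set.Ioi (0 : ℝ) => (((1 + (s : ℝ)) ^ N : ℝ) : ℂ) * K s) nu12 := by
    have h1 : Integrable (fun p : S11 × Set.Ioi (0 : ℝ) =>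
        ((H p.1 : ℝ) : ℂ) * ((((1 + (p.2 : ℝ)) ^ N : ℝ) : ℂ) * a (pl p))) (sig.prod nu12) := by
      refine hint'.bdd_mul (c := M) (hHc.comp continuous_fst).aestronglyMeasurable
        (Filter.Eventually.of_forall fun p => ?_)
      rw [Complex.norm_real, Real.norm_eq_abs]
      exact hM p.1
    have h2 := h1.integral_prod_right
    refine h2.congr (Filter.Eventually.of_forall fun s => ?_)
    simp only
    rw [hK]
    unfold comp
    rw [← integral_const_mul]
    refine integral_congr_ae (Filter.Eventually.of_forall fun w => ?_)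
    simp only [SH.pol]
    ring
  have hKi : Integrable (fun s : Set.Ioi (0 : ℝ) => K s) nu12 := by
    have h1 : Integrable (fun p : S11 × Set.Ioi (0 : ℝ) => ((H p.1 : ℝ) : ℂ) * a (pl p))
        (sig.prod nu12) := by
      refine hai'.bdd_mul (c := M) (hHc.comp continuous_fst).aestronglyMeasurable
        (Filter.Eventually.of_forall fun p => ?_)
      rw [Complex.norm_real, Real.norm_eq_abs]
      exact hM p.1
    exact h1.integral_prod_right
  have hHi : Integrable (fun w : S11 => ((H w : ℝ) : ℂ)) sig := integrable_sph hHc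
  constructor
  · -- integrability of the new density
    have h1 : Integrable (fun p : S11 × Set.Ioi (0 : ℝ) =>
        ((H p.1 : ℝ) : ℂ) * ((((1 + (p.2 : ℝ)) ^ N : ℝ) : ℂ) * K p.2)) (sig.prod nu12) :=
      hHi.mul_prod hKint
    have h2 := (measurePreserving_pol (d := 12)).integrable_comp_emb measurableEmbedding_pol
      (g := fun ξ => (((1 + ‖ξ‖) ^ N : ℝ) : ℂ) * modeFn H K ξ)
    refine h2.mp (h1.congr (Filter.Eventually.of_forall fun p => ?_))
    simp only [Function.comp]
    rw [modeFn_pl, norm_pol]
    ring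
  · -- the formula
    have key : ∀ (ρ : ℝ) (θ : R12), ‖θ‖ = 1 →
        ∫ ξ : R12, exp (I * ((inner ℝ ξ (ρ • θ) : ℝ) : ℂ)) * modeFn H K ξ =
          ((H θ : ℝ) : ℂ) * comp H f ρ := by
      intro ρ θ hθ
      -- left side
      have e1 : ∫ ξ : R12, exp (I * ((inner ℝ ξ (ρ • θ) : ℝ) : ℂ)) * modeFn H K ξ =
          ∫ s : Set.Ioi (0 : ℝ), gH H (ρ * s) θ * K s ∂nu12 := by
        rw [← (measurePreserving_pol (d := 12)).integral_comp measurableEmbedding_pol]
        have hF : Integrable (fun p : S11 × Set.Ioi (0 : ℝ) =>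
            exp (I * ((inner ℝ (pl p) (ρ • θ) : ℝ) : ℂ)) * modeFn H K (pl p)) (sig.prod nu12) := by
          have h1 : Integrable (fun p : S11 × Set.Ioi (0 : ℝ) => ((H p.1 : ℝ) : ℂ) * K p.2)
              (sig.prod nu12) := hHi.mul_prod hKi
          refine (h1.bdd_mul (c := 1) (f := fun p : S11 × Set.Ioi (0 : ℝ) =>
            exp (I * ((inner ℝ (pl p) (ρ • θ) : ℝ) : ℂ))) ?_ ?_).congr ?_
          · refine Continuous.aestronglyMeasurable ?_
            have := continuous_pol (d := 12)
            fun_prop
          · refine Filter.Eventually.of_forall fun p => ?_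
            rw [mul_comm I, Complex.norm_exp_ofReal_mul_I]
          · refine Filter.Eventually.of_forall fun p => ?_
            simp only
            rw [modeFn_pl]
        rw [integral_prod_symm _ hF]
        refine integral_congr_ae (Filter.Eventually.of_forall fun s => ?_)
        simp only
        unfold gH
        rw [← integral_mul_const]
        refine integral_congr_ae (Filter.Eventually.of_forall fun w => ?_)
        simp only
        rw [modeFn_pl]
        have : (inner ℝ (SH.pol (w, s)) (ρ • θ) : ℝ) = ρ * s * inner ℝ θ (w : R12) := by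
          unfold SH.pol
          rw [inner_smul_left, inner_smul_right, real_inner_comm]
          simp
          ring
        rw [this]
        ring
      -- double integral with a
      have e2 : ∫ s : Set.Ioi (0 : ℝ), gH H (ρ * s) θ * K s ∂nu12 =
          ∫ s : Set.Ioi (0 : ℝ), ((H θ : ℝ) : ℂ) *
            ∫ w : S11, gH H (ρ * s) w * a (pl (w, s)) ∂sig ∂nu12 := by
        refine integral_congr_ae (Filter.Eventually.of_forall fun s => ?_)
        simp only
        rw [hK]
        unfold comp
        rw [← integral_const_mul, ← integral_const_mul]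
        refine integral_congr_ae (Filter.Eventually.of_forall fun w => ?_)
        simp only
        have h1 := gH_rel hH (ρ * s) hθ (y' := (w : R12)) (by simp)
        have h2 : pl (w, s) = (s : ℝ) • (w : R12) := rfl
        rw [h2]
        linear_combination (a ((s : ℝ) • (w : R12))) * h1
      rw [e1, e2, integral_const_mul]
      congr 1
      -- Fubini on S × (S × R)
      have hG : Integrable (fun q : (S11 × Set.Ioi (0 : ℝ)) × S11 =>
          exp (I * ((inner ℝ (pl q.1) (ρ • (q.2 : R12)) : ℝ) : ℂ)) *
            (((H q.2 : ℝ) : ℂ) * a (pl q.1))) ((sig.prod nu12).prod sig) := by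
        have h1 : Integrable (fun q : (S11 × Set.Ioi (0 : ℝ)) × S11 =>
            a (pl q.1) * ((H q.2 : ℝ) : ℂ)) ((sig.prod nu12).prod sig) := hai'.mul_prod hHi
        refine (h1.bdd_mul (c := 1) (f := fun q : (S11 × Set.Ioi (0 : ℝ)) × S11 =>
          exp (I * ((inner ℝ (pl q.1) (ρ • (q.2 : R12)) : ℝ) : ℂ))) ?_ ?_).congr ?_
        · refine Continuous.aestronglyMeasurable ?_
          have := continuous_pol (d := 12)
          fun_prop
        · refine Filter.Eventually.of_forall fun p => ?_
          rw [mul_comm I, Complex.norm_exp_ofReal_mul_I]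
        · refine Filter.Eventually.of_forall fun p => ?_
          simp only
          ring
      have f1 : ∫ s : Set.Ioi (0 : ℝ), ∫ w : S11, gH H (ρ * s) w * a (pl (w, s)) ∂sig ∂nu12 =
          ∫ p : S11 × Set.Ioi (0 : ℝ), gH H (ρ * p.2) p.1 * a (pl p) ∂(sig.prod nu12) := by
        have hi : Integrable (fun p : S11 × Set.Ioi (0 : ℝ) => gH H (ρ * p.2) p.1 * a (pl p))
            (sig.prod nu12) := by
          refine hG.integral_prod_left.congr (Filter.Eventually.of_forall fun p => ?_)
          simp only
          unfold gH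
          rw [← integral_mul_const]
          refine integral_congr_ae (Filter.Eventually.of_forall fun w => ?_)
          simp only
          have : (inner ℝ (SH.pol p) (ρ • (w : R12)) : ℝ) = ρ * p.2 * inner ℝ (p.1 : R12) (w : R12) := by
            unfold SH.pol
            rw [inner_smul_left, inner_smul_right]
            simp
            ring
          rw [this]
          ring
        rw [integral_prod_symm _ hi]
      have f2 : ∫ p : S11 × Set.Ioi (0 : ℝ), gH H (ρ * p.2) p.1 * a (pl p) ∂(sig.prod nu12) =
          ∫ p : S11 × Set.Ioi (0 : ℝ), ∫ w : S11,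
            exp (I * ((inner ℝ (pl p) (ρ • (w : R12)) : ℝ) : ℂ)) *
            (((H w : ℝ) : ℂ) * a (pl p)) ∂sig ∂(sig.prod nu12) := by
        refine integral_congr_ae (Filter.Eventually.of_forall fun p => ?_)
        simp only
        unfold gH
        rw [← integral_mul_const]
        refine integral_congr_ae (Filter.Eventually.of_forall fun w => ?_)
        simp only
        have : (inner ℝ (SH.pol p) (ρ • (w : R12)) : ℝ) = ρ * p.2 * inner ℝ (p.1 : R12) (w : R12) := by
          unfold SH.pol
          rw [inner_smul_left, inner_smul_right]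
          simp
          ring
        rw [this]
        ring
      rw [f1, f2, ← integral_prod _ hG, integral_prod_symm _ hG]
      unfold comp
      refine integral_congr_ae (Filter.Eventually.of_forall fun w => ?_)
      simp only
      rw [hf, ← integral_const_mul,
        ← (measurePreserving_pol (d := 12)).integral_comp measurableEmbedding_pol]
      refine integral_congr_ae (Filter.Eventually.of_forall fun p => ?_)
      simp only
      ring
    intro y
    by_cases hy : y = 0
    · subst hy
      have h1 := key 0 (ei 0) (by simp)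
      rw [zero_smul] at h1
      rw [h1]
      unfold modeFn
      rw [norm_zero, smul_zero]
      by_cases hl : l = 0
      · subst hl
        rw [hH.eq_const (ei 0)]
      · -- both sides vanish
        have h2 : comp H f 0 = 0 := by
          unfold comp
          simp only [zero_smul]
          rw [integral_mul_const]
          obtain ⟨p, hp, rfl⟩ := hH.exists_harm
          have h3 := integral_harm_pos (Nat.pos_of_ne_zero hl) hp
          rw [integral_complex_ofReal, h3]
          simp
        rw [h2, mul_zero, mul_zero]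
    · have hn : 0 < ‖y‖ := norm_pos_iff.mpr hy
      have h1 := key ‖y‖ (‖y‖⁻¹ • y) (by
        rw [norm_smul, norm_inv, norm_norm, inv_mul_cancel₀ hn.ne'])
      rw [smul_smul, mul_inv_cancel₀ hn.ne', one_smul] at h1
      rw [h1]
      rfl

theorem inX_modeFn {N l : ℕ} {H : R12 → ℝ} (hH : SHarm l H) {f : R12 → ℂ} (h : InX N f) :
    InX N (modeFn H (comp H f)) := by
  obtain ⟨a, ha⟩ := h
  exact ⟨_, rep_modeFn hH ha⟩

end Crest.Agent.R086
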