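import Crest.Agent.R086.DSpec
import Crest.Agent.R086.ResSyn
import Crest.Agent.R086.CRegDefs

/-! Row 86 (helper718): RES + SMO, file 1: dilations, Fubini, Duhamel identity for the resolvent
equation in the Wiener algebra. -/

set_option autoImplicit false

open MeasureTheory Complex Set Filter
open scoped ContDiff Topology

namespace Crest.Agent.R086.SMO

open Crest.Agent.R086

section scale

lemma exp_half_pow (r : ℝ) : (Real.exp (r / 2)) ^ 12 = Real.exp (6 * r) := by
  rw [← Real.exp_nat_mul]; congr 1; push_cast; ring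

lemma int_scale {E : Type*} [NormedAddCommGroup E] [NormedSpace ℝ E] (F : R12 → E) (r : ℝ) :
    ∫ ξ : R12, F (Real.exp (r / 2) • ξ) = Real.exp (-(6 * r)) • ∫ ξ : R12, F ξ := by
  rw [Measure.integral_comp_smul]
  congr 1
  rw [finrank_euclideanSpace_fin, exp_half_pow, ← Real.exp_neg, abs_of_pos (Real.exp_pos _)]

lemma integrable_scale {E : Type*} [NormedAddCommGroup E] [NormedSpace ℝ E] {F : R12 → E}
    (hF : Integrable F) (r : ℝ) : Integrable fun ξ : R12 => F (Real.exp (r / 2) • ξ) :=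
  hF.comp_smul (Real.exp_pos _).ne'

lemma meas_scale {E : Type*} [NormedAddCommGroup E] {F : R12 → E}
    (hF : StronglyMeasurable F) :
    StronglyMeasurable fun p : ℝ × R12 => F (Real.exp (p.1 / 2) • p.2) :=
  hF.comp_measurable (by fun_prop)

variable {s : ℝ}

lemma integrable_L {E : Type*} [NormedAddCommGroup E] [NormedSpace ℝ E] {k : R12 → E}
    (hm : StronglyMeasurable k) (hk : Integrable k) (al : ℝ) :
    Integrable (fun p : ℝ × R12 => Real.exp (al * p.1) • k (Real.exp (p.1 / 2) • p.2))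
      ((volume.restrict (Ioc 0 s)).prod (volume : Measure R12)) := by
  rw [integrable_prod_iff]
  · refine ⟨Eventually.of_forall fun r => (integrable_scale hk r).smul (Real.exp (al * r)), ?_⟩
    have h1 : (fun r : ℝ => ∫ ξ : R12, ‖Real.exp (al * r) • k (Real.exp (r / 2) • ξ)‖)
        = fun r : ℝ => Real.exp (al * r) * (Real.exp (-(6 * r)) * ∫ ξ : R12, ‖k ξ‖) := by
      funext r
      simp only [norm_smul, Real.norm_of_nonneg (Real.exp_pos _).le]
      rw [integral_const_mul, int_scale (fun ξ => ‖k ξ‖) r, smul_eq_mul]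
    rw [h1]
    exact (Continuous.integrableOn_Icc (by fun_prop)).mono_set Ioc_subset_Icc_self
  · refine StronglyMeasurable.aestronglyMeasurable ?_
    exact StronglyMeasurable.smul (f := fun p : ℝ × R12 => Real.exp (al * p.1))
      (Measurable.stronglyMeasurable (by fun_prop)) (meas_scale hm)

lemma integrable_psi {g : R12 → ℂ} (hm : StronglyMeasurable g) (hg : Integrable g) (al : ℝ)
    {psi : ℝ × R12 → ℂ} (hp : Continuous psi)
    (hb : ∀ p : ℝ × R12, 0 ≤ p.1 → ‖psi p‖ ≤ Real.exp (al * p.1)) :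
    Integrable (fun p : ℝ × R12 => psi p * g (Real.exp (p.1 / 2) • p.2))
      ((volume.restrict (Ioc 0 s)).prod (volume : Measure R12)) := by
  refine (integrable_L (s := s) hm hg al).mono
    (hp.aestronglyMeasurable.mul (meas_scale hm).aestronglyMeasurable) ?_
  have h0 : ∀ᵐ p : ℝ × R12 ∂((volume.restrict (Ioc 0 s)).prod (volume : Measure R12)),
      0 ≤ p.1 := by
    have : ∀ᵐ r : ℝ ∂(volume.restrict (Ioc 0 s)), 0 ≤ r := by
      filter_upwards [ae_restrict_mem measurableSet_Ioc] with r hr using hr.1.le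
    exact (Measure.quasiMeasurePreserving_fst).ae this
  filter_upwards [h0] with p hp0
  rw [norm_mul, norm_smul, Real.norm_of_nonneg (Real.exp_pos _).le]
  exact mul_le_mul_of_nonneg_right (hb p hp0) (norm_nonneg _)

lemma L_integrable {k : R12 → ℝ}
    (hm : StronglyMeasurable k) (hk : Integrable k) (al : ℝ) :
    Integrable (fun ξ : R12 => ∫ r in Ioc 0 s, Real.exp (al * r) * k (Real.exp (r / 2) • ξ)) :=
  (integrable_L (s := s) hm hk al).integral_prod_right

lemma L_integral {k : R12 → ℝ}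
    (hm : StronglyMeasurable k) (hk : Integrable k) (al : ℝ) :
    ∫ ξ : R12, ∫ r in Ioc 0 s, Real.exp (al * r) * k (Real.exp (r / 2) • ξ)
      = (∫ r in Ioc 0 s, Real.exp ((al - 6) * r)) * ∫ ξ : R12, k ξ := by
  have h := integral_integral_swap (f := fun (r : ℝ) (ξ : R12) =>
    Real.exp (al * r) • k (Real.exp (r / 2) • ξ)) (integrable_L (s := s) hm hk al)
  simp only [smul_eq_mul] at h
  rw [← h, ← integral_mul_const]
  refine integral_congr_ae (Eventually.of_forall fun r => ?_)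
  simp only
  rw [integral_const_mul, int_scale k r, smul_eq_mul, ← mul_assoc, ← Real.exp_add]
  congr 2; ring

/-- Fubini against a bounded continuous `φ` plus scaling. -/
lemma fub {g : R12 → ℂ} (hm : StronglyMeasurable g) (hg : Integrable g) (al : ℝ)
    {psi : ℝ × R12 → ℂ} (hp : Continuous psi)
    (hb : ∀ p : ℝ × R12, 0 ≤ p.1 → ‖psi p‖ ≤ Real.exp (al * p.1))
    {ph : R12 → ℂ} (hc : Continuous ph) (hph : ∀ ξ, ‖ph ξ‖ ≤ 1) :
    ∫ ξ : R12, ph ξ * ∫ r in Ioc 0 s, psi (r, ξ) * g (Real.exp (r / 2) • ξ)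
      = ∫ r in Ioc 0 s, ∫ ξ : R12, ph ξ * (psi (r, ξ) * g (Real.exp (r / 2) • ξ)) := by
  have h1 : Integrable (fun p : ℝ × R12 => ph p.2 * (psi p * g (Real.exp (p.1 / 2) • p.2)))
      ((volume.restrict (Ioc 0 s)).prod (volume : Measure R12)) := by
    refine (integrable_psi (s := s) hm hg al hp hb).mono
      ((hc.comp continuous_snd).aestronglyMeasurable.mul
        (hp.aestronglyMeasurable.mul (meas_scale hm).aestronglyMeasurable))
      (Eventually.of_forall fun p => ?_)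
    rw [norm_mul]
    exact mul_le_of_le_one_left (norm_nonneg _) (hph _)
  have h := integral_integral_swap (f := fun (r : ℝ) (ξ : R12) =>
    ph ξ * (psi (r, ξ) * g (Real.exp (r / 2) • ξ))) h1
  rw [h]
  refine integral_congr_ae (Eventually.of_forall fun ξ => ?_)
  simp only
  rw [integral_const_mul]

/-- scaling in the other direction -/
lemma scale_back (F g : R12 → ℂ) (r : ℝ) :
    ∫ ξ : R12, F ξ * ((Real.exp (6 * r) : ℝ) * g (Real.exp (r / 2) • ξ))
      = ∫ ξ : R12, F (Real.exp (-(r / 2)) • ξ) * g ξ := by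
  have h := int_scale (fun ξ : R12 => F (Real.exp (-(r / 2)) • ξ) * g ξ) r
  have h1 : ∀ ξ : R12, Real.exp (-(r / 2)) • Real.exp (r / 2) • ξ = ξ := by
    intro ξ
    rw [smul_smul, ← Real.exp_add]; simp
  simp only [h1] at h
  have h2 : ∫ ξ : R12, F ξ * ((Real.exp (6 * r) : ℝ) * g (Real.exp (r / 2) • ξ))
      = (Real.exp (6 * r) : ℝ) * ∫ ξ : R12, F ξ * g (Real.exp (r / 2) • ξ) := by
    rw [← integral_const_mul]
    refine integral_congr_ae (Eventually.of_forall fun ξ => ?_)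
    simp only; ring
  rw [h2, h, real_smul, ← mul_assoc, ← ofReal_mul, ← Real.exp_add]
  simp

end scale

section weak

lemma int3 {u v w : R12 → ℂ} (hu : Integrable u) (hv : Integrable v) (hw : Integrable w) (c d : ℂ) :
    ∫ ξ : R12, (c * u ξ + d * v ξ + w ξ) = c * (∫ ξ, u ξ) + d * (∫ ξ, v ξ) + ∫ ξ, w ξ := by
  have h1 : ∫ ξ : R12, (c * u ξ + d * v ξ + w ξ) = (∫ ξ : R12, (c * u ξ + d * v ξ)) + ∫ ξ, w ξ :=
    integral_add ((hu.const_mul c).add (hv.const_mul d)) hw
  have h2 : ∫ ξ : R12, (c * u ξ + d * v ξ) = (∫ ξ : R12, c * u ξ) + ∫ ξ, d * v ξ :=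
    integral_add (hu.const_mul c) (hv.const_mul d)
  rw [h1, h2, integral_const_mul, integral_const_mul]

variable {sg : ℝ} {mu : ℂ} {a h : R12 → ℂ}

/-- right-hand density -/
noncomputable def gg (sg : ℝ) (mu : ℂ) (a h : R12 → ℂ) (ξ : R12) : ℂ :=
  (-((sg : ℂ) * I * ((‖ξ‖ ^ 2 : ℝ) : ℂ)) - mu) * a ξ + h ξ

/-- the equation -/
def Eqn (sg : ℝ) (mu : ℂ) (a h : R12 → ℂ) : Prop :=
  ∀ y, (sg : ℂ) * I * lap (ft a) y - (1 / 2) * eul (ft a) y - mu * ft a y = -(ft h y)

/-- moments -/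
structure Mom (a : R12 → ℂ) : Prop where
  m0 : Integrable a
  m1 : Integrable fun ξ => ‖ξ‖ * ‖a ξ‖
  m2 : Integrable fun ξ => ‖ξ‖ ^ 2 * ‖a ξ‖

lemma Mom.sq (ha : Mom a) : Integrable fun ξ : R12 => ((‖ξ‖ ^ 2 : ℝ) : ℂ) * a ξ := by
  refine ha.m2.mono' ((Continuous.aestronglyMeasurable (by fun_prop)).mul ha.m0.1)
    (Eventually.of_forall fun ξ => ?_)
  rw [norm_mul, norm_real, Real.norm_of_nonneg (by positivity)]

lemma integrable_gg (ha : Mom a) (hh : Integrable h) : Integrable (gg sg mu a h) := by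
  have h1 := ((ha.sq.const_mul (-((sg : ℂ) * I))).sub (ha.m0.const_mul mu)).add hh
  refine h1.congr (Eventually.of_forall fun ξ => ?_)
  simp only [gg, Pi.add_apply, Pi.sub_apply]
  ring

lemma integrable_ch {b : R12 → ℂ} (hb : Integrable b) (y : R12) :
    Integrable fun ξ => Res.ch ξ y * b ξ := by
  simpa only [smul_eq_mul] using Res.integrable_ch_smul hb y

lemma ft_ch (b : R12 → ℂ) (y : R12) : ft b y = ∫ ξ, Res.ch ξ y * b ξ := rfl

lemma half_eul (ha : Mom a) (hh : Integrable h) (heq : Eqn sg mu a h) (y : R12) :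
    (1 / 2) * eul (ft a) y = ft (gg sg mu a h) y := by
  have h1 := heq y
  rw [Res.lap_ft ha.m0 ha.m1 ha.m2, ft_ch a, ft_ch h] at h1
  rw [ft_ch (gg sg mu a h)]
  have e1 : ∫ ξ, Res.ch ξ y * (-((‖ξ‖ ^ 2 : ℝ) : ℂ) * a ξ)
      = -∫ ξ, Res.ch ξ y * (((‖ξ‖ ^ 2 : ℝ) : ℂ) * a ξ) := by
    rw [← integral_neg]
    refine integral_congr_ae (Eventually.of_forall fun ξ => ?_)
    simp only; ring
  have e2 : ∫ ξ, Res.ch ξ y * gg sg mu a h ξ
      = -((sg : ℂ) * I) * (∫ ξ, Res.ch ξ y * (((‖ξ‖ ^ 2 : ℝ) : ℂ) * a ξ))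
        - mu * (∫ ξ, Res.ch ξ y * a ξ) + ∫ ξ, Res.ch ξ y * h ξ := by
    have e3 := int3 (integrable_ch ha.sq y) (integrable_ch ha.m0 y) (integrable_ch hh y)
      (-((sg : ℂ) * I)) (-mu)
    refine (Eq.trans ?_ e3).trans (by ring)
    refine integral_congr_ae (Eventually.of_forall fun ξ => ?_)
    simp only [gg]; ring
  rw [e2]
  rw [e1] at h1
  linear_combination -h1

lemma hasDerivAt_dil (y : R12) (s : ℝ) :
    HasDerivAt (fun s : ℝ => Real.exp (-(s / 2)) • y)
      ((-(1 / 2) : ℝ) • (Real.exp (-(s / 2)) • y)) s := by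
  have h1 : HasDerivAt (fun s : ℝ => Real.exp (-(s / 2))) (-(1 / 2) * Real.exp (-(s / 2))) s := by
    have h := (((hasDerivAt_id s).div_const 2).neg).exp
    refine h.congr_deriv ?_
    simp; ring
  have h2 := h1.smul_const y
  rwa [mul_smul] at h2

lemma hasDerivAt_ft_dil (ha : Mom a) (hh : Integrable h) (heq : Eqn sg mu a h) (y : R12) (s : ℝ) :
    HasDerivAt (fun s : ℝ => ft a (Real.exp (-(s / 2)) • y))
      (-(ft (gg sg mu a h) (Real.exp (-(s / 2)) • y))) s := by
  have h1 := (Res.hasFDerivAt_ft ha.m0 ha.m1 (Real.exp (-(s / 2)) • y)).comp_hasDerivAt s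
    (hasDerivAt_dil y s)
  refine h1.congr_deriv ?_
  rw [← half_eul ha hh heq, ← (Res.hasFDerivAt_ft ha.m0 ha.m1 _).fderiv, map_smul]
  unfold eul
  simp only [real_smul]
  push_cast
  ring

lemma continuous_ft {b : R12 → ℂ} (hb : Integrable b) : Continuous (ft b) := by
  unfold ft
  refine continuous_of_dominated (bound := fun ξ => ‖b ξ‖) (fun y => ?_) (fun y => ?_) hb.norm
    (Eventually.of_forall fun ξ => ?_)
  · exact (integrable_ch hb y).1
  · refine Eventually.of_forall fun ξ => ?_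
    have : ‖Res.ch ξ y * b ξ‖ ≤ ‖b ξ‖ := by rw [norm_mul, Res.norm_ch, one_mul]
    exact this
  · fun_prop

lemma ftc (ha : Mom a) (hh : Integrable h) (heq : Eqn sg mu a h) (y : R12) {s : ℝ} (hs : 0 ≤ s) :
    ft a (Real.exp (-(s / 2)) • y) - ft a y
      = -∫ r in Ioc 0 s, ft (gg sg mu a h) (Real.exp (-(r / 2)) • y) := by
  have hg := integrable_gg (sg := sg) (mu := mu) ha hh
  have hcont : Continuous fun r : ℝ => -(ft (gg sg mu a h) (Real.exp (-(r / 2)) • y)) :=
    ((continuous_ft hg).comp (by fun_prop)).neg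
  have h1 := intervalIntegral.integral_eq_sub_of_hasDerivAt (a := 0) (b := s)
    (fun r _ => hasDerivAt_ft_dil ha hh heq y r) (hcont.intervalIntegrable 0 s)
  rw [intervalIntegral.integral_of_le hs, integral_neg] at h1
  rw [h1]
  simp

lemma ch_scale (ξ y : R12) (c : ℝ) : Res.ch (c • ξ) y = Res.ch ξ (c • y) := by
  unfold Res.ch
  rw [inner_smul_left, inner_smul_right]
  simp

lemma continuous_chl (y : R12) : Continuous fun ξ : R12 => Res.ch ξ y := Res.continuous_ch_left y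

lemma exp_norm6 (r : ℝ) : ‖((Real.exp (6 * r) : ℝ) : ℂ)‖ ≤ Real.exp (6 * r) := by
  rw [norm_real, Real.norm_of_nonneg (Real.exp_pos _).le]

/-- the integrated identity in densities -/
lemma dens_id (ham : StronglyMeasurable a) (hhm : StronglyMeasurable h)
    (ha : Mom a) (hh : Integrable h) (heq : Eqn sg mu a h) {s : ℝ} (hs : 0 ≤ s) :
    ∀ᵐ ξ : R12, ((Real.exp (6 * s) : ℝ) : ℂ) * a (Real.exp (s / 2) • ξ) - a ξ
      + ∫ r in Ioc 0 s, ((Real.exp (6 * r) : ℝ) : ℂ) * gg sg mu a h (Real.exp (r / 2) • ξ) = 0 := by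
  have hg := integrable_gg (sg := sg) (mu := mu) ha hh
  have hgm : StronglyMeasurable (gg sg mu a h) := by
    unfold gg
    exact ((Continuous.stronglyMeasurable (by fun_prop)).mul ham).add hhm
  have hpsi : Continuous fun p : ℝ × R12 => ((Real.exp (6 * p.1) : ℝ) : ℂ) := by fun_prop
  have i1 : Integrable fun ξ : R12 => ((Real.exp (6 * s) : ℝ) : ℂ) * a (Real.exp (s / 2) • ξ) :=
    (integrable_scale ha.m0 s).const_mul _
  have i3 := (integrable_psi (s := s) hgm hg 6 hpsi (fun p _ => exp_norm6 p.1)).integral_prod_right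
  refine DSpec.ft_eq_zero ((i1.sub ha.m0).add i3) fun y => ?_
  rw [ft_ch]
  have e1 : ∫ ξ : R12, Res.ch ξ y * (((Real.exp (6 * s) : ℝ) : ℂ) * a (Real.exp (s / 2) • ξ))
      = ft a (Real.exp (-(s / 2)) • y) := by
    rw [scale_back, ft_ch]
    refine integral_congr_ae (Eventually.of_forall fun ξ => ?_)
    simp only [ch_scale]
  have e3 : ∫ ξ : R12, Res.ch ξ y *
      ∫ r in Ioc 0 s, ((Real.exp (6 * r) : ℝ) : ℂ) * gg sg mu a h (Real.exp (r / 2) • ξ)
      = ∫ r in Ioc 0 s, ft (gg sg mu a h) (Real.exp (-(r / 2)) • y) := by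
    rw [fub hgm hg 6 hpsi (fun p _ => exp_norm6 p.1) (continuous_chl y)
      (fun ξ => (Res.norm_ch ξ y).le)]
    refine integral_congr_ae (Eventually.of_forall fun r => ?_)
    simp only
    rw [scale_back, ft_ch]
    refine integral_congr_ae (Eventually.of_forall fun ξ => ?_)
    simp only [ch_scale]
  have e4 : ∫ ξ : R12, Res.ch ξ y * (((Real.exp (6 * s) : ℝ) : ℂ) * a (Real.exp (s / 2) • ξ) - a ξ
      + ∫ r in Ioc 0 s, ((Real.exp (6 * r) : ℝ) : ℂ) * gg sg mu a h (Real.exp (r / 2) • ξ))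
      = (∫ ξ : R12, Res.ch ξ y * (((Real.exp (6 * s) : ℝ) : ℂ) * a (Real.exp (s / 2) • ξ)))
        - (∫ ξ : R12, Res.ch ξ y * a ξ)
        + ∫ ξ : R12, Res.ch ξ y *
      ∫ r in Ioc 0 s, ((Real.exp (6 * r) : ℝ) : ℂ) * gg sg mu a h (Real.exp (r / 2) • ξ) := by
    have e5 := int3 (integrable_ch i1 y) (integrable_ch ha.m0 y) (integrable_ch i3 y) 1 (-1)
    rw [one_mul, neg_one_mul, ← sub_eq_add_neg] at e5
    refine Eq.trans ?_ e5
    refine integral_congr_ae (Eventually.of_forall fun ξ => ?_)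
    simp only; ring
  refine e4.trans ?_
  rw [e1, e3, ← ft_ch, ftc ha hh heq y hs]
  ring

/-- integrated identity against a bounded continuous function -/
lemma test_id (ham : StronglyMeasurable a) (hhm : StronglyMeasurable h)
    (ha : Mom a) (hh : Integrable h) (heq : Eqn sg mu a h) {ph : R12 → ℂ} (hc : Continuous ph)
    (hph : ∀ ξ, ‖ph ξ‖ ≤ 1) {s : ℝ} (hs : 0 ≤ s) :
    (∫ η : R12, ph (Real.exp (-(s / 2)) • η) * a η) - (∫ η : R12, ph η * a η)
      = -∫ r in Ioc 0 s, ∫ η : R12, ph (Real.exp (-(r / 2)) • η) * gg sg mu a h η := by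
  have hg := integrable_gg (sg := sg) (mu := mu) ha hh
  have hgm : StronglyMeasurable (gg sg mu a h) := by
    unfold gg
    exact ((Continuous.stronglyMeasurable (by fun_prop)).mul ham).add hhm
  have hpsi : Continuous fun p : ℝ × R12 => ((Real.exp (6 * p.1) : ℝ) : ℂ) := by fun_prop
  have i1 : Integrable fun ξ : R12 => ((Real.exp (6 * s) : ℝ) : ℂ) * a (Real.exp (s / 2) • ξ) :=
    (integrable_scale ha.m0 s).const_mul _
  have i3 := (integrable_psi (s := s) hgm hg 6 hpsi (fun p _ => exp_norm6 p.1)).integral_prod_right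
  have ip : ∀ {b : R12 → ℂ}, Integrable b → Integrable fun ξ => ph ξ * b ξ := by
    intro b hb
    refine hb.norm.mono' (hc.aestronglyMeasurable.mul hb.1) (Eventually.of_forall fun ξ => ?_)
    rw [norm_mul]
    exact mul_le_of_le_one_left (norm_nonneg _) (hph _)
  have e3 := fub (s := s) hgm hg 6 hpsi (fun p _ => exp_norm6 p.1) hc hph
  have e3' : ∫ ξ : R12, ph ξ *
      ∫ r in Ioc 0 s, ((Real.exp (6 * r) : ℝ) : ℂ) * gg sg mu a h (Real.exp (r / 2) • ξ)
      = ∫ r in Ioc 0 s, ∫ η : R12, ph (Real.exp (-(r / 2)) • η) * gg sg mu a h η := by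
    rw [e3]
    refine integral_congr_ae (Eventually.of_forall fun r => ?_)
    exact scale_back ph (gg sg mu a h) r
  rw [← e3', ← scale_back ph a s, ← integral_sub (ip i1) (ip ha.m0), ← integral_neg]
  refine integral_congr_ae ?_
  filter_upwards [dens_id ham hhm ha hh heq hs] with ξ hξ
  linear_combination (ph ξ) * hξ

end weak

end Crest.Agent.R086.SMO
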