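import Crest.Agent.R086.Smo1
import Crest.Agent.R086.ResSmo

/-! Row 86 (helper718): RES + SMO, file 2: the weak identity with quadratic phases, uniqueness
`a = resDen h`, and `SmoStmt`. -/

set_option autoImplicit false

open MeasureTheory Complex Set Filter
open scoped ContDiff Topology SchwartzMap

namespace Crest.Agent.R086.SMO

open Crest.Agent.R086

section wprime

/-- plane wave with quadratic phase -/
noncomputable def EE (τ : ℝ) (z η : R12) : ℂ :=
  exp (I * ((inner ℝ η z - τ * ‖η‖ ^ 2 : ℝ) : ℂ))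

lemma norm_EE (τ : ℝ) (z η : R12) : ‖EE τ z η‖ = 1 := by
  unfold EE
  rw [mul_comm]
  exact norm_exp_ofReal_mul_I _

lemma continuous_EE (τ : ℝ) (z : R12) : Continuous (EE τ z) := by
  unfold EE; fun_prop

lemma EE_scale (τ : ℝ) (z η : R12) (c : ℝ) : EE τ z (c • η) = EE (τ * c ^ 2) (c • z) η := by
  unfold EE
  rw [inner_smul_left, inner_smul_right, norm_smul, Real.norm_eq_abs, mul_pow, sq_abs]
  congr 3
  simp
  ring

variable {sg : ℝ} {mu : ℂ} {a h : R12 → ℂ}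

lemma integrable_EE {b : R12 → ℂ} (hb : Integrable b) (τ : ℝ) (z : R12) :
    Integrable fun η => EE τ z η * b η := by
  refine hb.norm.mono' ((continuous_EE τ z).aestronglyMeasurable.mul hb.1)
    (Eventually.of_forall fun ξ => ?_)
  rw [norm_mul, norm_EE, one_mul]

lemma hasDerivAt_EEint (ha : Mom a) {x t x' t' : ℝ → ℝ} {s0 del M : ℝ} (hdel : 0 < del)
    (hx : ∀ s ∈ Metric.ball s0 del, HasDerivAt x (x' s) s)
    (ht : ∀ s ∈ Metric.ball s0 del, HasDerivAt t (t' s) s)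
    (hM : ∀ s ∈ Metric.ball s0 del, |x' s| ≤ M ∧ |t' s| ≤ M) (y : R12) :
    HasDerivAt (fun s => ∫ η, EE (t s) (x s • y) η * a η)
      (∫ η, I * ((x' s0 * inner ℝ η y - t' s0 * ‖η‖ ^ 2 : ℝ) : ℂ) * EE (t s0) (x s0 • y) η * a η)
      s0 := by
  have hM0 : 0 ≤ M := (abs_nonneg _).trans (hM s0 (Metric.mem_ball_self hdel)).1
  have h := hasDerivAt_integral_of_dominated_loc_of_deriv_le (𝕜 := ℝ)
    (μ := (volume : Measure R12)) (s := Metric.ball s0 del) (x₀ := s0)
    (F := fun (s : ℝ) (η : R12) => EE (t s) (x s • y) η * a η)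
    (F' := fun (s : ℝ) (η : R12) =>
      I * ((x' s * inner ℝ η y - t' s * ‖η‖ ^ 2 : ℝ) : ℂ) * EE (t s) (x s • y) η * a η)
    (bound := fun η => (M * ‖y‖) * (‖η‖ * ‖a η‖) + M * (‖η‖ ^ 2 * ‖a η‖))
    (Metric.ball_mem_nhds s0 hdel) ?_ ?_ ?_ ?_ ?_ ?_
  · exact h.2
  · exact Eventually.of_forall fun s => (integrable_EE ha.m0 _ _).1
  · exact integrable_EE ha.m0 _ _
  · have h1 : Continuous fun η : R12 =>
        I * ((x' s0 * inner ℝ η y - t' s0 * ‖η‖ ^ 2 : ℝ) : ℂ) * EE (t s0) (x s0 • y) η := by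
      have := continuous_EE (t s0) (x s0 • y)
      fun_prop
    exact h1.aestronglyMeasurable.mul ha.m0.1
  · refine Eventually.of_forall fun η s hs => ?_
    obtain ⟨h1, h2⟩ := hM s hs
    rw [norm_mul, norm_mul, norm_mul, norm_I, norm_EE, one_mul, mul_one, norm_real, Real.norm_eq_abs]
    have e1 : |x' s * inner ℝ η y - t' s * ‖η‖ ^ 2| ≤ M * (‖η‖ * ‖y‖) + M * ‖η‖ ^ 2 := by
      refine (abs_sub _ _).trans ?_
      rw [abs_mul, abs_mul, abs_of_nonneg (sq_nonneg ‖η‖)]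
      refine add_le_add (mul_le_mul h1 (abs_real_inner_le_norm _ _) (abs_nonneg _) hM0)
        (mul_le_mul_of_nonneg_right h2 (sq_nonneg _))
    refine (mul_le_mul_of_nonneg_right e1 (norm_nonneg _)).trans (le_of_eq (by ring))
  · exact (ha.m1.const_mul _).add (ha.m2.const_mul _)
  · refine Eventually.of_forall fun η s hs => ?_
    have h1 : HasDerivAt (fun s => (inner ℝ η (x s • y) - t s * ‖η‖ ^ 2 : ℝ))
        (x' s * inner ℝ η y - t' s * ‖η‖ ^ 2) s := by
      simp only [inner_smul_right]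
      exact ((hx s hs).mul_const _).sub ((ht s hs).mul_const _)
    have h2 := ((h1.ofReal_comp.const_mul I).cexp).mul_const (a η)
    refine h2.congr_deriv ?_
    unfold EE
    ring

/-- weak form with quadratic phases -/
lemma wprime (ham : StronglyMeasurable a) (hhm : StronglyMeasurable h)
    (ha : Mom a) (hh : Integrable h) (heq : Eqn sg mu a h) (τ : ℝ) (z : R12) :
    ∫ η, I * ((-(1 / 2) * inner ℝ η z + τ * ‖η‖ ^ 2 : ℝ) : ℂ) * EE τ z η * a η
      = -∫ η, EE τ z η * gg sg mu a h η := by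
  have hg := integrable_gg (sg := sg) (mu := mu) ha hh
  have hscale : ∀ (s : ℝ) (η : R12), EE τ z (Real.exp (-(s / 2)) • η)
      = EE (τ * Real.exp (-s)) (Real.exp (-(s / 2)) • z) η := by
    intro s η
    rw [EE_scale, ← Real.exp_nat_mul]
    congr 3
    push_cast; ring
  -- explicit derivative
  have hd1 : HasDerivAt (fun s : ℝ => ∫ η, EE (τ * Real.exp (-s)) (Real.exp (-(s / 2)) • z) η * a η)
      (∫ η, I * ((-(1 / 2) * inner ℝ η z + τ * ‖η‖ ^ 2 : ℝ) : ℂ) * EE τ z η * a η) 0 := by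
    have hx : ∀ s ∈ Metric.ball (0 : ℝ) 1, HasDerivAt (fun s : ℝ => Real.exp (-(s / 2)))
        (-(1 / 2) * Real.exp (-(s / 2))) s := by
      intro s _
      have h := (((hasDerivAt_id s).div_const 2).neg).exp
      refine h.congr_deriv ?_
      simp; ring
    have ht : ∀ s ∈ Metric.ball (0 : ℝ) 1, HasDerivAt (fun s : ℝ => τ * Real.exp (-s))
        (-(τ * Real.exp (-s))) s := by
      intro s _
      have h := (((hasDerivAt_id s).neg).exp).const_mul τ
      refine h.congr_deriv ?_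
      simp
    have hM : ∀ s ∈ Metric.ball (0 : ℝ) 1, |-(1 / 2) * Real.exp (-(s / 2))| ≤ Real.exp 1 * (1 + |τ|)
        ∧ |-(τ * Real.exp (-s))| ≤ Real.exp 1 * (1 + |τ|) := by
      intro s hs
      rw [Metric.mem_ball, dist_zero_right, Real.norm_eq_abs, abs_lt] at hs
      have e1 : Real.exp (-(s / 2)) ≤ Real.exp 1 := Real.exp_le_exp.2 (by linarith)
      have e2 : Real.exp (-s) ≤ Real.exp 1 := Real.exp_le_exp.2 (by linarith)
      have e3 := Real.exp_pos (-(s / 2))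
      have e4 := Real.exp_pos (-s)
      have e5 := Real.exp_pos 1
      have e6 := abs_nonneg τ
      constructor
      · rw [abs_mul, abs_of_pos e3]
        have : |-(1 / 2 : ℝ)| = 1 / 2 := by norm_num
        rw [this]
        nlinarith [mul_nonneg e5.le e6]
      · rw [abs_neg, abs_mul, abs_of_pos e4]
        nlinarith [mul_le_mul_of_nonneg_left e2 e6]
    have h := hasDerivAt_EEint ha one_pos hx ht hM z
    refine h.congr_deriv ?_
    simp only [neg_zero, zero_div, Real.exp_zero, mul_one, one_smul, sub_neg_eq_add, neg_mul]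
  -- second derivative
  have hVc : Continuous fun r : ℝ => ∫ η, EE (τ * Real.exp (-r)) (Real.exp (-(r / 2)) • z) η
      * gg sg mu a h η := by
    refine continuous_of_dominated (bound := fun ξ => ‖gg sg mu a h ξ‖) (fun r => ?_) (fun r => ?_)
      hg.norm (Eventually.of_forall fun ξ => ?_)
    · exact (integrable_EE hg _ _).1
    · refine Eventually.of_forall fun ξ => ?_
      rw [norm_mul, norm_EE, one_mul]
    · unfold EE; fun_prop
  have hd2 : HasDerivAt (fun s : ℝ => (∫ η, EE τ z η * a η)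
      - ∫ r in (0 : ℝ)..s, ∫ η, EE (τ * Real.exp (-r)) (Real.exp (-(r / 2)) • z) η
      * gg sg mu a h η) (-∫ η, EE τ z η * gg sg mu a h η) 0 := by
    have h := (intervalIntegral.integral_hasDerivAt_right (hVc.intervalIntegrable 0 0)
      (hVc.stronglyMeasurableAtFilter _ _) hVc.continuousAt).const_sub (∫ η, EE τ z η * a η)
    refine h.congr_deriv ?_
    simp only [neg_zero, zero_div, Real.exp_zero, mul_one, one_smul]
  have hd3 : HasDerivWithinAt
      (fun s : ℝ => ∫ η, EE (τ * Real.exp (-s)) (Real.exp (-(s / 2)) • z) η * a η)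
      (-∫ η, EE τ z η * gg sg mu a h η) (Ici 0) 0 := by
    refine hd2.hasDerivWithinAt.congr (fun s hs => ?_) ?_
    · have h := test_id ham hhm ha hh heq (continuous_EE τ z) (fun ξ => (norm_EE τ z ξ).le)
        (show (0 : ℝ) ≤ s from hs)
      simp only [hscale] at h
      rw [intervalIntegral.integral_of_le hs]
      linear_combination h
    · simp only [neg_zero, zero_div, Real.exp_zero, mul_one, one_smul,
        intervalIntegral.integral_same, sub_zero]
  exact (uniqueDiffOn_Ici (0 : ℝ) 0 (mem_Ici.2 le_rfl)).eq_deriv _ hd1.hasDerivWithinAt hd3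

end wprime

section uniq

variable {sg : ℝ} {mu : ℂ} {a h : R12 → ℂ}

/-- the function `G` -/
noncomputable def GG (sg : ℝ) (mu : ℂ) (a : R12 → ℂ) (y : R12) (t : ℝ) : ℂ :=
  (t : ℂ) ^ (-(2 * mu)) * ∫ η, EE (sg * (1 - (t ^ 2)⁻¹)) (t⁻¹ • y) η * a η

lemma hasDerivAt_GG (ham : StronglyMeasurable a) (hhm : StronglyMeasurable h)
    (ha : Mom a) (hh : Integrable h) (heq : Eqn sg mu a h) (y : R12) {t : ℝ} (ht0 : 0 < t) :
    HasDerivAt (GG sg mu a y) (-(2 * (t : ℂ) ^ (-1 - 2 * mu)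
      * ∫ η, EE (sg * (1 - (t ^ 2)⁻¹)) (t⁻¹ • y) η * h η)) t := by
  set τ := sg * (1 - (t ^ 2)⁻¹) with hτ
  have ht' : (t : ℂ) ≠ 0 := by exact_mod_cast ht0.ne'
  have hball : ∀ s ∈ Metric.ball t (t / 2), t / 2 < s := by
    intro s hs
    rw [Metric.mem_ball, Real.dist_eq, abs_lt] at hs
    linarith [hs.1]
  have hx : ∀ s ∈ Metric.ball t (t / 2), HasDerivAt (fun s : ℝ => s⁻¹) (-(s ^ 2)⁻¹) s := by
    intro s hs
    have h1 := hball s hs
    exact hasDerivAt_inv (by linarith : (0:ℝ) < s).ne'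
  have htt : ∀ s ∈ Metric.ball t (t / 2), HasDerivAt (fun s : ℝ => sg * (1 - (s ^ 2)⁻¹))
      (2 * sg * (s ^ 3)⁻¹) s := by
    intro s hs
    have h1 := hball s hs
    have hs0 : s ≠ 0 := (by linarith : (0:ℝ) < s).ne'
    have h2 := (((hasDerivAt_pow 2 s).fun_inv (pow_ne_zero 2 hs0)).const_sub 1).const_mul sg
    refine h2.congr_deriv ?_
    field_simp
    push_cast
    ring
  have hM : ∀ s ∈ Metric.ball t (t / 2), |-(s ^ 2)⁻¹| ≤ ((t / 2) ^ 2)⁻¹ + 2 * |sg| * ((t / 2) ^ 3)⁻¹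
      ∧ |2 * sg * (s ^ 3)⁻¹| ≤ ((t / 2) ^ 2)⁻¹ + 2 * |sg| * ((t / 2) ^ 3)⁻¹ := by
    intro s hs
    have h1 := hball s hs
    have h2 : 0 < t / 2 := by linarith
    have hs0 : 0 < s := by linarith
    have e2 : (s ^ 2)⁻¹ ≤ ((t / 2) ^ 2)⁻¹ :=
      inv_anti₀ (by positivity) (pow_le_pow_left₀ h2.le h1.le 2)
    have e3 : (s ^ 3)⁻¹ ≤ ((t / 2) ^ 3)⁻¹ :=
      inv_anti₀ (by positivity) (pow_le_pow_left₀ h2.le h1.le 3)
    have p2 : 0 < ((t / 2) ^ 2)⁻¹ := by positivity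
    have p3 : 0 < ((t / 2) ^ 3)⁻¹ := by positivity
    have q3 : 0 < (s ^ 3)⁻¹ := by positivity
    have q2 : 0 < (s ^ 2)⁻¹ := by positivity
    have hsg := abs_nonneg sg
    constructor
    · rw [abs_neg, abs_of_pos q2]
      have : 0 ≤ 2 * |sg| * ((t / 2) ^ 3)⁻¹ := by positivity
      linarith
    · rw [abs_mul, abs_mul, abs_of_pos q3, abs_of_pos (by norm_num : (0:ℝ) < 2)]
      have := mul_le_mul_of_nonneg_left e3 (by positivity : 0 ≤ 2 * |sg|)
      linarith
  have hd := hasDerivAt_EEint ha (by linarith : 0 < t / 2) hx htt hM y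
  have hp : HasDerivAt (fun t : ℝ => (t : ℂ) ^ (-(2 * mu)))
      (-(2 * mu) * (t : ℂ) ^ (-(2 * mu) - 1)) t := by
    have h := (hasDerivAt_id (t : ℂ)).cpow_const (c := -(2 * mu)) (by left; simpa using ht0)
    have h' := h.comp_ofReal
    simpa only [id, mul_one] using h'
  have hG := hp.mul hd
  refine hG.congr_deriv ?_
  rw [← hτ]
  -- the integrals
  have iA : Integrable fun η => EE τ (t⁻¹ • y) η * a η := integrable_EE ha.m0 _ _
  have iS : Integrable fun η => EE τ (t⁻¹ • y) η * (((‖η‖ ^ 2 : ℝ) : ℂ) * a η) :=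
    integrable_EE ha.sq _ _
  have iH : Integrable fun η => EE τ (t⁻¹ • y) η * h η := integrable_EE hh _ _
  have hinner : Integrable fun η : R12 => ((inner ℝ η y : ℝ) : ℂ) * a η := by
    refine (ha.m1.const_mul ‖y‖).mono' ((Continuous.aestronglyMeasurable (by fun_prop)).mul ha.m0.1)
      (Eventually.of_forall fun η => ?_)
    rw [norm_mul, norm_real, Real.norm_eq_abs]
    have := mul_le_mul_of_nonneg_right (abs_real_inner_le_norm η y) (norm_nonneg (a η))
    linarith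
  have iI : Integrable fun η => EE τ (t⁻¹ • y) η * (((inner ℝ η y : ℝ) : ℂ) * a η) :=
    integrable_EE hinner _ _
  set A := ∫ η, EE τ (t⁻¹ • y) η * a η with hA
  set S := ∫ η, EE τ (t⁻¹ • y) η * (((‖η‖ ^ 2 : ℝ) : ℂ) * a η) with hS
  set H := ∫ η, EE τ (t⁻¹ • y) η * h η with hH
  set J := ∫ η, EE τ (t⁻¹ • y) η * (((inner ℝ η y : ℝ) : ℂ) * a η) with hJ
  have k1 : ∫ η, I * ((-(t ^ 2)⁻¹ * inner ℝ η y - 2 * sg * (t ^ 3)⁻¹ * ‖η‖ ^ 2 : ℝ) : ℂ)
      * EE τ (t⁻¹ • y) η * a η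
      = (-I * ((t : ℂ) ^ 2)⁻¹) * J + (-I * (2 * sg * ((t : ℂ) ^ 3)⁻¹)) * S := by
    rw [hJ, hS, ← integral_const_mul, ← integral_const_mul,
      ← integral_add (iI.const_mul _) (iS.const_mul _)]
    refine integral_congr_ae (Eventually.of_forall fun η => ?_)
    simp only
    push_cast
    ring
  have k2 := wprime ham hhm ha hh heq τ (t⁻¹ • y)
  have k3 : ∫ η, I * ((-(1 / 2) * inner ℝ η (t⁻¹ • y) + τ * ‖η‖ ^ 2 : ℝ) : ℂ)
      * EE τ (t⁻¹ • y) η * a η
      = (-I * (1 / 2) * (t : ℂ)⁻¹) * J + (I * τ) * S := by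
    rw [hJ, hS, ← integral_const_mul, ← integral_const_mul,
      ← integral_add (iI.const_mul _) (iS.const_mul _)]
    refine integral_congr_ae (Eventually.of_forall fun η => ?_)
    simp only [inner_smul_right]
    push_cast
    ring
  have k4 : ∫ η, EE τ (t⁻¹ • y) η * gg sg mu a h η = -((sg : ℂ) * I) * S + (-mu) * A + H := by
    rw [hS, hA, hH, ← int3 iS iA iH]
    refine integral_congr_ae (Eventually.of_forall fun η => ?_)
    simp only [gg]
    ring
  rw [k3, k4] at k2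
  rw [k1]
  have hτc : (τ : ℂ) = sg * (1 - ((t : ℂ) ^ 2)⁻¹) := by rw [hτ]; push_cast; ring
  have hc1 : (t : ℂ) ^ (-(2 * mu) - 1) = (t : ℂ) ^ (-(2 * mu)) * (t : ℂ)⁻¹ := by
    rw [cpow_sub _ _ ht', cpow_one, div_eq_mul_inv]
  have hc2 : (t : ℂ) ^ (-1 - 2 * mu) = (t : ℂ) ^ (-(2 * mu)) * (t : ℂ)⁻¹ := by
    rw [← hc1]; congr 1; ring
  rw [hc1, hc2]
  -- J from k2
  have hJ2 : (-I * ((t : ℂ) ^ 2)⁻¹) * J
      = 2 * (t : ℂ)⁻¹ * (((sg : ℂ) * I) * S + mu * A - H) - 2 * (t : ℂ)⁻¹ * (I * τ) * S := by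
    have h1 : (-I * ((t : ℂ) ^ 2)⁻¹) * J = 2 * (t : ℂ)⁻¹ * ((-I * (1 / 2) * (t : ℂ)⁻¹) * J) := by
      rw [pow_two, mul_inv]; ring
    rw [h1]
    linear_combination (2 * (t : ℂ)⁻¹) * k2
  rw [hJ2, hτc]
  have h3 : ((t : ℂ) ^ 3)⁻¹ = (t : ℂ)⁻¹ * ((t : ℂ) ^ 2)⁻¹ := by
    rw [← mul_inv]; congr 1; ring
  rw [h3]
  ring

lemma norm_GG_le (_ha : Mom a) (y : R12) {t : ℝ} (ht0 : 0 < t) :
    ‖GG sg mu a y t‖ ≤ t ^ (-(2 * mu.re)) * ∫ η, ‖a η‖ := by
  unfold GG
  rw [norm_mul, norm_cpow_eq_rpow_re_of_pos ht0]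
  have e1 : (-(2 * mu)).re = -(2 * mu.re) := by simp
  rw [e1]
  refine mul_le_mul_of_nonneg_left ?_ (Real.rpow_nonneg ht0.le _)
  refine (norm_integral_le_integral_norm _).trans (le_of_eq ?_)
  refine integral_congr_ae (Eventually.of_forall fun η => ?_)
  simp only [norm_mul, norm_EE, one_mul]

lemma tendsto_GG (hmu : 0 < mu.re) (ha : Mom a) (y : R12) :
    Tendsto (GG sg mu a y) atTop (𝓝 0) := by
  have h1 : Tendsto (fun t : ℝ => t ^ (-(2 * mu.re)) * ∫ η, ‖a η‖) atTop (𝓝 (0 * ∫ η, ‖a η‖)) :=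
    (tendsto_rpow_neg_atTop (by linarith : 0 < 2 * mu.re)).mul_const _
  rw [zero_mul] at h1
  refine squeeze_zero_norm' ?_ h1
  filter_upwards [eventually_gt_atTop 0] with t ht
  exact norm_GG_le ha y ht

lemma GG_one (y : R12) : GG sg mu a y 1 = ft a y := by
  unfold GG
  rw [ft_ch]
  simp only [ofReal_one, one_cpow, one_mul, one_pow, inv_one, sub_self, mul_zero, one_smul]
  refine integral_congr_ae (Eventually.of_forall fun η => ?_)
  simp [EE, Res.ch]

lemma kern_scale (y : R12) (b : R12 → ℂ) {t : ℝ} (ht0 : 0 < t) :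
    ∫ ξ, Res.ch ξ y * (Res.kern sg mu t ξ * b (t • ξ))
      = 2 * (t : ℂ) ^ (-1 - 2 * mu) * ∫ η, EE (sg * (1 - (t ^ 2)⁻¹)) (t⁻¹ • y) η * b η := by
  have ht' : (t : ℂ) ≠ 0 := by exact_mod_cast ht0.ne'
  have h := Measure.integral_comp_smul (volume : Measure R12)
    (fun η => EE (sg * (1 - (t ^ 2)⁻¹)) (t⁻¹ • y) η * b η) t
  rw [Res.finrank_R12] at h
  have h1 : ∫ ξ, Res.ch ξ y * (Res.kern sg mu t ξ * b (t • ξ))
      = (2 * (t : ℂ) ^ (11 - 2 * mu)) *
        ∫ ξ, EE (sg * (1 - (t ^ 2)⁻¹)) (t⁻¹ • y) (t • ξ) * b (t • ξ) := by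
    rw [← integral_const_mul]
    refine integral_congr_ae (Eventually.of_forall fun ξ => ?_)
    simp only
    rw [EE_scale, smul_smul, mul_inv_cancel₀ ht0.ne', one_smul]
    have e1 : sg * (1 - (t ^ 2)⁻¹) * t ^ 2 = sg * (t ^ 2 - 1) := by
      field_simp
    rw [e1]
    have e2 : EE (sg * (t ^ 2 - 1)) y ξ
        = Res.ch ξ y * exp (-I * ((sg * ‖ξ‖ ^ 2 * (t ^ 2 - 1) : ℝ) : ℂ)) := by
      unfold EE Res.ch
      rw [← Complex.exp_add]
      congr 1
      push_cast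
      ring
    rw [e2]
    unfold Res.kern
    ring
  rw [h1, h]
  have h2 : (t : ℂ) ^ (11 - 2 * mu) = (t : ℂ) ^ (-1 - 2 * mu) * (t : ℂ) ^ 12 := by
    rw [show (11 - 2 * mu) = (-1 - 2 * mu) + (12 : ℕ) by push_cast; ring, cpow_add _ _ ht',
      cpow_natCast]
  rw [h2, abs_of_pos (by positivity), real_smul]
  push_cast
  field_simp

/-- uniqueness: `a = resDen h` (strongly measurable densities) -/
lemma uniq_sm (hmu : 0 < mu.re) (ham : StronglyMeasurable a) (hhm : StronglyMeasurable h)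
    (ha : Mom a) (hh : Integrable h) (heq : Eqn sg mu a h) :
    a =ᵐ[volume] Res.resDen sg mu h := by
  have hW : Wie.WInt 0 h := by
    refine hh.congr (Eventually.of_forall fun ξ => ?_)
    simp [Wie.wt]
  have hj := Res.integrable_joint (sg := sg) (N := 0) hmu hW
  have hj0 : Integrable (fun p : ℝ × R12 => Res.kern sg mu p.1 p.2 * h (p.1 • p.2))
      (Res.rho1.prod volume) := by
    refine hj.congr (Eventually.of_forall fun p => ?_)
    simp [Wie.wt]
  have hr : Integrable (Res.resDen sg mu h) := (Res.wint_resDen (sg := sg) hmu hW).integrable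
  have hsub := DSpec.ft_eq_zero (ha.m0.sub hr) fun y => ?_
  · filter_upwards [hsub] with ξ hξ
    simpa [sub_eq_zero] using hξ
  -- Fubini
  have hjy : Integrable (fun p : ℝ × R12 => Res.ch p.2 y *
      (Res.kern sg mu p.1 p.2 * h (p.1 • p.2))) (Res.rho1.prod volume) := by
    refine hj0.norm.mono' ?_ (Eventually.of_forall fun p => ?_)
    · exact ((continuous_chl y).comp continuous_snd).aestronglyMeasurable.mul hj0.1
    · rw [norm_mul, Res.norm_ch, one_mul]
  have e1 : ft (Res.resDen sg mu h) y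
      = ∫ t in Ioi (1 : ℝ), ∫ ξ, Res.ch ξ y * (Res.kern sg mu t ξ * h (t • ξ)) := by
    have hsw := integral_integral_swap (f := fun (t : ℝ) (ξ : R12) =>
      Res.ch ξ y * (Res.kern sg mu t ξ * h (t • ξ))) hjy
    rw [hsw, ft_ch]
    refine integral_congr_ae (Eventually.of_forall fun ξ => ?_)
    simp only
    rw [integral_const_mul]
    rfl
  have e2 : ∀ t ∈ Ioi (1 : ℝ), ∫ ξ, Res.ch ξ y * (Res.kern sg mu t ξ * h (t • ξ))
      = -(-(2 * (t : ℂ) ^ (-1 - 2 * mu)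
      * ∫ η, EE (sg * (1 - (t ^ 2)⁻¹)) (t⁻¹ • y) η * h η)) := by
    intro t ht
    rw [kern_scale y h (lt_trans one_pos ht), neg_neg]
  have i2 : IntegrableOn (fun t : ℝ => -(2 * (t : ℂ) ^ (-1 - 2 * mu)
      * ∫ η, EE (sg * (1 - (t ^ 2)⁻¹)) (t⁻¹ • y) η * h η)) (Ioi 1) := by
    have h1 : IntegrableOn (fun t : ℝ => ∫ ξ, Res.ch ξ y * (Res.kern sg mu t ξ * h (t • ξ)))
      (Ioi 1) := hjy.integral_prod_left
    have h2 := h1.neg
    refine IntegrableOn.congr_fun h2 (fun t ht => ?_) measurableSet_Ioi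
    simp only [Pi.neg_apply]
    rw [e2 t ht, neg_neg]
  have e3 := integral_Ioi_of_hasDerivAt_of_tendsto (a := (1 : ℝ))
    (hasDerivAt_GG ham hhm ha hh heq y one_pos).continuousAt.continuousWithinAt
    (fun t ht => hasDerivAt_GG ham hhm ha hh heq y (lt_trans one_pos ht)) i2
    (tendsto_GG hmu ha y)
  have e4 : ft (Res.resDen sg mu h) y = ft a y := by
    rw [e1, setIntegral_congr_fun measurableSet_Ioi e2, integral_neg, e3, GG_one]
    ring
  have e5 : ft (fun ξ => a ξ - Res.resDen sg mu h ξ) y = ft a y - ft (Res.resDen sg mu h) y := by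
    rw [ft_ch, ft_ch, ft_ch, ← integral_sub (integrable_ch ha.m0 y) (integrable_ch hr y)]
    refine integral_congr_ae (Eventually.of_forall fun ξ => ?_)
    simp only; ring
  exact e5.trans (by rw [e4, sub_self])

end uniq

end Crest.Agent.R086.SMO
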