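import Mathlib
import Crest.Agent.R086.Chain

/-!
Row 86, part A (helper507): rigorous start of the recursion from Lemma P (values: first step from
the half plane `Im G < ρ/2`; derivative: Schwarz-Pick), and the list form of the chain.
-/
set_option autoImplicit false
open Complex Filter Topology Metric Set
open scoped ComplexConjugate

namespace Crest.Agent.R086.Chain

open Crest.Agent.R086.JInt Crest.Agent.R086.LemP Crest.Agent.R086.Disk

/-- `Im q ≤ -h` : `1/q` lies in the disk of centre `i/(2h)` and radius `1/(2h)`. -/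
theorem inv_half {q : ℂ} {h : ℝ} (hh : 0 < h) (hq : q.im ≤ -h) :
    q ≠ 0 ∧ ‖q⁻¹ - (⟨0, 1 / (2 * h)⟩ : ℂ)‖ ≤ 1 / (2 * h) := by
  have hq0 : q ≠ 0 := by
    rintro rfl
    simp at hq
    linarith
  refine ⟨hq0, ?_⟩
  have hp : (⟨0, 1 / (2 * h)⟩ : ℂ) = I / ((2 * h : ℝ) : ℂ) := by
    rw [Complex.ext_iff]
    constructor
    · rw [Complex.div_ofReal_re]; simp
    · rw [Complex.div_ofReal_im]; simp
  have h2 : ((2 * h : ℝ) : ℂ) ≠ 0 := by
    have : (2 * h : ℝ) ≠ 0 := by positivity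
    exact_mod_cast this
  have e : q⁻¹ - I / ((2 * h : ℝ) : ℂ) = (((2 * h : ℝ) : ℂ) - I * q) / (q * ((2 * h : ℝ) : ℂ)) := by
    field_simp
  rw [hp, e, norm_div, norm_mul, Complex.norm_real, Real.norm_of_nonneg (by positivity : (0:ℝ) ≤ 2 * h)]
  have key : ‖(((2 * h : ℝ) : ℂ) - I * q)‖ ≤ ‖q‖ := by
    apply le_of_sq_le_sq _ (norm_nonneg _)
    rw [← Complex.normSq_eq_norm_sq, ← Complex.normSq_eq_norm_sq, normSq_apply, normSq_apply]
    simp only [Complex.sub_re, Complex.sub_im, Complex.mul_re, Complex.mul_im, Complex.I_re,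
      Complex.I_im, Complex.ofReal_re, Complex.ofReal_im]
    nlinarith
  have hqn : 0 < ‖q‖ := norm_pos_iff.mpr hq0
  rw [div_le_div_iff₀ (by positivity) (by positivity)]
  nlinarith

/-- start data -/
structure Sd where
  hh : ℚ   -- lower bound of `ρ/2 - Im a`
  R : ℚ    -- radius for the Schwarz-Pick bound

/-- check of the first step `M+1 → M` -/
def checkS (P : Par) (M : ℕ) (w : Sd) (t : Ct) : Bool :=
  decide (0 < w.hh) && decide (0 ≤ P.ha) && decide (0 ≤ P.hr) && decide (0 ≤ P.b)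
  && decide (w.hh ≤ (P.r0 - P.hr) / 2 - (P.a0.y + P.ha))
  && decide (1 + P.ha < P.a0.x + (M + 1 : ℕ)) && decide (P.b / 2 + P.ha < P.a0.x + (M + 1 : ℕ))
  && decide (t.p.x = 0) && decide (t.p.y * (2 * w.hh) = 1) && decide (t.rp * (2 * w.hh) = 1)
  && t.p.le t.np && (alq P (M+1)).le t.na && (beq P (M+1)).le t.nb
  && (CQ.one.sub ((beq P (M+1)).mul t.p)).le t.n1
  && (((alq P (M+1)).mul (CQ.one.sub ((beq P (M+1)).mul t.p))).sub t.new.c).le t.n4
  && decide (t.n4 + P.ha * (t.n1 + e1 P t) + t.na * e1 P t ≤ t.new.r)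

/-- check of the derivative bound at level `M` -/
def checkSD (P : Par) (M : ℕ) (w : Sd) (t : Ct) : Bool :=
  decide (0 < w.R) && decide (0 ≤ P.b) && decide (w.R + P.ha + P.b / 2 ≤ P.a0.x + M)
  && decide (t.new.d.x = 0) && decide (t.new.d.y = 0)
  && decide (2 * ((P.r0 + P.hr) / 2 - t.new.c.y + t.new.r) ≤ t.new.s * w.R)

variable {P : Par} {M : ℕ} {w : Sd} {t : Ct}

theorem startV (h : checkS P M w t = true) : EncV P M t.new := by
  simp only [checkS, Bool.and_eq_true, decide_eq_true_eq] at h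
  obtain ⟨⟨⟨⟨⟨⟨⟨⟨⟨⟨⟨⟨⟨⟨⟨hhh, hha⟩, hhr⟩, hb⟩, hhle⟩, ha1⟩, ha2⟩, hpx⟩, hpy⟩, hrp⟩, hnp⟩, hna⟩, hnb⟩, hn1⟩,
    hn4⟩, hnew⟩ := h
  intro a ha ρ hρ0 hρ
  have h1 : |(a - P.a0.toC).re| ≤ P.ha := (Complex.abs_re_le_norm _).trans ha
  have h2 := (abs_le.mp h1).1
  have h1' : |(a - P.a0.toC).im| ≤ P.ha := (Complex.abs_im_le_norm _).trans ha
  have h2' := (abs_le.mp h1').2
  simp only [Complex.sub_re, Complex.sub_im, CQ.toC_re, CQ.toC_im] at h2 h2'
  have hre1 : 1 < (a + (M+1 : ℕ)).re := by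
    have h3 : ((1 : ℝ) + P.ha < P.a0.x + (M+1 : ℕ)) := by exact_mod_cast ha1
    simp only [Complex.add_re, Complex.natCast_re]
    linarith
  have hre2 : ((P.b : ℝ)) / 2 < (a + (M+1 : ℕ)).re := by
    have h3 : ((P.b : ℝ) / 2 + P.ha < P.a0.x + (M+1 : ℕ)) := by exact_mod_cast ha2
    simp only [Complex.add_re, Complex.natCast_re]
    linarith
  have hJ := J_ne_zero (a + (M+1 : ℕ)) (P.b : ℝ) (by linarith) hre2 hρ0
  have hG := G_im_lt (a + (M+1 : ℕ)) (P.b : ℝ) (by linarith) hre2 hρ0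
  have hbc : (((P.b : ℝ) : ℂ)) = (P.b : ℂ) := by push_cast; rfl
  rw [hbc] at hJ hG
  have hρ' := abs_le.mp hρ
  have hqim : (G (a + (M+1 : ℕ)) P.b ρ - I * ρ + (a + (M+1 : ℕ)) - P.b).im ≤ -(w.hh : ℝ) := by
    have h3 : (w.hh : ℝ) ≤ (P.r0 - P.hr) / 2 - (P.a0.y + P.ha) := by exact_mod_cast hhle
    have h4 : ((P.b : ℂ)).im = 0 := by rw [← hbc]; exact Complex.ofReal_im _
    simp only [Complex.sub_im, Complex.add_im, Complex.mul_im, Complex.I_re, Complex.I_im,
      Complex.ofReal_re, Complex.ofReal_im, Complex.natCast_im, h4]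
    linarith
  obtain ⟨hq, hiq⟩ := inv_half (by exact_mod_cast hhh) hqim
  have hhR : (0 : ℝ) < w.hh := by exact_mod_cast hhh
  have hpR : (⟨0, 1 / (2 * (w.hh : ℝ))⟩ : ℂ) = t.p.toC := by
    apply Complex.ext
    · simp [hpx]
    · have : (t.p.y : ℝ) * (2 * w.hh) = 1 := by exact_mod_cast hpy
      simp only [CQ.toC_im]
      rw [eq_comm, eq_div_iff (by positivity)]; exact this
  have hrR : 1 / (2 * (w.hh : ℝ)) = (t.rp : ℝ) := by
    have : (t.rp : ℝ) * (2 * w.hh) = 1 := by exact_mod_cast hrp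
    rw [eq_comm, eq_div_iff (by positivity)]; exact this
  rw [hpR, hrR] at hiq
  have hal : (a + (M+1 : ℕ) - 1) - (alq P (M+1)).toC = a - P.a0.toC := by
    simp only [alq, CQ.toC_sub, CQ.toC_add, CQ.toC_rea, CQ.toC_one]
    push_cast
    ring
  have hbe : (a + (M+1 : ℕ) - P.b) - (beq P (M+1)).toC = a - P.a0.toC := by
    simp only [beq, CQ.toC_sub, CQ.toC_add, CQ.toC_rea]
    push_cast
    ring
  have hal' : ‖(a + (M+1 : ℕ) - 1) - (alq P (M+1)).toC‖ ≤ P.ha := by rw [hal]; exact ha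
  have hbe' : ‖(a + (M+1 : ℕ) - P.b) - (beq P (M+1)).toC‖ ≤ P.ha := by rw [hbe]; exact ha
  have hstep := G_step (a + (M+1 : ℕ)) P.b hre1 hρ0 hJ (by
    simpa [sub_eq_add_neg, add_assoc] using hq)
  have hk : a + (M+1 : ℕ) - 1 = a + M := by push_cast; ring
  rw [hk] at hstep
  refine ⟨hstep.1, ?_⟩
  rw [hstep.2]
  have hX := step_val (c' := t.new.c.toC) (n4 := (t.n4 : ℝ)) (by exact_mod_cast hha) hal' hbe' hiq
    (CQ.norm_le hnp) (CQ.norm_le hna) (CQ.norm_le hnb)
    (n1 := (t.n1 : ℝ)) (by have := CQ.norm_le hn1; rwa [CQ.toC_sub, CQ.toC_mul, CQ.toC_one] at this)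
    (by have := CQ.norm_le hn4
        rwa [CQ.toC_sub, CQ.toC_mul, CQ.toC_sub, CQ.toC_mul, CQ.toC_one] at this)
  have hnew' : (t.n4 : ℝ) + P.ha * (t.n1 + (P.ha * (t.np + t.rp) + t.nb * t.rp))
      + t.na * (P.ha * (t.np + t.rp) + t.nb * t.rp) ≤ t.new.r := by
    simp only [e1] at hnew
    exact_mod_cast hnew
  refine le_trans (le_of_eq ?_) (hX.trans hnew')
  congr 1
  rw [hk]
  have hq' : G (a + (M+1 : ℕ)) P.b ρ - I * ρ + (a + (M+1 : ℕ)) - P.b ≠ 0 := hq
  field_simp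
  ring

/-- Schwarz-Pick for maps into the right half plane (derivative at the centre). -/
theorem deriv_le_of_re_pos {f : ℂ → ℂ} {a : ℂ} {R : ℝ} (hR : 0 < R)
    (hf : DifferentiableOn ℂ f (ball a R)) (hpos : ∀ w ∈ ball a R, 0 < (f w).re) :
    ‖deriv f a‖ ≤ 2 * (f a).re / R := by
  have haR : a ∈ ball a R := mem_ball_self hR
  have h0 := hpos a haR
  set h : ℂ → ℂ := fun w => (f w - f a) / (f w + conj (f a)) with hh
  have hden : ∀ w ∈ ball a R, f w + conj (f a) ≠ 0 := by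
    intro w hw h
    have := congrArg Complex.re h
    simp at this
    have := hpos w hw
    linarith
  have hd : DifferentiableOn ℂ h (ball a R) :=
    (hf.sub_const _).div (hf.add_const _) hden
  have hha : h a = 0 := by simp [hh]
  have hmaps : MapsTo h (ball a R) (ball (h a) 1) := by
    intro w hw
    rw [hha, mem_ball_zero_iff]
    simp only [hh]
    rw [norm_div, div_lt_one (norm_pos_iff.mpr (hden w hw))]
    apply lt_of_pow_lt_pow_left₀ 2 (norm_nonneg _)
    rw [← Complex.normSq_eq_norm_sq, ← Complex.normSq_eq_norm_sq, normSq_apply, normSq_apply]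
    simp only [Complex.sub_re, Complex.sub_im, Complex.add_re, Complex.add_im, Complex.conj_re,
      Complex.conj_im]
    nlinarith [hpos w hw, mul_pos (hpos w hw) h0]
  have hS := Complex.norm_deriv_le_div_of_mapsTo_ball hd (hmaps.mono_right ball_subset_closedBall) hR
  have hfd : DifferentiableAt ℂ f a := hf.differentiableAt (ball_mem_nhds a hR)
  have hder : deriv h a = deriv f a / ((2 * (f a).re : ℝ) : ℂ) := by
    have h1 := (hfd.hasDerivAt.sub_const (f a)).div (hfd.hasDerivAt.add_const (conj (f a))) (hden a haR)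
    have h1' : deriv h a = (deriv f a * (f a + (starRingEnd ℂ) (f a)) - (f a - f a) * deriv f a) / (f a + (starRingEnd ℂ) (f a)) ^ 2 := h1.deriv
    rw [h1']
    have e : f a + conj (f a) = ((2 * (f a).re : ℝ) : ℂ) := by
      rw [Complex.add_conj]
    have hne := hden a haR
    rw [e] at hne ⊢
    simp only [sub_self, zero_mul, sub_zero]
    field_simp
  rw [hder, norm_div, Complex.norm_real, Real.norm_of_nonneg (by positivity)] at hS
  rw [div_le_div_iff₀ (by positivity) hR] at hS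
  rw [le_div_iff₀ hR]
  linarith

theorem startD (h : checkS P M w t = true) (h' : checkSD P M w t = true) : EncD P M t.new := by
  have hV := startV h
  simp only [checkSD, Bool.and_eq_true, decide_eq_true_eq] at h'
  obtain ⟨⟨⟨⟨⟨hR, hb⟩, hRle⟩, hdx⟩, hdy⟩, hs⟩ := h'
  intro a ha ρ hρ0 hρ
  have hbc : (((P.b : ℝ) : ℂ)) = (P.b : ℂ) := by push_cast; rfl
  have hRR : (0 : ℝ) < w.R := by exact_mod_cast hR
  have hb0 : (0 : ℝ) ≤ P.b := by exact_mod_cast hb
  have hRle' : (w.R : ℝ) + P.ha + P.b / 2 ≤ P.a0.x + M := by exact_mod_cast hRle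
  have hre : ∀ a' ∈ ball a (w.R : ℝ), (P.b : ℝ) / 2 < (a' + (M : ℕ)).re := by
    intro a' ha'
    rw [mem_ball, dist_eq_norm] at ha'
    have h1 : |(a' - a).re| < w.R := lt_of_le_of_lt (Complex.abs_re_le_norm _) ha'
    have h2 : |(a - P.a0.toC).re| < P.ha := lt_of_le_of_lt (Complex.abs_re_le_norm _) ha
    have h3 := (abs_lt.mp h1).1
    have h4 := (abs_lt.mp h2).1
    simp only [Complex.sub_re, CQ.toC_re] at h3 h4
    simp only [Complex.add_re, Complex.natCast_re]
    linarith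
  set f : ℂ → ℂ := fun a' => G (a' + (M : ℕ)) P.b ρ with hf
  have hfd : DifferentiableOn ℂ f (ball a (w.R : ℝ)) := by
    intro a' ha'
    have h1 := hre a' ha'
    have h0 : 0 < (a' + (M : ℕ)).re := by linarith
    have hJ := J_ne_zero (a' + (M : ℕ)) (P.b : ℝ) h0 h1 hρ0
    rw [hbc] at hJ
    have hJ0 : DifferentiableAt ℂ (fun w : ℂ => JCx.J (w + (M : ℕ)) (P.b - (w + (M : ℕ)) - 1) (ρ : ℂ)) a' :=
      JCx.J_differentiableAt (by fun_prop) (by fun_prop) (by fun_prop) h0 (by simpa using hρ0)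
    have hJ1 : DifferentiableAt ℂ (fun w : ℂ => JCx.J (w + (M : ℕ) + 1) (P.b - (w + (M : ℕ)) - 1) (ρ : ℂ)) a' :=
      JCx.J_differentiableAt (by fun_prop) (by fun_prop) (by fun_prop) (by simp at h0 ⊢; linarith)
        (by simpa using hρ0)
    have : DifferentiableAt ℂ f a' := by
      simp only [hf, G]
      exact (hJ1.const_mul (ρ : ℂ)).div hJ0 hJ
    exact this.differentiableWithinAt
  have hPd : DifferentiableOn ℂ (fun a' => ((ρ / 2 : ℝ) : ℂ) + I * f a') (ball a (w.R : ℝ)) :=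
    (hfd.const_mul I).const_add _
  have hpos : ∀ a' ∈ ball a (w.R : ℝ), 0 < (((ρ / 2 : ℝ) : ℂ) + I * f a').re := by
    intro a' ha'
    have h1 := hre a' ha'
    have h0 : 0 < (a' + (M : ℕ)).re := by linarith
    have hG := G_im_lt (a' + (M : ℕ)) (P.b : ℝ) h0 h1 hρ0
    rw [hbc] at hG
    simp only [Complex.add_re, Complex.ofReal_re, Complex.mul_re, Complex.I_re, Complex.I_im, hf]
    linarith
  have hbound := deriv_le_of_re_pos hRR hPd hpos
  have hfa : DifferentiableAt ℂ f a := hfd.differentiableAt (ball_mem_nhds a hRR)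
  have hder : deriv (fun a' => ((ρ / 2 : ℝ) : ℂ) + I * f a') a = I * deriv f a := by
    rw [((hfa.hasDerivAt.const_mul I).const_add _).deriv]
  rw [hder, norm_mul, Complex.norm_I, one_mul] at hbound
  refine ⟨deriv f a, hfa.hasDerivAt, ?_⟩
  have hd0 : t.new.d.toC = 0 := by
    apply Complex.ext <;> simp [hdx, hdy]
  rw [hd0, sub_zero]
  refine hbound.trans ?_
  obtain ⟨-, hc⟩ := hV a ha.le ρ hρ0 hρ
  have h3 : |(f a - t.new.c.toC).im| ≤ t.new.r := (Complex.abs_im_le_norm _).trans hc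
  have h4 := (abs_le.mp h3).1
  simp only [Complex.sub_im, CQ.toC_im] at h4
  have hre' : (((ρ / 2 : ℝ) : ℂ) + I * f a).re = ρ / 2 - (f a).im := by
    simp
    ring
  rw [hre', div_le_iff₀ hRR]
  have hs' : 2 * (((P.r0 : ℝ) + P.hr) / 2 - t.new.c.y + t.new.r) ≤ t.new.s * w.R := by
    exact_mod_cast hs
  have := (abs_le.mp hρ).2
  linarith

/-- list form -/
def chainOK (P : Par) : ℕ → St → List Ct → Bool
  | 0, _, [] => true
  | k+1, o, t :: ts => checkV P (k+1) o t && chainOK P k t.new ts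
  | _, _, _ => false

def chainOKD (P : Par) : ℕ → St → List Ct → Bool
  | 0, _, [] => true
  | k+1, o, t :: ts => checkV P (k+1) o t && checkD P (k+1) o t && chainOKD P k t.new ts
  | _, _, _ => false

def last (o : St) : List Ct → St
  | [] => o
  | t :: ts => last t.new ts

theorem chainV : ∀ (k : ℕ) (o : St) (ts : List Ct), chainOK P k o ts = true → EncV P k o →
    EncV P 0 (last o ts)
  | 0, _, [], _, h => h
  | k+1, o, t :: ts, hc, h => by
      simp only [chainOK, Bool.and_eq_true] at hc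
      exact chainV k t.new ts hc.2 (stepV hc.1 h)
  | 0, _, _ :: _, hc, _ => by simp [chainOK] at hc
  | _+1, _, [], hc, _ => by simp [chainOK] at hc

theorem chainD : ∀ (k : ℕ) (o : St) (ts : List Ct), chainOKD P k o ts = true → EncV P k o →
    EncD P k o → EncV P 0 (last o ts) ∧ EncD P 0 (last o ts)
  | 0, _, [], _, h, h' => ⟨h, h'⟩
  | k+1, o, t :: ts, hc, h, h' => by
      simp only [chainOKD, Bool.and_eq_true] at hc
      exact chainD k t.new ts hc.2 (stepV hc.1.1 h) (stepD hc.1.1 hc.1.2 h h')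
  | 0, _, _ :: _, hc, _, _ => by simp [chainOKD] at hc
  | _+1, _, [], hc, _, _ => by simp [chainOKD] at hc

end Crest.Agent.R086.Chain
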