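import Crest.Agent.R086.WieX
import Crest.Agent.R086.TorDefs

/-!
Row 86 (S0114), TC nodes (helper232), file A: the Wiener algebra on `ℤ¹²` (counting measure).
-/

set_option autoImplicit false

open MeasureTheory Complex Set Filter Topology

noncomputable section

namespace Crest.Agent.R086.TC

open Crest.Agent.R086.Wie
open Crest.AnalysisR.PDE.NLS (IsSmoothPeriodic)

/-- counting measure on `ℤ¹²` -/
abbrev cnt : Measure Z12 := Measure.count

/-- trivial weight -/
def W1 : Wt Z12 where
  toFun := fun _ => 1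
  meas := measurable_const
  one_le := fun _ => le_rfl
  add_le := fun _ _ => by norm_num
  neg := fun _ => rfl

/-- the Wiener algebra -/
abbrev A : Type := XG cnt W1

/-- coefficients -/
def co (a : A) (k : Z12) : ℂ := XG.den a k

lemma integrable_iff {E : Type*} [NormedAddCommGroup E] {f : Z12 → E} :
    Integrable f cnt ↔ Summable fun k => ‖f k‖ := integrable_count_iff

lemma integral_eq {E : Type*} [NormedAddCommGroup E] [NormedSpace ℝ E] [CompleteSpace E]
    {f : Z12 → E} (hf : Summable fun k => ‖f k‖) : ∫ k, f k ∂cnt = ∑' k, f k := by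
  rw [integral_countable (integrable_iff.2 hf)]
  simp [Measure.real]

lemma gint_iff' {a : Z12 → ℂ} : GInt cnt W1 a ↔ Summable fun k => ‖a k‖ := by
  unfold GInt
  rw [integrable_iff]
  simp [W1]

/-- element with given coefficients -/
def mkA (a : Z12 → ℂ) (ha : Summable fun k => ‖a k‖) : A := XG.mk a (gint_iff'.2 ha)

lemma co_mk (a : Z12 → ℂ) (ha : Summable fun k => ‖a k‖) (k : Z12) : co (mkA a ha) k = a k :=
  Measure.ae_count_iff.1 (XG.den_mk (gint_iff'.2 ha)) k

lemma summable_co (a : A) : Summable fun k => ‖co a k‖ := gint_iff'.1 (XG.gint_den a)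

lemma ext_co {a b : A} (h : ∀ k, co a k = co b k) : a = b :=
  XG.ext (Measure.ae_count_iff.2 h)

lemma co_add (a b : A) (k : Z12) : co (a + b) k = co a k + co b k :=
  Measure.ae_count_iff.1 (XG.den_add a b) k

lemma co_sub (a b : A) (k : Z12) : co (a - b) k = co a k - co b k :=
  Measure.ae_count_iff.1 (XG.den_sub a b) k

lemma co_neg (a : A) (k : Z12) : co (-a) k = - co a k :=
  Measure.ae_count_iff.1 (XG.den_neg a) k

lemma co_smul (c : ℂ) (a : A) (k : Z12) : co (c • a) k = c * co a k :=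
  Measure.ae_count_iff.1 (XG.den_smul c a) k

lemma co_zero (k : Z12) : co (0 : A) k = 0 :=
  Measure.ae_count_iff.1 (XG.den_zero (μ := cnt) (W := W1)) k

lemma norm_eq_tsum (a : A) : ‖a‖ = ∑' k, ‖co a k‖ := by
  rw [XG.norm_eq]
  have : (fun x => W1 x * ‖XG.den a x‖) = fun k => ‖co a k‖ := by
    ext k; simp [W1, co]
  rw [this, integral_eq]
  simpa using summable_co a

lemma norm_mkA (a : Z12 → ℂ) (ha : Summable fun k => ‖a k‖) : ‖mkA a ha‖ = ∑' k, ‖a k‖ := by
  rw [norm_eq_tsum]; exact tsum_congr (fun k => by rw [co_mk])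

lemma norm_co_le (a : A) (k : Z12) : ‖co a k‖ ≤ ‖a‖ := by
  rw [norm_eq_tsum]
  exact (summable_co a).le_tsum k (fun _ _ => norm_nonneg _)

/-- coordinate functional -/
def coL (k : Z12) : A →L[ℂ] ℂ :=
  LinearMap.mkContinuous
    { toFun := fun a => co a k
      map_add' := fun a b => co_add a b k
      map_smul' := fun c a => by simpa using co_smul c a k } 1
    (fun a => by simpa using norm_co_le a k)

@[simp] lemma coL_apply (k : Z12) (a : A) : coL k a = co a k := rfl

lemma star_co (a : A) (k : Z12) : co (star a) k = (starRingEnd ℂ) (co a (-k)) :=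
  Measure.ae_count_iff.1 (XG.den_star a) k

lemma norm_star_A (a : A) : ‖star a‖ = ‖a‖ := norm_star a

/-! ### characters and synthesis -/

/-- the character -/
def ch (k : Z12) (x : R12) : ℂ := exp (I * ((inner ℝ (zv k) x : ℝ) : ℂ))

lemma norm_ch (k : Z12) (x : R12) : ‖ch k x‖ = 1 := by
  rw [ch, mul_comm, Complex.norm_exp_ofReal_mul_I]

lemma zv_add (k l : Z12) : zv (k + l) = zv k + zv l := by
  ext i; simp [zv]

lemma zv_neg (k : Z12) : zv (-k) = - zv k := by
  ext i; simp [zv]

lemma nk_neg (k : Z12) : nk (-k) = nk k := by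
  rw [nk, nk, zv_neg, norm_neg]

lemma nk_nonneg (k : Z12) : 0 ≤ nk k := norm_nonneg _

lemma nk_add_le (k l : Z12) : nk (k + l) ≤ nk k + nk l := by
  rw [nk, nk, nk, zv_add]; exact norm_add_le _ _

lemma ch_add (k l : Z12) (x : R12) : ch (k + l) x = ch k x * ch l x := by
  rw [ch, ch, ch, ← Complex.exp_add, zv_add, inner_add_left]; push_cast; ring_nf

lemma ch_neg (k : Z12) (x : R12) : ch (-k) x = (starRingEnd ℂ) (ch k x) := by
  rw [ch, ch, ← Complex.exp_conj, zv_neg, inner_neg_left]
  congr 1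
  simp

/-- synthesis -/
def syn (a : A) (x : R12) : ℂ := ∑' k, co a k * ch k x

lemma summable_syn (a : A) (x : R12) : Summable fun k => co a k * ch k x := by
  refine Summable.of_norm ((summable_co a).congr fun k => ?_)
  rw [norm_mul, norm_ch, mul_one]

lemma norm_syn_le (a : A) (x : R12) : ‖syn a x‖ ≤ ‖a‖ := by
  rw [norm_eq_tsum, syn]
  have h : ∀ k, ‖co a k * ch k x‖ = ‖co a k‖ := fun k => by rw [norm_mul, norm_ch, mul_one]
  have := norm_tsum_le_tsum_norm (f := fun k => co a k * ch k x)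
    (by simpa only [h] using summable_co a)
  simpa only [h] using this

lemma syn_eq_integral (a : A) (x : R12) : syn a x = ∫ k, ch k x * XG.den a k ∂cnt := by
  rw [integral_eq]
  · exact tsum_congr (fun k => mul_comm _ _)
  · refine (summable_co a).congr (fun k => ?_)
    rw [norm_mul, norm_ch, one_mul]; rfl

lemma syn_mul (a b : A) (x : R12) : syn (a * b) x = syn a x * syn b x := by
  rw [syn_eq_integral, XG.integral_mul_den_mul a b (φ := fun k => ch k x)
    (measurable_of_countable _) (C := 1) (fun k => (norm_ch k x).le)]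
  simp only [ch_add]
  have h1 : ∀ ξ : Z12, ∫ η, ch ξ x * ch η x * (XG.den a ξ * XG.den b η) ∂cnt
      = (ch ξ x * XG.den a ξ) * syn b x := by
    intro ξ
    rw [syn_eq_integral, ← integral_const_mul]
    refine integral_congr_ae (Eventually.of_forall fun η => ?_)
    simp only; ring
  simp only [h1]
  rw [integral_mul_const, ← syn_eq_integral]

lemma syn_star (a : A) (x : R12) : syn (star a) x = (starRingEnd ℂ) (syn a x) := by
  rw [syn, syn, Complex.conj_tsum]
  rw [← (Equiv.neg Z12).tsum_eq (fun k => co (star a) k * ch k x)]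
  refine tsum_congr (fun k => ?_)
  simp only [Equiv.neg_apply]
  rw [star_co, neg_neg, ch_neg, map_mul]

/-! ### the nonlinearity -/

/-- `a ↦ |a|^{2m} a` -/
def Nl : ℕ → A → A
  | 0, a => a
  | m + 1, a => (a * star a) * Nl m a

lemma syn_Nl (m : ℕ) (a : A) (x : R12) : syn (Nl m a) x = nl (2 * m) (syn a x) := by
  induction m with
  | zero => simp [Nl, nl]
  | succ m ih =>
    rw [Nl, syn_mul, syn_mul, syn_star, ih, Complex.mul_conj, nl, nl, Complex.normSq_eq_norm_sq]
    push_cast
    ring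

lemma norm_Nl_le (m : ℕ) (a : A) : ‖Nl m a‖ ≤ ‖a‖ ^ (2 * m + 1) := by
  induction m with
  | zero => simp [Nl]
  | succ m ih =>
    rw [Nl]
    calc ‖(a * star a) * Nl m a‖ ≤ ‖a * star a‖ * ‖Nl m a‖ := norm_mul_le _ _
      _ ≤ (‖a‖ * ‖star a‖) * ‖a‖ ^ (2 * m + 1) := by
          gcongr
          exact norm_mul_le _ _
      _ = ‖a‖ ^ (2 * (m + 1) + 1) := by rw [norm_star]; ring

lemma norm_Nl_sub_le (m : ℕ) {R : ℝ} (a b : A) (ha : ‖a‖ ≤ R) (hb : ‖b‖ ≤ R) :
    ‖Nl m a - Nl m b‖ ≤ (2 * m + 1) * R ^ (2 * m) * ‖a - b‖ := by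
  have hR : 0 ≤ R := (norm_nonneg a).trans ha
  induction m with
  | zero => simp [Nl]
  | succ m ih =>
    have h1 : Nl (m + 1) a - Nl (m + 1) b = (a - b) * star a * Nl m a
        + b * (star (a - b)) * Nl m a + (b * star b) * (Nl m a - Nl m b) := by
      rw [Nl, Nl, star_sub]
      simp only [sub_mul, mul_sub]
      abel
    have h2 : ‖(a - b) * star a * Nl m a‖ ≤ ‖a - b‖ * R * R ^ (2 * m + 1) := by
      calc _ ≤ ‖(a - b) * star a‖ * ‖Nl m a‖ := norm_mul_le _ _
        _ ≤ (‖a - b‖ * ‖star a‖) * ‖a‖ ^ (2 * m + 1) := by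
            gcongr
            · exact norm_mul_le _ _
            · exact norm_Nl_le m a
        _ ≤ _ := by rw [norm_star]; gcongr
    have h3 : ‖b * (star (a - b)) * Nl m a‖ ≤ R * ‖a - b‖ * R ^ (2 * m + 1) := by
      calc _ ≤ ‖b * star (a - b)‖ * ‖Nl m a‖ := norm_mul_le _ _
        _ ≤ (‖b‖ * ‖star (a - b)‖) * ‖a‖ ^ (2 * m + 1) := by
            gcongr
            · exact norm_mul_le _ _
            · exact norm_Nl_le m a
        _ ≤ _ := by rw [norm_star]; gcongr
    have h4 : ‖(b * star b) * (Nl m a - Nl m b)‖ ≤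
        R * R * ((2 * m + 1) * R ^ (2 * m) * ‖a - b‖) := by
      calc _ ≤ ‖b * star b‖ * ‖Nl m a - Nl m b‖ := norm_mul_le _ _
        _ ≤ (‖b‖ * ‖star b‖) * ((2 * m + 1) * R ^ (2 * m) * ‖a - b‖) := by
            gcongr
            exact norm_mul_le _ _
        _ ≤ _ := by rw [norm_star]; gcongr
    rw [h1]
    calc _ ≤ ‖(a - b) * star a * Nl m a‖ + ‖b * (star (a - b)) * Nl m a‖
          + ‖(b * star b) * (Nl m a - Nl m b)‖ := norm_add₃_le
      _ ≤ _ := add_le_add (add_le_add h2 h3) h4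
      _ = _ := by push_cast; ring

end Crest.Agent.R086.TC
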