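import Crest.Agent.R086.TCA

/-!
Row 86 (S0114), TC nodes (helper232), file B: multipliers, tame estimates, free group.
-/

set_option autoImplicit false

open MeasureTheory Complex Set Filter Topology

noncomputable section

namespace Crest.Agent.R086.TC

open Crest.Agent.R086.Wie
open Crest.AnalysisR.PDE.NLS (IsSmoothPeriodic)

/-- multiplication of coefficients by a bounded function -/
def mult (φ : Z12 → ℂ) (C : ℝ) (hC : ∀ k, ‖φ k‖ ≤ C) : A →L[ℂ] A :=
  XG.fmul φ (measurable_of_countable φ).aestronglyMeasurable C hC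

lemma co_mult (φ : Z12 → ℂ) (C : ℝ) (hC : ∀ k, ‖φ k‖ ≤ C) (a : A) (k : Z12) :
    co (mult φ C hC a) k = φ k * co a k :=
  Measure.ae_count_iff.1 (XG.den_fmul (measurable_of_countable φ).aestronglyMeasurable hC a) k

lemma norm_mult (φ : Z12 → ℂ) (C : ℝ) (hC : ∀ k, ‖φ k‖ ≤ C) (a : A) :
    ‖mult φ C hC a‖ = ∑' k, ‖φ k‖ * ‖co a k‖ := by
  rw [norm_eq_tsum]
  exact tsum_congr (fun k => by rw [co_mult, norm_mul])

/-! ### free group -/

/-- the symbol `e^{-i|k|² t}` -/
def ph (t : ℝ) (k : Z12) : ℂ := exp (-(I * ((nk k ^ 2 : ℝ) : ℂ)) * (t : ℂ))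

lemma norm_ph (t : ℝ) (k : Z12) : ‖ph t k‖ = 1 := by
  have : -(I * ((nk k ^ 2 : ℝ) : ℂ)) * (t : ℂ) = ((-(nk k ^ 2 * t) : ℝ) : ℂ) * I := by
    push_cast; ring
  rw [ph, this, Complex.norm_exp_ofReal_mul_I]

lemma ph_add (s t : ℝ) (k : Z12) : ph (s + t) k = ph s k * ph t k := by
  rw [ph, ph, ph, ← Complex.exp_add]; push_cast; ring_nf

lemma ph_zero (k : Z12) : ph 0 k = 1 := by simp [ph]

/-- the free group -/
def U (t : ℝ) : A →L[ℂ] A := mult (ph t) 1 (fun k => (norm_ph t k).le)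

lemma co_U (t : ℝ) (a : A) (k : Z12) : co (U t a) k = ph t k * co a k := co_mult _ _ _ _ _

lemma norm_U (t : ℝ) (a : A) : ‖U t a‖ = ‖a‖ := by
  rw [U, norm_mult, norm_eq_tsum]
  exact tsum_congr (fun k => by rw [norm_ph, one_mul])

lemma U_add (s t : ℝ) (a : A) : U (s + t) a = U s (U t a) :=
  ext_co fun k => by rw [co_U, co_U, co_U, ph_add, mul_assoc]

lemma U_zero (a : A) : U 0 a = a := ext_co fun k => by rw [co_U, ph_zero, one_mul]

lemma U_sub (t : ℝ) (a b : A) : U t (a - b) = U t a - U t b :=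
  ext_co fun k => by rw [co_U, co_sub, co_sub, co_U, co_U, mul_sub]

lemma U_neg_U (t : ℝ) (a : A) : U (-t) (U t a) = a := by
  rw [← U_add, neg_add_cancel, U_zero]

lemma U_U_neg (t : ℝ) (a : A) : U t (U (-t) a) = a := by
  rw [← U_add, add_neg_cancel, U_zero]

lemma continuous_ph (k : Z12) : Continuous fun t : ℝ => ph t k := by
  unfold ph
  exact (continuous_const.mul Complex.continuous_ofReal).cexp

lemma continuous_U (a : A) : Continuous fun t : ℝ => U t a := by
  rw [continuous_iff_continuousAt]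
  intro s
  rw [ContinuousAt, tendsto_iff_norm_sub_tendsto_zero]
  have h1 : ∀ t, ‖U t a - U s a‖ = ∑' k, ‖(ph t k - ph s k) * co a k‖ := by
    intro t
    rw [norm_eq_tsum]
    exact tsum_congr (fun k => by rw [co_sub, co_U, co_U, sub_mul])
  simp_rw [h1]
  have h2 : Tendsto (fun t => ∑' k, ‖(ph t k - ph s k) * co a k‖) (𝓝 s) (𝓝 (∑' _k : Z12, (0 : ℝ))) := by
    refine tendsto_tsum_of_dominated_convergence (bound := fun k => 2 * ‖co a k‖)
      ((summable_co a).mul_left 2) (fun k => ?_) (Eventually.of_forall fun t k => ?_)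
    · have h3 : Tendsto (fun t => (ph t k - ph s k) * co a k) (𝓝 s) (𝓝 ((ph s k - ph s k) * co a k)) :=
        (((continuous_ph k).sub continuous_const).mul continuous_const).continuousAt
      have h4 := h3.norm
      simpa using h4
    · rw [norm_norm, norm_mul]
      gcongr
      calc ‖ph t k - ph s k‖ ≤ ‖ph t k‖ + ‖ph s k‖ := norm_sub_le _ _
        _ = 2 := by rw [norm_ph, norm_ph]; norm_num
  simpa using h2

lemma continuousOn_U_comp {s : Set ℝ} {f : ℝ → ℝ} {b : ℝ → A} (hf : Continuous f)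
    (hb : ContinuousOn b s) : ContinuousOn (fun t => U (f t) (b t)) s := by
  intro t ht
  rw [ContinuousWithinAt, tendsto_iff_norm_sub_tendsto_zero]
  have h1 : ∀ r, ‖U (f r) (b r) - U (f t) (b t)‖ ≤
      ‖b r - b t‖ + ‖U (f r) (b t) - U (f t) (b t)‖ := by
    intro r
    calc ‖U (f r) (b r) - U (f t) (b t)‖ = ‖U (f r) (b r - b t) + (U (f r) (b t) - U (f t) (b t))‖ := by
          congr 1; rw [U_sub]; abel
      _ ≤ ‖U (f r) (b r - b t)‖ + ‖U (f r) (b t) - U (f t) (b t)‖ := norm_add_le _ _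
      _ = _ := by rw [norm_U]
  have h2 : Tendsto (fun r => ‖b r - b t‖ + ‖U (f r) (b t) - U (f t) (b t)‖) (𝓝[s] t) (𝓝 0) := by
    have h3 : Tendsto (fun r => ‖b r - b t‖) (𝓝[s] t) (𝓝 0) :=
      tendsto_iff_norm_sub_tendsto_zero.1 (hb t ht)
    have h4 : Tendsto (fun r => ‖U (f r) (b t) - U (f t) (b t)‖) (𝓝[s] t) (𝓝 0) := by
      have h5 : Tendsto (fun r => U (f r) (b t)) (𝓝[s] t) (𝓝 (U (f t) (b t))) :=
        (((continuous_U (b t)).comp hf).continuousAt).mono_left nhdsWithin_le_nhds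
      exact tendsto_iff_norm_sub_tendsto_zero.1 h5
    simpa using h3.add h4
  exact squeeze_zero (fun _ => norm_nonneg _) h1 h2

lemma continuous_Nl (m : ℕ) : Continuous (Nl m) := by
  induction m with
  | zero => exact continuous_id
  | succ m ih =>
    change Continuous fun a : A => (a * star a) * Nl m a
    exact (continuous_id.mul continuous_star).mul ih

/-! ### the vector field in the interaction picture -/

/-- `F t a = -i U(-t) N(U(t) a)` -/
def F (m : ℕ) (t : ℝ) (a : A) : A := (-I : ℂ) • U (-t) (Nl m (U t a))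

lemma norm_F_le (m : ℕ) (t : ℝ) (a : A) : ‖F m t a‖ ≤ ‖a‖ ^ (2 * m + 1) := by
  rw [F, norm_smul, norm_neg, Complex.norm_I, one_mul, norm_U]
  exact (norm_Nl_le m _).trans (by rw [norm_U])

lemma norm_F_sub_le (m : ℕ) (t : ℝ) {R : ℝ} (a b : A) (ha : ‖a‖ ≤ R) (hb : ‖b‖ ≤ R) :
    ‖F m t a - F m t b‖ ≤ (2 * m + 1) * R ^ (2 * m) * ‖a - b‖ := by
  rw [F, F, ← smul_sub, norm_smul, norm_neg, Complex.norm_I, one_mul, ← U_sub, norm_U]
  refine (norm_Nl_sub_le m (R := R) _ _ (by rwa [norm_U]) (by rwa [norm_U])).trans (le_of_eq ?_)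
  rw [← U_sub, norm_U]

lemma continuousOn_F (m : ℕ) {s : Set ℝ} {b : ℝ → A} (hb : ContinuousOn b s) :
    ContinuousOn (fun t => F m t (b t)) s := by
  have h0 : ContinuousOn (fun t => U (-t) (Nl m (U t (b t)))) s := ?_
  · exact h0.const_smul (-I : ℂ)
  refine continuousOn_U_comp continuous_neg ?_
  exact (continuous_Nl m).comp_continuousOn (continuousOn_U_comp continuous_id hb)

/-! ### tame estimates -/

/-- bounded weights with a quasi-subadditivity constant `K` -/
structure TW (K : ℝ) where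
  w : Z12 → ℝ
  B : ℝ
  nonneg : ∀ k, 0 ≤ w k
  le : ∀ k, w k ≤ B
  add_le : ∀ j k, w (j + k) ≤ K * (w j + w k)
  neg : ∀ k, w (-k) = w k

variable {K : ℝ}

lemma TW.norm_le (W : TW K) (k : Z12) : ‖((W.w k : ℝ) : ℂ)‖ ≤ W.B := by
  rw [Complex.norm_real, Real.norm_eq_abs, abs_of_nonneg (W.nonneg k)]; exact W.le k

/-- weight multiplication -/
def TW.P (W : TW K) : A →L[ℂ] A := mult (fun k => ((W.w k : ℝ) : ℂ)) W.B W.norm_le

lemma TW.co_P (W : TW K) (a : A) (k : Z12) : co (W.P a) k = (W.w k : ℂ) * co a k := co_mult _ _ _ _ _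

lemma TW.norm_P (W : TW K) (a : A) : ‖W.P a‖ = ∑' k, W.w k * ‖co a k‖ := by
  rw [TW.P, norm_mult]
  refine tsum_congr (fun k => ?_)
  rw [Complex.norm_real, Real.norm_eq_abs, abs_of_nonneg (W.nonneg k)]

lemma TW.summable_P (W : TW K) (a : A) : Summable fun k => W.w k * ‖co a k‖ := by
  refine (summable_co (W.P a)).congr (fun k => ?_)
  rw [W.co_P, norm_mul, Complex.norm_real, Real.norm_eq_abs, abs_of_nonneg (W.nonneg k)]

lemma TW.norm_P_star (W : TW K) (a : A) : ‖W.P (star a)‖ = ‖W.P a‖ := by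
  rw [W.norm_P, W.norm_P, ← (Equiv.neg Z12).tsum_eq (fun k => W.w k * ‖co a k‖)]
  refine tsum_congr (fun k => ?_)
  simp only [Equiv.neg_apply]
  rw [star_co, RCLike.norm_conj, W.neg]

lemma TW.norm_P_U (W : TW K) (t : ℝ) (a : A) : ‖W.P (U t a)‖ = ‖W.P a‖ := by
  rw [W.norm_P, W.norm_P]
  refine tsum_congr (fun k => ?_)
  rw [co_U, norm_mul, norm_ph, one_mul]

lemma co_mul (a b : A) (k : Z12) : co (a * b) k = ∑' t, co a t * co b (k - t) := by
  have h1 : co (a * b) k = cv cnt (XG.den a) (XG.den b) k :=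
    Measure.ae_count_iff.1 (XG.den_mul a b) k
  rw [h1, cv, integral_eq]
  · rfl
  · refine Summable.of_nonneg_of_le (fun _ => norm_nonneg _) (fun t => ?_)
      ((summable_co a).mul_right ‖b‖)
    rw [norm_mul]
    have := norm_co_le b (k - t)
    gcongr
    · exact le_rfl
    · exact this

lemma TW.tame_mul (W : TW K) (a b : A) :
    ‖W.P (a * b)‖ ≤ K * (‖W.P a‖ * ‖b‖ + ‖a‖ * ‖W.P b‖) := by
  have ia : Integrable (fun t => ‖co a t‖) cnt := integrable_iff.2 (by simpa using summable_co a)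
  have ib : Integrable (fun t => ‖co b t‖) cnt := integrable_iff.2 (by simpa using summable_co b)
  have iwa : Integrable (fun t => W.w t * ‖co a t‖) cnt := integrable_iff.2 (by
    refine (W.summable_P a).congr fun k => ?_
    rw [Real.norm_of_nonneg (mul_nonneg (W.nonneg k) (norm_nonneg _))])
  have iwb : Integrable (fun t => W.w t * ‖co b t‖) cnt := integrable_iff.2 (by
    refine (W.summable_P b).congr fun k => ?_
    rw [Real.norm_of_nonneg (mul_nonneg (W.nonneg k) (norm_nonneg _))])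
  have hR : ∀ (f g : Z12 → ℝ), (∀ k, 0 ≤ f k) → (∀ k, 0 ≤ g k) → Summable f →
      (∃ C, ∀ k, g k ≤ C) → ∀ k, Summable fun t => f t * g (k - t) := by
    intro f g hf hg hs ⟨C, hC⟩ k
    refine Summable.of_nonneg_of_le (fun t => mul_nonneg (hf t) (hg _)) (fun t => ?_)
      (hs.mul_right C)
    exact mul_le_mul_of_nonneg_left (hC _) (hf t)
  have hcv : ∀ (f g : Z12 → ℝ), (∀ k, 0 ≤ f k) → (∀ k, 0 ≤ g k) → Summable f →
      (∃ C, ∀ k, g k ≤ C) → ∀ k, cvR cnt f g k = ∑' t, f t * g (k - t) := by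
    intro f g hf hg hs hC k
    rw [cvR, integral_eq]
    refine (hR f g hf hg hs hC k).congr (fun t => ?_)
    rw [Real.norm_of_nonneg (mul_nonneg (hf t) (hg _))]
  have sa : Summable fun t => ‖co a t‖ := summable_co a
  have sb : Summable fun t => ‖co b t‖ := summable_co b
  have swa := W.summable_P a
  have swb := W.summable_P b
  have bb : ∃ C, ∀ k, ‖co b k‖ ≤ C := ⟨‖b‖, norm_co_le b⟩
  have bwb : ∃ C, ∀ k, W.w k * ‖co b k‖ ≤ C := ⟨W.B * ‖b‖, fun k => by
    have h1 := W.le k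
    have h2 := norm_co_le b k
    have h3 := W.nonneg k
    exact mul_le_mul h1 h2 (norm_nonneg _) (h3.trans h1)⟩
  have na : ∀ k, 0 ≤ ‖co a k‖ := fun k => norm_nonneg _
  have nb : ∀ k, 0 ≤ ‖co b k‖ := fun k => norm_nonneg _
  have nwa : ∀ k, 0 ≤ W.w k * ‖co a k‖ := fun k => mul_nonneg (W.nonneg k) (norm_nonneg _)
  have nwb : ∀ k, 0 ≤ W.w k * ‖co b k‖ := fun k => mul_nonneg (W.nonneg k) (norm_nonneg _)
  -- pointwise bound
  have key : ∀ k, W.w k * ‖co (a * b) k‖ ≤
      K * (cvR cnt (fun t => W.w t * ‖co a t‖) (fun t => ‖co b t‖) k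
        + cvR cnt (fun t => ‖co a t‖) (fun t => W.w t * ‖co b t‖) k) := by
    intro k
    rw [hcv _ _ nwa nb swa bb k, hcv _ _ na nwb sa bwb k, co_mul]
    have s1 := hR _ _ nwa nb swa bb k
    have s2 := hR _ _ na nwb sa bwb k
    have s0 := hR _ _ na nb sa bb k
    have h1 : ‖∑' t, co a t * co b (k - t)‖ ≤ ∑' t, ‖co a t‖ * ‖co b (k - t)‖ := by
      have := norm_tsum_le_tsum_norm (f := fun t => co a t * co b (k - t))
        (s0.congr fun t => (norm_mul _ _).symm)
      refine this.trans (le_of_eq (tsum_congr fun t => norm_mul _ _))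
    calc W.w k * ‖∑' t, co a t * co b (k - t)‖ ≤ W.w k * ∑' t, ‖co a t‖ * ‖co b (k - t)‖ :=
          mul_le_mul_of_nonneg_left h1 (W.nonneg k)
      _ = ∑' t, W.w k * (‖co a t‖ * ‖co b (k - t)‖) := tsum_mul_left.symm
      _ ≤ ∑' t, K * ((W.w t * ‖co a t‖) * ‖co b (k - t)‖ + ‖co a t‖ * (W.w (k - t) * ‖co b (k - t)‖)) := by
          refine (s0.mul_left (W.w k)).tsum_le_tsum (fun t => ?_) ((s1.add s2).mul_left K)
          have h2 : W.w k ≤ K * (W.w t + W.w (k - t)) := by
            have := W.add_le t (k - t)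
            rwa [add_sub_cancel] at this
          have h3 := mul_le_mul_of_nonneg_right h2
            (mul_nonneg (norm_nonneg (co a t)) (norm_nonneg (co b (k - t))))
          calc _ ≤ _ := h3
            _ = _ := by ring
      _ = K * (∑' t, (W.w t * ‖co a t‖) * ‖co b (k - t)‖
          + ∑' t, ‖co a t‖ * (W.w (k - t) * ‖co b (k - t)‖)) := by
          rw [tsum_mul_left, (s1.tsum_add s2)]
  have hI1 := integral_cvR iwa ib
  have hI2 := integral_cvR ia iwb
  have c1 := integrable_cvR iwa ib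
  have c2 := integrable_cvR ia iwb
  have e1 : ‖W.P (a * b)‖ = ∫ k, W.w k * ‖co (a * b) k‖ ∂cnt := by
    rw [W.norm_P, integral_eq]
    refine (W.summable_P (a * b)).congr fun k => ?_
    rw [Real.norm_of_nonneg (mul_nonneg (W.nonneg k) (norm_nonneg _))]
  have ea : ‖W.P a‖ = ∫ k, W.w k * ‖co a k‖ ∂cnt := by
    rw [W.norm_P, integral_eq]
    refine (W.summable_P a).congr fun k => ?_
    rw [Real.norm_of_nonneg (nwa k)]
  have eb : ‖W.P b‖ = ∫ k, W.w k * ‖co b k‖ ∂cnt := by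
    rw [W.norm_P, integral_eq]
    refine (W.summable_P b).congr fun k => ?_
    rw [Real.norm_of_nonneg (nwb k)]
  have fa : ‖a‖ = ∫ k, ‖co a k‖ ∂cnt := by
    rw [norm_eq_tsum, integral_eq]; simpa using sa
  have fb : ‖b‖ = ∫ k, ‖co b k‖ ∂cnt := by
    rw [norm_eq_tsum, integral_eq]; simpa using sb
  rw [e1, ea, eb, fa, fb, ← hI1, ← hI2, ← integral_add c1 c2, ← integral_const_mul]
  refine integral_mono (integrable_iff.2 ?_) ((c1.add c2).const_mul K) key
  refine (W.summable_P (a * b)).congr fun k => ?_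
  rw [Real.norm_of_nonneg (mul_nonneg (W.nonneg k) (norm_nonneg _))]

/-- tame constants -/
def tk (K : ℝ) : ℕ → ℝ
  | 0 => 1
  | m + 1 => K * (2 * K + tk K m)

lemma tk_nonneg (hK : 0 ≤ K) (m : ℕ) : 0 ≤ tk K m := by
  induction m with
  | zero => simp [tk]
  | succ m ih => rw [tk]; positivity

lemma TW.tame_Nl (hK : 0 ≤ K) (W : TW K) (m : ℕ) (a : A) :
    ‖W.P (Nl m a)‖ ≤ tk K m * ‖a‖ ^ (2 * m) * ‖W.P a‖ := by
  induction m with
  | zero => simp [Nl, tk]
  | succ m ih =>
    have h1 : ‖W.P (a * star a)‖ ≤ K * (2 * ‖a‖ * ‖W.P a‖) := by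
      refine (W.tame_mul a (star a)).trans (le_of_eq ?_)
      rw [norm_star, W.norm_P_star]; ring
    have h2 : ‖a * star a‖ ≤ ‖a‖ * ‖a‖ := by
      refine (norm_mul_le _ _).trans (le_of_eq ?_)
      rw [norm_star]
    have h3 := tk_nonneg hK m
    rw [Nl]
    calc ‖W.P ((a * star a) * Nl m a)‖
        ≤ K * (‖W.P (a * star a)‖ * ‖Nl m a‖ + ‖a * star a‖ * ‖W.P (Nl m a)‖) := W.tame_mul _ _
      _ ≤ K * ((K * (2 * ‖a‖ * ‖W.P a‖)) * ‖a‖ ^ (2 * m + 1)
          + (‖a‖ * ‖a‖) * (tk K m * ‖a‖ ^ (2 * m) * ‖W.P a‖)) := by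
          gcongr
          exact norm_Nl_le m a
      _ = tk K (m + 1) * ‖a‖ ^ (2 * (m + 1)) * ‖W.P a‖ := by rw [tk]; ring

/-- truncated polynomial weight -/
def trW (M : ℕ) (R : ℝ) (hR : 0 ≤ R) : TW (2 ^ M) where
  w := fun k => min ((1 + nk k) ^ M) R
  B := R
  nonneg := fun k => le_min (pow_nonneg (by have := nk_nonneg k; linarith) _) hR
  le := fun k => min_le_right _ _
  add_le := fun j k => by
    have hj := nk_nonneg j
    have hk := nk_nonneg k
    have h1 : (1 + nk (j + k)) ^ M ≤ 2 ^ M * ((1 + nk j) ^ M + (1 + nk k) ^ M) := by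
      have h2 : 1 + nk (j + k) ≤ 2 * max (1 + nk j) (1 + nk k) := by
        have := nk_add_le j k
        have := le_max_left (1 + nk j) (1 + nk k)
        have := le_max_right (1 + nk j) (1 + nk k)
        linarith
      calc (1 + nk (j + k)) ^ M ≤ (2 * max (1 + nk j) (1 + nk k)) ^ M := by
            gcongr
            have := nk_nonneg (j + k); linarith
        _ = 2 ^ M * (max (1 + nk j) (1 + nk k)) ^ M := mul_pow _ _ _
        _ ≤ _ := by
            gcongr
            rcases max_choice (1 + nk j) (1 + nk k) with h | h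
            · rw [h]
              have : 0 ≤ (1 + nk k) ^ M := by positivity
              linarith
            · rw [h]
              have : 0 ≤ (1 + nk j) ^ M := by positivity
              linarith
    have h4 : (1 : ℝ) ≤ 2 ^ M := one_le_pow₀ (by norm_num)
    have a0 : 0 ≤ (1 + nk j) ^ M := by positivity
    have b0 : 0 ≤ (1 + nk k) ^ M := by positivity
    have h5 : min ((1 + nk (j + k)) ^ M) R ≤ min (2 ^ M * ((1 + nk j) ^ M + (1 + nk k) ^ M)) R :=
      min_le_min_right _ h1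
    refine h5.trans ?_
    rcases le_total ((1 + nk j) ^ M) R with hj1 | hj1 <;> rcases le_total ((1 + nk k) ^ M) R with hk1 | hk1
    · rw [min_eq_left hj1, min_eq_left hk1]; exact min_le_left _ _
    · rw [min_eq_left hj1, min_eq_right hk1]
      refine (min_le_right _ _).trans ?_
      nlinarith
    · rw [min_eq_right hj1, min_eq_left hk1]
      refine (min_le_right _ _).trans ?_
      nlinarith
    · rw [min_eq_right hj1, min_eq_right hk1]
      refine (min_le_right _ _).trans ?_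
      nlinarith
  neg := fun k => by simp only [nk_neg]

lemma trW_w (M : ℕ) (R : ℝ) (hR : 0 ≤ R) (k : Z12) : (trW M R hR).w k = min ((1 + nk k) ^ M) R := rfl

lemma trW_norm_le (M : ℕ) (R : ℝ) (hR : 0 ≤ R) (a : A)
    (ha : Summable fun k => (1 + nk k) ^ M * ‖co a k‖) :
    ‖(trW M R hR).P a‖ ≤ ∑' k, (1 + nk k) ^ M * ‖co a k‖ := by
  rw [TW.norm_P]
  refine ((trW M R hR).summable_P a).tsum_le_tsum (fun k => ?_) ha
  rw [trW_w]
  gcongr
  exact min_le_left _ _

lemma summable_of_trW (M : ℕ) (a : A) {C : ℝ} (h : ∀ (R : ℝ) (hR : 0 ≤ R), ‖(trW M R hR).P a‖ ≤ C) :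
    (Summable fun k => (1 + nk k) ^ M * ‖co a k‖) ∧ ∑' k, (1 + nk k) ^ M * ‖co a k‖ ≤ C := by
  have hnn : ∀ k, 0 ≤ (1 + nk k) ^ M * ‖co a k‖ := fun k => by
    have := nk_nonneg k; positivity
  have hfin : ∀ s : Finset Z12, ∑ k ∈ s, (1 + nk k) ^ M * ‖co a k‖ ≤ C := by
    intro s
    let R : ℝ := ∑ k ∈ s, (1 + nk k) ^ M
    have hR : 0 ≤ R := Finset.sum_nonneg fun k _ => by have := nk_nonneg k; positivity
    have h1 : ∑ k ∈ s, (1 + nk k) ^ M * ‖co a k‖ = ∑ k ∈ s, (trW M R hR).w k * ‖co a k‖ := by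
      refine Finset.sum_congr rfl fun k hk => ?_
      rw [trW_w, min_eq_left]
      exact Finset.single_le_sum (f := fun k => (1 + nk k) ^ M)
        (fun k _ => by have := nk_nonneg k; positivity) hk
    rw [h1]
    refine le_trans ?_ (h R hR)
    rw [TW.norm_P]
    exact ((trW M R hR).summable_P a).sum_le_tsum s
      (fun k _ => mul_nonneg ((trW M R hR).nonneg k) (norm_nonneg _))
  have hs : Summable fun k => (1 + nk k) ^ M * ‖co a k‖ := summable_of_sum_le hnn hfin
  exact ⟨hs, hs.tsum_le_of_sum_le hfin⟩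

end Crest.Agent.R086.TC
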