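import Mathlib

/-!
Row 86 (S0114), node GrowStep (helper530), file 1: ordinary differential equations in a Banach space
on a whole time interval, near an approximate trajectory; Gronwall for continuous seminorms.
-/

set_option autoImplicit false
set_option linter.unusedSectionVars false
set_option linter.unusedVariables false

open Set Filter Metric MeasureTheory
open scoped Topology NNReal

namespace Crest.Agent.R086.TG

noncomputable section

variable {X : Type*} [NormedAddCommGroup X] [NormedSpace ℝ X]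

/-- radial retraction onto the closed unit ball -/
def retr (v : X) : X := (max 1 ‖v‖)⁻¹ • v

theorem norm_retr_le_one (v : X) : ‖retr v‖ ≤ 1 := by
  unfold retr
  have h : (0 : ℝ) < max 1 ‖v‖ := lt_max_of_lt_left one_pos
  rw [norm_smul, norm_inv, Real.norm_of_nonneg h.le, inv_mul_le_iff₀ h, mul_one]
  exact le_max_right _ _

theorem norm_retr_le (v : X) : ‖retr v‖ ≤ ‖v‖ := by
  unfold retr
  have h : (1 : ℝ) ≤ max 1 ‖v‖ := le_max_left _ _
  rw [norm_smul, norm_inv, Real.norm_of_nonneg (by linarith)]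
  have : (max 1 ‖v‖)⁻¹ ≤ 1 := inv_le_one_of_one_le₀ h
  nlinarith [norm_nonneg v]

theorem retr_of_le {v : X} (h : ‖v‖ ≤ 1) : retr v = v := by
  unfold retr; rw [max_eq_left h]; simp

theorem retr_lip (v w : X) : ‖retr v - retr w‖ ≤ 2 * ‖v - w‖ := by
  unfold retr
  have h0 : |max 1 ‖v‖ - max 1 ‖w‖| ≤ ‖v - w‖ := by
    rw [max_comm 1, max_comm 1]
    exact (abs_max_sub_max_le_abs _ _ _).trans (abs_norm_sub_norm_le v w)
  have hw : ‖w‖ ≤ max 1 ‖w‖ := le_max_right _ _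
  have ha : (1 : ℝ) ≤ max 1 ‖v‖ := le_max_left _ _
  have hb : (1 : ℝ) ≤ max 1 ‖w‖ := le_max_left _ _
  generalize max 1 ‖v‖ = a at *
  generalize max 1 ‖w‖ = b at *
  have e : a⁻¹ • v - b⁻¹ • w = a⁻¹ • (v - w) + (a⁻¹ - b⁻¹) • w := by
    rw [smul_sub, sub_smul]; abel
  have ha0 : 0 < a := by linarith
  have hb0 : 0 < b := by linarith
  have h1 : ‖a⁻¹ • (v - w)‖ ≤ ‖v - w‖ := by
    rw [norm_smul, norm_inv, Real.norm_of_nonneg ha0.le]
    have : a⁻¹ ≤ 1 := inv_le_one_of_one_le₀ ha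
    nlinarith [norm_nonneg (v - w)]
  have h2 : ‖(a⁻¹ - b⁻¹) • w‖ ≤ ‖v - w‖ := by
    rw [norm_smul, Real.norm_eq_abs]
    have e2 : a⁻¹ - b⁻¹ = (b - a) / (a * b) := by field_simp
    rw [e2, abs_div, abs_of_pos (mul_pos ha0 hb0), div_mul_eq_mul_div, div_le_iff₀ (mul_pos ha0 hb0),
      abs_sub_comm]
    calc |a - b| * ‖w‖ ≤ ‖v - w‖ * b := mul_le_mul h0 hw (norm_nonneg _) (norm_nonneg _)
      _ ≤ ‖v - w‖ * (a * b) := by
        refine mul_le_mul_of_nonneg_left ?_ (norm_nonneg _)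
        nlinarith
  rw [e]
  calc _ ≤ ‖a⁻¹ • (v - w)‖ + ‖(a⁻¹ - b⁻¹) • w‖ := norm_add_le _ _
    _ ≤ _ := by linarith

theorem deriv_Ici {v : ℝ → X} {v' : X} {T t : ℝ} (ht : t ∈ Ico 0 T)
    (h : HasDerivWithinAt v v' (Icc 0 T) t) : HasDerivWithinAt v v' (Ici t) t :=
  h.mono_of_mem_nhdsWithin (Icc_mem_nhdsGE_of_mem ht)

/-- existence on the whole interval `[0,T]` for small data -/
theorem small_ode [CompleteSpace X] {G : ℝ → X → X} {T K e : ℝ} (hT : 0 ≤ T) (hK : 0 ≤ K)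
    (he : 0 ≤ e)
    (hc : ∀ v, ‖v‖ ≤ 1 → ContinuousOn (fun t => G t v) (Icc 0 T))
    (hl : ∀ t ∈ Icc 0 T, ∀ v w, ‖v‖ ≤ 1 → ‖w‖ ≤ 1 → ‖G t v - G t w‖ ≤ K * ‖v - w‖)
    (h0 : ∀ t ∈ Icc 0 T, ‖G t 0‖ ≤ e) {v0 : X}
    (hs : ∀ t ∈ Icc 0 T, gronwallBound ‖v0‖ K e t ≤ 1) :
    ∃ v : ℝ → X, v 0 = v0 ∧ (∀ t ∈ Icc 0 T, HasDerivWithinAt v (G t (v t)) (Icc 0 T) t) ∧
      ∀ t ∈ Icc 0 T, ‖v t‖ ≤ gronwallBound ‖v0‖ K e t := by
  have hG : ∀ t ∈ Icc 0 T, ∀ v : X, ‖v‖ ≤ 1 → ‖G t v‖ ≤ K * ‖v‖ + e := by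
    intro t ht v hv
    have h1 := hl t ht v 0 hv (by simp)
    have h2 := h0 t ht
    have h3 : ‖G t v‖ ≤ ‖G t v - G t 0‖ + ‖G t 0‖ := by
      simpa using norm_add_le (G t v - G t 0) (G t 0)
    rw [sub_zero] at h1
    linarith
  have hPL : IsPicardLindelof (fun t v => G t (retr v)) (tmin := 0) (tmax := T) ⟨0, ⟨le_rfl, hT⟩⟩ v0
      (Real.toNNReal ((K + e) * T)) 0 (Real.toNNReal (K + e)) (Real.toNNReal (2 * K)) := by
    refine ⟨fun t ht => ?_, fun x _ => ?_, fun t ht x _ => ?_, ?_⟩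
    · refine LipschitzOnWith.of_dist_le_mul fun x _ y _ => ?_
      rw [dist_eq_norm, dist_eq_norm, Real.coe_toNNReal _ (by positivity)]
      calc _ ≤ K * ‖retr x - retr y‖ := hl t ht _ _ (norm_retr_le_one _) (norm_retr_le_one _)
        _ ≤ K * (2 * ‖x - y‖) := mul_le_mul_of_nonneg_left (retr_lip x y) hK
        _ = _ := by ring
    · exact hc _ (norm_retr_le_one x)
    · rw [Real.coe_toNNReal _ (by positivity)]
      have := hG t ht _ (norm_retr_le_one x)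
      nlinarith [norm_retr_le_one x]
    · rw [Real.coe_toNNReal _ (by positivity), Real.coe_toNNReal _ (by positivity)]
      simp [hT]
  obtain ⟨v, hv0, hv⟩ := hPL.exists_eq_forall_mem_Icc_hasDerivWithinAt₀
  have hcv : ContinuousOn v (Icc 0 T) := fun t ht => (hv t ht).continuousWithinAt
  have hb : ∀ t ∈ Icc 0 T, ‖v t‖ ≤ gronwallBound ‖v0‖ K e (t - 0) := by
    refine norm_le_gronwallBound_of_norm_deriv_right_le hcv (fun t ht => deriv_Ici ht
      (hv t (Ico_subset_Icc_self ht))) (by simp only at hv0; rw [hv0]) fun t ht => ?_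
    have h1 := hG t (Ico_subset_Icc_self ht) _ (norm_retr_le_one (v t))
    have h2 := mul_le_mul_of_nonneg_left (norm_retr_le (v t)) hK
    linarith
  simp only [sub_zero] at hb
  refine ⟨v, hv0, fun t ht => ?_, hb⟩
  have h1 := hv t ht
  rwa [retr_of_le ((hb t ht).trans (hs t ht))] at h1

/-! ### Gronwall for seminorms -/

theorem semi_cont {p : Seminorm ℝ X} {C : ℝ} (hp : ∀ x, p x ≤ C * ‖x‖) : Continuous p := by
  have hC : LipschitzWith (Real.toNNReal C) p := by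
    refine LipschitzWith.of_dist_le_mul fun x y => ?_
    rw [Real.dist_eq, dist_eq_norm]
    refine (abs_sub_map_le_sub p x y).trans ((hp _).trans ?_)
    exact mul_le_mul_of_nonneg_right (Real.le_coe_toNNReal C) (norm_nonneg _)
  exact hC.continuous

theorem semi_gronwall {p : Seminorm ℝ X} {C : ℝ} (hp : ∀ x, p x ≤ C * ‖x‖) {v v' : ℝ → X}
    {K ε δ T : ℝ} (hv : ∀ t ∈ Icc 0 T, HasDerivWithinAt v (v' t) (Icc 0 T) t)
    (h0 : p (v 0) ≤ δ) (hb : ∀ t ∈ Icc 0 T, p (v' t) ≤ K * p (v t) + ε) :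
    ∀ t ∈ Icc 0 T, p (v t) ≤ gronwallBound δ K ε t := by
  have hpc := semi_cont hp
  have h := le_gronwallBound_of_liminf_deriv_right_le (f := fun t => p (v t))
    (f' := fun t => p (v' t)) (δ := δ) (K := K) (ε := ε) (a := 0) (b := T)
    (hpc.comp_continuousOn fun t ht => (hv t ht).continuousWithinAt) ?_ h0
    (fun t ht => hb t (Ico_subset_Icc_self ht))
  · simpa using h
  intro t ht r hr
  have h1 := (deriv_Ici ht (hv t (Ico_subset_Icc_self ht))).Ioi_of_Ici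
  rw [hasDerivWithinAt_iff_tendsto_slope' (by simp)] at h1
  have h2 : Tendsto (fun z => p (slope v t z)) (𝓝[>] t) (𝓝 (p (v' t))) :=
    (hpc.tendsto _).comp h1
  refine (((h2.eventually_lt_const hr).and self_mem_nhdsWithin).mono ?_).frequently
  rintro z ⟨hz, hz1⟩
  have hz2 : (0 : ℝ) < z - t := sub_pos.2 hz1
  refine lt_of_le_of_lt ?_ hz
  rw [slope_def_module, map_smul_eq_mul, Real.norm_of_nonneg (inv_pos.2 hz2).le]
  refine mul_le_mul_of_nonneg_left ?_ (inv_pos.2 hz2).le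
  exact (le_abs_self _).trans (abs_sub_map_le_sub p _ _)

/-! ### near an approximate trajectory -/

section traj

variable {H : ℝ → X → X} {Ph : ℝ → X} {T : ℝ}

/-- residual of the approximate trajectory -/
def resid (H : ℝ → X → X) (Ph : ℝ → X) (t : ℝ) : X :=
  Ph t - Ph 0 - ∫ s in (0 : ℝ)..t, H s (Ph s)

theorem cont_along (hH : ContinuousOn (Function.uncurry H) (Icc 0 T ×ˢ univ))
    (hP : ContinuousOn Ph (Icc 0 T)) : ContinuousOn (fun t => H t (Ph t)) (Icc 0 T) :=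
  hH.comp (continuousOn_id.prodMk hP) fun t ht => ⟨ht, mem_univ _⟩

theorem deriv_int [CompleteSpace X] {f : ℝ → X} (hf : ContinuousOn f (Icc 0 T)) {t : ℝ}
    (ht : t ∈ Icc 0 T) :
    HasDerivWithinAt (fun t => ∫ s in (0 : ℝ)..t, f s) (f t) (Icc 0 T) t := by
  have : Fact (t ∈ Icc 0 T) := ⟨ht⟩
  refine intervalIntegral.integral_hasDerivWithinAt_right ?_
    (hf.stronglyMeasurableAtFilter_nhdsWithin measurableSet_Icc t) (hf t ht)
  refine (hf.mono ?_).intervalIntegrable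
  rw [uIcc_of_le ht.1]
  exact Icc_subset_Icc_right ht.2

/-- seminorm of the distance of a trajectory to the approximate trajectory -/
theorem semi_traj [CompleteSpace X]
    (hH : ContinuousOn (Function.uncurry H) (Icc 0 T ×ˢ univ))
    (hP : ContinuousOn Ph (Icc 0 T)) {y : ℝ → X}
    (hy : ∀ t ∈ Icc 0 T, HasDerivWithinAt y (H t (y t)) (Icc 0 T) t)
    {p : Seminorm ℝ X} {C : ℝ} (hp : ∀ x, p x ≤ C * ‖x‖) {K F ep : ℝ} (hK : 0 ≤ K)
    (hρ : ∀ t ∈ Icc 0 T, p (resid H Ph t) ≤ ep)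
    (hb : ∀ t ∈ Icc 0 T, p (H t (y t) - H t (Ph t)) ≤ K * p (y t - Ph t) + F) :
    ∀ t ∈ Icc 0 T, p (y t - Ph t) ≤ gronwallBound (p (y 0 - Ph 0)) K (K * ep + F) t + ep := by
  have hcP := cont_along hH hP
  have hv : ∀ t ∈ Icc 0 T, HasDerivWithinAt
      (fun t => y t - (Ph 0 + ∫ s in (0 : ℝ)..t, H s (Ph s))) (H t (y t) - H t (Ph t)) (Icc 0 T) t :=
    fun t ht => (hy t ht).sub ((deriv_int hcP ht).const_add _)
  have e1 : ∀ t, y t - (Ph 0 + ∫ s in (0 : ℝ)..t, H s (Ph s)) = (y t - Ph t) + resid H Ph t := by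
    intro t; unfold resid; abel
  have h := semi_gronwall hp (K := K) (ε := K * ep + F) (δ := p (y 0 - Ph 0)) hv
    (by simp) (fun t ht => ?_)
  · intro t ht
    have h1 := h t ht
    have h2 : p (y t - Ph t) ≤ p (y t - (Ph 0 + ∫ s in (0 : ℝ)..t, H s (Ph s)))
        + p (resid H Ph t) := by
      have h3 : y t - Ph t = (y t - (Ph 0 + ∫ s in (0 : ℝ)..t, H s (Ph s))) - resid H Ph t := by
        rw [e1]; abel
      rw [h3]
      exact (map_sub_le_add p _ _)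
    have h4 := hρ t ht
    linarith
  · have h1 := hb t ht
    have h2 : p (y t - Ph t) ≤ p (y t - (Ph 0 + ∫ s in (0 : ℝ)..t, H s (Ph s)))
        + p (resid H Ph t) := by
      have h3 : y t - Ph t = (y t - (Ph 0 + ∫ s in (0 : ℝ)..t, H s (Ph s))) - resid H Ph t := by
        rw [e1]; abel
      rw [h3]
      exact (map_sub_le_add p _ _)
    have h4 := hρ t ht
    nlinarith

/-- existence near an approximate trajectory -/
theorem near_traj [CompleteSpace X] (hT : 0 ≤ T)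
    (hH : ContinuousOn (Function.uncurry H) (Icc 0 T ×ˢ univ))
    (hP : ContinuousOn Ph (Icc 0 T)) {M K e : ℝ} (hK : 0 ≤ K) (he : 0 ≤ e) (he1 : e ≤ 1)
    (hPb : ∀ t ∈ Icc 0 T, ‖Ph t‖ ≤ M)
    (hl : ∀ t ∈ Icc 0 T, ∀ x y, ‖x‖ ≤ M + 2 → ‖y‖ ≤ M + 2 → ‖H t x - H t y‖ ≤ K * ‖x - y‖)
    (hρ : ∀ t ∈ Icc 0 T, ‖resid H Ph t‖ ≤ e) {y0 : X}
    (hs : ∀ t ∈ Icc 0 T, gronwallBound ‖y0 - Ph 0‖ K (K * e) t ≤ 1) :
    ∃ y : ℝ → X, y 0 = y0 ∧ (∀ t ∈ Icc 0 T, HasDerivWithinAt y (H t (y t)) (Icc 0 T) t) ∧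
      ∀ t ∈ Icc 0 T, ‖y t - Ph t‖ ≤ gronwallBound ‖y0 - Ph 0‖ K (K * e) t + e := by
  have hcP := cont_along hH hP
  have hcI : ContinuousOn (fun t => ∫ s in (0 : ℝ)..t, H s (Ph s)) (Icc 0 T) := fun t ht =>
    (deriv_int hcP ht).continuousWithinAt
  have e1 : ∀ t, Ph 0 + (∫ s in (0 : ℝ)..t, H s (Ph s)) = Ph t - resid H Ph t := by
    intro t; unfold resid; abel
  have hb1 : ∀ t ∈ Icc 0 T, ∀ v : X, ‖v‖ ≤ 1 →
      ‖Ph 0 + (∫ s in (0 : ℝ)..t, H s (Ph s)) + v‖ ≤ M + 2 := by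
    intro t ht v hv
    rw [e1]
    calc _ ≤ ‖Ph t - resid H Ph t‖ + ‖v‖ := norm_add_le _ _
      _ ≤ ‖Ph t‖ + ‖resid H Ph t‖ + ‖v‖ := by gcongr; exact norm_sub_le _ _
      _ ≤ M + 2 := by linarith [hPb t ht, hρ t ht]
  have a1 : ∀ w : X, ‖w‖ ≤ 1 → ContinuousOn
      (fun t => H t (Ph 0 + (∫ s in (0 : ℝ)..t, H s (Ph s)) + w) - H t (Ph t)) (Icc 0 T) := by
    intro w _
    refine ContinuousOn.sub (hH.comp (continuousOn_id.prodMk
      ((continuousOn_const.add hcI).add continuousOn_const)) fun t ht => ⟨ht, mem_univ _⟩) hcP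
  have a2 : ∀ t ∈ Icc 0 T, ∀ a b : X, ‖a‖ ≤ 1 → ‖b‖ ≤ 1 →
      ‖(H t (Ph 0 + (∫ s in (0 : ℝ)..t, H s (Ph s)) + a) - H t (Ph t)) -
        (H t (Ph 0 + (∫ s in (0 : ℝ)..t, H s (Ph s)) + b) - H t (Ph t))‖ ≤ K * ‖a - b‖ := by
    intro t ht a b ha hb
    have h1 := hl t ht _ _ (hb1 t ht a ha) (hb1 t ht b hb)
    simpa using h1
  have a3 : ∀ t ∈ Icc 0 T,
      ‖H t (Ph 0 + (∫ s in (0 : ℝ)..t, H s (Ph s)) + 0) - H t (Ph t)‖ ≤ K * e := by
    intro t ht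
    have hM : ‖Ph t‖ ≤ M + 2 := by linarith [hPb t ht]
    have h1 := hl t ht _ _ (hb1 t ht 0 (by simp)) hM
    refine h1.trans (mul_le_mul_of_nonneg_left ?_ hK)
    rw [e1]
    have : Ph t - resid H Ph t + 0 - Ph t = - resid H Ph t := by abel
    rw [this, norm_neg]
    exact hρ t ht
  obtain ⟨v, hv0, hv, hvb⟩ := small_ode (X := X) (T := T) (K := K) (e := K * e)
    (G := fun t v => H t (Ph 0 + (∫ s in (0 : ℝ)..t, H s (Ph s)) + v) - H t (Ph t))
    hT hK (mul_nonneg hK he) a1 a2 a3 hs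
  refine ⟨fun t => Ph 0 + (∫ s in (0 : ℝ)..t, H s (Ph s)) + v t, by simp [hv0], fun t ht => ?_,
      fun t ht => ?_⟩
  · have h1 := ((deriv_int hcP ht).const_add (Ph 0)).add (hv t ht)
    simp only [add_sub_cancel] at h1
    exact h1
  · have h2 : Ph 0 + (∫ s in (0 : ℝ)..t, H s (Ph s)) + v t - Ph t = v t - resid H Ph t := by
      rw [e1]; abel
    simp only [h2]
    calc _ ≤ ‖v t‖ + ‖resid H Ph t‖ := norm_sub_le _ _
      _ ≤ _ := add_le_add (hvb t ht) (hρ t ht)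

end traj

/-- explicit form of the Gronwall bound -/
theorem gronwallBound_le {δ K ε t : ℝ} (hK : 0 < K) (hε : 0 ≤ ε) :
    gronwallBound δ K ε t ≤ (δ + ε / K) * Real.exp (K * t) := by
  rw [gronwallBound_of_K_ne_0 hK.ne']
  have : 0 ≤ ε / K := div_nonneg hε hK.le
  nlinarith [Real.exp_pos (K * t)]

end

end Crest.Agent.R086.TG
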