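import Mathlib

/-!
Row 86 (S0114), node GrowStep (helper530), file 2: estimates for the nonlinearity
`Nl m a = a (a a*)^m` in a commutative star ring with a multiplicative seminorm `q` and a tame
seminorm `p`.
-/

set_option autoImplicit false
set_option linter.unusedVariables false

namespace Crest.Agent.R086.TG

noncomputable section

section nl
variable {R : Type*} [NonUnitalCommRing R] [StarRing R]

/-- `a (a a*)^m` -/
def Nl : ℕ → R → R
  | 0, a => a
  | m + 1, a => Nl m a * (a * star a)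

@[simp] theorem Nl_zero (a : R) : Nl 0 a = a := rfl
theorem Nl_succ (m : ℕ) (a : R) : Nl (m + 1) a = Nl m a * (a * star a) := rfl

theorem Nl_sub (m : ℕ) (a b : R) : Nl (m + 1) a - Nl (m + 1) b =
    (Nl m a - Nl m b) * (a * star a) + ((a - b) * star a + star (a - b) * b) * Nl m b := by
  rw [Nl_succ, Nl_succ, star_sub]
  have h : ∀ x y u v w z : R, x * (u * w) - y * (v * z) =
      (x - y) * (u * w) + ((u - v) * w + (w - z) * v) * y := by
    intro x y u v w z
    rw [mul_comm y (v * z), sub_mul x y, sub_mul u v, sub_mul w z, add_mul, sub_mul, sub_mul,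
      mul_comm w v, mul_comm z v, mul_comm y (u * w)]
    abel
  exact h _ _ _ _ _ _

/-- a multiplicative seminorm `q` and a tame seminorm `p` -/
structure Tame (q p : R → ℝ) (c : ℝ) : Prop where
  c0 : 0 ≤ c
  q0 : ∀ a, 0 ≤ q a
  p0 : ∀ a, 0 ≤ p a
  qadd : ∀ a b, q (a + b) ≤ q a + q b
  padd : ∀ a b, p (a + b) ≤ p a + p b
  qstar : ∀ a, q (star a) = q a
  pstar : ∀ a, p (star a) = p a
  qmul : ∀ a b, q (a * b) ≤ q a * q b
  pmul : ∀ a b, p (a * b) ≤ 2 * p a * q b + c * q a * p b

/-- leading constant: independent of `c` -/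
def ell : ℕ → ℝ
  | 0 => 1
  | m + 1 => 2 * ell m + 8

theorem ell_nonneg : ∀ m, 0 ≤ ell m
  | 0 => zero_le_one
  | m + 1 => by have := ell_nonneg m; unfold ell; linarith

def c3 (A c : ℝ) : ℕ → ℝ
  | 0 => 1
  | m + 1 => 2 * c3 A c m * A ^ 2 + c * A ^ (2 * m + 1) * ((2 + c) * A)

def c4 (A c : ℝ) : ℕ → ℝ
  | 0 => 0
  | m + 1 => 2 * A ^ 2 * c4 A c m + c * ((2 * m + 1) * A ^ (2 * m)) * ((2 + c) * A)
      + 2 * A ^ (2 * m + 1) * c + c * (2 * A) * c3 A c m

theorem c3_nonneg {A c : ℝ} (hA : 0 ≤ A) (hc : 0 ≤ c) : ∀ m, 0 ≤ c3 A c m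
  | 0 => zero_le_one
  | m + 1 => by
    have := c3_nonneg hA hc m
    unfold c3; positivity

theorem c4_nonneg {A c : ℝ} (hA : 0 ≤ A) (hc : 0 ≤ c) : ∀ m, 0 ≤ c4 A c m
  | 0 => le_rfl
  | m + 1 => by
    have h1 := c4_nonneg hA hc m
    have h2 := c3_nonneg hA hc m
    unfold c4; positivity

namespace Tame
variable {q p : R → ℝ} {c : ℝ} (h : Tame q p c) {A : ℝ}
include h

theorem q_Nl (m : ℕ) (a : R) (ha : q a ≤ A) : q (Nl m a) ≤ A ^ (2 * m + 1) := by
  induction m with
  | zero => simpa using ha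
  | succ m ih =>
    have hA : 0 ≤ A := (h.q0 a).trans ha
    rw [Nl_succ]
    calc q (Nl m a * (a * star a)) ≤ q (Nl m a) * q (a * star a) := h.qmul _ _
      _ ≤ A ^ (2 * m + 1) * (A * A) := by
        refine mul_le_mul ih ?_ (h.q0 _) (by positivity)
        refine (h.qmul _ _).trans (mul_le_mul ha ?_ (h.q0 _) hA)
        rw [h.qstar]; exact ha
      _ = _ := by ring

theorem q_aa (a : R) (ha : q a ≤ A) : q (a * star a) ≤ A ^ 2 := by
  have hA : 0 ≤ A := (h.q0 a).trans ha
  calc _ ≤ q a * q (star a) := h.qmul _ _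
    _ ≤ A * A := by rw [h.qstar]; exact mul_le_mul ha ha (h.q0 _) hA
    _ = _ := by ring

theorem p_aa (a : R) (ha : q a ≤ A) : p (a * star a) ≤ (2 + c) * A * p a := by
  have hA : 0 ≤ A := (h.q0 a).trans ha
  have h1 := h.pmul a (star a)
  rw [h.qstar, h.pstar] at h1
  have h2 := mul_le_mul_of_nonneg_right ha (h.p0 a)
  have h3 := mul_le_mul_of_nonneg_left h2 h.c0
  nlinarith

theorem q_diff1 (a b : R) (ha : q a ≤ A) (hb : q b ≤ A) :
    q ((a - b) * star a + star (a - b) * b) ≤ 2 * A * q (a - b) := by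
  have h1 := h.qmul (a - b) (star a)
  have h2 := h.qmul (star (a - b)) b
  rw [h.qstar] at h1 h2
  have h3 := mul_le_mul_of_nonneg_left ha (h.q0 (a - b))
  have h4 := mul_le_mul_of_nonneg_left hb (h.q0 (a - b))
  have h5 := h.qadd ((a - b) * star a) (star (a - b) * b)
  linarith

theorem p_diff1 (a b : R) (ha : q a ≤ A) (hb : q b ≤ A) :
    p ((a - b) * star a + star (a - b) * b) ≤
      4 * A * p (a - b) + c * q (a - b) * (p a + p b) := by
  have h1 := h.pmul (a - b) (star a)
  have h2 := h.pmul (star (a - b)) b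
  rw [h.qstar, h.pstar] at h1 h2
  have h3 := mul_le_mul_of_nonneg_left ha (h.p0 (a - b))
  have h4 := mul_le_mul_of_nonneg_left hb (h.p0 (a - b))
  have h5 := h.padd ((a - b) * star a) (star (a - b) * b)
  nlinarith

theorem q_sub (m : ℕ) (a b : R) (ha : q a ≤ A) (hb : q b ≤ A) :
    q (Nl m a - Nl m b) ≤ (2 * m + 1) * A ^ (2 * m) * q (a - b) := by
  have hA : 0 ≤ A := (h.q0 a).trans ha
  induction m with
  | zero => simp
  | succ m ih =>
    rw [Nl_sub]
    have h1 := h.q_aa a ha
    have h2 := h.q_diff1 a b ha hb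
    have h3 := h.q_Nl m b hb
    have hw := h.q0 (a - b)
    calc _ ≤ q ((Nl m a - Nl m b) * (a * star a)) +
          q (((a - b) * star a + star (a - b) * b) * Nl m b) := h.qadd _ _
      _ ≤ q (Nl m a - Nl m b) * q (a * star a) +
          q ((a - b) * star a + star (a - b) * b) * q (Nl m b) :=
          add_le_add (h.qmul _ _) (h.qmul _ _)
      _ ≤ ((2 * m + 1) * A ^ (2 * m) * q (a - b)) * A ^ 2 + (2 * A * q (a - b)) * A ^ (2 * m + 1) :=
          add_le_add (mul_le_mul ih h1 (h.q0 _) (by positivity))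
            (mul_le_mul h2 h3 (h.q0 _) (by positivity))
      _ = _ := by push_cast; ring

theorem p_Nl (m : ℕ) (a : R) (ha : q a ≤ A) : p (Nl m a) ≤ c3 A c m * p a := by
  have hA : 0 ≤ A := (h.q0 a).trans ha
  induction m with
  | zero => simp [c3]
  | succ m ih =>
    rw [Nl_succ, c3]
    have h1 := h.pmul (Nl m a) (a * star a)
    have h2 := h.q_aa a ha
    have h3 := h.p_aa a ha
    have h4 := h.q_Nl m a ha
    have hp := h.p0 a
    have hc3 := c3_nonneg hA h.c0 m
    have h5 : p (Nl m a) * q (a * star a) ≤ (c3 A c m * p a) * A ^ 2 :=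
      mul_le_mul ih h2 (h.q0 _) (by positivity)
    have h6 : q (Nl m a) * p (a * star a) ≤ A ^ (2 * m + 1) * ((2 + c) * A * p a) :=
      mul_le_mul h4 h3 (h.p0 _) (by positivity)
    have h7 := mul_le_mul_of_nonneg_left h6 h.c0
    calc _ ≤ 2 * (p (Nl m a) * q (a * star a)) + c * (q (Nl m a) * p (a * star a)) := by
          linarith
      _ ≤ 2 * ((c3 A c m * p a) * A ^ 2) + c * (A ^ (2 * m + 1) * ((2 + c) * A * p a)) := by
          linarith
      _ = _ := by ring

theorem p_sub (m : ℕ) (a b : R) (ha : q a ≤ A) (hb : q b ≤ A) :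
    p (Nl m a - Nl m b) ≤ ell m * A ^ (2 * m) * p (a - b)
      + c4 A c m * q (a - b) * (p a + p b) := by
  have hA : 0 ≤ A := (h.q0 a).trans ha
  induction m with
  | zero => simp [ell, c4]
  | succ m ih =>
    rw [Nl_sub]
    have hc := h.c0
    have hpw := h.p0 (a - b)
    have hqw := h.q0 (a - b)
    have hpa := h.p0 a
    have hpb := h.p0 b
    have hc3 := c3_nonneg hA hc m
    have hc4 := c4_nonneg hA hc m
    have hell := ell_nonneg m
    -- first term
    have t1 := h.pmul (Nl m a - Nl m b) (a * star a)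
    have t2 : p (Nl m a - Nl m b) * q (a * star a) ≤
        (ell m * A ^ (2 * m) * p (a - b) + c4 A c m * q (a - b) * (p a + p b)) * A ^ 2 :=
      mul_le_mul ih (h.q_aa a ha) (h.q0 _) (by positivity)
    have t3 : q (Nl m a - Nl m b) * p (a * star a) ≤
        ((2 * m + 1) * A ^ (2 * m) * q (a - b)) * ((2 + c) * A * p a) :=
      mul_le_mul (h.q_sub m a b ha hb) (h.p_aa a ha) (h.p0 _) (by positivity)
    have t4 := mul_le_mul_of_nonneg_left t3 hc
    have T1 : p ((Nl m a - Nl m b) * (a * star a)) ≤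
        2 * ((ell m * A ^ (2 * m) * p (a - b) + c4 A c m * q (a - b) * (p a + p b)) * A ^ 2)
        + c * (((2 * m + 1) * A ^ (2 * m) * q (a - b)) * ((2 + c) * A * (p a + p b))) := by
      have t5 : c * (((2 * m + 1) * A ^ (2 * m) * q (a - b)) * ((2 + c) * A * p a)) ≤
          c * (((2 * m + 1) * A ^ (2 * m) * q (a - b)) * ((2 + c) * A * (p a + p b))) := by
        refine mul_le_mul_of_nonneg_left (mul_le_mul_of_nonneg_left
          (mul_le_mul_of_nonneg_left (by linarith) (by positivity)) (by positivity)) hc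
      linarith
    -- second term
    have s1 := h.pmul ((a - b) * star a + star (a - b) * b) (Nl m b)
    have s2 : p ((a - b) * star a + star (a - b) * b) * q (Nl m b) ≤
        (4 * A * p (a - b) + c * q (a - b) * (p a + p b)) * A ^ (2 * m + 1) :=
      mul_le_mul (h.p_diff1 a b ha hb) (h.q_Nl m b hb) (h.q0 _) (by positivity)
    have s3 : q ((a - b) * star a + star (a - b) * b) * p (Nl m b) ≤
        (2 * A * q (a - b)) * (c3 A c m * (p a + p b)) :=
      mul_le_mul (h.q_diff1 a b ha hb) ((h.p_Nl m b hb).trans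
        (mul_le_mul_of_nonneg_left (by linarith) hc3)) (h.p0 _) (by positivity)
    have s4 := mul_le_mul_of_nonneg_left s3 hc
    have T2 : p (((a - b) * star a + star (a - b) * b) * Nl m b) ≤
        2 * ((4 * A * p (a - b) + c * q (a - b) * (p a + p b)) * A ^ (2 * m + 1))
        + c * ((2 * A * q (a - b)) * (c3 A c m * (p a + p b))) := by linarith
    calc _ ≤ p ((Nl m a - Nl m b) * (a * star a)) +
          p (((a - b) * star a + star (a - b) * b) * Nl m b) := h.padd _ _
      _ ≤ _ := add_le_add T1 T2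
      _ = _ := by rw [ell, c4]; ring

end Tame

end nl

end

end Crest.Agent.R086.TG
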