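import Crest.Agent.R086.WieG

/-!
# Row 86, node DA: the Banach algebra `XG μ W` (helper384)
-/

set_option autoImplicit false
set_option linter.unusedSectionVars false

open MeasureTheory Complex Filter Set
open scoped ContDiff ENNReal NNReal Topology Convolution

noncomputable section

namespace Crest.Agent.R086.Wie

variable {G : Type*} [AddCommGroup G] [MeasurableSpace G]

/-- the Banach space of densities with weight `W` -/
def XG (μ : Measure G) (W : Wt G) : Type _ := Lp ℂ 1 (mW μ W)

instance (μ : Measure G) (W : Wt G) : NormedAddCommGroup (XG μ W) :=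
  inferInstanceAs (NormedAddCommGroup (Lp ℂ 1 (mW μ W)))
instance (μ : Measure G) (W : Wt G) : NormedSpace ℂ (XG μ W) :=
  inferInstanceAs (NormedSpace ℂ (Lp ℂ 1 (mW μ W)))
instance (μ : Measure G) (W : Wt G) : CompleteSpace (XG μ W) :=
  inferInstanceAs (CompleteSpace (Lp ℂ 1 (mW μ W)))

namespace XG

variable {μ : Measure G} {W : Wt G}

/-- the element as an element of `Lp` -/
def toLp (a : XG μ W) : Lp ℂ 1 (mW μ W) := a

/-- the density function of an element -/
def den (a : XG μ W) : G → ℂ := (toLp a : G → ℂ)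

/-- element with a given density -/
def mk (a : G → ℂ) (ha : GInt μ W a) : XG μ W := (integrable_mW_iff.2 ha).toL1 a

theorem den_mk {a : G → ℂ} (ha : GInt μ W a) : den (mk a ha) =ᵐ[μ] a := by
  have h : (den (mk a ha) : G → ℂ) =ᵐ[mW μ W] a := (integrable_mW_iff.2 ha).coeFn_toL1
  exact (ac_mW μ W).ae_le h

theorem gint_den (a : XG μ W) : GInt μ W (den a) := by
  have h : Integrable (den a) (mW μ W) := L1.integrable_coeFn (toLp a)
  exact integrable_mW_iff.1 h

theorem integrable_den (a : XG μ W) : Integrable (den a) μ := (gint_den a).integrable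

theorem ext {a b : XG μ W} (h : den a =ᵐ[μ] den b) : a = b := by
  have h' : (toLp a : G → ℂ) =ᵐ[mW μ W] (toLp b : G → ℂ) := (mW_ac μ W).ae_le h
  exact Lp.ext h'

theorem mk_den (a : XG μ W) : mk (den a) (gint_den a) = a := ext (den_mk _)

theorem mk_congr {a b : G → ℂ} (ha : GInt μ W a) (hb : GInt μ W b) (h : a =ᵐ[μ] b) :
    mk a ha = mk b hb := ext (((den_mk ha).trans h).trans (den_mk hb).symm)

theorem norm_eq (a : XG μ W) : ‖a‖ = ∫ x, W x * ‖den a x‖ ∂μ := by
  have h1 : ‖a‖ = ∫ x, ‖den a x‖ ∂(mW μ W) := L1.norm_eq_integral_norm (toLp a)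
  rw [h1, integral_mW]
  rfl

theorem norm_mk {a : G → ℂ} (ha : GInt μ W a) : ‖mk a ha‖ = ∫ x, W x * ‖a x‖ ∂μ := by
  rw [norm_eq]
  refine integral_congr_ae ((den_mk ha).mono fun x hx => ?_)
  simp only [hx]

theorem integral_norm_le (a : XG μ W) : ∫ x, ‖den a x‖ ∂μ ≤ ‖a‖ := by
  rw [norm_eq]
  refine integral_mono a.integrable_den.norm (gint_den a).norm_int fun x => ?_
  nlinarith [W.one_le x, norm_nonneg (den a x)]

theorem den_add (a b : XG μ W) : den (a + b) =ᵐ[μ] fun x => den a x + den b x := by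
  have h := Lp.coeFn_add (toLp a) (toLp b)
  exact (ac_mW μ W).ae_le h

theorem den_sub (a b : XG μ W) : den (a - b) =ᵐ[μ] fun x => den a x - den b x := by
  have h := Lp.coeFn_sub (toLp a) (toLp b)
  exact (ac_mW μ W).ae_le h

theorem den_neg (a : XG μ W) : den (-a) =ᵐ[μ] fun x => -den a x := by
  have h := Lp.coeFn_neg (toLp a)
  exact (ac_mW μ W).ae_le h

theorem den_smul (c : ℂ) (a : XG μ W) : den (c • a) =ᵐ[μ] fun x => c * den a x := by
  have h := Lp.coeFn_smul c (toLp a)
  exact (ac_mW μ W).ae_le h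

theorem den_zero : den (0 : XG μ W) =ᵐ[μ] fun _ => 0 := by
  have h := Lp.coeFn_zero ℂ 1 (mW μ W)
  exact (ac_mW μ W).ae_le h

theorem mk_add {a b : G → ℂ} (ha : GInt μ W a) (hb : GInt μ W b) :
    mk (fun x => a x + b x) (ha.add hb) = mk a ha + mk b hb := by
  refine ext ?_
  filter_upwards [den_mk (ha.add hb), den_add (mk a ha) (mk b hb), den_mk ha, den_mk hb]
    with x h1 h2 h3 h4
  rw [h1, h2, h3, h4]

theorem mk_smul {a : G → ℂ} (c : ℂ) (ha : GInt μ W a) :
    mk (fun x => c * a x) (ha.const_mul c) = c • mk a ha := by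
  refine ext ?_
  filter_upwards [den_mk (ha.const_mul c), den_smul c (mk a ha), den_mk ha] with x h1 h2 h3
  rw [h1, h2, h3]

/-! ### bounded operators given by a function-level map -/

/-- a linear map on densities which respects a.e. equality and is bounded in the weighted norms
gives a continuous linear map -/
def lift {H : Type*} [AddCommGroup H] [MeasurableSpace H] {ν : Measure H} {W' : Wt H}
    (T : (G → ℂ) → H → ℂ) (hT : ∀ a, GInt μ W a → GInt ν W' (T a))
    (hadd : ∀ a b, GInt μ W a → GInt μ W b →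
      T (fun x => a x + b x) =ᵐ[ν] fun x => T a x + T b x)
    (hsmul : ∀ (c : ℂ) a, GInt μ W a → T (fun x => c * a x) =ᵐ[ν] fun x => c * T a x)
    (hcongr : ∀ a b, GInt μ W a → a =ᵐ[μ] b → T a =ᵐ[ν] T b)
    (C : ℝ) (hC : ∀ a, GInt μ W a → ∫ x, W' x * ‖T a x‖ ∂ν ≤ C * ∫ x, W x * ‖a x‖ ∂μ) :
    XG μ W →L[ℂ] XG ν W' :=
  LinearMap.mkContinuous
    { toFun := fun a => mk (T (den a)) (hT _ (gint_den a))
      map_add' := fun a b => by
        refine ext ?_
        have h1 := hcongr _ _ (gint_den (a + b)) (den_add a b)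
        filter_upwards [den_mk (hT _ (gint_den (a + b))), h1,
          hadd _ _ (gint_den a) (gint_den b), den_add (mk (T (den a)) (hT _ (gint_den a)))
            (mk (T (den b)) (hT _ (gint_den b))), den_mk (hT _ (gint_den a)),
          den_mk (hT _ (gint_den b))] with x h1 h2 h3 h4 h5 h6
        rw [h1, h2, h3, h4, h5, h6]
      map_smul' := fun c a => by
        refine ext ?_
        have h1 := hcongr _ _ (gint_den (c • a)) (den_smul c a)
        simp only [RingHom.id_apply]
        filter_upwards [den_mk (hT _ (gint_den (c • a))), h1, hsmul c _ (gint_den a),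
          den_smul c (mk (T (den a)) (hT _ (gint_den a))), den_mk (hT _ (gint_den a))]
          with x h1 h2 h3 h4 h5
        rw [h1, h2, h3, h4, h5] } C
    (fun a => by
      show ‖mk (T (den a)) (hT _ (gint_den a))‖ ≤ C * ‖a‖
      rw [norm_mk, norm_eq]
      exact hC _ (gint_den a))

theorem den_lift {H : Type*} [AddCommGroup H] [MeasurableSpace H] {ν : Measure H} {W' : Wt H}
    (T : (G → ℂ) → H → ℂ) (hT : ∀ a, GInt μ W a → GInt ν W' (T a))
    (hadd : ∀ a b, GInt μ W a → GInt μ W b →
      T (fun x => a x + b x) =ᵐ[ν] fun x => T a x + T b x)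
    (hsmul : ∀ (c : ℂ) a, GInt μ W a → T (fun x => c * a x) =ᵐ[ν] fun x => c * T a x)
    (hcongr : ∀ a b, GInt μ W a → a =ᵐ[μ] b → T a =ᵐ[ν] T b)
    (C : ℝ) (hC : ∀ a, GInt μ W a → ∫ x, W' x * ‖T a x‖ ∂ν ≤ C * ∫ x, W x * ‖a x‖ ∂μ)
    (a : XG μ W) : den (lift T hT hadd hsmul hcongr C hC a) =ᵐ[ν] T (den a) :=
  den_mk (hT _ (gint_den a))

theorem norm_lift_le {H : Type*} [AddCommGroup H] [MeasurableSpace H] {ν : Measure H} {W' : Wt H}
    (T : (G → ℂ) → H → ℂ) (hT : ∀ a, GInt μ W a → GInt ν W' (T a))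
    (hadd : ∀ a b, GInt μ W a → GInt μ W b →
      T (fun x => a x + b x) =ᵐ[ν] fun x => T a x + T b x)
    (hsmul : ∀ (c : ℂ) a, GInt μ W a → T (fun x => c * a x) =ᵐ[ν] fun x => c * T a x)
    (hcongr : ∀ a b, GInt μ W a → a =ᵐ[μ] b → T a =ᵐ[ν] T b)
    (C : ℝ) (hC : ∀ a, GInt μ W a → ∫ x, W' x * ‖T a x‖ ∂ν ≤ C * ∫ x, W x * ‖a x‖ ∂μ)
    (hC0 : 0 ≤ C) : ‖lift T hT hadd hsmul hcongr C hC‖ ≤ C :=
  LinearMap.mkContinuous_norm_le _ hC0 _

/-! ### inclusion between weights -/

/-- the inclusion `XG μ W → XG μ W'` for `W' ≤ W` -/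
def incl {W' : Wt G} (h : ∀ x, W' x ≤ W x) : XG μ W →L[ℂ] XG μ W' :=
  lift (fun a => a) (fun _ ha => ha.of_le (C := 1) (fun x => by rw [one_mul]; exact h x))
    (fun _ _ _ _ => EventuallyEq.rfl) (fun _ _ _ => EventuallyEq.rfl) (fun _ _ _ h => h) 1
    (fun a ha => by
      rw [one_mul]
      have ha' : GInt μ W' a := ha.of_le (C := 1) (fun x => by rw [one_mul]; exact h x)
      refine integral_mono ha'.norm_int ha.norm_int fun x => ?_
      exact mul_le_mul_of_nonneg_right (h x) (norm_nonneg _))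

theorem den_incl {W' : Wt G} (h : ∀ x, W' x ≤ W x) (a : XG μ W) :
    den (incl h a) =ᵐ[μ] den a := den_lift _ _ _ _ _ _ _ a

theorem norm_incl_le {W' : Wt G} (h : ∀ x, W' x ≤ W x) (a : XG μ W) : ‖incl h a‖ ≤ ‖a‖ := by
  rw [norm_eq, norm_eq]
  have e : ∫ x, W' x * ‖den (incl h a) x‖ ∂μ = ∫ x, W' x * ‖den a x‖ ∂μ :=
    integral_congr_ae ((den_incl h a).mono fun x hx => by simp only [hx])
  rw [e]
  have ha' : GInt μ W' (den a) :=
    (gint_den a).of_le (C := 1) (fun x => by rw [one_mul]; exact h x)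
  refine integral_mono ha'.norm_int (gint_den a).norm_int fun x => ?_
  exact mul_le_mul_of_nonneg_right (h x) (norm_nonneg _)

theorem incl_injective {W' : Wt G} (h : ∀ x, W' x ≤ W x) :
    Function.Injective (incl (μ := μ) h) := fun a b hab =>
  ext (((den_incl h a).symm.trans (by rw [hab])).trans (den_incl h b))

/-! ### Fourier multipliers (multiplication of the density by a bounded function) -/

/-- multiplication of the density by a bounded measurable function -/
def fmul (φ : G → ℂ) (hφ : AEStronglyMeasurable φ μ) (C : ℝ) (hC : ∀ x, ‖φ x‖ ≤ C) :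
    XG μ W →L[ℂ] XG μ W :=
  lift (fun a x => φ x * a x) (fun _ ha => ha.bdd_mul hφ hC)
    (fun _ _ _ _ => Eventually.of_forall fun x => by simp only [mul_add])
    (fun _ _ _ => Eventually.of_forall fun x => by simp only; ring)
    (fun _ _ _ h => h.mono fun x hx => by simp only [hx]) C
    (fun a ha => by
      rw [← integral_const_mul]
      refine integral_mono (ha.bdd_mul hφ hC).norm_int (ha.norm_int.const_mul C) fun x => ?_
      simp only [norm_mul]
      have h1 := mul_le_mul_of_nonneg_right (hC x) (mul_nonneg (W.nonneg x) (norm_nonneg (a x)))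
      calc W x * (‖φ x‖ * ‖a x‖) = ‖φ x‖ * (W x * ‖a x‖) := by ring
        _ ≤ _ := h1)

theorem den_fmul {φ : G → ℂ} (hφ : AEStronglyMeasurable φ μ) {C : ℝ} (hC : ∀ x, ‖φ x‖ ≤ C)
    (a : XG μ W) : den (fmul φ hφ C hC a) =ᵐ[μ] fun x => φ x * den a x :=
  den_lift _ _ _ _ _ _ _ a

theorem norm_fmul_le {φ : G → ℂ} (hφ : AEStronglyMeasurable φ μ) {C : ℝ} (hC : ∀ x, ‖φ x‖ ≤ C)
    (hC0 : 0 ≤ C) : ‖(fmul φ hφ C hC : XG μ W →L[ℂ] XG μ W)‖ ≤ C :=
  norm_lift_le _ _ _ _ _ _ _ hC0

/-! ### product -/

section alg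

variable [MeasurableAdd₂ G] [MeasurableNeg G] [SigmaFinite μ] [μ.IsAddLeftInvariant]
  [μ.IsNegInvariant]

instance : Mul (XG μ W) := ⟨fun a b => mk (cv μ (den a) (den b)) ((gint_den a).cv (gint_den b))⟩

theorem mul_def (a b : XG μ W) :
    a * b = mk (cv μ (den a) (den b)) ((gint_den a).cv (gint_den b)) := rfl

theorem den_mul (a b : XG μ W) : den (a * b) =ᵐ[μ] cv μ (den a) (den b) := den_mk _

/-- the product is determined by testing -/
theorem integral_mul_den_mul (a b : XG μ W) {φ : G → ℂ} (hφ : Measurable φ) {C : ℝ}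
    (hC : ∀ x, ‖φ x‖ ≤ C) :
    ∫ x, φ x * den (a * b) x ∂μ = ∫ ξ, ∫ η, φ (ξ + η) * (den a ξ * den b η) ∂μ ∂μ := by
  rw [← integral_mul_cv (integrable_den a) (integrable_den b) hφ hC]
  exact integral_congr_ae ((den_mul a b).mono fun x hx => by simp only [hx])

theorem ext_test {a b : XG μ W} (h : ∀ φ : G → ℂ, Measurable φ → (∀ x, ‖φ x‖ ≤ 1) →
    ∫ x, φ x * den a x ∂μ = ∫ x, φ x * den b x ∂μ) : a = b :=
  ext (ae_eq_of_test (integrable_den a) (integrable_den b) h)

theorem cv_congr {f f' g g' : G → ℂ} (hf : f =ᵐ[μ] f') (hg : g =ᵐ[μ] g') :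
    cv μ f g = cv μ f' g' := by
  rw [cv_eq, cv_eq]
  exact convolution_congr _ hf hg

theorem norm_mul_le' (a b : XG μ W) : ‖a * b‖ ≤ ‖a‖ * ‖b‖ := by
  rw [mul_def, norm_mk, norm_eq, norm_eq]
  exact integral_norm_cv_le (gint_den a) (gint_den b)

theorem mul_comm' (a b : XG μ W) : a * b = b * a := by
  refine ext ?_
  rw [show den (a * b) =ᵐ[μ] den (b * a) ↔ _ from Iff.rfl]
  exact ((den_mul a b).trans (by rw [cv_comm])).trans (den_mul b a).symm

theorem mul_assoc' (a b c : XG μ W) : a * b * c = a * (b * c) := by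
  refine ext ?_
  refine ((den_mul (a * b) c).trans ?_).trans (den_mul a (b * c)).symm
  rw [cv_congr (den_mul a b) (EventuallyEq.refl _ (den c)),
    cv_congr (EventuallyEq.refl _ (den a)) (den_mul b c)]
  exact cv_assoc (integrable_den a) (integrable_den b) (integrable_den c)

theorem cv_add_ae {f g h : G → ℂ} (hf : Integrable f μ) (hg : Integrable g μ)
    (hh : Integrable h μ) : cv μ f (fun x => g x + h x) =ᵐ[μ] fun x => cv μ f g x + cv μ f h x := by
  filter_upwards [hf.ae_convolution_exists (ContinuousLinearMap.mul ℂ ℂ) hg,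
    hf.ae_convolution_exists (ContinuousLinearMap.mul ℂ ℂ) hh] with x h1 h2
  have h1' : Integrable (fun t => f t * g (x - t)) μ := h1
  have h2' : Integrable (fun t => f t * h (x - t)) μ := h2
  simp only [cv, mul_add]
  exact integral_add h1' h2'

theorem mul_add' (a b c : XG μ W) : a * (b + c) = a * b + a * c := by
  refine ext ?_
  refine (den_mul a (b + c)).trans ?_
  rw [cv_congr (EventuallyEq.refl _ (den a)) (den_add b c)]
  filter_upwards [cv_add_ae (integrable_den a) (integrable_den b) (integrable_den c),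
    den_add (a * b) (a * c), den_mul a b, den_mul a c] with x h1 h2 h3 h4
  rw [h1, h2, h3, h4]

theorem mul_smul' (r : ℂ) (a b : XG μ W) : a * (r • b) = r • (a * b) := by
  refine ext ?_
  refine (den_mul a (r • b)).trans ?_
  rw [cv_congr (EventuallyEq.refl _ (den a)) (den_smul r b)]
  filter_upwards [den_smul r (a * b), den_mul a b] with x h1 h2
  rw [h1, h2]
  simp only [cv]
  rw [← integral_const_mul]
  refine integral_congr_ae (Eventually.of_forall fun t => ?_)
  simp only; ring

instance : NonUnitalNormedCommRing (XG μ W) :=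
  { (inferInstance : NormedAddCommGroup (XG μ W)) with
    mul := (· * ·)
    left_distrib := mul_add'
    right_distrib := fun a b c => by rw [mul_comm', mul_add', mul_comm' c a, mul_comm' c b]
    zero_mul := fun a => by
      have h := mul_add' a 0 0
      rw [add_zero] at h
      rw [mul_comm']
      exact (left_eq_add.1 h)
    mul_zero := fun a => by
      have h := mul_add' a 0 0
      rw [add_zero] at h
      exact (left_eq_add.1 h)
    mul_assoc := mul_assoc'
    mul_comm := mul_comm'
    norm_mul_le := norm_mul_le' }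

instance : SMulCommClass ℂ (XG μ W) (XG μ W) :=
  ⟨fun r a b => (mul_smul' r a b).symm⟩

instance : IsScalarTower ℂ (XG μ W) (XG μ W) :=
  ⟨fun r a b => by
    show (r • a) * b = r • (a * b)
    rw [mul_comm' (r • a) b, mul_smul', mul_comm' b a]⟩

end alg

/-! ### involution -/

section star

variable [MeasurableNeg G] [μ.IsNegInvariant]

instance : Star (XG μ W) := ⟨fun a => mk _ (gint_den a).star⟩

theorem star_def (a : XG μ W) : star a = mk _ (gint_den a).star := rfl

theorem den_star (a : XG μ W) : den (star a) =ᵐ[μ] fun x => (starRingEnd ℂ) (den a (-x)) :=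
  den_mk _

theorem norm_star' (a : XG μ W) : ‖star a‖ = ‖a‖ := by
  rw [star_def, norm_mk, norm_eq, ← integral_neg_eq_self (fun x => W x * ‖den a x‖) μ]
  refine integral_congr_ae (Eventually.of_forall fun x => ?_)
  simp only [W.neg, RCLike.norm_conj]

theorem ae_neg {p : G → Prop} (h : ∀ᵐ x ∂μ, p x) : ∀ᵐ x ∂μ, p (-x) :=
  (Measure.measurePreserving_neg μ).quasiMeasurePreserving.ae h

theorem star_star' (a : XG μ W) : star (star a) = a := by
  refine ext ?_
  filter_upwards [den_star (star a), ae_neg (den_star a)] with x h1 h2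
  rw [h1, h2]; simp

theorem star_add' (a b : XG μ W) : star (a + b) = star a + star b := by
  refine ext ?_
  filter_upwards [den_star (a + b), ae_neg (den_add a b), den_add (star a) (star b), den_star a,
    den_star b] with x h1 h2 h3 h4 h5
  rw [h1, h2, h3, h4, h5, map_add]

theorem star_smul' (c : ℂ) (a : XG μ W) : star (c • a) = (starRingEnd ℂ) c • star a := by
  refine ext ?_
  filter_upwards [den_star (c • a), ae_neg (den_smul c a), den_smul ((starRingEnd ℂ) c) (star a),
    den_star a] with x h1 h2 h3 h4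
  rw [h1, h2, h3, h4, map_mul]

end star

section starmul

variable [MeasurableAdd₂ G] [MeasurableNeg G] [SigmaFinite μ] [μ.IsAddLeftInvariant]
  [μ.IsNegInvariant]

theorem star_mul' (a b : XG μ W) : star (a * b) = star a * star b := by
  refine ext ?_
  refine (den_star (a * b)).trans ?_
  refine EventuallyEq.trans ?_ (den_mul (star a) (star b)).symm
  rw [cv_congr (den_star a) (den_star b)]
  filter_upwards [ae_neg (den_mul a b)] with x hx
  rw [hx]
  simp only [cv]
  rw [← integral_conj, ← integral_neg_eq_self]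
  refine integral_congr_ae (Eventually.of_forall fun t => ?_)
  simp only [map_mul]
  congr 3
  abel

instance : StarRing (XG μ W) where
  star_involutive := star_star'
  star_mul a b := by rw [star_mul', mul_comm']
  star_add := star_add'

instance : NormedStarGroup (XG μ W) := ⟨fun a => (norm_star' a).le⟩

instance : StarModule ℂ (XG μ W) := ⟨fun c a => star_smul' c a⟩

end starmul

end XG

end Crest.Agent.R086.Wie
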