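import Crest.Agent.R086.TGDefs
import Crest.Agent.R086.WieX
import Crest.Agent.R086.TorB
import Crest.Agent.R086.TG2

/-!
Row 86 (S0114), node GrowStep (helper530), file 3: the weighted Wiener algebra of coefficient
sequences on `Z12` (helper384's `XG` with the counting measure), its seminorms and the tame estimate.
-/

set_option autoImplicit false
set_option linter.unusedVariables false
set_option linter.unusedSectionVars false

open MeasureTheory Complex Set Filter
open scoped Topology NNReal ENNReal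

namespace Crest.Agent.R086.TG

open Wie

noncomputable section

/-! ### lattice norm -/

theorem zv_add (k l : Z12) : zv (k + l) = zv k + zv l := by
  ext i; simp [zv]

theorem zv_neg (k : Z12) : zv (-k) = - zv k := by
  ext i; simp [zv]

theorem nk_nonneg (k : Z12) : 0 ≤ nk k := norm_nonneg _

theorem nk_add (k l : Z12) : nk (k + l) ≤ nk k + nk l := by
  unfold nk; rw [zv_add]; exact norm_add_le _ _

theorem nk_neg (k : Z12) : nk (-k) = nk k := by
  unfold nk; rw [zv_neg, norm_neg]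

theorem summable_nk_inv : Summable fun k : Z12 => ((1 + nk k) ^ 24)⁻¹ := by
  have h := Tor.summable_wt_inv (d := 12) (M := 24) (by norm_num)
  exact h

/-! ### counting measure -/

theorem integral_cnt {E : Type*} [NormedAddCommGroup E] [NormedSpace ℝ E] [FiniteDimensional ℝ E]
    (f : Z12 → E) : ∫ k, f k ∂(Measure.count : Measure Z12) = ∑' k, f k := by
  have : CompleteSpace E := FiniteDimensional.complete ℝ E
  by_cases h : Integrable f (Measure.count : Measure Z12)
  · rw [integral_countable h]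
    refine tsum_congr fun k => ?_
    rw [measureReal_def, Measure.count_singleton]; simp
  · rw [integral_undef h]
    rw [integrable_count_iff] at h
    rw [tsum_eq_zero_of_not_summable]
    intro h1
    exact h (summable_norm_iff.2 h1)

/-- the weight `(1+h|k|)^N` -/
def wz (h : ℝ) (N : ℕ) : Wt Z12 where
  toFun k := (1 + |h| * nk k) ^ N
  meas := measurable_of_countable _
  one_le := fun k => by
    have := mul_nonneg (abs_nonneg h) (nk_nonneg k)
    exact one_le_pow₀ (by linarith)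
  add_le := fun k l => by
    rw [← mul_pow]
    refine pow_le_pow_left₀ (by have := mul_nonneg (abs_nonneg h) (nk_nonneg (k + l)); linarith) ?_ N
    have h1 := mul_le_mul_of_nonneg_left (nk_add k l) (abs_nonneg h)
    nlinarith [mul_nonneg (abs_nonneg h) (nk_nonneg k), mul_nonneg (abs_nonneg h) (nk_nonneg l),
      mul_nonneg (mul_nonneg (abs_nonneg h) (nk_nonneg k)) (mul_nonneg (abs_nonneg h) (nk_nonneg l))]
  neg := fun k => by rw [nk_neg]

theorem wz_apply (h : ℝ) (N : ℕ) (k : Z12) : wz h N k = (1 + |h| * nk k) ^ N := rfl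

/-- the algebra -/
abbrev AZ (W : Wt Z12) : Type := XG (Measure.count : Measure Z12) W

section alg
variable {W : Wt Z12}

theorem gint_cnt {a : Z12 → ℂ} : GInt (Measure.count : Measure Z12) W a ↔
    Summable fun k => W k * ‖a k‖ := by
  unfold GInt
  rw [integrable_count_iff]
  refine summable_congr fun k => ?_
  rw [norm_smul, Real.norm_of_nonneg (W.nonneg k)]

theorem smb (a : AZ W) : Summable fun k => W k * ‖a.den k‖ := gint_cnt.1 a.gint_den

theorem smb1 (a : AZ W) : Summable fun k => ‖a.den k‖ :=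
  (smb a).of_nonneg_of_le (fun k => norm_nonneg _) fun k => by
    nlinarith [W.one_le k, norm_nonneg (a.den k)]

theorem norm_tsum (a : AZ W) : ‖a‖ = ∑' k, W k * ‖a.den k‖ := by
  rw [XG.norm_eq, integral_cnt]

theorem den_add' (a b : AZ W) (k : Z12) : (a + b).den k = a.den k + b.den k :=
  Measure.ae_count_iff.1 (XG.den_add a b) k
theorem den_sub' (a b : AZ W) (k : Z12) : (a - b).den k = a.den k - b.den k :=
  Measure.ae_count_iff.1 (XG.den_sub a b) k
theorem den_neg' (a : AZ W) (k : Z12) : (-a).den k = -a.den k :=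
  Measure.ae_count_iff.1 (XG.den_neg a) k
theorem den_smul' (c : ℂ) (a : AZ W) (k : Z12) : (c • a).den k = c * a.den k :=
  Measure.ae_count_iff.1 (XG.den_smul c a) k
theorem den_zero' (k : Z12) : (0 : AZ W).den k = 0 :=
  Measure.ae_count_iff.1 (XG.den_zero (μ := (Measure.count : Measure Z12)) (W := W)) k
theorem den_mk' {a : Z12 → ℂ} (ha : GInt (Measure.count : Measure Z12) W a) (k : Z12) :
    (XG.mk a ha).den k = a k := Measure.ae_count_iff.1 (XG.den_mk ha) k
theorem den_rsmul' (c : ℝ) (a : AZ W) (k : Z12) : (c • a).den k = (c : ℂ) * a.den k := by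
  have : c • a = (c : ℂ) • a := (RCLike.real_smul_eq_coe_smul (K := ℂ) c a)
  rw [this]; exact den_smul' _ _ _

theorem ext' {a b : AZ W} (h : ∀ k, a.den k = b.den k) : a = b :=
  XG.ext (Measure.ae_count_iff.2 h)

theorem den_mul' (a b : AZ W) : (a * b).den = conv a.den b.den := by
  funext k
  have h := Measure.ae_count_iff.1 (XG.den_mul a b) k
  rw [h]
  unfold Wie.cv conv
  exact integral_cnt _

theorem den_star' (a : AZ W) : (star a).den = cst a.den := by
  funext k
  exact Measure.ae_count_iff.1 (XG.den_star a) k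

theorem den_Nl (m : ℕ) (a : AZ W) : (Nl m a).den = nlc m a.den := by
  induction m with
  | zero => rfl
  | succ m ih => rw [Nl_succ, den_mul', den_mul', den_star', ih]; rfl

/-- element with given coefficients (`0` if they are not summable) -/
def toA (W : Wt Z12) (c : Z12 → ℂ) : AZ W :=
  open Classical in
  if h : GInt (Measure.count : Measure Z12) W c then XG.mk c h else 0

theorem den_toA {c : Z12 → ℂ} (h : Summable fun k => W k * ‖c k‖) : (toA W c).den = c := by
  have h' := gint_cnt.2 h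
  unfold toA
  rw [dif_pos h']
  funext k
  exact den_mk' h' k

theorem norm_coef_le (a : AZ W) (k : Z12) : ‖a.den k‖ ≤ ‖a‖ := by
  rw [norm_tsum]
  refine le_trans ?_ ((smb a).le_tsum k fun j _ => mul_nonneg (W.nonneg j) (norm_nonneg _))
  nlinarith [W.one_le k, norm_nonneg (a.den k)]

/-- coefficient functional -/
def coef (W : Wt Z12) (k : Z12) : AZ W →L[ℂ] ℂ :=
  LinearMap.mkContinuous
    { toFun := fun a => a.den k
      map_add' := fun a b => den_add' a b k
      map_smul' := fun c a => den_smul' c a k } 1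
    (fun a => by rw [one_mul]; exact norm_coef_le a k)

theorem coef_apply (k : Z12) (a : AZ W) : coef W k a = a.den k := rfl

/-! ### seminorms -/

/-- bounded nonnegative weight -/
structure BW (ω : Z12 → ℝ) : Prop where
  nn : ∀ k, 0 ≤ ω k
  bd : ∃ R, ∀ k, ω k ≤ R

theorem smw {ω : Z12 → ℝ} (hω : BW ω) (a : AZ W) : Summable fun k => ω k * ‖a.den k‖ := by
  obtain ⟨R, hR⟩ := hω.bd
  exact ((smb1 a).mul_left R).of_nonneg_of_le (fun k => mul_nonneg (hω.nn k) (norm_nonneg _))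
    fun k => mul_le_mul_of_nonneg_right (hR k) (norm_nonneg _)

/-- `∑ ω |a_k|` as a function -/
def pw (ω : Z12 → ℝ) (a : AZ W) : ℝ := ∑' k, ω k * ‖a.den k‖

theorem pw_nonneg {ω : Z12 → ℝ} (hω : BW ω) (a : AZ W) : 0 ≤ pw ω a :=
  tsum_nonneg fun k => mul_nonneg (hω.nn k) (norm_nonneg _)

theorem pw_add {ω : Z12 → ℝ} (hω : BW ω) (a b : AZ W) : pw ω (a + b) ≤ pw ω a + pw ω b := by
  unfold pw
  rw [← (smw hω a).tsum_add (smw hω b)]
  refine (smw hω (a + b)).tsum_le_tsum (fun k => ?_) ((smw hω a).add (smw hω b))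
  rw [← mul_add, den_add']
  exact mul_le_mul_of_nonneg_left (norm_add_le _ _) (hω.nn k)

/-- the seminorm -/
def psem (W : Wt Z12) (ω : Z12 → ℝ) (hω : BW ω) : Seminorm ℝ (AZ W) :=
  Seminorm.of (pw ω) (pw_add hω) fun c a => by
    unfold pw
    rw [← tsum_mul_left]
    refine tsum_congr fun k => ?_
    rw [den_rsmul', norm_mul, Complex.norm_real]; ring

theorem psem_apply {ω : Z12 → ℝ} (hω : BW ω) (a : AZ W) : psem W ω hω a = pw ω a := rfl

theorem pw_le {ω : Z12 → ℝ} (hω : BW ω) : ∃ C, ∀ a : AZ W, pw ω a ≤ C * ‖a‖ := by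
  obtain ⟨R, hR⟩ := hω.bd
  refine ⟨max R 0, fun a => ?_⟩
  rw [norm_tsum, ← tsum_mul_left]
  refine (smw hω a).tsum_le_tsum (fun k => ?_) ((smb a).mul_left _)
  rw [← mul_assoc]
  refine mul_le_mul_of_nonneg_right ?_ (norm_nonneg _)
  have h1 := W.one_le k
  have h2 : 0 ≤ max R 0 := le_max_right _ _
  have h3 : ω k ≤ max R 0 := (hR k).trans (le_max_left _ _)
  nlinarith

theorem BW_one : BW (fun _ : Z12 => (1 : ℝ)) := ⟨fun _ => zero_le_one, ⟨1, fun _ => le_rfl⟩⟩

/-- plain `ℓ¹` norm is at most the norm -/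
theorem pw_one_le (a : AZ W) : pw (fun _ => 1) a ≤ ‖a‖ := by
  rw [norm_tsum]
  refine (smw BW_one a).tsum_le_tsum (fun k => ?_) (smb a)
  exact mul_le_mul_of_nonneg_right (W.one_le k) (norm_nonneg _)

/-! ### tame estimate -/

def cT (s : ℕ) : ℝ := (2 * s + 2) ^ s

theorem cT_nonneg (s : ℕ) : 0 ≤ cT s := by unfold cT; positivity

theorem add_pow_tame (s : ℕ) {x y : ℝ} (hx : 0 ≤ x) (hy : 0 ≤ y) :
    (x + y) ^ s ≤ 2 * x ^ s + cT s * y ^ s := by
  by_cases h : y * (2 * s + 1) ≤ x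
  · have h1 : x + y ≤ x * (1 + 1 / (2 * s + 1)) := by
      have h2 : y ≤ x / (2 * s + 1) := by rw [le_div_iff₀ (by positivity)]; exact h
      have h3 : x * (1 + 1 / (2 * s + 1)) = x + x / (2 * s + 1) := by ring
      rw [h3]; linarith
    have h4 : (1 + 1 / (2 * (s : ℝ) + 1)) ^ s ≤ 2 := by
      calc (1 + 1 / (2 * (s : ℝ) + 1)) ^ s ≤ (Real.exp (1 / (2 * (s : ℝ) + 1))) ^ s := by
            refine pow_le_pow_left₀ (by positivity) ?_ s
            rw [add_comm]; exact Real.add_one_le_exp _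
        _ = Real.exp (s * (1 / (2 * (s : ℝ) + 1))) := by rw [← Real.exp_nat_mul]
        _ ≤ Real.exp (1 / 2) := by
            refine Real.exp_le_exp.2 ?_
            rw [mul_one_div, div_le_div_iff₀ (by positivity) (by norm_num)]
            linarith
        _ ≤ 2 := by
            have h5 : Real.exp (1 / 2) ^ 2 ≤ 2 ^ 2 := by
              rw [← Real.exp_nat_mul]
              have : Real.exp ((2 : ℕ) * (1 / 2)) = Real.exp 1 := by norm_num
              rw [this]
              have := Real.exp_one_lt_d9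
              linarith
            exact (pow_le_pow_iff_left₀ (Real.exp_pos _).le (by norm_num) (by norm_num)).1 h5
    calc (x + y) ^ s ≤ (x * (1 + 1 / (2 * s + 1))) ^ s := pow_le_pow_left₀ (by positivity) h1 s
      _ = x ^ s * (1 + 1 / (2 * (s : ℝ) + 1)) ^ s := mul_pow _ _ _
      _ ≤ x ^ s * 2 := mul_le_mul_of_nonneg_left h4 (by positivity)
      _ ≤ _ := by nlinarith [mul_nonneg (cT_nonneg s) (pow_nonneg hy s)]
  · push Not at h
    have h1 : x + y ≤ (2 * s + 2) * y := by nlinarith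
    calc (x + y) ^ s ≤ ((2 * s + 2) * y) ^ s := pow_le_pow_left₀ (by positivity) h1 s
      _ = cT s * y ^ s := mul_pow _ _ _
      _ ≤ _ := by nlinarith [pow_nonneg hx s]

theorem norm_conv_le {a b : Z12 → ℂ} (ha : Summable fun k => ‖a k‖) (hb : Summable fun k => ‖b k‖)
    (k : Z12) : ‖conv a b k‖ₑ ≤ ∑' j, ‖a j‖ₑ * ‖b (k - j)‖ₑ := by
  have hs : Summable fun j => ‖a j * b (k - j)‖ := by
    obtain ⟨B, hB⟩ : ∃ B, ∀ k, ‖b k‖ ≤ B := ⟨∑' k, ‖b k‖, fun k =>
      hb.le_tsum k fun j _ => norm_nonneg _⟩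
    refine (ha.mul_right B).of_nonneg_of_le (fun j => norm_nonneg _) fun j => ?_
    rw [norm_mul]
    exact mul_le_mul_of_nonneg_left (hB _) (norm_nonneg _)
  unfold conv
  calc ‖∑' j, a j * b (k - j)‖ₑ ≤ ∑' j, ‖a j * b (k - j)‖ₑ := by
        rw [← ofReal_norm]
        have h1 : ∑' j, ‖a j * b (k - j)‖ₑ = ENNReal.ofReal (∑' j, ‖a j * b (k - j)‖) := by
          rw [ENNReal.ofReal_tsum_of_nonneg (fun j => norm_nonneg _) hs]
          exact tsum_congr fun j => (ofReal_norm _).symm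
        rw [h1]
        exact ENNReal.ofReal_le_ofReal (norm_tsum_le_tsum_norm hs)
    _ = _ := tsum_congr fun j => enorm_mul _ _

/-- tame estimate with two weights, abstract form -/
theorem conv_tame {ω ω₁ ω₂ : Z12 → ℝ≥0∞}
    (h : ∀ j l, ω (j + l) ≤ ω₁ j + ω₂ l) {a b : Z12 → ℂ} (ha : Summable fun k => ‖a k‖)
    (hb : Summable fun k => ‖b k‖) :
    ∑' k, ω k * ‖conv a b k‖ₑ ≤ (∑' k, ω₁ k * ‖a k‖ₑ) * (∑' k, ‖b k‖ₑ)
      + (∑' k, ‖a k‖ₑ) * ∑' k, ω₂ k * ‖b k‖ₑ := by
  calc ∑' k, ω k * ‖conv a b k‖ₑ ≤ ∑' k, ω k * ∑' j, ‖a j‖ₑ * ‖b (k - j)‖ₑ :=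
        ENNReal.tsum_le_tsum fun k => mul_le_mul_right (norm_conv_le ha hb k) _
    _ = ∑' k, ∑' j, ω k * (‖a j‖ₑ * ‖b (k - j)‖ₑ) :=
        tsum_congr fun k => ENNReal.tsum_mul_left.symm
    _ = ∑' j, ∑' k, ω k * (‖a j‖ₑ * ‖b (k - j)‖ₑ) := ENNReal.tsum_comm
    _ = ∑' j, ∑' l, ω (j + l) * (‖a j‖ₑ * ‖b l‖ₑ) := by
        refine tsum_congr fun j => ?_
        rw [← (Equiv.addLeft j).tsum_eq (fun k => ω k * (‖a j‖ₑ * ‖b (k - j)‖ₑ))]
        refine tsum_congr fun l => ?_
        simp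
    _ ≤ ∑' j, ∑' l, ((ω₁ j * ‖a j‖ₑ) * ‖b l‖ₑ + ‖a j‖ₑ * (ω₂ l * ‖b l‖ₑ)) := by
        refine ENNReal.tsum_le_tsum fun j => ENNReal.tsum_le_tsum fun l => ?_
        calc ω (j + l) * (‖a j‖ₑ * ‖b l‖ₑ) ≤ (ω₁ j + ω₂ l) * (‖a j‖ₑ * ‖b l‖ₑ) :=
              mul_le_mul_left (h j l) _
          _ = _ := by ring
    _ = _ := by
        have h1 : ∀ j, ∑' l, ((ω₁ j * ‖a j‖ₑ) * ‖b l‖ₑ + ‖a j‖ₑ * (ω₂ l * ‖b l‖ₑ)) =
            (ω₁ j * ‖a j‖ₑ) * (∑' l, ‖b l‖ₑ) + ‖a j‖ₑ * ∑' l, ω₂ l * ‖b l‖ₑ := by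
          intro j
          rw [ENNReal.tsum_add, ENNReal.tsum_mul_left, ENNReal.tsum_mul_left]
        rw [tsum_congr h1, ENNReal.tsum_add, ENNReal.tsum_mul_right, ENNReal.tsum_mul_right]

theorem pw_enn {ω : Z12 → ℝ} (hω : BW ω) (a : AZ W) :
    ENNReal.ofReal (pw ω a) = ∑' k, ENNReal.ofReal (ω k) * ‖a.den k‖ₑ := by
  unfold pw
  rw [ENNReal.ofReal_tsum_of_nonneg (fun k => mul_nonneg (hω.nn k) (norm_nonneg _)) (smw hω a)]
  refine tsum_congr fun k => ?_
  rw [ENNReal.ofReal_mul (hω.nn k), ofReal_norm]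

/-- tame estimate for bounded weights -/
theorem pw_mul {ω : Z12 → ℝ} (hω : BW ω) {c₁ c₂ : ℝ} (hc₁ : 0 ≤ c₁) (hc₂ : 0 ≤ c₂)
    (h : ∀ j l, ω (j + l) ≤ c₁ * ω j + c₂ * ω l) (a b : AZ W) :
    pw ω (a * b) ≤ c₁ * pw ω a * pw (fun _ => 1) b + c₂ * pw (fun _ => 1) a * pw ω b := by
  have ha0 := pw_nonneg hω a
  have hb0 := pw_nonneg hω b
  have ha1 := pw_nonneg BW_one a
  have hb1 := pw_nonneg BW_one b
  have key := conv_tame (ω := fun k => ENNReal.ofReal (ω k))
    (ω₁ := fun k => ENNReal.ofReal (c₁ * ω k)) (ω₂ := fun k => ENNReal.ofReal (c₂ * ω k))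
    (fun j l => by
      rw [← ENNReal.ofReal_add (mul_nonneg hc₁ (hω.nn j)) (mul_nonneg hc₂ (hω.nn l))]
      exact ENNReal.ofReal_le_ofReal (h j l)) (smb1 a) (smb1 b)
  rw [← den_mul', ← pw_enn hω] at key
  have e1 : ∑' k, ENNReal.ofReal (c₁ * ω k) * ‖a.den k‖ₑ = ENNReal.ofReal (c₁ * pw ω a) := by
    rw [ENNReal.ofReal_mul hc₁, pw_enn hω, ← ENNReal.tsum_mul_left]
    refine tsum_congr fun k => ?_
    rw [ENNReal.ofReal_mul hc₁, mul_assoc]
  have e2 : ∑' k, ENNReal.ofReal (c₂ * ω k) * ‖b.den k‖ₑ = ENNReal.ofReal (c₂ * pw ω b) := by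
    rw [ENNReal.ofReal_mul hc₂, pw_enn hω, ← ENNReal.tsum_mul_left]
    refine tsum_congr fun k => ?_
    rw [ENNReal.ofReal_mul hc₂, mul_assoc]
  have e3 : ∀ x : AZ W, ∑' k, ‖x.den k‖ₑ = ENNReal.ofReal (pw (fun _ => 1) x) := by
    intro x
    rw [pw_enn BW_one]
    refine tsum_congr fun k => ?_
    simp
  rw [e1, e2, e3, e3, ← ENNReal.ofReal_mul (mul_nonneg hc₁ ha0),
    ← ENNReal.ofReal_mul ha1, ← ENNReal.ofReal_add (mul_nonneg (mul_nonneg hc₁ ha0) hb1)
      (mul_nonneg ha1 (mul_nonneg hc₂ hb0)), ENNReal.ofReal_le_ofReal_iff (by positivity)] at key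
  calc _ ≤ _ := key
    _ = _ := by ring

theorem pw_star {ω : Z12 → ℝ} (hω : ∀ k, ω (-k) = ω k) (a : AZ W) : pw ω (star a) = pw ω a := by
  unfold pw
  rw [← (Equiv.neg Z12).tsum_eq (fun k => ω k * ‖a.den k‖)]
  refine tsum_congr fun k => ?_
  rw [den_star']
  simp [cst, hω]

/-- truncated weight `min (h|k|) R` -/
def tw (h R : ℝ) (k : Z12) : ℝ := min (|h| * nk k) |R|

theorem tw_nonneg (h R : ℝ) (k : Z12) : 0 ≤ tw h R k :=
  le_min (mul_nonneg (abs_nonneg _) (nk_nonneg _)) (abs_nonneg _)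

theorem tw_neg (h R : ℝ) (k : Z12) : tw h R (-k) = tw h R k := by unfold tw; rw [nk_neg]

theorem tw_add (h R : ℝ) (j l : Z12) : tw h R (j + l) ≤ tw h R j + tw h R l := by
  unfold tw
  have h1 : |h| * nk (j + l) ≤ |h| * nk j + |h| * nk l := by
    rw [← mul_add]; exact mul_le_mul_of_nonneg_left (nk_add j l) (abs_nonneg h)
  have h2 := mul_nonneg (abs_nonneg h) (nk_nonneg j)
  have h3 := mul_nonneg (abs_nonneg h) (nk_nonneg l)
  have h4 := abs_nonneg R
  rcases le_total (|h| * nk j) |R| with a | a <;> rcases le_total (|h| * nk l) |R| with b | b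
  · rw [min_eq_left a, min_eq_left b]; exact (min_le_left _ _).trans h1
  · rw [min_eq_right b]; exact (min_le_right _ _).trans (by linarith [le_min h2 h4])
  · rw [min_eq_right a]; exact (min_le_right _ _).trans (by linarith [le_min h3 h4])
  · rw [min_eq_right a]; exact (min_le_right _ _).trans (by linarith [le_min h3 h4])

theorem BW_tw (h R : ℝ) (s : ℕ) : BW (fun k => tw h R k ^ s) :=
  ⟨fun k => pow_nonneg (tw_nonneg h R k) s, ⟨|R| ^ s, fun k =>
    pow_le_pow_left₀ (tw_nonneg h R k) (min_le_right _ _) s⟩⟩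

/-- the tame pair -/
theorem tame (W : Wt Z12) (h R : ℝ) (s : ℕ) :
    Tame (R := AZ W) (pw fun _ => 1) (pw fun k => tw h R k ^ s) (cT s) where
  c0 := cT_nonneg s
  q0 := pw_nonneg BW_one
  p0 := pw_nonneg (BW_tw h R s)
  qadd := pw_add BW_one
  padd := pw_add (BW_tw h R s)
  qstar := pw_star fun _ => rfl
  pstar := pw_star fun k => by rw [tw_neg]
  qmul := fun a b => by
    have := pw_mul (W := W) BW_one (c₁ := 1) (c₂ := 0) zero_le_one le_rfl
      (fun _ _ => by norm_num) a b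
    linarith
  pmul := fun a b => by
    refine pw_mul (BW_tw h R s) (by norm_num) (cT_nonneg s) (fun j l => ?_) a b
    exact (pow_le_pow_left₀ (tw_nonneg h R _) (tw_add h R j l) s).trans
      (add_pow_tame s (tw_nonneg h R j) (tw_nonneg h R l))

/-- the norm itself (leading constants are irrelevant here) -/
theorem tame_norm (W : Wt Z12) : Tame (R := AZ W) norm norm 0 where
  c0 := le_rfl
  q0 := norm_nonneg
  p0 := norm_nonneg
  qadd := norm_add_le
  padd := norm_add_le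
  qstar := fun a => norm_star a
  pstar := fun a => norm_star a
  qmul := norm_mul_le
  pmul := fun a b => by
    have h1 := norm_mul_le a b
    have h2 := mul_nonneg (norm_nonneg a) (norm_nonneg b)
    nlinarith

end alg

end

end Crest.Agent.R086.TG
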