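import Crest.Agent.R086.TorDefs

/-!
Row 86 (S0114), PART D-TORUS, node GrowStep (helper530): coefficient level interface.
`GrowC` = existence + growth on one step, at the level of coefficient sequences on `Z12`
(proved in `TG4.lean`); `GrowStep` follows from it with TF1, TF2, TP1, TP2 and the
product formula for coefficients (`TG5.lean`).
-/

set_option autoImplicit false

open MeasureTheory Complex Set

namespace Crest.Agent.R086.TG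

noncomputable section

/-- convolution of coefficient sequences -/
def conv (a b : Z12 → ℂ) (k : Z12) : ℂ := ∑' j, a j * b (k - j)

/-- coefficients of the complex conjugate -/
def cst (a : Z12 → ℂ) (k : Z12) : ℂ := starRingEnd ℂ (a (-k))

/-- coefficients of `|u|^(2m) u` -/
def nlc : ℕ → (Z12 → ℂ) → Z12 → ℂ
  | 0, a => a
  | m + 1, a => conv (nlc m a) (conv a (cst a))

/-- rapidly decaying -/
def Rd (a : Z12 → ℂ) : Prop := ∀ M : ℕ, Summable fun k => (1 + nk k) ^ M * ‖a k‖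

/-- coefficient norms -/
def wc (M : ℕ) (h : ℝ) (a : Z12 → ℂ) : ℝ := ∑' k, (1 + h * nk k) ^ M * ‖a k‖
def hc (s : ℕ) (h : ℝ) (a : Z12 → ℂ) : ℝ := ∑' k, (h * nk k) ^ s * ‖a k‖

/-- linear symbol of the rescaled equation -/
def sym (n : ℕ) (om τ₀ σ : ℝ) (k : Z12) : ℂ :=
  -(I * ((τ₀ * Real.exp (-σ) * nk k ^ 2 : ℝ) : ℂ)) + (I * (om : ℂ) - 1 / (n : ℂ))

/-- Coefficient level form of `GrowStep` (`n = 2m`). -/
def GrowC (n m : ℕ) (om : ℝ) (N : ℕ) : Prop :=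
  ∀ (CP Cg : ℕ → ℝ), (∀ M, 0 ≤ CP M) → (∀ M, 0 ≤ Cg M) →
  ∃ s : ℕ, N + 1 ≤ s ∧ ∀ S : ℝ, 1 ≤ S → ∃ C r τ₁ : ℝ, 1 ≤ C ∧ 0 < r ∧ 0 < τ₁ ∧ τ₁ ≤ 1 ∧
    ∀ τ₀ : ℝ, 0 < τ₀ → τ₀ ≤ τ₁ → ∀ (p g : ℝ → Z12 → ℂ) (w₀ : Z12 → ℂ),
      (∀ σ ∈ Icc 0 S, Rd (p σ)) → (∀ σ ∈ Icc 0 S, Rd (g σ)) →
      (∀ M, ∀ σ ∈ Icc 0 S, wc M (Real.sqrt (τ₀ * Real.exp (-σ))) (p σ) ≤ CP M) →
      (∀ M, ∀ σ ∈ Icc 0 S, wc M 1 (g σ) ≤ Cg M * τ₀) →
      (∀ σ ∈ Icc 0 S, ∀ k, HasDerivWithinAt (fun s => p s k)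
        (sym n om τ₀ σ k * p σ k - I * nlc m (p σ) k - g σ k) (Icc 0 S) σ) →
      Rd w₀ → wc N (Real.sqrt τ₀) w₀ ≤ r →
      ∃ c : ℝ → Z12 → ℂ, (∀ k, c 0 k = p 0 k + w₀ k) ∧
        (∀ σ ∈ Icc 0 S, Rd (c σ)) ∧
        (∀ M, ∃ B, ∀ σ ∈ Icc 0 S, wc M 1 (c σ) ≤ B) ∧
        (∀ σ ∈ Icc 0 S, ∀ k, HasDerivWithinAt (fun s => c s k)
          (sym n om τ₀ σ k * c σ k - I * nlc m (c σ) k) (Icc 0 S) σ) ∧
        (∀ σ ∈ Icc 0 S,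
          wc N (Real.sqrt (τ₀ * Real.exp (-σ))) (fun k => c σ k - p σ k) ≤ 1 ∧
          wc N (Real.sqrt (τ₀ * Real.exp (-σ))) (fun k => c σ k - p σ k)
            ≤ C * (wc N (Real.sqrt τ₀) w₀ + τ₀)) ∧
        (∀ σ ∈ Icc 0 S,
          hc s (Real.sqrt (τ₀ * Real.exp (-σ))) (fun k => c σ k - p σ k)
            ≤ Real.exp (-σ) * hc s (Real.sqrt τ₀) w₀ + C * (wc N (Real.sqrt τ₀) w₀ + τ₀))

/-- product formula needed for the passage to functions: `n = 2m` -/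
def NlcStmt : Prop := ∀ (m : ℕ) (v : R12 → ℂ), Crest.AnalysisR.PDE.NLS.IsSmoothPeriodic v →
  ∀ k, cf (fun x => nl (2 * m) (v x)) k = nlc m (cf v) k

end

end Crest.Agent.R086.TG
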