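import Crest.Agent.R086.TI2

/-!
Row 86, node FINAL (helper333), part 3: the iteration (sequences of parameters, times, pieces).
-/

set_option autoImplicit false

open MeasureTheory Complex Set Filter Topology
open scoped ContDiff
open Crest.AnalysisR.PDE.NLS (IsSmoothPeriodic sobolevDistSq IsClassicalSolution)

namespace Crest.Agent.R086.TI

open Profile

theorem exists_seq {α : Type*} {Pr : ℕ → α → Prop} {R : ℕ → α → α → Prop} (a0 : α)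
    (h0 : Pr 0 a0) (hs : ∀ j a, Pr j a → ∃ b, Pr (j + 1) b ∧ R j a b) :
    ∃ s : ℕ → α, s 0 = a0 ∧ ∀ j, Pr j (s j) ∧ R j (s j) (s (j + 1)) := by
  classical
  choose! f hf1 hf2 using hs
  let s : ℕ → α := fun n => Nat.rec a0 (fun j a => f j a) n
  have hP : ∀ j, Pr j (s j) := by
    intro j
    induction j with
    | zero => exact h0
    | succ j ih => exact hf1 j _ ih
  exact ⟨s, rfl, fun j => ⟨hP j, hf2 j _ (hP j)⟩⟩

/-- the state: parameters, time, datum -/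
structure Stt where
  a : Par
  t : ℝ
  v : R12 → ℂ

/-- The sequences produced by the iteration. `τ j = (a j).T - t j`, `e j = B q^j` error size. -/
structure Seqs {n : ℕ} (P : Profile n) (N s : ℕ) (μ S : ℝ) (u₀ : R12 → ℂ) (τ₀ B q : ℝ)
    (a : ℕ → Par) (t : ℕ → ℝ) (u : ℕ → ℝ → R12 → ℂ) : Prop where
  hS : 1 ≤ S
  hB : 0 ≤ B
  hB2 : B ≤ 1 / 2
  hq0 : 0 < q
  hq1 : q < 1
  t0 : t 0 = 0
  a0 : (a 0).T = τ₀
  u0 : u 0 0 = u₀
  pos : ∀ j, 0 < (a j).T - t j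
  t_succ : ∀ j, t (j + 1) = (a j).T - Real.exp (-S) * ((a j).T - t j)
  sol : ∀ j, IsSol n (Icc (t j) (t (j + 1))) (u j)
  match_ : ∀ j, u j (t (j + 1)) = u (j + 1) (t (j + 1))
  bd : ∀ j, ∀ r ∈ Icc (t j) (t (j + 1)),
    nrm n N s μ ((a j).T - r) (fun x => u j r x - P.prof (a j) r x) ≤ B * q ^ j
  dT : ∀ j, |(a (j + 1)).T - (a j).T| ≤ B * q ^ j * ((a j).T - t (j + 1))
  dx : ∀ j, ‖(a (j + 1)).x - (a j).x‖ ≤ B * q ^ j * Real.sqrt ((a j).T - t (j + 1))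

set_option maxHeartbeats 1600000 in
/-- the admissible smallness: `d₀` and `τ₀` -/
theorem exists_seqs {n : ℕ} {P : Profile n} {N s : ℕ} {μ S C c r τ₁ : ℝ} (hTP : TP1 P)
    (M : MStep P N s μ S C c r τ₁) :
    ∃ d₀ τ₀ : ℝ, 0 < d₀ ∧ 0 < τ₀ ∧ τ₀ ≤ 1 ∧ ∀ u₀ : R12 → ℂ, IsSmoothPeriodic u₀ →
      nrm n N s μ τ₀ (fun x => u₀ x - P.prof ⟨τ₀, 0, 0⟩ 0 x) ≤ d₀ →
      ∃ (B q : ℝ) (a : ℕ → Par) (t : ℕ → ℝ) (u : ℕ → ℝ → R12 → ℂ),
        Seqs P N s μ S u₀ τ₀ B q a t u := by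
  have hCpos : 0 < C := by linarith [M.hC]
  set d₀ : ℝ := min r (1 / (4 * C)) with hd0
  have hd0pos : 0 < d₀ := lt_min M.hr (by positivity)
  have hCd : C * d₀ ≤ 1 / 4 := by
    have : d₀ ≤ 1 / (4 * C) := min_le_right _ _
    rw [le_div_iff₀ (by positivity)] at this
    linarith
  obtain ⟨τ₀, hτ, hτ1, hCτ⟩ : ∃ ρ : ℝ, 0 < ρ ∧ ρ ≤ τ₁ ∧ C * ρ ^ c ≤ min (d₀ / 4) (1 / 4) := by
    have hlim : Tendsto (fun x : ℝ => C * x ^ c) (𝓝[>] 0) (𝓝 (C * 0 ^ c)) := by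
      refine (Tendsto.const_mul _ ?_)
      exact ((Real.continuous_rpow_const M.hc.le).tendsto 0).mono_left nhdsWithin_le_nhds
    rw [Real.zero_rpow M.hc.ne', mul_zero] at hlim
    have h1 := hlim.eventually (gt_mem_nhds (lt_min (by positivity) (by norm_num) :
      (0:ℝ) < min (d₀ / 4) (1 / 4)))
    have h2 : ∀ᶠ x in 𝓝[>] (0:ℝ), x ≤ τ₁ := by
      filter_upwards [Ioo_mem_nhdsGT M.hτ] with x hx using hx.2.le
    have h3 : ∀ᶠ x in 𝓝[>] (0:ℝ), 0 < x := self_mem_nhdsWithin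
    obtain ⟨ρ, h4, h5, h6⟩ := (h1.and (h2.and h3)).exists
    exact ⟨ρ, h6, h5, h4.le⟩
  refine ⟨d₀, τ₀, hd0pos, hτ, hτ1.trans M.hτ1, fun u₀ hu₀ hd => ?_⟩
  set q : ℝ := max (3 / 4) (Real.exp (-(c * S / 2))) with hq
  have hq34 : 3 / 4 ≤ q := le_max_left _ _
  have hq0 : 0 < q := by linarith
  have hq1 : q < 1 := by
    have hSpos : (0:ℝ) < S := by linarith [M.hS]
    refine max_lt (by norm_num) (Real.exp_lt_one_iff.2 ?_)
    have := mul_pos M.hc hSpos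
    linarith
  have hqe : Real.exp (-(c * S / 2)) ≤ q := le_max_right _ _
  set E : ℝ := Real.exp (-(S / 2)) with hE
  have hEpos : 0 < E := Real.exp_pos _
  have hE1 : E ≤ 1 := Real.exp_le_one_iff.2 (by linarith [M.hS])
  have hτc0 : 0 ≤ τ₀ ^ c := Real.rpow_nonneg hτ.le _
  -- key: ρ ≤ τ₀ E^j implies ρ^c ≤ τ₀^c q^j
  have hpow : ∀ (j : ℕ) (ρ : ℝ), 0 ≤ ρ → ρ ≤ τ₀ * E ^ j → ρ ^ c ≤ τ₀ ^ c * q ^ j := by
    intro j ρ hρ0 hρ
    calc ρ ^ c ≤ (τ₀ * E ^ j) ^ c := Real.rpow_le_rpow hρ0 hρ M.hc.le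
      _ = τ₀ ^ c * (E ^ c) ^ j := by
          rw [Real.mul_rpow hτ.le (by positivity), ← Real.rpow_natCast E j,
            ← Real.rpow_natCast (E ^ c) j, ← Real.rpow_mul hEpos.le, ← Real.rpow_mul hEpos.le,
            mul_comm (j : ℝ) c]
      _ ≤ τ₀ ^ c * q ^ j := by
          refine mul_le_mul_of_nonneg_left (pow_le_pow_left₀ (by positivity) ?_ j) hτc0
          rw [hE, ← Real.exp_mul]
          refine le_trans (le_of_eq ?_) hqe
          congr 1; ring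
  set B : ℝ := C * (d₀ + τ₀ ^ c) with hB
  have hB0 : 0 ≤ B := by positivity
  have hB2 : B ≤ 1 / 2 := by
    have h1 : C * τ₀ ^ c ≤ 1 / 4 := hCτ.trans (min_le_right _ _)
    rw [hB, mul_add]; linarith
  have hexpS : Real.exp (-S) * (1 + B) ≤ E := by
    have h1 : Real.exp (-S) = E * E := by
      rw [hE, ← Real.exp_add]; congr 1; ring
    have h2 : E * (1 + B) ≤ 1 := by
      have h3 : 1 + B ≤ Real.exp (S / 2) := by
        have := Real.add_one_le_exp (S / 2)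
        linarith [M.hS]
      calc E * (1 + B) ≤ E * Real.exp (S / 2) := mul_le_mul_of_nonneg_left h3 hEpos.le
        _ = 1 := by rw [hE, ← Real.exp_add]; simp
    rw [h1, mul_assoc]
    nlinarith
  -- invariant and relation
  let Pr : ℕ → Stt → Prop := fun j σ => 0 < σ.a.T - σ.t ∧ σ.a.T - σ.t ≤ τ₀ * E ^ j ∧
    IsSmoothPeriodic σ.v ∧ nrm n N s μ (σ.a.T - σ.t) (fun x => σ.v x - P.prof σ.a σ.t x) ≤ d₀ * q ^ j
  let R : ℕ → Stt → Stt → Prop := fun j σ σ' =>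
    σ'.t = σ.a.T - Real.exp (-S) * (σ.a.T - σ.t) ∧
    |σ'.a.T - σ.a.T| ≤ B * q ^ j * (σ.a.T - σ'.t) ∧
    ‖σ'.a.x - σ.a.x‖ ≤ B * q ^ j * Real.sqrt (σ.a.T - σ'.t) ∧
    ∃ u : ℝ → R12 → ℂ, IsSol n (Icc σ.t σ'.t) u ∧ u σ.t = σ.v ∧ u σ'.t = σ'.v ∧
      ∀ r ∈ Icc σ.t σ'.t, nrm n N s μ (σ.a.T - r) (fun x => u r x - P.prof σ.a r x) ≤ B * q ^ j
  have hstep : ∀ j σ, Pr j σ → ∃ σ', Pr (j + 1) σ' ∧ R j σ σ' := by
    rintro j ⟨a, t, v⟩ ⟨hpos, hle, hsm, hn⟩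
    simp only at hpos hle hsm hn
    have hqj0 : 0 < q ^ j := pow_pos hq0 j
    have hqj1 : q ^ j ≤ 1 := pow_le_one₀ hq0.le hq1.le
    have hEj1 : E ^ j ≤ 1 := pow_le_one₀ hEpos.le hE1
    have hdj : d₀ * q ^ j ≤ r := by
      have : d₀ ≤ r := min_le_left _ _
      nlinarith
    have hτj : a.T - t ≤ τ₁ := by nlinarith
    obtain ⟨t₁, u, ht₁, hu, hu0, hbd, a', hT', hx', hfin⟩ := M.step a t hpos hτj v hsm _ hdj hn
    have hp := hpow j _ hpos.le hle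
    have hcB : C * (d₀ * q ^ j + (a.T - t) ^ c) ≤ B * q ^ j := by
      rw [hB, mul_assoc]
      refine mul_le_mul_of_nonneg_left ?_ hCpos.le
      rw [add_mul]; linarith
    have hT1 : a.T - t₁ = Real.exp (-S) * (a.T - t) := by rw [ht₁]; ring
    have hexp0 : 0 < Real.exp (-S) := Real.exp_pos _
    have hT1pos : 0 < a.T - t₁ := by rw [hT1]; positivity
    have hexp1 : Real.exp (-S) ≤ 1 := Real.exp_le_one_iff.2 (by linarith [M.hS])
    have htt : t ≤ t₁ := by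
      have : a.T - t₁ ≤ a.T - t := by rw [hT1]; nlinarith
      linarith
    have hT2 : |a'.T - a.T| ≤ B * q ^ j * (a.T - t₁) :=
      hT'.trans (mul_le_mul_of_nonneg_right hcB hT1pos.le)
    have hBq : B * q ^ j ≤ B := by nlinarith
    have hT3 : |a'.T - a.T| ≤ B * (a.T - t₁) :=
      hT2.trans (mul_le_mul_of_nonneg_right hBq hT1pos.le)
    obtain ⟨h5, h6⟩ := abs_le.1 hT3
    refine ⟨⟨a', t₁, u t₁⟩, ⟨?_, ?_, hu.smooth t₁ ⟨htt, le_rfl⟩, ?_⟩, ht₁, hT2,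
      hx'.trans (mul_le_mul_of_nonneg_right hcB (Real.sqrt_nonneg _)), u, hu, hu0, rfl,
      fun r hr => (hbd r hr).trans hcB⟩
    · show 0 < a'.T - t₁
      nlinarith
    · show a'.T - t₁ ≤ τ₀ * E ^ (j + 1)
      have h7 : a'.T - t₁ ≤ (1 + B) * (a.T - t₁) := by linarith
      rw [hT1] at h7
      calc a'.T - t₁ ≤ (1 + B) * (Real.exp (-S) * (a.T - t)) := h7
        _ = (Real.exp (-S) * (1 + B)) * (a.T - t) := by ring
        _ ≤ E * (a.T - t) := mul_le_mul_of_nonneg_right hexpS hpos.le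
        _ ≤ E * (τ₀ * E ^ j) := mul_le_mul_of_nonneg_left hle hEpos.le
        _ = τ₀ * E ^ (j + 1) := by ring
    · show nrm n N s μ (a'.T - t₁) (fun x => u t₁ x - P.prof a' t₁ x) ≤ d₀ * q ^ (j + 1)
      refine hfin.trans ?_
      have h8 : C * τ₀ ^ c ≤ d₀ / 4 := hCτ.trans (min_le_left _ _)
      have h9 : C * (a.T - t) ^ c ≤ d₀ / 4 * q ^ j := by
        calc C * (a.T - t) ^ c ≤ C * (τ₀ ^ c * q ^ j) := mul_le_mul_of_nonneg_left hp hCpos.le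
          _ = (C * τ₀ ^ c) * q ^ j := by ring
          _ ≤ _ := mul_le_mul_of_nonneg_right h8 hqj0.le
      calc d₀ * q ^ j / 2 + C * (a.T - t) ^ c ≤ d₀ * q ^ j / 2 + d₀ / 4 * q ^ j := by linarith
        _ = (3 / 4) * (d₀ * q ^ j) := by ring
        _ ≤ q * (d₀ * q ^ j) := mul_le_mul_of_nonneg_right hq34 (by positivity)
        _ = d₀ * q ^ (j + 1) := by ring
  have hinit : Pr 0 ⟨⟨τ₀, 0, 0⟩, 0, u₀⟩ := by
    refine ⟨?_, ?_, hu₀, ?_⟩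
    · simpa using hτ
    · simp
    · simpa using hd
  obtain ⟨σ, hσ0, hσ⟩ := exists_seq (R := R) _ hinit hstep
  choose u hu1 hu2 hu3 hu4 using fun j => (hσ j).2.2.2.2
  refine ⟨B, q, fun j => (σ j).a, fun j => (σ j).t, u, ⟨M.hS, hB0, hB2, hq0, hq1, ?_, ?_, ?_,
    fun j => (hσ j).1.1, fun j => (hσ j).2.1, hu1, fun j => ?_, hu4, fun j => (hσ j).2.2.1,
    fun j => (hσ j).2.2.2.1⟩⟩
  · simp [hσ0]
  · simp [hσ0]
  · have := hu2 0
    rw [hσ0] at this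
    exact this
  · show u j (σ (j + 1)).t = u (j + 1) (σ (j + 1)).t
    rw [hu3 j, hu2 (j + 1)]

end Crest.Agent.R086.TI
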