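import Crest.Agent.R086.TI3

/-!
Row 86, node FINAL (helper333), part 4: limits of the sequences.
-/

set_option autoImplicit false

open MeasureTheory Complex Set Filter Topology
open scoped ContDiff
open Crest.AnalysisR.PDE.NLS (IsSmoothPeriodic sobolevDistSq IsClassicalSolution)

namespace Crest.Agent.R086.TI

open Profile

namespace Seqs

variable {n : ℕ} {P : Profile n} {N s : ℕ} {μ S : ℝ} {u₀ : R12 → ℂ} {τ₀ B q : ℝ}
    {a : ℕ → Par} {t : ℕ → ℝ} {u : ℕ → ℝ → R12 → ℂ}

/-- distance to the (current) blow-up time after the step -/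
theorem dist_succ (H : Seqs P N s μ S u₀ τ₀ B q a t u) (j : ℕ) :
    (a j).T - t (j + 1) = Real.exp (-S) * ((a j).T - t j) := by
  rw [H.t_succ j]; ring

theorem lt_succ (H : Seqs P N s μ S u₀ τ₀ B q a t u) (j : ℕ) : t j < t (j + 1) := by
  have h1 := H.dist_succ j
  have h2 := H.pos j
  have h3 : Real.exp (-S) < 1 := Real.exp_lt_one_iff.2 (by linarith [H.hS])
  nlinarith

theorem strictMono (H : Seqs P N s μ S u₀ τ₀ B q a t u) : StrictMono t :=
  strictMono_nat_of_lt_succ H.lt_succ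

theorem Bq_le (H : Seqs P N s μ S u₀ τ₀ B q a t u) (j : ℕ) : B * q ^ j ≤ 1 / 2 := by
  have h1 : q ^ j ≤ 1 := pow_le_one₀ H.hq0.le H.hq1.le
  have h2 := H.hB
  have h3 := H.hB2
  nlinarith

/-- contraction of the distance: factor `E = exp (-(S/2))`. -/
theorem tau_succ_le (H : Seqs P N s μ S u₀ τ₀ B q a t u) (j : ℕ) :
    (a (j + 1)).T - t (j + 1) ≤ Real.exp (-(S / 2)) * ((a j).T - t j) := by
  have h1 := H.dist_succ j
  have h2 := H.pos j
  have h3 := (abs_le.1 (H.dT j)).2
  have h4 := H.Bq_le j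
  have h5 : 0 < (a j).T - t (j + 1) := by rw [h1]; positivity
  have hE : Real.exp (-S) = Real.exp (-(S / 2)) * Real.exp (-(S / 2)) := by
    rw [← Real.exp_add]; congr 1; ring
  have h6 : Real.exp (-(S / 2)) * (1 + 1 / 2) ≤ 1 := by
    have h7 : (1:ℝ) + 1 / 2 ≤ Real.exp (S / 2) := by
      have := Real.add_one_le_exp (S / 2)
      linarith [H.hS]
    calc Real.exp (-(S / 2)) * (1 + 1 / 2) ≤ Real.exp (-(S / 2)) * Real.exp (S / 2) :=
          mul_le_mul_of_nonneg_left h7 (Real.exp_pos _).le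
      _ = 1 := by rw [← Real.exp_add]; simp
  have h8 : (a (j + 1)).T - t (j + 1) ≤ (1 + 1 / 2) * ((a j).T - t (j + 1)) := by
    nlinarith
  calc (a (j + 1)).T - t (j + 1) ≤ (1 + 1 / 2) * ((a j).T - t (j + 1)) := h8
    _ = (Real.exp (-(S / 2)) * (1 + 1 / 2)) * (Real.exp (-(S / 2)) * ((a j).T - t j)) := by
        rw [h1, hE]; ring
    _ ≤ 1 * (Real.exp (-(S / 2)) * ((a j).T - t j)) :=
        mul_le_mul_of_nonneg_right h6 (by positivity)
    _ = _ := one_mul _

theorem tau_add_le (H : Seqs P N s μ S u₀ τ₀ B q a t u) (j i : ℕ) :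
    (a (j + i)).T - t (j + i) ≤ Real.exp (-(S / 2)) ^ i * ((a j).T - t j) := by
  induction i with
  | zero => simp
  | succ i ih =>
    have h1 := H.tau_succ_le (j + i)
    calc (a (j + (i + 1))).T - t (j + (i + 1)) ≤
          Real.exp (-(S / 2)) * ((a (j + i)).T - t (j + i)) := h1
      _ ≤ Real.exp (-(S / 2)) * (Real.exp (-(S / 2)) ^ i * ((a j).T - t j)) :=
          mul_le_mul_of_nonneg_left ih (Real.exp_pos _).le
      _ = _ := by ring

theorem E_lt (H : Seqs P N s μ S u₀ τ₀ B q a t u) : Real.exp (-(S / 2)) < 1 :=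
  Real.exp_lt_one_iff.2 (by linarith [H.hS])

theorem E4_lt (H : Seqs P N s μ S u₀ τ₀ B q a t u) : Real.exp (-(S / 4)) < 1 :=
  Real.exp_lt_one_iff.2 (by linarith [H.hS])

theorem tau_tendsto (H : Seqs P N s μ S u₀ τ₀ B q a t u) :
    Tendsto (fun j => (a j).T - t j) atTop (𝓝 0) := by
  have h1 : Tendsto (fun j : ℕ => Real.exp (-(S / 2)) ^ j * ((a 0).T - t 0)) atTop
      (𝓝 (0 * ((a 0).T - t 0))) :=
    (tendsto_pow_atTop_nhds_zero_of_lt_one (Real.exp_pos _).le H.E_lt).mul_const _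
  rw [zero_mul] at h1
  refine squeeze_zero (fun j => (H.pos j).le) (fun j => ?_) h1
  have := H.tau_add_le 0 j
  simpa using this

theorem q_pow_add_le (H : Seqs P N s μ S u₀ τ₀ B q a t u) (j i : ℕ) : q ^ (j + i) ≤ q ^ j := by
  rw [pow_add]
  have h1 : q ^ i ≤ 1 := pow_le_one₀ H.hq0.le H.hq1.le
  have h2 : 0 < q ^ j := pow_pos H.hq0 j
  nlinarith

/-- geometric estimate for the increments of `T` from index `j` on -/
theorem dist_T (H : Seqs P N s μ S u₀ τ₀ B q a t u) (j i : ℕ) :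
    dist (a (j + i)).T (a (j + (i + 1))).T ≤
      (B * q ^ j * ((a j).T - t j)) * Real.exp (-(S / 2)) ^ i := by
  rw [dist_comm, Real.dist_eq]
  have h1 := H.dT (j + i)
  have h2 := H.dist_succ (j + i)
  have h3 := H.tau_add_le j i
  have h4 := H.q_pow_add_le j i
  have h5 : Real.exp (-S) ≤ 1 := Real.exp_le_one_iff.2 (by linarith [H.hS])
  have h6 := H.pos (j + i)
  have h7 : (a (j + i)).T - t (j + i + 1) ≤ Real.exp (-(S / 2)) ^ i * ((a j).T - t j) := by
    rw [h2]; nlinarith
  have h8 : 0 ≤ (a (j + i)).T - t (j + i + 1) := by rw [h2]; positivity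
  have hq : 0 < q ^ (j + i) := pow_pos H.hq0 _
  have hB := H.hB
  calc |(a (j + (i + 1))).T - (a (j + i)).T| ≤ B * q ^ (j + i) * ((a (j + i)).T - t (j + i + 1)) := h1
    _ ≤ B * q ^ j * ((a (j + i)).T - t (j + i + 1)) :=
        mul_le_mul_of_nonneg_right (mul_le_mul_of_nonneg_left h4 hB) h8
    _ ≤ B * q ^ j * (Real.exp (-(S / 2)) ^ i * ((a j).T - t j)) := by
        refine mul_le_mul_of_nonneg_left h7 ?_
        have := pow_pos H.hq0 j
        positivity
    _ = _ := by ring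

theorem dist_x (H : Seqs P N s μ S u₀ τ₀ B q a t u) (j i : ℕ) :
    dist (a (j + i)).x (a (j + (i + 1))).x ≤
      (B * q ^ j * Real.sqrt ((a j).T - t j)) * Real.exp (-(S / 4)) ^ i := by
  rw [dist_comm, dist_eq_norm]
  have h1 := H.dx (j + i)
  have h2 := H.dist_succ (j + i)
  have h3 := H.tau_add_le j i
  have h4 := H.q_pow_add_le j i
  have h5 : Real.exp (-S) ≤ 1 := Real.exp_le_one_iff.2 (by linarith [H.hS])
  have h6 := H.pos (j + i)
  have h7 : (a (j + i)).T - t (j + i + 1) ≤ Real.exp (-(S / 2)) ^ i * ((a j).T - t j) := by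
    rw [h2]; nlinarith
  have h8 : Real.sqrt ((a (j + i)).T - t (j + i + 1)) ≤
      Real.exp (-(S / 4)) ^ i * Real.sqrt ((a j).T - t j) := by
    calc Real.sqrt ((a (j + i)).T - t (j + i + 1)) ≤
          Real.sqrt (Real.exp (-(S / 2)) ^ i * ((a j).T - t j)) := Real.sqrt_le_sqrt h7
      _ = Real.exp (-(S / 4)) ^ i * Real.sqrt ((a j).T - t j) := by
          rw [Real.sqrt_mul (by positivity)]
          congr 1
          have : Real.exp (-(S / 2)) ^ i = (Real.exp (-(S / 4)) ^ i) ^ 2 := by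
            have e1 : Real.exp (-(S / 2)) = Real.exp (-(S / 4)) ^ 2 := by
              rw [← Real.exp_nat_mul]; congr 1; push_cast; ring
            rw [e1, ← pow_mul, ← pow_mul, mul_comm 2 i]
          rw [this, Real.sqrt_sq (by positivity)]
  have hq : 0 < q ^ (j + i) := pow_pos H.hq0 _
  have hB := H.hB
  calc ‖(a (j + (i + 1))).x - (a (j + i)).x‖ ≤
        B * q ^ (j + i) * Real.sqrt ((a (j + i)).T - t (j + i + 1)) := h1
    _ ≤ B * q ^ j * Real.sqrt ((a (j + i)).T - t (j + i + 1)) :=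
        mul_le_mul_of_nonneg_right (mul_le_mul_of_nonneg_left h4 hB) (Real.sqrt_nonneg _)
    _ ≤ B * q ^ j * (Real.exp (-(S / 4)) ^ i * Real.sqrt ((a j).T - t j)) := by
        refine mul_le_mul_of_nonneg_left h8 ?_
        have := pow_pos H.hq0 j
        positivity
    _ = _ := by ring

/-- the limits of the parameters, with rates -/
theorem limits (H : Seqs P N s μ S u₀ τ₀ B q a t u) :
    ∃ (T : ℝ) (X : R12) (K : ℝ), 0 ≤ K ∧ Tendsto t atTop (𝓝 T) ∧
      (∀ j, |(a j).T - T| ≤ K * q ^ j * ((a j).T - t j)) ∧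
      (∀ j, ‖(a j).x - X‖ ≤ K * q ^ j * Real.sqrt ((a j).T - t j)) := by
  have hcT : CauchySeq (fun j => (a j).T) := by
    refine cauchySeq_of_le_geometric (Real.exp (-(S / 2))) (B * q ^ 0 * ((a 0).T - t 0)) H.E_lt ?_
    intro i
    have := H.dist_T 0 i
    simpa using this
  have hcx : CauchySeq (fun j => (a j).x) := by
    refine cauchySeq_of_le_geometric (Real.exp (-(S / 4))) (B * q ^ 0 * Real.sqrt ((a 0).T - t 0))
      H.E4_lt ?_
    intro i
    have := H.dist_x 0 i
    simpa using this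
  obtain ⟨T, hT⟩ := cauchySeq_tendsto_of_complete hcT
  obtain ⟨X, hX⟩ := cauchySeq_tendsto_of_complete hcx
  have h1 : 0 < 1 - Real.exp (-(S / 2)) := by linarith [H.E_lt]
  have h2 : 0 < 1 - Real.exp (-(S / 4)) := by linarith [H.E4_lt]
  refine ⟨T, X, B / (1 - Real.exp (-(S / 2))) + B / (1 - Real.exp (-(S / 4))), ?_, ?_, ?_, ?_⟩
  · have := H.hB
    positivity
  · have h3 := hT.sub H.tau_tendsto
    simpa using h3
  · intro j
    have hTj : Tendsto (fun i => (a (j + i)).T) atTop (𝓝 T) := by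
      have := (tendsto_add_atTop_iff_nat (f := fun i => (a i).T) j).2 hT
      simpa [add_comm] using this
    have h4 := dist_le_of_le_geometric_of_tendsto₀ (Real.exp (-(S / 2)))
      (B * q ^ j * ((a j).T - t j)) H.E_lt (fun i => H.dist_T j i) hTj
    rw [Real.dist_eq] at h4
    simp only [add_zero] at h4
    refine h4.trans ?_
    have hq := pow_pos H.hq0 j
    have hp := H.pos j
    have hB := H.hB
    have h5 : 0 ≤ B / (1 - Real.exp (-(S / 4))) := by positivity
    have h6 : B * q ^ j * ((a j).T - t j) / (1 - Real.exp (-(S / 2)))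
        = B / (1 - Real.exp (-(S / 2))) * (q ^ j * ((a j).T - t j)) := by ring
    rw [h6]
    have h7 : 0 ≤ q ^ j * ((a j).T - t j) := by positivity
    nlinarith [mul_nonneg h5 h7]
  · intro j
    have hXj : Tendsto (fun i => (a (j + i)).x) atTop (𝓝 X) := by
      have := (tendsto_add_atTop_iff_nat (f := fun i => (a i).x) j).2 hX
      simpa [add_comm] using this
    have h4 := dist_le_of_le_geometric_of_tendsto₀ (Real.exp (-(S / 4)))
      (B * q ^ j * Real.sqrt ((a j).T - t j)) H.E4_lt (fun i => H.dist_x j i) hXj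
    rw [dist_eq_norm] at h4
    simp only [add_zero] at h4
    refine h4.trans ?_
    have hq := pow_pos H.hq0 j
    have hp := Real.sqrt_nonneg ((a j).T - t j)
    have hB := H.hB
    have h5 : 0 ≤ B / (1 - Real.exp (-(S / 2))) := by positivity
    have h6 : B * q ^ j * Real.sqrt ((a j).T - t j) / (1 - Real.exp (-(S / 4)))
        = B / (1 - Real.exp (-(S / 4))) * (q ^ j * Real.sqrt ((a j).T - t j)) := by ring
    rw [h6]
    have h7 : 0 ≤ q ^ j * Real.sqrt ((a j).T - t j) := by positivity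
    nlinarith [mul_nonneg h5 h7]

end Seqs

end Crest.Agent.R086.TI
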