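import Crest.Agent.R086.TI4

/-!
Row 86, node FINAL (helper333), part 5: the blow-up rate at the limit point.
-/

set_option autoImplicit false

open MeasureTheory Complex Set Filter Topology
open scoped ContDiff
open Crest.AnalysisR.PDE.NLS (IsSmoothPeriodic sobolevDistSq IsClassicalSolution)

namespace Crest.Agent.R086.TI

open Profile

/-- index of the interval containing a time -/
theorem exists_index {t : ℕ → ℝ} {T : ℝ} (ht : StrictMono t) (hT : Tendsto t atTop (𝓝 T))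
    {r : ℝ} (h0 : t 0 ≤ r) (hr : r < T) : ∃ j, r ∈ Ico (t j) (t (j + 1)) := by
  classical
  have hex : ∃ j, r < t j := ((hT.eventually (lt_mem_nhds hr)).exists)
  obtain ⟨m, hm⟩ : ∃ m, Nat.find hex = m + 1 := by
    refine ⟨Nat.find hex - 1, ?_⟩
    have : Nat.find hex ≠ 0 := by
      intro h
      have := Nat.find_spec hex
      rw [h] at this
      linarith
    omega
  refine ⟨m, ?_, ?_⟩
  · have := Nat.find_min hex (m := m) (by omega)
    exact not_lt.1 this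
  · have := Nat.find_spec hex
    rwa [hm] at this

/-- index function, tending to infinity -/
theorem exists_index_fun {t : ℕ → ℝ} {T : ℝ} (ht : StrictMono t) (hT : Tendsto t atTop (𝓝 T)) :
    ∃ J : ℝ → ℕ, (∀ᶠ r in 𝓝[<] T, r ∈ Ico (t (J r)) (t (J r + 1))) ∧
      Tendsto J (𝓝[<] T) atTop := by
  classical
  have h1 : ∀ j, t j < T := fun j =>
    (ht (Nat.lt_succ_self j)).trans_le (ht.monotone.ge_of_tendsto hT (j + 1))
  have h2 : ∀ᶠ r in 𝓝[<] T, r ∈ Ioo (t 0) T := Ioo_mem_nhdsLT (h1 0)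
  have h3 : ∀ r, ∃ j, (r ∈ Ioo (t 0) T → r ∈ Ico (t j) (t (j + 1))) := by
    intro r
    by_cases hr : r ∈ Ioo (t 0) T
    · obtain ⟨j, hj⟩ := exists_index ht hT hr.1.le hr.2
      exact ⟨j, fun _ => hj⟩
    · exact ⟨0, fun h => absurd h hr⟩
  choose J hJ using h3
  refine ⟨J, h2.mono (fun r hr => hJ r hr), tendsto_atTop.2 (fun m => ?_)⟩
  have h4 : ∀ᶠ r in 𝓝[<] T, r ∈ Ioo (t m) T := Ioo_mem_nhdsLT (h1 m)
  filter_upwards [h2, h4] with r hr1 hr2
  have h5 := (hJ r hr1).2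
  have h6 : t m < t (J r + 1) := hr2.1.trans h5
  have := ht.lt_iff_lt.1 h6
  omega

namespace Seqs

variable {n : ℕ} {P : Profile n} {N s : ℕ} {μ S : ℝ} {u₀ : R12 → ℂ} {τ₀ B q : ℝ}
    {a : ℕ → Par} {t : ℕ → ℝ} {u : ℕ → ℝ → R12 → ℂ}

theorem tau_le (H : Seqs P N s μ S u₀ τ₀ B q a t u) (j : ℕ) : (a j).T - t j ≤ τ₀ := by
  have h1 := H.tau_add_le 0 j
  rw [zero_add, H.a0, H.t0, sub_zero] at h1
  have h2 : Real.exp (-(S / 2)) ^ j ≤ 1 := pow_le_one₀ (Real.exp_pos _).le H.E_lt.le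
  have h3 : 0 < τ₀ := by
    have := H.pos 0
    rwa [H.a0, H.t0, sub_zero] at this
  nlinarith

theorem tendsto_value (H : Seqs P N s μ S u₀ τ₀ B q a t u) (hTN : TN) (hTP : TP1 P) (hμ : 0 ≤ μ)
    (hτ01 : τ₀ ≤ 1)
    (hnear : ∀ η : ℝ, 0 < η → ∃ ρ : ℝ, 0 < ρ ∧ ∀ (a : Par) (t : ℝ) (x : R12), 0 < a.T - t →
      a.T - t ≤ 1 → ‖x - a.x‖ ≤ ρ * Real.sqrt (a.T - t) →
      |(a.T - t) ^ (1 / (n : ℝ)) * ‖P.prof a t x‖ - ‖P.Q 0‖| ≤ η)
    {T : ℝ} {X : R12} {K : ℝ} (hK : 0 ≤ K) (hT : Tendsto t atTop (𝓝 T))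
    (hTj : ∀ j, |(a j).T - T| ≤ K * q ^ j * ((a j).T - t j))
    (hXj : ∀ j, ‖(a j).x - X‖ ≤ K * q ^ j * Real.sqrt ((a j).T - t j))
    {v : ℝ → R12 → ℂ} (hvu : ∀ j, ∀ r ∈ Icc (t j) (t (j + 1)), v r = u j r) :
    Tendsto (fun r => (T - r) ^ (1 / (n : ℝ)) * ‖v r X‖) (𝓝[<] T) (𝓝 ‖P.Q 0‖) := by
  obtain ⟨J, hJ, hJt⟩ := exists_index_fun H.strictMono hT
  have hqt : Tendsto (fun j : ℕ => q ^ j) atTop (𝓝 0) :=
    tendsto_pow_atTop_nhds_zero_of_lt_one H.hq0.le H.hq1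
  have hqJ : Tendsto (fun r => q ^ (J r)) (𝓝[<] T) (𝓝 0) := hqt.comp hJt
  -- basic facts on an interval
  have hbase : ∀ j, ∀ r ∈ Icc (t j) (t (j + 1)), 0 < (a j).T - r ∧ (a j).T - r ≤ 1 ∧
      (a j).T - t j ≤ Real.exp S * ((a j).T - r) := by
    intro j r hr
    have h1 := H.dist_succ j
    have h2 := H.pos j
    have h3 : (a j).T - t (j + 1) ≤ (a j).T - r := by linarith [hr.2]
    have h4 : 0 < (a j).T - t (j + 1) := by rw [h1]; positivity
    refine ⟨lt_of_lt_of_le h4 h3, by linarith [hr.1, H.tau_le j], ?_⟩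
    have h5 : (a j).T - t j = Real.exp S * ((a j).T - t (j + 1)) := by
      rw [h1, ← mul_assoc, ← Real.exp_add]; simp
    rw [h5]
    exact mul_le_mul_of_nonneg_left h3 (Real.exp_pos _).le
  have heS : 0 < Real.exp S := Real.exp_pos _
  -- the ratio
  have hw : Tendsto (fun r => (T - r) / ((a (J r)).T - r)) (𝓝[<] T) (𝓝 1) := by
    have hb : Tendsto (fun r => K * Real.exp S * q ^ (J r)) (𝓝[<] T) (𝓝 0) := by
      have := hqJ.const_mul (K * Real.exp S)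
      rwa [mul_zero] at this
    rw [tendsto_iff_norm_sub_tendsto_zero]
    refine squeeze_zero' (Eventually.of_forall (fun _ => norm_nonneg _)) ?_ hb
    filter_upwards [hJ] with r hr
    obtain ⟨h1, h2, h3⟩ := hbase (J r) r ⟨hr.1, hr.2.le⟩
    have h4 := hTj (J r)
    have h5 : (T - r) / ((a (J r)).T - r) - 1 = (T - (a (J r)).T) / ((a (J r)).T - r) := by
      field_simp
      ring
    rw [h5, Real.norm_eq_abs, abs_div, abs_of_pos h1, div_le_iff₀ h1, abs_sub_comm]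
    have hq := pow_pos H.hq0 (J r)
    calc |(a (J r)).T - T| ≤ K * q ^ (J r) * ((a (J r)).T - t (J r)) := h4
      _ ≤ K * q ^ (J r) * (Real.exp S * ((a (J r)).T - r)) :=
          mul_le_mul_of_nonneg_left h3 (by positivity)
      _ = _ := by ring
  have hw2 : Tendsto (fun r => ((T - r) / ((a (J r)).T - r)) ^ (1 / (n : ℝ))) (𝓝[<] T) (𝓝 1) := by
    have h1 := hw.rpow_const (p := 1 / (n : ℝ)) (Or.inl one_ne_zero)
    rwa [Real.one_rpow] at h1
  -- the value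
  have hy : Tendsto (fun r => ((a (J r)).T - r) ^ (1 / (n : ℝ)) * ‖v r X‖) (𝓝[<] T)
      (𝓝 ‖P.Q 0‖) := by
    rw [Metric.tendsto_nhds]
    intro η hη
    obtain ⟨ρ, hρ, hnr⟩ := hnear (η / 3) (by positivity)
    have e1 : ∀ᶠ r in 𝓝[<] T, B * q ^ (J r) < η / 3 := by
      have := hqJ.const_mul B
      rw [mul_zero] at this
      exact this.eventually (gt_mem_nhds (by positivity))
    have e2 : ∀ᶠ r in 𝓝[<] T, K * Real.sqrt (Real.exp S) * q ^ (J r) < ρ := by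
      have := hqJ.const_mul (K * Real.sqrt (Real.exp S))
      rw [mul_zero] at this
      exact this.eventually (gt_mem_nhds hρ)
    filter_upwards [hJ, e1, e2] with r hr h1 h2
    have hrI : r ∈ Icc (t (J r)) (t (J r + 1)) := ⟨hr.1, hr.2.le⟩
    obtain ⟨h3, h4, h5⟩ := hbase (J r) r hrI
    have hq := pow_pos H.hq0 (J r)
    have h6 : ‖X - (a (J r)).x‖ ≤ ρ * Real.sqrt ((a (J r)).T - r) := by
      rw [norm_sub_rev]
      refine (hXj (J r)).trans ?_
      have h7 : Real.sqrt ((a (J r)).T - t (J r)) ≤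
          Real.sqrt (Real.exp S) * Real.sqrt ((a (J r)).T - r) := by
        rw [← Real.sqrt_mul heS.le]
        exact Real.sqrt_le_sqrt h5
      calc K * q ^ (J r) * Real.sqrt ((a (J r)).T - t (J r)) ≤
            K * q ^ (J r) * (Real.sqrt (Real.exp S) * Real.sqrt ((a (J r)).T - r)) :=
            mul_le_mul_of_nonneg_left h7 (by positivity)
        _ = (K * Real.sqrt (Real.exp S) * q ^ (J r)) * Real.sqrt ((a (J r)).T - r) := by ring
        _ ≤ ρ * Real.sqrt ((a (J r)).T - r) :=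
            mul_le_mul_of_nonneg_right h2.le (Real.sqrt_nonneg _)
    have h8 := hnr (a (J r)) r X h3 h4 h6
    have h9 := H.bd (J r) r hrI
    have hsm : IsSmoothPeriodic (u (J r) r) := (H.sol (J r)).smooth r hrI
    have h10 := sup_le_nrm (n := n) (N := N) (s := s) hTN hμ h3.le
      (isp_sub hsm (isp_prof hTP (a (J r)) h3)) X
    have h11 : ((a (J r)).T - r) ^ (1 / (n : ℝ)) * ‖u (J r) r X - P.prof (a (J r)) r X‖
        ≤ B * q ^ (J r) := h10.trans h9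
    rw [hvu (J r) r hrI, Real.dist_eq]
    have h12 : 0 ≤ ((a (J r)).T - r) ^ (1 / (n : ℝ)) := Real.rpow_nonneg h3.le _
    have h13 : |((a (J r)).T - r) ^ (1 / (n : ℝ)) * ‖u (J r) r X‖
        - ((a (J r)).T - r) ^ (1 / (n : ℝ)) * ‖P.prof (a (J r)) r X‖| ≤ B * q ^ (J r) := by
      rw [← mul_sub, abs_mul, abs_of_nonneg h12]
      exact (mul_le_mul_of_nonneg_left (abs_norm_sub_norm_le _ _) h12).trans h11
    calc |((a (J r)).T - r) ^ (1 / (n : ℝ)) * ‖u (J r) r X‖ - ‖P.Q 0‖| ≤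
          |((a (J r)).T - r) ^ (1 / (n : ℝ)) * ‖u (J r) r X‖
            - ((a (J r)).T - r) ^ (1 / (n : ℝ)) * ‖P.prof (a (J r)) r X‖| +
          |((a (J r)).T - r) ^ (1 / (n : ℝ)) * ‖P.prof (a (J r)) r X‖ - ‖P.Q 0‖| := by
          have := abs_add_le (((a (J r)).T - r) ^ (1 / (n : ℝ)) * ‖u (J r) r X‖
            - ((a (J r)).T - r) ^ (1 / (n : ℝ)) * ‖P.prof (a (J r)) r X‖)
            (((a (J r)).T - r) ^ (1 / (n : ℝ)) * ‖P.prof (a (J r)) r X‖ - ‖P.Q 0‖)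
          simpa using this
      _ < η := by linarith
  have hmul := hw2.mul hy
  rw [one_mul] at hmul
  refine hmul.congr' ?_
  have hlt : ∀ᶠ r in 𝓝[<] T, r < T := self_mem_nhdsWithin
  filter_upwards [hJ, hlt] with r hr hrT
  obtain ⟨h1, h2, h3⟩ := hbase (J r) r ⟨hr.1, hr.2.le⟩
  rw [Real.div_rpow (by linarith) h1.le, ← mul_assoc, div_mul_cancel₀]
  exact (Real.rpow_pos_of_pos h1 _).ne'

end Seqs

end Crest.Agent.R086.TI
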