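import Crest.Agent.R086.TorDefs
import Crest.Agent.R086.TI1

/-!
Row 86, node FINAL (helper343, second of helper333): three auxiliary facts.
-/

set_option autoImplicit false

open MeasureTheory Complex Set Filter Topology
open scoped ContDiff
open Crest.AnalysisR.PDE.NLS (IsSmoothPeriodic sobolevDistSq IsClassicalSolution)

namespace Crest.Agent.R086.TI

open Crest.Agent.R086 Crest.Agent.R086.Profile

theorem nk_nonneg (k : Z12) : 0 ≤ nk k := norm_nonneg _

theorem isSmoothPeriodic_sub {v w : R12 → ℂ} (hv : IsSmoothPeriodic v) (hw : IsSmoothPeriodic w) :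
    IsSmoothPeriodic (fun x => v x - w x) :=
  ⟨hv.1.sub hw.1, fun x i => by
    have h1 := hv.2 x i
    have h2 := hw.2 x i
    simp only [h1, h2]⟩

/-- low weights are dominated by `wn s 1` -/
theorem wn_le_wn_one {N s : ℕ} (hNs : N ≤ s) {h : ℝ} (h0 : 0 ≤ h) (h1 : h ≤ 1) {f : R12 → ℂ}
    (hf : Summable fun k => (1 + nk k) ^ s * ‖cf f k‖) : wn N h f ≤ wn s 1 f := by
  have hle : ∀ k : Z12, (1 + h * nk k) ^ N * ‖cf f k‖ ≤ (1 + 1 * nk k) ^ s * ‖cf f k‖ := by
    intro k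
    have hk := nk_nonneg k
    refine mul_le_mul_of_nonneg_right ?_ (norm_nonneg _)
    have e1 : (1 + h * nk k) ^ N ≤ (1 + 1 * nk k) ^ N := by
      refine pow_le_pow_left₀ (by positivity) ?_ N
      nlinarith
    exact e1.trans (pow_le_pow_right₀ (by nlinarith) hNs)
  have hs : Summable fun k : Z12 => (1 + 1 * nk k) ^ s * ‖cf f k‖ := by
    simpa using hf
  unfold wn
  exact Summable.tsum_le_tsum hle (Summable.of_nonneg_of_le (fun k => by
    have hk := nk_nonneg k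
    positivity) hle hs) hs

theorem hi_le_wn_one {s : ℕ} {h : ℝ} (h0 : 0 ≤ h) (h1 : h ≤ 1) {f : R12 → ℂ}
    (hf : Summable fun k => (1 + nk k) ^ s * ‖cf f k‖) : hi s h f ≤ wn s 1 f := by
  have hle : ∀ k : Z12, (h * nk k) ^ s * ‖cf f k‖ ≤ (1 + 1 * nk k) ^ s * ‖cf f k‖ := by
    intro k
    have hk := nk_nonneg k
    refine mul_le_mul_of_nonneg_right ?_ (norm_nonneg _)
    refine pow_le_pow_left₀ (by positivity) ?_ s
    nlinarith
  have hs : Summable fun k : Z12 => (1 + 1 * nk k) ^ s * ‖cf f k‖ := by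
    simpa using hf
  unfold hi wn
  exact Summable.tsum_le_tsum hle (Summable.of_nonneg_of_le (fun k => by
    have hk := nk_nonneg k
    positivity) hle hs) hs

/-- (a) Sobolev distance controls the scale norm. -/
theorem nrm_le_sob (hTF1 : TF1) (hTF3 : TF3) {n N s : ℕ} (hNs : N ≤ s) {μ τ : ℝ} (hμ : 0 ≤ μ)
    (hτ : 0 < τ) (hτ1 : τ ≤ 1) : ∃ C : ℝ, 0 ≤ C ∧ ∀ v w : R12 → ℂ, IsSmoothPeriodic v →
    IsSmoothPeriodic w → nrm n N s μ τ (fun x => v x - w x)
      ≤ C * Real.sqrt (sobolevDistSq (s + 14) v w) := by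
  obtain ⟨C, hC, hCs⟩ := hTF3 s
  have hh0 : 0 ≤ Real.sqrt τ := Real.sqrt_nonneg _
  have hh1 : Real.sqrt τ ≤ 1 := Real.sqrt_le_one.2 hτ1
  refine ⟨τ ^ (1 / (n : ℝ)) * ((1 + μ) * C), by positivity, fun v w hv hw => ?_⟩
  have hf := (hTF1 _ (isSmoothPeriodic_sub hv hw)).1 s
  have e1 := wn_le_wn_one hNs hh0 hh1 hf
  have e2 := hi_le_wn_one hh0 hh1 hf
  have e3 := hCs v w hv hw
  unfold nrm nn
  have hp : 0 ≤ τ ^ (1 / (n : ℝ)) := by positivity
  calc τ ^ (1 / (n : ℝ)) * (wn N (Real.sqrt τ) (fun x => v x - w x)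
        + μ * hi s (Real.sqrt τ) (fun x => v x - w x))
      ≤ τ ^ (1 / (n : ℝ)) * (C * Real.sqrt (sobolevDistSq (s + 14) v w)
        + μ * (C * Real.sqrt (sobolevDistSq (s + 14) v w))) := by
        refine mul_le_mul_of_nonneg_left (add_le_add (e1.trans e3) ?_) hp
        exact mul_le_mul_of_nonneg_left (e2.trans e3) hμ
    _ = τ ^ (1 / (n : ℝ)) * ((1 + μ) * C) * Real.sqrt (sobolevDistSq (s + 14) v w) := by ring

theorem one_le_norm_zv {k : Z12} (hk : k ≠ 0) : 1 ≤ ‖zv k‖ := by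
  obtain ⟨i, hi⟩ : ∃ i, k i ≠ 0 := by
    by_contra hcon
    push Not at hcon
    exact hk (funext hcon)
  have h1 : ‖zv k i‖ ≤ ‖zv k‖ := PiLp.norm_apply_le (zv k) i
  have h2 : ‖zv k i‖ = |((k i : ℤ) : ℝ)| := by simp [zv]
  have h3 : (1 : ℝ) ≤ |((k i : ℤ) : ℝ)| := by
    rw [← Int.cast_abs]
    exact_mod_cast Int.one_le_abs hi
  linarith

theorem perz_near {f : R12 → ℂ} (hf : ∀ x : R12, 2 ≤ ‖x‖ → f x = 0) {x : R12} (hx : ‖x‖ ≤ 1) :
    perz f x = f x := by
  unfold perz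
  rw [tsum_eq_single (0 : Z12)]
  · have : zv (0 : Z12) = 0 := by ext i; simp [zv]
    rw [this, smul_zero, sub_zero]
  · intro k hk
    apply hf
    have h1 := one_le_norm_zv hk
    have h2 : ‖(2 * Real.pi) • zv k‖ = 2 * Real.pi * ‖zv k‖ := by
      rw [norm_smul, Real.norm_of_nonneg (by positivity)]
    have h3 : ‖(2 * Real.pi) • zv k‖ - ‖x‖ ≤ ‖x - (2 * Real.pi) • zv k‖ := by
      rw [norm_sub_rev]
      exact norm_sub_norm_le _ _
    have h4 := Real.pi_gt_three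
    have h5 : 2 * Real.pi * 1 ≤ 2 * Real.pi * ‖zv k‖ :=
      mul_le_mul_of_nonneg_left h1 (by positivity)
    linarith

/-- (b) value of the periodised profile near the centre. -/
theorem qt_near {n : ℕ} (P : Profile n) {τ : ℝ} (hτ : 0 < τ) {x : R12} (hx : ‖x‖ ≤ 1) :
    P.qt τ x = P.Q ((Real.sqrt τ)⁻¹ • x) := by
  unfold Profile.qt
  rw [perz_near _ hx]
  · have : chi0 x = 1 := chi0.one_of_mem_closedBall (by simpa [chi0] using hx)
    rw [this]
    simp
  · intro y hy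
    have : chi0 y = 0 := chi0.zero_of_le_dist (by simpa [chi0] using hy)
    rw [this]
    simp

/-- the same for the modes -/
theorem mt_near {n : ℕ} (P : Profile n) (m : MIx) {τ : ℝ} {x : R12} (hx : ‖x‖ ≤ 1) :
    P.mt m τ x = P.mode1 m ((Real.sqrt τ)⁻¹ • x) := by
  unfold Profile.mt
  rw [perz_near _ hx]
  · have : chi0 x = 1 := chi0.one_of_mem_closedBall (by simpa [chi0] using hx)
    rw [this]
    simp
  · intro y hy
    have : chi0 y = 0 := chi0.zero_of_le_dist (by simpa [chi0] using hy)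
    rw [this]
    simp

/-- (c) modulus of the amplitude. -/
theorem norm_amp {n : ℕ} (P : Profile n) (a : Par) {t : ℝ} (h : 0 < a.T - t) :
    ‖P.amp a t‖ = (a.T - t) ^ (-(1 / (n : ℝ))) := by
  unfold Profile.amp
  rw [norm_mul]
  have h1 : ‖exp (I * (a.th : ℂ))‖ = 1 := by
    rw [mul_comm]
    exact Complex.norm_exp_ofReal_mul_I _
  rw [h1, one_mul, Complex.norm_cpow_eq_rpow_re_of_pos h]
  congr 1
  simp

end Crest.Agent.R086.TI
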