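import Crest.Agent.R086.TKDefs

/-!
Row 86, Part D (torus), node TK (helper501).
`cw χ ξ = (2π)^{-12} ∫ χ(x) e^{-iξ·x} dx` (normalised Fourier transform), decay, inversion,
windowed transforms of lattice sums and of Fourier integrals.
-/

set_option autoImplicit false

open MeasureTheory Complex Filter Topology
open scoped ContDiff FourierTransform RealInnerProductSpace

namespace Crest.Agent.R086.TK

@[simp] lemma zv_apply (k : Z12) (i : Fin 12) : zv k i = (k i : ℝ) := rfl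

lemma zv_sub (k j : Z12) : zv (k - j) = zv k - zv j := by
  ext i; simp
lemma zv_add (k j : Z12) : zv (k + j) = zv k + zv j := by
  ext i; simp
lemma zv_neg (k : Z12) : zv (-k) = - zv k := by
  ext i; simp
@[simp] lemma zv_zero : zv 0 = 0 := by
  ext i; simp

/-- character `e^{i ξ·x}` -/
noncomputable def ch (ξ x : R12) : ℂ := exp (I * ((inner ℝ ξ x : ℝ) : ℂ))

lemma norm_ch (ξ x : R12) : ‖ch ξ x‖ = 1 := by
  unfold ch
  rw [mul_comm, norm_exp_ofReal_mul_I]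

lemma ch_add_left (ξ η x : R12) : ch (ξ + η) x = ch ξ x * ch η x := by
  unfold ch
  rw [← Complex.exp_add, inner_add_left]
  push_cast
  ring_nf

lemma ch_neg_left (ξ x : R12) : ch (-ξ) x = exp (-(I * ((inner ℝ ξ x : ℝ) : ℂ))) := by
  unfold ch
  rw [inner_neg_left]
  push_cast
  ring_nf

lemma continuous_ch : Continuous (fun p : R12 × R12 => ch p.1 p.2) := by
  unfold ch
  fun_prop

lemma continuous_ch_left (x : R12) : Continuous (fun ξ : R12 => ch ξ x) := by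
  unfold ch
  fun_prop

lemma continuous_ch_right (ξ : R12) : Continuous (fun x : R12 => ch ξ x) := by
  unfold ch
  fun_prop

/-- `(2π)^{-12}` -/
noncomputable def c12 : ℂ := ((((2 * Real.pi) ^ 12 : ℝ)) : ℂ)⁻¹

/-- normalised Fourier transform -/
noncomputable def cw (χ : R12 → ℂ) (ξ : R12) : ℂ :=
  c12 * ∫ x : R12, ch (-ξ) x * χ x

lemma cw_eq_fourier (χ : R12 → ℂ) (ξ : R12) :
    cw χ ξ = c12 * 𝓕 χ ((2 * Real.pi)⁻¹ • ξ) := by
  unfold cw
  congr 1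
  rw [Real.fourier_eq']
  refine integral_congr_ae (Filter.Eventually.of_forall fun x => ?_)
  simp only [smul_eq_mul]
  congr 1
  unfold ch
  rw [inner_smul_right, real_inner_comm, inner_neg_right]
  congr 1
  push_cast
  have : (Real.pi : ℂ) ≠ 0 := by exact_mod_cast Real.pi_ne_zero
  field_simp

/-- smooth compactly supported cutoffs -/
structure Cut (χ : R12 → ℂ) : Prop where
  smooth : ContDiff ℝ ∞ χ
  supp : HasCompactSupport χ

lemma Cut.continuous {χ : R12 → ℂ} (h : Cut χ) : Continuous χ := h.smooth.continuous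

lemma Cut.integrable {χ : R12 → ℂ} (h : Cut χ) : Integrable χ :=
  h.continuous.integrable_of_hasCompactSupport h.supp

lemma Cut.cw_schwartz {χ : R12 → ℂ} (h : Cut χ) :
    ∃ g : SchwartzMap R12 ℂ, ∀ ξ, cw χ ξ = c12 * g ((2 * Real.pi)⁻¹ • ξ) := by
  refine ⟨𝓕 (h.supp.toSchwartzMap h.smooth), fun ξ => ?_⟩
  rw [cw_eq_fourier]
  rfl

lemma Cut.cw_continuous {χ : R12 → ℂ} (h : Cut χ) : Continuous (cw χ) := by
  obtain ⟨g, hg⟩ := h.cw_schwartz
  have : cw χ = fun ξ => c12 * g ((2 * Real.pi)⁻¹ • ξ) := funext hg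
  rw [this]
  have := g.continuous
  fun_prop

/-- rapid decay -/
lemma Cut.cw_decay {χ : R12 → ℂ} (h : Cut χ) (m : ℕ) :
    ∃ C : ℝ, 0 ≤ C ∧ ∀ ξ, (1 + ‖ξ‖) ^ m * ‖cw χ ξ‖ ≤ C := by
  obtain ⟨g, hg⟩ := h.cw_schwartz
  obtain ⟨C, hC⟩ := g.decay' 0 0
  obtain ⟨D, hD⟩ := g.decay' m 0
  have hC' : ∀ x, ‖g x‖ ≤ C := by
    intro x
    have := hC x
    rw [norm_iteratedFDeriv_zero, pow_zero, one_mul] at this
    exact this
  have hD' : ∀ x, ‖x‖ ^ m * ‖g x‖ ≤ D := by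
    intro x
    have := hD x
    rw [norm_iteratedFDeriv_zero] at this
    exact this
  have hC0 : 0 ≤ C := (norm_nonneg _).trans (hC' 0)
  have hD0 : 0 ≤ D := (by positivity : (0:ℝ) ≤ ‖(0:R12)‖ ^ m * ‖g 0‖).trans (hD' 0)
  refine ⟨‖c12‖ * (2 ^ m * (C + (2 * Real.pi) ^ m * D)), by positivity, fun ξ => ?_⟩
  rw [hg, norm_mul]
  set y := (2 * Real.pi)⁻¹ • ξ with hy
  have hpi : (0:ℝ) < 2 * Real.pi := by positivity
  have hξ : ‖ξ‖ = 2 * Real.pi * ‖y‖ := by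
    rw [hy, norm_smul, Real.norm_of_nonneg (by positivity : (0:ℝ) ≤ (2 * Real.pi)⁻¹)]
    field_simp
  have h1 : (1 + ‖ξ‖) ^ m ≤ 2 ^ m * (1 + ‖ξ‖ ^ m) := by
    have h2 : (1 + ‖ξ‖) ≤ 2 * max 1 ‖ξ‖ := by
      have := le_max_left (1:ℝ) ‖ξ‖
      have := le_max_right (1:ℝ) ‖ξ‖
      linarith
    calc (1 + ‖ξ‖) ^ m ≤ (2 * max 1 ‖ξ‖) ^ m := by gcongr
      _ = 2 ^ m * (max 1 ‖ξ‖) ^ m := by rw [mul_pow]
      _ ≤ 2 ^ m * (1 + ‖ξ‖ ^ m) := by
        gcongr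
        rcases le_total (1:ℝ) ‖ξ‖ with h3 | h3
        · rw [max_eq_right h3]; linarith
        · rw [max_eq_left h3]; simp
  calc (1 + ‖ξ‖) ^ m * (‖c12‖ * ‖g y‖)
      = ‖c12‖ * ((1 + ‖ξ‖) ^ m * ‖g y‖) := by ring
    _ ≤ ‖c12‖ * (2 ^ m * (1 + ‖ξ‖ ^ m) * ‖g y‖) := by gcongr
    _ = ‖c12‖ * (2 ^ m * (‖g y‖ + (2 * Real.pi) ^ m * (‖y‖ ^ m * ‖g y‖))) := by
      rw [hξ, mul_pow]; ring
    _ ≤ ‖c12‖ * (2 ^ m * (C + (2 * Real.pi) ^ m * D)) := by
      gcongr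
      · exact hC' y
      · exact hD' y

lemma Cut.cw_integrable_pow {χ : R12 → ℂ} (h : Cut χ) (m : ℕ) :
    Integrable (fun ξ => (1 + ‖ξ‖) ^ m * ‖cw χ ξ‖) := by
  obtain ⟨C, hC0, hC⟩ := h.cw_decay (m + 13)
  have hI : Integrable (fun ξ : R12 => (1 + ‖ξ‖) ^ (-(13:ℝ))) := by
    apply integrable_one_add_norm
    simp
    norm_num
  have hc := h.cw_continuous
  refine (hI.const_mul C).mono' (by fun_prop) (Eventually.of_forall fun ξ => ?_)
  have h0 : (0:ℝ) < 1 + ‖ξ‖ := by positivity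
  rw [Real.norm_of_nonneg (by positivity), Real.rpow_neg h0.le, ← div_eq_mul_inv, le_div_iff₀ (by positivity)]
  have : (1 + ‖ξ‖) ^ (13:ℝ) = (1 + ‖ξ‖) ^ (13:ℕ) := by
    rw [← Real.rpow_natCast]; norm_num
  rw [this]
  calc (1 + ‖ξ‖) ^ m * ‖cw χ ξ‖ * (1 + ‖ξ‖) ^ 13 = (1 + ‖ξ‖) ^ (m + 13) * ‖cw χ ξ‖ := by
        rw [pow_add]; ring
    _ ≤ C := hC ξ

lemma Cut.cw_integrable {χ : R12 → ℂ} (h : Cut χ) : Integrable (cw χ) := by
  have := h.cw_integrable_pow 0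
  simp only [pow_zero, one_mul] at this
  exact (integrable_norm_iff h.cw_continuous.aestronglyMeasurable).1 this

/-- inversion -/
lemma Cut.inversion {χ : R12 → ℂ} (h : Cut χ) (x : R12) :
    ∫ ξ, ch ξ x * cw χ ξ = χ x := by
  have hpi : (0:ℝ) < 2 * Real.pi := by positivity
  have hF : Integrable (𝓕 χ) := by
    have : 𝓕 χ = (𝓕 (h.supp.toSchwartzMap h.smooth) : SchwartzMap R12 ℂ) := rfl
    rw [this]; exact SchwartzMap.integrable _
  have h1 := congrFun (h.continuous.fourierInv_fourier_eq h.integrable hF) x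
  rw [← h1, Real.fourierInv_eq']
  have h2 : ∀ ξ : R12, ch ξ x * cw χ ξ =
      (fun η : R12 => c12 * (cexp (↑(2 * Real.pi * inner ℝ η x) * I) • 𝓕 χ η)) ((2 * Real.pi)⁻¹ • ξ) := by
    intro ξ
    simp only [smul_eq_mul, cw_eq_fourier]
    unfold ch
    rw [inner_smul_left]
    have : (Real.pi : ℂ) ≠ 0 := by exact_mod_cast Real.pi_ne_zero
    have h3 : (I * ((inner ℝ ξ x : ℝ) : ℂ)) =
      ((2 * Real.pi * ((starRingEnd ℝ) (2 * Real.pi)⁻¹ * inner ℝ ξ x) : ℝ) : ℂ) * I := by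
      simp only [conj_trivial]
      push_cast
      field_simp
    rw [h3]
    ring
  rw [integral_congr_ae (Eventually.of_forall h2)]
  rw [Measure.integral_comp_smul volume
    (fun η : R12 => c12 * (cexp (↑(2 * Real.pi * inner ℝ η x) * I) • 𝓕 χ η)) ((2 * Real.pi)⁻¹), integral_const_mul]
  simp only [finrank_euclideanSpace, Fintype.card_fin, smul_eq_mul]
  have h4 : (|(((2 * Real.pi)⁻¹) ^ 12)⁻¹| : ℝ) = (2 * Real.pi) ^ 12 := by
    rw [abs_of_nonneg (by positivity)]; field_simp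
  rw [h4, real_smul, ← mul_assoc]
  unfold c12
  have h5 : (((2 * Real.pi) ^ 12 : ℝ) : ℂ) ≠ 0 := by
    have : ((2 * Real.pi) ^ 12 : ℝ) ≠ 0 := by positivity
    exact_mod_cast this
  rw [mul_inv_cancel₀ h5, one_mul]

end Crest.Agent.R086.TK
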