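import Crest.Agent.R086.TKDefs2
import Crest.Agent.R086.TK2
import Crest.Agent.R086.TorBasic

/-!
Row 86, NearLin, file TK3 (helper501): the pointwise mild formula for the lattice densities.
-/

set_option autoImplicit false

open MeasureTheory Complex Filter Topology Set
open scoped ContDiff
open Crest.AnalysisR.PDE.NLS (IsSmoothPeriodic periodCell)

namespace Crest.Agent.R086.TK

open Profile

noncomputable section

lemma summable_inv24 : Summable fun k : Z12 => ((1 + nk k) ^ 24)⁻¹ :=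
  Tor.summable_wt_inv (d := 12) (M := 24) le_rfl

lemma le_inv_of_pow_mul_le {x y C : ℝ} {M : ℕ} (hx : 0 < x) (h : x ^ M * y ≤ C) :
    y ≤ C * (x ^ M)⁻¹ := by
  rw [← div_eq_mul_inv, le_div_iff₀ (by positivity)]
  linarith

lemma RD.summable {S : ℝ} {c : ℝ → Z12 → ℂ} (h : RD S c) {s : ℝ} (hs : s ∈ Icc 0 S) (M : ℕ) :
    Summable fun k => (1 + nk k) ^ M * ‖c s k‖ := by
  obtain ⟨C, hC0, hC⟩ := h.dec (M + 24)
  refine Summable.of_nonneg_of_le (fun k => ?_) (fun k => ?_) (summable_inv24.mul_left C)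
  · have := TB.nk_nonneg k
    positivity
  · have h0 := TB.nk_nonneg k
    have h1 : (0:ℝ) < 1 + nk k := by positivity
    refine le_inv_of_pow_mul_le h1 ?_
    calc (1 + nk k) ^ 24 * ((1 + nk k) ^ M * ‖c s k‖) = (1 + nk k) ^ (M + 24) * ‖c s k‖ := by
          rw [pow_add]; ring
      _ ≤ C := hC s hs k

lemma Win.bdd {φ : R12 → ℂ} (h : Win φ) : ∃ C : ℝ, 0 ≤ C ∧ ∀ ξ, ‖φ ξ‖ ≤ C := by
  obtain ⟨C, hC0, hC⟩ := h.dec 0
  exact ⟨C, hC0, fun ξ => by simpa using hC ξ⟩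

section scal

variable {τ₀ : ℝ}

lemma hs_eq (hτ : 0 < τ₀) (r : ℝ) : hs τ₀ r = Real.sqrt τ₀ * Real.exp (-r / 2) := by
  unfold hs
  rw [Real.sqrt_mul hτ.le]
  congr 1
  rw [Real.sqrt_eq_iff_mul_self_eq (Real.exp_pos _).le (Real.exp_pos _).le, ← Real.exp_add]
  ring_nf

lemma hs_pos (hτ : 0 < τ₀) (r : ℝ) : 0 < hs τ₀ r := by
  unfold hs
  exact Real.sqrt_pos.2 (mul_pos hτ (Real.exp_pos _))

lemma hs_sq (hτ : 0 < τ₀) (r : ℝ) : hs τ₀ r ^ 2 = τ₀ * Real.exp (-r) := by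
  unfold hs
  rw [Real.sq_sqrt (mul_pos hτ (Real.exp_pos _)).le]

lemma hs_zero : hs τ₀ 0 = Real.sqrt τ₀ := by
  unfold hs
  simp

lemma hs_le_one (hτ : 0 < τ₀) (h1 : τ₀ ≤ 1) {r : ℝ} (hr : 0 ≤ r) : hs τ₀ r ≤ 1 := by
  unfold hs
  rw [Real.sqrt_le_one]
  have : Real.exp (-r) ≤ 1 := Real.exp_le_one_iff.2 (by linarith)
  nlinarith [Real.exp_pos (-r)]

lemma hs_le_sqrt (hτ : 0 < τ₀) {r : ℝ} (hr : 0 ≤ r) : hs τ₀ r ≤ Real.sqrt τ₀ := by
  unfold hs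
  apply Real.sqrt_le_sqrt
  have : Real.exp (-r) ≤ 1 := Real.exp_le_one_iff.2 (by linarith)
  nlinarith [Real.exp_pos (-r)]

lemma continuous_hs : Continuous (hs τ₀) := by
  unfold hs
  fun_prop

/-- the rescaled frequency is constant along the flow -/
lemma hs_smul (hτ : 0 < τ₀) (s r : ℝ) (ξ : R12) :
    (hs τ₀ r)⁻¹ • (Real.exp ((s - r) / 2) • ξ) = (hs τ₀ s)⁻¹ • ξ := by
  rw [smul_smul]
  congr 1
  rw [hs_eq hτ, hs_eq hτ, mul_inv, mul_inv, ← Real.exp_neg, ← Real.exp_neg, mul_assoc,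
    ← Real.exp_add]
  congr 2
  ring

lemma hs_pow (hτ : 0 < τ₀) (s r : ℝ) :
    Real.exp (6 * (s - r)) * (hs τ₀ r ^ 12)⁻¹ = (hs τ₀ s ^ 12)⁻¹ := by
  rw [hs_eq hτ, hs_eq hτ, mul_pow, mul_pow, mul_inv, mul_inv, ← Real.exp_nat_mul,
    ← Real.exp_nat_mul, ← Real.exp_neg, ← Real.exp_neg, mul_left_comm, ← Real.exp_add]
  congr 2
  push_cast
  ring

end scal

/-- integrating factor -/
def EE {n : ℕ} (P : Profile n) (τ₀ s : ℝ) (η : R12) (r : ℝ) : ℂ :=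
  exp ((I * P.om - 1 / n) * ((s - r : ℝ) : ℂ)) *
    exp (-I * (((τ₀ * Real.exp (-r) - τ₀ * Real.exp (-s)) * ‖η‖ ^ 2 : ℝ) : ℂ))

lemma EE_self {n : ℕ} (P : Profile n) (τ₀ s : ℝ) (η : R12) : EE P τ₀ s η s = 1 := by
  unfold EE
  simp

lemma hasDerivAt_EE {n : ℕ} (P : Profile n) (τ₀ s : ℝ) (η : R12) (r : ℝ) :
    HasDerivAt (EE P τ₀ s η)
      ((-(I * P.om - 1 / n) + I * ((τ₀ * Real.exp (-r) * ‖η‖ ^ 2 : ℝ) : ℂ)) * EE P τ₀ s η r) r := by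
  have h1 : HasDerivAt (fun r : ℝ => (I * P.om - 1 / n) * ((s - r : ℝ) : ℂ))
      (-(I * P.om - 1 / n)) r := by
    have h := ((hasDerivAt_const r s).sub (hasDerivAt_id r)).ofReal_comp.const_mul
      (I * (P.om : ℂ) - 1 / n)
    simpa using h
  have h2 : HasDerivAt (fun r : ℝ => -I * (((τ₀ * Real.exp (-r) - τ₀ * Real.exp (-s)) * ‖η‖ ^ 2 : ℝ) : ℂ))
      (I * ((τ₀ * Real.exp (-r) * ‖η‖ ^ 2 : ℝ) : ℂ)) r := by
    have h0 : HasDerivAt (fun r : ℝ => (τ₀ * Real.exp (-r) - τ₀ * Real.exp (-s)) * ‖η‖ ^ 2)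
        (-(τ₀ * Real.exp (-r) * ‖η‖ ^ 2)) r := by
      have h3 : HasDerivAt (fun r : ℝ => Real.exp (-r)) (-Real.exp (-r)) r := by
        have := (hasDerivAt_neg r).exp
        simpa using this
      have h4 := ((h3.const_mul τ₀).sub_const (τ₀ * Real.exp (-s))).mul_const (‖η‖ ^ 2)
      refine h4.congr_deriv ?_
      ring
    have h5 := h0.ofReal_comp.const_mul (-I)
    refine h5.congr_deriv ?_
    push_cast
    ring
  have h3 := h1.cexp.mul h2.cexp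
  refine h3.congr_deriv ?_
  unfold EE
  ring

lemma norm_EE_le {n : ℕ} (P : Profile n) (τ₀ s : ℝ) (η : R12) {r : ℝ} (hr : r ≤ s) :
    ‖EE P τ₀ s η r‖ ≤ 1 := by
  unfold EE
  rw [norm_mul, Complex.norm_exp, Complex.norm_exp]
  have h1 : ((I * (P.om : ℂ) - 1 / n) * ((s - r : ℝ) : ℂ)).re = -((s - r) / n) := by
    have : (1 / (n : ℂ)) = (((1 / n : ℝ)) : ℂ) := by push_cast; ring
    rw [this]
    simp
    ring
  have h2 : (-I * (((τ₀ * Real.exp (-r) - τ₀ * Real.exp (-s)) * ‖η‖ ^ 2 : ℝ) : ℂ)).re = 0 := by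
    have : ∀ x : ℝ, (-I * (x : ℂ)).re = 0 := fun x => by simp
    exact this _
  rw [h1, h2, Real.exp_zero, mul_one]
  apply Real.exp_le_one_iff.2
  have : 0 ≤ (s - r) / n := div_nonneg (by linarith) (by positivity)
  linarith

lemma continuous_EE {n : ℕ} (P : Profile n) (τ₀ s : ℝ) (η : R12) : Continuous (EE P τ₀ s η) :=
  continuous_iff_continuousAt.2 fun r => (hasDerivAt_EE P τ₀ s η r).continuousAt

/-- free flow of a function evaluated through the constant rescaled frequency -/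
lemma fr_eval {n : ℕ} (P : Profile n) {τ₀ : ℝ} (hτ : 0 < τ₀) (s r : ℝ) (g : R12 → ℂ) (ξ : R12) :
    fr P (s - r) (fun ξ => (((hs τ₀ r ^ 12)⁻¹ : ℝ) : ℂ) * g ((hs τ₀ r)⁻¹ • ξ)) ξ =
      (((hs τ₀ s ^ 12)⁻¹ : ℝ) : ℂ) * (EE P τ₀ s ((hs τ₀ s)⁻¹ • ξ) r * g ((hs τ₀ s)⁻¹ • ξ)) := by
  unfold fr EE
  simp only
  rw [hs_smul hτ]
  have h1 : exp (6 * ((s - r : ℝ) : ℂ)) * (((hs τ₀ r ^ 12)⁻¹ : ℝ) : ℂ) = (((hs τ₀ s ^ 12)⁻¹ : ℝ) : ℂ) := by
    rw [← hs_pow hτ s r]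
    push_cast
    rfl
  have h2 : (Real.exp (s - r) - 1) * ‖ξ‖ ^ 2
      = (τ₀ * Real.exp (-r) - τ₀ * Real.exp (-s)) * ‖(hs τ₀ s)⁻¹ • ξ‖ ^ 2 := by
    have h3 : ‖ξ‖ ^ 2 = hs τ₀ s ^ 2 * ‖(hs τ₀ s)⁻¹ • ξ‖ ^ 2 := by
      rw [norm_smul, norm_inv, Real.norm_of_nonneg (hs_pos hτ s).le, mul_pow, ← mul_assoc, ← mul_pow,
        mul_inv_cancel₀ (hs_pos hτ s).ne', one_pow, one_mul]
    rw [h3, hs_sq hτ]
    have h4 : τ₀ * Real.exp (-r) = Real.exp (s - r) * (τ₀ * Real.exp (-s)) := by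
      rw [mul_left_comm, ← Real.exp_add]
      ring_nf
    rw [h4]
    ring
  rw [h2, ← h1]
  ring

/-- POINTWISE MILD FORMULA -/
theorem mild {n : ℕ} (P : Profile n) {φ : R12 → ℂ} (hφ : Win φ) {τ₀ S : ℝ} (hτ : 0 < τ₀)
    (hτ1 : τ₀ ≤ 1) {c G : ℝ → Z12 → ℂ} (hc : RD S c) (hG : RD S G)
    (hode : ∀ s ∈ Icc 0 S, ∀ k, HasDerivWithinAt (fun s => c s k)
      ((-(I * ((τ₀ * Real.exp (-s) * nk k ^ 2 : ℝ) : ℂ)) + (I * (P.om : ℂ) - 1 / (n : ℂ)))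
        * c s k + G s k) (Icc 0 S) s)
    {s : ℝ} (hs' : s ∈ Icc 0 S) (ξ : R12) :
    Jd φ (hs τ₀ s) (c s) ξ = fr P s (Jd φ (hs τ₀ 0) (c 0)) ξ
      + ∫ r in (0 : ℝ)..s, fr P (s - r) (fun ξ => Jd φ (hs τ₀ r) (G r) ξ + Kd φ (hs τ₀ r) (c r) ξ) ξ := by
  set η : R12 := (hs τ₀ s)⁻¹ • ξ with hη
  have hS : (0:ℝ) ≤ S := hs'.1.trans hs'.2
  have h0S : (0:ℝ) ∈ Icc 0 S := ⟨le_rfl, hS⟩
  obtain ⟨Cφ, hCφ0, hCφ⟩ := hφ.bdd
  -- coefficientwise formula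
  set F : Z12 → ℝ → ℂ := fun k r => EE P τ₀ s η r *
    (G r k + I * ((τ₀ * Real.exp (-r) * (‖η‖ ^ 2 - nk k ^ 2) : ℝ) : ℂ) * c r k) with hF
  have hFcont : ∀ k, ContinuousOn (F k) (Icc 0 S) := by
    intro k
    have h1 := hG.cont k
    have h2 := hc.cont k
    have h3 := (continuous_EE P τ₀ s η).continuousOn (s := Icc 0 S)
    have h4 : ContinuousOn (fun r : ℝ => I * ((τ₀ * Real.exp (-r) * (‖η‖ ^ 2 - nk k ^ 2) : ℝ) : ℂ))
        (Icc 0 S) := by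
      have : Continuous (fun r : ℝ => I * ((τ₀ * Real.exp (-r) * (‖η‖ ^ 2 - nk k ^ 2) : ℝ) : ℂ)) := by
        fun_prop
      exact this.continuousOn
    exact h3.mul (h1.add (h4.mul h2))
  have hsub : Icc 0 s ⊆ Icc 0 S := Icc_subset_Icc_right hs'.2
  have hftc : ∀ k, ∫ r in (0:ℝ)..s, F k r = c s k - EE P τ₀ s η 0 * c 0 k := by
    intro k
    have h1 : ∀ r ∈ Ioo 0 s, HasDerivAt (fun r => EE P τ₀ s η r * c r k) (F k r) r := by
      intro r hr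
      have hr' : r ∈ Icc 0 S := hsub ⟨hr.1.le, hr.2.le⟩
      have hd := (hode r hr' k).hasDerivAt (Icc_mem_nhds hr.1 (lt_of_lt_of_le hr.2 hs'.2))
      have := (hasDerivAt_EE P τ₀ s η r).mul hd
      refine this.congr_deriv ?_
      simp only [hF]
      push_cast
      ring
    have h2 : ContinuousOn (fun r => EE P τ₀ s η r * c r k) (Icc 0 s) :=
      (continuous_EE P τ₀ s η).continuousOn.mul ((hc.cont k).mono hsub)
    have h3 := intervalIntegral.integral_eq_sub_of_hasDerivAt_of_le hs'.1 h2 h1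
      (((hFcont k).mono hsub).intervalIntegrable_of_Icc hs'.1)
    rw [h3, EE_self, one_mul]
  -- bounds
  obtain ⟨CG, hCG0, hCG⟩ := hG.dec 24
  obtain ⟨Cc, hCc0, hCc⟩ := hc.dec 26
  set b : Z12 → ℝ := fun k => (CG + (‖η‖ ^ 2 + 1) * Cc) * ((1 + nk k) ^ 24)⁻¹ * Cφ with hb
  have hbs : Summable b := (summable_inv24.mul_left _).mul_right _
  have hFb : ∀ k, ∀ r ∈ Icc 0 s, ‖F k r * φ (η - zv k)‖ ≤ b k := by
    intro k r hr
    have hr' := hsub hr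
    have hk := TB.nk_nonneg k
    have hk1 : (0:ℝ) < 1 + nk k := by positivity
    have h1 : ‖G r k‖ ≤ CG * ((1 + nk k) ^ 24)⁻¹ := le_inv_of_pow_mul_le hk1 (hCG r hr' k)
    have h2 : (1 + nk k) ^ 2 * ‖c r k‖ ≤ Cc * ((1 + nk k) ^ 24)⁻¹ := by
      refine le_inv_of_pow_mul_le hk1 ?_
      calc (1 + nk k) ^ 24 * ((1 + nk k) ^ 2 * ‖c r k‖) = (1 + nk k) ^ 26 * ‖c r k‖ := by ring
        _ ≤ Cc := hCc r hr' k
    have h3 : ‖I * ((τ₀ * Real.exp (-r) * (‖η‖ ^ 2 - nk k ^ 2) : ℝ) : ℂ)‖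
        ≤ (‖η‖ ^ 2 + 1) * (1 + nk k) ^ 2 := by
      rw [norm_mul, norm_I, one_mul, Complex.norm_real, Real.norm_eq_abs, abs_mul, abs_mul,
        abs_of_pos hτ, abs_of_pos (Real.exp_pos _)]
      have h4 : Real.exp (-r) ≤ 1 := Real.exp_le_one_iff.2 (by linarith [hr.1])
      have h5 : τ₀ * Real.exp (-r) ≤ 1 := by nlinarith [Real.exp_pos (-r)]
      have h6 : |‖η‖ ^ 2 - nk k ^ 2| ≤ ‖η‖ ^ 2 + nk k ^ 2 := by
        rw [abs_le]
        constructor <;> nlinarith [sq_nonneg ‖η‖, sq_nonneg (nk k)]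
      calc τ₀ * Real.exp (-r) * |‖η‖ ^ 2 - nk k ^ 2| ≤ 1 * (‖η‖ ^ 2 + nk k ^ 2) := by
            apply mul_le_mul h5 h6 (abs_nonneg _) zero_le_one
        _ ≤ (‖η‖ ^ 2 + 1) * (1 + nk k) ^ 2 := by nlinarith [sq_nonneg ‖η‖, mul_nonneg (sq_nonneg ‖η‖) hk, mul_nonneg (sq_nonneg ‖η‖) (sq_nonneg (nk k))]
    rw [norm_mul]
    have h7 : ‖F k r‖ ≤ (CG + (‖η‖ ^ 2 + 1) * Cc) * ((1 + nk k) ^ 24)⁻¹ := by
      simp only [hF]
      rw [norm_mul]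
      have h8 := norm_EE_le P τ₀ s η hr.2
      have h9 : ‖G r k + I * ((τ₀ * Real.exp (-r) * (‖η‖ ^ 2 - nk k ^ 2) : ℝ) : ℂ) * c r k‖
          ≤ (CG + (‖η‖ ^ 2 + 1) * Cc) * ((1 + nk k) ^ 24)⁻¹ := by
        refine (norm_add_le _ _).trans ?_
        rw [norm_mul]
        have h10 : ‖I * ((τ₀ * Real.exp (-r) * (‖η‖ ^ 2 - nk k ^ 2) : ℝ) : ℂ)‖ * ‖c r k‖
            ≤ (‖η‖ ^ 2 + 1) * (Cc * ((1 + nk k) ^ 24)⁻¹) := by
          calc _ ≤ ((‖η‖ ^ 2 + 1) * (1 + nk k) ^ 2) * ‖c r k‖ :=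
                mul_le_mul_of_nonneg_right h3 (norm_nonneg _)
            _ = (‖η‖ ^ 2 + 1) * ((1 + nk k) ^ 2 * ‖c r k‖) := by ring
            _ ≤ _ := by gcongr
        calc _ ≤ CG * ((1 + nk k) ^ 24)⁻¹ + (‖η‖ ^ 2 + 1) * (Cc * ((1 + nk k) ^ 24)⁻¹) :=
              add_le_add h1 h10
          _ = _ := by ring
      calc _ ≤ 1 * _ := mul_le_mul h8 h9 (norm_nonneg _) zero_le_one
        _ = _ := one_mul _
    simp only [hb]
    exact mul_le_mul h7 (hCφ _) (norm_nonneg _) (by positivity)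
  -- exchange of sum and integral
  have hsum : HasSum (fun k => ∫ r in (0:ℝ)..s, F k r * φ (η - zv k))
      (∫ r in (0:ℝ)..s, ∑' k, F k r * φ (η - zv k)) := by
    refine intervalIntegral.hasSum_integral_of_dominated_convergence (fun k _ => b k) ?_ ?_ ?_ ?_ ?_
    · intro k
      have h1 : ContinuousOn (fun r => F k r * φ (η - zv k)) (Icc 0 s) :=
        ((hFcont k).mono hsub).mul continuousOn_const
      rw [uIoc_of_le hs'.1]
      exact (h1.mono Ioc_subset_Icc_self).aestronglyMeasurable measurableSet_Ioc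
    · intro k
      refine Eventually.of_forall fun r hr => ?_
      rw [uIoc_of_le hs'.1] at hr
      exact hFb k r ⟨hr.1.le, hr.2⟩
    · exact Eventually.of_forall fun r _ => hbs
    · exact intervalIntegrable_const
    · refine Eventually.of_forall fun r hr => ?_
      rw [uIoc_of_le hs'.1] at hr
      refine (Summable.of_norm_bounded hbs fun k => ?_).hasSum
      exact hFb k r ⟨hr.1.le, hr.2⟩
  -- summability of the three series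
  have hsm : ∀ r ∈ Icc 0 S, ∀ (d : ℝ → Z12 → ℂ), RD S d → Summable fun k => d r k * φ (η - zv k) := by
    intro r hr d hd
    refine Summable.of_norm_bounded ((hd.summable hr 0).mul_right Cφ) fun k => ?_
    rw [norm_mul, pow_zero, one_mul]
    exact mul_le_mul_of_nonneg_left (hCφ _) (norm_nonneg _)
  have hkey : ∑' k, c s k * φ (η - zv k) = EE P τ₀ s η 0 * (∑' k, c 0 k * φ (η - zv k))
      + ∫ r in (0:ℝ)..s, ∑' k, F k r * φ (η - zv k) := by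
    rw [← hsum.tsum_eq, ← tsum_mul_left,
      ← Summable.tsum_add ((hsm 0 h0S c hc).mul_left _) hsum.summable]
    congr 1
    ext k
    rw [intervalIntegral.integral_mul_const, hftc k]
    ring
  -- conclusion
  have e1 : Jd φ (hs τ₀ s) (c s) ξ = (((hs τ₀ s ^ 12)⁻¹ : ℝ) : ℂ) * ∑' k, c s k * φ (η - zv k) := rfl
  have e2 : fr P s (Jd φ (hs τ₀ 0) (c 0)) ξ
      = (((hs τ₀ s ^ 12)⁻¹ : ℝ) : ℂ) * (EE P τ₀ s η 0 * ∑' k, c 0 k * φ (η - zv k)) := by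
    have := fr_eval P hτ s 0 (fun ζ => ∑' k, c 0 k * φ (ζ - zv k)) ξ
    rw [sub_zero] at this
    exact this
  have e3 : ∀ r ∈ Icc 0 s,
      fr P (s - r) (fun ξ => Jd φ (hs τ₀ r) (G r) ξ + Kd φ (hs τ₀ r) (c r) ξ) ξ
      = (((hs τ₀ s ^ 12)⁻¹ : ℝ) : ℂ) * ∑' k, F k r * φ (η - zv k) := by
    intro r hr
    have hr' := hsub hr
    have h1 : (fun ξ => Jd φ (hs τ₀ r) (G r) ξ + Kd φ (hs τ₀ r) (c r) ξ)
        = fun ξ => (((hs τ₀ r ^ 12)⁻¹ : ℝ) : ℂ) *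
          (fun ζ => (∑' k, G r k * φ (ζ - zv k)) + ∑' k, c r k *
            (I * ((τ₀ * Real.exp (-r) * (‖ζ‖ ^ 2 - nk k ^ 2) : ℝ) : ℂ)) * φ (ζ - zv k))
              ((hs τ₀ r)⁻¹ • ξ) := by
      ext ξ
      unfold Jd Kd
      simp only
      rw [← mul_add, hs_sq hτ]
    rw [h1]
    refine (fr_eval P hτ s r (fun ζ => (∑' k, G r k * φ (ζ - zv k)) + ∑' k, c r k *
            (I * ((τ₀ * Real.exp (-r) * (‖ζ‖ ^ 2 - nk k ^ 2) : ℝ) : ℂ)) * φ (ζ - zv k)) ξ).trans ?_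
    rw [← hη]
    congr 1
    have hs2 : Summable fun k => c r k *
            (I * ((τ₀ * Real.exp (-r) * (‖η‖ ^ 2 - nk k ^ 2) : ℝ) : ℂ)) * φ (η - zv k) := by
      have h2 : Summable fun k => F k r * φ (η - zv k) :=
        Summable.of_norm_bounded hbs fun k => hFb k r hr
      have hE : EE P τ₀ s η r ≠ 0 := by
        unfold EE
        exact mul_ne_zero (exp_ne_zero _) (exp_ne_zero _)
      have h3 := (h2.mul_left (EE P τ₀ s η r)⁻¹).sub (hsm r hr' G hG)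
      refine h3.congr fun k => ?_
      simp only [hF]
      field_simp
      ring
    rw [← Summable.tsum_add (hsm r hr' G hG) hs2, ← tsum_mul_left]
    congr 1
    ext k
    simp only [hF]
    ring
  have e4 : ∫ r in (0 : ℝ)..s, fr P (s - r) (fun ξ => Jd φ (hs τ₀ r) (G r) ξ + Kd φ (hs τ₀ r) (c r) ξ) ξ
      = (((hs τ₀ s ^ 12)⁻¹ : ℝ) : ℂ) * ∫ r in (0 : ℝ)..s, ∑' k, F k r * φ (η - zv k) := by
    rw [← intervalIntegral.integral_const_mul]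
    refine intervalIntegral.integral_congr fun r hr => ?_
    rw [uIcc_of_le hs'.1] at hr
    exact e3 r hr
  rw [e1, e2, e4, hkey]
  ring

end

end Crest.Agent.R086.TK
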