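import Crest.Agent.R086.TKDefs2
import Crest.Agent.R086.PZ

/-!
Row 86, NearLin, piece (C1) `CFamStmt` (helper893): regularity of the lattice densities.
-/

set_option autoImplicit false

open MeasureTheory Complex Set
open scoped ContDiff Topology

namespace Crest.Agent.R086

namespace TK

theorem summable_nk13 : Summable fun k : Z12 => ((1 + nk k) ^ 13)⁻¹ := by
  obtain ⟨A, _, hA⟩ := PZ.lattice_sum
  have := (hA 0).1
  simpa [nk] using this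

/-- general term: weight `w`, window `φ` -/
theorem fam_general {φ : R12 → ℂ} (hφ : Win φ) {S : ℝ} {h : ℝ → ℝ} {c : ℝ → Z12 → ℂ}
    (hh : ContinuousOn h (Icc 0 S)) (hpos : ∀ r ∈ Icc 0 S, 0 < h r ∧ h r ≤ 1) (hc : RD S c)
    (w : Z12 → ℝ → R12 → ℂ)
    (hw : ∀ k, ContinuousOn (Function.uncurry (w k)) (Ioi 0 ×ˢ univ))
    (hwb : ∀ k, ∀ t : ℝ, 0 < t → t ≤ 1 → ∀ ξ : R12,
      ‖w k t ξ‖ ≤ (1 + ‖t⁻¹ • ξ - zv k‖) ^ 2 * (1 + nk k)) :
    Fam S (fun r ξ => ((((h r) ^ 12)⁻¹ : ℝ) : ℂ) *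
      ∑' k, c r k * w k (h r) ξ * φ ((h r)⁻¹ • ξ - zv k)) := by
  have hnk : ∀ k : Z12, 0 ≤ nk k := fun k => norm_nonneg _
  -- bound of the prefactor
  obtain ⟨H, hH⟩ : ∃ H : ℝ, ∀ r ∈ Icc 0 S, ‖((((h r) ^ 12)⁻¹ : ℝ) : ℂ)‖ ≤ H := by
    have hcont : ContinuousOn (fun r => ((((h r) ^ 12)⁻¹ : ℝ) : ℂ)) (Icc 0 S) := by
      refine Complex.continuous_ofReal.comp_continuousOn ?_
      exact (hh.pow 12).inv₀ fun r hr => (pow_pos (hpos r hr).1 12).ne'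
    exact isCompact_Icc.exists_bound_of_continuousOn hcont
  have hpre : ContinuousOn (fun p : ℝ × R12 => ((((h p.1) ^ 12)⁻¹ : ℝ) : ℂ))
      (Icc 0 S ×ˢ univ) := by
    refine Complex.continuous_ofReal.comp_continuousOn ?_
    refine ContinuousOn.inv₀ ?_ fun p hp => (pow_pos (hpos p.1 hp.1).1 12).ne'
    exact (hh.comp continuous_fst.continuousOn fun p hp => hp.1).pow 12
  -- the key term bound
  have key : ∀ m : ℕ, ∃ C : ℝ, 0 ≤ C ∧ ∀ r ∈ Icc 0 S, ∀ ξ : R12, ∀ k : Z12,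
      (1 + ‖ξ‖) ^ m * ‖c r k * w k (h r) ξ * φ ((h r)⁻¹ • ξ - zv k)‖
        ≤ C * ((1 + nk k) ^ 13)⁻¹ := by
    intro m
    obtain ⟨A, hA0, hA⟩ := hφ.dec (m + 2)
    obtain ⟨B, hB0, hB⟩ := hc.dec (m + 14)
    refine ⟨A * B, by positivity, fun r hr ξ k => ?_⟩
    obtain ⟨ht0, ht1⟩ := hpos r hr
    set t := h r with ht
    set ζ := t⁻¹ • ξ - zv k with hζ
    have h1 : 1 + ‖ξ‖ ≤ (1 + ‖ζ‖) * (1 + nk k) := by
      have e : ξ = t • (ζ + zv k) := by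
        rw [hζ, sub_add_cancel, smul_smul, mul_inv_cancel₀ ht0.ne', one_smul]
      have e2 : ‖ξ‖ ≤ ‖ζ‖ + nk k := by
        calc ‖ξ‖ = t * ‖ζ + zv k‖ := by
              conv_lhs => rw [e, norm_smul, Real.norm_of_nonneg ht0.le]
          _ ≤ 1 * ‖ζ + zv k‖ := by gcongr
          _ ≤ ‖ζ‖ + nk k := by rw [one_mul]; exact norm_add_le _ _
      nlinarith [norm_nonneg ζ, hnk k, mul_nonneg (norm_nonneg ζ) (hnk k)]
    have h2 := hwb k t ht0 ht1 ξ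
    have h3 := hA ζ
    have h4 := hB r hr k
    have hk1 : 0 < 1 + nk k := by have := hnk k; linarith
    calc (1 + ‖ξ‖) ^ m * ‖c r k * w k t ξ * φ ζ‖
        = (1 + ‖ξ‖) ^ m * ‖w k t ξ‖ * ‖φ ζ‖ * ‖c r k‖ := by
          rw [norm_mul, norm_mul]; ring
      _ ≤ ((1 + ‖ζ‖) * (1 + nk k)) ^ m * ((1 + ‖ζ‖) ^ 2 * (1 + nk k)) * ‖φ ζ‖ * ‖c r k‖ := by
          gcongr
      _ = ((1 + ‖ζ‖) ^ (m + 2) * ‖φ ζ‖) * ((1 + nk k) ^ (m + 14) * ‖c r k‖) *
            ((1 + nk k) ^ 13)⁻¹ := by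
          have e5 : (1 + nk k) ^ (m + 14) = (1 + nk k) ^ (m + 1) * (1 + nk k) ^ 13 := by
            rw [← pow_add]
          rw [e5, mul_pow]
          field_simp
          ring
      _ ≤ (A * B) * ((1 + nk k) ^ 13)⁻¹ := by
          refine mul_le_mul_of_nonneg_right ?_ (by positivity)
          exact mul_le_mul h3 h4 (by positivity) hA0
  have hsum := summable_nk13
  refine ⟨?_, fun m => ?_⟩
  · -- continuity
    obtain ⟨C, hC0, hC⟩ := key 0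
    refine hpre.mul ?_
    refine continuousOn_tsum (u := fun k => C * ((1 + nk k) ^ 13)⁻¹) ?_ (hsum.mul_left C) ?_
    · intro k
      have c1 : ContinuousOn (fun p : ℝ × R12 => c p.1 k) (Icc 0 S ×ˢ univ) :=
        (hc.cont k).comp continuous_fst.continuousOn fun p hp => hp.1
      have c2 : ContinuousOn (fun p : ℝ × R12 => h p.1) (Icc 0 S ×ˢ univ) :=
        hh.comp continuous_fst.continuousOn fun p hp => hp.1
      have c3 : ContinuousOn (fun p : ℝ × R12 => w k (h p.1) p.2) (Icc 0 S ×ˢ univ) :=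
        (hw k).comp (c2.prodMk continuous_snd.continuousOn)
          fun p hp => ⟨(hpos p.1 hp.1).1, trivial⟩
      have c4 : ContinuousOn (fun p : ℝ × R12 => φ ((h p.1)⁻¹ • p.2 - zv k))
          (Icc 0 S ×ˢ univ) := by
        refine hφ.cont.comp_continuousOn ?_
        refine ContinuousOn.sub ?_ continuousOn_const
        exact (c2.inv₀ fun p hp => (hpos p.1 hp.1).1.ne').smul continuous_snd.continuousOn
      exact (c1.mul c3).mul c4
    · intro k p hp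
      have := hC p.1 hp.1 p.2 k
      simpa using this
  · -- decay
    obtain ⟨C, hC0, hC⟩ := key m
    have hT0 : 0 ≤ ∑' k : Z12, ((1 + nk k) ^ 13)⁻¹ :=
      tsum_nonneg fun k => by have := hnk k; positivity
    refine ⟨|H| * (C * ∑' k : Z12, ((1 + nk k) ^ 13)⁻¹), by positivity, fun r hr ξ => ?_⟩
    have hs0 : Summable fun k => C * ((1 + nk k) ^ 13)⁻¹ := hsum.mul_left C
    have hs1 : Summable fun k => (1 + ‖ξ‖) ^ m *
        ‖c r k * w k (h r) ξ * φ ((h r)⁻¹ • ξ - zv k)‖ :=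
      Summable.of_nonneg_of_le (fun k => by positivity) (fun k => hC r hr ξ k) hs0
    have hpm : 0 < (1 + ‖ξ‖) ^ m := by positivity
    have hs2 : Summable fun k => ‖c r k * w k (h r) ξ * φ ((h r)⁻¹ • ξ - zv k)‖ := by
      have := hs1.mul_left ((1 + ‖ξ‖) ^ m)⁻¹
      refine this.congr fun k => ?_
      rw [← mul_assoc, inv_mul_cancel₀ hpm.ne', one_mul]
    have h5 : ‖∑' k, c r k * w k (h r) ξ * φ ((h r)⁻¹ • ξ - zv k)‖
        ≤ ∑' k, ‖c r k * w k (h r) ξ * φ ((h r)⁻¹ • ξ - zv k)‖ := norm_tsum_le_tsum_norm hs2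
    have h6 : (1 + ‖ξ‖) ^ m * ∑' k, ‖c r k * w k (h r) ξ * φ ((h r)⁻¹ • ξ - zv k)‖
        ≤ C * ∑' k : Z12, ((1 + nk k) ^ 13)⁻¹ := by
      rw [← tsum_mul_left, ← tsum_mul_left]
      exact hs1.tsum_le_tsum (fun k => hC r hr ξ k) hs0
    have h7 := (hH r hr).trans (le_abs_self H)
    show (1 + ‖ξ‖) ^ m * ‖((((h r) ^ 12)⁻¹ : ℝ) : ℂ) * _‖ ≤ _
    rw [norm_mul]
    calc (1 + ‖ξ‖) ^ m * (‖((((h r) ^ 12)⁻¹ : ℝ) : ℂ)‖ *
          ‖∑' k, c r k * w k (h r) ξ * φ ((h r)⁻¹ • ξ - zv k)‖)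
        ≤ (1 + ‖ξ‖) ^ m * (|H| *
          ∑' k, ‖c r k * w k (h r) ξ * φ ((h r)⁻¹ • ξ - zv k)‖) := by gcongr
      _ = |H| * ((1 + ‖ξ‖) ^ m *
          ∑' k, ‖c r k * w k (h r) ξ * φ ((h r)⁻¹ • ξ - zv k)‖) := by ring
      _ ≤ |H| * (C * ∑' k : Z12, ((1 + nk k) ^ 13)⁻¹) := by gcongr

/-- (C1) -/
theorem cFam : CFamStmt := by
  intro φ hφ S h c hh hpos hc
  have hnk : ∀ k : Z12, 0 ≤ nk k := fun k => norm_nonneg _
  constructor
  · have := fam_general hφ hh hpos hc (fun _ _ _ => 1) (fun k => continuousOn_const)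
      (fun k t _ _ ξ => by
        rw [norm_one]
        have h1 : (1:ℝ) ≤ (1 + ‖t⁻¹ • ξ - zv k‖) ^ 2 :=
          one_le_pow₀ (by linarith [norm_nonneg (t⁻¹ • ξ - zv k)])
        have h2 : (1:ℝ) ≤ 1 + nk k := by linarith [hnk k]
        nlinarith)
    simp only [mul_one] at this
    exact this
  · refine fam_general hφ hh hpos hc
      (fun k t ξ => I * ((t ^ 2 * (‖t⁻¹ • ξ‖ ^ 2 - nk k ^ 2) : ℝ) : ℂ)) (fun k => ?_)
      (fun k t ht0 ht1 ξ => ?_)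
    · refine continuousOn_const.mul (Complex.continuous_ofReal.comp_continuousOn ?_)
      have c1 : ContinuousOn (fun p : ℝ × R12 => p.1⁻¹ • p.2) (Ioi 0 ×ˢ univ) :=
        (continuous_fst.continuousOn.inv₀ fun p hp => (show (0:ℝ) < p.1 from hp.1).ne').smul
          continuous_snd.continuousOn
      exact (continuous_fst.continuousOn.pow 2).mul ((c1.norm.pow 2).sub continuousOn_const)
    · set ζ := t⁻¹ • ξ - zv k with hζ
      have e : t⁻¹ • ξ = ζ + zv k := by rw [hζ, sub_add_cancel]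
      rw [norm_mul, Complex.norm_I, one_mul, Complex.norm_real, norm_mul, norm_pow,
        Real.norm_of_nonneg ht0.le, e]
      have h1 : ‖‖ζ + zv k‖ ^ 2 - nk k ^ 2‖ ≤ ‖ζ‖ ^ 2 + 2 * ‖ζ‖ * nk k := by
        rw [@norm_add_sq_real _ _ _ ζ (zv k)]
        have h2 : |inner ℝ ζ (zv k)| ≤ ‖ζ‖ * ‖zv k‖ := abs_real_inner_le_norm _ _
        have h3 : ‖zv k‖ = nk k := rfl
        rw [h3] at h2 ⊢
        rw [Real.norm_eq_abs, abs_le]
        have h4 := abs_le.1 h2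
        constructor <;> nlinarith [norm_nonneg ζ, hnk k, sq_nonneg ‖ζ‖]
      have h5 : t ^ 2 ≤ 1 := pow_le_one₀ ht0.le ht1
      have h6 : (0:ℝ) ≤ ‖ζ‖ ^ 2 + 2 * ‖ζ‖ * nk k := by
        have := hnk k; positivity
      calc t ^ 2 * ‖‖ζ + zv k‖ ^ 2 - nk k ^ 2‖
          ≤ 1 * (‖ζ‖ ^ 2 + 2 * ‖ζ‖ * nk k) := by gcongr
        _ ≤ (1 + ‖ζ‖) ^ 2 * (1 + nk k) := by
          nlinarith [norm_nonneg ζ, hnk k, mul_nonneg (norm_nonneg ζ) (hnk k),
            mul_nonneg (sq_nonneg ‖ζ‖) (hnk k)]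

end TK

end Crest.Agent.R086
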