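import Crest.Agent.R086.TKDefs2
import Crest.Agent.R086.PZ

/-!
Row 86, NearLin, node CBdStmt (helper732): bounds for the lattice densities.
-/

set_option autoImplicit false

open MeasureTheory Complex Filter Topology Set
open scoped ContDiff

namespace Crest.Agent.R086.TK

theorem int_norm_tsum_le {F : Z12 → R12 → ℂ} (hF : ∀ k, Integrable (F k))
    (hs : Summable fun k => ∫ ξ, ‖F k ξ‖) :
    ∫ ξ, ‖∑' k, F k ξ‖ ≤ ∑' k, ∫ ξ, ‖F k ξ‖ := by
  have hnn : 0 ≤ ∑' k, ∫ ξ, ‖F k ξ‖ := tsum_nonneg fun k => integral_nonneg fun _ => norm_nonneg _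
  by_cases h : Integrable (fun ξ => ‖∑' k, F k ξ‖)
  · rw [integral_eq_lintegral_of_nonneg_ae (Eventually.of_forall fun _ => norm_nonneg _) h.1]
    refine ENNReal.toReal_le_of_le_ofReal hnn ?_
    have hlin : ∫⁻ ξ, ∑' k, ‖F k ξ‖ₑ = ENNReal.ofReal (∑' k, ∫ ξ, ‖F k ξ‖) := by
      rw [lintegral_tsum (fun k => (hF k).1.enorm)]
      rw [ENNReal.ofReal_tsum_of_nonneg (fun k => integral_nonneg fun _ => norm_nonneg _) hs]
      congr 1
      ext k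
      rw [ofReal_integral_norm_eq_lintegral_enorm (hF k)]
    rw [← hlin]
    refine lintegral_mono fun ξ => ?_
    rw [ofReal_norm]
    exact enorm_tsum_le_tsum_enorm
  · rw [integral_undef h]
    exact hnn

theorem win_int {φ : R12 → ℂ} (hφ : Win φ) (N : ℕ) :
    Integrable fun z : R12 => (1 + ‖z‖) ^ N * ‖φ z‖ := by
  obtain ⟨C, hC, hd⟩ := hφ.dec (N + 13)
  have hint13 : Integrable (fun ξ : R12 => (1 + ‖ξ‖) ^ (-(13 : ℝ))) := by
    apply integrable_one_add_norm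
    rw [SymX.finrank12]; norm_num
  refine (hint13.const_mul C).mono' ?_ (Eventually.of_forall fun z => ?_)
  · have hc := hφ.cont
    exact (by fun_prop : Continuous fun z : R12 => (1 + ‖z‖) ^ N * ‖φ z‖).aestronglyMeasurable
  · rw [Real.norm_of_nonneg (by positivity)]
    have h2 : (1 + ‖z‖) ^ (-(13:ℝ)) = ((1 + ‖z‖) ^ 13)⁻¹ := by
      rw [Real.rpow_neg (by positivity)]
      norm_cast
    rw [h2, ← div_eq_mul_inv, le_div_iff₀ (by positivity)]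
    calc (1 + ‖z‖) ^ N * ‖φ z‖ * (1 + ‖z‖) ^ 13 = (1 + ‖z‖) ^ (N + 13) * ‖φ z‖ := by
          rw [pow_add]; ring
      _ ≤ C := hd z

/-- general bound: windows times coefficients with a weight -/
theorem gen_bd {φ : R12 → ℂ} (hφ : Win φ) (N Q : ℕ) {h : ℝ} (hh : 0 < h) (hh1 : h ≤ 1)
    (c : Z12 → ℂ) (hc : ∀ M : ℕ, Summable fun k => (1 + nk k) ^ M * ‖c k‖)
    (g : Z12 → R12 → ℂ) (hgc : ∀ k, Continuous (g k)) (B : ℝ) (hB : 0 ≤ B)
    (hg : ∀ k ζ, ‖g k ζ‖ ≤ B * (1 + h * nk k) ^ Q * (1 + ‖ζ - zv k‖) ^ (2 * Q)) :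
    ∫ ξ : R12, (1 + ‖ξ‖) ^ N * ‖(((h ^ 12)⁻¹ : ℝ) : ℂ) * ∑' k, c k * g k (h⁻¹ • ξ) *
        φ (h⁻¹ • ξ - zv k)‖ ≤
      B * (∫ z : R12, (1 + ‖z‖) ^ (N + 2 * Q) * ‖φ z‖) * ∑' k, (1 + h * nk k) ^ (N + Q) * ‖c k‖ := by
  have hnk : ∀ k : Z12, 0 ≤ nk k := fun k => norm_nonneg _
  set A : ℝ := ∫ z : R12, (1 + ‖z‖) ^ (N + 2 * Q) * ‖φ z‖ with hA
  have hA0 : 0 ≤ A := integral_nonneg fun z => by positivity
  set F : Z12 → R12 → ℂ := fun k ζ => (((1 + h * ‖ζ‖) ^ N : ℝ) : ℂ) * (c k * g k ζ * φ (ζ - zv k))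
    with hF
  -- substitution
  have hsub : ∫ ξ : R12, (1 + ‖ξ‖) ^ N * ‖(((h ^ 12)⁻¹ : ℝ) : ℂ) * ∑' k, c k * g k (h⁻¹ • ξ) *
        φ (h⁻¹ • ξ - zv k)‖ = ∫ ζ, ‖∑' k, F k ζ‖ := by
    have h1 := Measure.integral_comp_smul (volume : Measure R12)
      (fun ξ => (1 + ‖ξ‖) ^ N * ‖(((h ^ 12)⁻¹ : ℝ) : ℂ) * ∑' k, c k * g k (h⁻¹ • ξ) *
        φ (h⁻¹ • ξ - zv k)‖) h
    rw [SymX.finrank12, abs_of_pos (by positivity), smul_eq_mul] at h1
    have h2 : ∫ ξ : R12, (1 + ‖ξ‖) ^ N * ‖(((h ^ 12)⁻¹ : ℝ) : ℂ) * ∑' k, c k * g k (h⁻¹ • ξ) *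
        φ (h⁻¹ • ξ - zv k)‖ = h ^ 12 * ∫ ζ : R12, (1 + ‖h • ζ‖) ^ N * ‖(((h ^ 12)⁻¹ : ℝ) : ℂ) *
          ∑' k, c k * g k (h⁻¹ • h • ζ) * φ (h⁻¹ • h • ζ - zv k)‖ := by
      rw [h1, ← mul_assoc, mul_inv_cancel₀ (by positivity), one_mul]
    rw [h2, ← integral_const_mul]
    refine integral_congr_ae (Eventually.of_forall fun ζ => ?_)
    simp only [hF]
    rw [tsum_mul_left, norm_mul, norm_mul, Complex.norm_real, Complex.norm_real,
      Real.norm_of_nonneg (by positivity), Real.norm_of_nonneg (by positivity), norm_smul,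
      Real.norm_of_nonneg hh.le, smul_smul, inv_mul_cancel₀ hh.ne', one_smul]
    have : h ^ 12 * ((1 + h * ‖ζ‖) ^ N * ((h ^ 12)⁻¹ * ‖∑' k, c k * g k ζ * φ (ζ - zv k)‖)) =
        (h ^ 12 * (h ^ 12)⁻¹) * ((1 + h * ‖ζ‖) ^ N * ‖∑' k, c k * g k ζ * φ (ζ - zv k)‖) := by ring
    rw [this, mul_inv_cancel₀ (by positivity), one_mul]
  rw [hsub]
  -- pointwise bound of `F k`
  have hpt : ∀ k ζ, ‖F k ζ‖ ≤ (B * (1 + h * nk k) ^ (N + Q) * ‖c k‖) *
      ((1 + ‖ζ - zv k‖) ^ (N + 2 * Q) * ‖φ (ζ - zv k)‖) := by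
    intro k ζ
    have hk := hnk k
    simp only [hF]
    rw [norm_mul, norm_mul, norm_mul, Complex.norm_real, Real.norm_of_nonneg (by positivity)]
    have h3 : 1 + h * ‖ζ‖ ≤ (1 + h * nk k) * (1 + ‖ζ - zv k‖) := by
      have e : ‖ζ‖ ≤ ‖ζ - zv k‖ + nk k := by
        have : ζ = (ζ - zv k) + zv k := by abel
        calc ‖ζ‖ = ‖(ζ - zv k) + zv k‖ := by rw [← this]
          _ ≤ ‖ζ - zv k‖ + nk k := norm_add_le _ _
      have e2 : h * ‖ζ‖ ≤ h * ‖ζ - zv k‖ + h * nk k := by nlinarith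
      have e3 : h * ‖ζ - zv k‖ ≤ 1 * ‖ζ - zv k‖ := by gcongr
      have e4 : 0 ≤ h * nk k * ‖ζ - zv k‖ := by positivity
      nlinarith
    have h4 : (1 + h * ‖ζ‖) ^ N ≤ (1 + h * nk k) ^ N * (1 + ‖ζ - zv k‖) ^ N := by
      rw [← mul_pow]
      exact pow_le_pow_left₀ (by positivity) h3 N
    calc (1 + h * ‖ζ‖) ^ N * (‖c k‖ * ‖g k ζ‖ * ‖φ (ζ - zv k)‖)
        ≤ ((1 + h * nk k) ^ N * (1 + ‖ζ - zv k‖) ^ N) *
          (‖c k‖ * (B * (1 + h * nk k) ^ Q * (1 + ‖ζ - zv k‖) ^ (2 * Q)) * ‖φ (ζ - zv k)‖) := by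
          gcongr
          exact hg k ζ
      _ = _ := by rw [pow_add, pow_add]; ring
  have hwi := win_int hφ (N + 2 * Q)
  have hFi : ∀ k, Integrable (F k) := by
    intro k
    have h5 : Integrable fun ζ : R12 => (B * (1 + h * nk k) ^ (N + Q) * ‖c k‖) *
        ((1 + ‖ζ - zv k‖) ^ (N + 2 * Q) * ‖φ (ζ - zv k)‖) :=
      (hwi.comp_sub_right (zv k)).const_mul _
    refine h5.mono' ?_ (Eventually.of_forall fun ζ => hpt k ζ)
    have hc' := hφ.cont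
    have hg' := hgc k
    simp only [hF]
    exact (by fun_prop : Continuous fun ζ : R12 => (((1 + h * ‖ζ‖) ^ N : ℝ) : ℂ) *
      (c k * g k ζ * φ (ζ - zv k))).aestronglyMeasurable
  have hbd : ∀ k, ∫ ζ, ‖F k ζ‖ ≤ B * A * ((1 + h * nk k) ^ (N + Q) * ‖c k‖) := by
    intro k
    calc ∫ ζ, ‖F k ζ‖ ≤ ∫ ζ : R12, (B * (1 + h * nk k) ^ (N + Q) * ‖c k‖) *
        ((1 + ‖ζ - zv k‖) ^ (N + 2 * Q) * ‖φ (ζ - zv k)‖) :=
          integral_mono (hFi k).norm ((hwi.comp_sub_right (zv k)).const_mul _) (hpt k)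
      _ = (B * (1 + h * nk k) ^ (N + Q) * ‖c k‖) * A := by
          rw [integral_const_mul, integral_sub_right_eq_self
            (fun z : R12 => (1 + ‖z‖) ^ (N + 2 * Q) * ‖φ z‖) (zv k)]
      _ = _ := by ring
  have hcs : Summable fun k => (1 + h * nk k) ^ (N + Q) * ‖c k‖ := by
    refine Summable.of_nonneg_of_le (fun k => ?_) (fun k => ?_) (hc (N + Q))
    · have := hnk k
      positivity
    · have := hnk k
      have : h * nk k ≤ 1 * nk k := by gcongr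
      gcongr
      linarith
  have hsum : Summable fun k => ∫ ζ, ‖F k ζ‖ :=
    Summable.of_nonneg_of_le (fun k => integral_nonneg fun _ => norm_nonneg _) hbd
      (hcs.mul_left _)
  refine (int_norm_tsum_le hFi hsum).trans ?_
  refine (hsum.tsum_le_tsum hbd (hcs.mul_left _)).trans (le_of_eq ?_)
  rw [tsum_mul_left]

/-- NODE (C2) -/
theorem cBd : CBdStmt := by
  intro φ hφ N
  have hnk : ∀ k : Z12, 0 ≤ nk k := fun k => norm_nonneg _
  set A0 : ℝ := ∫ z : R12, (1 + ‖z‖) ^ (N + 2 * 0) * ‖φ z‖ with hA0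
  set A1 : ℝ := ∫ z : R12, (1 + ‖z‖) ^ (N + 2 * 1) * ‖φ z‖ with hA1
  have hA0' : 0 ≤ A0 := integral_nonneg fun z => by positivity
  have hA1' : 0 ≤ A1 := integral_nonneg fun z => by positivity
  refine ⟨A0 + 2 * A1, by positivity, fun h hh hh1 c hc => ⟨?_, ?_⟩⟩
  · have h1 := gen_bd hφ N 0 hh hh1 c hc (fun _ _ => 1) (fun k => continuous_const) 1 zero_le_one
      (fun k ζ => by simp)
    have e : (fun ξ : R12 => (1 + ‖ξ‖) ^ N * ‖Jd φ h c ξ‖) = fun ξ : R12 => (1 + ‖ξ‖) ^ N *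
        ‖(((h ^ 12)⁻¹ : ℝ) : ℂ) * ∑' k, c k * (1:ℂ) * φ (h⁻¹ • ξ - zv k)‖ := by
      funext ξ
      unfold Jd
      simp only [mul_one]
    rw [e]
    refine h1.trans ?_
    have hs0 : 0 ≤ ∑' k, (1 + h * nk k) ^ N * ‖c k‖ := tsum_nonneg fun k => by
      have := hnk k; positivity
    simp only [add_zero]
    rw [one_mul]
    have : A0 ≤ A0 + 2 * A1 := by linarith
    exact mul_le_mul_of_nonneg_right this hs0
  · have h1 := gen_bd hφ N 1 hh hh1 c hc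
      (fun k ζ => I * ((h ^ 2 * (‖ζ‖ ^ 2 - nk k ^ 2) : ℝ) : ℂ)) (fun k => by fun_prop) (2 * h)
      (by positivity) (fun k ζ => ?_)
    · have e : (fun ξ : R12 => (1 + ‖ξ‖) ^ N * ‖Kd φ h c ξ‖) = fun ξ : R12 => (1 + ‖ξ‖) ^ N *
          ‖(((h ^ 12)⁻¹ : ℝ) : ℂ) * ∑' k, c k * (I * ((h ^ 2 * (‖h⁻¹ • ξ‖ ^ 2 - nk k ^ 2) : ℝ) : ℂ)) *
            φ (h⁻¹ • ξ - zv k)‖ := by
        funext ξ
        unfold Kd
        rfl
      rw [e]
      refine h1.trans ?_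
      have hs0 : 0 ≤ ∑' k, (1 + h * nk k) ^ (N + 1) * ‖c k‖ := tsum_nonneg fun k => by
        have := hnk k; positivity
      have : 2 * h * A1 ≤ (A0 + 2 * A1) * h := by nlinarith
      exact mul_le_mul_of_nonneg_right this hs0
    · have hk := hnk k
      rw [norm_mul, Complex.norm_I, one_mul, Complex.norm_real, Real.norm_eq_abs, abs_mul,
        abs_of_nonneg (by positivity : (0:ℝ) ≤ h ^ 2), pow_one]
      set z : ℝ := ‖ζ - zv k‖ with hz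
      have hz0 : 0 ≤ z := norm_nonneg _
      have e1 : |‖ζ‖ - nk k| ≤ z := abs_norm_sub_norm_le ζ (zv k)
      have e2 : ‖ζ‖ + nk k ≤ z + 2 * nk k := by
        have : ‖ζ‖ ≤ z + nk k := by
          have : ζ = (ζ - zv k) + zv k := by abel
          calc ‖ζ‖ = ‖(ζ - zv k) + zv k‖ := by rw [← this]
            _ ≤ z + nk k := norm_add_le _ _
        linarith
      have e3 : |‖ζ‖ ^ 2 - nk k ^ 2| ≤ z * (z + 2 * nk k) := by
        have : ‖ζ‖ ^ 2 - nk k ^ 2 = (‖ζ‖ - nk k) * (‖ζ‖ + nk k) := by ring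
        rw [this, abs_mul, abs_of_nonneg (by positivity : 0 ≤ ‖ζ‖ + nk k)]
        exact mul_le_mul e1 e2 (by positivity) hz0
      calc h ^ 2 * |‖ζ‖ ^ 2 - nk k ^ 2| ≤ h ^ 2 * (z * (z + 2 * nk k)) := by gcongr
        _ = h * (z * (h * z + 2 * (h * nk k))) := by ring
        _ ≤ h * (z * (1 * z + 2 * (h * nk k))) := by gcongr
        _ ≤ 2 * h * (1 + h * nk k) * (1 + z) ^ (2 * 1) := by
            have p1 : 0 ≤ h * nk k := by positivity
            have p2 : 0 ≤ z * (h * nk k) := by positivity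
            have p3 : 0 ≤ z ^ 2 * (h * nk k) := by positivity
            have p4 : 0 ≤ z ^ 2 := by positivity
            have e5 : 2 * (1 + h * nk k) * (1 + z) ^ (2 * 1) - z * (1 * z + 2 * (h * nk k)) =
                2 + 4 * z + z ^ 2 + 2 * (h * nk k) + 2 * (z * (h * nk k)) +
                  2 * (z ^ 2 * (h * nk k)) := by ring
            have e6 : z * (1 * z + 2 * (h * nk k)) ≤ 2 * (1 + h * nk k) * (1 + z) ^ (2 * 1) := by
              linarith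
            calc h * (z * (1 * z + 2 * (h * nk k))) ≤
                h * (2 * (1 + h * nk k) * (1 + z) ^ (2 * 1)) := by gcongr
              _ = _ := by ring

end Crest.Agent.R086.TK
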