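import Crest.Agent.R086.TKDefs2
import Crest.Agent.R086.GrowA
import Crest.Agent.R086.TF
import Crest.Agent.R086.TN

/-!
Row 86, node NearStep, piece (D2) (helper264): coefficients of the perturbation.
-/

set_option autoImplicit false

open MeasureTheory Complex Set
open scoped ContDiff Topology
open Crest.AnalysisR.PDE.NLS (IsSmoothPeriodic periodCell)

namespace Crest.Agent.R086.TKD

noncomputable section

lemma meas_cell : MeasurableSet (periodCell : Set R12) := by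
  have h : (periodCell : Set R12) = ⋂ i : Fin 12, {x : R12 | x i ∈ Set.Ico 0 (2 * Real.pi)} := by
    ext x; simp [periodCell]
  rw [h]
  refine MeasurableSet.iInter fun i => ?_
  exact (EuclideanSpace.proj (𝕜 := ℝ) i).continuous.measurable measurableSet_Ico

/-- uniform weighted bounds and continuity of the coefficients give joint continuity -/
lemma cont_joint {S : ℝ} {U : ℝ → R12 → ℂ} (hU : ∀ s ∈ Icc 0 S, IsSmoothPeriodic (U s))
    (hb : ∀ M : ℕ, ∃ B : ℝ, ∀ s ∈ Icc 0 S, wn M 1 (U s) ≤ B)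
    (hc : ∀ k, ContinuousOn (fun s => cf (U s) k) (Icc 0 S)) :
    ContinuousOn (fun q : ℝ × R12 => U q.1 q.2) (Icc 0 S ×ˢ univ) := by
  obtain ⟨B, hB⟩ := hb 24
  have h : ContinuousOn (fun q : ℝ × R12 => ∑' k : Z12, cf (U q.1) k *
      exp (I * ((inner ℝ (zv k) q.2 : ℝ) : ℂ))) (Icc 0 S ×ˢ univ) := by
    refine continuousOn_tsum (u := fun k : Z12 => |B| * ((1 + nk k) ^ 24)⁻¹) (fun k => ?_)
      (Grow.summable_inv24.mul_left _) (fun k q hq => ?_)
    · refine ContinuousOn.mul ?_ ?_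
      · exact (hc k).comp continuousOn_fst (fun q hq => hq.1)
      · refine Continuous.continuousOn ?_
        fun_prop
    · rw [norm_mul, mul_comm I, Complex.norm_exp_ofReal_mul_I, mul_one]
      have h0 : 0 ≤ ((1 + nk k) ^ 24)⁻¹ := by
        have := Grow.one_add_nk_pos k; positivity
      refine (Grow.cf_le tf1 (hU _ hq.1) 24 k).trans ?_
      exact mul_le_mul_of_nonneg_right ((hB _ hq.1).trans (le_abs_self _)) h0
  refine h.congr fun q hq => ?_
  exact (tf1 _ (hU _ hq.1)).2 q.2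

/-- coefficients of a jointly continuous family are continuous in time -/
lemma cont_cf {S : ℝ} {V : ℝ → R12 → ℂ}
    (hV : ContinuousOn (fun q : ℝ × R12 => V q.1 q.2) (Icc 0 S ×ˢ univ)) (k : Z12) :
    ContinuousOn (fun s => cf (V s) k) (Icc 0 S) := by
  unfold cf
  refine ContinuousOn.mul continuousOn_const ?_
  set K : Set R12 := Metric.closedBall (0 : R12) (Real.sqrt (12 * (2 * Real.pi) ^ 2)) with hK
  have hKc : IsCompact (Icc (0 : ℝ) S ×ˢ K) := isCompact_Icc.prod (isCompact_closedBall _ _)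
  obtain ⟨C, hC⟩ := hKc.exists_bound_of_continuousOn
    (hV.mono (Set.prod_mono le_rfl (subset_univ _)))
  have hvol : volume (periodCell : Set R12) < ⊤ :=
    (measure_mono Grow.cell_subset).trans_lt measure_closedBall_lt_top
  refine continuousOn_of_dominated (bound := fun _ => C) (fun s hs => ?_) (fun s hs => ?_) ?_ ?_
  · have h1 : Continuous (fun x => V s x) := by
      have := hV.comp (f := fun x : R12 => (s, x)) (s := univ) (by fun_prop)
        (fun x _ => ⟨hs, mem_univ _⟩)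
      exact continuousOn_univ.1 this
    refine Continuous.aestronglyMeasurable ?_
    exact h1.mul (by fun_prop)
  · refine (ae_restrict_iff' meas_cell).2 (Filter.Eventually.of_forall fun x hx => ?_)
    rw [norm_mul]
    have e : ‖exp (-(I * ((inner ℝ (zv k) x : ℝ) : ℂ)))‖ = 1 := by
      have : -(I * ((inner ℝ (zv k) x : ℝ) : ℂ)) = ((-(inner ℝ (zv k) x) : ℝ) : ℂ) * I := by
        push_cast; ring
      rw [this, Complex.norm_exp_ofReal_mul_I]
    rw [e, mul_one]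
    exact hC (s, x) ⟨hs, Grow.cell_subset hx⟩
  · haveI : IsFiniteMeasure (volume.restrict (periodCell : Set R12)) :=
      ⟨by rw [Measure.restrict_apply_univ]; exact hvol⟩
    exact integrable_const C
  · refine Filter.Eventually.of_forall fun x => ?_
    refine ContinuousOn.mul ?_ continuousOn_const
    exact hV.comp (f := fun s : ℝ => (s, x)) (by fun_prop) (fun s hs => ⟨hs, mem_univ _⟩)

/-- the coefficient family of a smooth family with uniform bounds -/
lemma rd_of {S : ℝ} {U : ℝ → R12 → ℂ} (hU : ∀ s ∈ Icc 0 S, IsSmoothPeriodic (U s))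
    (hb : ∀ M : ℕ, ∃ B : ℝ, ∀ s ∈ Icc 0 S, wn M 1 (U s) ≤ B)
    (hc : ∀ k, ContinuousOn (fun s => cf (U s) k) (Icc 0 S)) :
    TK.RD S (fun s k => cf (U s) k) := by
  refine ⟨hc, fun M => ?_⟩
  obtain ⟨B, hB⟩ := hb M
  exact ⟨|B|, abs_nonneg _, fun s hs k =>
    (Grow.term_le_wn tf1 (hU s hs) M k).trans ((hB s hs).trans (le_abs_self _))⟩

lemma rd_add {S : ℝ} {c d : ℝ → Z12 → ℂ} (hc : TK.RD S c) (hd : TK.RD S d) :
    TK.RD S (fun s k => c s k + d s k) := by
  refine ⟨fun k => (hc.cont k).add (hd.cont k), fun M => ?_⟩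
  obtain ⟨A, hA0, hA⟩ := hc.dec M
  obtain ⟨B, hB0, hB⟩ := hd.dec M
  refine ⟨A + B, add_nonneg hA0 hB0, fun s hs k => ?_⟩
  have h1 := hA s hs k
  have h2 := hB s hs k
  have h3 : 0 ≤ (1 + nk k) ^ M := (pow_pos (Grow.one_add_nk_pos k) _).le
  calc (1 + nk k) ^ M * ‖c s k + d s k‖ ≤ (1 + nk k) ^ M * (‖c s k‖ + ‖d s k‖) :=
        mul_le_mul_of_nonneg_left (norm_add_le _ _) h3
    _ ≤ A + B := by rw [mul_add]; exact add_le_add h1 h2

lemma rd_smul {S : ℝ} {c : ℝ → Z12 → ℂ} (hc : TK.RD S c) (z : ℂ) :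
    TK.RD S (fun s k => z * c s k) := by
  refine ⟨fun k => continuousOn_const.mul (hc.cont k), fun M => ?_⟩
  obtain ⟨A, hA0, hA⟩ := hc.dec M
  refine ⟨‖z‖ * A, by positivity, fun s hs k => ?_⟩
  rw [norm_mul]
  have h1 := mul_le_mul_of_nonneg_left (hA s hs k) (norm_nonneg z)
  linarith

lemma rd_sub {S : ℝ} {c d : ℝ → Z12 → ℂ} (hc : TK.RD S c) (hd : TK.RD S d) :
    TK.RD S (fun s k => c s k - d s k) := by
  have := rd_add hc (rd_smul hd (-1))
  refine ⟨fun k => (hc.cont k).sub (hd.cont k), fun M => ?_⟩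
  obtain ⟨A, hA0, hA⟩ := this.dec M
  refine ⟨A, hA0, fun s hs k => ?_⟩
  have h := hA s hs k
  rwa [neg_one_mul, ← sub_eq_add_neg] at h

/-- the nonlinearity of a smooth family with uniform bounds -/
lemma rd_nl {n : ℕ} (hn : Even n) {S : ℝ} {U : ℝ → R12 → ℂ}
    (hU : ∀ s ∈ Icc 0 S, IsSmoothPeriodic (U s))
    (hb : ∀ M : ℕ, ∃ B : ℝ, ∀ s ∈ Icc 0 S, wn M 1 (U s) ≤ B)
    (hc : ∀ k, ContinuousOn (fun s => cf (U s) k) (Icc 0 S)) :
    TK.RD S (fun s k => cf (fun x => nl n (U s x)) k) := by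
  have hTN : TN := TNl.tn_of tf1 tf2
  obtain ⟨m, rfl⟩ := hn
  rw [← two_mul]
  have e : ∀ z, nl (2 * m) z = Grow.pm m z := Grow.nl_eq_pm m
  have hsm : ∀ s ∈ Icc 0 S, IsSmoothPeriodic (fun x => nl (2 * m) (U s x)) := by
    intro s hs
    have : (fun x => nl (2 * m) (U s x)) = fun x => Grow.pm m (U s x) := by
      funext x; exact e _
    rw [this]; exact Grow.sp_pm (hU s hs) m
  refine rd_of (U := fun s x => nl (2 * m) (U s x)) hsm (fun M => ?_) (fun k => ?_)
  · obtain ⟨B, hB⟩ := hb M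
    refine ⟨B ^ (2 * m + 1), fun s hs => ?_⟩
    have : (fun x => nl (2 * m) (U s x)) = fun x => Grow.pm m (U s x) := by
      funext x; exact e _
    show wn M 1 (fun x => nl (2 * m) (U s x)) ≤ _
    rw [this]
    exact Grow.wn_pm hTN (hU s hs) M zero_le_one (hB s hs) m
  · have hj := cont_joint hU hb hc
    refine cont_cf (V := fun s x => nl (2 * m) (U s x)) ?_ k
    unfold nl
    refine ContinuousOn.mul ?_ hj
    exact Complex.continuous_ofReal.comp_continuousOn (hj.norm.pow _)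

theorem dCoef : TK.DCoefStmt := by
  intro n P hP1 gt hgt τ₀ S hτ₀ hτ1 hS U hU
  have hτs : ∀ s : ℝ, 0 < τ₀ * Real.exp (-s) := fun s => by positivity
  have hτs1 : ∀ s ∈ Icc 0 S, τ₀ * Real.exp (-s) ≤ 1 := by
    intro s hs
    have h1 : Real.exp (-s) ≤ 1 := by rw [Real.exp_le_one_iff]; linarith [hs.1]
    have h2 := Real.exp_pos (-s)
    nlinarith
  -- the solution
  have hUc : ∀ k, ContinuousOn (fun s => cf (U s) k) (Icc 0 S) := fun k s hs =>
    (hU.ode s hs k).continuousWithinAt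
  have rU := rd_of hU.smooth hU.bdd hUc
  have rNU := rd_nl P.neven hU.smooth hU.bdd hUc
  -- the profile
  have hqs : ∀ s ∈ Icc 0 S, IsSmoothPeriodic (P.qt (τ₀ * Real.exp (-s))) := fun s _ =>
    (hP1.1 _ (hτs s)).1
  have hqc : ∀ k, ContinuousOn (fun s => cf (P.qt (τ₀ * Real.exp (-s))) k) (Icc 0 S) := fun k s _ =>
    (hgt.eqn τ₀ hτ₀ s k).continuousAt.continuousWithinAt
  have hqb : ∀ M : ℕ, ∃ B : ℝ, ∀ s ∈ Icc 0 S, wn M 1 (P.qt (τ₀ * Real.exp (-s))) ≤ B := by
    intro M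
    obtain ⟨C, hC0, hC⟩ := hP1.2 M
    refine ⟨((Real.sqrt (τ₀ * Real.exp (-S)))⁻¹) ^ M * C, fun s hs => ?_⟩
    have h0 : 0 < Real.sqrt (τ₀ * Real.exp (-s)) := Real.sqrt_pos.2 (hτs s)
    have h1 : Real.sqrt (τ₀ * Real.exp (-s)) ≤ 1 := Real.sqrt_le_one.2 (hτs1 s hs)
    have h00 : 0 < Real.sqrt (τ₀ * Real.exp (-S)) := Real.sqrt_pos.2 (hτs S)
    refine (Grow.wn_one_le tf1 (hqs s hs) M h0 h1).trans ?_
    have h2 : Real.sqrt (τ₀ * Real.exp (-S)) ≤ Real.sqrt (τ₀ * Real.exp (-s)) := by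
      apply Real.sqrt_le_sqrt
      apply mul_le_mul_of_nonneg_left _ hτ₀.le
      apply Real.exp_le_exp.2
      linarith [hs.2]
    have h3 : (Real.sqrt (τ₀ * Real.exp (-s)))⁻¹ ≤ (Real.sqrt (τ₀ * Real.exp (-S)))⁻¹ :=
      inv_anti₀ h00 h2
    have h4 := (hC _ (hτs s) (hτs1 s hs)).1
    exact mul_le_mul (pow_le_pow_left₀ (inv_pos.2 h0).le h3 M) h4 (Grow.wn_nonneg _ h0.le _)
      (by positivity)
  have rQ := rd_of hqs hqb hqc
  have rNQ := rd_nl (U := fun s => P.qt (τ₀ * Real.exp (-s))) P.neven hqs hqb hqc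
  -- the error
  have hgc : ∀ k, ContinuousOn (fun s => cf (gt (τ₀ * Real.exp (-s))) k) (Icc 0 S) := fun k =>
    (hgt.cont k).comp (by fun_prop) (fun s _ => hτs s)
  have hgb : ∀ M : ℕ, ∃ B : ℝ, ∀ s ∈ Icc 0 S, wn M 1 (gt (τ₀ * Real.exp (-s))) ≤ B := by
    intro M
    obtain ⟨C, hC0, hC⟩ := hgt.bdd M
    refine ⟨C, fun s hs => (hC _ (hτs s) (hτs1 s hs)).trans ?_⟩
    have := hτs1 s hs
    nlinarith
  have rG := rd_of (U := fun s => gt (τ₀ * Real.exp (-s))) (fun s _ => hgt.smooth _ (hτs s)) hgb hgc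
  -- coefficients of the perturbation
  have hcf : ∀ s ∈ Icc 0 S, ∀ k, cf (P.pert τ₀ U s) k
      = cf (U s) k - cf (P.qt (τ₀ * Real.exp (-s))) k := by
    intro s hs k
    exact Grow.cf_sub (hU.smooth s hs).1.continuous (hqs s hs).1.continuous k
  refine ⟨?_, ?_, ?_⟩
  · have h := rd_sub rU rQ
    refine ⟨fun k => (h.cont k).congr fun s hs => hcf s hs k, fun M => ?_⟩
    obtain ⟨C, hC0, hC⟩ := h.dec M
    refine ⟨C, hC0, fun s hs k => ?_⟩
    rw [hcf s hs k]; exact hC s hs k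
  · exact rd_add (rd_smul (rd_sub rNU rNQ) (-I)) rG
  · intro s hs k
    have h1 := hU.ode s hs k
    have h2 := (hgt.eqn τ₀ hτ₀ s k).hasDerivWithinAt (s := Icc 0 S)
    have h3 := h1.sub h2
    refine (h3.congr_of_mem (f₁ := fun s => cf (P.pert τ₀ U s) k) (fun s hs => ?_) hs).congr_deriv ?_
    · rw [hcf s hs k]; rfl
    · rw [hcf s hs k]
      unfold TK.Gf
      ring

end

end Crest.Agent.R086.TKD
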