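import Crest.Agent.R086.DLIface

/-!
Row 86, node TS (helper264): the linear step in the form used on the torus side,
from `LINStmt` and `ForcedStmt`.
-/

set_option autoImplicit false

open MeasureTheory Complex Set
open scoped ContDiff

namespace Crest.Agent.R086.TS

/-- strongly continuous families are bounded on compact intervals -/
lemma bdd_of_strong {X : Type*} [NormedAddCommGroup X] [NormedSpace ℂ X] [CompleteSpace X]
    {S : ℝ → X →L[ℂ] X} (hc : ∀ x, ContinuousOn (fun s => S s x) (Ici 0)) (a : ℝ) :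
    ∃ C : ℝ, 0 ≤ C ∧ ∀ s ∈ Icc 0 a, ‖S s‖ ≤ C := by
  have h : ∀ x, ∃ C, ∀ i : Icc (0 : ℝ) a, ‖(S i) x‖ ≤ C := by
    intro x
    have hcx : ContinuousOn (fun s => ‖S s x‖) (Icc 0 a) :=
      ((hc x).mono Icc_subset_Ici_self).norm
    obtain ⟨C, hC⟩ := isCompact_Icc.bddAbove_image hcx
    exact ⟨C, fun i => hC ⟨i.1, i.2, rfl⟩⟩
  obtain ⟨C, hC⟩ := banach_steinhaus h
  refine ⟨max C 0, le_max_right _ _, fun s hs => (hC ⟨s, hs⟩).trans (le_max_left _ _)⟩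

/-- LINEAR STEP: forced mild solutions, at time `S`, are `κ`-close to the span of the modes. -/
theorem linStep (hLIN : LINStmt) (hF : ForcedStmt) {n : ℕ} (P : Profile n) (T : Pot P)
    (hP : P.SpecGood N0) :
    ∃ N1 : ℕ, ∀ N, N1 ≤ N → ∀ D : LinData P T N, ∀ κ : ℝ, 0 < κ →
      ∃ s0 : ℝ, 0 < s0 ∧ ∀ S : ℝ, s0 ≤ S → ∃ C : ℝ, 0 ≤ C ∧
        ∀ x h : ℝ → XX N, ContinuousOn x (Icc 0 S) → ContinuousOn h (Icc 0 S) →
        IsReal (x 0) →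
        (∀ s ∈ Icc 0 S, x s = D.S0 s (x 0) + ∫ r in (0 : ℝ)..s, D.S0 (s - r) (D.VV (x r) + h r)) →
        ∀ Fb : ℝ, (∀ r ∈ Icc 0 S, ‖h r‖ ≤ Fb) →
        ∃ b : MI → ℝ, (∀ i, |b i| ≤ C * ‖x 0‖) ∧
          ‖x S - ∑ i, (b i : ℂ) • D.mode i‖ ≤ κ * ‖x 0‖ + C * Fb := by
  obtain ⟨N1, hN1⟩ := hLIN n P T hP
  refine ⟨N1, fun N hN D κ hκ => ?_⟩
  obtain ⟨s0, hs0, hs⟩ := hN1 N hN D κ hκ
  refine ⟨s0, hs0, fun S hS => ?_⟩
  obtain ⟨C1, hC1⟩ := hs S hS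
  obtain ⟨C2, hC20, hC2⟩ := bdd_of_strong D.S_cont S
  have hSpos : 0 ≤ S := hs0.le.trans hS
  refine ⟨max C1 0 + C2 * S, by positivity, ?_⟩
  intro x h hx hh hreal hmild Fb hFb
  have hFb0 : 0 ≤ Fb := (norm_nonneg _).trans (hFb 0 ⟨le_rfl, hSpos⟩)
  have hforced := hF n P T N D S hSpos x h hx hh hmild S ⟨hSpos, le_rfl⟩
  obtain ⟨b, hb1, hb2⟩ := hC1 (x 0) hreal
  have hint : ‖∫ r in (0 : ℝ)..S, D.S (S - r) (h r)‖ ≤ C2 * Fb * |S - 0| := by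
    apply intervalIntegral.norm_integral_le_of_norm_le_const
    intro r hr
    rw [uIoc_of_le hSpos] at hr
    have h1 : ‖D.S (S - r)‖ ≤ C2 := hC2 _ ⟨by linarith [hr.2], by linarith [hr.1]⟩
    have h2 : ‖h r‖ ≤ Fb := hFb r ⟨hr.1.le, hr.2⟩
    calc ‖D.S (S - r) (h r)‖ ≤ ‖D.S (S - r)‖ * ‖h r‖ := ContinuousLinearMap.le_opNorm _ _
      _ ≤ C2 * Fb := mul_le_mul h1 h2 (norm_nonneg _) hC20
  rw [sub_zero, abs_of_nonneg hSpos] at hint
  refine ⟨b, fun i => (hb1 i).trans ?_, ?_⟩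
  · apply mul_le_mul_of_nonneg_right _ (norm_nonneg _)
    have := le_max_left C1 0
    have h2 : 0 ≤ C2 * S := by positivity
    linarith
  · rw [hforced]
    have e : D.S S (x 0) + (∫ r in (0 : ℝ)..S, D.S (S - r) (h r)) - ∑ i, (b i : ℂ) • D.mode i
        = (D.S S (x 0) - ∑ i, (b i : ℂ) • D.mode i) + ∫ r in (0 : ℝ)..S, D.S (S - r) (h r) := by
      abel
    rw [e]
    refine (norm_add_le _ _).trans ?_
    have h3 : C2 * Fb * S ≤ (max C1 0 + C2 * S) * Fb := by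
      have : 0 ≤ max C1 0 * Fb := mul_nonneg (le_max_right _ _) hFb0
      nlinarith
    linarith

end Crest.Agent.R086.TS
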