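import Crest.Agent.R086.TKDefs3
import Crest.Agent.R086.TK3
import Crest.Agent.R086.TKC1
import Crest.Agent.R086.TKC2
import Crest.Agent.R086.TKD
import Crest.Agent.R086.BochX2
import Crest.Agent.R086.TSLin
import Crest.Agent.R086.NSRem2
import Crest.Agent.R086.TorBasic
import Crest.Agent.R086.DGen

/-!
Row 86, NearLin, file TK4 (helper501): assembly of `NearLin P N`.
-/

set_option autoImplicit false

open MeasureTheory Complex Filter Topology Set
open scoped ContDiff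
open Crest.AnalysisR.PDE.NLS (IsSmoothPeriodic periodCell)

namespace Crest.Agent.R086.TK

open Profile

noncomputable section

lemma win_cw : Win (cw c2) := ⟨cut_c2.cw_continuous, cut_c2.cw_decay⟩

lemma win_cut {z : R12 → ℂ} (h : Cut z) : Win (cw z) := ⟨h.cw_continuous, h.cw_decay⟩

lemma Fam.win {S : ℝ} {F : ℝ → R12 → ℂ} (h : Fam S F) {r : ℝ} (hr : r ∈ Icc 0 S) : Win (F r) where
  cont := BochX.fam_cont h hr
  dec := fun m => by
    obtain ⟨C, hC0, hC⟩ := h.dec m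
    exact ⟨C, hC0, fun ξ => hC r hr ξ⟩

lemma Fam.add {S : ℝ} {F G : ℝ → R12 → ℂ} (hF : Fam S F) (hG : Fam S G) :
    Fam S (fun r ξ => F r ξ + G r ξ) where
  cont := hF.cont.add hG.cont
  dec := fun m => by
    obtain ⟨C, hC0, hC⟩ := hF.dec m
    obtain ⟨D, hD0, hD⟩ := hG.dec m
    refine ⟨C + D, by positivity, fun r hr ξ => ?_⟩
    calc (1 + ‖ξ‖) ^ m * ‖F r ξ + G r ξ‖ ≤ (1 + ‖ξ‖) ^ m * (‖F r ξ‖ + ‖G r ξ‖) := by
          gcongr; exact norm_add_le _ _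
      _ = (1 + ‖ξ‖) ^ m * ‖F r ξ‖ + (1 + ‖ξ‖) ^ m * ‖G r ξ‖ := by ring
      _ ≤ C + D := add_le_add (hC r hr ξ) (hD r hr ξ)

lemma Win.add {f g : R12 → ℂ} (hf : Win f) (hg : Win g) : Win (fun ξ => f ξ + g ξ) where
  cont := hf.cont.add hg.cont
  dec := fun m => by
    obtain ⟨C, hC0, hC⟩ := hf.dec m
    obtain ⟨D, hD0, hD⟩ := hg.dec m
    refine ⟨C + D, by positivity, fun ξ => ?_⟩
    calc (1 + ‖ξ‖) ^ m * ‖f ξ + g ξ‖ ≤ (1 + ‖ξ‖) ^ m * (‖f ξ‖ + ‖g ξ‖) := by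
          gcongr; exact norm_add_le _ _
      _ = (1 + ‖ξ‖) ^ m * ‖f ξ‖ + (1 + ‖ξ‖) ^ m * ‖g ξ‖ := by ring
      _ ≤ C + D := add_le_add (hC ξ) (hD ξ)

/-- lattice densities of one rapidly decaying coefficient sequence are nice -/
lemma win_Jd {h : ℝ} (hh : 0 < h) (h1 : h ≤ 1) {c : Z12 → ℂ}
    (hc : ∀ M : ℕ, ∃ C : ℝ, 0 ≤ C ∧ ∀ k, (1 + nk k) ^ M * ‖c k‖ ≤ C) :
    Win (Jd (cw c2) h c) ∧ Win (Kd (cw c2) h c) := by
  have hRD : RD 0 (fun _ : ℝ => c) := by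
    refine ⟨fun k => continuousOn_const, fun M => ?_⟩
    obtain ⟨C, hC0, hC⟩ := hc M
    exact ⟨C, hC0, fun s _ k => hC k⟩
  have hF := cFam (cw c2) win_cw 0 (fun _ => h) (fun _ => c) continuousOn_const
    (fun r _ => ⟨hh, h1⟩) hRD
  exact ⟨hF.1.win (r := 0) ⟨le_rfl, le_rfl⟩, hF.2.win (r := 0) ⟨le_rfl, le_rfl⟩⟩

/-- coefficients of smooth periodic functions decay rapidly -/
lemma cf_dec {v : R12 → ℂ} (hv : IsSmoothPeriodic v) (M : ℕ) :
    ∃ C : ℝ, 0 ≤ C ∧ ∀ k, (1 + nk k) ^ M * ‖cf v k‖ ≤ C := by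
  have hs := (tf1 v hv).1 M
  refine ⟨∑' k, (1 + nk k) ^ M * ‖cf v k‖, tsum_nonneg fun k => ?_, fun k => ?_⟩
  · have := TB.nk_nonneg k; positivity
  · refine hs.le_tsum k fun j _ => ?_
    have := TB.nk_nonneg j
    positivity

section id

variable {n : ℕ} {P : Profile n} {T : Pot P} {N : ℕ} (D : LinData P T N)

/-- the forcing in `XX N` -/
lemma X2_sub_VV {a g e : R12 → ℂ} (ha : Win a) (hg : Win g) (he : Win e)
    (h1 : ∀ ξ, g ξ = e ξ - I * (cv T.v1 a ξ + cv T.v2 (cr a) ξ))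
    (h2 : ∀ ξ, (starRingEnd ℂ) (cv T.v1 a (-ξ) + cv T.v2 (cr a) (-ξ))
      = cv T.v1 (cr a) ξ + cv T.v2c a ξ) :
    D.VV (X2 N a) + X2 N e = X2 N g := by
  obtain ⟨-, -, a1, a2, a3, a4⟩ := BochX.bOne n P T N D a ha
  obtain ⟨-, -, g1, g2, -, -⟩ := BochX.bOne n P T N D g hg
  obtain ⟨-, -, e1, e2, -, -⟩ := BochX.bOne n P T N D e he
  refine Prod.ext ?_ ?_
  · refine BochX.XN_ext ?_
    rw [Prod.fst_add]
    filter_upwards [BochX.XN_add (D.VV (X2 N a)).1 (X2 N e).1, a3, g1, e1] with ξ k1 k2 k3 k4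
    rw [k1, k2, k3, k4, h1 ξ]
    ring
  · refine BochX.XN_ext ?_
    rw [Prod.snd_add]
    filter_upwards [BochX.XN_add (D.VV (X2 N a)).2 (X2 N e).2, a4, g2, e2] with ξ k1 k2 k3 k4
    rw [k1, k2, k3, k4, ← h2 ξ]
    have h3 : cr g ξ = cr e ξ + I * (starRingEnd ℂ) (cv T.v1 a (-ξ) + cv T.v2 (cr a) (-ξ)) := by
      show (starRingEnd ℂ) (g (-ξ)) = (starRingEnd ℂ) (e (-ξ)) + _
      rw [h1 (-ξ), map_sub, map_mul, conj_I]
      ring
    rw [h3]
    ring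

end id

lemma XN_smul' {N : ℕ} (c : ℂ) (a : XN N) :
    ((c • a : XN N) : R12 → ℂ) =ᵐ[volume] fun ξ => c * (a : R12 → ℂ) ξ :=
  (DC.ac_muN N).ae_le (Lp.coeFn_smul c a)

lemma XN_sum' {N : ℕ} (c : MI → ℂ) (m : MI → XN N) (s : Finset MI) :
    ((∑ i ∈ s, c i • m i : XN N) : R12 → ℂ) =ᵐ[volume] fun ξ => ∑ i ∈ s, c i * (m i : R12 → ℂ) ξ := by
  classical
  induction s using Finset.induction_on with
  | empty =>
    simp only [Finset.sum_empty]
    exact (DC.ac_muN N).ae_le (Lp.coeFn_zero ℂ 1 (muN N))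
  | insert i s hi ih =>
    rw [Finset.sum_insert hi]
    filter_upwards [BochX.XN_add (c i • m i) (∑ i ∈ s, c i • m i), XN_smul' (c i) (m i), ih]
      with ξ h1 h2 h3
    rw [h1, h2, h3, Finset.sum_insert hi]

lemma sub_sum_ae {N : ℕ} (x : XX N) (c : MI → ℂ) (m : MI → XX N) :
    ((x - ∑ i, c i • m i).1 : R12 → ℂ) =ᵐ[volume]
      fun ξ => (x.1 : R12 → ℂ) ξ - ∑ i, c i * ((m i).1 : R12 → ℂ) ξ := by
  have h0 : (x - ∑ i, c i • m i).1 = x.1 + (-1 : ℂ) • (∑ i, c i • (m i).1) := by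
    rw [Prod.fst_sub, Prod.fst_sum]
    simp only [Prod.smul_fst, neg_smul, one_smul]
    abel
  rw [h0]
  filter_upwards [BochX.XN_add x.1 ((-1 : ℂ) • (∑ i, c i • (m i).1)),
    XN_smul' (-1 : ℂ) (∑ i, c i • (m i).1), XN_sum' c (fun i => (m i).1) Finset.univ] with ξ h1 h2 h3
  rw [h1, h2, h3]
  ring

/-- identification of the near density -/
lemma near_density {τ₀ : ℝ} (hτ : 0 < τ₀) (s : ℝ) {v : R12 → ℂ} (hv : IsSmoothPeriodic v) :
    Jd (cw c2) (hs τ₀ s) (fun k => cf v k) = cw (zn (τ₀ * Real.exp (-s)) v) := by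
  funext ξ
  rw [cw_zn (mul_pos hτ (Real.exp_pos _)) hv]
  rfl

theorem nearLin_of (hE : EIdStmt) (hTN : TN) {n : ℕ} (P : Profile n) (hTP1 : TP1 P)
    (hTP2 : TP2c P) (T : Pot P) (N : ℕ) (D : LinData P T N)
    (hlin : ∀ κ : ℝ, 0 < κ →
      ∃ s0 : ℝ, 0 < s0 ∧ ∀ S : ℝ, s0 ≤ S → ∃ C : ℝ, 0 ≤ C ∧
        ∀ x h : ℝ → XX N, ContinuousOn x (Icc 0 S) → ContinuousOn h (Icc 0 S) →
        IsReal (x 0) →
        (∀ s ∈ Icc 0 S, x s = D.S0 s (x 0) + ∫ r in (0 : ℝ)..s, D.S0 (s - r) (D.VV (x r) + h r)) →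
        ∀ Fb : ℝ, (∀ r ∈ Icc 0 S, ‖h r‖ ≤ Fb) →
        ∃ b : MI → ℝ, (∀ i, |b i| ≤ C * ‖x 0‖) ∧
          ‖x S - ∑ i, (b i : ℂ) • D.mode i‖ ≤ κ * ‖x 0‖ + C * Fb) : NearLin P N := by
  obtain ⟨gt, hg1, hg2, hg3, hg4⟩ := hTP2
  have hGT : GT P gt := ⟨hg1, hg2, hg3, hg4⟩
  intro s hsN κ hκ
  obtain ⟨A, hA0, hA⟩ := cBd (cw c2) win_cw N
  obtain ⟨s0, hs0, hlin'⟩ := hlin (κ / (A + 1)) (by positivity)
  refine ⟨s0, fun S hS hS1 => ?_⟩
  obtain ⟨C, hC0, hlin''⟩ := hlin' S hS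
  -- constants
  obtain ⟨Cq, hCq0, hCq⟩ := hTP1.2 N
  obtain ⟨CR, hCR0, hCR⟩ := NS.remEst hTN P.neven P.two_le N Cq
  obtain ⟨Cg, hCg0, hCg⟩ := hg2 N
  set K : ℝ := A * (CR + Cg + 2 ^ (N + 1)) with hK
  have hK0 : 0 ≤ K := by positivity
  refine ⟨max 1 (C * A + C * K), le_max_left _ _, ?_⟩
  intro τ₀ hτ hτ1 U hU L H hH hL1 hlow hhi
  have hSpos : 0 ≤ S := by linarith
  have h0S : (0:ℝ) ∈ Icc 0 S := ⟨le_rfl, hSpos⟩
  have hSS : S ∈ Icc 0 S := ⟨hSpos, le_rfl⟩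
  obtain ⟨hc, hG, hode⟩ := TKD.dCoef n P hTP1 gt hGT τ₀ S hτ hτ1 hSpos U hU
  -- smoothness of the pieces
  have hτs : ∀ r ∈ Icc 0 S, 0 < τ₀ * Real.exp (-r) := fun r _ => mul_pos hτ (Real.exp_pos _)
  have hτs1 : ∀ r ∈ Icc 0 S, τ₀ * Real.exp (-r) ≤ τ₀ := fun r hr => by
    have : Real.exp (-r) ≤ 1 := Real.exp_le_one_iff.2 (by linarith [hr.1])
    nlinarith [Real.exp_pos (-r)]
  have hqs : ∀ r ∈ Icc 0 S, IsSmoothPeriodic (P.qt (τ₀ * Real.exp (-r))) := fun r hr =>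
    (hTP1.1 _ (hτs r hr)).1
  have hWs : ∀ r ∈ Icc 0 S, IsSmoothPeriodic (P.pert τ₀ U r) := fun r hr =>
    TB.sp_sub (hU.smooth r hr) (hqs r hr)
  have hL0 : 0 ≤ L := (TB.wn_nonneg N (hs_pos hτ 0).le _).trans (hlow 0 h0S)
  -- densities
  set a : ℝ → R12 → ℂ := fun r => Jd (cw c2) (hs τ₀ r) (fun k => cf (P.pert τ₀ U r) k) with ha
  set g : ℝ → R12 → ℂ := fun r ξ => Jd (cw c2) (hs τ₀ r) (fun k => Gf P gt τ₀ U r k) ξ
    + Kd (cw c2) (hs τ₀ r) (fun k => cf (P.pert τ₀ U r) k) ξ with hgdef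
  set e : ℝ → R12 → ℂ := fun r ξ => Jd (cw c2) (hs τ₀ r) (Ef P gt τ₀ U r) ξ
    + Kd (cw c2) (hs τ₀ r) (fun k => cf (P.pert τ₀ U r) k) ξ with hedef
  have hhc : ContinuousOn (hs τ₀) (Icc 0 S) := continuous_hs.continuousOn
  have hh01 : ∀ r ∈ Icc 0 S, 0 < hs τ₀ r ∧ hs τ₀ r ≤ 1 := fun r hr =>
    ⟨hs_pos hτ r, hs_le_one hτ hτ1 hr.1⟩
  have hFc := cFam (cw c2) win_cw S (hs τ₀) _ hhc hh01 hc
  have hFG := cFam (cw c2) win_cw S (hs τ₀) _ hhc hh01 hG
  have hfa : Fam S a := hFc.1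
  have hfg : Fam S g := hFG.1.add hFc.2
  -- the mild formula
  have hmild : ∀ s ∈ Icc 0 S, ∀ ξ, a s ξ = fr P s (a 0) ξ
      + ∫ r in (0 : ℝ)..s, fr P (s - r) (g r) ξ := fun s hs' ξ =>
    mild P win_cw hτ hτ1 hc hG hode hs' ξ
  have hM := BochX.bMild n P T N D S a g hfa hfg hmild
  -- remainder coefficients
  set R : ℝ → R12 → ℂ := fun r x => nl n (P.qt (τ₀ * Real.exp (-r)) x + P.pert τ₀ U r x)
      - nl n (P.qt (τ₀ * Real.exp (-r)) x)
      - dnl n (P.qt (τ₀ * Real.exp (-r)) x) (P.pert τ₀ U r x) with hR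
  have hRs : ∀ r ∈ Icc 0 S, IsSmoothPeriodic (R r) := by
    intro r hr
    have h1 := hqs r hr
    have h2 := hWs r hr
    have h3 := TB.sp_nl P.neven (TB.sp_add h1 h2)
    have h4 := TB.sp_nl P.neven h1
    have hev : Even (n - 2) := by
      obtain ⟨m, hm⟩ := P.neven
      exact ⟨m - 1, by omega⟩
    have h5 : IsSmoothPeriodic (fun x => dnl n (P.qt (τ₀ * Real.exp (-r)) x) (P.pert τ₀ U r x)) := by
      unfold dnl
      have k1 := TB.sp_mul (TB.sp_cmul (TB.sp_normpow P.neven h1) (1 + (n : ℂ) / 2)) h2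
      have k2 := TB.sp_mul (TB.sp_mul (TB.sp_cmul (TB.sp_normpow hev h1) ((n : ℂ) / 2))
        (TB.sp_pow h1 2)) (TB.sp_conj h2)
      exact TB.sp_add k1 k2
    exact TB.sp_sub (TB.sp_sub h3 h4) h5
  have hEf : ∀ r ∈ Icc 0 S, ∀ k, ‖Ef P gt τ₀ U r k‖ ≤ ‖cf (R r) k‖ + ‖cf (gt (τ₀ * Real.exp (-r))) k‖ := by
    intro r hr k
    unfold Ef
    refine (norm_add_le _ _).trans ?_
    rw [norm_mul, norm_neg, norm_I, one_mul]
  have hEfd : ∀ r ∈ Icc 0 S, ∀ M : ℕ, ∃ C : ℝ, 0 ≤ C ∧ ∀ k, (1 + nk k) ^ M * ‖Ef P gt τ₀ U r k‖ ≤ C := by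
    intro r hr M
    obtain ⟨C1, hC10, hC1⟩ := cf_dec (hRs r hr) M
    obtain ⟨C2, hC20, hC2⟩ := cf_dec (hg1 _ (hτs r hr)) M
    refine ⟨C1 + C2, by positivity, fun k => ?_⟩
    have h0 : 0 ≤ (1 + nk k) ^ M := by
      have := TB.nk_nonneg k
      positivity
    have h1 := mul_le_mul_of_nonneg_left (hEf r hr k) h0
    have h2 := hC1 k
    have h3 := hC2 k
    rw [mul_add] at h1
    linarith
  have hEfs : ∀ r ∈ Icc 0 S, ∀ M : ℕ, Summable fun k => (1 + nk k) ^ M * ‖Ef P gt τ₀ U r k‖ := by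
    intro r hr M
    refine Summable.of_nonneg_of_le (fun k => ?_) (fun k => ?_)
      (((tf1 _ (hRs r hr)).1 M).add ((tf1 _ (hg1 _ (hτs r hr))).1 M))
    · have := TB.nk_nonneg k; positivity
    · have h0 : 0 ≤ (1 + nk k) ^ M := by
        have := TB.nk_nonneg k
        positivity
      have h1 := mul_le_mul_of_nonneg_left (hEf r hr k) h0
      rw [mul_add] at h1
      exact h1
  have hwa : ∀ r ∈ Icc 0 S, Win (a r) := fun r hr => hfa.win hr
  have hwg : ∀ r ∈ Icc 0 S, Win (g r) := fun r hr => hfg.win hr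
  have hwe1 : ∀ r ∈ Icc 0 S, Win (Jd (cw c2) (hs τ₀ r) (Ef P gt τ₀ U r)) := fun r hr =>
    (win_Jd (hh01 r hr).1 (hh01 r hr).2 (hEfd r hr)).1
  have hwe2 : ∀ r ∈ Icc 0 S, Win (Kd (cw c2) (hs τ₀ r) (fun k => cf (P.pert τ₀ U r) k)) := fun r hr =>
    hFc.2.win hr
  have hwe : ∀ r ∈ Icc 0 S, Win (e r) := fun r hr => (hwe1 r hr).add (hwe2 r hr)
  have haz : ∀ r ∈ Icc 0 S, a r = cw (zn (τ₀ * Real.exp (-r)) (P.pert τ₀ U r)) := fun r hr =>
    near_density hτ r (hWs r hr)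
  have hident : ∀ r ∈ Icc 0 S, D.VV (X2 N (a r)) + X2 N (e r) = X2 N (g r) := by
    intro r hr
    obtain ⟨i1, i2⟩ := hE n P T hTP1 gt hGT τ₀ S hτ hτ1 hSpos U hU r hr
    rw [← haz r hr] at i1 i2
    refine X2_sub_VV D (hwa r hr) (hwg r hr) (hwe r hr) (fun ξ => ?_) i2
    simp only [hgdef, hedef]
    have := i1 ξ
    rw [show (fun k => Gf P gt τ₀ U r k) = Gf P gt τ₀ U r from rfl, this]
    ring
  -- the curve and the forcing
  set x : ℝ → XX N := fun r => X2 N (a r) with hx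
  set hf : ℝ → XX N := fun r => X2 N (g r) - D.VV (x r) with hhf
  have hxc : ContinuousOn x (Icc 0 S) := BochX.bCont N S a hfa
  have hgc : ContinuousOn (fun r => X2 N (g r)) (Icc 0 S) := BochX.bCont N S g hfg
  have hfc : ContinuousOn hf (Icc 0 S) := hgc.sub (D.VV.continuous.comp_continuousOn hxc)
  have hfe : ∀ r ∈ Icc 0 S, hf r = X2 N (e r) := fun r hr => by
    simp only [hhf, hx]
    rw [← hident r hr]
    abel
  have hreal : IsReal (x 0) := (BochX.bOne n P T N D (a 0) (hwa 0 h0S)).2.1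
  have hmildX : ∀ s ∈ Icc 0 S, x s = D.S0 s (x 0)
      + ∫ r in (0 : ℝ)..s, D.S0 (s - r) (D.VV (x r) + hf r) := by
    intro s hs'
    have h1 := hM s hs'
    simp only [hx] at h1 ⊢
    rw [h1]
    congr 1
    refine intervalIntegral.integral_congr fun r _ => ?_
    simp only [hhf, hx]
    congr 1
    abel
  have hwcf : ∀ r ∈ Icc 0 S, ∀ M : ℕ, Summable fun k => (1 + nk k) ^ M * ‖cf (P.pert τ₀ U r) k‖ :=
    fun r hr M => (tf1 _ (hWs r hr)).1 M
  -- bound of the forcing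
  have hFb : ∀ r ∈ Icc 0 S, ‖hf r‖ ≤ K * (L ^ 2 + Real.sqrt τ₀ * (L + H) + τ₀) := by
    intro r hr
    have hh := (hh01 r hr).1
    have hh1 := (hh01 r hr).2
    rw [hfe r hr, (BochX.bOne n P T N D (e r) (hwe r hr)).1]
    have h1 : ∫ ξ : R12, (1 + ‖ξ‖) ^ N * ‖e r ξ‖ ≤
        (∫ ξ : R12, (1 + ‖ξ‖) ^ N * ‖Jd (cw c2) (hs τ₀ r) (Ef P gt τ₀ U r) ξ‖)
        + ∫ ξ : R12, (1 + ‖ξ‖) ^ N * ‖Kd (cw c2) (hs τ₀ r) (fun k => cf (P.pert τ₀ U r) k) ξ‖ := by
      rw [← integral_add (win_int (hwe1 r hr) N) (win_int (hwe2 r hr) N)]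
      refine integral_mono (win_int (hwe r hr) N)
        ((win_int (hwe1 r hr) N).add (win_int (hwe2 r hr) N)) fun ξ => ?_
      simp only [Pi.add_apply]
      rw [← mul_add]
      have : (0:ℝ) ≤ (1 + ‖ξ‖) ^ N := by positivity
      exact mul_le_mul_of_nonneg_left (norm_add_le _ _) this
    have h2 := (hA (hs τ₀ r) hh hh1 (Ef P gt τ₀ U r) (hEfs r hr)).1
    have h3 := (hA (hs τ₀ r) hh hh1 (fun k => cf (P.pert τ₀ U r) k) (hwcf r hr)).2
    have h4 : ∑' k, (1 + hs τ₀ r * nk k) ^ N * ‖Ef P gt τ₀ U r k‖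
        ≤ wn N (hs τ₀ r) (R r) + wn N (hs τ₀ r) (gt (τ₀ * Real.exp (-r))) := by
      have k1 := TB.summable_wn tf1 (hRs r hr) N hh.le
      have k2 := TB.summable_wn tf1 (hg1 _ (hτs r hr)) N hh.le
      unfold wn
      rw [← Summable.tsum_add k1 k2]
      have k3 : ∀ k, (1 + hs τ₀ r * nk k) ^ N * ‖Ef P gt τ₀ U r k‖
          ≤ (1 + hs τ₀ r * nk k) ^ N * ‖cf (R r) k‖
            + (1 + hs τ₀ r * nk k) ^ N * ‖cf (gt (τ₀ * Real.exp (-r))) k‖ := by
        intro k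
        rw [← mul_add]
        exact mul_le_mul_of_nonneg_left (hEf r hr k) (TB.w_nonneg N hh.le k)
      refine Summable.tsum_le_tsum k3 ?_ (k1.add k2)
      exact Summable.of_nonneg_of_le
        (fun k => mul_nonneg (TB.w_nonneg N hh.le k) (norm_nonneg _)) k3 (k1.add k2)
    have h5 : wn N (hs τ₀ r) (R r) ≤ CR * L ^ 2 := by
      have hq := (hCq (τ₀ * Real.exp (-r)) (hτs r hr) ((hτs1 r hr).trans hτ1)).1
      have hw := hlow r hr
      have k1 := hCR (hs τ₀ r) hh.le (P.qt (τ₀ * Real.exp (-r))) (P.pert τ₀ U r) (hqs r hr)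
        (hWs r hr) hq (hw.trans hL1)
      refine k1.trans ?_
      have k2 := TB.wn_nonneg N hh.le (P.pert τ₀ U r)
      gcongr
    have h6 : wn N (hs τ₀ r) (gt (τ₀ * Real.exp (-r))) ≤ Cg * τ₀ := by
      have k1 := TB.wn_le_wn tf1 (hg1 _ (hτs r hr)) (le_refl N) hh.le hh1
      have k2 := hCg (τ₀ * Real.exp (-r)) (hτs r hr) ((hτs1 r hr).trans hτ1)
      refine k1.trans (k2.trans ?_)
      exact mul_le_mul_of_nonneg_left (hτs1 r hr) hCg0
    have h7 : ∑' k, (1 + hs τ₀ r * nk k) ^ (N + 1) * ‖cf (P.pert τ₀ U r) k‖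
        ≤ 2 ^ (N + 1) * (L + H) := by
      have k1 := TB.wn_succ_le tf1 (hWs r hr) hsN hh.le
      refine k1.trans ?_
      gcongr
      · exact hlow r hr
      · exact hhi r hr
    have h8 : hs τ₀ r ≤ Real.sqrt τ₀ := hs_le_sqrt hτ hr.1
    calc ∫ ξ : R12, (1 + ‖ξ‖) ^ N * ‖e r ξ‖
        ≤ A * (CR * L ^ 2 + Cg * τ₀) + A * Real.sqrt τ₀ * (2 ^ (N + 1) * (L + H)) := by
          refine h1.trans (add_le_add (h2.trans ?_) (h3.trans ?_))
          · exact mul_le_mul_of_nonneg_left (h4.trans (add_le_add h5 h6)) hA0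
          · have : (0:ℝ) ≤ ∑' k, (1 + hs τ₀ r * nk k) ^ (N + 1) * ‖cf (P.pert τ₀ U r) k‖ :=
              tsum_nonneg fun k => mul_nonneg (TB.w_nonneg _ hh.le k) (norm_nonneg _)
            apply mul_le_mul _ h7 this (by positivity)
            exact mul_le_mul_of_nonneg_left h8 hA0
      _ ≤ K * (L ^ 2 + Real.sqrt τ₀ * (L + H) + τ₀) := by
          rw [hK]
          have p1 : 0 ≤ L ^ 2 := sq_nonneg _
          have p2 : 0 ≤ Real.sqrt τ₀ * (L + H) := by positivity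
          have p3 : (0:ℝ) ≤ 2 ^ (N + 1) := by positivity
          have e1 : A * (CR + Cg + 2 ^ (N + 1)) * (L ^ 2 + Real.sqrt τ₀ * (L + H) + τ₀)
              - (A * (CR * L ^ 2 + Cg * τ₀) + A * Real.sqrt τ₀ * (2 ^ (N + 1) * (L + H)))
              = A * (CR * (Real.sqrt τ₀ * (L + H)) + CR * τ₀ + Cg * L ^ 2
                + Cg * (Real.sqrt τ₀ * (L + H)) + 2 ^ (N + 1) * L ^ 2 + 2 ^ (N + 1) * τ₀) := by ring
          have e2 : 0 ≤ A * (CR * (Real.sqrt τ₀ * (L + H)) + CR * τ₀ + Cg * L ^ 2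
                + Cg * (Real.sqrt τ₀ * (L + H)) + 2 ^ (N + 1) * L ^ 2 + 2 ^ (N + 1) * τ₀) := by
            have := hτ.le
            positivity
          linarith
  obtain ⟨b, hb1, hb2⟩ := hlin'' x hf hxc hfc hreal hmildX _ hFb
  -- norm of the initial datum
  have hx0 : ‖x 0‖ ≤ A * wn N (Real.sqrt τ₀) (P.pert τ₀ U 0) := by
    simp only [hx]
    rw [(BochX.bOne n P T N D (a 0) (hwa 0 h0S)).1]
    have h1 := (hA (hs τ₀ 0) (hs_pos hτ 0) (hs_le_one hτ hτ1 le_rfl)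
      (fun k => cf (P.pert τ₀ U 0) k) (hwcf 0 h0S)).1
    rw [hs_zero] at h1
    have h2 : a 0 = Jd (cw c2) (Real.sqrt τ₀) (fun k => cf (P.pert τ₀ U 0) k) := by
      simp only [ha]
      rw [hs_zero]
    rw [h2]
    exact h1
  have hw0 : wn N (Real.sqrt τ₀) (P.pert τ₀ U 0) ≤ L := by
    have := hlow 0 h0S
    rwa [hs_zero] at this
  have hw00 : 0 ≤ wn N (Real.sqrt τ₀) (P.pert τ₀ U 0) := TB.wn_nonneg N (Real.sqrt_nonneg _) _
  refine ⟨b, fun m => ?_, ?_⟩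
  · calc |b m| ≤ C * ‖x 0‖ := hb1 m
      _ ≤ C * (A * L) := by
        gcongr
        exact hx0.trans (mul_le_mul_of_nonneg_left hw0 hA0)
      _ = (C * A) * L := by ring
      _ ≤ max 1 (C * A + C * K) * L := by
        apply mul_le_mul_of_nonneg_right _ hL0
        refine le_trans ?_ (le_max_right _ _)
        have : 0 ≤ C * K := by positivity
        linarith
  · set aS : R12 → ℂ := fun ξ => a S ξ - ∑ m, (b m : ℂ) * T.m1 m ξ with haS
    refine ⟨aS, ?_, ?_⟩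
    · -- representation
      have hz : Cut (zn (τ₀ * Real.exp (-S)) (P.pert τ₀ U S)) := cut_zn (hτs S hSS) (hWs S hSS)
      have r1 := rep_cw hz N
      rw [← haz S hSS] at r1
      have hterm : ∀ m, Integrable (fun ξ : R12 => (((1 + ‖ξ‖) ^ N : ℝ) : ℂ) * ((b m : ℂ) * T.m1 m ξ)) := by
        intro m
        have := (T.rep_m1 m N).1.const_mul (b m : ℂ)
        refine this.congr (Eventually.of_forall fun ξ => ?_)
        simp only
        ring
      constructor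
      · have h1 := r1.1.sub (integrable_finsetSum Finset.univ fun m _ => hterm m)
        refine h1.congr (Eventually.of_forall fun ξ => ?_)
        simp only [haS, Pi.sub_apply, Finset.sum_apply]
        rw [mul_sub, Finset.mul_sum]
      · intro y
        have i0 : ∀ {f : R12 → ℂ}, Integrable f →
            Integrable (fun ξ : R12 => exp (I * ((inner ℝ ξ y : ℝ) : ℂ)) * f ξ) := by
          intro f hf
          refine hf.bdd_mul (c := 1) ?_ (Eventually.of_forall fun ξ => ?_)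
          · have : Continuous (fun ξ : R12 => exp (I * ((inner ℝ ξ y : ℝ) : ℂ))) := by fun_prop
            exact this.aestronglyMeasurable
          · exact (norm_ch ξ y).le
        have i1 : Integrable (a S) := by
          rw [haz S hSS]
          exact hz.cw_integrable
        have i2 : ∀ m, Integrable (T.m1 m) := fun m => DGen.integrable_rep (T.rep_m1 m N)
        simp only [haS, mul_sub, Finset.mul_sum]
        rw [integral_sub (i0 i1), integral_finsetSum]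
        · rw [r1.2 y]
          congr 1
          refine Finset.sum_congr rfl fun m _ => ?_
          rw [(T.rep_m1 m N).2 y, ← integral_const_mul]
          refine integral_congr_ae (Eventually.of_forall fun ξ => ?_)
          simp only
          ring
        · intro m _
          exact i0 ((i2 m).const_mul _)
        · exact integrable_finsetSum _ fun m _ => i0 ((i2 m).const_mul _)
    · -- the norm
      have h1 : ∫ ξ : R12, (1 + ‖ξ‖) ^ N * ‖aS ξ‖ = ‖(x S - ∑ i, (b i : ℂ) • D.mode i).1‖ := by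
        rw [BochX.XN_norm]
        have k1 : ((x S - ∑ i, (b i : ℂ) • D.mode i).1 : R12 → ℂ) =ᵐ[volume] aS := by
          have q1 := sub_sum_ae (x S) (fun i => (b i : ℂ)) D.mode
          have q2 := (BochX.bOne n P T N D (a S) (hwa S hSS)).2.2.1
          have q3 : ∀ᵐ ξ : R12, ∀ i, ((D.mode i).1 : R12 → ℂ) ξ = T.m1 i ξ :=
            ae_all_iff.2 fun i => D.mode_fst i
          filter_upwards [q1, q2, q3] with ξ w1 w2 w3
          rw [w1]
          simp only [haS]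
          rw [show ((x S).1 : R12 → ℂ) ξ = a S ξ from w2]
          congr 1
          exact Finset.sum_congr rfl fun i _ => by rw [w3 i]
        refine integral_congr_ae (k1.mono fun ξ h => ?_)
        simp only [h]
      rw [h1]
      refine (norm_fst_le _).trans (hb2.trans ?_)
      have h2 : κ / (A + 1) * ‖x 0‖ ≤ κ * wn N (Real.sqrt τ₀) (P.pert τ₀ U 0) := by
        calc κ / (A + 1) * ‖x 0‖ ≤ κ / (A + 1) * (A * wn N (Real.sqrt τ₀) (P.pert τ₀ U 0)) := by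
              gcongr
          _ = κ * (A / (A + 1)) * wn N (Real.sqrt τ₀) (P.pert τ₀ U 0) := by ring
          _ ≤ κ * 1 * wn N (Real.sqrt τ₀) (P.pert τ₀ U 0) := by
              gcongr
              rw [div_le_one (by positivity)]
              linarith
          _ = _ := by ring
      have h3 : C * (K * (L ^ 2 + Real.sqrt τ₀ * (L + H) + τ₀))
          ≤ max 1 (C * A + C * K) * (L ^ 2 + Real.sqrt τ₀ * (L + H) + τ₀) := by
        rw [← mul_assoc]
        have p1 : 0 ≤ L ^ 2 + Real.sqrt τ₀ * (L + H) + τ₀ := by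
          have := hτ.le
          positivity
        apply mul_le_mul_of_nonneg_right _ p1
        refine le_trans ?_ (le_max_right _ _)
        have : 0 ≤ C * A := by positivity
        linarith
      exact add_le_add h2 h3

end

end Crest.Agent.R086.TK
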