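import Crest.Agent.R086.TKDefs2
import Crest.Agent.R086.TK2

/-!
Row 86, NearLin: statement of the identity (E) (helper501).
-/

set_option autoImplicit false

open MeasureTheory Complex Set
open scoped ContDiff Topology
open Crest.AnalysisR.PDE.NLS (IsSmoothPeriodic periodCell)

namespace Crest.Agent.R086.TK

open Profile

noncomputable section

/-- error coefficients: `-i R + gt`, `R` = quadratic remainder -/
def Ef {n : ℕ} (P : Profile n) (gt : ℝ → R12 → ℂ) (τ₀ : ℝ) (U : ℝ → R12 → ℂ) (s : ℝ) (k : Z12) : ℂ :=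
  -I * cf (fun x => nl n (P.qt (τ₀ * Real.exp (-s)) x + P.pert τ₀ U s x)
      - nl n (P.qt (τ₀ * Real.exp (-s)) x)
      - dnl n (P.qt (τ₀ * Real.exp (-s)) x) (P.pert τ₀ U s x)) k
    + cf (gt (τ₀ * Real.exp (-s))) k

/-- (E) the forcing density is the error density plus the potential terms -/
def EIdStmt : Prop := ∀ (n : ℕ) (P : Profile n) (T : Pot P), TP1 P → ∀ gt : ℝ → R12 → ℂ, GT P gt →
  ∀ (τ₀ S : ℝ), 0 < τ₀ → τ₀ ≤ 1 → 0 ≤ S → ∀ U, P.ResSol τ₀ S U → ∀ s ∈ Icc 0 S,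
    (∀ ξ, Jd (cw c2) (hs τ₀ s) (Gf P gt τ₀ U s) ξ
      = Jd (cw c2) (hs τ₀ s) (Ef P gt τ₀ U s) ξ
        - I * (cv T.v1 (cw (zn (τ₀ * Real.exp (-s)) (P.pert τ₀ U s))) ξ
          + cv T.v2 (cr (cw (zn (τ₀ * Real.exp (-s)) (P.pert τ₀ U s)))) ξ)) ∧
    (∀ ξ, (starRingEnd ℂ) (cv T.v1 (cw (zn (τ₀ * Real.exp (-s)) (P.pert τ₀ U s))) (-ξ)
          + cv T.v2 (cr (cw (zn (τ₀ * Real.exp (-s)) (P.pert τ₀ U s)))) (-ξ))
      = cv T.v1 (cr (cw (zn (τ₀ * Real.exp (-s)) (P.pert τ₀ U s)))) ξ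
          + cv T.v2c (cw (zn (τ₀ * Real.exp (-s)) (P.pert τ₀ U s))) ξ)

end

end Crest.Agent.R086.TK
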