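import Crest.Agent.R086.PF3
import Crest.Agent.R086.PerzAlg
import Crest.Agent.R086.SymCalc
import Crest.Agent.R086.TorBasic
import Crest.Agent.R086.Ann
import Crest.Agent.R086.PZ
import Crest.Agent.R086.TN
import Crest.Agent.R086.TF

/-! Row 86 (helper718), node TP2: the equation of the periodised profile. -/

set_option autoImplicit false

open MeasureTheory Complex Filter
open scoped ContDiff Topology
open Crest.AnalysisR.PDE.NLS (IsSmoothPeriodic)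

namespace Crest.Agent.R086.TP

open Crest.Agent.R086 Crest.Agent.R086.Perz Crest.Agent.R086.PF

/-- unfolding of the Fourier coefficients of a periodisation -/
def CfPerz : Prop := ∀ f : R12 → ℂ, ContDiff ℝ ∞ f → PS f → ∀ k : Z12, Crest.Agent.R086.cf (perz f) k = fc f k

/-- annulus bound -/
def AnnStmt : Prop := ∀ ψ : R12 → ℂ, ContDiff ℝ ∞ ψ → PS ψ →
  (∃ r : ℝ, 0 < r ∧ ∀ x : R12, ‖x‖ ≤ r → ψ x = 0) → ∀ (δ : ℝ), 0 < δ → ∀ G : R12 → ℂ, Sym δ G →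
  ∀ N : ℕ, ∃ C : ℝ, 0 ≤ C ∧ ∀ τ : ℝ, 0 < τ → τ ≤ 1 →
    wn N 1 (perz fun x => ψ x * G ((Real.sqrt τ)⁻¹ • x)) ≤ C * τ ^ (δ / 2)

/-! ### the cut-off -/

/-- complex cut-off -/
noncomputable def X0 (x : R12) : ℂ := ((chi0 x : ℝ) : ℂ)

lemma X0_smooth : ContDiff ℝ ∞ X0 := Complex.ofRealCLM.contDiff.comp chi0.contDiff

lemma X0_PS : PS X0 := by
  intro x hx
  have : chi0 x = 0 := chi0.zero_of_le_dist (by rw [dist_zero_right]; exact hx)
  simp [X0, this]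

lemma X0_one {x : R12} (hx : ‖x‖ ≤ 1) : X0 x = 1 := by
  have : chi0 x = 1 := chi0.one_of_mem_closedBall (by
    rw [Metric.mem_closedBall, dist_zero_right]; exact hx)
  simp [X0, this]

lemma X0_cut : Cut X0 := ⟨X0_smooth, by
  have := chi0.hasCompactSupport
  exact this.comp_left (g := fun x : ℝ => (x : ℂ)) (by simp)⟩

/-- vanishing of a continuous function on the closed exterior -/
lemma PS_of_open {f : R12 → ℂ} (hf : Continuous f) (h : ∀ x : R12, 2 < ‖x‖ → f x = 0) : PS f := by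
  intro x hx
  rcases hx.eq_or_lt with h2 | h2
  · -- limit of `(1+ε) x`
    have hlim : Tendsto (fun e : ℝ => f ((1 + e) • x)) (𝓝[>] 0) (𝓝 (f x)) := by
      have h1 : Continuous fun e : ℝ => f ((1 + e) • x) := by fun_prop
      have h3 := h1.tendsto 0
      simp only [add_zero, one_smul] at h3
      exact h3.mono_left nhdsWithin_le_nhds
    have hz : Tendsto (fun e : ℝ => f ((1 + e) • x)) (𝓝[>] 0) (𝓝 0) := by
      refine tendsto_const_nhds.congr' ?_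
      filter_upwards [self_mem_nhdsWithin] with e he
      rw [h]
      rw [norm_smul, ← h2]
      have he' : 0 < e := he
      rw [Real.norm_of_nonneg (by linarith)]
      linarith
    exact tendsto_nhds_unique hlim hz
  · exact h x h2

lemma PS_fderiv {f : R12 → ℂ} (hf : ContDiff ℝ ∞ f) (h : PS f) (j : Fin 12) :
    PS fun x => fderiv ℝ f x (ei j) := by
  refine PS_of_open (smooth_fderiv hf j).continuous fun x hx => ?_
  have h1 : f =ᶠ[𝓝 x] fun _ => 0 := by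
    have : {y : R12 | 2 < ‖y‖} ∈ 𝓝 x := (isOpen_lt continuous_const continuous_norm).mem_nhds hx
    filter_upwards [this] with y hy
    exact h y (le_of_lt hy)
  rw [h1.fderiv_eq]
  simp

/-- vanishing of derivatives near the origin -/
lemma fderiv_zero_near {f : R12 → ℂ} {c : ℂ} {r : ℝ} (h : ∀ x : R12, ‖x‖ < r → f x = c) (j : Fin 12) :
    ∀ x : R12, ‖x‖ < r → fderiv ℝ f x (ei j) = 0 := by
  intro x hx
  have h1 : f =ᶠ[𝓝 x] fun _ => c := by
    have : {y : R12 | ‖y‖ < r} ∈ 𝓝 x := (isOpen_lt continuous_norm continuous_const).mem_nhds hx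
    filter_upwards [this] with y hy
    exact h y hy
  rw [h1.fderiv_eq]
  simp

noncomputable def D1 (j : Fin 12) (x : R12) : ℂ := fderiv ℝ X0 x (ei j)
noncomputable def D2 (j : Fin 12) (x : R12) : ℂ := fderiv ℝ (fun x => fderiv ℝ X0 x (ei j)) x (ei j)

lemma D1_smooth (j : Fin 12) : ContDiff ℝ ∞ (D1 j) := smooth_fderiv X0_smooth j
lemma D2_smooth (j : Fin 12) : ContDiff ℝ ∞ (D2 j) := smooth_fderiv (D1_smooth j) j
lemma D1_PS (j : Fin 12) : PS (D1 j) := PS_fderiv X0_smooth X0_PS j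
lemma D2_PS (j : Fin 12) : PS (D2 j) := PS_fderiv (D1_smooth j) (D1_PS j) j
lemma D1_zero (j : Fin 12) : ∀ x : R12, ‖x‖ < 1 → D1 j x = 0 :=
  fderiv_zero_near (c := 1) (fun _ hx => X0_one hx.le) j
lemma D2_zero (j : Fin 12) : ∀ x : R12, ‖x‖ < 1 → D2 j x = 0 :=
  fderiv_zero_near (c := 0) (D1_zero j) j

/-- `chi0 - chi0^(n+1)` -/
noncomputable def XN1 (n : ℕ) (x : R12) : ℂ := X0 x - X0 x ^ (n + 1)

lemma XN1_smooth (n : ℕ) : ContDiff ℝ ∞ (XN1 n) := X0_smooth.sub (X0_smooth.pow _)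
lemma XN1_PS (n : ℕ) : PS (XN1 n) := fun x hx => by simp [XN1, X0_PS x hx]
lemma XN1_zero (n : ℕ) : ∀ x : R12, ‖x‖ < 1 → XN1 n x = 0 := fun x hx => by
  simp [XN1, X0_one hx.le]

/-! ### the error -/

section prof
variable {n : ℕ} (P : Profile n)

/-- nonlinearity at the profile -/
noncomputable def NQ (y : R12) : ℂ := ((‖P.Q y‖ ^ n : ℝ) : ℂ) * P.Q y

/-- the error, before periodisation -/
noncomputable def ge (τ : ℝ) (x : R12) : ℂ :=
  I * (τ : ℂ) * (∑ j : Fin 12, D2 j x * P.Q ((Real.sqrt τ)⁻¹ • x)) +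
  2 * I * ((Real.sqrt τ : ℝ) : ℂ) *
    (∑ j : Fin 12, D1 j x * fderiv ℝ P.Q ((Real.sqrt τ)⁻¹ • x) (ei j)) +
  I * (XN1 n x * NQ P ((Real.sqrt τ)⁻¹ • x))

lemma smooth_scale {f : R12 → ℂ} (hf : ContDiff ℝ ∞ f) (c : ℝ) :
    ContDiff ℝ ∞ fun x : R12 => f (c • x) := hf.comp (contDiff_const_smul _)

lemma ge_smooth (τ : ℝ) : ContDiff ℝ ∞ (ge P τ) := by
  unfold ge
  refine ((contDiff_const.mul (ContDiff.sum fun j _ => (D2_smooth j).mul
    (smooth_scale P.smooth _))).add (contDiff_const.mul (ContDiff.sum fun j _ =>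
    (D1_smooth j).mul (smooth_scale (smooth_fderiv P.smooth j) _)))).add
    (contDiff_const.mul ((XN1_smooth n).mul (smooth_scale P.symNN.1 _)))

lemma ge_PS (τ : ℝ) : PS (ge P τ) := by
  intro x hx
  simp [ge, D2_PS _ x hx, D1_PS _ x hx, XN1_PS n x hx]

lemma PS_mul_right {f g : R12 → ℂ} (hf : PS f) : PS fun x => f x * g x := fun x hx => by
  simp [hf x hx]

/-- the three pieces as periodisations -/
lemma perz_ge (τ : ℝ) (x : R12) : perz (ge P τ) x =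
    I * (τ : ℂ) * (∑ j : Fin 12, perz (fun x => D2 j x * P.Q ((Real.sqrt τ)⁻¹ • x)) x) +
    2 * I * ((Real.sqrt τ : ℝ) : ℂ) *
      (∑ j : Fin 12, perz (fun x => D1 j x * fderiv ℝ P.Q ((Real.sqrt τ)⁻¹ • x) (ei j)) x) +
    I * perz (fun x => XN1 n x * NQ P ((Real.sqrt τ)⁻¹ • x)) x := by
  obtain ⟨k, hk⟩ := perz_point x
  rw [hk _ (ge_PS P τ), hk _ (PS_mul_right (XN1_PS n))]
  have h1 : ∀ j, perz (fun x => D2 j x * P.Q ((Real.sqrt τ)⁻¹ • x)) x =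
    (fun x => D2 j x * P.Q ((Real.sqrt τ)⁻¹ • x)) (x - (2 * Real.pi) • zv k) := fun j =>
    hk _ (PS_mul_right (D2_PS j))
  have h2 : ∀ j, perz (fun x => D1 j x * fderiv ℝ P.Q ((Real.sqrt τ)⁻¹ • x) (ei j)) x =
    (fun x => D1 j x * fderiv ℝ P.Q ((Real.sqrt τ)⁻¹ • x) (ei j)) (x - (2 * Real.pi) • zv k) :=
    fun j => hk _ (PS_mul_right (D1_PS j))
  simp only [h1, h2]
  rfl

lemma wn_sum_le (hTN : TN) {ι : Type*} (s : Finset ι) (f : ι → R12 → ℂ)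
    (hf : ∀ i ∈ s, IsSmoothPeriodic (f i)) (N : ℕ) {h : ℝ} (hh : 0 ≤ h) :
    wn N h (fun x => ∑ i ∈ s, f i x) ≤ ∑ i ∈ s, wn N h (f i) := by
  classical
  induction s using Finset.induction_on with
  | empty => simp [TB.wn_zero]
  | insert a s ha ih =>
    simp only [Finset.sum_insert ha]
    have h1 : IsSmoothPeriodic (f a) := hf a (Finset.mem_insert_self _ _)
    have h2 : IsSmoothPeriodic fun x => ∑ i ∈ s, f i x :=
      TB.sp_sum s fun i hi => hf i (Finset.mem_insert_of_mem hi)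
    exact (hTN.wn_add _ _ h1 h2 N h hh).trans
      (add_le_add le_rfl (ih fun i hi => hf i (Finset.mem_insert_of_mem hi)))

lemma ge_bound (hTN : TN) (hA : AnnStmt) (N : ℕ) : ∃ C : ℝ, 0 ≤ C ∧ ∀ τ : ℝ, 0 < τ → τ ≤ 1 →
    wn N 1 (perz (ge P τ)) ≤ C * τ := by
  have hn := P.n_pos
  have hδ := P.delta_pos
  have near : ∀ {f : R12 → ℂ}, (∀ x : R12, ‖x‖ < 1 → f x = 0) →
      ∃ r : ℝ, 0 < r ∧ ∀ x : R12, ‖x‖ ≤ r → f x = 0 := fun hf =>
    ⟨1 / 2, by norm_num, fun x hx => hf x (by linarith)⟩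
  have A2 := fun j => hA (D2 j) (D2_smooth j) (D2_PS j) (near (D2_zero j)) (2 / n) hδ P.Q P.symQ N
  have A1 := fun j => hA (D1 j) (D1_smooth j) (D1_PS j) (near (D1_zero j)) (2 / n + 1)
    (by linarith) _ (P.symLap_fderiv j) N
  obtain ⟨C3, hC3, A3⟩ := hA (XN1 n) (XN1_smooth n) (XN1_PS n) (near (XN1_zero n)) (2 / n + 2)
    (by linarith) _ P.symNN N
  choose C2 hC2 A2 using A2
  choose C1 hC1 A1 using A1
  refine ⟨(∑ j, C2 j) + 2 * (∑ j, C1 j) + C3, by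
    have := Finset.sum_nonneg fun j (_ : j ∈ Finset.univ) => hC2 j
    have := Finset.sum_nonneg fun j (_ : j ∈ Finset.univ) => hC1 j
    positivity, fun τ hτ hτ1 => ?_⟩
  have sp2 : ∀ j, IsSmoothPeriodic (perz fun x => D2 j x * P.Q ((Real.sqrt τ)⁻¹ • x)) := fun j =>
    isSmoothPeriodic_perz ((D2_smooth j).mul (smooth_scale P.smooth _)) (PS_mul_right (D2_PS j))
  have sp1 : ∀ j, IsSmoothPeriodic (perz fun x => D1 j x * fderiv ℝ P.Q ((Real.sqrt τ)⁻¹ • x) (ei j)) :=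
    fun j => isSmoothPeriodic_perz ((D1_smooth j).mul (smooth_scale (smooth_fderiv P.smooth j) _))
      (PS_mul_right (D1_PS j))
  have sp3 : IsSmoothPeriodic (perz fun x => XN1 n x * NQ P ((Real.sqrt τ)⁻¹ • x)) :=
    isSmoothPeriodic_perz ((XN1_smooth n).mul (smooth_scale P.symNN.1 _)) (PS_mul_right (XN1_PS n))
  have hfun : perz (ge P τ) = fun x => (I * (τ : ℂ) *
      (∑ j : Fin 12, perz (fun x => D2 j x * P.Q ((Real.sqrt τ)⁻¹ • x)) x) +
    2 * I * ((Real.sqrt τ : ℝ) : ℂ) *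
      (∑ j : Fin 12, perz (fun x => D1 j x * fderiv ℝ P.Q ((Real.sqrt τ)⁻¹ • x) (ei j)) x)) +
    I * perz (fun x => XN1 n x * NQ P ((Real.sqrt τ)⁻¹ • x)) x := funext fun x => perz_ge P τ x
  rw [hfun]
  have spA := TB.sp_cmul (TB.sp_sum Finset.univ fun j (_ : j ∈ Finset.univ) => sp2 j) (I * (τ : ℂ))
  have spB := TB.sp_cmul (TB.sp_sum Finset.univ fun j (_ : j ∈ Finset.univ) => sp1 j)
    (2 * I * ((Real.sqrt τ : ℝ) : ℂ))
  have spC := TB.sp_cmul sp3 I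
  refine (hTN.wn_add _ _ (TB.sp_add spA spB) spC N 1 zero_le_one).trans ?_
  have hA' := hTN.wn_add _ _ spA spB N 1 zero_le_one
  have e1 : τ ^ ((2 / (n : ℝ)) / 2) ≤ 1 := Real.rpow_le_one hτ.le hτ1 (by positivity)
  have e2 : τ ^ ((2 / (n : ℝ) + 1) / 2) ≤ Real.sqrt τ := by
    rw [Real.sqrt_eq_rpow]
    exact Real.rpow_le_rpow_of_exponent_ge hτ hτ1 (by linarith)
  have e3 : τ ^ ((2 / (n : ℝ) + 2) / 2) ≤ τ := by
    conv_rhs => rw [← Real.rpow_one τ]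
    exact Real.rpow_le_rpow_of_exponent_ge hτ hτ1 (by linarith)
  have b1 : wn N 1 (fun x => I * (τ : ℂ) *
      (∑ j : Fin 12, perz (fun x => D2 j x * P.Q ((Real.sqrt τ)⁻¹ • x)) x)) ≤ (∑ j, C2 j) * τ := by
    rw [hTN.wn_smul]
    have h1 := wn_sum_le hTN Finset.univ _ (fun j _ => sp2 j) N zero_le_one (h := 1)
    have h2 : ∑ j : Fin 12, wn N 1 (perz fun x => D2 j x * P.Q ((Real.sqrt τ)⁻¹ • x)) ≤ ∑ j, C2 j :=
      Finset.sum_le_sum fun j _ => (A2 j τ hτ hτ1).trans (by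
        have := mul_le_mul_of_nonneg_left e1 (hC2 j)
        linarith)
    have h3 : ‖I * (τ : ℂ)‖ = τ := by
      rw [norm_mul, Complex.norm_I, one_mul, Complex.norm_real, Real.norm_of_nonneg hτ.le]
    rw [h3, mul_comm]
    exact mul_le_mul_of_nonneg_right (h1.trans h2) hτ.le
  have b2 : wn N 1 (fun x => 2 * I * ((Real.sqrt τ : ℝ) : ℂ) *
      (∑ j : Fin 12, perz (fun x => D1 j x * fderiv ℝ P.Q ((Real.sqrt τ)⁻¹ • x) (ei j)) x)) ≤
      2 * (∑ j, C1 j) * τ := by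
    rw [hTN.wn_smul]
    have h1 := wn_sum_le hTN Finset.univ _ (fun j _ => sp1 j) N zero_le_one (h := 1)
    have h2 : ∑ j : Fin 12, wn N 1
        (perz fun x => D1 j x * fderiv ℝ P.Q ((Real.sqrt τ)⁻¹ • x) (ei j)) ≤
        (∑ j, C1 j) * Real.sqrt τ := by
      rw [Finset.sum_mul]
      exact Finset.sum_le_sum fun j _ => (A1 j τ hτ hτ1).trans
        (mul_le_mul_of_nonneg_left e2 (hC1 j))
    have h3 : ‖2 * I * ((Real.sqrt τ : ℝ) : ℂ)‖ = 2 * Real.sqrt τ := by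
      rw [norm_mul, norm_mul, Complex.norm_I, mul_one, Complex.norm_real,
        Real.norm_of_nonneg (Real.sqrt_nonneg _)]
      simp
    rw [h3]
    calc 2 * Real.sqrt τ * wn N 1 (fun x => ∑ j : Fin 12,
            perz (fun x => D1 j x * fderiv ℝ P.Q ((Real.sqrt τ)⁻¹ • x) (ei j)) x)
          ≤ 2 * Real.sqrt τ * ((∑ j, C1 j) * Real.sqrt τ) :=
          mul_le_mul_of_nonneg_left (h1.trans h2) (by positivity)
      _ = 2 * (∑ j, C1 j) * (Real.sqrt τ * Real.sqrt τ) := by ring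
      _ = 2 * (∑ j, C1 j) * τ := by rw [Real.mul_self_sqrt hτ.le]
  have b3 : wn N 1 (fun x => I * perz (fun x => XN1 n x * NQ P ((Real.sqrt τ)⁻¹ • x)) x) ≤ C3 * τ := by
    rw [hTN.wn_smul, Complex.norm_I, one_mul]
    exact (A3 τ hτ hτ1).trans (mul_le_mul_of_nonneg_left e3 hC3)
  calc _ ≤ _ := add_le_add (hA'.trans (add_le_add b1 b2)) b3
    _ = _ := by ring

/-! ### the equation -/

lemma PS_cpt {f : R12 → ℂ} (h : PS f) : HasCompactSupport f :=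
  HasCompactSupport.intro (isCompact_closedBall (0 : R12) 2) fun x hx => h x (by
    rw [Metric.mem_closedBall, dist_zero_right, not_le] at hx; exact hx.le)

lemma FF0 (φ f : R12 → ℂ) (τ : ℝ) (k : Z12) :
    FF 0 φ f τ k = fc (fun x => φ x * f ((Real.sqrt τ)⁻¹ • x)) k := by
  unfold FF SS
  simp only [cpow_zero, one_mul]

lemma cont_scale {f : R12 → ℂ} (hf : Continuous f) (c : ℝ) : Continuous fun x : R12 => f (c • x) := by
  fun_prop

lemma fc_ge (τ : ℝ) (k : Z12) : fc (ge P τ) k =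
    I * (τ : ℂ) * (∑ j : Fin 12, FF 0 (D2 j) P.Q τ k) +
    2 * I * ((Real.sqrt τ : ℝ) : ℂ) *
      (∑ j : Fin 12, FF 0 (D1 j) (fun y => fderiv ℝ P.Q y (ei j)) τ k) +
    I * fc (fun x => XN1 n x * NQ P ((Real.sqrt τ)⁻¹ • x)) k := by
  have cQ := cont_scale P.smooth.continuous (Real.sqrt τ)⁻¹
  have cdQ := fun j : Fin 12 => cont_scale (smooth_fderiv P.smooth j).continuous (Real.sqrt τ)⁻¹
  have cNQ := cont_scale P.symNN.1.continuous (Real.sqrt τ)⁻¹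
  have c2 : ∀ j, Continuous fun x => D2 j x * P.Q ((Real.sqrt τ)⁻¹ • x) := fun j =>
    (D2_smooth j).continuous.mul cQ
  have c1 : ∀ j, Continuous fun x => D1 j x * fderiv ℝ P.Q ((Real.sqrt τ)⁻¹ • x) (ei j) := fun j =>
    (D1_smooth j).continuous.mul (cdQ j)
  have c3 : Continuous fun x => XN1 n x * NQ P ((Real.sqrt τ)⁻¹ • x) :=
    (XN1_smooth n).continuous.mul cNQ
  have p2 : ∀ j, HasCompactSupport fun x => D2 j x * P.Q ((Real.sqrt τ)⁻¹ • x) := fun j =>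
    PS_cpt (PS_mul_right (D2_PS j))
  have p1 : ∀ j, HasCompactSupport fun x =>
      D1 j x * fderiv ℝ P.Q ((Real.sqrt τ)⁻¹ • x) (ei j) := fun j => PS_cpt (PS_mul_right (D1_PS j))
  have p3 : HasCompactSupport fun x => XN1 n x * NQ P ((Real.sqrt τ)⁻¹ • x) :=
    PS_cpt (PS_mul_right (XN1_PS n))
  have pA : PS fun x => I * (τ : ℂ) * (∑ j : Fin 12, D2 j x * P.Q ((Real.sqrt τ)⁻¹ • x)) :=
    fun x hx => by simp [D2_PS _ x hx]
  have pB : PS fun x => 2 * I * ((Real.sqrt τ : ℝ) : ℂ) *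
      (∑ j : Fin 12, D1 j x * fderiv ℝ P.Q ((Real.sqrt τ)⁻¹ • x) (ei j)) :=
    fun x hx => by simp [D1_PS _ x hx]
  have pC : PS fun x => I * (XN1 n x * NQ P ((Real.sqrt τ)⁻¹ • x)) :=
    fun x hx => by simp [XN1_PS n x hx]
  have pAB : PS fun x => I * (τ : ℂ) * (∑ j : Fin 12, D2 j x * P.Q ((Real.sqrt τ)⁻¹ • x)) +
      2 * I * ((Real.sqrt τ : ℝ) : ℂ) *
      (∑ j : Fin 12, D1 j x * fderiv ℝ P.Q ((Real.sqrt τ)⁻¹ • x) (ei j)) :=
    fun x hx => by simp [D2_PS _ x hx, D1_PS _ x hx]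
  have cA : Continuous fun x => I * (τ : ℂ) * (∑ j : Fin 12, D2 j x * P.Q ((Real.sqrt τ)⁻¹ • x)) :=
    continuous_const.mul (continuous_finsetSum _ fun j _ => c2 j)
  have cB : Continuous fun x => 2 * I * ((Real.sqrt τ : ℝ) : ℂ) *
      (∑ j : Fin 12, D1 j x * fderiv ℝ P.Q ((Real.sqrt τ)⁻¹ • x) (ei j)) :=
    continuous_const.mul (continuous_finsetSum _ fun j _ => c1 j)
  have cC : Continuous fun x => I * (XN1 n x * NQ P ((Real.sqrt τ)⁻¹ • x)) :=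
    continuous_const.mul c3
  have cAB : Continuous fun x => I * (τ : ℂ) * (∑ j : Fin 12, D2 j x * P.Q ((Real.sqrt τ)⁻¹ • x)) +
      2 * I * ((Real.sqrt τ : ℝ) : ℂ) *
      (∑ j : Fin 12, D1 j x * fderiv ℝ P.Q ((Real.sqrt τ)⁻¹ • x) (ei j)) := cA.add cB
  have h1 : fc (ge P τ) k = _ := fc_add cAB (PS_cpt pAB) cC (PS_cpt pC) k
  rw [h1, fc_add cA (PS_cpt pA) cB (PS_cpt pB), fc_const_mul, fc_const_mul, fc_const_mul,
    fc_sum _ _ (fun j _ => c2 j) (fun j _ => p2 j), fc_sum _ _ (fun j _ => c1 j) (fun j _ => p1 j)]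
  simp only [FF0]

lemma nl_X0 (τ : ℝ) (x : R12) : nl n (X0 x * P.Q ((Real.sqrt τ)⁻¹ • x)) =
    X0 x ^ (n + 1) * NQ P ((Real.sqrt τ)⁻¹ • x) := by
  unfold nl NQ X0
  rw [norm_mul, Complex.norm_real, Real.norm_of_nonneg chi0.nonneg, mul_pow]
  push_cast
  ring

lemma fc_NQ (τ : ℝ) (k : Z12) : fc (fun x => XN1 n x * NQ P ((Real.sqrt τ)⁻¹ • x)) k =
    FF 0 X0 (NQ P) τ k - fc (fun x => nl n (X0 x * P.Q ((Real.sqrt τ)⁻¹ • x))) k := by
  have cNQ : Continuous fun x => NQ P ((Real.sqrt τ)⁻¹ • x) :=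
    cont_scale P.symNN.1.continuous (Real.sqrt τ)⁻¹
  have cA : Continuous fun x => X0 x * NQ P ((Real.sqrt τ)⁻¹ • x) := X0_smooth.continuous.mul cNQ
  have cB : Continuous fun x => (-1) * (X0 x ^ (n + 1) * NQ P ((Real.sqrt τ)⁻¹ • x)) :=
    continuous_const.mul ((X0_smooth.continuous.pow _).mul cNQ)
  have e : (fun x => XN1 n x * NQ P ((Real.sqrt τ)⁻¹ • x)) = fun x =>
      X0 x * NQ P ((Real.sqrt τ)⁻¹ • x) + (-1) * (X0 x ^ (n + 1) * NQ P ((Real.sqrt τ)⁻¹ • x)) := by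
    funext x; unfold XN1; ring
  have pA : PS fun x => X0 x * NQ P ((Real.sqrt τ)⁻¹ • x) := PS_mul_right X0_PS
  have pB : PS fun x => (-1) * (X0 x ^ (n + 1) * NQ P ((Real.sqrt τ)⁻¹ • x)) := fun x hx => by
    simp [X0_PS x hx]
  rw [e, fc_add cA (PS_cpt pA) cB (PS_cpt pB), fc_const_mul, FF0]
  have e2 : (fun x => nl n (X0 x * P.Q ((Real.sqrt τ)⁻¹ • x))) =
      fun x => X0 x ^ (n + 1) * NQ P ((Real.sqrt τ)⁻¹ • x) := funext fun x => nl_X0 P τ x
  rw [e2]; ring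

lemma qt_eq (τ : ℝ) : P.qt τ = perz fun x => X0 x * P.Q ((Real.sqrt τ)⁻¹ • x) := rfl

lemma cf_qt (hC : CfPerz) (τ : ℝ) (k : Z12) : Crest.Agent.R086.cf (P.qt τ) k = FF 0 X0 P.Q τ k := by
  rw [qt_eq, hC _ (X0_smooth.mul (smooth_scale P.smooth _)) (PS_mul_right X0_PS), FF0]

lemma cf_nlqt (hC : CfPerz) (τ : ℝ) (k : Z12) :
    Crest.Agent.R086.cf (fun x => nl n (P.qt τ x)) k =
      fc (fun x => nl n (X0 x * P.Q ((Real.sqrt τ)⁻¹ • x))) k := by
  have hps : PS fun x => X0 x * P.Q ((Real.sqrt τ)⁻¹ • x) := PS_mul_right X0_PS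
  have e : (fun x => nl n (P.qt τ x)) =
      perz fun x => nl n (X0 x * P.Q ((Real.sqrt τ)⁻¹ • x)) := by
    funext x
    rw [perz_nl n hps, qt_eq]
  rw [e]
  refine hC _ ?_ ?_ k
  · have e2 : (fun x => nl n (X0 x * P.Q ((Real.sqrt τ)⁻¹ • x))) =
      fun x => X0 x ^ (n + 1) * NQ P ((Real.sqrt τ)⁻¹ • x) := funext fun x => nl_X0 P τ x
    rw [e2]
    exact (X0_smooth.pow _).mul (smooth_scale P.symNN.1 _)
  · intro x hx
    simp [nl, X0_PS x hx]

lemma nk_sq (k : Z12) : nk k ^ 2 = ksq k := (ksq_eq k).symm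

/-- the profile equation, tested with the cut-off -/
lemma FF_lap (τ : ℝ) (k : Z12) : FF 0 X0 (lap P.Q) τ k =
    FF 0 X0 (NQ P) τ k - (I / 2) * FF 0 X0 (eul P.Q) τ k -
      ((P.om : ℂ) + I / n) * FF 0 X0 P.Q τ k := by
  have hcN : Continuous (NQ P) := P.symNN.1.continuous
  have hcE : Continuous (eul P.Q) := (smooth_eul P.smooth).continuous
  have hcQ := P.smooth.continuous
  have c1 : Continuous fun y => (-(I / 2)) * eul P.Q y := continuous_const.mul hcE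
  have c2 : Continuous fun y => (-((P.om : ℂ) + I / n)) * P.Q y := continuous_const.mul hcQ
  have c3 : Continuous fun y => (-(I / 2)) * eul P.Q y + (-((P.om : ℂ) + I / n)) * P.Q y :=
    c1.add c2
  have e : lap P.Q = fun y => NQ P y + ((-(I / 2)) * eul P.Q y +
      (-((P.om : ℂ) + I / n)) * P.Q y) := by
    funext y
    have h := P.eqn y
    unfold NQ
    rw [← h]; ring
  rw [e, FF_add_right X0_cut hcN c3, FF_add_right X0_cut c1 c2, FF_const_right, FF_const_right]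
  ring

theorem tp2_eq (hC : CfPerz) (τ₀ : ℝ) (hτ₀ : 0 < τ₀) (s : ℝ) (k : Z12) :
    HasDerivAt (fun s => Crest.Agent.R086.cf (P.qt (τ₀ * Real.exp (-s))) k)
    ((-(I * ((τ₀ * Real.exp (-s) * nk k ^ 2 : ℝ) : ℂ)) + (I * (P.om : ℂ) - 1 / (n : ℂ)))
        * Crest.Agent.R086.cf (P.qt (τ₀ * Real.exp (-s))) k
        - I * Crest.Agent.R086.cf (fun x => nl n (P.qt (τ₀ * Real.exp (-s)) x)) k
      - Crest.Agent.R086.cf (perz (ge P (τ₀ * Real.exp (-s)))) k) s := by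
  set τ : ℝ := τ₀ * Real.exp (-s) with hτdef
  have hτ : 0 < τ := by positivity
  have h1 : HasDerivAt (fun s : ℝ => τ₀ * Real.exp (-s)) (-τ) s := by
    have h2 : HasDerivAt (fun t : ℝ => Real.exp (-t)) (Real.exp (-s) * (-1)) s := by
      have := ((hasDerivAt_id s).neg).exp
      simpa using this
    refine (h2.const_mul τ₀).congr_deriv ?_
    rw [hτdef]; ring
  have h2 := (hasDerivAt_FF (z := 0) X0_cut P.smooth hτ k)
  have h3 : HasDerivAt (fun s => FF 0 X0 P.Q (τ₀ * Real.exp (-s)) k)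
      (((-τ : ℝ) : ℂ) * (-((τ⁻¹ : ℝ) : ℂ) * FF 0 X0 (Dz 0 P.Q) τ k)) s := by
    have h5 := HasDerivAt.scomp s h2 h1
    exact h5.congr_deriv (by rw [Complex.real_smul])
  have h4 : (fun s => Crest.Agent.R086.cf (P.qt (τ₀ * Real.exp (-s))) k) =
      fun s => FF 0 X0 P.Q (τ₀ * Real.exp (-s)) k := funext fun s => cf_qt P hC _ k
  rw [h4]
  refine h3.congr_deriv ?_
  have hτc : (τ : ℂ) ≠ 0 := by exact_mod_cast hτ.ne'
  have hDz : FF 0 X0 (Dz 0 P.Q) τ k = (1 / 2) * FF 0 X0 (eul P.Q) τ k := by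
    have e : Dz 0 P.Q = fun y => (1 / 2) * eul P.Q y := by
      funext y; unfold Dz; ring
    rw [e, FF_const_right]
  have hL : (((-τ : ℝ) : ℂ) * (-((τ⁻¹ : ℝ) : ℂ) * FF 0 X0 (Dz 0 P.Q) τ k)) =
      (1 / 2) * FF 0 X0 (eul P.Q) τ k := by
    rw [hDz]; push_cast; field_simp
  rw [hL, cf_qt P hC, cf_nlqt P hC, hC _ (ge_smooth P τ) (ge_PS P τ), fc_ge, fc_NQ]
  have hk := FF_ksq (z := 0) X0_cut P.smooth hτ k
  rw [FF_lap] at hk
  have hs : (τ : ℂ) * (((Real.sqrt τ)⁻¹ : ℝ) : ℂ) = ((Real.sqrt τ : ℝ) : ℂ) := by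
    have hr : Real.sqrt τ ≠ 0 := (Real.sqrt_pos.2 hτ).ne'
    have : τ * (Real.sqrt τ)⁻¹ = Real.sqrt τ := by
      have h5 := Real.mul_self_sqrt hτ.le
      field_simp
      nlinarith
    exact_mod_cast this
  have hi : (τ : ℂ) * ((τ⁻¹ : ℝ) : ℂ) = 1 := by push_cast; exact mul_inv_cancel₀ hτc
  have e1 : -(I * ((τ * nk k ^ 2 : ℝ) : ℂ)) * FF 0 X0 P.Q τ k =
      I * (τ : ℂ) * (-((ksq k : ℝ) : ℂ) * FF 0 X0 P.Q τ k) := by
    rw [nk_sq]; push_cast; ring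
  rw [add_mul, e1, hk]
  have hD1 : ∀ j : Fin 12, (fun x => fderiv ℝ X0 x (ei j)) = D1 j := fun j => rfl
  have hD2 : ∀ j : Fin 12, (fun x => fderiv ℝ (fun x => fderiv ℝ X0 x (ei j)) x (ei j)) = D2 j :=
    fun j => rfl
  simp only [hD1]
  have hD2' : ∀ j : Fin 12, (fun x => fderiv ℝ (D1 j) x (ei j)) = D2 j := fun j => rfl
  simp only [hD2']
  generalize (∑ j : Fin 12, FF 0 (D2 j) P.Q τ k) = A
  generalize (∑ j : Fin 12, FF 0 (D1 j) (fun y => fderiv ℝ P.Q y (ei j)) τ k) = B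
  generalize FF 0 X0 (NQ P) τ k = Cc
  generalize FF 0 X0 (eul P.Q) τ k = E
  generalize FF 0 X0 P.Q τ k = Qc
  generalize fc (fun x => nl n (X0 x * P.Q ((Real.sqrt τ)⁻¹ • x))) k = M
  have hI : I * I = -1 := I_mul_I
  linear_combination (-2 * I * B) * hs - I * (Cc - I / 2 * E - ((P.om : ℂ) + I / n) * Qc) * hi
    + (1 / 2 * E + Qc / n) * hI

end prof

/-- NODE TP2 from the unfolding and the annulus bound. -/
theorem tp2_of (hTN : TN) (hA : AnnStmt) (hC : CfPerz) {n : ℕ} (P : Profile n) : TP2 P := by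
  refine ⟨fun τ => perz (ge P τ), fun τ _ => isSmoothPeriodic_perz (ge_smooth P τ) (ge_PS P τ),
    fun N => ge_bound P hTN hA N, fun τ₀ hτ₀ s k => tp2_eq P hC τ₀ hτ₀ s k⟩

theorem annStmt : AnnStmt := by
  intro ψ hψ hPS hr δ hδ G hG N
  obtain ⟨r, hr, h0⟩ := hr
  obtain ⟨C, hC0, hC⟩ := ann_wn hδ.le hψ hPS hr h0 hG N
  exact ⟨C, hC0, fun τ hτ _ => hC τ hτ⟩

theorem cfPerz : CfPerz := by
  intro f hf hPS k
  rw [PZ.cf_perz hf.continuous (fun z hz => hPS z (by linarith)) k]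
  unfold fc cst
  congr 1
  refine integral_congr_ae (Eventually.of_forall fun x => ?_)
  simp only [PF.em]
  rw [mul_comm]
  rfl

theorem tn : TN := TNl.tn_of tf1 tf2

/-- NODE TP2. -/
theorem tp2 {n : ℕ} (P : Profile n) : TP2 P := tp2_of tn annStmt cfPerz P

end Crest.Agent.R086.TP
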