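import Mathlib

/-!
Row 86, part D, torus side (helper327), file A.
Fourier series of continuous / smooth `2π`-periodic functions on `EuclideanSpace ℝ (Fin d)`.
-/

set_option autoImplicit false

noncomputable section

open scoped BigOperators ComplexConjugate ContDiff ENNReal
open Filter MeasureTheory Complex

namespace Crest.Agent.R086.Tor

/-- normalised measure on `ℝ / ℤ`. -/
local instance : MeasureSpace UnitAddCircle := ⟨AddCircle.haarAddCircle⟩
local instance : Measure.IsAddHaarMeasure (volume : Measure UnitAddCircle) :=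
  inferInstanceAs (Measure.IsAddHaarMeasure AddCircle.haarAddCircle)
local instance : IsProbabilityMeasure (volume : Measure UnitAddCircle) :=
  inferInstanceAs (IsProbabilityMeasure AddCircle.haarAddCircle)

variable {d : ℕ}

/-- integer frequency as a vector. -/
def kv (k : Fin d → ℤ) : EuclideanSpace ℝ (Fin d) := WithLp.toLp 2 fun i => (k i : ℝ)

@[simp] lemma kv_apply (k : Fin d → ℤ) (i : Fin d) : kv k i = (k i : ℝ) := rfl

lemma kv_add (k l : Fin d → ℤ) : kv (k + l) = kv k + kv l := by
  ext i; simp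

lemma kv_neg (k : Fin d → ℤ) : kv (-k) = - kv k := by
  ext i; simp

@[simp] lemma kv_zero : kv (0 : Fin d → ℤ) = 0 := by
  ext i; simp

lemma kv_sub (k l : Fin d → ℤ) : kv (k - l) = kv k - kv l := by
  rw [sub_eq_add_neg, kv_add, kv_neg, sub_eq_add_neg]

/-- the weight `1 + |k|`. -/
def wt (k : Fin d → ℤ) : ℝ := 1 + ‖kv k‖

lemma one_le_wt (k : Fin d → ℤ) : 1 ≤ wt k := by unfold wt; linarith [norm_nonneg (kv k)]
lemma wt_pos (k : Fin d → ℤ) : 0 < wt k := lt_of_lt_of_le one_pos (one_le_wt k)
lemma wt_neg (k : Fin d → ℤ) : wt (-k) = wt k := by simp [wt, kv_neg]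

lemma wt_add_le (k l : Fin d → ℤ) : wt (k + l) ≤ wt k * wt l := by
  unfold wt
  rw [kv_add]
  have := norm_add_le (kv k) (kv l)
  nlinarith [norm_nonneg (kv k), norm_nonneg (kv l), mul_nonneg (norm_nonneg (kv k)) (norm_nonneg (kv l))]

lemma abs_le_wt (k : Fin d → ℤ) (i : Fin d) : |(k i : ℝ)| ≤ ‖kv k‖ := by
  have := PiLp.norm_apply_le (kv k) i
  simpa using this

/-- the character `exp(i k·x)`. -/
def ek (k : Fin d → ℤ) (x : EuclideanSpace ℝ (Fin d)) : ℂ :=
  Complex.exp (I * ((inner ℝ (kv k) x : ℝ) : ℂ))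

lemma ek_eq (k : Fin d → ℤ) (x : EuclideanSpace ℝ (Fin d)) :
    ek k x = Complex.exp (((inner ℝ (kv k) x : ℝ) : ℂ) * I) := by
  unfold ek; rw [mul_comm]

lemma inner_kv (k : Fin d → ℤ) (x : EuclideanSpace ℝ (Fin d)) :
    inner ℝ (kv k) x = ∑ i, (k i : ℝ) * x i := by
  rw [PiLp.inner_apply]
  refine Finset.sum_congr rfl fun i _ => ?_
  simp [kv, mul_comm]

@[simp] lemma norm_ek (k : Fin d → ℤ) (x : EuclideanSpace ℝ (Fin d)) : ‖ek k x‖ = 1 := by
  rw [ek_eq, Complex.norm_exp_ofReal_mul_I]

lemma ek_add (k l : Fin d → ℤ) (x : EuclideanSpace ℝ (Fin d)) :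
    ek (k + l) x = ek k x * ek l x := by
  unfold ek
  rw [← Complex.exp_add, kv_add, inner_add_left]
  congr 1; push_cast; ring

lemma ek_zero (x : EuclideanSpace ℝ (Fin d)) : ek (0 : Fin d → ℤ) x = 1 := by
  simp [ek]

lemma ek_neg (k : Fin d → ℤ) (x : EuclideanSpace ℝ (Fin d)) : ek (-k) x = conj (ek k x) := by
  rw [ek_eq, ek_eq, ← Complex.exp_conj]
  congr 1
  rw [map_mul, Complex.conj_ofReal, Complex.conj_I, kv_neg, inner_neg_left]
  push_cast; ring

lemma ek_arg_add (k : Fin d → ℤ) (x y : EuclideanSpace ℝ (Fin d)) :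
    ek k (x + y) = ek k x * ek k y := by
  unfold ek
  rw [← Complex.exp_add, inner_add_right]
  congr 1; push_cast; ring

lemma contDiff_ek (k : Fin d → ℤ) : ContDiff ℝ ∞ (ek (d := d) k) := by
  unfold ek
  refine ContDiff.cexp ?_
  refine contDiff_const.mul ?_
  exact Complex.ofRealCLM.contDiff.comp (contDiff_const.inner ℝ contDiff_id)

lemma continuous_ek (k : Fin d → ℤ) : Continuous (ek (d := d) k) := (contDiff_ek k).continuous

/-- `2π`-periodicity in every coordinate. -/
def Per {E : Type*} (v : EuclideanSpace ℝ (Fin d) → E) : Prop :=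
  ∀ x : EuclideanSpace ℝ (Fin d), ∀ i : Fin d, v (x + EuclideanSpace.single i (2 * Real.pi)) = v x

lemma ek_per (k : Fin d → ℤ) : Per (ek (d := d) k) := by
  intro x i
  rw [ek_arg_add]
  have : ek k (EuclideanSpace.single i (2 * Real.pi)) = 1 := by
    rw [ek_eq, inner_kv]
    have h : ∑ j, (k j : ℝ) * (EuclideanSpace.single i (2 * Real.pi) : EuclideanSpace ℝ (Fin d)) j
        = (k i : ℝ) * (2 * Real.pi) := by
      rw [Finset.sum_eq_single i]
      · simp
      · intro j _ hj; simp [hj]
      · simp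
    rw [h]
    have := Complex.exp_int_mul_two_pi_mul_I (k i)
    rw [← this]; congr 1; push_cast; ring
  rw [this, mul_one]

section per
variable {E : Type*} {v : EuclideanSpace ℝ (Fin d) → E}

lemma Per.sub_single (hv : Per v) (x : EuclideanSpace ℝ (Fin d)) (i : Fin d) (m : ℤ) :
    v (x + EuclideanSpace.single i (2 * Real.pi * m)) = v x := by
  have h : Function.Periodic v (EuclideanSpace.single i (2 * Real.pi)) := fun x => hv x i
  have h2 := h.zsmul m x
  rw [← h2]; congr 2
  ext j
  by_cases hj : j = i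
  · subst hj; simp [mul_comm]
  · simp [hj]

lemma Per.add_int (hv : Per v) (m : Fin d → ℤ) (x : EuclideanSpace ℝ (Fin d)) :
    v (x + (2 * Real.pi) • kv m) = v x := by
  classical
  have key : ∀ s : Finset (Fin d),
      v (x + ∑ i ∈ s, EuclideanSpace.single i (2 * Real.pi * (m i : ℝ))) = v x := by
    intro s
    induction s using Finset.induction_on with
    | empty => simp
    | insert a s ha ih =>
      rw [Finset.sum_insert ha, add_comm (EuclideanSpace.single a _), ← add_assoc,
        hv.sub_single, ih]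
  have h := key Finset.univ
  rw [← h]; congr 2
  ext j
  simp [Finset.sum_apply]

end per

/-- projection of `ℝ^d` to the unit torus. -/
def prj (x : Fin d → ℝ) : UnitAddTorus (Fin d) := fun i => ((x i : ℝ) : UnitAddCircle)

lemma prj_quot : IsOpenQuotientMap (prj (d := d)) := by
  have h : IsOpenQuotientMap (fun x : ℝ => (x : UnitAddCircle)) := by
    exact QuotientAddGroup.isOpenQuotientMap_mk
  exact IsOpenQuotientMap.piMap (fun _ : Fin d => h)

/-- representative in `(0,1]^d`. -/
def rep (t : UnitAddTorus (Fin d)) : Fin d → ℝ :=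
  fun i => ((AddCircle.equivIoc (1 : ℝ) 0 (t i) : Set.Ioc _ _) : ℝ)

lemma prj_rep (t : UnitAddTorus (Fin d)) : prj (rep t) = t := by
  funext i
  exact AddCircle.coe_equivIoc

/-- the scaled point `2π x`. -/
def sc (x : Fin d → ℝ) : EuclideanSpace ℝ (Fin d) := WithLp.toLp 2 fun i => 2 * Real.pi * x i

lemma continuous_sc : Continuous (sc (d := d)) := by
  unfold sc
  refine (PiLp.continuous_toLp 2 _).comp ?_
  fun_prop

section torus
variable {E : Type*} {v : EuclideanSpace ℝ (Fin d) → E}

/-- function on the torus associated with a periodic function. -/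
def tf (v : EuclideanSpace ℝ (Fin d) → E) (t : UnitAddTorus (Fin d)) : E := v (sc (rep t))

lemma exists_int (x : Fin d → ℝ) :
    ∃ m : Fin d → ℤ, sc x = sc (rep (prj x)) + (2 * Real.pi) • kv m := by
  have h : ∀ i, ∃ m : ℤ, x i = rep (prj x) i + m := by
    intro i
    have h1 : ((rep (prj x) i : ℝ) : UnitAddCircle) = ((x i : ℝ) : UnitAddCircle) :=
      congrFun (prj_rep (prj x)) i
    have h2 : ((x i - rep (prj x) i : ℝ) : UnitAddCircle) = 0 := by
      rw [AddCircle.coe_sub, h1, sub_self]
    obtain ⟨m, hm⟩ := (AddCircle.coe_eq_zero_iff (1 : ℝ)).1 h2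
    refine ⟨m, ?_⟩
    have : (m : ℝ) = x i - rep (prj x) i := by simpa using hm
    linarith
  choose m hm using h
  refine ⟨m, ?_⟩
  ext i
  have h3 := hm i
  simp only [sc, PiLp.add_apply, PiLp.smul_apply, kv_apply, smul_eq_mul]
  rw [← mul_add, ← h3]

lemma tf_prj (hv : Per v) (x : Fin d → ℝ) : tf v (prj x) = v (sc x) := by
  obtain ⟨m, hm⟩ := exists_int x
  unfold tf
  rw [hm, hv.add_int]

lemma continuous_tf [TopologicalSpace E] (hv : Per v) (hc : Continuous v) : Continuous (tf v) := by
  rw [prj_quot.isQuotientMap.continuous_iff]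
  have : tf v ∘ prj = fun x => v (sc x) := by
    funext x; exact tf_prj hv x
  rw [this]
  exact hc.comp continuous_sc

lemma mFourier_prj (k : Fin d → ℤ) (x : Fin d → ℝ) :
    UnitAddTorus.mFourier k (prj x) = ek k (sc x) := by
  unfold prj ek sc UnitAddTorus.mFourier
  simp only [ContinuousMap.coe_mk]
  rw [inner_kv]
  push_cast
  rw [Finset.mul_sum, Complex.exp_sum]
  refine Finset.prod_congr rfl fun i _ => ?_
  rw [fourier_coe_apply]
  congr 1
  push_cast
  ring

lemma tf_ek (k : Fin d → ℤ) (t : UnitAddTorus (Fin d)) :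
    tf (ek k) t = UnitAddTorus.mFourier k t := by
  obtain ⟨x, rfl⟩ := prj_quot.surjective t
  rw [tf_prj (ek_per k), mFourier_prj]

/-- the continuous function on the torus. -/
def tfc (v : EuclideanSpace ℝ (Fin d) → ℂ) (hv : Per v) (hc : Continuous v) :
    C(UnitAddTorus (Fin d), ℂ) := ⟨tf v, continuous_tf hv hc⟩

end torus

/-- Fourier coefficient of a `2π`-periodic function. -/
def cf (v : EuclideanSpace ℝ (Fin d) → ℂ) (k : Fin d → ℤ) : ℂ :=
  UnitAddTorus.mFourierCoeff (tf v) k

/-- the half-open unit box. -/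
def ubox : Set (Fin d → ℝ) := {x | ∀ i, x i ∈ Set.Ioc (0 : ℝ) (0 + 1)}

lemma cf_eq_integral {v : EuclideanSpace ℝ (Fin d) → ℂ} (hv : Per v) (k : Fin d → ℤ) :
    cf v k = ∫ x in ubox (d := d), ek (-k) (sc x) * v (sc x) := by
  unfold cf
  rw [UnitAddTorus.mFourierCoeff_eq_integral _ k (fun _ => (0 : ℝ))]
  refine integral_congr_ae (Eventually.of_forall fun x => ?_)
  have h1 : (fun i => ((x i : ℝ) : UnitAddCircle)) = prj x := rfl
  simp only [h1]
  rw [mFourier_prj, tf_prj hv, smul_eq_mul]

/-- Fourier inversion when the coefficients are summable. -/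
theorem hasSum_cf {v : EuclideanSpace ℝ (Fin d) → ℂ} (hv : Per v) (hc : Continuous v)
    (hs : Summable (cf v)) (x : EuclideanSpace ℝ (Fin d)) :
    HasSum (fun k => cf v k * ek k x) (v x) := by
  have h := UnitAddTorus.hasSum_mFourier_series_apply_of_summable (f := tfc v hv hc) hs
  let y : Fin d → ℝ := fun i => x i / (2 * Real.pi)
  have hy : sc y = x := by
    ext i
    simp only [sc, y]
    field_simp
  have h2 := h (prj y)
  have e1 : (tfc v hv hc) (prj y) = v x := by
    show tf v (prj y) = v x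
    rw [tf_prj hv, hy]
  rw [e1] at h2
  have e2 : (fun i => UnitAddTorus.mFourierCoeff (⇑(tfc v hv hc)) i •
      (UnitAddTorus.mFourier i) (prj y)) = fun k => cf v k * ek k x := by
    funext k
    rw [mFourier_prj, hy, smul_eq_mul]; rfl
  rwa [e2] at h2

lemma Per.bdd {E : Type*} [NormedAddCommGroup E] {v : EuclideanSpace ℝ (Fin d) → E}
    (hv : Per v) (hc : Continuous v) : ∃ M, 0 ≤ M ∧ ∀ x, ‖v x‖ ≤ M := by
  have h1 : IsCompact (Set.range fun t => ‖tf v t‖) :=
    isCompact_range (continuous_tf hv hc).norm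
  obtain ⟨M, hM⟩ := h1.bddAbove
  refine ⟨max M 0, le_max_right _ _, fun x => le_trans ?_ (le_max_left _ _)⟩
  let y : Fin d → ℝ := fun i => x i / (2 * Real.pi)
  have hy : sc y = x := by
    ext i
    simp only [sc, y]
    field_simp
  refine hM ⟨prj y, ?_⟩
  show ‖tf v (prj y)‖ = ‖v x‖
  rw [tf_prj hv, hy]

lemma Per.translate {E : Type*} {v : EuclideanSpace ℝ (Fin d) → E} (hv : Per v)
    (y : EuclideanSpace ℝ (Fin d)) : Per (fun x => v (x + y)) := by
  intro x i
  have := hv (x + y) i
  rw [add_right_comm] at this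
  exact this

lemma prj_add (x y : Fin d → ℝ) : prj (x + y) = prj x + prj y := by
  funext i
  simp [prj]

lemma sc_add (x y : Fin d → ℝ) : sc (x + y) = sc x + sc y := by
  ext i
  simp [sc, mul_add]

lemma exists_sc (x : EuclideanSpace ℝ (Fin d)) : ∃ y, sc y = x := by
  refine ⟨fun i => x i / (2 * Real.pi), ?_⟩
  ext i
  simp only [sc]
  field_simp

lemma mFourier_neg_arg (k : Fin d → ℤ) (t : UnitAddTorus (Fin d)) :
    UnitAddTorus.mFourier (-k) (-t) = UnitAddTorus.mFourier k t := by
  obtain ⟨x, rfl⟩ := prj_quot.surjective t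
  have h : - prj x = prj (-x) := by funext i; simp [prj]
  rw [h, mFourier_prj, mFourier_prj]
  have h2 : sc (-x) = - sc x := by ext i; simp [sc]
  rw [h2]
  unfold ek
  rw [kv_neg, inner_neg_left, inner_neg_right, neg_neg]

lemma mFourier_arg_add (k : Fin d → ℤ) (t u : UnitAddTorus (Fin d)) :
    UnitAddTorus.mFourier k (t + u) = UnitAddTorus.mFourier k t * UnitAddTorus.mFourier k u := by
  obtain ⟨x, rfl⟩ := prj_quot.surjective t
  obtain ⟨y, rfl⟩ := prj_quot.surjective u
  rw [← prj_add, mFourier_prj, mFourier_prj, mFourier_prj, sc_add, ek_arg_add]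

lemma cf_translate {v : EuclideanSpace ℝ (Fin d) → ℂ} (hv : Per v)
    (y : EuclideanSpace ℝ (Fin d)) (k : Fin d → ℤ) :
    cf (fun x => v (x + y)) k = ek k y * cf v k := by
  obtain ⟨y', hy'⟩ := exists_sc y
  have h1 : ∀ t, tf (fun x => v (x + y)) t = tf v (t + prj y') := by
    intro t
    obtain ⟨x, rfl⟩ := prj_quot.surjective t
    rw [tf_prj (hv.translate y), ← prj_add, tf_prj hv, sc_add, hy']
  unfold cf UnitAddTorus.mFourierCoeff
  have h2 : (fun t => UnitAddTorus.mFourier (-k) t • tf (fun x => v (x + y)) t) =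
      fun t => (fun u => (UnitAddTorus.mFourier (-k) (u - prj y')) • tf v u) (t + prj y') := by
    funext t
    simp only [add_sub_cancel_right]
    rw [h1]
  rw [h2, integral_add_right_eq_self (μ := (volume : Measure (UnitAddTorus (Fin d))))
    (fun u => (UnitAddTorus.mFourier (-k) (u - prj y')) • tf v u) (prj y')]
  rw [← hy', ← mFourier_prj, ← integral_const_mul]
  refine integral_congr_ae (Eventually.of_forall fun t => ?_)
  simp only [smul_eq_mul]
  rw [sub_eq_add_neg, mFourier_arg_add, mFourier_neg_arg]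
  ring

lemma measurableSet_ubox : MeasurableSet (ubox (d := d)) := by
  have : ubox (d := d) = Set.univ.pi fun _ => Set.Ioc (0 : ℝ) (0 + 1) := by
    ext x; simp [ubox]
  rw [this]
  exact MeasurableSet.univ_pi fun i => measurableSet_Ioc

lemma volume_ubox : volume (ubox (d := d)) = 1 := by
  have : ubox (d := d) = Set.univ.pi fun _ => Set.Ioc (0 : ℝ) (0 + 1) := by
    ext x; simp [ubox]
  rw [this, volume_pi_pi]
  simp

instance : IsProbabilityMeasure ((volume : Measure (Fin d → ℝ)).restrict ubox) :=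
  ⟨by rw [Measure.restrict_apply_univ, volume_ubox]⟩

lemma Per.fderiv {v : EuclideanSpace ℝ (Fin d) → ℂ} (hv : Per v) : Per (fderiv ℝ v) := by
  intro x i
  have h : v = fun x => v (x + EuclideanSpace.single i (2 * Real.pi)) := by
    funext x; exact (hv x i).symm
  conv_rhs => rw [h]
  rw [fderiv_comp_add_right]

lemma cf_fderiv {v : EuclideanSpace ℝ (Fin d) → ℂ} (hv : Per v) (h1 : ContDiff ℝ 1 v)
    (e : EuclideanSpace ℝ (Fin d)) (k : Fin d → ℤ) :
    cf (fun x => fderiv ℝ v x e) k = I * ((inner ℝ (kv k) e : ℝ) : ℂ) * cf v k := by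
  have hper : Per (fun x => fderiv ℝ v x e) := fun x i => by
    show fderiv ℝ v _ e = _
    rw [hv.fderiv x i]
  have hcd : Continuous (fun x => fderiv ℝ v x e) :=
    (h1.continuous_fderiv (by norm_num)).clm_apply continuous_const
  obtain ⟨M, hM0, hM⟩ := hper.bdd hcd
  set μ := (volume : Measure (Fin d → ℝ)).restrict ubox with hμ
  let F : ℝ → (Fin d → ℝ) → ℂ := fun h x => ek (-k) (sc x) * v (sc x + h • e)
  let F' : ℝ → (Fin d → ℝ) → ℂ := fun h x => ek (-k) (sc x) * fderiv ℝ v (sc x + h • e) e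
  have hFc : ∀ h, Continuous (F h) := fun h =>
    ((continuous_ek _).comp continuous_sc).mul
      (h1.continuous.comp (continuous_sc.add continuous_const))
  have hF'c : ∀ h, Continuous (F' h) := fun h =>
    ((continuous_ek _).comp continuous_sc).mul
      (hcd.comp (continuous_sc.add continuous_const))
  have hv0 : ∀ h : ℝ, ∫ x, F h x ∂μ = ek k (h • e) * cf v k := by
    intro h
    rw [← cf_translate hv, cf_eq_integral (hv.translate _)]
  obtain ⟨Mv, _, hMv⟩ := hv.bdd h1.continuous
  have key := (hasDerivAt_integral_of_dominated_loc_of_deriv_le (μ := μ) (F := F) (F' := F')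
    (x₀ := (0 : ℝ)) (s := Set.univ) (bound := fun _ => M) Filter.univ_mem
    (Eventually.of_forall fun h => (hFc h).aestronglyMeasurable)
    (by
      refine Integrable.of_bound (hFc 0).aestronglyMeasurable Mv (Eventually.of_forall fun x => ?_)
      simp only [F, norm_mul, norm_ek, one_mul]
      exact hMv _)
    (hF'c 0).aestronglyMeasurable
    (Eventually.of_forall fun x h _ => by
      simp only [F', norm_mul, norm_ek, one_mul]
      exact hM _)
    (integrable_const M)
    (Eventually.of_forall fun x h _ => by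
      have h2 : HasDerivAt (fun h : ℝ => v (sc x + h • e)) (fderiv ℝ v (sc x + h • e) e) h := by
        have h3 := (h1.differentiable (by norm_num) (sc x + h • e)).hasFDerivAt
        have h4 : HasDerivAt (fun h : ℝ => sc x + h • e) e h := by
          simpa using ((hasDerivAt_id h).smul_const e).const_add (sc x)
        exact h3.comp_hasDerivAt h h4
      exact h2.const_mul _)).2
  have h5 : (fun h => ∫ x, F h x ∂μ) = fun h : ℝ => ek k (h • e) * cf v k := funext hv0
  rw [h5] at key
  have h6 : HasDerivAt (fun h : ℝ => ek k (h • e) * cf v k)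
      (I * ((inner ℝ (kv k) e : ℝ) : ℂ) * cf v k) 0 := by
    have h7 : HasDerivAt (fun h : ℝ => ek k (h • e)) (I * ((inner ℝ (kv k) e : ℝ) : ℂ)) 0 := by
      have h8 : HasDerivAt (fun h : ℝ => I * ((inner ℝ (kv k) (h • e) : ℝ) : ℂ))
          (I * ((inner ℝ (kv k) e : ℝ) : ℂ)) 0 := by
        have h9 : HasDerivAt (fun h : ℝ => ((inner ℝ (kv k) (h • e) : ℝ) : ℂ))
            ((inner ℝ (kv k) e : ℝ) : ℂ) 0 := by
          have h10 : HasDerivAt (fun h : ℝ => (inner ℝ (kv k) (h • e) : ℝ))
              (inner ℝ (kv k) e) 0 := by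
            simp only [inner_smul_right]
            simpa using (hasDerivAt_id (0 : ℝ)).mul_const (inner ℝ (kv k) e)
          exact h10.ofReal_comp
        exact h9.const_mul I
      have h11 := h8.cexp
      unfold ek
      simpa using h11
    exact h7.mul_const _
  have h12 := key.unique h6
  rw [← h12, cf_eq_integral hper]
  simp only [F', zero_smul, add_zero]
  rfl

end Crest.Agent.R086.Tor
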