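import Crest.Agent.R086.TorB
import Crest.Prelude.Def_PeriodicNLS

/-!
Row 86, part D, torus side (helper327), file C.
Parseval, decay of Fourier coefficients of smooth periodic functions, Sobolev ⟹ Wiener.
-/

set_option autoImplicit false

noncomputable section

open scoped BigOperators ComplexConjugate ContDiff ENNReal Pointwise
open Filter MeasureTheory Complex

namespace Crest.Agent.R086.Tor

/-- normalised measure on `ℝ / ℤ`. -/
local instance : MeasureSpace UnitAddCircle := ⟨AddCircle.haarAddCircle⟩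
local instance : Measure.IsAddHaarMeasure (volume : Measure UnitAddCircle) :=
  inferInstanceAs (Measure.IsAddHaarMeasure AddCircle.haarAddCircle)
local instance : IsProbabilityMeasure (volume : Measure UnitAddCircle) :=
  inferInstanceAs (IsProbabilityMeasure AddCircle.haarAddCircle)

variable {d : ℕ}

/-! ### Parseval -/

lemma hasSum_sq_cf {v : EuclideanSpace ℝ (Fin d) → ℂ} (hv : Per v) (hc : Continuous v) :
    HasSum (fun k => ‖cf v k‖ ^ 2) (∫ x in ubox (d := d), ‖v (sc x)‖ ^ 2) := by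
  have h := UnitAddTorus.hasSum_sq_mFourierCoeff
    (ContinuousMap.toLp (E := ℂ) 2 (volume : Measure (UnitAddTorus (Fin d))) ℂ (tfc v hv hc))
  have e1 : ∀ k, UnitAddTorus.mFourierCoeff
      (ContinuousMap.toLp (E := ℂ) 2 (volume : Measure (UnitAddTorus (Fin d))) ℂ (tfc v hv hc)) k
      = cf v k := fun k => UnitAddTorus.mFourierCoeff_toLp (tfc v hv hc) k
  simp only [e1] at h
  convert h using 1
  have e2 : ∫ t, ‖(ContinuousMap.toLp (E := ℂ) 2 (volume : Measure (UnitAddTorus (Fin d))) ℂ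
      (tfc v hv hc)) t‖ ^ 2 = ∫ t : UnitAddTorus (Fin d), ‖tf v t‖ ^ 2 := by
    refine integral_congr_ae ?_
    filter_upwards [ContinuousMap.coeFn_toLp (p := 2) (𝕜 := ℂ)
      (volume : Measure (UnitAddTorus (Fin d))) (tfc v hv hc)] with t ht
    rw [ht]; rfl
  rw [e2, UnitAddTorus.integral_preimage _ (fun _ => (0 : ℝ))]
  refine integral_congr_ae (Eventually.of_forall fun x => ?_)
  have h1 : (fun i => ((x i : ℝ) : UnitAddCircle)) = prj x := rfl
  simp only [h1]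
  rw [tf_prj hv]

/-! ### iterated directional derivatives -/

/-- `D^M v (x) [e,…,e]`. -/
def itd (v : EuclideanSpace ℝ (Fin d) → ℂ) (e : EuclideanSpace ℝ (Fin d)) (M : ℕ)
    (x : EuclideanSpace ℝ (Fin d)) : ℂ := iteratedFDeriv ℝ M v x fun _ => e

lemma itd_zero (v : EuclideanSpace ℝ (Fin d) → ℂ) (e : EuclideanSpace ℝ (Fin d)) :
    itd v e 0 = v := by
  funext x; simp [itd]

lemma itd_eq (v : EuclideanSpace ℝ (Fin d) → ℂ) (e : EuclideanSpace ℝ (Fin d)) (M : ℕ) :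
    itd v e M = (ContinuousMultilinearMap.apply ℝ (fun _ : Fin M => EuclideanSpace ℝ (Fin d)) ℂ
      (fun _ => e)) ∘ (iteratedFDeriv ℝ M v) := by
  funext x; rfl

lemma contDiff_itd {v : EuclideanSpace ℝ (Fin d) → ℂ} (hv : ContDiff ℝ ∞ v)
    (e : EuclideanSpace ℝ (Fin d)) (M : ℕ) : ContDiff ℝ ∞ (itd v e M) := by
  rw [itd_eq]
  exact (ContinuousLinearMap.contDiff _).comp (hv.iteratedFDeriv_right (by exact_mod_cast le_top))

lemma itd_succ {v : EuclideanSpace ℝ (Fin d) → ℂ} (hv : ContDiff ℝ ∞ v)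
    (e : EuclideanSpace ℝ (Fin d)) (M : ℕ) :
    itd v e (M + 1) = fun x => fderiv ℝ (itd v e M) x e := by
  funext x
  unfold itd
  rw [iteratedFDeriv_succ_apply_left]
  have h1 : DifferentiableAt ℝ (iteratedFDeriv ℝ M v) x :=
    (hv.differentiable_iteratedFDeriv (by exact_mod_cast ENat.natCast_lt_top M)) x
  have h2 : HasFDerivAt (fun x => iteratedFDeriv ℝ M v x fun _ => e)
      ((ContinuousMultilinearMap.apply ℝ (fun _ : Fin M => EuclideanSpace ℝ (Fin d)) ℂ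
      (fun _ => e)).comp (fderiv ℝ (iteratedFDeriv ℝ M v) x)) x :=
    (ContinuousMultilinearMap.apply ℝ (fun _ : Fin M => EuclideanSpace ℝ (Fin d)) ℂ
      (fun _ => e)).hasFDerivAt.comp x h1.hasFDerivAt
  rw [h2.fderiv]
  rfl

lemma per_itd {v : EuclideanSpace ℝ (Fin d) → ℂ} (hv : Per v)
    (e : EuclideanSpace ℝ (Fin d)) (M : ℕ) : Per (itd v e M) := by
  intro x i
  unfold itd
  have h : v = fun x => v (x + EuclideanSpace.single i (2 * Real.pi)) := by
    funext x; exact (hv x i).symm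
  conv_rhs => rw [h]
  rw [iteratedFDeriv_comp_add_right]

lemma cf_itd {v : EuclideanSpace ℝ (Fin d) → ℂ} (hp : Per v) (hv : ContDiff ℝ ∞ v)
    (e : EuclideanSpace ℝ (Fin d)) (M : ℕ) (k : Fin d → ℤ) :
    cf (itd v e M) k = (I * ((inner ℝ (kv k) e : ℝ) : ℂ)) ^ M * cf v k := by
  induction M with
  | zero => rw [itd_zero]; simp
  | succ M ih =>
    rw [itd_succ hv, cf_fderiv (per_itd hp e M)
      ((contDiff_itd hv e M).of_le (by exact_mod_cast le_top)), ih]
    ring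

lemma norm_itd_le (v : EuclideanSpace ℝ (Fin d) → ℂ) {e : EuclideanSpace ℝ (Fin d)}
    (he : ‖e‖ = 1) (M : ℕ) (x : EuclideanSpace ℝ (Fin d)) :
    ‖itd v e M x‖ ≤ ‖iteratedFDeriv ℝ M v x‖ := by
  have := (iteratedFDeriv ℝ M v x).le_opNorm (fun _ => e)
  simpa [itd, he] using this

/-! ### the period cell -/

/-- one period cell. -/
def cell (d : ℕ) : Set (EuclideanSpace ℝ (Fin d)) := {x | ∀ i, x i ∈ Set.Ico 0 (2 * Real.pi)}

lemma integral_ubox_eq {G : Type*} [NormedAddCommGroup G] [NormedSpace ℝ G]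
    (g : EuclideanSpace ℝ (Fin d) → G) :
    ∫ x in ubox (d := d), g (sc x) = ((2 * Real.pi) ^ d)⁻¹ • ∫ x in cell d, g x := by
  have h2pi : (0 : ℝ) < 2 * Real.pi := by positivity
  -- cell integral in coordinates
  have h1 : ∫ x in cell d, g x =
      ∫ x in (Set.univ.pi fun _ : Fin d => Set.Ico (0 : ℝ) (2 * Real.pi)), g (WithLp.toLp 2 x) := by
    rw [← (PiLp.volume_preserving_toLp (Fin d)).setIntegral_preimage_emb
      (MeasurableEquiv.toLp 2 (Fin d → ℝ)).measurableEmbedding g (cell d)]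
    congr 2
    ext x
    simp [cell]
  have h2 : ∫ x in (Set.univ.pi fun _ : Fin d => Set.Ico (0 : ℝ) (2 * Real.pi)),
      g (WithLp.toLp 2 x) =
      ∫ x in (Set.univ.pi fun _ : Fin d => Set.Ioc (0 : ℝ) (2 * Real.pi)),
      g (WithLp.toLp 2 x) := by
    refine setIntegral_congr_set ?_
    exact (Measure.univ_pi_Ico_ae_eq_Icc (μ := fun _ : Fin d => (volume : Measure ℝ))
      (f := fun _ => 0) (g := fun _ => 2 * Real.pi)).trans
      (Measure.univ_pi_Ioc_ae_eq_Icc (μ := fun _ : Fin d => (volume : Measure ℝ))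
      (f := fun _ => 0) (g := fun _ => 2 * Real.pi)).symm
  have h3 : (Set.univ.pi fun _ : Fin d => Set.Ioc (0 : ℝ) (2 * Real.pi)) =
      (2 * Real.pi) • ubox (d := d) := by
    ext x
    rw [Set.mem_smul_set_iff_inv_smul_mem₀ h2pi.ne', Set.mem_univ_pi]
    show (∀ i, x i ∈ Set.Ioc (0 : ℝ) (2 * Real.pi)) ↔
      ∀ i, (2 * Real.pi)⁻¹ * x i ∈ Set.Ioc (0 : ℝ) (0 + 1)
    refine forall_congr' fun i => ?_
    rw [zero_add]
    simp only [Set.mem_Ioc]
    rw [inv_mul_le_iff₀ h2pi, mul_one]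
    constructor
    · rintro ⟨ha, hb⟩; exact ⟨by positivity, hb⟩
    · rintro ⟨ha, hb⟩
      refine ⟨?_, hb⟩
      have := mul_pos h2pi ha
      rwa [mul_inv_cancel_left₀ h2pi.ne'] at this
  rw [h1, h2, h3]
  have h4 := Measure.setIntegral_comp_smul_of_pos (volume : Measure (Fin d → ℝ))
    (fun x => g (WithLp.toLp 2 x)) (ubox (d := d)) h2pi
  rw [Module.finrank_fintype_fun_eq_card, Fintype.card_fin] at h4
  rw [← h4]
  rfl

/-! ### weights -/

lemma wt_le_sum (k : Fin d → ℤ) : wt k ≤ 1 + ∑ i, |(k i : ℝ)| := by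
  unfold wt
  have h : ‖kv k‖ ^ 2 ≤ (∑ i, |(k i : ℝ)|) ^ 2 := by
    rw [EuclideanSpace.real_norm_sq_eq]
    have := Finset.sum_sq_le_sq_sum_of_nonneg (s := (Finset.univ : Finset (Fin d)))
      (f := fun i => |(k i : ℝ)|) (fun i _ => abs_nonneg _)
    simpa using this
  have h2 := abs_le_of_sq_le_sq' h (Finset.sum_nonneg fun i _ => abs_nonneg _)
  linarith [h2.2]

lemma wt_pow_le (k : Fin d → ℤ) (M : ℕ) :
    wt k ^ (2 * M) ≤ (d + 1 : ℝ) ^ (2 * M) * (1 + ∑ i, |(k i : ℝ)| ^ (2 * M)) := by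
  rcases Nat.eq_zero_or_pos M with hM | hM
  · subst hM
    simp
  · obtain ⟨n, hn⟩ : ∃ n, 2 * M = n + 1 := ⟨2 * M - 1, by omega⟩
    rw [hn]
    have h1 := pow_sum_div_card_le_sum_pow (s := (Finset.univ : Finset (Fin (d + 1))))
      (f := Fin.cons (1 : ℝ) fun i => |(k i : ℝ)|)
      (fun i _ => by
        refine Fin.cases ?_ (fun j => ?_) i
        · simp
        · simp) n
    simp only [Fin.sum_univ_succ, Fin.cons_zero, Fin.cons_succ, Finset.card_univ,
      Fintype.card_fin, one_pow] at h1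
    rw [div_le_iff₀ (by positivity)] at h1
    have h2 : wt k ^ (n + 1) ≤ (1 + ∑ i, |(k i : ℝ)|) ^ (n + 1) :=
      pow_le_pow_left₀ (wt_pos k).le (wt_le_sum k) _
    have h3 : (((d + 1 : ℕ) : ℝ)) ^ n ≤ (d + 1 : ℝ) ^ (n + 1) := by
      push_cast
      exact pow_le_pow_right₀ (by linarith [(Nat.cast_nonneg d : (0 : ℝ) ≤ d)]) (Nat.le_succ n)
    have h4 : (0 : ℝ) ≤ 1 + ∑ i, |(k i : ℝ)| ^ (n + 1) := by positivity
    calc wt k ^ (n + 1) ≤ (1 + ∑ i, |(k i : ℝ)|) ^ (n + 1) := h2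
      _ ≤ (1 + ∑ i, |(k i : ℝ)| ^ (n + 1)) * (((d + 1 : ℕ) : ℝ)) ^ n := h1
      _ ≤ (1 + ∑ i, |(k i : ℝ)| ^ (n + 1)) * (d + 1 : ℝ) ^ (n + 1) := by gcongr
      _ = _ := by ring

/-- the homogeneous Sobolev pieces on the cell. -/
def sob (v : EuclideanSpace ℝ (Fin d) → ℂ) (j : ℕ) : ℝ :=
  ∫ x in cell d, ‖iteratedFDeriv ℝ j v x‖ ^ 2

lemma sob_nonneg (v : EuclideanSpace ℝ (Fin d) → ℂ) (j : ℕ) : 0 ≤ sob v j :=
  integral_nonneg fun _ => by positivity

lemma integrable_ubox {g : EuclideanSpace ℝ (Fin d) → ℝ} (hp : Per g) (hc : Continuous g) :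
    Integrable (fun x => g (sc x)) ((volume : Measure (Fin d → ℝ)).restrict ubox) := by
  obtain ⟨M, _, hM⟩ := hp.bdd hc
  exact Integrable.of_bound (hc.comp continuous_sc).aestronglyMeasurable M
    (Eventually.of_forall fun x => hM _)

/-- one direction. -/
lemma hasSum_dir {v : EuclideanSpace ℝ (Fin d) → ℂ} (hp : Per v) (hv : ContDiff ℝ ∞ v)
    (M : ℕ) (i : Fin d) :
    Summable (fun k : Fin d → ℤ => |(k i : ℝ)| ^ (2 * M) * ‖cf v k‖ ^ 2) ∧
    ∑' k : Fin d → ℤ, |(k i : ℝ)| ^ (2 * M) * ‖cf v k‖ ^ 2 ≤ ((2 * Real.pi) ^ d)⁻¹ * sob v M := by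
  set e : EuclideanSpace ℝ (Fin d) := EuclideanSpace.single i 1 with he
  have hen : ‖e‖ = 1 := by simp [he]
  have h1 := hasSum_sq_cf (per_itd hp e M) (contDiff_itd hv e M).continuous
  have h2 : ∀ k : Fin d → ℤ, ‖cf (itd v e M) k‖ ^ 2 = |(k i : ℝ)| ^ (2 * M) * ‖cf v k‖ ^ 2 := by
    intro k
    rw [cf_itd hp hv, norm_mul, norm_pow, norm_mul, Complex.norm_I, one_mul, Complex.norm_real,
      Real.norm_eq_abs, inner_kv]
    have : ∑ j, (k j : ℝ) * e j = k i := by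
      rw [Finset.sum_eq_single i]
      · simp [he]
      · intro j _ hj; simp [he, hj]
      · simp
    rw [this]; ring
  simp only [h2] at h1
  refine ⟨h1.summable, ?_⟩
  rw [h1.tsum_eq]
  have hper : Per (fun x => ‖iteratedFDeriv ℝ M v x‖ ^ 2) := by
    intro x j
    have h : v = fun x => v (x + EuclideanSpace.single j (2 * Real.pi)) := by
      funext x; exact (hp x j).symm
    show ‖iteratedFDeriv ℝ M v (x + EuclideanSpace.single j (2 * Real.pi))‖ ^ 2 =
      ‖iteratedFDeriv ℝ M v x‖ ^ 2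
    conv_rhs => rw [h]
    rw [iteratedFDeriv_comp_add_right]
  have hper2 : Per (fun x => ‖itd v e M x‖ ^ 2) := by
    intro x j
    simp only
    rw [per_itd hp e M x j]
  have hcont : Continuous (fun x => ‖iteratedFDeriv ℝ M v x‖ ^ 2) :=
    ((hv.continuous_iteratedFDeriv (by exact_mod_cast le_top)).norm).pow 2
  have hcont2 : Continuous (fun x => ‖itd v e M x‖ ^ 2) :=
    ((contDiff_itd hv e M).continuous.norm).pow 2
  calc ∫ x in ubox (d := d), ‖itd v e M (sc x)‖ ^ 2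
      ≤ ∫ x in ubox (d := d), ‖iteratedFDeriv ℝ M v (sc x)‖ ^ 2 := by
        refine integral_mono (integrable_ubox hper2 hcont2) (integrable_ubox hper hcont) fun x => ?_
        exact pow_le_pow_left₀ (norm_nonneg _) (norm_itd_le v hen M _) 2
    _ = ((2 * Real.pi) ^ d)⁻¹ * sob v M :=
        integral_ubox_eq (fun x => ‖iteratedFDeriv ℝ M v x‖ ^ 2)

lemma hasSum_zero {v : EuclideanSpace ℝ (Fin d) → ℂ} (hp : Per v) (hv : ContDiff ℝ ∞ v) :
    Summable (fun k : Fin d → ℤ => ‖cf v k‖ ^ 2) ∧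
    ∑' k : Fin d → ℤ, ‖cf v k‖ ^ 2 = ((2 * Real.pi) ^ d)⁻¹ * sob v 0 := by
  have h1 := hasSum_sq_cf hp hv.continuous
  refine ⟨h1.summable, ?_⟩
  rw [h1.tsum_eq]
  have := integral_ubox_eq (d := d) (fun x => ‖v x‖ ^ 2)
  rw [this]
  simp [sob]

/-- weighted `ℓ²` bound by the Sobolev pieces. -/
lemma weighted_l2 {v : EuclideanSpace ℝ (Fin d) → ℂ} (hp : Per v) (hv : ContDiff ℝ ∞ v) (M : ℕ) :
    Summable (fun k : Fin d → ℤ => wt k ^ (2 * M) * ‖cf v k‖ ^ 2) ∧
    ∑' k : Fin d → ℤ, wt k ^ (2 * M) * ‖cf v k‖ ^ 2 ≤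
      (d + 1 : ℝ) ^ (2 * M) * (((2 * Real.pi) ^ d)⁻¹ * (sob v 0 + d * sob v M)) := by
  obtain ⟨s0, e0⟩ := hasSum_zero hp hv
  have hs : Summable fun k : Fin d → ℤ =>
      (d + 1 : ℝ) ^ (2 * M) * (‖cf v k‖ ^ 2 + ∑ i, |(k i : ℝ)| ^ (2 * M) * ‖cf v k‖ ^ 2) :=
    (s0.add (summable_sum fun i _ => (hasSum_dir hp hv M i).1)).mul_left _
  have hle : ∀ k : Fin d → ℤ, wt k ^ (2 * M) * ‖cf v k‖ ^ 2 ≤
      (d + 1 : ℝ) ^ (2 * M) * (‖cf v k‖ ^ 2 + ∑ i, |(k i : ℝ)| ^ (2 * M) * ‖cf v k‖ ^ 2) := by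
    intro k
    have h1 := wt_pow_le k M
    calc wt k ^ (2 * M) * ‖cf v k‖ ^ 2
        ≤ ((d + 1 : ℝ) ^ (2 * M) * (1 + ∑ i, |(k i : ℝ)| ^ (2 * M))) * ‖cf v k‖ ^ 2 := by gcongr
      _ = _ := by
        rw [mul_assoc, add_mul, one_mul, Finset.sum_mul]
  have hsum : Summable fun k : Fin d → ℤ => wt k ^ (2 * M) * ‖cf v k‖ ^ 2 :=
    Summable.of_nonneg_of_le (fun k => by have := wt_pos k; positivity) hle hs
  refine ⟨hsum, (hsum.tsum_le_tsum hle hs).trans ?_⟩
  rw [tsum_mul_left, s0.tsum_add (summable_sum fun i _ => (hasSum_dir hp hv M i).1),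
    Summable.tsum_finsetSum (fun i _ => (hasSum_dir hp hv M i).1), e0]
  have h2 : ∑ i : Fin d, ∑' k : Fin d → ℤ, |(k i : ℝ)| ^ (2 * M) * ‖cf v k‖ ^ 2 ≤
      d * (((2 * Real.pi) ^ d)⁻¹ * sob v M) := by
    calc _ ≤ ∑ _i : Fin d, (((2 * Real.pi) ^ d)⁻¹ * sob v M) :=
          Finset.sum_le_sum fun i _ => (hasSum_dir hp hv M i).2
      _ = _ := by simp
  have h3 : (0 : ℝ) ≤ (d + 1 : ℝ) ^ (2 * M) := by positivity
  calc (d + 1 : ℝ) ^ (2 * M) * (((2 * Real.pi) ^ d)⁻¹ * sob v 0 +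
        ∑ i : Fin d, ∑' k : Fin d → ℤ, |(k i : ℝ)| ^ (2 * M) * ‖cf v k‖ ^ 2)
      ≤ (d + 1 : ℝ) ^ (2 * M) * (((2 * Real.pi) ^ d)⁻¹ * sob v 0 +
        d * (((2 * Real.pi) ^ d)⁻¹ * sob v M)) := by gcongr
    _ = _ := by ring

/-- **Sobolev ⟹ Wiener** with the two pieces `0` and `N + d`. -/
theorem wiener_le {N : ℕ} : ∃ C : ℝ, 0 < C ∧ ∀ v : EuclideanSpace ℝ (Fin d) → ℂ,
    Per v → ContDiff ℝ ∞ v →
      Summable (fun k : Fin d → ℤ => wt k ^ N * ‖cf v k‖) ∧
      ∑' k : Fin d → ℤ, wt k ^ N * ‖cf v k‖ ≤ C * Real.sqrt (sob v 0 + sob v (N + d)) := by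
  set A : ℝ := ∑' k : Fin d → ℤ, (wt k ^ (2 * d))⁻¹ with hA
  have hAs := summable_wt_inv (d := d) le_rfl
  have hA0 : 0 ≤ A := tsum_nonneg fun k => by have := wt_pos k; positivity
  set B : ℝ := (d + 1 : ℝ) ^ (2 * (N + d)) * (((2 * Real.pi) ^ d)⁻¹ * (d + 1)) with hB
  have hB0 : 0 < B := by positivity
  refine ⟨Real.sqrt (A * B) + 1, by positivity, fun v hp hv => ?_⟩
  obtain ⟨hs2, hb2⟩ := weighted_l2 hp hv (N + d)
  have hS0 := sob_nonneg v 0
  have hSM := sob_nonneg v (N + d)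
  set S := sob v 0 + sob v (N + d) with hS
  have hSS : 0 ≤ S := by positivity
  have hb3 : ∑' k : Fin d → ℤ, wt k ^ (2 * (N + d)) * ‖cf v k‖ ^ 2 ≤ B * S := by
    refine hb2.trans ?_
    rw [hB, mul_assoc, mul_assoc]
    refine mul_le_mul_of_nonneg_left ?_ (by positivity)
    refine mul_le_mul_of_nonneg_left ?_ (by positivity)
    rw [hS]
    nlinarith [mul_nonneg (Nat.cast_nonneg d : (0 : ℝ) ≤ d) hS0]
  have hfin : ∀ u : Finset (Fin d → ℤ), ∑ k ∈ u, wt k ^ N * ‖cf v k‖ ≤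
      (Real.sqrt (A * B) + 1) * Real.sqrt S := by
    intro u
    have h1 := Finset.sum_mul_sq_le_sq_mul_sq u (fun k => (wt k ^ d)⁻¹)
      (fun k => wt k ^ (N + d) * ‖cf v k‖)
    have h2 : ∀ k, (wt k ^ d)⁻¹ * (wt k ^ (N + d) * ‖cf v k‖) = wt k ^ N * ‖cf v k‖ := by
      intro k
      have := wt_pos k
      rw [pow_add]; field_simp
    simp only [h2] at h1
    have h3 : ∑ k ∈ u, ((wt k ^ d)⁻¹) ^ 2 ≤ A := by
      have : ∀ k : Fin d → ℤ, ((wt k ^ d)⁻¹) ^ 2 = (wt k ^ (2 * d))⁻¹ := by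
        intro k; rw [inv_pow, ← pow_mul, mul_comm d 2]
      simp only [this]
      exact hAs.sum_le_tsum u (fun k _ => by have := wt_pos k; positivity)
    have h4 : ∑ k ∈ u, (wt k ^ (N + d) * ‖cf v k‖) ^ 2 ≤ B * S := by
      have : ∀ k : Fin d → ℤ, (wt k ^ (N + d) * ‖cf v k‖) ^ 2 =
          wt k ^ (2 * (N + d)) * ‖cf v k‖ ^ 2 := by
        intro k; rw [mul_pow, ← pow_mul, mul_comm (N + d) 2]
      simp only [this]
      exact (hs2.sum_le_tsum u (fun k _ => by have := wt_pos k; positivity)).trans hb3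
    have h5 : (∑ k ∈ u, wt k ^ N * ‖cf v k‖) ^ 2 ≤ (A * B) * S := by
      refine h1.trans ?_
      calc _ ≤ A * (B * S) := by
            refine mul_le_mul h3 h4 (Finset.sum_nonneg fun k _ => by positivity) hA0
        _ = _ := by ring
    have h6 : ∑ k ∈ u, wt k ^ N * ‖cf v k‖ ≤ Real.sqrt ((A * B) * S) := Real.le_sqrt_of_sq_le h5
    rw [Real.sqrt_mul (by positivity)] at h6
    refine h6.trans ?_
    have := Real.sqrt_nonneg S
    nlinarith
  have hsum := summable_of_sum_le (f := fun k : Fin d → ℤ => wt k ^ N * ‖cf v k‖)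
    (fun k => by have := wt_pos k; positivity) hfin
  exact ⟨hsum, hsum.tsum_le_of_sum_le hfin⟩

/-! ### the distance of the statement -/

open Crest.AnalysisR.PDE.NLS in
lemma isSmoothPeriodic_iff (v : EuclideanSpace ℝ (Fin 12) → ℂ) :
    IsSmoothPeriodic v ↔ ContDiff ℝ ∞ v ∧ Per v := Iff.rfl

lemma cell_eq : cell 12 = Crest.AnalysisR.PDE.NLS.periodCell := rfl

lemma Per.sub {v w : EuclideanSpace ℝ (Fin d) → ℂ} (hv : Per v) (hw : Per w) :
    Per (fun x => v x - w x) := by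
  intro x i
  simp only [hv x i, hw x i]

lemma integrable_tf {v : EuclideanSpace ℝ (Fin d) → ℂ} (hv : Per v) (hc : Continuous v)
    (k : Fin d → ℤ) : Integrable (fun x => ek (-k) (sc x) * v (sc x))
      ((volume : Measure (Fin d → ℝ)).restrict ubox) := by
  obtain ⟨M, _, hM⟩ := hv.bdd hc
  refine Integrable.of_bound (((continuous_ek _).comp continuous_sc).mul
    (hc.comp continuous_sc)).aestronglyMeasurable M (Eventually.of_forall fun x => ?_)
  rw [norm_mul, norm_ek, one_mul]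
  exact hM _

lemma cf_sub {v w : EuclideanSpace ℝ (Fin d) → ℂ} (hv : Per v) (hcv : Continuous v)
    (hw : Per w) (hcw : Continuous w) (k : Fin d → ℤ) :
    cf (fun x => v x - w x) k = cf v k - cf w k := by
  rw [cf_eq_integral (hv.sub hw), cf_eq_integral hv, cf_eq_integral hw,
    ← integral_sub (integrable_tf hv hcv k) (integrable_tf hw hcw k)]
  refine integral_congr_ae (Eventually.of_forall fun x => ?_)
  simp only
  ring

lemma cf_add {v w : EuclideanSpace ℝ (Fin d) → ℂ} (hv : Per v) (hcv : Continuous v)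
    (hw : Per w) (hcw : Continuous w) (k : Fin d → ℤ) :
    cf (fun x => v x + w x) k = cf v k + cf w k := by
  have hp : Per (fun x => v x + w x) := by
    intro x i
    simp only [hv x i, hw x i]
  rw [cf_eq_integral hp, cf_eq_integral hv, cf_eq_integral hw,
    ← integral_add (integrable_tf hv hcv k) (integrable_tf hw hcw k)]
  refine integral_congr_ae (Eventually.of_forall fun x => ?_)
  simp only
  ring

lemma cf_const_mul {v : EuclideanSpace ℝ (Fin d) → ℂ} (hv : Per v) (a : ℂ) (k : Fin d → ℤ) :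
    cf (fun x => a * v x) k = a * cf v k := by
  have hp : Per (fun x => a * v x) := by
    intro x i
    simp only [hv x i]
  rw [cf_eq_integral hp, cf_eq_integral hv, ← integral_const_mul]
  refine integral_congr_ae (Eventually.of_forall fun x => ?_)
  simp only
  ring

lemma cf_conj {v : EuclideanSpace ℝ (Fin d) → ℂ} (hv : Per v) (k : Fin d → ℤ) :
    cf (fun x => conj (v x)) k = conj (cf v (-k)) := by
  have hp : Per (fun x => conj (v x)) := by
    intro x i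
    simp only [hv x i]
  rw [cf_eq_integral hp, cf_eq_integral hv, ← integral_conj]
  refine integral_congr_ae (Eventually.of_forall fun x => ?_)
  simp only [map_mul, neg_neg, ← ek_neg]

lemma cf_eq_box_tor {v : EuclideanSpace ℝ (Fin d) → ℂ} (hv : Per v) (k : Fin d → ℤ)
    (a : Fin d → ℝ) :
    cf v k = ∫ x in {x : Fin d → ℝ | ∀ i, x i ∈ Set.Ioc (a i) (a i + 1)},
      ek (-k) (sc x) * v (sc x) := by
  unfold cf
  rw [UnitAddTorus.mFourierCoeff_eq_integral _ k a]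
  refine integral_congr_ae (Eventually.of_forall fun x => ?_)
  have h1 : (fun i => ((x i : ℝ) : UnitAddCircle)) = prj x := rfl
  simp only [h1]
  rw [mFourier_prj, tf_prj hv, smul_eq_mul]

/-- a smooth periodic function has rapidly decaying coefficients. -/
theorem summable_cf {v : EuclideanSpace ℝ (Fin d) → ℂ} (hp : Per v) (hv : ContDiff ℝ ∞ v)
    (N : ℕ) : Summable (fun k : Fin d → ℤ => wt k ^ N * ‖cf v k‖) := by
  obtain ⟨C, _, h⟩ := wiener_le (d := d) (N := N)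
  exact (h v hp hv).1

/-- Fourier series of a smooth periodic function. -/
theorem eq_synth_cf {v : EuclideanSpace ℝ (Fin d) → ℂ} (hp : Per v) (hv : ContDiff ℝ ∞ v) :
    synth (cf v) = v :=
  synth_cf hp hv.continuous (Summable.of_norm (weight_zero (summable_cf hp hv 0)))

/-- **Sobolev ⟹ Wiener** in the form of the statement. -/
theorem wiener_le_sobolev (N k : ℕ) (hk : N + 12 ≤ k) : ∃ C : ℝ, 0 < C ∧
    ∀ v w : EuclideanSpace ℝ (Fin 12) → ℂ,
      Crest.AnalysisR.PDE.NLS.IsSmoothPeriodic v → Crest.AnalysisR.PDE.NLS.IsSmoothPeriodic w →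
      Summable (fun m : Fin 12 → ℤ => wt m ^ N * ‖cf v m - cf w m‖) ∧
      ∑' m : Fin 12 → ℤ, wt m ^ N * ‖cf v m - cf w m‖ ≤
        C * Real.sqrt (Crest.AnalysisR.PDE.NLS.sobolevDistSq k v w) := by
  obtain ⟨C, hC, h⟩ := wiener_le (d := 12) (N := N)
  refine ⟨C * Real.sqrt 2, by positivity, fun v w hv hw => ?_⟩
  have hp : Per (fun x => v x - w x) := Per.sub hv.2 hw.2
  have hs : ContDiff ℝ ∞ (fun x => v x - w x) := hv.1.sub hw.1
  obtain ⟨h1, h2⟩ := h _ hp hs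
  have e : ∀ m, cf (fun x => v x - w x) m = cf v m - cf w m :=
    cf_sub hv.2 hv.1.continuous hw.2 hw.1.continuous
  simp only [e] at h1 h2
  refine ⟨h1, h2.trans ?_⟩
  have h3 : sob (fun x => v x - w x) 0 + sob (fun x => v x - w x) (N + 12) ≤
      2 * Crest.AnalysisR.PDE.NLS.sobolevDistSq k v w := by
    have hj : ∀ j ∈ Finset.range (k + 1), sob (fun x => v x - w x) j ≤
        Crest.AnalysisR.PDE.NLS.sobolevDistSq k v w := by
      intro j hj
      exact Finset.single_le_sum (f := fun j => sob (fun x => v x - w x) j)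
        (fun j _ => sob_nonneg _ j) hj
    have a := hj 0 (by simp)
    have b := hj (N + 12) (by simp; omega)
    linarith
  rw [mul_assoc, ← Real.sqrt_mul (by norm_num)]
  exact mul_le_mul_of_nonneg_left (Real.sqrt_le_sqrt h3) hC.le

end Crest.Agent.R086.Tor
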