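import Crest.Agent.R086.TorDefs

/-! Row 86, PART D-TORUS: assembly of `NonlinearThm` from the frozen nodes (helper277). -/

set_option autoImplicit false

namespace Crest.Agent.R086

/-- what the node owners must deliver (basic nodes may be used as hypotheses by everybody, they
are discharged at the end). -/
theorem nonlinear_of
    (hNear : ∀ (n : ℕ) (P : Profile n), P.SpecGood N0 → ∃ N, NearStep P N)
    (hGrow : ∀ (n : ℕ) (P : Profile n) (N : ℕ), GrowStep P N)
    (hOne : ∀ (n : ℕ) (P : Profile n) (N : ℕ), GrowStep P N → NearStep P N →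
      ∃ s, N + 1 ≤ s ∧ OneStep P N s)
    (hMod : ∀ (n : ℕ) (P : Profile n) (N s : ℕ), Modul P N s)
    (hFin : ∀ (n : ℕ) (P : Profile n) (N s : ℕ), N + 1 ≤ s → OneStep P N s → Modul P N s →
      BlowupConcl (n + 1)) : NonlinearThm := by
  intro n P hS
  obtain ⟨N, hN⟩ := hNear n P hS
  obtain ⟨s, hs, h1⟩ := hOne n P N (hGrow n P N) hN
  exact hFin n P N s hs h1 (hMod n P N s)

end Crest.Agent.R086
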