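import Crest.Agent.R086.XReg
import Crest.Agent.R086.Phi

/-!
Row 86 (S0114), node EXT (helper684), part 2: the scalar exterior theorem.
-/

set_option autoImplicit false

open MeasureTheory Complex Set
open scoped ContDiff

namespace Crest.Agent.R086.XExt

open Crest.Agent.R086.SH Crest.Agent.R086.XOut
open Crest.Agent.R086.JCx (Phi Phi1)

/-- existence part of the resolvent of `L0` in the Wiener algebra (470's RES), `sg = 1`. -/
def ResEx (N : ℕ) : Prop := ∀ mu : ℂ, 0 < mu.re → ∀ b h : R12 → ℂ, Rep N b h →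
  ∃ a f : R12 → ℂ, Rep N a f ∧
    (∀ y, I * lap f y - (1 / 2) * eul f y - mu * f y = -h y) ∧
    ∀ M ≤ N, xn M a ≤ xn M b / mu.re

theorem free_Phi {l : ℕ} {mu : ℂ} (hmu : 0 < mu.re) {r1 : ℝ} (hr1 : 0 ≤ r1) :
    Free r1 ((l : ℂ) * (l + 10)) mu (Phi l mu) (Phi1 l mu) := by
  have hl : (0 : ℝ) ≤ l := Nat.cast_nonneg l
  have h : -1 - (l : ℝ) / 2 < mu.re := by linarith
  exact ⟨fun r hr => JCx.Phi_hasDerivAt h (lt_of_le_of_lt hr1 hr),
    fun r hr => JCx.Phi1_hasDerivAt h (lt_of_le_of_lt hr1 hr)⟩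

theorem BD_Phi {l : ℕ} {mu : ℂ} (hmu : 0 < mu.re) {r1 : ℝ} (hr1 : 0 < r1) (k : ℕ) :
    BD r1 k (Phi l mu) := by
  have hl : (0 : ℝ) ≤ l := Nat.cast_nonneg l
  have h : -1 - (l : ℝ) / 2 < mu.re := by linarith
  have hsm : ∀ r, 0 < r → ContDiffAt ℝ ∞ (Phi l mu) r := fun r hr => JCx.Phi_contDiffAt h hr _
  have key : ∀ (k j : ℕ), BD r1 k (iteratedDeriv j (Phi l mu)) := by
    intro k
    induction k with
    | zero =>
      intro j
      obtain ⟨C, hC, hb⟩ := JCx.Phi_bound l (x0 := mu.re) (x1 := mu.re) (y := |mu.im|) h hr1 j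
      refine ⟨C * r1 ^ (-2 * mu.re - (j : ℝ)), fun r hr => ?_⟩
      refine (hb mu le_rfl le_rfl le_rfl r hr.le).trans ?_
      refine mul_le_mul_of_nonneg_left ?_ hC
      refine Real.rpow_le_rpow_of_nonpos hr1 hr.le ?_
      have : (0 : ℝ) ≤ j := Nat.cast_nonneg j
      linarith
    | succ k ih =>
      intro j
      refine ⟨(ih j).bdd, iteratedDeriv (j + 1) (Phi l mu), fun r hr => ?_, ih (j + 1)⟩
      have hr' : 0 < r := hr1.trans hr
      have hd : DifferentiableAt ℝ (iteratedDeriv j (Phi l mu)) r := by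
        have h1 : ContDiffAt ℝ ((j : ℕ∞) + 1 : ℕ∞) (Phi l mu) r := (hsm r hr').of_le (by exact_mod_cast le_top)
        have h2 := ContDiffWithinAt.differentiableWithinAt_iteratedDerivWithin (m := j)
          (contDiffWithinAt_univ.2 h1) (by exact_mod_cast Nat.lt_succ_self j) (by simp [uniqueDiffOn_univ])
        rw [iteratedDerivWithin_univ] at h2
        exact differentiableWithinAt_univ.1 h2
      rw [iteratedDeriv_succ]
      exact hd.hasDerivAt
  simpa using key k 0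

theorem Phi_ne {l : ℕ} {mu : ℂ} (hmu : 0 < mu.re) (r1 : ℝ) : ∃ r0, r1 < r0 ∧ Phi l mu r0 ≠ 0 := by
  have hl : (0 : ℝ) ≤ l := Nat.cast_nonneg l
  have h : -1 - (l : ℝ) / 2 < mu.re := by linarith
  obtain ⟨r0, h1, h2⟩ := ((JCx.Phi_eventually_ne_zero h).and (Filter.eventually_gt_atTop r1)).exists
  exact ⟨r0, h2, h1⟩

/-! ### inhomogeneous radial equation -/

/-- `(L0 - mu) F = h` in radial form on `(r1,∞)` -/
structure FreeS (r1 : ℝ) (kap mu : ℂ) (F F1 h : ℝ → ℂ) : Prop where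
  d0 : ∀ r, r1 < r → HasDerivAt F (F1 r) r
  d1 : ∀ r, r1 < r → HasDerivAt F1
    (-(11 / (r : ℂ) + I * r / 2) * F1 r - (I * mu - kap / (r : ℂ) ^ 2) * F r - I * h r) r

namespace FreeS
variable {r1 : ℝ} {kap mu mu' : ℂ} {F F1 h G G1 k : ℝ → ℂ}

theorem add (hF : FreeS r1 kap mu F F1 h) (hG : FreeS r1 kap mu G G1 k) :
    FreeS r1 kap mu (fun r => F r + G r) (fun r => F1 r + G1 r) (fun r => h r + k r) :=
  ⟨fun r hr => (hF.d0 r hr).add (hG.d0 r hr), fun r hr =>
    ((hF.d1 r hr).add (hG.d1 r hr)).congr_deriv (by ring)⟩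

theorem const_mul (c : ℂ) (hF : FreeS r1 kap mu F F1 h) :
    FreeS r1 kap mu (fun r => c * F r) (fun r => c * F1 r) (fun r => c * h r) :=
  ⟨fun r hr => (hF.d0 r hr).const_mul c, fun r hr =>
    ((hF.d1 r hr).const_mul c).congr_deriv (by ring)⟩

theorem congr (hF : FreeS r1 kap mu F F1 h) (hh : ∀ r, r1 < r → h r = k r) :
    FreeS r1 kap mu F F1 k :=
  ⟨hF.d0, fun r hr => by rw [← hh r hr]; exact hF.d1 r hr⟩

theorem change (hF : FreeS r1 kap mu F F1 h) (mu' : ℂ) :
    FreeS r1 kap mu' F F1 (fun r => h r - (mu' - mu) * F r) :=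
  ⟨hF.d0, fun r hr => (hF.d1 r hr).congr_deriv (by ring)⟩

theorem of_free (hF : Free r1 kap mu F F1) : FreeS r1 kap mu F F1 (fun _ => 0) :=
  ⟨hF.d0, fun r hr => (hF.d1 r hr).congr_deriv (by ring)⟩

theorem free (hF : FreeS r1 kap mu F F1 h) (h0 : ∀ r, r1 < r → h r = 0) : Free r1 kap mu F F1 :=
  ⟨hF.d0, fun r hr => (hF.d1 r hr).congr_deriv (by rw [h0 r hr]; ring)⟩

theorem mono {r2 : ℝ} (h12 : r1 ≤ r2) (hF : FreeS r1 kap mu F F1 h) : FreeS r2 kap mu F F1 h :=
  ⟨fun r hr => hF.d0 r (lt_of_le_of_lt h12 hr), fun r hr => hF.d1 r (lt_of_le_of_lt h12 hr)⟩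

end FreeS

/-- the radial equation of a component -/
theorem freeS_comp {N l : ℕ} (hN : 2 ≤ N) {H : R12 → ℝ} (hH : SHarm l H) {mu : ℂ} {f h : R12 → ℂ}
    (hf : InX N f) (eq : ∀ y, I * lap f y - (1 / 2) * eul f y - mu * f y = h y) :
    FreeS 0 ((l : ℂ) * (l + 10)) mu (comp H f) (deriv (comp H f)) (comp H h) := by
  have hcd : ContDiff ℝ 2 f := (InX.contDiff hf).of_le (by exact_mod_cast hN)
  have hc1 : ContDiff ℝ 1 f := hcd.of_le (by norm_num)
  have hHc : Continuous H := hH.continuous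
  have hC : ContDiff ℝ 2 (comp H f) := by
    have := contDiff_comp hH (k := 2) (f := f) (by exact_mod_cast hcd)
    exact_mod_cast this
  have hC1 : ContDiff ℝ 1 (deriv (comp H f)) := by
    have h2 : ContDiff ℝ (1 + 1) (comp H f) := by
      have : ((1 : WithTop ℕ∞) + 1) = 2 := by norm_num
      rw [this]; exact hC
    exact (contDiff_succ_iff_deriv.1 h2).2.2
  refine ⟨fun r hr => ((hC.differentiable (by norm_num)) r).hasDerivAt, fun r hr => ?_⟩
  refine (((hC1.differentiable (by norm_num)) r).hasDerivAt).congr_deriv ?_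
  have hr' : (r : ℂ) ≠ 0 := by exact_mod_cast hr.ne'
  have e1 := comp_lap hH hcd hr
  have e2 := comp_eul hH hc1 r
  have e3 : comp H h r = I * comp H (lap f) r - (1 / 2) * comp H (eul f) r - mu * comp H f r := by
    have : h = fun y => (I * lap f y - (1 / 2) * eul f y) - mu * f y := by
      funext y; rw [← eq y]
    rw [this]
    have c1 : Continuous (fun y => I * lap f y) := continuous_const.mul (lap_cont hcd)
    have c2 : Continuous (fun y => (1 / 2) * eul f y) := continuous_const.mul (eul_cont hc1)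
    have c3 : Continuous (fun y => mu * f y) := continuous_const.mul hcd.continuous
    have e4 : comp H (fun y => (I * lap f y - (1 / 2) * eul f y) - mu * f y) r
        = comp H (fun y => I * lap f y - (1 / 2) * eul f y) r - comp H (fun y => mu * f y) r :=
      comp_sub hHc (c1.sub c2) c3 r
    rw [e4, comp_sub hHc c1 c2, SH.comp_const_mul, SH.comp_const_mul, SH.comp_const_mul]
  rw [e1, e2] at e3
  unfold rlap at e3
  rw [e3]
  have hI : I * I = -1 := I_mul_I
  field_simp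
  linear_combination ((deriv (deriv (comp H f)) r) * (r : ℂ) ^ 2 * 2 + 22 * (r : ℂ) * deriv (comp H f) r
    - 2 * (l : ℂ) * (l + 10) * comp H f r) * hI

theorem norm_comp_xn {N l : ℕ} (hN : 1 ≤ N) {H : R12 → ℝ} (hH : SHarm l H) {a f : R12 → ℂ}
    (h : Rep N a f) (r : ℝ) :
    ‖comp H f r‖ ≤ hm H * xn 1 a ∧ ‖deriv (comp H f) r‖ ≤ hm H * xn 1 a := by
  constructor
  · simpa using norm_comp_le hH h (j := 0) (m := 1) (by norm_num) hN r
  · have := norm_comp_le hH h (j := 1) (m := 1) le_rfl hN r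
    rwa [iteratedDeriv_one] at this

/-- `Z = (Φ(mus) - Φ(mu)) / (mus - mu)` -/
noncomputable def Zf (l : ℕ) (mu mus : ℂ) (r : ℝ) : ℂ := (Phi l mus r - Phi l mu r) / (mus - mu)
noncomputable def Zf1 (l : ℕ) (mu mus : ℂ) (r : ℝ) : ℂ := (Phi1 l mus r - Phi1 l mu r) / (mus - mu)

theorem freeS_Z {l : ℕ} {mu mus : ℂ} (hmu : 0 < mu.re) (hmus : 0 < mus.re) (hne : mus ≠ mu)
    {r1 : ℝ} (hr1 : 0 ≤ r1) :
    FreeS r1 ((l : ℂ) * (l + 10)) mu (Zf l mu mus) (Zf1 l mu mus) (Phi l mus) := by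
  have h1 := (FreeS.of_free (free_Phi (l := l) hmus hr1)).change mu
  have h2 := FreeS.of_free (free_Phi (l := l) hmu hr1)
  have h3 := (h1.add (h2.const_mul (-1))).const_mul ((mus - mu)⁻¹)
  have hne' : mus - mu ≠ 0 := sub_ne_zero.2 hne
  refine ⟨fun r hr => ?_, fun r hr => ?_⟩
  · have := h3.d0 r hr
    refine HasDerivAt.congr_deriv (f := Zf l mu mus) (this.congr_of_eventuallyEq ?_) ?_
    · filter_upwards with s
      unfold Zf; field_simp; ring
    · unfold Zf1; field_simp; ring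
  · have := h3.d1 r hr
    refine HasDerivAt.congr_deriv (f := Zf1 l mu mus) (this.congr_of_eventuallyEq ?_) ?_
    · filter_upwards with s
      unfold Zf1; field_simp; ring
    · unfold Zf Zf1; field_simp; ring

theorem BD_Z {l : ℕ} {mu mus : ℂ} (hmu : 0 < mu.re) (hmus : 0 < mus.re)
    {r1 : ℝ} (hr1 : 0 < r1) (k : ℕ) : BD r1 k (Zf l mu mus) := by
  have := ((BD_Phi (l := l) hmus hr1 k).sub (BD_Phi (l := l) hmu hr1 k)).const_mul ((mus - mu)⁻¹)
  exact this.congr (fun r _ => by unfold Zf; ring)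

/-- **Scalar exterior theorem.** -/
theorem ext_scalar (hR : ResEx 20) {l : ℕ} {H : R12 → ℝ} (hH : SHarm l H) {mu mus beta : ℂ}
    (hmu : 0 < mu.re) (hmus : 0 < mus.re) (hne : mus ≠ mu) {r2 : ℝ} (hr2 : 0 < r2)
    {f e hc ht kc kt b bt : R12 → ℂ} (hf : InX 20 f) (he : InX 20 e) (hb : Rep 20 b ht)
    (hbt : Rep 20 bt kt)
    (eqf : ∀ y, I * lap f y - (1 / 2) * eul f y - mu * f y = hc y + ht y + beta * e y)
    (eqe : ∀ y, I * lap e y - (1 / 2) * eul e y - mus * e y = kc y + kt y)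
    (hc0 : ∀ y, r2 ≤ ‖y‖ → hc y = 0) (kc0 : ∀ y, r2 ≤ ‖y‖ → kc y = 0) :
    ∃ c ga : ℂ, ∀ r, r2 < r →
      ‖comp H e r - ga * Phi l mus r‖ ≤ hm H * (xn 1 bt / mus.re) ∧
      ‖deriv (comp H e) r - ga * Phi1 l mus r‖ ≤ hm H * (xn 1 bt / mus.re) ∧
      ‖comp H f r - (c * Phi l mu r + beta * ga * Zf l mu mus r)‖
        ≤ hm H * (xn 1 b / mu.re + ‖beta‖ * (xn 1 bt / mus.re / mu.re)) ∧
      ‖deriv (comp H f) r - (c * Phi1 l mu r + beta * ga * Zf1 l mu mus r)‖
        ≤ hm H * (xn 1 b / mu.re + ‖beta‖ * (xn 1 bt / mus.re / mu.re)) := by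
  have hHc : Continuous H := hH.continuous
  have hm0 := hm_nonneg H
  obtain ⟨a1, k1, ra1, eq1, n1⟩ := hR mus hmus bt kt hbt
  obtain ⟨a2, g2, ra2, eq2, n2⟩ := hR mu hmu b ht hb
  obtain ⟨a3, g3, ra3, eq3, n3⟩ := hR mu hmu a1 k1 ra1
  have ce : Continuous e := (InX.contDiff he).continuous
  have ct : Continuous ht := (InX.contDiff ⟨b, hb⟩).continuous
  have ckt : Continuous kt := (InX.contDiff ⟨bt, hbt⟩).continuous
  have ck1 : Continuous k1 := (InX.contDiff ⟨a1, ra1⟩).continuous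
  -- radial functions
  have sph : ∀ {r : ℝ}, r2 < r → ∀ w : S11, r2 ≤ ‖r • (w : R12)‖ := by
    intro r hr w
    rw [norm_smul_w (hr2.trans hr).le w]; exact hr.le
  have SE := (freeS_comp (by norm_num) hH he eqe).mono hr2.le
  have SE' : FreeS r2 ((l : ℂ) * (l + 10)) mus (comp H e) (deriv (comp H e)) (comp H kt) := by
    refine SE.congr (fun r hr => comp_congr (fun w => ?_))
    rw [kc0 _ (sph hr w), zero_add]
  have SK := (freeS_comp (by norm_num) hH ⟨a1, ra1⟩ eq1).mono hr2.le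
  have SF := (freeS_comp (by norm_num) hH hf eqf).mono hr2.le
  have SF' : FreeS r2 ((l : ℂ) * (l + 10)) mu (comp H f) (deriv (comp H f))
      (fun r => comp H ht r + beta * comp H e r) := by
    refine SF.congr (fun r hr => ?_)
    have : comp H (fun y => hc y + ht y + beta * e y) r = comp H (fun y => ht y + beta * e y) r :=
      comp_congr (fun w => by rw [hc0 _ (sph hr w), zero_add])
    show comp H (fun y => hc y + ht y + beta * e y) r = _
    have e5 : comp H (fun y => ht y + beta * e y) r = comp H ht r + comp H (fun y => beta * e y) r :=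
      comp_add hHc ct (continuous_const.mul ce) r
    rw [this, e5, SH.comp_const_mul]
  have S2 := (freeS_comp (by norm_num) hH ⟨a2, ra2⟩ eq2).mono hr2.le
  have S3 := (freeS_comp (by norm_num) hH ⟨a3, ra3⟩ eq3).mono hr2.le
  have neg : ∀ (g : R12 → ℂ) (r : ℝ), comp H (fun y => -g y) r = -comp H g r := by
    intro g r
    have : (fun y => -g y) = fun y => (-1) * g y := by funext y; ring
    rw [this, SH.comp_const_mul]; ring
  -- `E0 = E + K1`
  have FE : Free r2 ((l : ℂ) * (l + 10)) mus (fun r => comp H e r + comp H k1 r)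
      (fun r => deriv (comp H e) r + deriv (comp H k1) r) := by
    refine (SE'.add SK).free (fun r _ => ?_)
    show comp H kt r + comp H (fun y => -kt y) r = 0
    rw [neg]; ring
  obtain ⟨ga, hga⟩ := out_unique hr2.le FE (free_Phi (l := l) hmus hr2.le)
    ((BD_comp hH he (by norm_num) r2).add (BD_comp hH ⟨a1, ra1⟩ (by norm_num) r2))
    (BD_Phi hmus hr2 13) (Phi_ne hmus r2)
  have FZ := (freeS_Z (l := l) hmu hmus hne hr2.le).const_mul (-(beta * ga))
  have FY : Free r2 ((l : ℂ) * (l + 10)) mu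
      (fun r => comp H f r + comp H g2 r + (-beta) * comp H g3 r + -(beta * ga) * Zf l mu mus r)
      (fun r => deriv (comp H f) r + deriv (comp H g2) r + (-beta) * deriv (comp H g3) r
        + -(beta * ga) * Zf1 l mu mus r) := by
    refine (((SF'.add S2).add (S3.const_mul (-beta))).add FZ).free (fun r hr => ?_)
    have h1 := (hga r hr).1
    show comp H ht r + beta * comp H e r + comp H (fun y => -ht y) r
      + -beta * comp H (fun y => -k1 y) r + -(beta * ga) * Phi l mus r = 0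
    rw [neg, neg]
    linear_combination beta * h1
  obtain ⟨c, hcc⟩ := out_unique hr2.le FY (free_Phi (l := l) hmu hr2.le)
    ((((BD_comp hH hf (by norm_num) r2).add (BD_comp hH ⟨a2, ra2⟩ (by norm_num) r2)).add
      ((BD_comp hH ⟨a3, ra3⟩ (by norm_num) r2).const_mul (-beta))).add
      ((BD_Z hmu hmus hr2 13).const_mul _))
    (BD_Phi hmu hr2 13) (Phi_ne hmu r2)
  have b1 := n1 1 (by norm_num)
  have b2 := n2 1 (by norm_num)
  have b3 := n3 1 (by norm_num)
  have b3' : xn 1 a3 ≤ xn 1 bt / mus.re / mu.re :=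
    b3.trans (div_le_div_of_nonneg_right b1 hmu.le)
  refine ⟨c, ga, fun r hr => ?_⟩
  obtain ⟨p1, q1⟩ := norm_comp_xn (by norm_num) hH ra1 r
  obtain ⟨p2, q2⟩ := norm_comp_xn (by norm_num) hH ra2 r
  obtain ⟨p3, q3⟩ := norm_comp_xn (by norm_num) hH ra3 r
  obtain ⟨u1, v1⟩ := hga r hr
  obtain ⟨u2, v2⟩ := hcc r hr
  have est : ∀ x y : ℂ, ‖x‖ ≤ hm H * xn 1 a2 → ‖y‖ ≤ hm H * xn 1 a3 →
      ‖-x + beta * y‖ ≤ hm H * (xn 1 b / mu.re + ‖beta‖ * (xn 1 bt / mus.re / mu.re)) := by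
    intro x y hx hy
    calc ‖-x + beta * y‖ ≤ ‖-x‖ + ‖beta * y‖ := norm_add_le _ _
      _ = ‖x‖ + ‖beta‖ * ‖y‖ := by rw [norm_neg, norm_mul]
      _ ≤ hm H * xn 1 a2 + ‖beta‖ * (hm H * xn 1 a3) := by gcongr
      _ ≤ hm H * (xn 1 b / mu.re) + ‖beta‖ * (hm H * (xn 1 bt / mus.re / mu.re)) := by gcongr
      _ = _ := by ring
  refine ⟨?_, ?_, ?_, ?_⟩
  · have : comp H e r - ga * Phi l mus r = -comp H k1 r := by linear_combination u1
    rw [this, norm_neg]
    exact p1.trans (mul_le_mul_of_nonneg_left b1 hm0)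
  · have : deriv (comp H e) r - ga * Phi1 l mus r = -deriv (comp H k1) r := by linear_combination v1
    rw [this, norm_neg]
    exact q1.trans (mul_le_mul_of_nonneg_left b1 hm0)
  · have : comp H f r - (c * Phi l mu r + beta * ga * Zf l mu mus r)
        = -comp H g2 r + beta * comp H g3 r := by linear_combination u2
    rw [this]
    exact est _ _ p2 p3
  · have : deriv (comp H f) r - (c * Phi1 l mu r + beta * ga * Zf1 l mu mus r)
        = -deriv (comp H g2) r + beta * deriv (comp H g3) r := by linear_combination v2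
    rw [this]
    exact est _ _ q2 q3

end Crest.Agent.R086.XExt
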