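import Crest.Agent.R086.SHX
import Crest.Agent.R086.SH2
import Crest.Agent.R086.XOut

/-!
Row 86 (S0114), node EXT (helper684), part 1: regularity of Fourier-`L¹` functions and of their
spherical components: `‖D^j f‖ ≤ ∫ ‖ξ‖^j ‖a‖`, `comp H f` has bounded derivatives.
-/

set_option autoImplicit false

open MeasureTheory Complex Set
open scoped ContDiff FourierTransform

namespace Crest.Agent.R086.XExt

open Crest.Agent.R086.SH Crest.Agent.R086.XOut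

theorem norm_iteratedFDeriv_le {N : ℕ} {a f : R12 → ℂ} (h : Rep N a f) {j : ℕ} (hj : j ≤ N)
    (y : R12) : ‖iteratedFDeriv ℝ j f y‖ ≤ ∫ ξ : R12, ‖ξ‖ ^ j * ‖a ξ‖ := by
  set g : R12 →L[ℝ] R12 := (-(2 * Real.pi)⁻¹ : ℝ) • ContinuousLinearMap.id ℝ R12 with hg
  have hfg : f = (𝓕 a) ∘ g := by
    funext y
    rw [Rep.eq_fourier h y]
    simp [hg]
  have hint : ∀ k : ℕ, ((k : ℕ∞) ≤ ((N : ℕ) : ℕ∞)) → Integrable (fun v : R12 => ‖v‖ ^ k * ‖a v‖) :=
    fun k hk => Rep.integrable_pow h (by exact_mod_cast hk)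
  have hcd : ContDiff ℝ ((N : ℕ∞) : ℕ∞ω) (𝓕 a) := Real.contDiff_fourier hint
  have hjN : ((j : ℕ) : ℕ∞ω) ≤ (((N : ℕ∞)) : ℕ∞ω) := by exact_mod_cast hj
  rw [hfg, g.iteratedFDeriv_comp_right hcd y hjN]
  refine (ContinuousMultilinearMap.norm_compContinuousLinearMap_le _ _).trans ?_
  have hgn : ‖g‖ ≤ (2 * Real.pi)⁻¹ := by
    rw [hg, norm_smul, Real.norm_eq_abs, abs_neg, abs_of_pos (by positivity)]
    exact mul_le_of_le_one_right (by positivity) ContinuousLinearMap.norm_id_le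
  have h1 : ‖iteratedFDeriv ℝ j (𝓕 a) (g y)‖ ≤ (2 * Real.pi) ^ j * ∫ ξ : R12, ‖ξ‖ ^ j * ‖a ξ‖ := by
    rw [Real.iteratedFDeriv_fourier (N := (N : ℕ∞)) hint (Rep.aestronglyMeasurable h)
      (by exact_mod_cast hj)]
    refine (VectorFourier.norm_fourierIntegral_le_integral_norm _ _ _ _ _).trans ?_
    rw [← integral_const_mul]
    refine integral_mono_of_nonneg (Filter.Eventually.of_forall fun v => norm_nonneg _)
      ((hint j (by exact_mod_cast hj)).const_mul _) (Filter.Eventually.of_forall fun v => ?_)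
    refine (VectorFourier.norm_fourierPowSMulRight_le _ a v j).trans ?_
    have h2 : (2 * Real.pi * ‖innerSL ℝ (E := R12)‖) ^ j ≤ (2 * Real.pi) ^ j := by
      refine pow_le_pow_left₀ (by positivity) ?_ j
      exact mul_le_of_le_one_right (by positivity) (norm_innerSL_le ℝ)
    calc (2 * Real.pi * ‖innerSL ℝ (E := R12)‖) ^ j * ‖v‖ ^ j * ‖a v‖
        ≤ (2 * Real.pi) ^ j * ‖v‖ ^ j * ‖a v‖ := by gcongr
      _ = (2 * Real.pi) ^ j * (‖v‖ ^ j * ‖a v‖) := by ring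
  have h3 : ∏ _i : Fin j, ‖g‖ ≤ ((2 * Real.pi)⁻¹) ^ j := by
    rw [Finset.prod_const, Finset.card_univ, Fintype.card_fin]
    exact pow_le_pow_left₀ (norm_nonneg _) hgn j
  have hI : 0 ≤ ∫ ξ : R12, ‖ξ‖ ^ j * ‖a ξ‖ := integral_nonneg fun ξ => by positivity
  calc ‖iteratedFDeriv ℝ j (𝓕 a) (g y)‖ * ∏ _i : Fin j, ‖g‖
      ≤ ((2 * Real.pi) ^ j * ∫ ξ : R12, ‖ξ‖ ^ j * ‖a ξ‖) * ((2 * Real.pi)⁻¹) ^ j := by gcongr
    _ = ∫ ξ : R12, ‖ξ‖ ^ j * ‖a ξ‖ := by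
        rw [mul_comm, ← mul_assoc, ← mul_pow, inv_mul_cancel₀ (by positivity), one_pow, one_mul]

/-- the weighted norm of a density -/
noncomputable def xn (N : ℕ) (a : R12 → ℂ) : ℝ := ∫ ξ : R12, (1 + ‖ξ‖) ^ N * ‖a ξ‖

theorem Rep.integrable_wt {N : ℕ} {a f : R12 → ℂ} (h : Rep N a f) {k : ℕ} (hk : k ≤ N) :
    Integrable (fun ξ : R12 => (1 + ‖ξ‖) ^ k * ‖a ξ‖) := by
  refine h.1.norm.mono' ?_ ?_
  · exact (((continuous_const.add continuous_norm).pow k).aestronglyMeasurable).mul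
      (Rep.aestronglyMeasurable h).norm
  · filter_upwards with ξ
    rw [Real.norm_of_nonneg (by positivity), norm_mul, Complex.norm_real,
      Real.norm_of_nonneg (by positivity)]
    refine mul_le_mul_of_nonneg_right ?_ (norm_nonneg _)
    exact pow_le_pow_right₀ (by linarith [norm_nonneg ξ]) hk

theorem xn_nonneg (N : ℕ) (a : R12 → ℂ) : 0 ≤ xn N a := integral_nonneg fun ξ => by positivity

theorem norm_iteratedFDeriv_le_xn {N : ℕ} {a f : R12 → ℂ} (h : Rep N a f) {j m : ℕ} (hj : j ≤ m)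
    (hm : m ≤ N) (y : R12) : ‖iteratedFDeriv ℝ j f y‖ ≤ xn m a := by
  refine (norm_iteratedFDeriv_le h (hj.trans hm) y).trans ?_
  refine integral_mono_of_nonneg (Filter.Eventually.of_forall fun v => by positivity)
    (Rep.integrable_wt h hm) (Filter.Eventually.of_forall fun v => ?_)
  show ‖v‖ ^ j * ‖a v‖ ≤ (1 + ‖v‖) ^ m * ‖a v‖
  have : ‖v‖ ^ j ≤ (1 + ‖v‖) ^ m :=
    (pow_le_pow_left₀ (norm_nonneg v) (by linarith) j).trans
      (pow_le_pow_right₀ (by linarith [norm_nonneg v]) hj)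
  gcongr

/-- `∫_S |H|` -/
noncomputable def hm (H : R12 → ℝ) : ℝ := ∫ w : S11, |H w| ∂sig

theorem hm_nonneg (H : R12 → ℝ) : 0 ≤ hm H := integral_nonneg fun _ => abs_nonneg _

theorem norm_comp_le {N l : ℕ} {H : R12 → ℝ} (hH : SHarm l H) {a f : R12 → ℂ} (h : Rep N a f)
    {j m : ℕ} (hj : j ≤ m) (hm' : m ≤ N) (r : ℝ) :
    ‖iteratedDeriv j (comp H f) r‖ ≤ hm H * xn m a := by
  have hcd : ContDiff ℝ N f := InX.contDiff ⟨a, h⟩
  have := norm_iteratedDeriv_comp_le hH hcd (hj.trans hm') (r := r)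
    (fun y _ => norm_iteratedFDeriv_le_xn h hj hm' y)
  rw [mul_comm]
  exact this

theorem BD_comp {l : ℕ} {H : R12 → ℝ} (hH : SHarm l H) {f : R12 → ℂ} {N : ℕ} (h : InX N f)
    {k : ℕ} (hk : k ≤ N) (r1 : ℝ) : BD r1 k (comp H f) := by
  obtain ⟨a, ha⟩ := h
  refine BD_of_iteratedDeriv ?_ (fun j hj => ⟨hm H * xn k a, fun r _ => norm_comp_le hH ha hj hk r⟩)
  exact (contDiff_comp hH (InX.contDiff ⟨a, ha⟩)).of_le (by exact_mod_cast hk)

end Crest.Agent.R086.XExt
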